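import Vale.Agent.Lib.P062.Data.c10_lines
import Vale.Agent.Lib.P062.Data.c10_l0_0
import Vale.Agent.Lib.P062.Data.c10_l0_1
import Vale.Agent.Lib.P062.Data.c10_l0_2
import Vale.Agent.Lib.P062.Data.c10_l0_3

namespace Vale.Agent.Lib.P062.Data
noncomputable def c10_d68 : Cert := (B (M (nat_lit 521) (B (M (nat_lit 553) (B (M (nat_lit 554) (B (L (nat_lit 586) ln9_14_4 ln9_14_4_ok) (L (nat_lit 522) ln9_13_4 ln9_13_4_ok))) (M (nat_lit 552) (B (L (nat_lit 584) ln9_14_5 ln9_14_5_ok) (L (nat_lit 520) ln9_13_5_c10 ln9_13_5_c10_ok))))) (B (M (nat_lit 393) (B (M (nat_lit 520) (B (L (nat_lit 552) ln9_13_5_c10 ln9_13_5_c10_ok) (L (nat_lit 488) ln9_12_5_c10 ln9_12_5_c10_ok))) (M (nat_lit 394) (B (L (nat_lit 426) ln9_16_6 ln9_16_6_ok) (L (nat_lit 362) ln9_15_6 ln9_15_6_ok))))) (B (M (nat_lit 488) (B (M (nat_lit 394) (B (L (nat_lit 426) ln9_16_6 ln9_16_6_ok) (M (nat_lit 393) (B (L (nat_lit 520) ln9_12_5_c10 ln9_12_5_c10_ok)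 (L (nat_lit 362) ln9_15_6 ln9_15_6_ok))))) (M (nat_lit 553) (B (M (nat_lit 554) (B (L (nat_lit 586) ln9_14_4 ln9_14_4_ok) (L (nat_lit 522) ln9_13_4 ln9_13_4_ok))) (M (nat_lit 456) (B (L (nat_lit 585) ln9_18_7_c10 ln9_18_7_c10_ok) (L (nat_lit 424) ln9_17_7_c10 ln9_17_7_c10_ok))))))) (M (nat_lit 553) (B (M (nat_lit 554) (B (L (nat_lit 586) ln9_14_4 ln9_14_4_ok) (L (nat_lit 522) ln9_13_4 ln9_13_4_ok))) (M (nat_lit 585) (B (M (nat_lit 584) (B (L (nat_lit 616) ln9_15_5 ln9_15_5_ok) (L (nat_lit 552) ln9_14_5 ln9_14_5_ok))) (M (nat_lit 456) (B (L (nat_lit 488) ln9_18_7_c10 ln9_18_7_c10_ok) (L (nat_lit 424) ln9_17_7_c10 ln9_17_7_c10_ok))))))))))) (B (M (nat_lit 393) (B (M (nat_lit 361) (B (M (nat_lit 488) (B (L (nat_lit 520) ln9_12_5_c10 ln9_12_5_c10_ok) (L (nat_lit 456) ln9_11_5_c10 ln9_11_5_c10_ok))) (M (nat_lit 360) (B (L (nat_lit 392) ln9_15_7 ln9_15_7_ok) (L (nat_lit 328) ln9_14_7_c10 ln9_14_7_c10_ok)))))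 (B (M (nat_lit 361) (B (M (nat_lit 360) (B (L (nat_lit 392) ln9_15_7 ln9_15_7_ok) (L (nat_lit 328) ln9_14_7_c10 ln9_14_7_c10_ok))) (M (nat_lit 362) (B (L (nat_lit 394) ln9_15_6 ln9_15_6_ok) (L (nat_lit 330) ln9_14_6_c10 ln9_14_6_c10_ok))))) (B (M (nat_lit 361) (B (M (nat_lit 488) (B (L (nat_lit 520) ln9_12_5_c10 ln9_12_5_c10_ok) (L (nat_lit 456) ln9_11_5_c10 ln9_11_5_c10_ok))) (M (nat_lit 362) (B (L (nat_lit 394) ln9_15_6 ln9_15_6_ok) (L (nat_lit 330) ln9_14_6_c10 ln9_14_6_c10_ok))))) (M (nat_lit 521) (B (M (nat_lit 392) (B (L (nat_lit 424) ln9_16_7 ln9_16_7_ok) (L (nat_lit 360) ln9_15_7 ln9_15_7_ok))) (M (nat_lit 394) (B (L (nat_lit 426) ln9_16_6 ln9_16_6_ok) (L (nat_lit 362) ln9_15_6 ln9_15_6_ok))))))))) (B (M (nat_lit 521) (B (M (nat_lit 426) (B (L (nat_lit 394) ln9_16_6 ln9_16_6_ok) (L (nat_lit 424) ln8_13_0 ln8_13_0_ok))) (M (nat_lit 553) (B (M (nat_lit 552) (B (L (nat_lit 520) ln9_13_5_c10 ln9_13_5_c10_ok)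 (L (nat_lit 584) ln9_14_5 ln9_14_5_ok))) (M (nat_lit 554) (B (L (nat_lit 522) ln9_13_4 ln9_13_4_ok) (L (nat_lit 586) ln9_14_4 ln9_14_4_ok))))))) (B (M (nat_lit 393) (B (M (nat_lit 360) (B (L (nat_lit 392) ln9_15_7 ln9_15_7_ok) (M (nat_lit 361) (B (L (nat_lit 328) ln9_14_7_c10 ln9_14_7_c10_ok) (M (nat_lit 362) (B (L (nat_lit 330) ln9_14_6_c10 ln9_14_6_c10_ok) (L (nat_lit 394) ln9_15_6 ln9_15_6_ok))))))) (B (M (nat_lit 361) (B (M (nat_lit 362) (B (L (nat_lit 330) ln9_14_6_c10 ln9_14_6_c10_ok) (L (nat_lit 394) ln9_15_6 ln9_15_6_ok))) (M (nat_lit 488) (B (L (nat_lit 456) ln9_11_5_c10 ln9_11_5_c10_ok) (L (nat_lit 520) ln9_12_5_c10 ln9_12_5_c10_ok))))) (B (M (nat_lit 361) (B (M (nat_lit 488) (B (L (nat_lit 520) ln9_12_5_c10 ln9_12_5_c10_ok) (L (nat_lit 456) ln9_11_5_c10 ln9_11_5_c10_ok))) (M (nat_lit 360) (B (L (nat_lit 392) ln9_15_7 ln9_15_7_ok) (L (nat_lit 328) ln9_14_7_c10 ln9_14_7_c10_ok))))) (M (nat_lit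 426) (B (M (nat_lit 392) (B (L (nat_lit 360) ln9_15_7 ln9_15_7_ok) (L (nat_lit 424) ln8_13_0 ln8_13_0_ok))) (B (M (nat_lit 392) (B (L (nat_lit 360) ln9_15_7 ln9_15_7_ok) (M (nat_lit 394) (B (L (nat_lit 362) ln9_15_6 ln9_15_6_ok) (L (nat_lit 391) ln7_12_0_c10 ln7_12_0_c10_ok))))) (L (nat_lit 424) ln8_13_0 ln8_13_0_ok)))))))) (M (nat_lit 393) (B (M (nat_lit 360) (B (L (nat_lit 392) ln9_15_7 ln9_15_7_ok) (M (nat_lit 361) (B (L (nat_lit 328) ln9_14_7_c10 ln9_14_7_c10_ok) (M (nat_lit 362) (B (L (nat_lit 330) ln9_14_6_c10 ln9_14_6_c10_ok) (L (nat_lit 394) ln9_15_6 ln9_15_6_ok))))))) (B (M (nat_lit 521) (B (M (nat_lit 392) (B (L (nat_lit 360) ln9_15_7 ln9_15_7_ok) (L (nat_lit 424) ln9_16_7 ln9_16_7_ok))) (M (nat_lit 394) (B (L (nat_lit 362) ln9_15_6 ln9_15_6_ok) (L (nat_lit 426) ln9_16_6 ln9_16_6_ok))))) (B (M (nat_lit 361) (B (M (nat_lit 362) (B (L (nat_lit 394) ln9_15_6 ln9_15_6_ok) (L (nat_lit 330) ln9_14_6_c10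 ln9_14_6_c10_ok))) (M (nat_lit 329) (B (M (nat_lit 456) (B (L (nat_lit 488) ln9_11_5_c10 ln9_11_5_c10_ok) (L (nat_lit 424) ln9_10_5_c10 ln9_10_5_c10_ok))) (M (nat_lit 328) (B (L (nat_lit 360) ln9_14_7_c10 ln9_14_7_c10_ok) (L (nat_lit 296) ln9_13_7_c10 ln9_13_7_c10_ok))))))) (B (M (nat_lit 361) (B (M (nat_lit 362) (B (L (nat_lit 330) ln9_14_6_c10 ln9_14_6_c10_ok) (L (nat_lit 394) ln9_15_6 ln9_15_6_ok))) (B (M (nat_lit 329) (B (M (nat_lit 456) (B (L (nat_lit 424) ln9_10_5_c10 ln9_10_5_c10_ok) (L (nat_lit 488) ln9_11_5_c10 ln9_11_5_c10_ok))) (M (nat_lit 297) (B (M (nat_lit 296) (B (L (nat_lit 264) ln9_12_7_c10 ln9_12_7_c10_ok) (L (nat_lit 328) ln9_13_7_c10 ln9_13_7_c10_ok))) (M (nat_lit 394) (B (L (nat_lit 426) ln9_9_4_c10 ln9_9_4_c10_ok) (L (nat_lit 362) ln9_15_6 ln9_15_6_ok))))))) (M (nat_lit 329) (B (M (nat_lit 456) (B (L (nat_lit 424) ln9_10_5_c10 ln9_10_5_c10_ok) (L (nat_lit 488) ln9_11_5_c10 ln9_11_5_c10_ok)))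 (M (nat_lit 297) (B (M (nat_lit 298) (B (L (nat_lit 266) ln9_12_6_c10 ln9_12_6_c10_ok) (L (nat_lit 330) ln9_13_6_c10 ln9_13_6_c10_ok))) (M (nat_lit 296) (B (L (nat_lit 264) ln9_12_7_c10 ln9_12_7_c10_ok) (L (nat_lit 328) ln9_13_7_c10 ln9_13_7_c10_ok)))))))))) (B (M (nat_lit 361) (B (M (nat_lit 360) (B (L (nat_lit 328) ln9_14_7_c10 ln9_14_7_c10_ok) (L (nat_lit 392) ln9_15_7 ln9_15_7_ok))) (M (nat_lit 329) (B (M (nat_lit 330) (B (L (nat_lit 298) ln9_13_6_c10 ln9_13_6_c10_ok) (L (nat_lit 362) ln9_14_6_c10 ln9_14_6_c10_ok))) (M (nat_lit 456) (B (L (nat_lit 424) ln9_10_5_c10 ln9_10_5_c10_ok) (L (nat_lit 488) ln9_11_5_c10 ln9_11_5_c10_ok))))))) (M (nat_lit 361) (B (M (nat_lit 360) (B (L (nat_lit 392) ln9_15_7 ln9_15_7_ok) (L (nat_lit 328) ln9_14_7_c10 ln9_14_7_c10_ok))) (B (M (nat_lit 329) (B (M (nat_lit 456) (B (L (nat_lit 488) ln9_11_5_c10 ln9_11_5_c10_ok) (L (nat_lit 424) ln9_10_5_c10 ln9_10_5_c10_ok)))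 (M (nat_lit 328) (B (L (nat_lit 360) ln9_14_7_c10 ln9_14_7_c10_ok) (L (nat_lit 296) ln9_13_7_c10 ln9_13_7_c10_ok))))) (M (nat_lit 456) (B (L (nat_lit 488) ln9_11_5_c10 ln9_11_5_c10_ok) (M (nat_lit 424) (B (L (nat_lit 329) ln9_10_5_c10 ln9_10_5_c10_ok) (M (nat_lit 521) (B (L (nat_lit 553) ln9_17_7_c10 ln9_17_7_c10_ok) (L (nat_lit 392) ln9_16_7 ln9_16_7_ok))))))))))))))))))))
noncomputable def c10_d69 : Cert := (B (M (nat_lit 425) (B (M (nat_lit 521) (B (M (nat_lit 392) (B (L (nat_lit 424) ln9_16_7 ln9_16_7_ok) (M (nat_lit 393) (B (L (nat_lit 360) ln9_15_7 ln9_15_7_ok) (M (nat_lit 394) (B (L (nat_lit 362) ln9_15_6 ln9_15_6_ok) (L (nat_lit 426) ln9_16_6 ln9_16_6_ok))))))) (M (nat_lit 552) (B (L (nat_lit 520) ln9_13_5_c10 ln9_13_5_c10_ok) (M (nat_lit 553) (B (L (nat_lit 584) ln9_14_5 ln9_14_5_ok) (M (nat_lit 554) (B (L (nat_lit 522) ln9_13_4 ln9_13_4_ok) (L (nat_lit 586) ln9_14_4 ln9_14_4_ok))))))))) (B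 (M (nat_lit 521) (B (M (nat_lit 393) (B (M (nat_lit 394) (B (L (nat_lit 362) ln9_15_6 ln9_15_6_ok) (L (nat_lit 426) ln9_16_6 ln9_16_6_ok))) (M (nat_lit 520) (B (L (nat_lit 488) ln9_12_5_c10 ln9_12_5_c10_ok) (L (nat_lit 552) ln9_13_5_c10 ln9_13_5_c10_ok))))) (M (nat_lit 553) (B (M (nat_lit 424) (B (L (nat_lit 392) ln9_16_7 ln9_16_7_ok) (L (nat_lit 456) ln9_17_7_c10 ln9_17_7_c10_ok))) (M (nat_lit 554) (B (L (nat_lit 522) ln9_13_4 ln9_13_4_ok) (L (nat_lit 586) ln9_14_4 ln9_14_4_ok))))))) (B (M (nat_lit 393) (B (M (nat_lit 362) (B (L (nat_lit 394) ln9_15_6 ln9_15_6_ok) (M (nat_lit 361) (B (L (nat_lit 330) ln9_14_6_c10 ln9_14_6_c10_ok) (M (nat_lit 360) (B (L (nat_lit 392) ln9_15_7 ln9_15_7_ok) (L (nat_lit 328) ln9_14_7_c10 ln9_14_7_c10_ok))))))) (B (M (nat_lit 361) (B (M (nat_lit 488) (B (L (nat_lit 520) ln9_12_5_c10 ln9_12_5_c10_ok) (L (nat_lit 456) ln9_11_5_c10 ln9_11_5_c10_ok))) (M (nat_lit 360) (B (L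 (nat_lit 392) ln9_15_7 ln9_15_7_ok) (L (nat_lit 328) ln9_14_7_c10 ln9_14_7_c10_ok))))) (B (M (nat_lit 361) (B (M (nat_lit 488) (B (L (nat_lit 520) ln9_12_5_c10 ln9_12_5_c10_ok) (L (nat_lit 456) ln9_11_5_c10 ln9_11_5_c10_ok))) (M (nat_lit 362) (B (L (nat_lit 394) ln9_15_6 ln9_15_6_ok) (L (nat_lit 330) ln9_14_6_c10 ln9_14_6_c10_ok))))) (M (nat_lit 521) (B (M (nat_lit 520) (B (L (nat_lit 552) ln9_13_5_c10 ln9_13_5_c10_ok) (L (nat_lit 488) ln9_12_5_c10 ln9_12_5_c10_ok))) (M (nat_lit 394) (B (L (nat_lit 426) ln9_16_6 ln9_16_6_ok) (L (nat_lit 362) ln9_15_6 ln9_15_6_ok))))))))) (B (M (nat_lit 393) (B (M (nat_lit 361) (B (M (nat_lit 488) (B (L (nat_lit 520) ln9_12_5_c10 ln9_12_5_c10_ok) (L (nat_lit 456) ln9_11_5_c10 ln9_11_5_c10_ok))) (M (nat_lit 362) (B (L (nat_lit 394) ln9_15_6 ln9_15_6_ok) (L (nat_lit 330) ln9_14_6_c10 ln9_14_6_c10_ok))))) (B (M (nat_lit 360) (B (L (nat_lit 392) ln9_15_7 ln9_15_7_ok) (M (nat_lit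 361) (B (L (nat_lit 328) ln9_14_7_c10 ln9_14_7_c10_ok) (M (nat_lit 362) (B (L (nat_lit 394) ln9_15_6 ln9_15_6_ok) (L (nat_lit 330) ln9_14_6_c10 ln9_14_6_c10_ok))))))) (B (M (nat_lit 361) (B (M (nat_lit 488) (B (L (nat_lit 520) ln9_12_5_c10 ln9_12_5_c10_ok) (L (nat_lit 456) ln9_11_5_c10 ln9_11_5_c10_ok))) (M (nat_lit 360) (B (L (nat_lit 392) ln9_15_7 ln9_15_7_ok) (L (nat_lit 328) ln9_14_7_c10 ln9_14_7_c10_ok))))) (M (nat_lit 521) (B (M (nat_lit 520) (B (L (nat_lit 552) ln9_13_5_c10 ln9_13_5_c10_ok) (L (nat_lit 488) ln9_12_5_c10 ln9_12_5_c10_ok))) (M (nat_lit 392) (B (L (nat_lit 424) ln9_16_7 ln9_16_7_ok) (L (nat_lit 360) ln9_15_7 ln9_15_7_ok))))))))) (B (M (nat_lit 521) (B (M (nat_lit 553) (B (M (nat_lit 424) (B (L (nat_lit 392) ln9_16_7 ln9_16_7_ok) (L (nat_lit 456) ln9_17_7_c10 ln9_17_7_c10_ok))) (M (nat_lit 554) (B (L (nat_lit 522) ln9_13_4 ln9_13_4_ok) (L (nat_lit 586) ln9_14_4 ln9_14_4_ok))))) (B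 (M (nat_lit 552) (B (L (nat_lit 520) ln9_13_5_c10 ln9_13_5_c10_ok) (M (nat_lit 553) (B (L (nat_lit 584) ln9_14_5 ln9_14_5_ok) (M (nat_lit 554) (B (L (nat_lit 522) ln9_13_4 ln9_13_4_ok) (L (nat_lit 586) ln9_14_4 ln9_14_4_ok))))))) (B (M (nat_lit 553) (B (M (nat_lit 424) (B (L (nat_lit 392) ln9_16_7 ln9_16_7_ok) (L (nat_lit 456) ln9_17_7_c10 ln9_17_7_c10_ok))) (M (nat_lit 552) (B (L (nat_lit 520) ln9_13_5_c10 ln9_13_5_c10_ok) (L (nat_lit 584) ln9_14_5 ln9_14_5_ok))))) (M (nat_lit 393) (B (M (nat_lit 392) (B (L (nat_lit 360) ln9_15_7 ln9_15_7_ok) (L (nat_lit 424) ln9_16_7 ln9_16_7_ok))) (M (nat_lit 520) (B (L (nat_lit 488) ln9_12_5_c10 ln9_12_5_c10_ok) (L (nat_lit 552) ln9_13_5_c10 ln9_13_5_c10_ok))))))))) c10_d68)))))) (B (M (nat_lit 425) (B (M (nat_lit 426) (B (L (nat_lit 458) ln13_14_3 ln13_14_3_ok) (M (nat_lit 394) (B (L (nat_lit 521) ln9_16_6 ln9_16_6_ok) (M (nat_lit 362) (B (L (nat_lit 330) ln10_10_4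 ln10_10_4_ok) (L (nat_lit 393) ln9_15_6 ln9_15_6_ok))))))) (B (M (nat_lit 458) (B (L (nat_lit 424) ln12_14_3 ln12_14_3_ok) (L (nat_lit 426) ln13_14_3 ln13_14_3_ok))) (B (M (nat_lit 424) (B (L (nat_lit 458) ln12_14_3 ln12_14_3_ok) (M (nat_lit 392) (B (L (nat_lit 521) ln9_16_7 ln9_16_7_ok) (M (nat_lit 360) (B (L (nat_lit 393) ln9_15_7 ln9_15_7_ok) (L (nat_lit 456) ln8_11_4_c10 ln8_11_4_c10_ok))))))) (M (nat_lit 521) (B (M (nat_lit 394) (B (L (nat_lit 426) ln9_16_6 ln9_16_6_ok) (M (nat_lit 393) (B (L (nat_lit 362) ln9_15_6 ln9_15_6_ok) (M (nat_lit 392) (B (L (nat_lit 360) ln9_15_7 ln9_15_7_ok) (L (nat_lit 424) ln9_16_7 ln9_16_7_ok))))))) (M (nat_lit 554) (B (L (nat_lit 522) ln9_13_4 ln9_13_4_ok) (M (nat_lit 553) (B (L (nat_lit 586) ln9_14_4 ln9_14_4_ok) (M (nat_lit 552) (B (L (nat_lit 520) ln9_13_5_c10 ln9_13_5_c10_ok) (L (nat_lit 584) ln9_14_5 ln9_14_5_ok))))))))))))) (B (M (nat_lit 425) (B (M (nat_lit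 458) (B (L (nat_lit 488) ln12_14_1 ln12_14_1_ok) (L (nat_lit 424) ln12_14_3 ln12_14_3_ok))) (B (M (nat_lit 521) (B (M (nat_lit 553) (B (M (nat_lit 554) (B (L (nat_lit 586) ln9_14_4 ln9_14_4_ok) (L (nat_lit 522) ln9_13_4 ln9_13_4_ok))) (M (nat_lit 424) (B (L (nat_lit 456) ln9_17_7_c10 ln9_17_7_c10_ok) (L (nat_lit 392) ln9_16_7 ln9_16_7_ok))))) (B (M (nat_lit 553) (B (M (nat_lit 552) (B (L (nat_lit 584) ln9_14_5 ln9_14_5_ok) (L (nat_lit 520) ln9_13_5_c10 ln9_13_5_c10_ok))) (M (nat_lit 424) (B (L (nat_lit 456) ln9_17_7_c10 ln9_17_7_c10_ok) (L (nat_lit 392) ln9_16_7 ln9_16_7_ok))))) (B (M (nat_lit 393) (B (M (nat_lit 520) (B (L (nat_lit 552) ln9_13_5_c10 ln9_13_5_c10_ok) (L (nat_lit 488) ln9_12_5_c10 ln9_12_5_c10_ok))) (M (nat_lit 392) (B (L (nat_lit 424) ln9_16_7 ln9_16_7_ok) (L (nat_lit 360) ln9_15_7 ln9_15_7_ok))))) (M (nat_lit 553) (B (M (nat_lit 554) (B (L (nat_lit 586) ln9_14_4 ln9_14_4_ok) (L (nat_lit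 522) ln9_13_4 ln9_13_4_ok))) (M (nat_lit 552) (B (L (nat_lit 584) ln9_14_5 ln9_14_5_ok) (L (nat_lit 520) ln9_13_5_c10 ln9_13_5_c10_ok))))))))) (B (M (nat_lit 424) (B (L (nat_lit 458) ln12_14_3 ln12_14_3_ok) (M (nat_lit 392) (B (L (nat_lit 521) ln9_16_7 ln9_16_7_ok) (M (nat_lit 360) (B (L (nat_lit 393) ln9_15_7 ln9_15_7_ok) (L (nat_lit 456) ln8_11_4_c10 ln8_11_4_c10_ok))))))) (M (nat_lit 488) (B (L (nat_lit 458) ln12_14_1 ln12_14_1_ok) (M (nat_lit 520) (B (L (nat_lit 393) ln9_12_5_c10 ln9_12_5_c10_ok) (M (nat_lit 552) (B (L (nat_lit 521) ln9_13_5_c10 ln9_13_5_c10_ok) (L (nat_lit 584) ln8_18_6_c10 ln8_18_6_c10_ok))))))))))) (B (M (nat_lit 458) (B (M (nat_lit 456) (B (M (nat_lit 455) (B (L (nat_lit 426) ln7_14_2 ln7_14_2_ok) (M (nat_lit 454) (B (M (nat_lit 486) (B (L (nat_lit 487) ln10_14_1_c10 ln10_14_1_c10_ok) (L (nat_lit 485) ln9_14_1_c10 ln9_14_1_c10_ok))) (M (nat_lit 422) (B (L (nat_lit 423) ln10_14_3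 ln10_14_3_ok) (L (nat_lit 421) ln9_14_3_c10 ln9_14_3_c10_ok))))))) (L (nat_lit 492) ln8_14_0 ln8_14_0_ok))) (L (nat_lit 488) ln12_14_1 ln12_14_1_ok))) (M (nat_lit 458) (B (M (nat_lit 425) (B (L (nat_lit 426) ln13_14_3 ln13_14_3_ok) (L (nat_lit 424) ln12_14_3 ln12_14_3_ok))) (L (nat_lit 488) ln12_14_1 ln12_14_1_ok)))))))
noncomputable def c10_d70 : Cert := (B (M (nat_lit 460) (B (M (nat_lit 523) (B (M (nat_lit 555) (B (M (nat_lit 524) (B (M (nat_lit 490) (B (M (nat_lit 587) (B (M (nat_lit 619) (B (L (nat_lit 522) ln11_19_7 ln11_19_7_ok) (M (nat_lit 651) (B (M (nat_lit 652) (B (L (nat_lit 620) ln11_16_4 ln11_16_4_ok) (L (nat_lit 684) ln11_17_4_c10 ln11_17_4_c10_ok))) (M (nat_lit 650) (B (L (nat_lit 618) ln11_16_5 ln11_16_5_ok) (L (nat_lit 682) ln11_17_5_c10 ln11_17_5_c10_ok))))))) (L (nat_lit 492) ln11_18_6 ln11_18_6_ok))) (B (M (nat_lit 489) (B (M (nat_lit 525) (B (L (nat_lit 522) ln13_16_3 ln13_16_3_ok)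 (L (nat_lit 526) ln14_16_3 ln14_16_3_ok))) (L (nat_lit 488) ln8_15_0 ln8_15_0_ok))) (M (nat_lit 492) (B (L (nat_lit 587) ln11_18_6 ln11_18_6_ok) (L (nat_lit 489) ln9_15_2 ln9_15_2_ok)))))) (L (nat_lit 556) ln11_13_4 ln11_13_4_ok))) (B (M (nat_lit 587) (B (L (nat_lit 492) ln11_18_6 ln11_18_6_ok) (M (nat_lit 619) (B (M (nat_lit 618) (B (L (nat_lit 586) ln11_15_5 ln11_15_5_ok) (L (nat_lit 650) ln11_16_5 ln11_16_5_ok))) (M (nat_lit 620) (B (L (nat_lit 588) ln11_15_4 ln11_15_4_ok) (L (nat_lit 652) ln11_16_4 ln11_16_4_ok))))))) (M (nat_lit 556) (B (L (nat_lit 524) ln11_13_4 ln11_13_4_ok) (L (nat_lit 588) ln11_14_4 ln11_14_4_ok)))))) (B (M (nat_lit 524) (B (M (nat_lit 522) (B (M (nat_lit 489) (B (M (nat_lit 488) (B (L (nat_lit 521) ln12_16_3 ln12_16_3_ok) (L (nat_lit 490) ln8_15_0 ln8_15_0_ok))) (B (M (nat_lit 490) (B (L (nat_lit 525) ln13_16_3 ln13_16_3_ok) (L (nat_lit 492) ln9_15_2 ln9_15_2_ok))) (M (nat_lit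 521) (B (L (nat_lit 488) ln12_16_3 ln12_16_3_ok) (M (nat_lit 552) (B (L (nat_lit 553) ln12_16_1 ln12_16_1_ok) (M (nat_lit 520) (B (L (nat_lit 551) ln11_16_1 ln11_16_1_ok) (L (nat_lit 492) ln8_16_2 ln8_16_2_ok)))))))))) (L (nat_lit 554) ln11_13_5 ln11_13_5_ok))) (L (nat_lit 556) ln11_13_4 ln11_13_4_ok))) (B (M (nat_lit 555) (B (M (nat_lit 554) (B (L (nat_lit 586) ln11_14_5 ln11_14_5_ok) (L (nat_lit 522) ln11_13_5 ln11_13_5_ok))) (B (M (nat_lit 587) (B (L (nat_lit 492) ln11_18_6 ln11_18_6_ok) (M (nat_lit 619) (B (M (nat_lit 522) (B (L (nat_lit 554) ln11_13_5 ln11_13_5_ok) (L (nat_lit 490) ln11_19_7 ln11_19_7_ok))) (M (nat_lit 620) (B (L (nat_lit 652) ln11_16_4 ln11_16_4_ok) (L (nat_lit 588) ln11_15_4 ln11_15_4_ok))))))) (M (nat_lit 587) (B (L (nat_lit 492) ln11_18_6 ln11_18_6_ok) (M (nat_lit 619) (B (M (nat_lit 618) (B (L (nat_lit 650) ln11_16_5 ln11_16_5_ok) (L (nat_lit 586) ln11_15_5 ln11_15_5_ok)))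 (M (nat_lit 620) (B (L (nat_lit 652) ln11_16_4 ln11_16_4_ok) (L (nat_lit 588) ln11_15_4 ln11_15_4_ok)))))))))) (B (M (nat_lit 555) (B (M (nat_lit 556) (B (L (nat_lit 524) ln11_13_4 ln11_13_4_ok) (L (nat_lit 588) ln11_14_4 ln11_14_4_ok))) (M (nat_lit 586) (B (L (nat_lit 554) ln11_14_5 ln11_14_5_ok) (M (nat_lit 587) (B (L (nat_lit 618) ln11_15_5 ln11_15_5_ok) (L (nat_lit 492) ln11_18_6 ln11_18_6_ok))))))) (M (nat_lit 555) (B (M (nat_lit 554) (B (L (nat_lit 586) ln11_14_5 ln11_14_5_ok) (L (nat_lit 522) ln11_13_5 ln11_13_5_ok))) (M (nat_lit 556) (B (L (nat_lit 524) ln11_13_4 ln11_13_4_ok) (L (nat_lit 588) ln11_14_4 ln11_14_4_ok)))))))))) (B (M (nat_lit 523) (B (M (nat_lit 426) (B (L (nat_lit 394) ln11_16_7 ln11_16_7_ok) (L (nat_lit 462) ln14_14_3 ln14_14_3_ok))) (M (nat_lit 555) (B (M (nat_lit 554) (B (L (nat_lit 586) ln11_14_5 ln11_14_5_ok) (L (nat_lit 522) ln11_13_5 ln11_13_5_ok))) (M (nat_lit 556) (B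 (L (nat_lit 588) ln11_14_4 ln11_14_4_ok) (L (nat_lit 524) ln11_13_4 ln11_13_4_ok))))))) (M (nat_lit 462) (B (L (nat_lit 490) ln14_14_1 ln14_14_1_ok) (L (nat_lit 426) ln14_14_3 ln14_14_3_ok)))))) (B (M (nat_lit 523) (B (M (nat_lit 554) (B (L (nat_lit 522) ln11_13_5 ln11_13_5_ok) (M (nat_lit 555) (B (L (nat_lit 586) ln11_14_5 ln11_14_5_ok) (M (nat_lit 556) (B (L (nat_lit 588) ln11_14_4 ln11_14_4_ok) (L (nat_lit 524) ln11_13_4 ln11_13_4_ok))))))) (B (M (nat_lit 555) (B (M (nat_lit 554) (B (L (nat_lit 586) ln11_14_5 ln11_14_5_ok) (L (nat_lit 522) ln11_13_5 ln11_13_5_ok))) (M (nat_lit 426) (B (L (nat_lit 458) ln11_17_7 ln11_17_7_ok) (L (nat_lit 394) ln11_16_7 ln11_16_7_ok))))) (B (M (nat_lit 522) (B (L (nat_lit 554) ln11_13_5 ln11_13_5_ok) (M (nat_lit 521) (B (M (nat_lit 520) (B (L (nat_lit 492) ln8_16_2 ln8_16_2_ok) (M (nat_lit 519) (B (L (nat_lit 490) ln7_16_2 ln7_16_2_ok) (M (nat_lit 551) (B (L (nat_lit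 552) ln11_16_1 ln11_16_1_ok) (L (nat_lit 550) ln10_16_1_c10 ln10_16_1_c10_ok))))))) (B (M (nat_lit 520) (B (M (nat_lit 524) (B (L (nat_lit 556) ln11_13_4 ln11_13_4_ok) (M (nat_lit 552) (B (L (nat_lit 553) ln12_16_1 ln12_16_1_ok) (L (nat_lit 551) ln11_16_1 ln11_16_1_ok))))) (B (M (nat_lit 519) (B (L (nat_lit 490) ln7_16_2 ln7_16_2_ok) (M (nat_lit 551) (B (L (nat_lit 552) ln11_16_1 ln11_16_1_ok) (L (nat_lit 550) ln10_16_1_c10 ln10_16_1_c10_ok))))) (M (nat_lit 524) (B (L (nat_lit 556) ln11_13_4 ln11_13_4_ok) (M (nat_lit 488) (B (L (nat_lit 489) ln12_16_3 ln12_16_3_ok) (L (nat_lit 487) ln11_16_3_c10 ln11_16_3_c10_ok)))))))) (B (M (nat_lit 520) (B (L (nat_lit 492) ln8_16_2 ln8_16_2_ok) (M (nat_lit 524) (B (L (nat_lit 556) ln11_13_4 ln11_13_4_ok) (M (nat_lit 488) (B (L (nat_lit 489) ln12_16_3 ln12_16_3_ok) (L (nat_lit 487) ln11_16_3_c10 ln11_16_3_c10_ok))))))) (M (nat_lit 524) (B (L (nat_lit 556) ln11_13_4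 ln11_13_4_ok) (M (nat_lit 490) (B (M (nat_lit 489) (B (L (nat_lit 525) ln13_16_3 ln13_16_3_ok) (L (nat_lit 488) ln8_15_0 ln8_15_0_ok))) (M (nat_lit 426) (B (L (nat_lit 394) ln11_16_7 ln11_16_7_ok) (M (nat_lit 553) (B (L (nat_lit 552) ln12_16_1 ln12_16_1_ok) (L (nat_lit 458) ln10_13_5 ln10_13_5_ok))))))))))))))) (M (nat_lit 555) (B (M (nat_lit 556) (B (L (nat_lit 588) ln11_14_4 ln11_14_4_ok) (L (nat_lit 524) ln11_13_4 ln11_13_4_ok))) (M (nat_lit 426) (B (L (nat_lit 458) ln11_17_7 ln11_17_7_ok) (L (nat_lit 394) ln11_16_7 ln11_16_7_ok))))))))) (B (M (nat_lit 460) (B (M (nat_lit 458) (B (M (nat_lit 490) (B (L (nat_lit 489) ln13_14_1 ln13_14_1_ok) (M (nat_lit 426) (B (L (nat_lit 425) ln13_14_3 ln13_14_3_ok) (M (nat_lit 394) (B (L (nat_lit 362) ln10_11_4 ln10_11_4_ok) (L (nat_lit 523) ln10_12_4 ln10_12_4_ok))))))) (B (M (nat_lit 457) (B (M (nat_lit 489) (B (L (nat_lit 488) ln12_14_1 ln12_14_1_ok) (L (nat_lit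 490) ln13_14_1 ln13_14_1_ok))) (B (M (nat_lit 490) (B (L (nat_lit 489) ln13_14_1 ln13_14_1_ok) (M (nat_lit 456) (B (L (nat_lit 455) ln7_14_0 ln7_14_0_ok) (L (nat_lit 492) ln8_14_0 ln8_14_0_ok))))) (B (M (nat_lit 456) (B (L (nat_lit 492) ln8_14_0 ln8_14_0_ok) (M (nat_lit 455) (B (L (nat_lit 490) ln7_14_0 ln7_14_0_ok) (M (nat_lit 487) (B (L (nat_lit 486) ln10_14_1_c10 ln10_14_1_c10_ok) (L (nat_lit 488) ln11_14_1 ln11_14_1_ok))))))) (M (nat_lit 456) (B (L (nat_lit 492) ln8_14_0 ln8_14_0_ok) (M (nat_lit 488) (B (L (nat_lit 487) ln11_14_1 ln11_14_1_ok) (L (nat_lit 489) ln12_14_1 ln12_14_1_ok))))))))) (M (nat_lit 426) (B (L (nat_lit 425) ln13_14_3 ln13_14_3_ok) (M (nat_lit 394) (B (L (nat_lit 362) ln10_11_4 ln10_11_4_ok) (L (nat_lit 523) ln11_16_7 ln11_16_7_ok)))))))) (B (M (nat_lit 426) (B (M (nat_lit 425) (B (L (nat_lit 458) ln13_14_3 ln13_14_3_ok) (L (nat_lit 424) ln8_13_0 ln8_13_0_ok))) (L (nat_lit 462)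 ln14_14_3 ln14_14_3_ok))) (B (M (nat_lit 490) (B (M (nat_lit 489) (B (L (nat_lit 458) ln13_14_1 ln13_14_1_ok) (L (nat_lit 492) ln9_15_2 ln9_15_2_ok))) (L (nat_lit 462) ln14_14_1 ln14_14_1_ok))) (M (nat_lit 462) (B (L (nat_lit 490) ln14_14_1 ln14_14_1_ok) (L (nat_lit 426) ln14_14_3 ln14_14_3_ok))))))) (M (nat_lit 523) (B (M (nat_lit 555) (B (M (nat_lit 426) (B (L (nat_lit 394) ln11_16_7 ln11_16_7_ok) (L (nat_lit 458) ln11_17_7 ln11_17_7_ok))) (M (nat_lit 554) (B (L (nat_lit 522) ln11_13_5 ln11_13_5_ok) (L (nat_lit 586) ln11_14_5 ln11_14_5_ok))))) (B (M (nat_lit 555) (B (M (nat_lit 554) (B (L (nat_lit 522) ln11_13_5 ln11_13_5_ok) (L (nat_lit 586) ln11_14_5 ln11_14_5_ok))) (M (nat_lit 556) (B (L (nat_lit 524) ln11_13_4 ln11_13_4_ok) (L (nat_lit 588) ln11_14_4 ln11_14_4_ok))))) (B (M (nat_lit 555) (B (M (nat_lit 426) (B (L (nat_lit 394) ln11_16_7 ln11_16_7_ok) (L (nat_lit 458) ln11_17_7 ln11_17_7_ok))) (M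 (nat_lit 556) (B (L (nat_lit 524) ln11_13_4 ln11_13_4_ok) (L (nat_lit 588) ln11_14_4 ln11_14_4_ok))))) (M (nat_lit 426) (B (L (nat_lit 394) ln11_16_7 ln11_16_7_ok) (M (nat_lit 460) (B (L (nat_lit 462) ln14_14_3 ln14_14_3_ok) (M (nat_lit 425) (B (L (nat_lit 424) ln8_13_0 ln8_13_0_ok) (L (nat_lit 458) ln13_14_3 ln13_14_3_ok))))))))))))))
noncomputable def c10_d71 : Cert := (B (M (nat_lit 329) (B (M (nat_lit 393) (B (L (nat_lit 425) ln9_13_6_c10 ln9_13_6_c10_ok) (M (nat_lit 264) (B (L (nat_lit 328) ln8_8_4_c10 ln8_8_4_c10_ok) (L (nat_lit 297) ln9_12_7_c10 ln9_12_7_c10_ok))))) (B (M (nat_lit 297) (B (M (nat_lit 295) (B (L (nat_lit 294) ln6_9_0_c10 ln6_9_0_c10_ok) (L (nat_lit 331) ln7_9_0_c10 ln7_9_0_c10_ok))) (M (nat_lit 265) (B (L (nat_lit 392) ln9_8_5_c10 ln9_8_5_c10_ok) (L (nat_lit 233) ln9_7_4_c10 ln9_7_4_c10_ok))))) (M (nat_lit 328) (B (L (nat_lit 327) ln7_10_0_c10 ln7_10_0_c10_ok) (M (nat_lit 393)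 (B (L (nat_lit 264) ln8_8_4_c10 ln8_8_4_c10_ok) (L (nat_lit 425) ln9_13_6_c10 ln9_13_6_c10_ok)))))))) (B (M (nat_lit 329) (B (M (nat_lit 393) (B (L (nat_lit 425) ln9_13_6_c10 ln9_13_6_c10_ok) (M (nat_lit 264) (B (L (nat_lit 328) ln8_8_4_c10 ln8_8_4_c10_ok) (L (nat_lit 297) ln9_12_7_c10 ln9_12_7_c10_ok))))) (B (M (nat_lit 297) (B (M (nat_lit 295) (B (L (nat_lit 294) ln6_9_0_c10 ln6_9_0_c10_ok) (L (nat_lit 331) ln7_9_0_c10 ln7_9_0_c10_ok))) (M (nat_lit 265) (B (L (nat_lit 392) ln9_8_5_c10 ln9_8_5_c10_ok) (L (nat_lit 233) ln9_7_4_c10 ln9_7_4_c10_ok))))) (M (nat_lit 328) (B (M (nat_lit 331) (B (L (nat_lit 295) ln11_10_3_c10 ln11_10_3_c10_ok) (L (nat_lit 332) ln12_10_1 ln12_10_1_ok))) (M (nat_lit 393) (B (L (nat_lit 264) ln8_8_4_c10 ln8_8_4_c10_ok) (L (nat_lit 425) ln9_13_6_c10 ln9_13_6_c10_ok)))))))) (B (M (nat_lit 329) (B (M (nat_lit 393) (B (L (nat_lit 425) ln9_13_6_c10 ln9_13_6_c10_ok) (M (nat_lit 264)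 (B (L (nat_lit 328) ln8_8_4_c10 ln8_8_4_c10_ok) (L (nat_lit 297) ln9_12_7_c10 ln9_12_7_c10_ok))))) (B (M (nat_lit 297) (B (M (nat_lit 331) (B (L (nat_lit 295) ln7_9_0_c10 ln7_9_0_c10_ok) (L (nat_lit 332) ln12_10_1 ln12_10_1_ok))) (M (nat_lit 393) (B (L (nat_lit 264) ln9_12_7_c10 ln9_12_7_c10_ok) (L (nat_lit 425) ln9_13_6_c10 ln9_13_6_c10_ok))))) (B (M (nat_lit 331) (B (L (nat_lit 332) ln12_10_1 ln12_10_1_ok) (M (nat_lit 295) (B (L (nat_lit 328) ln11_10_3_c10 ln11_10_3_c10_ok) (L (nat_lit 297) ln7_9_0_c10 ln7_9_0_c10_ok))))) (M (nat_lit 328) (B (M (nat_lit 331) (B (L (nat_lit 295) ln11_10_3_c10 ln11_10_3_c10_ok) (L (nat_lit 332) ln12_10_1 ln12_10_1_ok))) (M (nat_lit 393) (B (L (nat_lit 264) ln8_8_4_c10 ln8_8_4_c10_ok) (L (nat_lit 425) ln9_13_6_c10 ln9_13_6_c10_ok))))))))) (B (M (nat_lit 297) (B (M (nat_lit 329) (B (M (nat_lit 393) (B (L (nat_lit 264) ln9_12_7_c10 ln9_12_7_c10_ok) (L (nat_lit 425) ln9_13_6_c10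 ln9_13_6_c10_ok))) (M (nat_lit 265) (B (L (nat_lit 392) ln9_8_5_c10 ln9_8_5_c10_ok) (L (nat_lit 233) ln9_7_4_c10 ln9_7_4_c10_ok))))) (B (M (nat_lit 299) (B (M (nat_lit 328) (B (L (nat_lit 327) ln11_9_1 ln11_9_1_ok) (M (nat_lit 264) (B (L (nat_lit 263) ln11_9_3 ln11_9_3_ok) (L (nat_lit 393) ln8_8_4_c10 ln8_8_4_c10_ok))))) (M (nat_lit 331) (B (L (nat_lit 332) ln8_9_0 ln8_9_0_ok) (M (nat_lit 267) (B (L (nat_lit 268) ln8_9_2 ln8_9_2_ok) (L (nat_lit 235) ln11_7_5 ln11_7_5_ok))))))) (K (nat_lit 10419959953234738941740615397229323370975787273897644687518446535111711718430534252482386822953166921590628607346887204371983383369407791104) (nat_lit 10086913586276986693380783001575526079433807340108063826619064304547117137723498484003704388746153370561449949948542976) (nat_lit 10086913586276986693380783001575526079433807340108063826619064304547117137723498484003704388746153370561449949948542976) c10_s14)))) (B (M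 (nat_lit 297) (B (M (nat_lit 331) (B (L (nat_lit 295) ln7_9_0_c10 ln7_9_0_c10_ok) (L (nat_lit 332) ln8_11_2 ln8_11_2_ok))) (M (nat_lit 329) (B (M (nat_lit 393) (B (L (nat_lit 264) ln9_12_7_c10 ln9_12_7_c10_ok) (L (nat_lit 425) ln9_13_6_c10 ln9_13_6_c10_ok))) (M (nat_lit 265) (B (L (nat_lit 392) ln9_8_5_c10 ln9_8_5_c10_ok) (L (nat_lit 233) ln9_7_4_c10 ln9_7_4_c10_ok))))))) (B (M (nat_lit 297) (B (M (nat_lit 331) (B (L (nat_lit 295) ln7_9_0_c10 ln7_9_0_c10_ok) (L (nat_lit 332) ln8_11_2 ln8_11_2_ok))) (B (K (nat_lit 10419959953234738941740615397229323370975787273897644687518446535111711718430534252482386822953166921590628607346887204371983383369407791104) (nat_lit 10086913586276986693380783001575526079433807340108063826619064304547117137723498484003704388746153370561449949948542976) (nat_lit 10086913586276986693380783001575526079433807340108063826619064304547117137723498484003704388746153370561449949948542976)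 c10_s14) (M (nat_lit 328) (B (M (nat_lit 265) (B (L (nat_lit 392) ln8_12_6_c10 ln8_12_6_c10_ok) (M (nat_lit 233) (B (L (nat_lit 329) ln9_7_4_c10 ln9_7_4_c10_ok) (L (nat_lit 201) ln9_6_4_c10 ln9_6_4_c10_ok))))) (L (nat_lit 327) ln11_11_3 ln11_11_3_ok)))))) (B (M (nat_lit 297) (B (M (nat_lit 331) (B (L (nat_lit 295) ln7_9_0_c10 ln7_9_0_c10_ok) (L (nat_lit 332) ln8_11_2 ln8_11_2_ok))) (B (M (nat_lit 299) (B (M (nat_lit 328) (B (L (nat_lit 327) ln11_9_1 ln11_9_1_ok) (M (nat_lit 264) (B (L (nat_lit 263) ln11_9_3 ln11_9_3_ok) (L (nat_lit 393) ln8_8_4_c10 ln8_8_4_c10_ok))))) (M (nat_lit 331) (B (L (nat_lit 332) ln8_9_0 ln8_9_0_ok) (M (nat_lit 267) (B (L (nat_lit 268) ln8_9_2 ln8_9_2_ok) (L (nat_lit 235) ln11_7_5 ln11_7_5_ok))))))) (M (nat_lit 328) (B (M (nat_lit 393) (B (L (nat_lit 264) ln8_8_4_c10 ln8_8_4_c10_ok) (M (nat_lit 392) (B (L (nat_lit 425) ln8_9_4_c10 ln8_9_4_c10_ok) (L (nat_lit 265) ln8_12_6_c10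 ln8_12_6_c10_ok))))) (B (M (nat_lit 299) (B (L (nat_lit 327) ln11_9_1 ln11_9_1_ok) (M (nat_lit 264) (B (L (nat_lit 263) ln11_9_3 ln11_9_3_ok) (L (nat_lit 393) ln8_8_4_c10 ln8_8_4_c10_ok))))) (L (nat_lit 327) ln11_11_3 ln11_11_3_ok))))))) (B (M (nat_lit 328) (B (M (nat_lit 393) (B (L (nat_lit 264) ln8_8_4_c10 ln8_8_4_c10_ok) (M (nat_lit 425) (B (L (nat_lit 392) ln8_9_4_c10 ln8_9_4_c10_ok) (L (nat_lit 457) ln9_14_6_c10 ln9_14_6_c10_ok))))) (B (M (nat_lit 393) (B (L (nat_lit 264) ln8_8_4_c10 ln8_8_4_c10_ok) (M (nat_lit 425) (B (L (nat_lit 457) ln9_14_6_c10 ln9_14_6_c10_ok) (L (nat_lit 329) ln9_13_6_c10 ln9_13_6_c10_ok))))) (M (nat_lit 329) (B (L (nat_lit 327) ln7_10_0_c10 ln7_10_0_c10_ok) (M (nat_lit 331) (B (L (nat_lit 295) ln11_10_3_c10 ln11_10_3_c10_ok) (L (nat_lit 332) ln12_10_1 ln12_10_1_ok)))))))) (M (nat_lit 328) (B (M (nat_lit 393) (B (L (nat_lit 264) ln8_8_4_c10 ln8_8_4_c10_ok) (M (nat_lit 425)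 (B (L (nat_lit 457) ln9_14_6_c10 ln9_14_6_c10_ok) (L (nat_lit 329) ln9_13_6_c10 ln9_13_6_c10_ok))))) (B (M (nat_lit 297) (B (L (nat_lit 327) ln11_11_3 ln11_11_3_ok) (M (nat_lit 265) (B (L (nat_lit 392) ln8_12_6_c10 ln8_12_6_c10_ok) (M (nat_lit 233) (B (L (nat_lit 329) ln9_7_4_c10 ln9_7_4_c10_ok) (L (nat_lit 201) ln9_6_4_c10 ln9_6_4_c10_ok))))))) (M (nat_lit 393) (B (L (nat_lit 264) ln8_8_4_c10 ln8_8_4_c10_ok) (M (nat_lit 425) (B (L (nat_lit 392) ln8_9_4_c10 ln8_9_4_c10_ok) (L (nat_lit 457) ln9_14_6_c10 ln9_14_6_c10_ok))))))))))))))))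
noncomputable def c10_d72 : Cert := (B (M (nat_lit 360) (B (M (nat_lit 359) (B (M (nat_lit 390) (B (L (nat_lit 391) ln10_11_1 ln10_11_1_ok) (M (nat_lit 358) (B (L (nat_lit 389) ln9_11_1_c10 ln9_11_1_c10_ok) (M (nat_lit 326) (B (L (nat_lit 327) ln10_11_3 ln10_11_3_ok) (L (nat_lit 325) ln9_11_3_c10 ln9_11_3_c10_ok))))))) (B (M (nat_lit 358) (B (L (nat_lit 331) ln7_11_2 ln7_11_2_ok) (M (nat_lit 326) (B (L (nat_lit 327) ln10_11_3 ln10_11_3_ok) (L (nat_lit 325) ln9_11_3_c10 ln9_11_3_c10_ok))))) (B (M (nat_lit 358) (B (L (nat_lit 331) ln7_11_2 ln7_11_2_ok) (M (nat_lit 390) (B (L (nat_lit 391) ln10_11_1 ln10_11_1_ok) (L (nat_lit 389) ln9_11_1_c10 ln9_11_1_c10_ok))))) (L (nat_lit 331) ln7_11_2 ln7_11_2_ok))))) (B (M (nat_lit 359) (B (L (nat_lit 331) ln7_11_2 ln7_11_2_ok) (M (nat_lit 358) (B (M (nat_lit 390) (B (L (nat_lit 389) ln9_11_1_c10 ln9_11_1_c10_ok) (L (nat_lit 391) ln10_11_1 ln10_11_1_ok))) (L (nat_lit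 329) ln6_11_2_c10 ln6_11_2_c10_ok))))) (B (M (nat_lit 327) (B (M (nat_lit 326) (B (L (nat_lit 359) ln10_11_3 ln10_11_3_ok) (L (nat_lit 328) ln11_11_3 ln11_11_3_ok))) (B (M (nat_lit 392) (B (L (nat_lit 328) ln11_11_3 ln11_11_3_ok) (L (nat_lit 391) ln11_11_1 ln11_11_1_ok))) (M (nat_lit 359) (B (L (nat_lit 326) ln10_11_3 ln10_11_3_ok) (M (nat_lit 391) (B (L (nat_lit 390) ln10_11_1 ln10_11_1_ok) (L (nat_lit 392) ln11_11_1 ln11_11_1_ok)))))))) (B (M (nat_lit 331) (B (L (nat_lit 359) ln7_11_2 ln7_11_2_ok) (L (nat_lit 332) ln8_11_2 ln8_11_2_ok))) (M (nat_lit 328) (B (L (nat_lit 327) ln11_11_3 ln11_11_3_ok) (M (nat_lit 392) (B (L (nat_lit 391) ln11_11_1 ln11_11_1_ok) (M (nat_lit 424) (B (M (nat_lit 329) (B (L (nat_lit 456) ln8_14_6_c10 ln8_14_6_c10_ok) (L (nat_lit 297) ln8_13_6_c10 ln8_13_6_c10_ok))) (B (M (nat_lit 296) (B (M (nat_lit 297) (B (L (nat_lit 329) ln8_13_6_c10 ln8_13_6_c10_ok) (L (nat_lit 265) ln8_12_6_c10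 ln8_12_6_c10_ok))) (B (M (nat_lit 264) (B (M (nat_lit 263) (B (L (nat_lit 295) ln8_12_7_c10 ln8_12_7_c10_ok) (L (nat_lit 231) ln8_11_7_c10 ln8_11_7_c10_ok))) (M (nat_lit 265) (B (L (nat_lit 297) ln8_12_6_c10 ln8_12_6_c10_ok) (L (nat_lit 233) ln8_11_6_c10 ln8_11_6_c10_ok))))) (B (M (nat_lit 264) (B (M (nat_lit 263) (B (L (nat_lit 295) ln8_12_7_c10 ln8_12_7_c10_ok) (L (nat_lit 231) ln8_11_7_c10 ln8_11_7_c10_ok))) (M (nat_lit 232) (B (L (nat_lit 329) ln8_7_4_c10 ln8_7_4_c10_ok) (M (nat_lit 233) (B (L (nat_lit 265) ln8_11_6_c10 ln8_11_6_c10_ok) (L (nat_lit 201) ln8_10_6_c10 ln8_10_6_c10_ok))))))) (M (nat_lit 264) (B (M (nat_lit 263) (B (L (nat_lit 295) ln8_12_7_c10 ln8_12_7_c10_ok) (L (nat_lit 231) ln8_11_7_c10 ln8_11_7_c10_ok))) (M (nat_lit 329) (B (L (nat_lit 297) ln8_13_6_c10 ln8_13_6_c10_ok) (L (nat_lit 232) ln8_7_4_c10 ln8_7_4_c10_ok))))))))) (M (nat_lit 456) (B (M (nat_lit 455) (B (L (nat_lit 487)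 ln8_11_5_c10 ln8_11_5_c10_ok) (L (nat_lit 423) ln8_10_5_c10 ln8_10_5_c10_ok))) (M (nat_lit 457) (B (L (nat_lit 489) ln8_11_4_c10 ln8_11_4_c10_ok) (L (nat_lit 425) ln8_10_4_c10 ln8_10_4_c10_ok))))))))))))))))) (B (M (nat_lit 298) (B (M (nat_lit 266) (B (M (nat_lit 234) (B (L (nat_lit 329) ln10_7_5_c10 ln10_7_5_c10_ok) (M (nat_lit 233) (B (L (nat_lit 201) ln10_10_7_c10 ln10_10_7_c10_ok) (L (nat_lit 265) ln10_11_7_c10 ln10_11_7_c10_ok))))) (B (M (nat_lit 265) (B (L (nat_lit 233) ln10_11_7_c10 ln10_11_7_c10_ok) (M (nat_lit 267) (B (L (nat_lit 235) ln10_11_6_c10 ln10_11_6_c10_ok) (M (nat_lit 297) (B (M (nat_lit 296) (B (L (nat_lit 268) ln12_8_1_c10 ln12_8_1_c10_ok) (L (nat_lit 295) ln7_9_2 ln7_9_2_ok))) (M (nat_lit 264) (B (M (nat_lit 299) (B (L (nat_lit 300) ln8_8_0_c10 ln8_8_0_c10_ok) (L (nat_lit 263) ln7_8_0_c10 ln7_8_0_c10_ok))) (M (nat_lit 232) (B (L (nat_lit 231) ln11_8_3_c10 ln11_8_3_c10_ok) (L (nat_lit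 329) ln9_11_7_c10 ln9_11_7_c10_ok))))))))))) (B (M (nat_lit 234) (B (L (nat_lit 329) ln10_7_5_c10 ln10_7_5_c10_ok) (M (nat_lit 235) (B (L (nat_lit 203) ln10_10_6_c10 ln10_10_6_c10_ok) (L (nat_lit 267) ln10_11_6_c10 ln10_11_6_c10_ok))))) (M (nat_lit 234) (B (M (nat_lit 235) (B (L (nat_lit 203) ln10_10_6_c10 ln10_10_6_c10_ok) (L (nat_lit 267) ln10_11_6_c10 ln10_11_6_c10_ok))) (M (nat_lit 233) (B (L (nat_lit 201) ln10_10_7_c10 ln10_10_7_c10_ok) (L (nat_lit 265) ln10_11_7_c10 ln10_11_7_c10_ok))))))))) (B (M (nat_lit 266) (B (L (nat_lit 393) ln10_8_5_c10 ln10_8_5_c10_ok) (M (nat_lit 235) (B (L (nat_lit 267) ln10_11_6_c10 ln10_11_6_c10_ok) (M (nat_lit 233) (B (L (nat_lit 265) ln10_11_7_c10 ln10_11_7_c10_ok) (M (nat_lit 234) (B (L (nat_lit 203) ln10_10_6_c10 ln10_10_6_c10_ok) (L (nat_lit 201) ln10_10_7_c10 ln10_10_7_c10_ok))))))))) (M (nat_lit 425) (B (M (nat_lit 426) (B (L (nat_lit 462) ln14_14_3 ln14_14_3_ok)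 (L (nat_lit 424) ln8_13_0 ln8_13_0_ok))) (M (nat_lit 393) (B (L (nat_lit 457) ln9_14_6_c10 ln9_14_6_c10_ok) (L (nat_lit 329) ln9_13_6_c10 ln9_13_6_c10_ok)))))))) (B (M (nat_lit 360) (B (M (nat_lit 392) (B (M (nat_lit 424) (B (M (nat_lit 456) (B (M (nat_lit 328) (B (L (nat_lit 327) ln11_11_3 ln11_11_3_ok) (M (nat_lit 455) (B (L (nat_lit 487) ln8_11_5_c10 ln8_11_5_c10_ok) (L (nat_lit 423) ln8_10_5_c10 ln8_10_5_c10_ok))))) (M (nat_lit 488) (B (L (nat_lit 393) ln8_15_6_c10 ln8_15_6_c10_ok) (M (nat_lit 489) (B (L (nat_lit 521) ln8_12_4_c10 ln8_12_4_c10_ok) (L (nat_lit 457) ln8_11_4_c10 ln8_11_4_c10_ok))))))) (M (nat_lit 426) (B (L (nat_lit 462) ln14_14_3 ln14_14_3_ok) (L (nat_lit 425) ln8_13_0 ln8_13_0_ok))))) (L (nat_lit 391) ln11_11_1 ln11_11_1_ok))) (M (nat_lit 331) (B (L (nat_lit 332) ln8_11_2 ln8_11_2_ok) (L (nat_lit 359) ln7_11_2 ln7_11_2_ok))))) (M (nat_lit 360) (B (M (nat_lit 331) (B (L (nat_lit 359)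 ln7_11_2 ln7_11_2_ok) (L (nat_lit 332) ln8_11_2 ln8_11_2_ok))) (B (M (nat_lit 329) (B (M (nat_lit 328) (B (L (nat_lit 327) ln7_10_0_c10 ln7_10_0_c10_ok) (M (nat_lit 392) (B (L (nat_lit 391) ln11_11_1 ln11_11_1_ok) (M (nat_lit 424) (B (L (nat_lit 297) ln8_13_6_c10 ln8_13_6_c10_ok) (L (nat_lit 456) ln8_14_6_c10 ln8_14_6_c10_ok))))))) (B (M (nat_lit 392) (B (L (nat_lit 391) ln11_11_1 ln11_11_1_ok) (M (nat_lit 297) (B (L (nat_lit 265) ln9_8_5_c10 ln9_8_5_c10_ok) (M (nat_lit 424) (B (L (nat_lit 328) ln8_13_6_c10 ln8_13_6_c10_ok) (L (nat_lit 456) ln8_14_6_c10 ln8_14_6_c10_ok))))))) (B (M (nat_lit 328) (B (L (nat_lit 327) ln7_10_0_c10 ln7_10_0_c10_ok) (M (nat_lit 296) (B (M (nat_lit 331) (B (L (nat_lit 295) ln11_10_3_c10 ln11_10_3_c10_ok) (L (nat_lit 332) ln12_10_1 ln12_10_1_ok))) (M (nat_lit 264) (B (L (nat_lit 232) ln8_7_4_c10 ln8_7_4_c10_ok) (L (nat_lit 393) ln8_8_4_c10 ln8_8_4_c10_ok))))))) (M (nat_lit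 392) (B (L (nat_lit 391) ln11_11_1 ln11_11_1_ok) (M (nat_lit 424) (B (L (nat_lit 456) ln8_14_6_c10 ln8_14_6_c10_ok) (M (nat_lit 297) (B (L (nat_lit 265) ln9_8_5_c10 ln9_8_5_c10_ok) (L (nat_lit 393) ln9_9_5_c10 ln9_9_5_c10_ok))))))))))) (M (nat_lit 359) (B (M (nat_lit 327) (B (L (nat_lit 326) ln10_11_3 ln10_11_3_ok) (L (nat_lit 328) ln11_11_3 ln11_11_3_ok))) (M (nat_lit 391) (B (L (nat_lit 390) ln10_11_1 ln10_11_1_ok) (L (nat_lit 392) ln11_11_1 ln11_11_1_ok)))))))))))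
noncomputable def c10_d73 : Cert := (B (M (nat_lit 297) (B (M (nat_lit 265) (B (L (nat_lit 394) ln10_12_7_c10 ln10_12_7_c10_ok) (M (nat_lit 233) (B (L (nat_lit 329) ln9_7_4_c10 ln9_7_4_c10_ok) (L (nat_lit 201) ln9_6_4_c10 ln9_6_4_c10_ok))))) (B (M (nat_lit 296) (B (M (nat_lit 331) (B (L (nat_lit 295) ln7_9_0_c10 ln7_9_0_c10_ok) (M (nat_lit 332) (B (L (nat_lit 333) ln13_10_3 ln13_10_3_ok) (L (nat_lit 299) ln8_9_0 ln8_9_0_ok))))) (B (M (nat_lit 331) (B (L (nat_lit 295) ln7_9_0_c10 ln7_9_0_c10_ok) (M (nat_lit 332) (B (L (nat_lit 329) ln12_10_3 ln12_10_3_ok) (L (nat_lit 299) ln8_9_0 ln8_9_0_ok))))) (B (M (nat_lit 295) (B (L (nat_lit 331) ln7_9_0_c10 ln7_9_0_c10_ok) (M (nat_lit 294) (B (L (nat_lit 329) ln6_9_0_c10 ln6_9_0_c10_ok) (M (nat_lit 326) (B (L (nat_lit 327) ln10_9_1_c10 ln10_9_1_c10_ok) (L (nat_lit 325) ln9_9_1_c10 ln9_9_1_c10_ok))))))) (B (M (nat_lit 299) (B (M (nat_lit 264) (B (L (nat_lit 263)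 ln11_9_3 ln11_9_3_ok) (M (nat_lit 300) (B (L (nat_lit 265) ln12_9_3 ln12_9_3_ok) (M (nat_lit 268) (B (L (nat_lit 269) ln9_9_2 ln9_9_2_ok) (L (nat_lit 267) ln8_9_2 ln8_9_2_ok))))))) (B (M (nat_lit 295) (B (M (nat_lit 263) (B (L (nat_lit 264) ln11_9_3 ln11_9_3_ok) (L (nat_lit 262) ln10_9_3_c10 ln10_9_3_c10_ok))) (M (nat_lit 326) (B (L (nat_lit 327) ln10_9_1_c10 ln10_9_1_c10_ok) (M (nat_lit 294) (B (L (nat_lit 329) ln6_9_0_c10 ln6_9_0_c10_ok) (L (nat_lit 325) ln9_9_1_c10 ln9_9_1_c10_ok))))))) (M (nat_lit 300) (B (M (nat_lit 268) (B (L (nat_lit 269) ln9_9_2 ln9_9_2_ok) (L (nat_lit 267) ln8_9_2 ln8_9_2_ok))) (M (nat_lit 301) (B (L (nat_lit 329) ln13_9_1 ln13_9_1_ok) (M (nat_lit 333) (B (L (nat_lit 334) ln10_9_0 ln10_9_0_ok) (L (nat_lit 332) ln9_9_0 ln9_9_0_ok)))))))))) (M (nat_lit 299) (B (M (nat_lit 267) (B (L (nat_lit 268) ln8_9_2 ln8_9_2_ok) (M (nat_lit 331) (B (L (nat_lit 235) ln11_7_5 ln11_7_5_ok) (L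 (nat_lit 332) ln8_9_0 ln8_9_0_ok))))) (B (M (nat_lit 264) (B (L (nat_lit 263) ln11_9_3 ln11_9_3_ok) (M (nat_lit 300) (B (L (nat_lit 265) ln12_9_3 ln12_9_3_ok) (M (nat_lit 268) (B (L (nat_lit 269) ln9_9_2 ln9_9_2_ok) (L (nat_lit 267) ln8_9_2 ln8_9_2_ok))))))) (M (nat_lit 300) (B (M (nat_lit 332) (B (L (nat_lit 333) ln9_9_0 ln9_9_0_ok) (L (nat_lit 331) ln8_9_0 ln8_9_0_ok))) (M (nat_lit 264) (B (L (nat_lit 265) ln12_9_3 ln12_9_3_ok) (L (nat_lit 263) ln11_9_3 ln11_9_3_ok))))))))))))) (B (M (nat_lit 299) (B (M (nat_lit 394) (B (L (nat_lit 267) ln10_12_6_c10 ln10_12_6_c10_ok) (L (nat_lit 265) ln10_12_7_c10 ln10_12_7_c10_ok))) (B (M (nat_lit 296) (B (M (nat_lit 331) (B (L (nat_lit 332) ln8_9_0 ln8_9_0_ok) (L (nat_lit 295) ln7_9_0_c10 ln7_9_0_c10_ok))) (M (nat_lit 264) (B (L (nat_lit 263) ln11_9_3 ln11_9_3_ok) (M (nat_lit 300) (B (L (nat_lit 265) ln12_9_3 ln12_9_3_ok) (M (nat_lit 268) (B (L (nat_lit 269) ln9_9_2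 ln9_9_2_ok) (L (nat_lit 267) ln8_9_2 ln8_9_2_ok))))))))) (B (M (nat_lit 300) (B (M (nat_lit 265) (B (L (nat_lit 394) ln10_12_7_c10 ln10_12_7_c10_ok) (L (nat_lit 264) ln12_9_3 ln12_9_3_ok))) (M (nat_lit 301) (B (M (nat_lit 333) (B (L (nat_lit 334) ln10_9_0 ln10_9_0_ok) (L (nat_lit 332) ln9_9_0 ln9_9_0_ok))) (M (nat_lit 269) (B (L (nat_lit 270) ln10_9_2 ln10_9_2_ok) (L (nat_lit 268) ln9_9_2 ln9_9_2_ok))))))) (M (nat_lit 267) (B (L (nat_lit 394) ln10_12_6_c10 ln10_12_6_c10_ok) (M (nat_lit 235) (B (L (nat_lit 331) ln11_7_5 ln11_7_5_ok) (L (nat_lit 203) ln11_6_5 ln11_6_5_ok))))))))) (M (nat_lit 299) (B (M (nat_lit 267) (B (L (nat_lit 394) ln10_12_6_c10 ln10_12_6_c10_ok) (M (nat_lit 235) (B (L (nat_lit 331) ln11_7_5 ln11_7_5_ok) (L (nat_lit 203) ln11_6_5 ln11_6_5_ok))))) (B (M (nat_lit 300) (B (M (nat_lit 301) (B (L (nat_lit 329) ln13_9_1 ln13_9_1_ok) (M (nat_lit 333) (B (L (nat_lit 334) ln10_9_0 ln10_9_0_ok)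 (L (nat_lit 332) ln9_9_0 ln9_9_0_ok))))) (B (M (nat_lit 301) (B (L (nat_lit 329) ln13_9_1 ln13_9_1_ok) (M (nat_lit 269) (B (L (nat_lit 270) ln10_9_2 ln10_9_2_ok) (L (nat_lit 268) ln9_9_2 ln9_9_2_ok))))) (M (nat_lit 296) (B (M (nat_lit 332) (B (L (nat_lit 333) ln9_9_0 ln9_9_0_ok) (L (nat_lit 331) ln8_9_0 ln8_9_0_ok))) (M (nat_lit 268) (B (L (nat_lit 269) ln9_9_2 ln9_9_2_ok) (L (nat_lit 267) ln8_9_2 ln8_9_2_ok)))))))) (B (M (nat_lit 267) (B (L (nat_lit 394) ln10_12_6_c10 ln10_12_6_c10_ok) (M (nat_lit 268) (B (L (nat_lit 296) ln8_9_2 ln8_9_2_ok) (M (nat_lit 269) (B (L (nat_lit 300) ln9_9_2 ln9_9_2_ok) (L (nat_lit 270) ln14_8_1_c10 ln14_8_1_c10_ok))))))) (M (nat_lit 296) (B (M (nat_lit 331) (B (L (nat_lit 332) ln8_9_0 ln8_9_0_ok) (L (nat_lit 295) ln7_9_0_c10 ln7_9_0_c10_ok))) (B (M (nat_lit 295) (B (L (nat_lit 331) ln7_9_0_c10 ln7_9_0_c10_ok) (M (nat_lit 263) (B (L (nat_lit 264) ln11_9_3 ln11_9_3_ok) (L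 (nat_lit 262) ln10_9_3_c10 ln10_9_3_c10_ok))))) (B (M (nat_lit 295) (B (M (nat_lit 263) (B (L (nat_lit 264) ln11_9_3 ln11_9_3_ok) (L (nat_lit 262) ln10_9_3_c10 ln10_9_3_c10_ok))) (M (nat_lit 326) (B (L (nat_lit 327) ln10_9_1_c10 ln10_9_1_c10_ok) (M (nat_lit 294) (B (L (nat_lit 329) ln6_9_0_c10 ln6_9_0_c10_ok) (L (nat_lit 325) ln9_9_1_c10 ln9_9_1_c10_ok))))))) (M (nat_lit 300) (B (M (nat_lit 332) (B (L (nat_lit 333) ln9_9_0 ln9_9_0_ok) (L (nat_lit 331) ln8_9_0 ln8_9_0_ok))) (M (nat_lit 301) (B (L (nat_lit 329) ln13_9_1 ln13_9_1_ok) (M (nat_lit 269) (B (L (nat_lit 270) ln10_9_2 ln10_9_2_ok) (L (nat_lit 268) ln9_9_2 ln9_9_2_ok))))))))))))))))))) (B (M (nat_lit 266) (B (M (nat_lit 265) (B (L (nat_lit 233) ln10_11_7_c10 ln10_11_7_c10_ok) (M (nat_lit 393) (B (L (nat_lit 361) ln10_8_5_c10 ln10_8_5_c10_ok) (M (nat_lit 394) (B (L (nat_lit 425) ln10_9_5_c10 ln10_9_5_c10_ok) (L (nat_lit 297) ln10_12_7_c10 ln10_12_7_c10_ok)))))))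 (B (M (nat_lit 361) (B (L (nat_lit 393) ln10_8_5_c10 ln10_8_5_c10_ok) (M (nat_lit 234) (B (L (nat_lit 329) ln10_7_5_c10 ln10_7_5_c10_ok) (M (nat_lit 233) (B (L (nat_lit 265) ln10_11_7_c10 ln10_11_7_c10_ok) (L (nat_lit 201) ln10_10_7_c10 ln10_10_7_c10_ok))))))) (B (M (nat_lit 234) (B (M (nat_lit 233) (B (L (nat_lit 265) ln10_11_7_c10 ln10_11_7_c10_ok) (L (nat_lit 201) ln10_10_7_c10 ln10_10_7_c10_ok))) (M (nat_lit 202) (B (L (nat_lit 331) ln10_7_4 ln10_7_4_ok) (M (nat_lit 329) (B (L (nat_lit 361) ln10_7_5_c10 ln10_7_5_c10_ok) (L (nat_lit 297) ln10_6_5_c10 ln10_6_5_c10_ok))))))) (B (M (nat_lit 297) (B (M (nat_lit 265) (B (L (nat_lit 394) ln10_12_7_c10 ln10_12_7_c10_ok) (L (nat_lit 233) ln10_11_7_c10 ln10_11_7_c10_ok))) (M (nat_lit 331) (B (M (nat_lit 332) (B (L (nat_lit 333) ln13_10_3 ln13_10_3_ok) (M (nat_lit 296) (B (L (nat_lit 329) ln12_10_3 ln12_10_3_ok) (L (nat_lit 295) ln7_9_0_c10 ln7_9_0_c10_ok)))))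 (B (M (nat_lit 296) (B (L (nat_lit 295) ln7_9_0_c10 ln7_9_0_c10_ok) (M (nat_lit 332) (B (L (nat_lit 329) ln12_10_3 ln12_10_3_ok) (L (nat_lit 299) ln8_9_0 ln8_9_0_ok))))) (L (nat_lit 234) ln10_7_4 ln10_7_4_ok)))))) (M (nat_lit 331) (B (L (nat_lit 234) ln10_7_4 ln10_7_4_ok) (M (nat_lit 361) (B (L (nat_lit 393) ln10_8_5_c10 ln10_8_5_c10_ok) (M (nat_lit 360) (B (L (nat_lit 359) ln7_11_2 ln7_11_2_ok) (L (nat_lit 332) ln8_11_2 ln8_11_2_ok)))))))))))) (M (nat_lit 266) (B (M (nat_lit 267) (B (L (nat_lit 235) ln10_11_6_c10 ln10_11_6_c10_ok) (M (nat_lit 394) (B (L (nat_lit 299) ln10_12_6_c10 ln10_12_6_c10_ok) (M (nat_lit 393) (B (L (nat_lit 425) ln10_9_5_c10 ln10_9_5_c10_ok) (L (nat_lit 361) ln10_8_5_c10 ln10_8_5_c10_ok))))))) (B (M (nat_lit 361) (B (L (nat_lit 393) ln10_8_5_c10 ln10_8_5_c10_ok) (M (nat_lit 234) (B (L (nat_lit 329) ln10_7_5_c10 ln10_7_5_c10_ok) (M (nat_lit 235) (B (L (nat_lit 267) ln10_11_6_c10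 ln10_11_6_c10_ok) (L (nat_lit 203) ln10_10_6_c10 ln10_10_6_c10_ok))))))) (B (M (nat_lit 234) (B (M (nat_lit 235) (B (L (nat_lit 267) ln10_11_6_c10 ln10_11_6_c10_ok) (L (nat_lit 203) ln10_10_6_c10 ln10_10_6_c10_ok))) (M (nat_lit 202) (B (M (nat_lit 329) (B (L (nat_lit 361) ln10_7_5_c10 ln10_7_5_c10_ok) (L (nat_lit 297) ln10_6_5_c10 ln10_6_5_c10_ok))) (L (nat_lit 331) ln10_7_4 ln10_7_4_ok))))) (B (M (nat_lit 234) (B (M (nat_lit 235) (B (L (nat_lit 267) ln10_11_6_c10 ln10_11_6_c10_ok) (L (nat_lit 203) ln10_10_6_c10 ln10_10_6_c10_ok))) (L (nat_lit 331) ln10_7_4 ln10_7_4_ok))) (M (nat_lit 331) (B (L (nat_lit 234) ln10_7_4 ln10_7_4_ok) (M (nat_lit 361) (B (L (nat_lit 393) ln10_8_5_c10 ln10_8_5_c10_ok) (M (nat_lit 360) (B (L (nat_lit 359) ln7_11_2 ln7_11_2_ok) (L (nat_lit 332) ln8_11_2 ln8_11_2_ok))))))))))))))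
noncomputable def c10_d74 : Cert := (B (M (nat_lit 266) (B (M (nat_lit 361) (B (L (nat_lit 393) ln10_8_5_c10 ln10_8_5_c10_ok) (M (nat_lit 233) (B (L (nat_lit 265) ln10_11_7_c10 ln10_11_7_c10_ok) (M (nat_lit 234) (B (L (nat_lit 201) ln10_10_7_c10 ln10_10_7_c10_ok) (L (nat_lit 329) ln10_7_5_c10 ln10_7_5_c10_ok))))))) (B (M (nat_lit 234) (B (M (nat_lit 235) (B (L (nat_lit 203) ln10_10_6_c10 ln10_10_6_c10_ok) (L (nat_lit 267) ln10_11_6_c10 ln10_11_6_c10_ok))) (M (nat_lit 361) (B (L (nat_lit 329) ln10_7_5_c10 ln10_7_5_c10_ok) (L (nat_lit 393) ln10_8_5_c10 ln10_8_5_c10_ok))))) (M (nat_lit 265) (B (L (nat_lit 233) ln10_11_7_c10 ln10_11_7_c10_ok) (M (nat_lit 267) (B (L (nat_lit 235) ln10_11_6_c10 ln10_11_6_c10_ok) (M (nat_lit 264) (B (M (nat_lit 299) (B (L (nat_lit 263) ln7_8_0_c10 ln7_8_0_c10_ok) (L (nat_lit 300) ln8_8_0_c10 ln8_8_0_c10_ok))) (B (M (nat_lit 268) (B (M (nat_lit 296) (B (L (nat_lit 295) ln11_8_1_c10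 ln11_8_1_c10_ok) (L (nat_lit 297) ln12_8_1_c10 ln12_8_1_c10_ok))) (M (nat_lit 300) (B (L (nat_lit 299) ln8_8_0_c10 ln8_8_0_c10_ok) (L (nat_lit 301) ln9_8_0_c10 ln9_8_0_c10_ok))))) (M (nat_lit 263) (B (M (nat_lit 231) (B (L (nat_lit 230) ln10_8_3_c10 ln10_8_3_c10_ok) (L (nat_lit 232) ln11_8_3_c10 ln11_8_3_c10_ok))) (M (nat_lit 295) (B (L (nat_lit 294) ln10_8_1_c10 ln10_8_1_c10_ok) (L (nat_lit 296) ln11_8_1_c10 ln11_8_1_c10_ok))))))))))))))) (B (M (nat_lit 267) (B (M (nat_lit 235) (B (L (nat_lit 266) ln10_11_6_c10 ln10_11_6_c10_ok) (M (nat_lit 299) (B (L (nat_lit 331) ln11_7_5 ln11_7_5_ok) (L (nat_lit 394) ln10_12_6_c10 ln10_12_6_c10_ok))))) (B (M (nat_lit 297) (B (M (nat_lit 394) (B (L (nat_lit 299) ln10_12_6_c10 ln10_12_6_c10_ok) (L (nat_lit 265) ln10_12_7_c10 ln10_12_7_c10_ok))) (B (M (nat_lit 265) (B (L (nat_lit 394) ln10_12_7_c10 ln10_12_7_c10_ok) (M (nat_lit 233) (B (L (nat_lit 266) ln10_11_7_c10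 ln10_11_7_c10_ok) (L (nat_lit 201) ln9_6_4_c10 ln9_6_4_c10_ok))))) (B (M (nat_lit 296) (B (M (nat_lit 295) (B (L (nat_lit 266) ln7_9_2 ln7_9_2_ok) (L (nat_lit 331) ln7_9_0_c10 ln7_9_0_c10_ok))) (B (M (nat_lit 268) (B (L (nat_lit 299) ln8_9_2 ln8_9_2_ok) (M (nat_lit 266) (B (L (nat_lit 269) ln13_8_1_c10 ln13_8_1_c10_ok) (L (nat_lit 295) ln7_9_2 ln7_9_2_ok))))) (B (M (nat_lit 299) (B (L (nat_lit 268) ln8_9_2 ln8_9_2_ok) (M (nat_lit 331) (B (L (nat_lit 332) ln8_9_0 ln8_9_0_ok) (L (nat_lit 295) ln7_9_0_c10 ln7_9_0_c10_ok))))) (M (nat_lit 268) (B (L (nat_lit 299) ln8_9_2 ln8_9_2_ok) (M (nat_lit 266) (B (L (nat_lit 269) ln13_8_1_c10 ln13_8_1_c10_ok) (L (nat_lit 265) ln12_8_1_c10 ln12_8_1_c10_ok))))))))) (M (nat_lit 296) (B (M (nat_lit 299) (B (L (nat_lit 268) ln8_9_2 ln8_9_2_ok) (L (nat_lit 394) ln10_12_6_c10 ln10_12_6_c10_ok))) (M (nat_lit 295) (B (L (nat_lit 266) ln7_9_2 ln7_9_2_ok) (L (nat_lit 331) ln7_9_0_c10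 ln7_9_0_c10_ok))))))))) (B (M (nat_lit 266) (B (L (nat_lit 235) ln10_11_6_c10 ln10_11_6_c10_ok) (M (nat_lit 265) (B (L (nat_lit 233) ln10_11_7_c10 ln10_11_7_c10_ok) (M (nat_lit 297) (B (L (nat_lit 394) ln10_12_7_c10 ln10_12_7_c10_ok) (M (nat_lit 296) (B (L (nat_lit 268) ln12_8_1_c10 ln12_8_1_c10_ok) (L (nat_lit 295) ln7_9_2 ln7_9_2_ok))))))))) (B (M (nat_lit 299) (B (L (nat_lit 394) ln10_12_6_c10 ln10_12_6_c10_ok) (M (nat_lit 235) (B (L (nat_lit 203) ln11_6_5 ln11_6_5_ok) (L (nat_lit 331) ln11_7_5 ln11_7_5_ok))))) (M (nat_lit 235) (B (L (nat_lit 266) ln10_11_6_c10 ln10_11_6_c10_ok) (M (nat_lit 299) (B (L (nat_lit 203) ln11_6_5 ln11_6_5_ok) (L (nat_lit 331) ln11_7_5 ln11_7_5_ok)))))))))) (B (M (nat_lit 266) (B (M (nat_lit 234) (B (M (nat_lit 235) (B (L (nat_lit 203) ln10_10_6_c10 ln10_10_6_c10_ok) (L (nat_lit 267) ln10_11_6_c10 ln10_11_6_c10_ok))) (M (nat_lit 361) (B (L (nat_lit 329) ln10_7_5_c10 ln10_7_5_c10_ok)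 (L (nat_lit 393) ln10_8_5_c10 ln10_8_5_c10_ok))))) (B (M (nat_lit 394) (B (M (nat_lit 265) (B (L (nat_lit 233) ln10_11_7_c10 ln10_11_7_c10_ok) (L (nat_lit 297) ln10_12_7_c10 ln10_12_7_c10_ok))) (M (nat_lit 393) (B (L (nat_lit 361) ln10_8_5_c10 ln10_8_5_c10_ok) (L (nat_lit 425) ln10_9_5_c10 ln10_9_5_c10_ok))))) (M (nat_lit 394) (B (M (nat_lit 265) (B (L (nat_lit 233) ln10_11_7_c10 ln10_11_7_c10_ok) (L (nat_lit 297) ln10_12_7_c10 ln10_12_7_c10_ok))) (M (nat_lit 267) (B (L (nat_lit 235) ln10_11_6_c10 ln10_11_6_c10_ok) (L (nat_lit 299) ln10_12_6_c10 ln10_12_6_c10_ok)))))))) (B (M (nat_lit 265) (B (M (nat_lit 297) (B (L (nat_lit 394) ln10_12_7_c10 ln10_12_7_c10_ok) (M (nat_lit 233) (B (L (nat_lit 201) ln9_6_4_c10 ln9_6_4_c10_ok) (L (nat_lit 266) ln10_11_7_c10 ln10_11_7_c10_ok))))) (B (M (nat_lit 266) (B (L (nat_lit 233) ln10_11_7_c10 ln10_11_7_c10_ok) (M (nat_lit 267) (B (L (nat_lit 235) ln10_11_6_c10 ln10_11_6_c10_ok)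 (M (nat_lit 299) (B (L (nat_lit 394) ln10_12_6_c10 ln10_12_6_c10_ok) (M (nat_lit 264) (B (L (nat_lit 263) ln7_8_0_c10 ln7_8_0_c10_ok) (L (nat_lit 300) ln8_8_0_c10 ln8_8_0_c10_ok))))))))) (B (M (nat_lit 299) (B (M (nat_lit 394) (B (L (nat_lit 297) ln10_12_7_c10 ln10_12_7_c10_ok) (L (nat_lit 267) ln10_12_6_c10 ln10_12_6_c10_ok))) (B (M (nat_lit 267) (B (L (nat_lit 394) ln10_12_6_c10 ln10_12_6_c10_ok) (M (nat_lit 266) (B (L (nat_lit 235) ln10_11_6_c10 ln10_11_6_c10_ok) (M (nat_lit 300) (B (L (nat_lit 264) ln8_8_0_c10 ln8_8_0_c10_ok) (L (nat_lit 301) ln13_9_3 ln13_9_3_ok))))))) (B (M (nat_lit 300) (B (M (nat_lit 301) (B (L (nat_lit 329) ln13_9_1 ln13_9_1_ok) (L (nat_lit 266) ln13_9_3 ln13_9_3_ok))) (B (M (nat_lit 266) (B (L (nat_lit 301) ln13_9_3 ln13_9_3_ok) (M (nat_lit 264) (B (L (nat_lit 297) ln12_9_3 ln12_9_3_ok) (L (nat_lit 267) ln8_8_0_c10 ln8_8_0_c10_ok))))) (B (M (nat_lit 329) (B (L (nat_lit 301)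 ln13_9_1 ln13_9_1_ok) (M (nat_lit 297) (B (L (nat_lit 328) ln12_9_1 ln12_9_1_ok) (L (nat_lit 264) ln12_9_3 ln12_9_3_ok))))) (M (nat_lit 264) (B (L (nat_lit 297) ln12_9_3 ln12_9_3_ok) (M (nat_lit 266) (B (L (nat_lit 263) ln7_8_0_c10 ln7_8_0_c10_ok) (L (nat_lit 267) ln8_8_0_c10 ln8_8_0_c10_ok))))))))) (M (nat_lit 300) (B (M (nat_lit 297) (B (L (nat_lit 264) ln12_9_3 ln12_9_3_ok) (L (nat_lit 394) ln10_12_7_c10 ln10_12_7_c10_ok))) (M (nat_lit 301) (B (L (nat_lit 329) ln13_9_1 ln13_9_1_ok) (L (nat_lit 266) ln13_9_3 ln13_9_3_ok))))))))) (B (M (nat_lit 233) (B (L (nat_lit 266) ln10_11_7_c10 ln10_11_7_c10_ok) (M (nat_lit 297) (B (L (nat_lit 329) ln9_7_4_c10 ln9_7_4_c10_ok) (L (nat_lit 201) ln9_6_4_c10 ln9_6_4_c10_ok))))) (M (nat_lit 297) (B (L (nat_lit 394) ln10_12_7_c10 ln10_12_7_c10_ok) (M (nat_lit 233) (B (L (nat_lit 329) ln9_7_4_c10 ln9_7_4_c10_ok) (L (nat_lit 201) ln9_6_4_c10 ln9_6_4_c10_ok)))))))))) c10_d73))))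
noncomputable def c10_d75 : Cert := (B (M (nat_lit 330) (B (M (nat_lit 361) (B (M (nat_lit 298) (B (M (nat_lit 393) (B (L (nat_lit 266) ln10_8_5_c10 ln10_8_5_c10_ok) (M (nat_lit 425) (B (L (nat_lit 457) ln9_14_6_c10 ln9_14_6_c10_ok) (L (nat_lit 329) ln9_13_6_c10 ln9_13_6_c10_ok))))) (B (M (nat_lit 266) (B (L (nat_lit 393) ln10_8_5_c10 ln10_8_5_c10_ok) (M (nat_lit 234) (B (L (nat_lit 329) ln10_7_5_c10 ln10_7_5_c10_ok) (M (nat_lit 235) (B (L (nat_lit 267) ln10_11_6_c10 ln10_11_6_c10_ok) (L (nat_lit 203) ln10_10_6_c10 ln10_10_6_c10_ok))))))) (B (M (nat_lit 266) (B (M (nat_lit 234) (B (L (nat_lit 329) ln10_7_5_c10 ln10_7_5_c10_ok) (M (nat_lit 233) (B (L (nat_lit 265) ln10_11_7_c10 ln10_11_7_c10_ok) (L (nat_lit 201) ln10_10_7_c10 ln10_10_7_c10_ok))))) (B (M (nat_lit 234) (B (M (nat_lit 233) (B (L (nat_lit 265) ln10_11_7_c10 ln10_11_7_c10_ok) (L (nat_lit 201) ln10_10_7_c10 ln10_10_7_c10_ok))) (M (nat_lit 235)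 (B (L (nat_lit 267) ln10_11_6_c10 ln10_11_6_c10_ok) (L (nat_lit 203) ln10_10_6_c10 ln10_10_6_c10_ok))))) (B (M (nat_lit 234) (B (L (nat_lit 329) ln10_7_5_c10 ln10_7_5_c10_ok) (M (nat_lit 235) (B (L (nat_lit 267) ln10_11_6_c10 ln10_11_6_c10_ok) (L (nat_lit 203) ln10_10_6_c10 ln10_10_6_c10_ok))))) (M (nat_lit 297) (B (M (nat_lit 265) (B (L (nat_lit 233) ln10_11_7_c10 ln10_11_7_c10_ok) (M (nat_lit 267) (B (L (nat_lit 235) ln10_11_6_c10 ln10_11_6_c10_ok) (M (nat_lit 296) (B (L (nat_lit 295) ln7_9_2 ln7_9_2_ok) (L (nat_lit 268) ln12_8_1_c10 ln12_8_1_c10_ok))))))) (B (M (nat_lit 265) (B (L (nat_lit 233) ln10_11_7_c10 ln10_11_7_c10_ok) (M (nat_lit 267) (B (L (nat_lit 235) ln10_11_6_c10 ln10_11_6_c10_ok) (M (nat_lit 268) (B (L (nat_lit 296) ln12_8_1_c10 ln12_8_1_c10_ok) (L (nat_lit 269) ln13_8_1_c10 ln13_8_1_c10_ok))))))) (B (M (nat_lit 265) (B (L (nat_lit 233) ln10_11_7_c10 ln10_11_7_c10_ok) (M (nat_lit 329)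 (B (M (nat_lit 360) (B (L (nat_lit 392) ln9_8_5_c10 ln9_8_5_c10_ok) (M (nat_lit 359) (B (L (nat_lit 358) ln6_11_2_c10 ln6_11_2_c10_ok) (L (nat_lit 331) ln7_11_2 ln7_11_2_ok))))) (M (nat_lit 264) (B (L (nat_lit 232) ln9_11_7_c10 ln9_11_7_c10_ok) (M (nat_lit 299) (B (L (nat_lit 263) ln7_8_0_c10 ln7_8_0_c10_ok) (L (nat_lit 300) ln12_9_3 ln12_9_3_ok))))))))) (M (nat_lit 267) (B (L (nat_lit 235) ln10_11_6_c10 ln10_11_6_c10_ok) (M (nat_lit 296) (B (L (nat_lit 295) ln7_9_2 ln7_9_2_ok) (M (nat_lit 268) (B (L (nat_lit 299) ln8_9_2 ln8_9_2_ok) (L (nat_lit 269) ln13_8_1_c10 ln13_8_1_c10_ok))))))))))))))) (B (M (nat_lit 266) (B (L (nat_lit 393) ln10_8_5_c10 ln10_8_5_c10_ok) (M (nat_lit 234) (B (M (nat_lit 233) (B (L (nat_lit 265) ln10_11_7_c10 ln10_11_7_c10_ok) (L (nat_lit 201) ln10_10_7_c10 ln10_10_7_c10_ok))) (M (nat_lit 235) (B (L (nat_lit 267) ln10_11_6_c10 ln10_11_6_c10_ok) (L (nat_lit 203) ln10_10_6_c10 ln10_10_6_c10_ok)))))))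 (M (nat_lit 360) (B (M (nat_lit 331) (B (L (nat_lit 359) ln7_11_2 ln7_11_2_ok) (L (nat_lit 332) ln8_11_2 ln8_11_2_ok))) (B (M (nat_lit 296) c10_d71) (B (M (nat_lit 359) (B (L (nat_lit 331) ln7_11_2 ln7_11_2_ok) (M (nat_lit 358) (B (M (nat_lit 390) (B (L (nat_lit 389) ln9_11_1_c10 ln9_11_1_c10_ok) (L (nat_lit 391) ln10_11_1 ln10_11_1_ok))) (M (nat_lit 326) (B (L (nat_lit 325) ln9_11_3_c10 ln9_11_3_c10_ok) (L (nat_lit 327) ln10_11_3 ln10_11_3_ok))))))) (M (nat_lit 359) (B (M (nat_lit 358) (B (L (nat_lit 329) ln6_11_2_c10 ln6_11_2_c10_ok) (M (nat_lit 326) (B (L (nat_lit 325) ln9_11_3_c10 ln9_11_3_c10_ok) (L (nat_lit 327) ln10_11_3 ln10_11_3_ok))))) (B (M (nat_lit 358) (B (L (nat_lit 329) ln6_11_2_c10 ln6_11_2_c10_ok) (M (nat_lit 390) (B (L (nat_lit 389) ln9_11_1_c10 ln9_11_1_c10_ok) (L (nat_lit 391) ln10_11_1 ln10_11_1_ok))))) (M (nat_lit 327) (B (L (nat_lit 326) ln10_11_3 ln10_11_3_ok) (L (nat_lit 328)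 ln11_11_3 ln11_11_3_ok))))))))))))))) c10_d72)) (L (nat_lit 395) ln11_14_7 ln11_14_7_ok))) (B (M (nat_lit 330) (B (M (nat_lit 298) (B (M (nat_lit 266) (B (M (nat_lit 235) (B (L (nat_lit 267) ln10_11_6_c10 ln10_11_6_c10_ok) (M (nat_lit 234) (B (L (nat_lit 203) ln10_10_6_c10 ln10_10_6_c10_ok) (M (nat_lit 233) (B (L (nat_lit 265) ln10_11_7_c10 ln10_11_7_c10_ok) (L (nat_lit 201) ln10_10_7_c10 ln10_10_7_c10_ok))))))) (B (M (nat_lit 234) (B (M (nat_lit 361) (B (L (nat_lit 393) ln10_8_5_c10 ln10_8_5_c10_ok) (L (nat_lit 329) ln10_7_5_c10 ln10_7_5_c10_ok))) (M (nat_lit 233) (B (L (nat_lit 265) ln10_11_7_c10 ln10_11_7_c10_ok) (L (nat_lit 201) ln10_10_7_c10 ln10_10_7_c10_ok))))) (B (M (nat_lit 234) (B (M (nat_lit 361) (B (L (nat_lit 393) ln10_8_5_c10 ln10_8_5_c10_ok) (L (nat_lit 329) ln10_7_5_c10 ln10_7_5_c10_ok))) (M (nat_lit 235) (B (L (nat_lit 267) ln10_11_6_c10 ln10_11_6_c10_ok) (L (nat_lit 203) ln10_10_6_c10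 ln10_10_6_c10_ok))))) (M (nat_lit 394) (B (M (nat_lit 393) (B (L (nat_lit 425) ln10_9_5_c10 ln10_9_5_c10_ok) (L (nat_lit 361) ln10_8_5_c10 ln10_8_5_c10_ok))) (M (nat_lit 267) (B (L (nat_lit 299) ln10_12_6_c10 ln10_12_6_c10_ok) (L (nat_lit 235) ln10_11_6_c10 ln10_11_6_c10_ok))))))))) (B (M (nat_lit 266) (B (M (nat_lit 234) (B (M (nat_lit 361) (B (L (nat_lit 393) ln10_8_5_c10 ln10_8_5_c10_ok) (L (nat_lit 329) ln10_7_5_c10 ln10_7_5_c10_ok))) (M (nat_lit 235) (B (L (nat_lit 267) ln10_11_6_c10 ln10_11_6_c10_ok) (L (nat_lit 203) ln10_10_6_c10 ln10_10_6_c10_ok))))) (B (M (nat_lit 233) (B (L (nat_lit 265) ln10_11_7_c10 ln10_11_7_c10_ok) (M (nat_lit 234) (B (L (nat_lit 201) ln10_10_7_c10 ln10_10_7_c10_ok) (M (nat_lit 235) (B (L (nat_lit 267) ln10_11_6_c10 ln10_11_6_c10_ok) (L (nat_lit 203) ln10_10_6_c10 ln10_10_6_c10_ok))))))) (B (M (nat_lit 234) (B (M (nat_lit 361) (B (L (nat_lit 393) ln10_8_5_c10 ln10_8_5_c10_ok)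 (L (nat_lit 329) ln10_7_5_c10 ln10_7_5_c10_ok))) (M (nat_lit 233) (B (L (nat_lit 265) ln10_11_7_c10 ln10_11_7_c10_ok) (L (nat_lit 201) ln10_10_7_c10 ln10_10_7_c10_ok))))) (M (nat_lit 394) (B (M (nat_lit 393) (B (L (nat_lit 425) ln10_9_5_c10 ln10_9_5_c10_ok) (L (nat_lit 361) ln10_8_5_c10 ln10_8_5_c10_ok))) (M (nat_lit 265) (B (L (nat_lit 297) ln10_12_7_c10 ln10_12_7_c10_ok) (L (nat_lit 233) ln10_11_7_c10 ln10_11_7_c10_ok))))))))) c10_d74))) (L (nat_lit 395) ln11_14_7 ln11_14_7_ok))) (B (M (nat_lit 426) (B (M (nat_lit 425) (B (M (nat_lit 330) (B (M (nat_lit 361) (B (M (nat_lit 360) (B (M (nat_lit 331) (B (L (nat_lit 332) ln8_11_2 ln8_11_2_ok) (M (nat_lit 328) (B (L (nat_lit 327) ln11_11_3 ln11_11_3_ok) (M (nat_lit 392) (B (L (nat_lit 391) ln11_11_1 ln11_11_1_ok) (M (nat_lit 296) (B (M (nat_lit 295) (B (L (nat_lit 329) ln11_10_3_c10 ln11_10_3_c10_ok) (L (nat_lit 263) ln8_12_7_c10 ln8_12_7_c10_ok))) (B (M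 (nat_lit 297) (B (L (nat_lit 265) ln8_12_6_c10 ln8_12_6_c10_ok) (M (nat_lit 295) (B (L (nat_lit 263) ln8_12_7_c10 ln8_12_7_c10_ok) (L (nat_lit 298) ln7_9_0_c10 ln7_9_0_c10_ok))))) (B (M (nat_lit 264) (B (M (nat_lit 232) (B (L (nat_lit 329) ln8_7_4_c10 ln8_7_4_c10_ok) (M (nat_lit 233) (B (L (nat_lit 201) ln8_10_6_c10 ln8_10_6_c10_ok) (L (nat_lit 265) ln8_11_6_c10 ln8_11_6_c10_ok))))) (B (M (nat_lit 265) (B (L (nat_lit 233) ln8_11_6_c10 ln8_11_6_c10_ok) (L (nat_lit 297) ln8_12_6_c10 ln8_12_6_c10_ok))) (M (nat_lit 232) (B (L (nat_lit 329) ln8_7_4_c10 ln8_7_4_c10_ok) (M (nat_lit 231) (B (L (nat_lit 199) ln8_10_7_c10 ln8_10_7_c10_ok) (L (nat_lit 263) ln8_11_7_c10 ln8_11_7_c10_ok)))))))) (M (nat_lit 264) (B (M (nat_lit 265) (B (L (nat_lit 233) ln8_11_6_c10 ln8_11_6_c10_ok) (L (nat_lit 297) ln8_12_6_c10 ln8_12_6_c10_ok))) (M (nat_lit 329) (B (L (nat_lit 232) ln8_7_4_c10 ln8_7_4_c10_ok) (L (nat_lit 295) ln11_10_3_c10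 ln11_10_3_c10_ok))))))))))))))) (B (M (nat_lit 359) (B (M (nat_lit 358) (B (L (nat_lit 329) ln6_11_2_c10 ln6_11_2_c10_ok) (M (nat_lit 326) (B (L (nat_lit 325) ln9_11_3_c10 ln9_11_3_c10_ok) (L (nat_lit 327) ln10_11_3 ln10_11_3_ok))))) (M (nat_lit 391) (B (L (nat_lit 390) ln10_11_1 ln10_11_1_ok) (L (nat_lit 392) ln11_11_1 ln11_11_1_ok))))) (M (nat_lit 331) (B (L (nat_lit 332) ln8_11_2 ln8_11_2_ok) (L (nat_lit 359) ln7_11_2 ln7_11_2_ok)))))) (B (M (nat_lit 360) (B (M (nat_lit 331) (B (L (nat_lit 332) ln8_11_2 ln8_11_2_ok) (L (nat_lit 359) ln7_11_2 ln7_11_2_ok))) (B (M (nat_lit 359) (B (L (nat_lit 331) ln7_11_2 ln7_11_2_ok) (M (nat_lit 391) (B (L (nat_lit 392) ln11_11_1 ln11_11_1_ok) (L (nat_lit 390) ln10_11_1 ln10_11_1_ok))))) (M (nat_lit 393) (B (L (nat_lit 457) ln9_14_6_c10 ln9_14_6_c10_ok) (M (nat_lit 328) (B (L (nat_lit 327) ln11_11_3 ln11_11_3_ok) (M (nat_lit 392) (B (L (nat_lit 391) ln11_11_1 ln11_11_1_ok)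 (L (nat_lit 296) ln8_9_4_c10 ln8_9_4_c10_ok)))))))))) (M (nat_lit 393) (B (M (nat_lit 298) (B (L (nat_lit 266) ln10_8_5_c10 ln10_8_5_c10_ok) (L (nat_lit 329) ln9_13_6_c10 ln9_13_6_c10_ok))) (L (nat_lit 457) ln9_14_6_c10 ln9_14_6_c10_ok)))))) (L (nat_lit 394) ln10_10_4 ln10_10_4_ok))) (L (nat_lit 424) ln8_13_0 ln8_13_0_ok))) (L (nat_lit 462) ln14_14_3 ln14_14_3_ok))) (M (nat_lit 491) (B (M (nat_lit 394) (B (L (nat_lit 395) ln11_15_7 ln11_15_7_ok) (M (nat_lit 523) (B (L (nat_lit 426) ln11_16_7 ln11_16_7_ok) (M (nat_lit 554) (B (L (nat_lit 522) ln11_13_5 ln11_13_5_ok) (M (nat_lit 555) (B (L (nat_lit 586) ln11_14_5 ln11_14_5_ok) (M (nat_lit 556) (B (L (nat_lit 524) ln11_13_4 ln11_13_4_ok) (L (nat_lit 588) ln11_14_4 ln11_14_4_ok))))))))))) (B (M (nat_lit 395) (B (M (nat_lit 490) (B (L (nat_lit 462) ln14_14_1 ln14_14_1_ok) (L (nat_lit 522) ln11_12_5 ln11_12_5_ok))) (L (nat_lit 394) ln11_15_7 ln11_15_7_ok)))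 (M (nat_lit 462) (B (L (nat_lit 426) ln14_14_3 ln14_14_3_ok) (L (nat_lit 490) ln14_14_1 ln14_14_1_ok)))))))))
noncomputable def c10_d76 : Cert := (B (M (nat_lit 393) (B (M (nat_lit 392) (B (M (nat_lit 360) (B (M (nat_lit 328) (B (M (nat_lit 297) (B (L (nat_lit 296) ln8_9_4_c10 ln8_9_4_c10_ok) (M (nat_lit 424) (B (L (nat_lit 329) ln8_13_6_c10 ln8_13_6_c10_ok) (L (nat_lit 423) ln7_13_0 ln7_13_0_ok))))) (B (M (nat_lit 424) (B (L (nat_lit 423) ln7_13_0 ln7_13_0_ok) (M (nat_lit 456) (B (M (nat_lit 327) (B (L (nat_lit 295) ln8_13_7_c10 ln8_13_7_c10_ok) (L (nat_lit 359) ln8_14_7_c10 ln8_14_7_c10_ok))) (L (nat_lit 455) ln11_13_1_c10 ln11_13_1_c10_ok))))) (L (nat_lit 296) ln8_9_4_c10 ln8_9_4_c10_ok)))) (M (nat_lit 489) (B (M (nat_lit 490) (B (L (nat_lit 522) ln10_16_7 ln10_16_7_ok) (L (nat_lit 521) ln10_12_5 ln10_12_5_ok))) (L (nat_lit 457) ln9_15_7 ln9_15_7_ok))))) (L (nat_lit 391) ln7_12_0_c10 ln7_12_0_c10_ok)))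 (B (M (nat_lit 424) (B (M (nat_lit 391) (B (L (nat_lit 392) ln7_12_0_c10 ln7_12_0_c10_ok) (L (nat_lit 423) ln7_13_0 ln7_13_0_ok))) (B (L (nat_lit 423) ln7_13_0 ln7_13_0_ok) (M (nat_lit 392) (B (L (nat_lit 391) ln7_12_0_c10 ln7_12_0_c10_ok) (M (nat_lit 360) (B (M (nat_lit 457) (B (L (nat_lit 328) ln8_10_4_c10 ln8_10_4_c10_ok) (L (nat_lit 489) ln9_15_7 ln9_15_7_ok))) (M (nat_lit 359) (B (M (nat_lit 358) (B (L (nat_lit 357) ln5_11_0_c10 ln5_11_0_c10_ok) (L (nat_lit 361) ln6_11_0_c10 ln6_11_0_c10_ok))) (M (nat_lit 456) (B (L (nat_lit 455) ln11_13_1_c10 ln11_13_1_c10_ok) (L (nat_lit 327) ln8_14_7_c10 ln8_14_7_c10_ok)))))))))))) (M (nat_lit 361) (B (L (nat_lit 490) ln10_15_7 ln10_15_7_ok) (L (nat_lit 329) ln9_10_4_c10 ln9_10_4_c10_ok)))))) (B (M (nat_lit 424) (B (M (nat_lit 456) (B (L (nat_lit 455) ln11_13_1_c10 ln11_13_1_c10_ok) (M (nat_lit 392) (B (L (nat_lit 391) ln11_13_3 ln11_13_3_ok) (M (nat_lit 360)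 (B (M (nat_lit 457) (B (L (nat_lit 328) ln8_10_4_c10 ln8_10_4_c10_ok) (L (nat_lit 489) ln8_11_4_c10 ln8_11_4_c10_ok))) (B (M (nat_lit 488) (B (M (nat_lit 489) (B (L (nat_lit 457) ln8_11_4_c10 ln8_11_4_c10_ok) (L (nat_lit 521) ln8_12_4_c10 ln8_12_4_c10_ok))) (B (M (nat_lit 520) (B (M (nat_lit 519) (B (L (nat_lit 487) ln8_12_5_c10 ln8_12_5_c10_ok) (L (nat_lit 551) ln8_13_5_c10 ln8_13_5_c10_ok))) (M (nat_lit 521) (B (L (nat_lit 489) ln8_12_4_c10 ln8_12_4_c10_ok) (L (nat_lit 553) ln8_13_4_c10 ln8_13_4_c10_ok))))) (B (M (nat_lit 520) (B (M (nat_lit 519) (B (L (nat_lit 487) ln8_12_5_c10 ln8_12_5_c10_ok) (L (nat_lit 551) ln8_13_5_c10 ln8_13_5_c10_ok))) (M (nat_lit 552) (B (L (nat_lit 457) ln8_17_6_c10 ln8_17_6_c10_ok) (M (nat_lit 553) (B (L (nat_lit 521) ln8_13_4_c10 ln8_13_4_c10_ok) (L (nat_lit 585) ln8_14_4_c10 ln8_14_4_c10_ok))))))) (M (nat_lit 520) (B (M (nat_lit 519) (B (L (nat_lit 487) ln8_12_5_c10 ln8_12_5_c10_ok)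 (L (nat_lit 551) ln8_13_5_c10 ln8_13_5_c10_ok))) (M (nat_lit 457) (B (L (nat_lit 489) ln8_11_4_c10 ln8_11_4_c10_ok) (L (nat_lit 552) ln8_17_6_c10 ln8_17_6_c10_ok))))))))) (M (nat_lit 328) (B (M (nat_lit 327) (B (L (nat_lit 295) ln8_13_7_c10 ln8_13_7_c10_ok) (L (nat_lit 359) ln8_14_7_c10 ln8_14_7_c10_ok))) (M (nat_lit 329) (B (L (nat_lit 297) ln8_13_6_c10 ln8_13_6_c10_ok) (L (nat_lit 361) ln8_14_6_c10 ln8_14_6_c10_ok)))))))))))) (L (nat_lit 423) ln7_13_0 ln7_13_0_ok))) (B (M (nat_lit 424) (B (M (nat_lit 392) (B (L (nat_lit 391) ln11_13_3 ln11_13_3_ok) (M (nat_lit 456) (B (L (nat_lit 455) ln11_13_1_c10 ln11_13_1_c10_ok) (M (nat_lit 488) (B (M (nat_lit 393) (B (L (nat_lit 520) ln8_16_6_c10 ln8_16_6_c10_ok) (L (nat_lit 361) ln8_15_6_c10 ln8_15_6_c10_ok))) (B (M (nat_lit 360) (B (M (nat_lit 361) (B (L (nat_lit 393) ln8_15_6_c10 ln8_15_6_c10_ok) (L (nat_lit 329) ln8_14_6_c10 ln8_14_6_c10_ok))) (B (M (nat_lit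 328) (B (M (nat_lit 327) (B (L (nat_lit 359) ln8_14_7_c10 ln8_14_7_c10_ok) (L (nat_lit 295) ln8_13_7_c10 ln8_13_7_c10_ok))) (M (nat_lit 329) (B (L (nat_lit 361) ln8_14_6_c10 ln8_14_6_c10_ok) (L (nat_lit 297) ln8_13_6_c10 ln8_13_6_c10_ok))))) (B (M (nat_lit 328) (B (M (nat_lit 327) (B (L (nat_lit 359) ln8_14_7_c10 ln8_14_7_c10_ok) (L (nat_lit 295) ln8_13_7_c10 ln8_13_7_c10_ok))) (M (nat_lit 296) (B (L (nat_lit 393) ln8_9_4_c10 ln8_9_4_c10_ok) (M (nat_lit 297) (B (L (nat_lit 329) ln8_13_6_c10 ln8_13_6_c10_ok) (L (nat_lit 265) ln8_12_6_c10 ln8_12_6_c10_ok))))))) (M (nat_lit 328) (B (M (nat_lit 327) (B (L (nat_lit 359) ln8_14_7_c10 ln8_14_7_c10_ok) (L (nat_lit 295) ln8_13_7_c10 ln8_13_7_c10_ok))) (M (nat_lit 393) (B (L (nat_lit 361) ln8_15_6_c10 ln8_15_6_c10_ok) (L (nat_lit 296) ln8_9_4_c10 ln8_9_4_c10_ok))))))))) (M (nat_lit 520) (B (M (nat_lit 519) (B (L (nat_lit 551) ln8_13_5_c10 ln8_13_5_c10_ok) (L (nat_lit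 487) ln8_12_5_c10 ln8_12_5_c10_ok))) (M (nat_lit 521) (B (L (nat_lit 553) ln8_13_4_c10 ln8_13_4_c10_ok) (L (nat_lit 489) ln8_12_4_c10 ln8_12_4_c10_ok)))))))))))) (L (nat_lit 423) ln7_13_0 ln7_13_0_ok))) (B (M (nat_lit 490) (B (M (nat_lit 424) (B (L (nat_lit 423) ln7_13_0 ln7_13_0_ok) (M (nat_lit 456) (B (L (nat_lit 455) ln11_13_1_c10 ln11_13_1_c10_ok) (M (nat_lit 488) (B (M (nat_lit 487) (B (L (nat_lit 457) ln11_14_1 ln11_14_1_ok) (L (nat_lit 489) ln7_15_2 ln7_15_2_ok))) (M (nat_lit 393) (B (L (nat_lit 520) ln8_16_6_c10 ln8_16_6_c10_ok) (L (nat_lit 361) ln10_15_7 ln10_15_7_ok))))))))) (B (M (nat_lit 522) (B (M (nat_lit 521) (B (L (nat_lit 489) ln10_12_5 ln10_12_5_ok) (L (nat_lit 553) ln10_13_5 ln10_13_5_ok))) (M (nat_lit 555) (B (L (nat_lit 523) ln10_13_4 ln10_13_4_ok) (L (nat_lit 554) ln10_17_6 ln10_17_6_ok))))) (M (nat_lit 393) (B (L (nat_lit 361) ln10_15_7 ln10_15_7_ok) (L (nat_lit 522) ln10_16_7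 ln10_16_7_ok)))))) (B (M (nat_lit 490) (B (M (nat_lit 393) (B (L (nat_lit 361) ln10_15_7 ln10_15_7_ok) (M (nat_lit 489) (B (L (nat_lit 521) ln10_12_5 ln10_12_5_ok) (M (nat_lit 457) (B (M (nat_lit 392) (B (L (nat_lit 391) ln7_12_0_c10 ln7_12_0_c10_ok) (L (nat_lit 360) ln9_15_7 ln9_15_7_ok))) (M (nat_lit 488) (B (L (nat_lit 487) ln7_15_2 ln7_15_2_ok) (L (nat_lit 520) ln9_12_5_c10 ln9_12_5_c10_ok))))))))) (B (M (nat_lit 522) (B (L (nat_lit 554) ln10_17_6 ln10_17_6_ok) (M (nat_lit 521) (B (L (nat_lit 553) ln10_13_5 ln10_13_5_ok) (L (nat_lit 489) ln10_12_5 ln10_12_5_ok))))) (M (nat_lit 393) (B (L (nat_lit 522) ln10_16_7 ln10_16_7_ok) (L (nat_lit 361) ln10_15_7 ln10_15_7_ok)))))) (B (M (nat_lit 424) (B (L (nat_lit 423) ln7_13_0 ln7_13_0_ok) (M (nat_lit 456) (B (L (nat_lit 455) ln11_13_1_c10 ln11_13_1_c10_ok) (M (nat_lit 457) (B (M (nat_lit 488) (B (L (nat_lit 487) ln11_14_1 ln11_14_1_ok) (M (nat_lit 520) (B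 (L (nat_lit 552) ln8_17_6_c10 ln8_17_6_c10_ok) (L (nat_lit 393) ln8_16_6_c10 ln8_16_6_c10_ok))))) (M (nat_lit 392) (B (L (nat_lit 391) ln11_13_3 ln11_13_3_ok) (M (nat_lit 489) (B (L (nat_lit 521) ln9_16_6 ln9_16_6_ok) (L (nat_lit 360) ln8_11_4_c10 ln8_11_4_c10_ok))))))))))) (M (nat_lit 424) (B (L (nat_lit 423) ln7_13_0 ln7_13_0_ok) (M (nat_lit 456) (B (L (nat_lit 455) ln11_13_1_c10 ln11_13_1_c10_ok) (M (nat_lit 488) (B (M (nat_lit 392) (B (L (nat_lit 391) ln11_13_3 ln11_13_3_ok) (M (nat_lit 393) (B (L (nat_lit 520) ln8_16_6_c10 ln8_16_6_c10_ok) (L (nat_lit 361) ln8_15_6_c10 ln8_15_6_c10_ok))))) (B (M (nat_lit 393) (B (L (nat_lit 520) ln8_16_6_c10 ln8_16_6_c10_ok) (M (nat_lit 457) (B (L (nat_lit 487) ln11_14_1 ln11_14_1_ok) (L (nat_lit 361) ln9_11_5_c10 ln9_11_5_c10_ok))))) (M (nat_lit 392) (B (L (nat_lit 391) ln11_13_3 ln11_13_3_ok) (M (nat_lit 487) (B (L (nat_lit 519) ln8_12_5_c10 ln8_12_5_c10_ok) (L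 (nat_lit 457) ln11_14_1 ln11_14_1_ok))))))))))))))))))
noncomputable def c10_d77 : Cert := (B (M (nat_lit 395) (B (M (nat_lit 331) (B (M (nat_lit 426) (B (L (nat_lit 458) ln11_10_5 ln11_10_5_ok) (M (nat_lit 299) (B (L (nat_lit 394) ln11_9_5 ln11_9_5_ok) (M (nat_lit 298) (B (L (nat_lit 266) ln11_12_7 ln11_12_7_ok) (L (nat_lit 330) ln11_13_7 ln11_13_7_ok))))))) (B (M (nat_lit 426) (B (L (nat_lit 458) ln11_10_5 ln11_10_5_ok) (M (nat_lit 299) (B (L (nat_lit 394) ln11_9_5 ln11_9_5_ok) (M (nat_lit 300) (B (L (nat_lit 268) ln11_12_6 ln11_12_6_ok) (L (nat_lit 332) ln11_13_6 ln11_13_6_ok))))))) (M (nat_lit 330) (B (L (nat_lit 298) ln11_13_7 ln11_13_7_ok) (M (nat_lit 332) (B (L (nat_lit 300) ln11_13_6 ln11_13_6_ok) (M (nat_lit 333) (B (L (nat_lit 366) ln10_10_0 ln10_10_0_ok) (L (nat_lit 362) ln11_14_7 ln11_14_7_ok)))))))))) (B (M (nat_lit 460) (B (M (nat_lit 426) (B (L (nat_lit 462) ln14_14_3 ln14_14_3_ok) (M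 (nat_lit 425) (B (L (nat_lit 458) ln13_14_3 ln13_14_3_ok) (L (nat_lit 424) ln8_13_0 ln8_13_0_ok))))) (L (nat_lit 492) ln11_11_4 ln11_11_4_ok))) (M (nat_lit 491) (B (M (nat_lit 362) (B (L (nat_lit 330) ln11_14_7 ln11_14_7_ok) (L (nat_lit 394) ln11_15_7 ln11_15_7_ok))) (M (nat_lit 492) (B (L (nat_lit 460) ln11_11_4 ln11_11_4_ok) (L (nat_lit 524) ln11_12_4 ln11_12_4_ok)))))))) (B (M (nat_lit 395) (B (M (nat_lit 331) (B (M (nat_lit 299) (B (M (nat_lit 426) (B (L (nat_lit 458) ln11_10_5 ln11_10_5_ok) (L (nat_lit 394) ln11_9_5 ln11_9_5_ok))) (M (nat_lit 300) (B (L (nat_lit 332) ln11_13_6 ln11_13_6_ok) (L (nat_lit 268) ln11_12_6 ln11_12_6_ok))))) (B (M (nat_lit 298) (B (L (nat_lit 330) ln11_13_7 ln11_13_7_ok) (M (nat_lit 299) (B (L (nat_lit 266) ln11_12_7 ln11_12_7_ok) (M (nat_lit 300) (B (L (nat_lit 332) ln11_13_6 ln11_13_6_ok) (L (nat_lit 268) ln11_12_6 ln11_12_6_ok))))))) (B (M (nat_lit 299) (B (M (nat_lit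 426) (B (L (nat_lit 458) ln11_10_5 ln11_10_5_ok) (L (nat_lit 394) ln11_9_5 ln11_9_5_ok))) (M (nat_lit 298) (B (L (nat_lit 330) ln11_13_7 ln11_13_7_ok) (L (nat_lit 266) ln11_12_7 ln11_12_7_ok))))) (M (nat_lit 458) (B (L (nat_lit 490) ln11_11_5 ln11_11_5_ok) (L (nat_lit 426) ln11_10_5 ln11_10_5_ok))))))) (B (M (nat_lit 331) (B (M (nat_lit 299) (B (M (nat_lit 298) (B (L (nat_lit 266) ln11_12_7 ln11_12_7_ok) (L (nat_lit 330) ln11_13_7 ln11_13_7_ok))) (M (nat_lit 426) (B (L (nat_lit 394) ln11_9_5 ln11_9_5_ok) (L (nat_lit 458) ln11_10_5 ln11_10_5_ok))))) (B (M (nat_lit 330) (B (L (nat_lit 298) ln11_13_7 ln11_13_7_ok) (L (nat_lit 362) ln11_14_7 ln11_14_7_ok))) (M (nat_lit 458) (B (L (nat_lit 426) ln11_10_5 ln11_10_5_ok) (L (nat_lit 490) ln11_11_5 ln11_11_5_ok)))))) (B (M (nat_lit 491) (B (M (nat_lit 362) (B (L (nat_lit 330) ln11_14_7 ln11_14_7_ok) (L (nat_lit 394) ln11_15_7 ln11_15_7_ok))) (M (nat_lit 490)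 (B (L (nat_lit 458) ln11_11_5 ln11_11_5_ok) (L (nat_lit 522) ln11_12_5 ln11_12_5_ok))))) (B (M (nat_lit 331) (B (M (nat_lit 458) (B (L (nat_lit 490) ln11_11_5 ln11_11_5_ok) (L (nat_lit 426) ln11_10_5 ln11_10_5_ok))) (M (nat_lit 330) (B (L (nat_lit 362) ln11_14_7 ln11_14_7_ok) (L (nat_lit 298) ln11_13_7 ln11_13_7_ok))))) (B (M (nat_lit 331) (B (M (nat_lit 330) (B (L (nat_lit 298) ln11_13_7 ln11_13_7_ok) (L (nat_lit 362) ln11_14_7 ln11_14_7_ok))) (M (nat_lit 299) (B (M (nat_lit 300) (B (L (nat_lit 268) ln11_12_6 ln11_12_6_ok) (L (nat_lit 332) ln11_13_6 ln11_13_6_ok))) (M (nat_lit 426) (B (L (nat_lit 394) ln11_9_5 ln11_9_5_ok) (L (nat_lit 458) ln11_10_5 ln11_10_5_ok))))))) (B (M (nat_lit 331) (B (M (nat_lit 330) (B (L (nat_lit 298) ln11_13_7 ln11_13_7_ok) (L (nat_lit 362) ln11_14_7 ln11_14_7_ok))) (B (M (nat_lit 362) (B (L (nat_lit 330) ln11_14_7 ln11_14_7_ok) (M (nat_lit 394) (B (L (nat_lit 491) ln11_15_7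 ln11_15_7_ok) (M (nat_lit 299) (B (L (nat_lit 267) ln11_8_5 ln11_8_5_ok) (L (nat_lit 426) ln11_9_5 ln11_9_5_ok))))))) (B (M (nat_lit 299) (B (M (nat_lit 300) (B (L (nat_lit 268) ln11_12_6 ln11_12_6_ok) (L (nat_lit 332) ln11_13_6 ln11_13_6_ok))) (M (nat_lit 394) (B (L (nat_lit 426) ln11_9_5 ln11_9_5_ok) (M (nat_lit 362) (B (L (nat_lit 267) ln11_8_5 ln11_8_5_ok) (L (nat_lit 491) ln11_15_7 ln11_15_7_ok))))))) (M (nat_lit 299) (B (M (nat_lit 298) (B (L (nat_lit 266) ln11_12_7 ln11_12_7_ok) (L (nat_lit 330) ln11_13_7 ln11_13_7_ok))) (M (nat_lit 300) (B (L (nat_lit 268) ln11_12_6 ln11_12_6_ok) (L (nat_lit 332) ln11_13_6 ln11_13_6_ok))))))))) (M (nat_lit 491) (B (M (nat_lit 490) (B (L (nat_lit 458) ln11_11_5 ln11_11_5_ok) (L (nat_lit 522) ln11_12_5 ln11_12_5_ok))) (B (M (nat_lit 523) (B (M (nat_lit 394) (B (L (nat_lit 362) ln11_15_7 ln11_15_7_ok) (L (nat_lit 426) ln11_16_7 ln11_16_7_ok))) (M (nat_lit 522) (B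 (L (nat_lit 490) ln11_12_5 ln11_12_5_ok) (L (nat_lit 554) ln11_13_5 ln11_13_5_ok))))) (M (nat_lit 394) (B (L (nat_lit 362) ln11_15_7 ln11_15_7_ok) (M (nat_lit 426) (B (L (nat_lit 523) ln11_16_7 ln11_16_7_ok) (M (nat_lit 331) (B (L (nat_lit 299) ln11_9_5 ln11_9_5_ok) (L (nat_lit 458) ln11_10_5 ln11_10_5_ok))))))))))))))))) (M (nat_lit 460) (B (M (nat_lit 490) (B (M (nat_lit 489) (B (L (nat_lit 458) ln13_14_1 ln13_14_1_ok) (M (nat_lit 491) (B (L (nat_lit 488) ln8_15_2 ln8_15_2_ok) (L (nat_lit 492) ln9_15_2 ln9_15_2_ok))))) (B (M (nat_lit 491) (B (M (nat_lit 489) (B (L (nat_lit 488) ln8_15_2 ln8_15_2_ok) (L (nat_lit 492) ln9_15_2 ln9_15_2_ok))) (M (nat_lit 522) (B (L (nat_lit 395) ln11_12_5 ln11_12_5_ok) (M (nat_lit 554) (B (L (nat_lit 523) ln11_13_5 ln11_13_5_ok) (L (nat_lit 586) ln10_18_6 ln10_18_6_ok))))))) (B (M (nat_lit 458) (B (L (nat_lit 489) ln13_14_1 ln13_14_1_ok) (M (nat_lit 522) (B (L (nat_lit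 554) ln10_17_6 ln10_17_6_ok) (L (nat_lit 395) ln11_11_5 ln11_11_5_ok))))) (M (nat_lit 522) (B (M (nat_lit 491) (B (L (nat_lit 395) ln11_12_5 ln11_12_5_ok) (M (nat_lit 554) (B (L (nat_lit 523) ln11_13_5 ln11_13_5_ok) (L (nat_lit 586) ln10_18_6 ln10_18_6_ok))))) (B (M (nat_lit 554) (B (L (nat_lit 458) ln10_17_6 ln10_17_6_ok) (M (nat_lit 491) (B (L (nat_lit 523) ln11_13_5 ln11_13_5_ok) (L (nat_lit 586) ln10_18_6 ln10_18_6_ok))))) (B (M (nat_lit 458) (B (L (nat_lit 554) ln10_17_6 ln10_17_6_ok) (L (nat_lit 395) ln11_11_5 ln11_11_5_ok))) (M (nat_lit 395) (B (L (nat_lit 491) ln11_12_5 ln11_12_5_ok) (L (nat_lit 458) ln11_11_5 ln11_11_5_ok))))))))))) (B (M (nat_lit 462) (B (L (nat_lit 426) ln14_14_3 ln14_14_3_ok) (M (nat_lit 491) (B (L (nat_lit 490) ln14_14_1 ln14_14_1_ok) (M (nat_lit 492) (B (L (nat_lit 463) ln15_14_1 ln15_14_1_ok) (M (nat_lit 524) (B (L (nat_lit 556) ln12_17_6 ln12_17_6_ok) (L (nat_lit 395)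 ln11_11_4 ln11_11_4_ok))))))))) (M (nat_lit 426) (B (M (nat_lit 425) (B (L (nat_lit 458) ln13_14_3 ln13_14_3_ok) (L (nat_lit 424) ln8_13_0 ln8_13_0_ok))) (L (nat_lit 462) ln14_14_3 ln14_14_3_ok))))))))
noncomputable def c10_d78 : Cert := (B (M (nat_lit 460) (B (M (nat_lit 362) c10_d75) (B (M (nat_lit 395) (B (M (nat_lit 331) (B (M (nat_lit 330) (B (L (nat_lit 362) ln11_14_7 ln11_14_7_ok) (L (nat_lit 298) ln11_13_7 ln11_13_7_ok))) (B (M (nat_lit 299) (B (M (nat_lit 300) (B (L (nat_lit 332) ln11_13_6 ln11_13_6_ok) (L (nat_lit 268) ln11_12_6 ln11_12_6_ok))) (M (nat_lit 298) (B (L (nat_lit 330) ln11_13_7 ln11_13_7_ok) (L (nat_lit 266) ln11_12_7 ln11_12_7_ok))))) (B (M (nat_lit 299) (B (M (nat_lit 300) (B (L (nat_lit 332) ln11_13_6 ln11_13_6_ok) (L (nat_lit 268) ln11_12_6 ln11_12_6_ok))) (M (nat_lit 267) (B (M (nat_lit 394) (B (L (nat_lit 426) ln11_9_5 ln11_9_5_ok) (L (nat_lit 362) ln11_8_5 ln11_8_5_ok)))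 (M (nat_lit 266) (B (L (nat_lit 298) ln11_12_7 ln11_12_7_ok) (L (nat_lit 234) ln11_11_7 ln11_11_7_ok))))))) (M (nat_lit 299) (B (M (nat_lit 300) (B (L (nat_lit 332) ln11_13_6 ln11_13_6_ok) (L (nat_lit 268) ln11_12_6 ln11_12_6_ok))) (M (nat_lit 394) (B (L (nat_lit 426) ln11_9_5 ln11_9_5_ok) (M (nat_lit 362) (B (L (nat_lit 330) ln11_14_7 ln11_14_7_ok) (L (nat_lit 267) ln11_8_5 ln11_8_5_ok))))))))))) (L (nat_lit 492) ln11_11_4 ln11_11_4_ok))) (B (M (nat_lit 395) (B (M (nat_lit 491) (B (M (nat_lit 490) (B (L (nat_lit 462) ln14_14_1 ln14_14_1_ok) (L (nat_lit 522) ln11_12_5 ln11_12_5_ok))) (M (nat_lit 362) (B (L (nat_lit 394) ln11_15_7 ln11_15_7_ok) (L (nat_lit 330) ln11_14_7 ln11_14_7_ok))))) (L (nat_lit 492) ln11_11_4 ln11_11_4_ok))) (M (nat_lit 462) (B (L (nat_lit 426) ln14_14_3 ln14_14_3_ok) (M (nat_lit 463) (B (M (nat_lit 495) (B (L (nat_lit 496) ln12_14_0 ln12_14_0_ok) (L (nat_lit 494) ln11_14_0 ln11_14_0_ok)))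 (M (nat_lit 491) (B (L (nat_lit 492) ln15_14_1 ln15_14_1_ok) (L (nat_lit 490) ln14_14_1 ln14_14_1_ok))))))))))) (B (M (nat_lit 491) (B (K (nat_lit 6393341038489980628389444244666989674276745996359529094161042786576679801289203340128052746141035569505536831098520558987460583016844709498682605568) (nat_lit 1723641332781214161179077318039256560156148175530559011494551540598915086290758886606498064152400992517912751303924817924195362289214757786202515723766118376659484231700331478103064249239203153470279525754234847887360) (nat_lit 1723641332781214161179077318039256560156148175530559011494551540598915086290758886606498064152400992517912751303924817924195362289214757786202515723766118376659484231700331478103064249239203153470279525754234847887360) c10_s13) (B (M (nat_lit 524) (B (M (nat_lit 556) (B (L (nat_lit 523) ln11_13_4 ln11_13_4_ok) (M (nat_lit 492) (B (L (nat_lit 588) ln12_18_7 ln12_18_7_ok) (L (nat_lit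 395) ln11_12_4 ln11_12_4_ok))))) (B (M (nat_lit 522) (B (M (nat_lit 523) (B (L (nat_lit 554) ln11_13_5 ln11_13_5_ok) (L (nat_lit 556) ln11_13_4 ln11_13_4_ok))) (M (nat_lit 395) (B (L (nat_lit 490) ln11_12_5 ln11_12_5_ok) (L (nat_lit 492) ln11_12_4 ln11_12_4_ok))))) (B (M (nat_lit 395) (B (L (nat_lit 492) ln11_12_4 ln11_12_4_ok) (M (nat_lit 490) (B (L (nat_lit 522) ln11_12_5 ln11_12_5_ok) (L (nat_lit 458) ln11_11_5 ln11_11_5_ok))))) (B (M (nat_lit 523) (B (L (nat_lit 556) ln11_13_4 ln11_13_4_ok) (M (nat_lit 522) (B (L (nat_lit 554) ln11_13_5 ln11_13_5_ok) (M (nat_lit 490) (B (L (nat_lit 395) ln11_12_5 ln11_12_5_ok) (M (nat_lit 489) (B (L (nat_lit 525) ln13_16_3 ln13_16_3_ok) (L (nat_lit 488) ln8_15_0 ln8_15_0_ok))))))))) (M (nat_lit 523) (B (L (nat_lit 556) ln11_13_4 ln11_13_4_ok) (M (nat_lit 490) (B (M (nat_lit 522) (B (L (nat_lit 554) ln11_13_5 ln11_13_5_ok) (M (nat_lit 525) (B (L (nat_lit 489) ln13_16_3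 ln13_16_3_ok) (L (nat_lit 526) ln14_16_3 ln14_16_3_ok))))) (B (M (nat_lit 525) (B (L (nat_lit 526) ln14_16_3 ln14_16_3_ok) (M (nat_lit 489) (B (L (nat_lit 522) ln13_16_3 ln13_16_3_ok) (L (nat_lit 488) ln8_15_0 ln8_15_0_ok))))) (B (M (nat_lit 525) (B (L (nat_lit 526) ln14_16_3 ln14_16_3_ok) (M (nat_lit 489) (B (L (nat_lit 488) ln8_15_0 ln8_15_0_ok) (L (nat_lit 492) ln9_15_0 ln9_15_0_ok))))) (M (nat_lit 555) (B (M (nat_lit 554) (B (L (nat_lit 586) ln11_14_5 ln11_14_5_ok) (L (nat_lit 522) ln11_13_5 ln11_13_5_ok))) (B (M (nat_lit 587) (B (L (nat_lit 458) ln11_18_7 ln11_18_7_ok) (M (nat_lit 619) (B (L (nat_lit 522) ln11_19_7 ln11_19_7_ok) (L (nat_lit 492) ln11_19_6 ln11_19_6_ok))))) (M (nat_lit 587) (B (L (nat_lit 458) ln11_18_7 ln11_18_7_ok) (M (nat_lit 586) (B (L (nat_lit 618) ln11_15_5 ln11_15_5_ok) (L (nat_lit 554) ln11_14_5 ln11_14_5_ok))))))))))))))))))) (B (M (nat_lit 490) (B (M (nat_lit 522) (B (L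 (nat_lit 395) ln11_12_5 ln11_12_5_ok) (M (nat_lit 554) (B (L (nat_lit 586) ln10_18_6 ln10_18_6_ok) (L (nat_lit 458) ln10_17_6 ln10_17_6_ok))))) (B (M (nat_lit 522) (B (L (nat_lit 395) ln11_12_5 ln11_12_5_ok) (M (nat_lit 554) (B (L (nat_lit 523) ln11_13_5 ln11_13_5_ok) (L (nat_lit 458) ln10_17_6 ln10_17_6_ok))))) (B (M (nat_lit 460) (B (L (nat_lit 462) ln14_14_1 ln14_14_1_ok) (M (nat_lit 489) (B (L (nat_lit 488) ln8_15_2 ln8_15_2_ok) (L (nat_lit 458) ln13_14_1 ln13_14_1_ok))))) (M (nat_lit 522) (B (L (nat_lit 395) ln11_12_5 ln11_12_5_ok) (M (nat_lit 554) (B (L (nat_lit 586) ln10_18_6 ln10_18_6_ok) (L (nat_lit 523) ln11_13_5 ln11_13_5_ok))))))))) (M (nat_lit 395) (B (M (nat_lit 492) (B (L (nat_lit 460) ln11_11_4 ln11_11_4_ok) (L (nat_lit 524) ln11_12_4 ln11_12_4_ok))) (M (nat_lit 362) (B (L (nat_lit 330) ln11_14_7 ln11_14_7_ok) (L (nat_lit 394) ln11_15_7 ln11_15_7_ok))))))))) (B (M (nat_lit 426) (B (M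 (nat_lit 458) (B (M (nat_lit 394) (B (M (nat_lit 425) c10_d76) (B (M (nat_lit 362) (B (L (nat_lit 330) ln10_10_4 ln10_10_4_ok) (M (nat_lit 490) (B (M (nat_lit 489) (B (L (nat_lit 521) ln10_12_5 ln10_12_5_ok) (L (nat_lit 457) ln10_11_5 ln10_11_5_ok))) (M (nat_lit 361) (B (L (nat_lit 393) ln10_15_7 ln10_15_7_ok) (L (nat_lit 329) ln10_14_7 ln10_14_7_ok))))))) (M (nat_lit 362) (B (L (nat_lit 331) ln10_14_6 ln10_14_6_ok) (L (nat_lit 330) ln10_10_4 ln10_10_4_ok)))))) (B (M (nat_lit 490) (B (L (nat_lit 395) ln11_11_5 ln11_11_5_ok) (M (nat_lit 522) (B (L (nat_lit 554) ln10_17_6 ln10_17_6_ok) (M (nat_lit 521) (B (L (nat_lit 553) ln10_13_5 ln10_13_5_ok) (M (nat_lit 489) (B (L (nat_lit 394) ln10_12_5 ln10_12_5_ok) (M (nat_lit 523) (B (L (nat_lit 555) ln10_13_4 ln10_13_4_ok) (M (nat_lit 488) (B (L (nat_lit 487) ln7_15_0 ln7_15_0_ok) (L (nat_lit 524) ln12_16_3 ln12_16_3_ok))))))))))))) (B (M (nat_lit 362) (B (M (nat_lit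 395) (B (L (nat_lit 331) ln11_10_5 ln11_10_5_ok) (L (nat_lit 330) ln11_14_7 ln11_14_7_ok))) (B (M (nat_lit 331) (B (L (nat_lit 395) ln11_10_5 ln11_10_5_ok) (L (nat_lit 394) ln10_14_6 ln10_14_6_ok))) (B (M (nat_lit 330) (B (L (nat_lit 395) ln11_14_7 ln11_14_7_ok) (L (nat_lit 394) ln10_10_4 ln10_10_4_ok))) (M (nat_lit 394) (B (L (nat_lit 331) ln10_14_6 ln10_14_6_ok) (L (nat_lit 330) ln10_10_4 ln10_10_4_ok))))))) (M (nat_lit 395) (B (L (nat_lit 490) ln11_11_5 ln11_11_5_ok) (L (nat_lit 331) ln11_10_5 ln11_10_5_ok))))))) (B (M (nat_lit 395) (B (M (nat_lit 331) (B (M (nat_lit 299) (B (L (nat_lit 394) ln11_9_5 ln11_9_5_ok) (M (nat_lit 298) (B (L (nat_lit 266) ln11_12_7 ln11_12_7_ok) (L (nat_lit 330) ln11_13_7 ln11_13_7_ok))))) (B (M (nat_lit 330) (B (L (nat_lit 298) ln11_13_7 ln11_13_7_ok) (L (nat_lit 362) ln11_14_7 ln11_14_7_ok))) (M (nat_lit 299) (B (L (nat_lit 394) ln11_9_5 ln11_9_5_ok) (M (nat_lit 300)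 (B (L (nat_lit 268) ln11_12_6 ln11_12_6_ok) (L (nat_lit 332) ln11_13_6 ln11_13_6_ok)))))))) (M (nat_lit 460) (B (L (nat_lit 462) ln14_14_3 ln14_14_3_ok) (L (nat_lit 492) ln11_11_4 ln11_11_4_ok))))) (M (nat_lit 460) (B (M (nat_lit 425) (B (L (nat_lit 458) ln13_14_3 ln13_14_3_ok) (L (nat_lit 424) ln8_13_0 ln8_13_0_ok))) (L (nat_lit 462) ln14_14_3 ln14_14_3_ok)))))) c10_d77)))
theorem c10_s15 : Sem (nat_lit 5954262831162530206205569921548983713825410670513861945807426552264374088065426900094964740708423493893438151047949996417783437055997509632) (nat_lit 1723641332801279987219529792661266898052611476105214827548106057300161826165976033361530687825529873081114158247368674225296198679895886211487488072328084728230229607782224038041503925424881000615884096011149565231104) (nat_lit 1723641332801279987219529792661266898052611476105214827548106057300161826165976033361530687825529873081114158247368674225296198679895886211487488072328084728230229607782224038041503925424881000615884096011149565231104)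 :=
  sem_of_chk (M (nat_lit 459) (B (M (nat_lit 491) (B (K (nat_lit 6393341038489980628389444244666989674276745996359529094161042786576679801289203340128052746141035569505536831098520558987460583016844709498682605568) (nat_lit 1723641332781214161179077318039256560156148175530559011494551540598915086290758886606498064152400992517912751303924817924195362289214757786202515723766118376659484231700331478103064249239203153470279525754234847887360) (nat_lit 1723641332781214161179077318039256560156148175530559011494551540598915086290758886606498064152400992517912751303924817924195362289214757786202515723766118376659484231700331478103064249239203153470279525754234847887360) c10_s13) (B (M (nat_lit 460) (B (M (nat_lit 489) (B (M (nat_lit 457) c10_d69) (B (M (nat_lit 490) (B (L (nat_lit 492) ln9_15_2 ln9_15_2_ok) (L (nat_lit 458) ln13_14_1 ln13_14_1_ok))) (B (M (nat_lit 490) (B (L (nat_lit 492) ln9_15_2 ln9_15_2_ok)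 (L (nat_lit 488) ln8_15_2 ln8_15_2_ok))) (M (nat_lit 490) (B (L (nat_lit 488) ln8_15_2 ln8_15_2_ok) (L (nat_lit 458) ln13_14_1 ln13_14_1_ok))))))) (B (M (nat_lit 426) (B (M (nat_lit 425) (B (L (nat_lit 458) ln13_14_3 ln13_14_3_ok) (L (nat_lit 424) ln8_13_0 ln8_13_0_ok))) (L (nat_lit 462) ln14_14_3 ln14_14_3_ok))) (B (M (nat_lit 490) (B (M (nat_lit 489) (B (L (nat_lit 458) ln13_14_1 ln13_14_1_ok) (L (nat_lit 492) ln9_15_2 ln9_15_2_ok))) (L (nat_lit 462) ln14_14_1 ln14_14_1_ok))) (M (nat_lit 462) (B (L (nat_lit 490) ln14_14_1 ln14_14_1_ok) (L (nat_lit 426) ln14_14_3 ln14_14_3_ok))))))) c10_d70))) c10_d78)) (nat_lit 5954262831162530206205569921548983713825410670513861945807426552264374088065426900094964740708423493893438151047949996417783437055997509632) (nat_lit 1723641332801279987219529792661266898052611476105214827548106057300161826165976033361530687825529873081114158247368674225296198679895886211487488072328084728230229607782224038041503925424881000615884096011149565231104)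 (nat_lit 1723641332801279987219529792661266898052611476105214827548106057300161826165976033361530687825529873081114158247368674225296198679895886211487488072328084728230229607782224038041503925424881000615884096011149565231104) (by decide +kernel)
noncomputable def c10_d79 : Cert := (B (M (nat_lit 268) (B (M (nat_lit 300) (B (L (nat_lit 395) ln11_12_6 ln11_12_6_ok) (M (nat_lit 236) (B (L (nat_lit 204) ln12_6_5_c10 ln12_6_5_c10_ok) (L (nat_lit 267) ln11_11_6 ln11_11_6_ok))))) (B (M (nat_lit 267) (B (L (nat_lit 236) ln11_11_6 ln11_11_6_ok) (M (nat_lit 266) (B (L (nat_lit 234) ln11_11_7 ln11_11_7_ok) (M (nat_lit 395) (B (L (nat_lit 300) ln11_12_6 ln11_12_6_ok) (L (nat_lit 298) ln11_12_7 ln11_12_7_ok))))))) (B (M (nat_lit 298) (B (M (nat_lit 395) (B (L (nat_lit 300) ln11_12_6 ln11_12_6_ok) (L (nat_lit 266) ln11_12_7 ln11_12_7_ok))) (B (M (nat_lit 266) (B (L (nat_lit 395) ln11_12_7 ln11_12_7_ok) (M (nat_lit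 267) (B (L (nat_lit 234) ln11_11_7 ln11_11_7_ok) (M (nat_lit 269) (B (L (nat_lit 270) ln14_8_1_c10 ln14_8_1_c10_ok) (L (nat_lit 297) ln13_8_1_c10 ln13_8_1_c10_ok))))))) (B (M (nat_lit 269) (B (M (nat_lit 270) (B (L (nat_lit 267) ln14_8_1_c10 ln14_8_1_c10_ok) (M (nat_lit 300) (B (L (nat_lit 301) ln10_9_2 ln10_9_2_ok) (L (nat_lit 297) ln9_9_2 ln9_9_2_ok))))) (B (M (nat_lit 297) (B (L (nat_lit 300) ln9_9_2 ln9_9_2_ok) (M (nat_lit 267) (B (L (nat_lit 266) ln13_8_1_c10 ln13_8_1_c10_ok) (L (nat_lit 296) ln8_9_2 ln8_9_2_ok))))) (B (M (nat_lit 267) (B (L (nat_lit 270) ln14_8_1_c10 ln14_8_1_c10_ok) (M (nat_lit 297) (B (L (nat_lit 266) ln13_8_1_c10 ln13_8_1_c10_ok) (L (nat_lit 296) ln8_9_2 ln8_9_2_ok))))) (B (M (nat_lit 300) (B (L (nat_lit 297) ln9_9_2 ln9_9_2_ok) (M (nat_lit 270) (B (L (nat_lit 271) ln15_8_1 ln15_8_1_ok) (L (nat_lit 301) ln10_9_2 ln10_9_2_ok))))) (M (nat_lit 270) (B (L (nat_lit 267) ln14_8_1_c10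 ln14_8_1_c10_ok) (M (nat_lit 300) (B (L (nat_lit 271) ln15_8_1 ln15_8_1_ok) (L (nat_lit 301) ln10_9_2 ln10_9_2_ok)))))))))) (M (nat_lit 300) (B (L (nat_lit 395) ln11_12_6 ln11_12_6_ok) (M (nat_lit 269) (B (L (nat_lit 297) ln9_9_2 ln9_9_2_ok) (M (nat_lit 270) (B (L (nat_lit 271) ln15_8_1 ln15_8_1_ok) (L (nat_lit 301) ln10_9_2 ln10_9_2_ok))))))))))) (B (M (nat_lit 267) (B (L (nat_lit 236) ln11_11_6 ln11_11_6_ok) (M (nat_lit 266) (B (L (nat_lit 234) ln11_11_7 ln11_11_7_ok) (M (nat_lit 298) (B (L (nat_lit 395) ln11_12_7 ln11_12_7_ok) (M (nat_lit 269) (B (L (nat_lit 270) ln14_8_1_c10 ln14_8_1_c10_ok) (L (nat_lit 297) ln13_8_1_c10 ln13_8_1_c10_ok))))))))) (B (M (nat_lit 334) (B (M (nat_lit 335) (B (L (nat_lit 366) ln11_11_2 ln11_11_2_ok) (M (nat_lit 333) (B (L (nat_lit 336) ln16_10_1 ln16_10_1_ok) (L (nat_lit 362) ln10_11_2 ln10_11_2_ok))))) (B (M (nat_lit 300) (B (L (nat_lit 395) ln11_12_6 ln11_12_6_ok) (M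 (nat_lit 301) (B (M (nat_lit 335) (B (L (nat_lit 302) ln11_9_0_c10 ln11_9_0_c10_ok) (L (nat_lit 366) ln11_11_2 ln11_11_2_ok))) (M (nat_lit 333) (B (L (nat_lit 298) ln10_9_0 ln10_9_0_ok) (L (nat_lit 362) ln10_11_2 ln10_11_2_ok))))))) (B (M (nat_lit 300) (B (L (nat_lit 395) ln11_12_6 ln11_12_6_ok) (M (nat_lit 333) (B (L (nat_lit 362) ln10_11_2 ln10_11_2_ok) (M (nat_lit 236) (B (L (nat_lit 204) ln12_6_5_c10 ln12_6_5_c10_ok) (M (nat_lit 301) (B (L (nat_lit 298) ln10_9_0 ln10_9_0_ok) (L (nat_lit 269) ln13_11_7 ln13_11_7_ok))))))))) (M (nat_lit 270) (B (M (nat_lit 300) (B (L (nat_lit 395) ln11_12_6 ln11_12_6_ok) (M (nat_lit 269) (B (L (nat_lit 271) ln15_8_1 ln15_8_1_ok) (M (nat_lit 298) (B (L (nat_lit 301) ln10_9_2 ln10_9_2_ok) (L (nat_lit 297) ln9_9_2 ln9_9_2_ok))))))) (M (nat_lit 366) (B (L (nat_lit 335) ln11_11_2 ln11_11_2_ok) (M (nat_lit 399) (B (L (nat_lit 398) ln11_11_0 ln11_11_0_ok) (M (nat_lit 367)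 (B (L (nat_lit 400) ln12_11_0 ln12_11_0_ok) (L (nat_lit 302) ln14_8_4_c10 ln14_8_4_c10_ok))))))))))))) (M (nat_lit 269) (B (M (nat_lit 267) (B (L (nat_lit 236) ln11_11_6 ln11_11_6_ok) (M (nat_lit 266) (B (L (nat_lit 234) ln11_11_7 ln11_11_7_ok) (M (nat_lit 298) (B (L (nat_lit 270) ln14_8_1_c10 ln14_8_1_c10_ok) (L (nat_lit 297) ln13_8_1_c10 ln13_8_1_c10_ok))))))) (B (M (nat_lit 333) (B (M (nat_lit 236) (B (L (nat_lit 301) ln13_11_7 ln13_11_7_ok) (L (nat_lit 267) ln11_11_6 ln11_11_6_ok))) (M (nat_lit 334) (B (L (nat_lit 362) ln10_11_2 ln10_11_2_ok) (M (nat_lit 335) (B (L (nat_lit 336) ln16_10_1 ln16_10_1_ok) (L (nat_lit 366) ln11_11_2 ln11_11_2_ok))))))) (B (M (nat_lit 298) (B (M (nat_lit 267) (B (L (nat_lit 270) ln14_8_1_c10 ln14_8_1_c10_ok) (M (nat_lit 297) (B (L (nat_lit 300) ln9_9_2 ln9_9_2_ok) (L (nat_lit 266) ln13_8_1_c10 ln13_8_1_c10_ok))))) (B (M (nat_lit 297) (B (L (nat_lit 300) ln9_9_2 ln9_9_2_ok)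 (M (nat_lit 267) (B (L (nat_lit 266) ln13_8_1_c10 ln13_8_1_c10_ok) (L (nat_lit 296) ln8_9_2 ln8_9_2_ok))))) (B (M (nat_lit 267) (B (L (nat_lit 270) ln14_8_1_c10 ln14_8_1_c10_ok) (M (nat_lit 297) (B (L (nat_lit 266) ln13_8_1_c10 ln13_8_1_c10_ok) (L (nat_lit 296) ln8_9_2 ln8_9_2_ok))))) (B (M (nat_lit 300) (B (L (nat_lit 297) ln9_9_2 ln9_9_2_ok) (M (nat_lit 270) (B (L (nat_lit 271) ln15_8_1 ln15_8_1_ok) (L (nat_lit 301) ln10_9_2 ln10_9_2_ok))))) (M (nat_lit 270) (B (L (nat_lit 267) ln14_8_1_c10 ln14_8_1_c10_ok) (M (nat_lit 300) (B (L (nat_lit 271) ln15_8_1 ln15_8_1_ok) (L (nat_lit 301) ln10_9_2 ln10_9_2_ok)))))))))) (M (nat_lit 333) (B (M (nat_lit 334) (B (L (nat_lit 362) ln10_11_2 ln10_11_2_ok) (M (nat_lit 335) (B (L (nat_lit 336) ln16_10_1 ln16_10_1_ok) (L (nat_lit 366) ln11_11_2 ln11_11_2_ok))))) (M (nat_lit 301) (B (L (nat_lit 236) ln13_11_7 ln13_11_7_ok) (M (nat_lit 270) (B (L (nat_lit 238) ln13_11_6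 ln13_11_6_ok) (M (nat_lit 300) (B (L (nat_lit 271) ln15_8_1 ln15_8_1_ok) (L (nat_lit 298) ln10_9_2 ln10_9_2_ok))))))))))))))))))) (B (M (nat_lit 395) (B (M (nat_lit 396) (B (L (nat_lit 428) ln11_9_4 ln11_9_4_ok) (M (nat_lit 366) (B (L (nat_lit 367) ln15_11_1 ln15_11_1_ok) (M (nat_lit 334) (B (L (nat_lit 335) ln11_11_2 ln11_11_2_ok) (M (nat_lit 333) (B (L (nat_lit 362) ln10_11_2 ln10_11_2_ok) (M (nat_lit 301) (B (L (nat_lit 269) ln13_8_5 ln13_8_5_ok) (M (nat_lit 300) (B (L (nat_lit 298) ln10_9_0 ln10_9_0_ok) (L (nat_lit 268) ln11_12_6 ln11_12_6_ok))))))))))))) (B (K (nat_lit 5954262830815946494521163372829474515563028514806217663843794426329357761622001487384785590630652834202568832394275528750464958657172865024) (nat_lit 54918381303421571333730218684158387864109698654139599256441216224753107872496161152256290793581639932928370078377784921849678231783637472857664690801791205376) (nat_lit 54918381303421571333730218684158387864109698654139599256441216224753107872496161152256290793581639932928370078377784921849678231783637472857664690801791205376)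 c10_s129) (M (nat_lit 334) (B (M (nat_lit 335) (B (L (nat_lit 366) ln11_11_2 ln11_11_2_ok) (M (nat_lit 333) (B (L (nat_lit 336) ln16_10_1 ln16_10_1_ok) (L (nat_lit 362) ln10_11_2 ln10_11_2_ok))))) (B (M (nat_lit 300) (B (L (nat_lit 268) ln11_12_6 ln11_12_6_ok) (M (nat_lit 333) (B (L (nat_lit 362) ln10_11_2 ln10_11_2_ok) (M (nat_lit 298) (B (L (nat_lit 301) ln10_9_0 ln10_9_0_ok) (L (nat_lit 266) ln11_12_7 ln11_12_7_ok))))))) (M (nat_lit 302) (B (M (nat_lit 335) (B (L (nat_lit 366) ln11_11_2 ln11_11_2_ok) (M (nat_lit 300) (B (L (nat_lit 301) ln11_9_0_c10 ln11_9_0_c10_ok) (L (nat_lit 268) ln11_12_6 ln11_12_6_ok))))) (B (M (nat_lit 270) (B (M (nat_lit 300) (B (L (nat_lit 268) ln11_12_6 ln11_12_6_ok) (M (nat_lit 301) (B (L (nat_lit 271) ln11_9_2 ln11_9_2_ok) (M (nat_lit 298) (B (L (nat_lit 269) ln10_9_2 ln10_9_2_ok) (L (nat_lit 266) ln11_12_7 ln11_12_7_ok))))))) (B (M (nat_lit 269) (B (M (nat_lit 366) (B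 (L (nat_lit 237) ln14_11_7_c10 ln14_11_7_c10_ok) (M (nat_lit 399) (B (L (nat_lit 367) ln14_8_4_c10 ln14_8_4_c10_ok) (L (nat_lit 398) ln11_11_0 ln11_11_0_ok))))) (B (M (nat_lit 366) (B (L (nat_lit 237) ln14_11_7_c10 ln14_11_7_c10_ok) (M (nat_lit 398) (B (L (nat_lit 399) ln11_11_0 ln11_11_0_ok) (L (nat_lit 301) ln14_12_7 ln14_12_7_ok))))) (M (nat_lit 300) (B (L (nat_lit 268) ln11_12_6 ln11_12_6_ok) (M (nat_lit 298) (B (L (nat_lit 301) ln10_9_2 ln10_9_2_ok) (L (nat_lit 266) ln11_12_7 ln11_12_7_ok)))))))) (B (M (nat_lit 366) (B (M (nat_lit 399) (B (L (nat_lit 367) ln14_8_4_c10 ln14_8_4_c10_ok) (L (nat_lit 398) ln11_11_0 ln11_11_0_ok))) (M (nat_lit 271) (B (L (nat_lit 239) ln14_11_6_c10 ln14_11_6_c10_ok) (M (nat_lit 300) (B (L (nat_lit 301) ln11_9_2 ln11_9_2_ok) (L (nat_lit 268) ln11_12_6 ln11_12_6_ok))))))) (M (nat_lit 366) (B (M (nat_lit 399) (B (L (nat_lit 367) ln14_8_4_c10 ln14_8_4_c10_ok) (L (nat_lit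 398) ln11_11_0 ln11_11_0_ok))) (M (nat_lit 238) (B (M (nat_lit 239) (B (L (nat_lit 207) ln14_10_6_c10 ln14_10_6_c10_ok) (L (nat_lit 271) ln14_11_6_c10 ln14_11_6_c10_ok))) (M (nat_lit 237) (B (L (nat_lit 205) ln14_10_7_c10 ln14_10_7_c10_ok) (L (nat_lit 269) ln14_11_7_c10 ln14_11_7_c10_ok))))))))))) (B (M (nat_lit 300) (B (L (nat_lit 268) ln11_12_6 ln11_12_6_ok) (M (nat_lit 301) (B (L (nat_lit 335) ln11_9_0_c10 ln11_9_0_c10_ok) (M (nat_lit 270) (B (L (nat_lit 271) ln11_9_2 ln11_9_2_ok) (M (nat_lit 298) (B (L (nat_lit 269) ln10_9_2 ln10_9_2_ok) (L (nat_lit 266) ln11_12_7 ln11_12_7_ok))))))))) (M (nat_lit 366) (B (L (nat_lit 335) ln11_11_2 ln11_11_2_ok) (M (nat_lit 399) (B (L (nat_lit 398) ln11_11_0 ln11_11_0_ok) (M (nat_lit 367) (B (L (nat_lit 400) ln12_11_0 ln12_11_0_ok) (L (nat_lit 270) ln14_8_4_c10 ln14_8_4_c10_ok))))))))))))))))) (M (nat_lit 267) (B (L (nat_lit 396) ln11_8_4 ln11_8_4_ok) (M (nat_lit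 235) (B (M (nat_lit 236) (B (L (nat_lit 204) ln11_10_6 ln11_10_6_ok) (L (nat_lit 268) ln11_11_6 ln11_11_6_ok))) (M (nat_lit 234) (B (L (nat_lit 202) ln11_10_7 ln11_10_7_ok) (L (nat_lit 266) ln11_11_7 ln11_11_7_ok)))))))))
theorem c10_s130 : Sem (nat_lit 5954262830815946494440468064139258622136281040680105024782823877260310304001838693412364618245793578745074344879594030868211316179932807168) (nat_lit 54918381303421571333730218684158387868709331249942219528251963649539941374610984882925466289370258259592839859299733627306204889750197922750275298654687330304) (nat_lit 54918381303421571333730218684158387868709331249942219528251963649539941374610984882925466289370258259592839859299733627306204889750197922750275298654687330304) :=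
  sem_of_chk (M (nat_lit 299) (B (M (nat_lit 396) (B (L (nat_lit 267) ln11_8_4 ln11_8_4_ok) (M (nat_lit 428) (B (L (nat_lit 460) ln12_14_7 ln12_14_7_ok) (L (nat_lit 395) ln11_9_4 ln11_9_4_ok))))) c10_d79)) (nat_lit 5954262830815946494440468064139258622136281040680105024782823877260310304001838693412364618245793578745074344879594030868211316179932807168) (nat_lit 54918381303421571333730218684158387868709331249942219528251963649539941374610984882925466289370258259592839859299733627306204889750197922750275298654687330304) (nat_lit 54918381303421571333730218684158387868709331249942219528251963649539941374610984882925466289370258259592839859299733627306204889750197922750275298654687330304) (by decide +kernel)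
noncomputable def c10_d80 : Cert := (B (M (nat_lit 457) (B (L (nat_lit 328) ln9_14_7_c10 ln9_14_7_c10_ok) (M (nat_lit 489) (B (M (nat_lit 488) (B (L (nat_lit 456) ln9_11_5_c10 ln9_11_5_c10_ok) (L (nat_lit 520) ln9_12_5_c10 ln9_12_5_c10_ok))) (M (nat_lit 362) (B (L (nat_lit 330) ln9_14_6_c10 ln9_14_6_c10_ok) (L (nat_lit 394) ln10_11_5 ln10_11_5_ok))))))) (B (M (nat_lit 362) (B (M (nat_lit 457) (B (L (nat_lit 330) ln9_14_6_c10 ln9_14_6_c10_ok) (M (nat_lit 394) (B (L (nat_lit 489) ln10_11_5 ln10_11_5_ok) (M (nat_lit 359) (B (L (nat_lit 358) ln6_11_0_c10 ln6_11_0_c10_ok) (L (nat_lit 395) ln7_11_0 ln7_11_0_ok))))))) (B (M (nat_lit 394) (B (M (nat_lit 395) (B (L (nat_lit 359) ln7_11_0 ln7_11_0_ok) (L (nat_lit 396) ln12_12_3 ln12_12_3_ok))) (M (nat_lit 457) (B (L (nat_lit 330) ln10_10_5 ln10_10_5_ok) (L (nat_lit 489) ln10_11_5 ln10_11_5_ok))))) (B (M (nat_lit 457) (B (L (nat_lit 330) ln9_14_6_c10 ln9_14_6_c10_ok)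 (M (nat_lit 489) (B (L (nat_lit 394) ln10_11_5 ln10_11_5_ok) (M (nat_lit 488) (B (L (nat_lit 456) ln9_11_5_c10 ln9_11_5_c10_ok) (L (nat_lit 520) ln9_12_5_c10 ln9_12_5_c10_ok))))))) (B (M (nat_lit 394) (B (M (nat_lit 359) (B (L (nat_lit 358) ln6_11_0_c10 ln6_11_0_c10_ok) (L (nat_lit 395) ln7_11_0 ln7_11_0_ok))) (B (M (nat_lit 395) (B (L (nat_lit 359) ln7_11_0 ln7_11_0_ok) (L (nat_lit 396) ln12_12_3 ln12_12_3_ok))) (M (nat_lit 330) (B (L (nat_lit 298) ln10_9_5_c10 ln10_9_5_c10_ok) (M (nat_lit 331) (B (L (nat_lit 299) ln10_13_6 ln10_13_6_ok) (L (nat_lit 363) ln10_14_6 ln10_14_6_ok)))))))) (B (M (nat_lit 363) (B (M (nat_lit 331) (B (L (nat_lit 332) ln8_11_2 ln8_11_2_ok) (L (nat_lit 394) ln10_14_6 ln10_14_6_ok))) (B (M (nat_lit 364) (B (L (nat_lit 332) ln13_14_7 ln13_14_7_ok) (L (nat_lit 396) ln9_11_0 ln9_11_0_ok))) (M (nat_lit 359) (B (M (nat_lit 394) (B (L (nat_lit 358) ln6_11_0_c10 ln6_11_0_c10_ok) (L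 (nat_lit 395) ln7_11_0 ln7_11_0_ok))) (B (M (nat_lit 395) (B (L (nat_lit 394) ln7_11_0 ln7_11_0_ok) (L (nat_lit 396) ln8_11_0 ln8_11_0_ok))) (M (nat_lit 358) (B (M (nat_lit 326) (B (L (nat_lit 325) ln9_11_3_c10 ln9_11_3_c10_ok) (L (nat_lit 327) ln10_11_3 ln10_11_3_ok))) (M (nat_lit 390) (B (L (nat_lit 389) ln9_11_1_c10 ln9_11_1_c10_ok) (L (nat_lit 391) ln10_11_1 ln10_11_1_ok))))))))))) (M (nat_lit 330) (B (L (nat_lit 457) ln9_14_6_c10 ln9_14_6_c10_ok) (M (nat_lit 331) (B (L (nat_lit 359) ln7_11_2 ln7_11_2_ok) (M (nat_lit 332) (B (L (nat_lit 363) ln8_11_2 ln8_11_2_ok) (L (nat_lit 333) ln13_10_1 ln13_10_1_ok))))))))))))) (B (M (nat_lit 359) (B (M (nat_lit 394) (B (L (nat_lit 358) ln6_11_0_c10 ln6_11_0_c10_ok) (M (nat_lit 395) (B (L (nat_lit 362) ln7_11_0 ln7_11_0_ok) (L (nat_lit 396) ln12_12_3 ln12_12_3_ok))))) (B (M (nat_lit 362) (B (M (nat_lit 394) (B (L (nat_lit 395) ln7_11_0 ln7_11_0_ok) (M (nat_lit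 331) (B (L (nat_lit 330) ln7_11_2 ln7_11_2_ok) (L (nat_lit 363) ln10_14_6 ln10_14_6_ok))))) (B (M (nat_lit 363) (B (M (nat_lit 327) (B (L (nat_lit 326) ln10_11_3 ln10_11_3_ok) (L (nat_lit 328) ln11_11_3 ln11_11_3_ok))) (M (nat_lit 394) (B (L (nat_lit 395) ln7_11_0 ln7_11_0_ok) (L (nat_lit 331) ln10_14_6 ln10_14_6_ok))))) (B (M (nat_lit 363) (B (M (nat_lit 327) (B (L (nat_lit 326) ln10_11_3 ln10_11_3_ok) (L (nat_lit 328) ln11_11_3 ln11_11_3_ok))) (M (nat_lit 331) (B (L (nat_lit 330) ln7_11_2 ln7_11_2_ok) (L (nat_lit 332) ln8_11_2 ln8_11_2_ok))))) (B (M (nat_lit 363) (B (M (nat_lit 327) (B (L (nat_lit 326) ln10_11_3 ln10_11_3_ok) (L (nat_lit 328) ln11_11_3 ln11_11_3_ok))) (M (nat_lit 395) (B (L (nat_lit 394) ln7_11_0 ln7_11_0_ok) (L (nat_lit 396) ln8_11_0 ln8_11_0_ok))))) (M (nat_lit 394) (B (L (nat_lit 395) ln7_11_0 ln7_11_0_ok) (M (nat_lit 330) (B (L (nat_lit 331) ln7_11_2 ln7_11_2_ok) (L (nat_lit 298)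 ln10_9_5_c10 ln10_9_5_c10_ok)))))))))) (B (M (nat_lit 358) (B (L (nat_lit 394) ln6_11_0_c10 ln6_11_0_c10_ok) (M (nat_lit 357) (B (M (nat_lit 325) (B (L (nat_lit 324) ln8_11_3_c10 ln8_11_3_c10_ok) (L (nat_lit 326) ln9_11_3_c10 ln9_11_3_c10_ok))) (M (nat_lit 389) (B (L (nat_lit 388) ln8_11_1_c10 ln8_11_1_c10_ok) (L (nat_lit 390) ln9_11_1_c10 ln9_11_1_c10_ok))))))) (M (nat_lit 391) (B (M (nat_lit 390) (B (L (nat_lit 362) ln10_11_1 ln10_11_1_ok) (M (nat_lit 389) (B (L (nat_lit 388) ln4_12_2_c10 ln4_12_2_c10_ok) (L (nat_lit 358) ln9_11_1_c10 ln9_11_1_c10_ok))))) (B (M (nat_lit 423) (B (M (nat_lit 424) (B (L (nat_lit 390) ln10_13_3_c10 ln10_13_3_c10_ok) (L (nat_lit 459) ln7_13_0 ln7_13_0_ok))) (B (M (nat_lit 424) (B (L (nat_lit 459) ln7_13_0 ln7_13_0_ok) (M (nat_lit 455) (B (L (nat_lit 454) ln10_13_1_c10 ln10_13_1_c10_ok) (L (nat_lit 328) ln7_14_6_c10 ln7_14_6_c10_ok))))) (M (nat_lit 328) (B (L (nat_lit 455)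 ln7_14_6_c10 ln7_14_6_c10_ok) (M (nat_lit 296) (B (L (nat_lit 327) ln7_13_6_c10 ln7_13_6_c10_ok) (L (nat_lit 264) ln8_8_4_c10 ln8_8_4_c10_ok)))))))) (M (nat_lit 423) (B (M (nat_lit 328) (B (L (nat_lit 455) ln7_14_6_c10 ln7_14_6_c10_ok) (M (nat_lit 296) (B (L (nat_lit 327) ln7_13_6_c10 ln7_13_6_c10_ok) (L (nat_lit 264) ln8_8_4_c10 ln8_8_4_c10_ok))))) (B (M (nat_lit 424) (B (L (nat_lit 459) ln7_13_0 ln7_13_0_ok) (M (nat_lit 455) (B (L (nat_lit 454) ln10_13_1_c10 ln10_13_1_c10_ok) (L (nat_lit 328) ln7_14_6_c10 ln7_14_6_c10_ok))))) (M (nat_lit 327) (B (M (nat_lit 326) (B (L (nat_lit 294) ln7_13_7_c10 ln7_13_7_c10_ok) (L (nat_lit 362) ln10_11_3 ln10_11_3_ok))) (M (nat_lit 424) (B (L (nat_lit 456) ln7_10_4_c10 ln7_10_4_c10_ok) (L (nat_lit 459) ln7_13_0 ln7_13_0_ok))))))))))))))) (B (M (nat_lit 457) (B (L (nat_lit 328) ln9_14_7_c10 ln9_14_7_c10_ok) (M (nat_lit 489) (B (M (nat_lit 488) (B (L (nat_lit 456) ln9_11_5_c10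 ln9_11_5_c10_ok) (L (nat_lit 520) ln9_12_5_c10 ln9_12_5_c10_ok))) (M (nat_lit 521) (B (L (nat_lit 394) ln9_16_6 ln9_16_6_ok) (L (nat_lit 553) ln9_17_6 ln9_17_6_ok))))))) (M (nat_lit 457) (B (L (nat_lit 328) ln9_14_7_c10 ln9_14_7_c10_ok) (M (nat_lit 423) (B (M (nat_lit 424) (B (L (nat_lit 422) ln6_13_0_c10 ln6_13_0_c10_ok) (L (nat_lit 459) ln7_13_0 ln7_13_0_ok))) (B (L (nat_lit 459) ln13_14_3 ln13_14_3_ok) (M (nat_lit 456) (B (L (nat_lit 488) ln9_11_5_c10 ln9_11_5_c10_ok) (M (nat_lit 455) (B (L (nat_lit 422) ln10_14_3 ln10_14_3_ok) (L (nat_lit 454) ln6_14_2_c10 ln6_14_2_c10_ok))))))))))))))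
noncomputable def c10_d81 : Cert := (B (M (nat_lit 394) (B (M (nat_lit 362) (B (M (nat_lit 391) (B (L (nat_lit 390) ln6_12_0_c10 ln6_12_0_c10_ok) (L (nat_lit 363) ln7_12_2_c10 ln7_12_2_c10_ok))) (M (nat_lit 457) (B (L (nat_lit 489) ln9_15_6 ln9_15_6_ok) (L (nat_lit 330) ln10_10_5 ln10_10_5_ok))))) (B (M (nat_lit 362) (B (M (nat_lit 457) (B (L (nat_lit 489) ln9_15_6 ln9_15_6_ok) (L (nat_lit 330) ln10_10_5 ln10_10_5_ok))) (M (nat_lit 363) (B (L (nat_lit 391) ln7_12_2_c10 ln7_12_2_c10_ok) (L (nat_lit 364) ln13_11_1 ln13_11_1_ok))))) (B (K (nat_lit 20839919904649913397107835672579505273926717642194465157222452984167110780875138656328762617000672594930543398469799250924763441021337993216) (nat_lit 4795005774401788347985169975044107338953597666945913846965213980232689499274791734010991350784416971214092429565845724600885167877763836135163822080) (nat_lit 4795005774401788347985169975044107338953597666945913846965213980232689499274791734010991350784416971214092429565845724600885167877763836135163822080)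 c10_s236) (M (nat_lit 395) (B (M (nat_lit 424) (B (L (nat_lit 423) ln11_12_1 ln11_12_1_ok) (L (nat_lit 396) ln12_12_1 ln12_12_1_ok))) (B (L (nat_lit 396) ln13_12_1 ln13_12_1_ok) (M (nat_lit 423) (B (L (nat_lit 424) ln11_12_1 ln11_12_1_ok) (M (nat_lit 391) (B (L (nat_lit 390) ln6_12_0_c10 ln6_12_0_c10_ok) (L (nat_lit 422) ln10_12_1_c10 ln10_12_1_c10_ok)))))))))))) (B (M (nat_lit 423) (B (M (nat_lit 391) (B (L (nat_lit 390) ln6_12_0_c10 ln6_12_0_c10_ok) (M (nat_lit 422) (B (L (nat_lit 394) ln10_12_1_c10 ln10_12_1_c10_ok) (M (nat_lit 421) (B (L (nat_lit 420) ln4_13_2_c10 ln4_13_2_c10_ok) (L (nat_lit 424) ln5_13_2_c10 ln5_13_2_c10_ok))))))) (B (K (nat_lit 20839919904671574879052806884324853688026961746565015261337424898147673535210711332850046448086659251312143780278682966144213419364177674240) (nat_lit 54153705091905313455282431702777598618418258132595526260505091693652111863274420512347761348828205966720509987856092502951985152)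 (nat_lit 54153705091905313455282431702777598618418258132595526260505091693652111863274420512347761348828205966720509987856092502951985152) c10_s237) (B (K (nat_lit 20839919904671574879052806884324853688026961746565015261337424898147673535210711332850046448086659251312143780278682966144213419364177674240) (nat_lit 1716199415432236243511545953931193712277651022891900320961054422732019995665933935687699522909516113812744580233771671870167500786609892680063422168626626560) (nat_lit 1716199415432236243511545953931193712277651022891900320961054422732019995665933935687699522909516113812744580233771671870167500786609892680063422168626626560) c10_s238) (B (K (nat_lit 20839919904671574879052806884324853688026961746565015261337424898147673535210711332850046448086659251312143780278682966144213419364177674240) (nat_lit 399583814766070754144599296478868233479700844948336533821617544490964075590966803221847929826037071501533510364981679913744254558036933562771439616)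 (nat_lit 399583814766070754144599296478868233479700844948336533821617544490964075590966803221847929826037071501533510364981679913744254558036933562771439616) c10_s239) (B (M (nat_lit 391) (B (L (nat_lit 390) ln6_12_0_c10 ln6_12_0_c10_ok) (M (nat_lit 394) (B (L (nat_lit 422) ln10_12_1_c10 ln10_12_1_c10_ok) (M (nat_lit 395) (B (M (nat_lit 359) (B (L (nat_lit 358) ln10_12_3_c10 ln10_12_3_c10_ok) (L (nat_lit 360) ln11_12_3 ln11_12_3_ok))) (M (nat_lit 363) (B (L (nat_lit 362) ln7_12_2_c10 ln7_12_2_c10_ok) (L (nat_lit 364) ln8_12_2 ln8_12_2_ok))))))))) (M (nat_lit 424) (B (M (nat_lit 422) (B (L (nat_lit 421) ln5_13_2_c10 ln5_13_2_c10_ok) (M (nat_lit 454) (B (L (nat_lit 453) ln9_13_1_c10 ln9_13_1_c10_ok) (L (nat_lit 455) ln10_13_1_c10 ln10_13_1_c10_ok))))) (B (M (nat_lit 422) (B (M (nat_lit 390) (B (L (nat_lit 389) ln9_13_3_c10 ln9_13_3_c10_ok) (L (nat_lit 391) ln6_12_0_c10 ln6_12_0_c10_ok))) (M (nat_lit 454)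 (B (L (nat_lit 453) ln9_13_1_c10 ln9_13_1_c10_ok) (L (nat_lit 455) ln10_13_1_c10 ln10_13_1_c10_ok))))) (B (M (nat_lit 390) (B (L (nat_lit 391) ln6_12_0_c10 ln6_12_0_c10_ok) (M (nat_lit 422) (B (L (nat_lit 389) ln9_13_3_c10 ln9_13_3_c10_ok) (L (nat_lit 421) ln5_13_2_c10 ln5_13_2_c10_ok))))) (M (nat_lit 391) (B (L (nat_lit 390) ln6_12_0_c10 ln6_12_0_c10_ok) (M (nat_lit 455) (B (L (nat_lit 454) ln10_13_1_c10 ln10_13_1_c10_ok) (M (nat_lit 360) (B (L (nat_lit 487) ln7_15_6_c10 ln7_15_6_c10_ok) (L (nat_lit 328) ln8_10_5_c10 ln8_10_5_c10_ok))))))))))))))))) (M (nat_lit 424) (B (M (nat_lit 457) (B (M (nat_lit 489) (B (L (nat_lit 360) ln9_15_7 ln9_15_7_ok) (L (nat_lit 521) ln9_16_7 ln9_16_7_ok))) (M (nat_lit 458) (B (M (nat_lit 423) (B (L (nat_lit 422) ln6_13_0_c10 ln6_13_0_c10_ok) (L (nat_lit 459) ln7_13_0 ln7_13_0_ok))) (M (nat_lit 490) (B (L (nat_lit 361) ln9_11_4 ln9_11_4_ok) (L (nat_lit 522) ln10_16_7 ln10_16_7_ok)))))))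 (B (K (nat_lit 20839919904693236361038125750415310048840579587998112425988798465141192906934263061817277898266659051359832370732568834979849384769091534848) (nat_lit 24026791816450891220485405910040027012495761292395723990703859488767485730742447612776203533551123392151449895136860694682526830405291404644335440841502883840) (nat_lit 24026791816450891220485405910040027012495761292395723990703859488767485730742447612776203533551123392151449895136860694682526830405291404644335440841502883840) c10_s234) (B (M (nat_lit 488) (B (M (nat_lit 456) (B (L (nat_lit 361) ln8_15_6_c10 ln8_15_6_c10_ok) (L (nat_lit 520) ln8_16_6_c10 ln8_16_6_c10_ok))) (B (M (nat_lit 457) (B (M (nat_lit 489) (B (L (nat_lit 521) ln9_16_7 ln9_16_7_ok) (L (nat_lit 520) ln9_12_5_c10 ln9_12_5_c10_ok))) (M (nat_lit 458) (B (M (nat_lit 423) (B (L (nat_lit 422) ln6_13_0_c10 ln6_13_0_c10_ok) (L (nat_lit 459) ln7_13_0 ln7_13_0_ok))) (M (nat_lit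 490) (B (L (nat_lit 361) ln9_11_4 ln9_11_4_ok) (L (nat_lit 522) ln10_16_7 ln10_16_7_ok))))))) (B (M (nat_lit 456) (B (L (nat_lit 361) ln8_15_6_c10 ln8_15_6_c10_ok) (M (nat_lit 391) (B (L (nat_lit 390) ln6_12_0_c10 ln6_12_0_c10_ok) (L (nat_lit 359) ln8_15_7_c10 ln8_15_7_c10_ok))))) (M (nat_lit 456) (B (L (nat_lit 520) ln8_16_6_c10 ln8_16_6_c10_ok) (M (nat_lit 391) (B (L (nat_lit 390) ln6_12_0_c10 ln6_12_0_c10_ok) (L (nat_lit 359) ln8_15_7_c10 ln8_15_7_c10_ok))))))))) (M (nat_lit 423) (B (M (nat_lit 390) (B (L (nat_lit 391) ln6_12_0_c10 ln6_12_0_c10_ok) (M (nat_lit 422) (B (L (nat_lit 389) ln9_13_3_c10 ln9_13_3_c10_ok) (L (nat_lit 421) ln5_13_2_c10 ln5_13_2_c10_ok))))) (B (M (nat_lit 422) (B (L (nat_lit 421) ln5_13_2_c10 ln5_13_2_c10_ok) (M (nat_lit 454) (B (L (nat_lit 453) ln9_13_1_c10 ln9_13_1_c10_ok) (L (nat_lit 455) ln10_13_1_c10 ln10_13_1_c10_ok))))) (B (M (nat_lit 422) (B (M (nat_lit 390) (B (L (nat_lit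 389) ln9_13_3_c10 ln9_13_3_c10_ok) (L (nat_lit 391) ln6_12_0_c10 ln6_12_0_c10_ok))) (M (nat_lit 454) (B (L (nat_lit 453) ln9_13_1_c10 ln9_13_1_c10_ok) (L (nat_lit 455) ln10_13_1_c10 ln10_13_1_c10_ok))))) (M (nat_lit 391) (B (L (nat_lit 390) ln6_12_0_c10 ln6_12_0_c10_ok) (M (nat_lit 455) (B (L (nat_lit 454) ln10_13_1_c10 ln10_13_1_c10_ok) (M (nat_lit 360) (B (L (nat_lit 487) ln7_15_6_c10 ln7_15_6_c10_ok) (L (nat_lit 328) ln8_10_5_c10 ln8_10_5_c10_ok)))))))))))))))))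
noncomputable def c10_d82 : Cert := (B (M (nat_lit 394) (B (M (nat_lit 362) (B (M (nat_lit 391) (B (L (nat_lit 390) ln6_12_0_c10 ln6_12_0_c10_ok) (L (nat_lit 363) ln7_12_2_c10 ln7_12_2_c10_ok))) (M (nat_lit 457) (B (L (nat_lit 489) ln9_15_6 ln9_15_6_ok) (L (nat_lit 330) ln10_10_5 ln10_10_5_ok))))) (B (K (nat_lit 20839919904649913397107835672579505273926717642194465157222452984167110780875138656328762617000672594930543398469799250924763441021337993216) (nat_lit 13729595325056225205854155653516190062420652530782530659213933339164030759396817176643342282048940219427379627946131837649440362464235613079317245094157877248) (nat_lit 13729595325056225205854155653516190062420652530782530659213933339164030759396817176643342282048940219427379627946131837649440362464235613079317245094157877248) c10_s232) (M (nat_lit 395) (B (M (nat_lit 424) (B (L (nat_lit 423) ln11_12_1 ln11_12_1_ok) (L (nat_lit 396) ln12_12_1 ln12_12_1_ok)))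 (M (nat_lit 391) (B (L (nat_lit 390) ln6_12_0_c10 ln6_12_0_c10_ok) (M (nat_lit 363) (B (L (nat_lit 362) ln7_12_2_c10 ln7_12_2_c10_ok) (L (nat_lit 364) ln8_12_2 ln8_12_2_ok)))))))))) (B (M (nat_lit 394) (B (K (nat_lit 20839919904649913397107835672579505273926717642194465157222452984167110780875138656328762617000672594930543398469799250924763441021337993216) (nat_lit 75815187195745414184493385986930792672747413109648948979584526994392307390477001781011170915650909315300205071038394902708748288) (nat_lit 75815187195745414184493385986930792672747413109648948979584526994392307390477001781011170915650909315300205071038394902708748288) c10_s233) (B (M (nat_lit 395) (B (M (nat_lit 424) (B (L (nat_lit 423) ln11_12_1 ln11_12_1_ok) (L (nat_lit 396) ln12_12_1 ln12_12_1_ok))) (B (L (nat_lit 396) ln13_12_1 ln13_12_1_ok) (M (nat_lit 362) (B (M (nat_lit 363) (B (L (nat_lit 391) ln7_12_2_c10 ln7_12_2_c10_ok) (L (nat_lit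 364) ln13_11_1 ln13_11_1_ok))) (M (nat_lit 457) (B (L (nat_lit 489) ln9_15_6 ln9_15_6_ok) (L (nat_lit 330) ln10_10_5 ln10_10_5_ok)))))))) (B (K (nat_lit 20839919904649913397107835672579505273926717642194465157222452984167110780875138656328762617000672594930543398469799250924763441021337993216) (nat_lit 13729595325056225205854155653516190062420652530782530659213933339164030759396817176643342282048940219427379627946131837649440362464235613079317245094157877248) (nat_lit 13729595325056225205854155653516190062420652530782530659213933339164030759396817176643342282048940219427379627946131837649440362464235613079317245094157877248) c10_s232) (B (M (nat_lit 395) (B (L (nat_lit 396) ln13_12_1 ln13_12_1_ok) (M (nat_lit 362) (B (M (nat_lit 363) (B (L (nat_lit 391) ln7_12_2_c10 ln7_12_2_c10_ok) (L (nat_lit 364) ln13_11_1 ln13_11_1_ok))) (M (nat_lit 457) (B (L (nat_lit 489) ln9_15_6 ln9_15_6_ok) (L (nat_lit 330)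 ln10_10_5 ln10_10_5_ok))))))) (M (nat_lit 362) (B (M (nat_lit 457) (B (L (nat_lit 489) ln9_15_6 ln9_15_6_ok) (L (nat_lit 330) ln10_10_5 ln10_10_5_ok))) (M (nat_lit 363) (B (L (nat_lit 391) ln7_12_2_c10 ln7_12_2_c10_ok) (L (nat_lit 364) ln13_11_1 ln13_11_1_ok)))))))))) (B (M (nat_lit 457) (B (M (nat_lit 489) (B (L (nat_lit 360) ln9_15_7 ln9_15_7_ok) (M (nat_lit 521) (B (L (nat_lit 424) ln9_16_7 ln9_16_7_ok) (L (nat_lit 394) ln9_16_6 ln9_16_6_ok))))) (B (M (nat_lit 489) (B (M (nat_lit 521) (B (L (nat_lit 424) ln9_16_7 ln9_16_7_ok) (L (nat_lit 394) ln9_16_6 ln9_16_6_ok))) (B (M (nat_lit 394) (B (L (nat_lit 362) ln9_15_6 ln9_15_6_ok) (L (nat_lit 521) ln9_16_6 ln9_16_6_ok))) (M (nat_lit 361) (B (M (nat_lit 488) (B (L (nat_lit 456) ln9_11_5_c10 ln9_11_5_c10_ok) (L (nat_lit 520) ln9_12_5_c10 ln9_12_5_c10_ok))) (M (nat_lit 490) (B (L (nat_lit 458) ln9_11_4 ln9_11_4_ok) (L (nat_lit 522) ln9_12_4 ln9_12_4_ok))))))))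 (B (M (nat_lit 489) (B (L (nat_lit 360) ln9_15_7 ln9_15_7_ok) (M (nat_lit 394) (B (L (nat_lit 362) ln9_15_6 ln9_15_6_ok) (L (nat_lit 521) ln9_16_6 ln9_16_6_ok))))) (B (M (nat_lit 391) (B (L (nat_lit 390) ln6_12_0_c10 ln6_12_0_c10_ok) (M (nat_lit 360) (B (M (nat_lit 328) (B (L (nat_lit 296) ln8_9_4_c10 ln8_9_4_c10_ok) (L (nat_lit 424) ln8_10_4_c10 ln8_10_4_c10_ok))) (B (M (nat_lit 328) (B (L (nat_lit 424) ln8_10_4_c10 ln8_10_4_c10_ok) (L (nat_lit 361) ln9_14_7_c10 ln9_14_7_c10_ok))) (M (nat_lit 362) (B (M (nat_lit 363) (B (L (nat_lit 361) ln11_11_1 ln11_11_1_ok) (L (nat_lit 394) ln7_12_2_c10 ln7_12_2_c10_ok))) (B (M (nat_lit 394) (B (L (nat_lit 363) ln7_12_2_c10 ln7_12_2_c10_ok) (L (nat_lit 330) ln10_10_5 ln10_10_5_ok))) (B (M (nat_lit 361) (B (L (nat_lit 363) ln11_11_1 ln11_11_1_ok) (L (nat_lit 330) ln9_14_6_c10 ln9_14_6_c10_ok))) (M (nat_lit 330) (B (L (nat_lit 361) ln9_14_6_c10 ln9_14_6_c10_ok) (L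 (nat_lit 394) ln10_10_5 ln10_10_5_ok)))))))))))) (M (nat_lit 360) (B (L (nat_lit 489) ln9_15_7 ln9_15_7_ok) (M (nat_lit 328) (B (L (nat_lit 296) ln8_9_4_c10 ln8_9_4_c10_ok) (L (nat_lit 361) ln9_14_7_c10 ln9_14_7_c10_ok)))))))))) (B (M (nat_lit 424) (B (M (nat_lit 457) (B (M (nat_lit 489) (B (L (nat_lit 360) ln9_15_7 ln9_15_7_ok) (L (nat_lit 521) ln9_16_7 ln9_16_7_ok))) (M (nat_lit 458) (B (M (nat_lit 423) (B (L (nat_lit 422) ln6_13_0_c10 ln6_13_0_c10_ok) (L (nat_lit 459) ln7_13_0 ln7_13_0_ok))) (M (nat_lit 490) (B (L (nat_lit 361) ln9_11_4 ln9_11_4_ok) (L (nat_lit 522) ln10_16_7 ln10_16_7_ok))))))) (B (K (nat_lit 20839919904693236361038125750415310048840579587998112425988798465141192906934263061817277898266659051359832370732568834979849384769091534848) (nat_lit 24026791816450891220485405910040027012495761292395723990703859488767485730742447612776203533551123392151449895136860694682526830405291404644335440841502883840)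 (nat_lit 24026791816450891220485405910040027012495761292395723990703859488767485730742447612776203533551123392151449895136860694682526830405291404644335440841502883840) c10_s234) (B (M (nat_lit 458) (B (M (nat_lit 423) (B (L (nat_lit 459) ln7_13_0 ln7_13_0_ok) (M (nat_lit 422) (B (L (nat_lit 421) ln5_13_2_c10 ln5_13_2_c10_ok) (L (nat_lit 394) ln6_13_2_c10 ln6_13_2_c10_ok))))) (B (M (nat_lit 423) (B (L (nat_lit 459) ln7_13_0 ln7_13_0_ok) (M (nat_lit 422) (B (L (nat_lit 394) ln6_13_2_c10 ln6_13_2_c10_ok) (L (nat_lit 457) ln6_13_0_c10 ln6_13_0_c10_ok))))) (B (M (nat_lit 490) (B (L (nat_lit 522) ln10_16_7 ln10_16_7_ok) (M (nat_lit 361) (B (L (nat_lit 457) ln9_11_4 ln9_11_4_ok) (L (nat_lit 394) ln10_15_7 ln10_15_7_ok))))) (M (nat_lit 423) (B (L (nat_lit 459) ln7_13_0 ln7_13_0_ok) (M (nat_lit 422) (B (L (nat_lit 421) ln5_13_2_c10 ln5_13_2_c10_ok) (L (nat_lit 457) ln6_13_0_c10 ln6_13_0_c10_ok))))))))) (K (nat_lit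 20839919904693236361038125750415310048840579587998112425988798465141192906934263061817277898266659051359832370732568834979849384769091534848) (nat_lit 1716199415432236243511545953909532230292332156801443960147436581298922831014560368694180151185964384845513130053771871822478910332724023844427456763712765952) (nat_lit 1716199415432236243511545953909532230292332156801443960147436581298922831014560368694180151185964384845513130053771871822478910332724023844427456763712765952) c10_s235))))) c10_d81))))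
noncomputable def c10_d83 : Cert := (B (K (nat_lit 20839919904693236361038125750415310048840579587998112425988798465141192906934263061817277898266659051359832370732568834979849384769091534848) (nat_lit 1716199415432236243511545953909532230292332156801443960147436581298922831014560368694180151185964384845513130053771871822478910332724023844427456763712765952) (nat_lit 1716199415432236243511545953909532230292332156801443960147436581298922831014560368694180151185964384845513130053771871822478910332724023844427456763712765952) c10_s235) (B (M (nat_lit 394) (B (M (nat_lit 423) (B (L (nat_lit 422) ln6_13_2_c10 ln6_13_2_c10_ok) (L (nat_lit 395) ln11_12_1 ln11_12_1_ok))) (B (M (nat_lit 395) (B (L (nat_lit 423) ln11_12_1 ln11_12_1_ok) (L (nat_lit 396) ln12_12_1 ln12_12_1_ok))) (B (M (nat_lit 360) (B (M (nat_lit 395) (B (L (nat_lit 359) ln11_12_3 ln11_12_3_ok) (L (nat_lit 396) ln12_12_1 ln12_12_1_ok))) (M (nat_lit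 457) (B (L (nat_lit 328) ln8_10_4_c10 ln8_10_4_c10_ok) (L (nat_lit 489) ln9_15_7 ln9_15_7_ok))))) (K (nat_lit 20839919904693236361078473404760417995553953325060659486525200118154149524322242114263225517360672195025920579377570988596035371831165714432) (nat_lit 20594392985186834920836056452554260315477364172677798480574532630268735718187407056685407593417441189242864957761726104480725342101563302040274694963292274688) (nat_lit 20594392985186834920836056452554260315477364172677798480574532630268735718187407056685407593417441189242864957761726104480725342101563302040274694963292274688) c10_s241))))) (B (M (nat_lit 360) (B (M (nat_lit 328) (B (L (nat_lit 296) ln8_9_4_c10 ln8_9_4_c10_ok) (L (nat_lit 457) ln8_10_4_c10 ln8_10_4_c10_ok))) (B (M (nat_lit 457) (B (L (nat_lit 328) ln8_10_4_c10 ln8_10_4_c10_ok) (L (nat_lit 489) ln9_15_7 ln9_15_7_ok))) (B (M (nat_lit 456) (B (M (nat_lit 457) (B (L (nat_lit 489) ln8_11_4_c10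 ln8_11_4_c10_ok) (M (nat_lit 455) (B (L (nat_lit 454) ln6_14_2_c10 ln6_14_2_c10_ok) (L (nat_lit 487) ln8_11_5_c10 ln8_11_5_c10_ok))))) (B (M (nat_lit 489) (B (L (nat_lit 457) ln8_11_4_c10 ln8_11_4_c10_ok) (M (nat_lit 488) (B (L (nat_lit 521) ln8_12_4_c10 ln8_12_4_c10_ok) (L (nat_lit 520) ln8_16_6_c10 ln8_16_6_c10_ok))))) (M (nat_lit 455) (B (L (nat_lit 487) ln8_11_5_c10 ln8_11_5_c10_ok) (M (nat_lit 454) (B (L (nat_lit 453) ln5_14_2_c10 ln5_14_2_c10_ok) (L (nat_lit 423) ln10_13_1_c10 ln10_13_1_c10_ok)))))))) (M (nat_lit 328) (B (L (nat_lit 296) ln8_9_4_c10 ln8_9_4_c10_ok) (M (nat_lit 456) (B (M (nat_lit 327) (B (L (nat_lit 295) ln8_13_7_c10 ln8_13_7_c10_ok) (L (nat_lit 359) ln8_14_7_c10 ln8_14_7_c10_ok))) (M (nat_lit 455) (B (L (nat_lit 423) ln8_10_5_c10 ln8_10_5_c10_ok) (L (nat_lit 487) ln8_11_5_c10 ln8_11_5_c10_ok))))))))))) (B (M (nat_lit 360) (B (M (nat_lit 328) (B (L (nat_lit 296) ln8_9_4_c10 ln8_9_4_c10_ok)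 (L (nat_lit 457) ln8_10_4_c10 ln8_10_4_c10_ok))) (B (M (nat_lit 457) (B (L (nat_lit 328) ln8_10_4_c10 ln8_10_4_c10_ok) (L (nat_lit 489) ln9_15_7 ln9_15_7_ok))) (B (M (nat_lit 456) (B (M (nat_lit 488) (B (L (nat_lit 520) ln8_16_6_c10 ln8_16_6_c10_ok) (M (nat_lit 487) (B (L (nat_lit 455) ln8_11_5_c10 ln8_11_5_c10_ok) (L (nat_lit 519) ln8_12_5_c10 ln8_12_5_c10_ok))))) (B (M (nat_lit 489) (B (L (nat_lit 457) ln8_11_4_c10 ln8_11_4_c10_ok) (M (nat_lit 488) (B (L (nat_lit 521) ln8_12_4_c10 ln8_12_4_c10_ok) (L (nat_lit 520) ln8_16_6_c10 ln8_16_6_c10_ok))))) (M (nat_lit 457) (B (L (nat_lit 489) ln8_11_4_c10 ln8_11_4_c10_ok) (M (nat_lit 455) (B (L (nat_lit 454) ln6_14_2_c10 ln6_14_2_c10_ok) (L (nat_lit 487) ln8_11_5_c10 ln8_11_5_c10_ok)))))))) (M (nat_lit 456) (B (M (nat_lit 488) (B (L (nat_lit 520) ln8_16_6_c10 ln8_16_6_c10_ok) (M (nat_lit 487) (B (L (nat_lit 455) ln8_11_5_c10 ln8_11_5_c10_ok) (L (nat_lit 519)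 ln8_12_5_c10 ln8_12_5_c10_ok))))) (M (nat_lit 327) (B (L (nat_lit 359) ln8_14_7_c10 ln8_14_7_c10_ok) (M (nat_lit 328) (B (L (nat_lit 295) ln8_13_7_c10 ln8_13_7_c10_ok) (L (nat_lit 296) ln8_9_4_c10 ln8_9_4_c10_ok))))))))))) (B (M (nat_lit 394) (B (M (nat_lit 423) (B (L (nat_lit 422) ln6_13_2_c10 ln6_13_2_c10_ok) (L (nat_lit 395) ln11_12_1 ln11_12_1_ok))) (B (M (nat_lit 395) (B (L (nat_lit 423) ln11_12_1 ln11_12_1_ok) (L (nat_lit 396) ln12_12_1 ln12_12_1_ok))) (B (M (nat_lit 395) (B (L (nat_lit 396) ln12_12_1 ln12_12_1_ok) (M (nat_lit 362) (B (M (nat_lit 457) (B (L (nat_lit 489) ln9_15_6 ln9_15_6_ok) (L (nat_lit 330) ln10_10_5 ln10_10_5_ok))) (M (nat_lit 363) (B (L (nat_lit 364) ln13_11_1 ln13_11_1_ok) (M (nat_lit 458) (B (L (nat_lit 331) ln10_14_6 ln10_14_6_ok) (L (nat_lit 490) ln10_15_6 ln10_15_6_ok))))))))) (K (nat_lit 20839919904693236361078473404760417995553953325060659486525200118154149524322242114263225517360672195025920579377570988596035371831165714432)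 (nat_lit 20594392985186834920836056452554260315477364172677798480574532630268735718187407056685407593417441189242864957761726104480725342101563302040274694963292274688) (nat_lit 20594392985186834920836056452554260315477364172677798480574532630268735718187407056685407593417441189242864957761726104480725342101563302040274694963292274688) c10_s241))))) (M (nat_lit 394) (B (M (nat_lit 423) (B (L (nat_lit 422) ln6_13_2_c10 ln6_13_2_c10_ok) (L (nat_lit 395) ln11_12_1 ln11_12_1_ok))) (B (M (nat_lit 395) (B (L (nat_lit 423) ln11_12_1 ln11_12_1_ok) (L (nat_lit 396) ln12_12_1 ln12_12_1_ok))) (B (M (nat_lit 395) (B (L (nat_lit 396) ln12_12_1 ln12_12_1_ok) (M (nat_lit 363) (B (L (nat_lit 364) ln8_12_2 ln8_12_2_ok) (M (nat_lit 458) (B (L (nat_lit 490) ln10_15_6 ln10_15_6_ok) (M (nat_lit 331) (B (L (nat_lit 362) ln10_14_6 ln10_14_6_ok) (L (nat_lit 299) ln11_9_5 ln11_9_5_ok))))))))) (M (nat_lit 362) (B (M (nat_lit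 457) (B (L (nat_lit 489) ln9_15_6 ln9_15_6_ok) (L (nat_lit 330) ln10_10_5 ln10_10_5_ok))) (B (M (nat_lit 458) (B (M (nat_lit 423) (B (L (nat_lit 422) ln6_13_2_c10 ln6_13_2_c10_ok) (L (nat_lit 459) ln7_13_0 ln7_13_0_ok))) (M (nat_lit 330) (B (L (nat_lit 298) ln10_9_5_c10 ln10_9_5_c10_ok) (M (nat_lit 331) (B (L (nat_lit 299) ln10_13_6 ln10_13_6_ok) (L (nat_lit 363) ln10_14_6 ln10_14_6_ok))))))) (M (nat_lit 489) (B (L (nat_lit 457) ln9_15_6 ln9_15_6_ok) (M (nat_lit 458) (B (M (nat_lit 423) (B (L (nat_lit 422) ln6_13_2_c10 ln6_13_2_c10_ok) (L (nat_lit 459) ln7_13_0 ln7_13_0_ok))) (M (nat_lit 490) (B (L (nat_lit 522) ln10_16_7 ln10_16_7_ok) (L (nat_lit 521) ln10_12_5 ln10_12_5_ok)))))))))))))))))))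
noncomputable def c10_d84 : Cert := (B (M (nat_lit 423) (B (M (nat_lit 487) (B (L (nat_lit 360) ln7_15_6_c10 ln7_15_6_c10_ok) (M (nat_lit 424) (B (L (nat_lit 454) ln10_13_1_c10 ln10_13_1_c10_ok) (L (nat_lit 519) ln7_16_6_c10 ln7_16_6_c10_ok))))) (B (M (nat_lit 487) (B (L (nat_lit 360) ln7_15_6_c10 ln7_15_6_c10_ok) (M (nat_lit 519) (B (L (nat_lit 424) ln7_16_6_c10 ln7_16_6_c10_ok) (M (nat_lit 518) (B (L (nat_lit 486) ln7_12_5_c10 ln7_12_5_c10_ok) (L (nat_lit 550) ln7_13_5_c10 ln7_13_5_c10_ok))))))) (B (M (nat_lit 454) (B (L (nat_lit 424) ln10_13_1_c10 ln10_13_1_c10_ok) (M (nat_lit 359) (B (L (nat_lit 486) ln7_11_5_c10 ln7_11_5_c10_ok) (M (nat_lit 456) (B (L (nat_lit 457) ln6_14_2_c10 ln6_14_2_c10_ok) (L (nat_lit 488) ln7_11_4_c10 ln7_11_4_c10_ok))))))) (M (nat_lit 487) (B (L (nat_lit 360) ln7_15_6_c10 ln7_15_6_c10_ok) (M (nat_lit 519) (B (M (nat_lit 518) (B (L (nat_lit 486) ln7_12_5_c10 ln7_12_5_c10_ok)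 (L (nat_lit 550) ln7_13_5_c10 ln7_13_5_c10_ok))) (M (nat_lit 520) (B (L (nat_lit 488) ln7_12_4_c10 ln7_12_4_c10_ok) (L (nat_lit 552) ln7_13_4_c10 ln7_13_4_c10_ok))))))))))) (B (M (nat_lit 424) (B (M (nat_lit 454) (B (L (nat_lit 423) ln10_13_1_c10 ln10_13_1_c10_ok) (M (nat_lit 456) (B (L (nat_lit 453) ln5_14_2_c10 ln5_14_2_c10_ok) (L (nat_lit 457) ln6_14_2_c10 ln6_14_2_c10_ok))))) (B (M (nat_lit 456) (B (M (nat_lit 454) (B (L (nat_lit 423) ln10_13_1_c10 ln10_13_1_c10_ok) (L (nat_lit 457) ln6_14_2_c10 ln6_14_2_c10_ok))) (M (nat_lit 488) (B (L (nat_lit 359) ln8_15_7_c10 ln8_15_7_c10_ok) (L (nat_lit 520) ln8_16_6_c10 ln8_16_6_c10_ok))))) (B (M (nat_lit 423) (B (M (nat_lit 458) (B (L (nat_lit 459) ln7_13_0 ln7_13_0_ok) (M (nat_lit 422) (B (L (nat_lit 421) ln5_13_2_c10 ln5_13_2_c10_ok) (L (nat_lit 457) ln6_13_0_c10 ln6_13_0_c10_ok))))) (M (nat_lit 359) (B (M (nat_lit 327) (B (L (nat_lit 295) ln7_9_4_c10 ln7_9_4_c10_ok)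 (L (nat_lit 456) ln7_10_4_c10 ln7_10_4_c10_ok))) (B (M (nat_lit 456) (B (L (nat_lit 327) ln7_10_4_c10 ln7_10_4_c10_ok) (L (nat_lit 488) ln7_11_4_c10 ln7_11_4_c10_ok))) (B (M (nat_lit 488) (B (L (nat_lit 456) ln7_11_4_c10 ln7_11_4_c10_ok) (M (nat_lit 487) (B (L (nat_lit 520) ln7_12_4_c10 ln7_12_4_c10_ok) (L (nat_lit 519) ln7_16_6_c10 ln7_16_6_c10_ok))))) (M (nat_lit 326) (B (L (nat_lit 358) ln7_14_7_c10 ln7_14_7_c10_ok) (M (nat_lit 327) (B (L (nat_lit 294) ln7_13_7_c10 ln7_13_7_c10_ok) (L (nat_lit 295) ln7_9_4_c10 ln7_9_4_c10_ok))))))))))) (B (M (nat_lit 456) (B (M (nat_lit 454) (B (L (nat_lit 453) ln5_14_2_c10 ln5_14_2_c10_ok) (L (nat_lit 457) ln6_14_2_c10 ln6_14_2_c10_ok))) (M (nat_lit 488) (B (L (nat_lit 359) ln8_15_7_c10 ln8_15_7_c10_ok) (L (nat_lit 520) ln8_16_6_c10 ln8_16_6_c10_ok))))) (B (M (nat_lit 423) (B (L (nat_lit 454) ln10_13_1_c10 ln10_13_1_c10_ok) (M (nat_lit 458) (B (L (nat_lit 459) ln7_13_0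 ln7_13_0_ok) (M (nat_lit 422) (B (L (nat_lit 421) ln5_13_2_c10 ln5_13_2_c10_ok) (L (nat_lit 457) ln6_13_0_c10 ln6_13_0_c10_ok))))))) (M (nat_lit 456) (B (M (nat_lit 454) (B (L (nat_lit 453) ln5_14_2_c10 ln5_14_2_c10_ok) (L (nat_lit 423) ln10_13_1_c10 ln10_13_1_c10_ok))) (M (nat_lit 488) (B (L (nat_lit 359) ln8_15_7_c10 ln8_15_7_c10_ok) (L (nat_lit 520) ln8_16_6_c10 ln8_16_6_c10_ok))))))))))) (B (M (nat_lit 457) (B (M (nat_lit 360) (B (L (nat_lit 489) ln9_15_7 ln9_15_7_ok) (M (nat_lit 328) (B (L (nat_lit 296) ln8_9_4_c10 ln8_9_4_c10_ok) (M (nat_lit 423) (B (L (nat_lit 359) ln7_14_6_c10 ln7_14_6_c10_ok) (L (nat_lit 487) ln7_15_6_c10 ln7_15_6_c10_ok))))))) (B (M (nat_lit 489) (B (L (nat_lit 360) ln9_15_7 ln9_15_7_ok) (M (nat_lit 490) (B (L (nat_lit 522) ln9_12_4 ln9_12_4_ok) (M (nat_lit 454) (B (L (nat_lit 456) ln6_14_0_c10 ln6_14_0_c10_ok) (M (nat_lit 488) (B (L (nat_lit 487) ln10_15_3 ln10_15_3_ok) (L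 (nat_lit 520) ln9_12_5_c10 ln9_12_5_c10_ok))))))))) (B (M (nat_lit 489) (B (L (nat_lit 360) ln9_15_7 ln9_15_7_ok) (M (nat_lit 522) (B (L (nat_lit 490) ln9_12_4 ln9_12_4_ok) (M (nat_lit 520) (B (L (nat_lit 488) ln9_12_5_c10 ln9_12_5_c10_ok) (M (nat_lit 521) (B (L (nat_lit 552) ln9_13_5_c10 ln9_13_5_c10_ok) (L (nat_lit 554) ln9_13_4 ln9_13_4_ok))))))))) (B (M (nat_lit 456) (B (L (nat_lit 454) ln6_14_2_c10 ln6_14_2_c10_ok) (M (nat_lit 488) (B (M (nat_lit 520) (B (L (nat_lit 552) ln8_17_6_c10 ln8_17_6_c10_ok) (L (nat_lit 489) ln9_12_5_c10 ln9_12_5_c10_ok))) (M (nat_lit 458) (B (M (nat_lit 423) (B (L (nat_lit 422) ln10_14_3 ln10_14_3_ok) (L (nat_lit 359) ln7_11_4_c10 ln7_11_4_c10_ok))) (M (nat_lit 487) (B (L (nat_lit 486) ln10_14_1_c10 ln10_14_1_c10_ok) (L (nat_lit 459) ln11_14_1 ln11_14_1_ok))))))))) (M (nat_lit 423) (B (M (nat_lit 360) (B (L (nat_lit 487) ln7_15_6_c10 ln7_15_6_c10_ok) (M (nat_lit 328) (B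 (L (nat_lit 359) ln7_14_6_c10 ln7_14_6_c10_ok) (L (nat_lit 296) ln8_9_4_c10 ln8_9_4_c10_ok))))) (B (M (nat_lit 487) (B (L (nat_lit 360) ln7_15_6_c10 ln7_15_6_c10_ok) (M (nat_lit 519) (B (M (nat_lit 518) (B (L (nat_lit 486) ln7_12_5_c10 ln7_12_5_c10_ok) (L (nat_lit 550) ln7_13_5_c10 ln7_13_5_c10_ok))) (M (nat_lit 520) (B (L (nat_lit 488) ln7_12_4_c10 ln7_12_4_c10_ok) (L (nat_lit 552) ln7_13_4_c10 ln7_13_4_c10_ok))))))) (M (nat_lit 454) (B (L (nat_lit 456) ln6_14_2_c10 ln6_14_2_c10_ok) (M (nat_lit 486) (B (L (nat_lit 359) ln7_11_5_c10 ln7_11_5_c10_ok) (M (nat_lit 518) (B (L (nat_lit 422) ln6_16_6_c10 ln6_16_6_c10_ok) (L (nat_lit 550) ln6_17_6_c10 ln6_17_6_c10_ok))))))))))))))) (M (nat_lit 423) (B (M (nat_lit 360) (B (L (nat_lit 487) ln7_15_6_c10 ln7_15_6_c10_ok) (M (nat_lit 328) (B (L (nat_lit 359) ln7_14_6_c10 ln7_14_6_c10_ok) (L (nat_lit 296) ln8_9_4_c10 ln8_9_4_c10_ok))))) (B (M (nat_lit 360) (B (L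 (nat_lit 487) ln7_15_6_c10 ln7_15_6_c10_ok) (M (nat_lit 328) (B (L (nat_lit 296) ln8_9_4_c10 ln8_9_4_c10_ok) (L (nat_lit 424) ln8_10_5_c10 ln8_10_5_c10_ok))))) (M (nat_lit 359) (B (M (nat_lit 454) (B (L (nat_lit 486) ln7_11_5_c10 ln7_11_5_c10_ok) (L (nat_lit 424) ln10_13_1_c10 ln10_13_1_c10_ok))) (B (M (nat_lit 327) (B (M (nat_lit 326) (B (L (nat_lit 294) ln7_13_7_c10 ln7_13_7_c10_ok) (L (nat_lit 358) ln7_14_7_c10 ln7_14_7_c10_ok))) (M (nat_lit 456) (B (L (nat_lit 424) ln7_10_4_c10 ln7_10_4_c10_ok) (L (nat_lit 488) ln7_11_4_c10 ln7_11_4_c10_ok))))) (M (nat_lit 327) (B (M (nat_lit 326) (B (L (nat_lit 294) ln7_13_7_c10 ln7_13_7_c10_ok) (L (nat_lit 358) ln7_14_7_c10 ln7_14_7_c10_ok))) (M (nat_lit 454) (B (L (nat_lit 422) ln7_10_5_c10 ln7_10_5_c10_ok) (L (nat_lit 486) ln7_11_5_c10 ln7_11_5_c10_ok))))))))))))))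
noncomputable def c10_d85 : Cert := (B (M (nat_lit 360) (B (M (nat_lit 423) (B (L (nat_lit 487) ln7_15_6_c10 ln7_15_6_c10_ok) (M (nat_lit 328) (B (L (nat_lit 359) ln7_14_6_c10 ln7_14_6_c10_ok) (L (nat_lit 296) ln8_9_4_c10 ln8_9_4_c10_ok))))) (B (M (nat_lit 423) (B (L (nat_lit 487) ln7_15_6_c10 ln7_15_6_c10_ok) (M (nat_lit 328) (B (L (nat_lit 296) ln8_9_4_c10 ln8_9_4_c10_ok) (L (nat_lit 424) ln8_10_5_c10 ln8_10_5_c10_ok))))) (B (M (nat_lit 457) (B (L (nat_lit 489) ln9_15_7 ln9_15_7_ok) (M (nat_lit 328) (B (L (nat_lit 296) ln8_9_4_c10 ln8_9_4_c10_ok) (L (nat_lit 424) ln8_10_4_c10 ln8_10_4_c10_ok))))) (B (M (nat_lit 423) (B (L (nat_lit 487) ln7_15_6_c10 ln7_15_6_c10_ok) (M (nat_lit 328) (B (L (nat_lit 359) ln7_14_6_c10 ln7_14_6_c10_ok) (L (nat_lit 424) ln8_10_5_c10 ln8_10_5_c10_ok))))) (M (nat_lit 454) (B (M (nat_lit 423) (B (L (nat_lit 424) ln10_13_1_c10 ln10_13_1_c10_ok) (L (nat_lit 487) ln7_15_6_c10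 ln7_15_6_c10_ok))) (M (nat_lit 457) (B (L (nat_lit 456) ln6_14_2_c10 ln6_14_2_c10_ok) (L (nat_lit 489) ln9_15_7 ln9_15_7_ok)))))))))) (B (M (nat_lit 360) (B (M (nat_lit 423) (B (L (nat_lit 487) ln7_15_6_c10 ln7_15_6_c10_ok) (M (nat_lit 328) (B (L (nat_lit 359) ln7_14_6_c10 ln7_14_6_c10_ok) (L (nat_lit 424) ln8_10_5_c10 ln8_10_5_c10_ok))))) (B (M (nat_lit 423) (B (L (nat_lit 487) ln7_15_6_c10 ln7_15_6_c10_ok) (M (nat_lit 328) (B (L (nat_lit 296) ln8_9_4_c10 ln8_9_4_c10_ok) (L (nat_lit 424) ln8_10_5_c10 ln8_10_5_c10_ok))))) (B (M (nat_lit 457) (B (L (nat_lit 489) ln9_15_7 ln9_15_7_ok) (M (nat_lit 328) (B (L (nat_lit 296) ln8_9_4_c10 ln8_9_4_c10_ok) (L (nat_lit 424) ln8_10_4_c10 ln8_10_4_c10_ok))))) (B (M (nat_lit 423) (B (L (nat_lit 487) ln7_15_6_c10 ln7_15_6_c10_ok) (M (nat_lit 424) (B (M (nat_lit 457) (B (L (nat_lit 489) ln9_15_7 ln9_15_7_ok) (M (nat_lit 422) (B (L (nat_lit 421) ln5_13_2_c10 ln5_13_2_c10_ok)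 (L (nat_lit 458) ln6_13_0_c10 ln6_13_0_c10_ok))))) (M (nat_lit 359) (B (M (nat_lit 358) (B (L (nat_lit 357) ln5_11_0_c10 ln5_11_0_c10_ok) (L (nat_lit 326) ln7_14_7_c10 ln7_14_7_c10_ok))) (M (nat_lit 327) (B (L (nat_lit 295) ln7_9_4_c10 ln7_9_4_c10_ok) (L (nat_lit 456) ln7_10_4_c10 ln7_10_4_c10_ok))))))))) (M (nat_lit 423) (B (L (nat_lit 487) ln7_15_6_c10 ln7_15_6_c10_ok) (M (nat_lit 328) (B (L (nat_lit 359) ln7_14_6_c10 ln7_14_6_c10_ok) (L (nat_lit 296) ln8_9_4_c10 ln8_9_4_c10_ok)))))))))) (B (M (nat_lit 423) (B (M (nat_lit 360) (B (L (nat_lit 487) ln7_15_6_c10 ln7_15_6_c10_ok) (M (nat_lit 328) (B (L (nat_lit 296) ln8_9_4_c10 ln8_9_4_c10_ok) (L (nat_lit 424) ln8_10_5_c10 ln8_10_5_c10_ok))))) (B (M (nat_lit 424) (B (L (nat_lit 454) ln10_13_1_c10 ln10_13_1_c10_ok) (M (nat_lit 458) (B (L (nat_lit 459) ln7_13_0 ln7_13_0_ok) (M (nat_lit 422) (B (L (nat_lit 421) ln5_13_2_c10 ln5_13_2_c10_ok) (L (nat_lit 457)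 ln6_13_0_c10 ln6_13_0_c10_ok))))))) (M (nat_lit 487) (B (L (nat_lit 360) ln7_15_6_c10 ln7_15_6_c10_ok) (M (nat_lit 519) (B (M (nat_lit 518) (B (L (nat_lit 486) ln7_12_5_c10 ln7_12_5_c10_ok) (L (nat_lit 550) ln7_13_5_c10 ln7_13_5_c10_ok))) (M (nat_lit 520) (B (L (nat_lit 488) ln7_12_4_c10 ln7_12_4_c10_ok) (L (nat_lit 552) ln7_13_4_c10 ln7_13_4_c10_ok)))))))))) (B (M (nat_lit 457) (B (M (nat_lit 360) (B (L (nat_lit 489) ln9_15_7 ln9_15_7_ok) (M (nat_lit 328) (B (L (nat_lit 296) ln8_9_4_c10 ln8_9_4_c10_ok) (L (nat_lit 424) ln8_10_4_c10 ln8_10_4_c10_ok))))) (B (M (nat_lit 360) (B (L (nat_lit 489) ln9_15_7 ln9_15_7_ok) (M (nat_lit 424) (B (L (nat_lit 328) ln8_10_4_c10 ln8_10_4_c10_ok) (M (nat_lit 456) (B (L (nat_lit 454) ln6_14_2_c10 ln6_14_2_c10_ok) (L (nat_lit 487) ln8_11_5_c10 ln8_11_5_c10_ok))))))) (B (M (nat_lit 489) (B (L (nat_lit 360) ln9_15_7 ln9_15_7_ok) (M (nat_lit 521) (B (L (nat_lit 424) ln9_16_7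 ln9_16_7_ok) (M (nat_lit 520) (B (L (nat_lit 488) ln9_12_5_c10 ln9_12_5_c10_ok) (L (nat_lit 552) ln9_13_5_c10 ln9_13_5_c10_ok))))))) (B (M (nat_lit 456) (B (L (nat_lit 454) ln6_14_2_c10 ln6_14_2_c10_ok) (M (nat_lit 488) (B (M (nat_lit 424) (B (L (nat_lit 359) ln8_15_7_c10 ln8_15_7_c10_ok) (L (nat_lit 520) ln8_16_6_c10 ln8_16_6_c10_ok))) (B (M (nat_lit 520) (B (L (nat_lit 424) ln8_16_6_c10 ln8_16_6_c10_ok) (L (nat_lit 552) ln8_17_6_c10 ln8_17_6_c10_ok))) (B (M (nat_lit 520) (B (L (nat_lit 552) ln8_17_6_c10 ln8_17_6_c10_ok) (L (nat_lit 489) ln9_12_5_c10 ln9_12_5_c10_ok))) (M (nat_lit 487) (B (M (nat_lit 424) (B (L (nat_lit 359) ln8_15_7_c10 ln8_15_7_c10_ok) (L (nat_lit 519) ln8_12_5_c10 ln8_12_5_c10_ok))) (M (nat_lit 458) (B (L (nat_lit 486) ln10_14_1_c10 ln10_14_1_c10_ok) (L (nat_lit 459) ln11_14_1 ln11_14_1_ok))))))))))) (B (M (nat_lit 489) (B (L (nat_lit 360) ln9_15_7 ln9_15_7_ok) (M (nat_lit 490) (B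 (L (nat_lit 522) ln9_12_4 ln9_12_4_ok) (M (nat_lit 454) (B (L (nat_lit 456) ln6_14_0_c10 ln6_14_0_c10_ok) (M (nat_lit 488) (B (L (nat_lit 487) ln10_15_3 ln10_15_3_ok) (L (nat_lit 520) ln9_12_5_c10 ln9_12_5_c10_ok))))))))) (M (nat_lit 456) (B (L (nat_lit 454) ln6_14_2_c10 ln6_14_2_c10_ok) (M (nat_lit 424) (B (M (nat_lit 360) (B (L (nat_lit 487) ln8_11_5_c10 ln8_11_5_c10_ok) (L (nat_lit 328) ln8_10_4_c10 ln8_10_4_c10_ok))) (M (nat_lit 488) (B (L (nat_lit 359) ln8_15_7_c10 ln8_15_7_c10_ok) (L (nat_lit 520) ln8_16_6_c10 ln8_16_6_c10_ok))))))))))))) (B (M (nat_lit 423) (B (M (nat_lit 424) (B (L (nat_lit 454) ln10_13_1_c10 ln10_13_1_c10_ok) (M (nat_lit 458) (B (L (nat_lit 459) ln7_13_0 ln7_13_0_ok) (M (nat_lit 422) (B (L (nat_lit 421) ln5_13_2_c10 ln5_13_2_c10_ok) (L (nat_lit 457) ln6_13_0_c10 ln6_13_0_c10_ok))))))) (B (M (nat_lit 454) (B (L (nat_lit 424) ln10_13_1_c10 ln10_13_1_c10_ok) (M (nat_lit 359) (B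 (L (nat_lit 486) ln7_11_5_c10 ln7_11_5_c10_ok) (M (nat_lit 456) (B (L (nat_lit 457) ln6_14_2_c10 ln6_14_2_c10_ok) (L (nat_lit 488) ln7_11_4_c10 ln7_11_4_c10_ok))))))) (B (M (nat_lit 359) (B (M (nat_lit 360) (B (L (nat_lit 328) ln7_14_6_c10 ln7_14_6_c10_ok) (M (nat_lit 358) (B (L (nat_lit 357) ln5_11_0_c10 ln5_11_0_c10_ok) (L (nat_lit 326) ln7_14_7_c10 ln7_14_7_c10_ok))))) (B (M (nat_lit 327) (B (M (nat_lit 328) (B (L (nat_lit 296) ln7_13_6_c10 ln7_13_6_c10_ok) (L (nat_lit 360) ln7_14_6_c10 ln7_14_6_c10_ok))) (M (nat_lit 456) (B (L (nat_lit 424) ln7_10_4_c10 ln7_10_4_c10_ok) (L (nat_lit 488) ln7_11_4_c10 ln7_11_4_c10_ok))))) (M (nat_lit 327) (B (M (nat_lit 326) (B (L (nat_lit 294) ln7_13_7_c10 ln7_13_7_c10_ok) (L (nat_lit 358) ln7_14_7_c10 ln7_14_7_c10_ok))) (M (nat_lit 456) (B (L (nat_lit 424) ln7_10_4_c10 ln7_10_4_c10_ok) (L (nat_lit 488) ln7_11_4_c10 ln7_11_4_c10_ok)))))))) (M (nat_lit 359) (B (M (nat_lit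 360) (B (L (nat_lit 328) ln7_14_6_c10 ln7_14_6_c10_ok) (M (nat_lit 358) (B (L (nat_lit 357) ln5_11_0_c10 ln5_11_0_c10_ok) (L (nat_lit 326) ln7_14_7_c10 ln7_14_7_c10_ok))))) (M (nat_lit 454) (B (L (nat_lit 486) ln7_11_5_c10 ln7_11_5_c10_ok) (M (nat_lit 456) (B (L (nat_lit 457) ln6_14_2_c10 ln6_14_2_c10_ok) (L (nat_lit 488) ln7_11_4_c10 ln7_11_4_c10_ok))))))))))) c10_d84)))))
noncomputable def c10_d86 : Cert := (B (M (nat_lit 423) (B (M (nat_lit 391) (B (L (nat_lit 390) ln6_12_0_c10 ln6_12_0_c10_ok) (M (nat_lit 422) (B (L (nat_lit 394) ln10_12_1_c10 ln10_12_1_c10_ok) (M (nat_lit 424) (B (L (nat_lit 421) ln5_13_2_c10 ln5_13_2_c10_ok) (M (nat_lit 454) (B (L (nat_lit 453) ln9_13_1_c10 ln9_13_1_c10_ok) (L (nat_lit 455) ln10_13_1_c10 ln10_13_1_c10_ok))))))))) (B (K (nat_lit 20839919904671574879052806884324853688026961746565015261337424898147673535210711332850046448086659251312143780278682966144213419364177674240)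 (nat_lit 54153705091905313455282431702777598618418258132595526260505091693652111863274420512347761348828205966720509987856092502951985152) (nat_lit 54153705091905313455282431702777598618418258132595526260505091693652111863274420512347761348828205966720509987856092502951985152) c10_s237) (B (K (nat_lit 20839919904671574879052806884324853688026961746565015261337424898147673535210711332850046448086659251312143780278682966144213419364177674240) (nat_lit 1716199415432236243511545953931193712277651022891900320961054422732019995665933935687699522909516113812744580233771671870167500786609892680063422168626626560) (nat_lit 1716199415432236243511545953931193712277651022891900320961054422732019995665933935687699522909516113812744580233771671870167500786609892680063422168626626560) c10_s238) (B (K (nat_lit 20839919904671574879052806884324853688026961746565015261337424898147673535210711332850046448086659251312143780278682966144213419364177674240)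 (nat_lit 399583814766070754144599296478868233479700844948336533821617544490964075590966803221847929826037071501533510364981679913744254558036933562771439616) (nat_lit 399583814766070754144599296478868233479700844948336533821617544490964075590966803221847929826037071501533510364981679913744254558036933562771439616) c10_s239) (B (M (nat_lit 391) (B (L (nat_lit 390) ln6_12_0_c10 ln6_12_0_c10_ok) (M (nat_lit 394) (B (L (nat_lit 422) ln10_12_1_c10 ln10_12_1_c10_ok) (M (nat_lit 395) (B (M (nat_lit 359) (B (L (nat_lit 358) ln10_12_3_c10 ln10_12_3_c10_ok) (L (nat_lit 360) ln11_12_3 ln11_12_3_ok))) (M (nat_lit 363) (B (L (nat_lit 362) ln7_12_2_c10 ln7_12_2_c10_ok) (L (nat_lit 364) ln8_12_2 ln8_12_2_ok))))))))) (M (nat_lit 424) (B (M (nat_lit 422) (B (L (nat_lit 421) ln5_13_2_c10 ln5_13_2_c10_ok) (M (nat_lit 454) (B (L (nat_lit 453) ln9_13_1_c10 ln9_13_1_c10_ok) (L (nat_lit 455) ln10_13_1_c10 ln10_13_1_c10_ok)))))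 (B (M (nat_lit 422) (B (M (nat_lit 390) (B (L (nat_lit 389) ln9_13_3_c10 ln9_13_3_c10_ok) (L (nat_lit 391) ln6_12_0_c10 ln6_12_0_c10_ok))) (M (nat_lit 454) (B (L (nat_lit 453) ln9_13_1_c10 ln9_13_1_c10_ok) (L (nat_lit 455) ln10_13_1_c10 ln10_13_1_c10_ok))))) (B (M (nat_lit 390) (B (L (nat_lit 391) ln6_12_0_c10 ln6_12_0_c10_ok) (M (nat_lit 422) (B (L (nat_lit 389) ln9_13_3_c10 ln9_13_3_c10_ok) (L (nat_lit 421) ln5_13_2_c10 ln5_13_2_c10_ok))))) (M (nat_lit 391) (B (L (nat_lit 390) ln6_12_0_c10 ln6_12_0_c10_ok) (M (nat_lit 455) (B (L (nat_lit 454) ln10_13_1_c10 ln10_13_1_c10_ok) (M (nat_lit 487) (B (L (nat_lit 360) ln7_15_6_c10 ln7_15_6_c10_ok) (L (nat_lit 519) ln7_16_6_c10 ln7_16_6_c10_ok))))))))))))))))) (B (M (nat_lit 424) (B (M (nat_lit 423) (B (M (nat_lit 422) (B (L (nat_lit 421) ln5_13_2_c10 ln5_13_2_c10_ok) (L (nat_lit 394) ln6_13_2_c10 ln6_13_2_c10_ok))) (B (M (nat_lit 394) (B (L (nat_lit 422) ln6_13_2_c10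 ln6_13_2_c10_ok) (L (nat_lit 395) ln11_12_1 ln11_12_1_ok))) (M (nat_lit 391) (B (L (nat_lit 390) ln6_12_0_c10 ln6_12_0_c10_ok) (M (nat_lit 455) (B (L (nat_lit 454) ln10_13_1_c10 ln10_13_1_c10_ok) (M (nat_lit 487) (B (L (nat_lit 360) ln7_15_6_c10 ln7_15_6_c10_ok) (L (nat_lit 519) ln7_16_6_c10 ln7_16_6_c10_ok)))))))))) (B (M (nat_lit 423) (B (M (nat_lit 394) (B (L (nat_lit 422) ln6_13_2_c10 ln6_13_2_c10_ok) (L (nat_lit 395) ln11_12_1 ln11_12_1_ok))) (M (nat_lit 391) (B (L (nat_lit 390) ln6_12_0_c10 ln6_12_0_c10_ok) (M (nat_lit 455) (B (L (nat_lit 454) ln10_13_1_c10 ln10_13_1_c10_ok) (M (nat_lit 487) (B (L (nat_lit 360) ln7_15_6_c10 ln7_15_6_c10_ok) (L (nat_lit 519) ln7_16_6_c10 ln7_16_6_c10_ok))))))))) (B (K (nat_lit 20839919904693236361038125750415310048840579587998112425988798465141192906934263061817277898266659051359832370732568834979849384769091534848) (nat_lit 1716199415432236243511545953909532230292332156801443960147436581298922831014560368694180151185964384845513130053771871822478910332724023844427456763712765952)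 (nat_lit 1716199415432236243511545953909532230292332156801443960147436581298922831014560368694180151185964384845513130053771871822478910332724023844427456763712765952) c10_s235) (B (M (nat_lit 391) (B (L (nat_lit 390) ln6_12_0_c10 ln6_12_0_c10_ok) (M (nat_lit 360) (B (M (nat_lit 457) (B (L (nat_lit 328) ln8_10_4_c10 ln8_10_4_c10_ok) (L (nat_lit 489) ln9_15_7 ln9_15_7_ok))) (M (nat_lit 359) (B (M (nat_lit 327) (B (L (nat_lit 295) ln7_9_4_c10 ln7_9_4_c10_ok) (L (nat_lit 456) ln8_14_7_c10 ln8_14_7_c10_ok))) (M (nat_lit 394) (B (L (nat_lit 358) ln10_12_3_c10 ln10_12_3_c10_ok) (L (nat_lit 395) ln11_12_3 ln11_12_3_ok))))))))) (B (M (nat_lit 423) (B (M (nat_lit 422) (B (L (nat_lit 421) ln5_13_2_c10 ln5_13_2_c10_ok) (L (nat_lit 394) ln6_13_2_c10 ln6_13_2_c10_ok))) (B (M (nat_lit 394) (B (L (nat_lit 422) ln6_13_2_c10 ln6_13_2_c10_ok) (L (nat_lit 395) ln11_12_1 ln11_12_1_ok))) (B (M (nat_lit 391) (B (L (nat_lit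 390) ln6_12_0_c10 ln6_12_0_c10_ok) (M (nat_lit 359) (B (M (nat_lit 394) (B (L (nat_lit 358) ln10_12_3_c10 ln10_12_3_c10_ok) (L (nat_lit 395) ln11_12_1 ln11_12_1_ok))) (M (nat_lit 327) (B (L (nat_lit 295) ln7_9_4_c10 ln7_9_4_c10_ok) (L (nat_lit 456) ln7_10_4_c10 ln7_10_4_c10_ok))))))) (M (nat_lit 422) (B (L (nat_lit 421) ln5_13_2_c10 ln5_13_2_c10_ok) (M (nat_lit 454) (B (L (nat_lit 453) ln9_13_1_c10 ln9_13_1_c10_ok) (L (nat_lit 455) ln10_13_1_c10 ln10_13_1_c10_ok))))))))) (M (nat_lit 391) (B (L (nat_lit 390) ln6_12_0_c10 ln6_12_0_c10_ok) (M (nat_lit 455) (B (M (nat_lit 423) (B (L (nat_lit 454) ln10_13_1_c10 ln10_13_1_c10_ok) (M (nat_lit 487) (B (L (nat_lit 360) ln7_15_6_c10 ln7_15_6_c10_ok) (L (nat_lit 519) ln7_16_6_c10 ln7_16_6_c10_ok))))) (B (M (nat_lit 360) (B (M (nat_lit 423) (B (L (nat_lit 487) ln7_15_6_c10 ln7_15_6_c10_ok) (L (nat_lit 328) ln8_10_5_c10 ln8_10_5_c10_ok))) (B (M (nat_lit 457) (B (L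 (nat_lit 328) ln8_10_4_c10 ln8_10_4_c10_ok) (L (nat_lit 489) ln9_15_7 ln9_15_7_ok))) (M (nat_lit 487) (B (L (nat_lit 423) ln7_15_6_c10 ln7_15_6_c10_ok) (L (nat_lit 456) ln8_11_5_c10 ln8_11_5_c10_ok)))))) (M (nat_lit 456) (B (M (nat_lit 454) (B (L (nat_lit 453) ln5_14_2_c10 ln5_14_2_c10_ok) (L (nat_lit 457) ln6_14_2_c10 ln6_14_2_c10_ok))) (M (nat_lit 488) (B (L (nat_lit 359) ln8_15_7_c10 ln8_15_7_c10_ok) (L (nat_lit 520) ln8_16_6_c10 ln8_16_6_c10_ok)))))))))))))))) (M (nat_lit 391) (B (L (nat_lit 390) ln6_12_0_c10 ln6_12_0_c10_ok) (M (nat_lit 455) (B (M (nat_lit 424) (B (M (nat_lit 423) (B (L (nat_lit 454) ln10_13_1_c10 ln10_13_1_c10_ok) (M (nat_lit 487) (B (L (nat_lit 360) ln7_15_6_c10 ln7_15_6_c10_ok) (L (nat_lit 519) ln7_16_6_c10 ln7_16_6_c10_ok))))) (B (M (nat_lit 360) (B (M (nat_lit 423) (B (L (nat_lit 487) ln7_15_6_c10 ln7_15_6_c10_ok) (L (nat_lit 328) ln8_10_5_c10 ln8_10_5_c10_ok))) (B (M (nat_lit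 457) (B (L (nat_lit 328) ln8_10_4_c10 ln8_10_4_c10_ok) (L (nat_lit 489) ln9_15_7 ln9_15_7_ok))) (M (nat_lit 487) (B (L (nat_lit 423) ln7_15_6_c10 ln7_15_6_c10_ok) (L (nat_lit 456) ln8_11_5_c10 ln8_11_5_c10_ok)))))) (M (nat_lit 456) (B (M (nat_lit 454) (B (L (nat_lit 453) ln5_14_2_c10 ln5_14_2_c10_ok) (L (nat_lit 457) ln6_14_2_c10 ln6_14_2_c10_ok))) (M (nat_lit 488) (B (L (nat_lit 359) ln8_15_7_c10 ln8_15_7_c10_ok) (L (nat_lit 520) ln8_16_6_c10 ln8_16_6_c10_ok)))))))) c10_d85))))))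
noncomputable def c10_d87 : Cert := (B (M (nat_lit 424) (B (M (nat_lit 423) (B (L (nat_lit 422) ln6_13_2_c10 ln6_13_2_c10_ok) (L (nat_lit 395) ln7_13_2 ln7_13_2_ok))) (B (M (nat_lit 395) (B (L (nat_lit 423) ln7_13_2 ln7_13_2_ok) (L (nat_lit 396) ln12_12_1 ln12_12_1_ok))) (B (M (nat_lit 392) (B (M (nat_lit 391) (B (L (nat_lit 390) ln6_12_0_c10 ln6_12_0_c10_ok) (M (nat_lit 395) (B (L (nat_lit 396) ln12_12_1 ln12_12_1_ok) (M (nat_lit 363) (B (L (nat_lit 362) ln7_12_2_c10 ln7_12_2_c10_ok) (L (nat_lit 364) ln8_12_2 ln8_12_2_ok))))))) (B (M (nat_lit 395) (B (L (nat_lit 396) ln12_12_1 ln12_12_1_ok) (M (nat_lit 391) (B (M (nat_lit 359) (B (L (nat_lit 358) ln10_12_3_c10 ln10_12_3_c10_ok) (L (nat_lit 360) ln11_12_3 ln11_12_3_ok))) (M (nat_lit 363) (B (L (nat_lit 362) ln7_12_2_c10 ln7_12_2_c10_ok) (L (nat_lit 364) ln8_12_2 ln8_12_2_ok))))))) (B (M (nat_lit 360) (B (M (nat_lit 395) (B (L (nat_lit 359) ln11_12_3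 ln11_12_3_ok) (L (nat_lit 396) ln12_12_1 ln12_12_1_ok))) (M (nat_lit 456) (B (M (nat_lit 361) (B (L (nat_lit 329) ln9_10_5_c10 ln9_10_5_c10_ok) (L (nat_lit 488) ln8_15_6_c10 ln8_15_6_c10_ok))) (B (M (nat_lit 329) (B (L (nat_lit 361) ln9_10_5_c10 ln9_10_5_c10_ok) (M (nat_lit 328) (B (L (nat_lit 296) ln8_9_4_c10 ln8_9_4_c10_ok) (L (nat_lit 297) ln8_13_6_c10 ln8_13_6_c10_ok))))) (B (M (nat_lit 488) (B (L (nat_lit 361) ln8_15_6_c10 ln8_15_6_c10_ok) (L (nat_lit 520) ln8_16_6_c10 ln8_16_6_c10_ok))) (M (nat_lit 487) (B (L (nat_lit 455) ln8_11_5_c10 ln8_11_5_c10_ok) (M (nat_lit 488) (B (L (nat_lit 519) ln8_12_5_c10 ln8_12_5_c10_ok) (L (nat_lit 520) ln8_16_6_c10 ln8_16_6_c10_ok))))))))))) (M (nat_lit 391) (B (L (nat_lit 390) ln6_12_0_c10 ln6_12_0_c10_ok) (M (nat_lit 359) (B (L (nat_lit 358) ln10_12_3_c10 ln10_12_3_c10_ok) (M (nat_lit 456) (B (L (nat_lit 488) ln8_15_7_c10 ln8_15_7_c10_ok) (M (nat_lit 327) (B (L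 (nat_lit 295) ln7_9_4_c10 ln7_9_4_c10_ok) (L (nat_lit 360) ln8_14_7_c10 ln8_14_7_c10_ok))))))))))))) (M (nat_lit 392) (B (M (nat_lit 423) (B (L (nat_lit 422) ln6_13_2_c10 ln6_13_2_c10_ok) (M (nat_lit 391) (B (L (nat_lit 390) ln6_12_0_c10 ln6_12_0_c10_ok) (M (nat_lit 359) (B (L (nat_lit 358) ln10_12_3_c10 ln10_12_3_c10_ok) (M (nat_lit 327) (B (L (nat_lit 295) ln7_9_4_c10 ln7_9_4_c10_ok) (L (nat_lit 456) ln7_10_4_c10 ln7_10_4_c10_ok))))))))) (B (M (nat_lit 423) (B (L (nat_lit 422) ln6_13_2_c10 ln6_13_2_c10_ok) (M (nat_lit 391) (B (L (nat_lit 390) ln6_12_0_c10 ln6_12_0_c10_ok) (M (nat_lit 455) (B (L (nat_lit 454) ln10_13_1_c10 ln10_13_1_c10_ok) (M (nat_lit 487) (B (L (nat_lit 360) ln7_15_6_c10 ln7_15_6_c10_ok) (L (nat_lit 519) ln7_16_6_c10 ln7_16_6_c10_ok))))))))) (B (M (nat_lit 423) (B (L (nat_lit 422) ln6_13_2_c10 ln6_13_2_c10_ok) (M (nat_lit 455) (B (L (nat_lit 454) ln10_13_1_c10 ln10_13_1_c10_ok) (M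 (nat_lit 487) (B (L (nat_lit 519) ln7_16_6_c10 ln7_16_6_c10_ok) (M (nat_lit 360) (B (L (nat_lit 391) ln7_15_6_c10 ln7_15_6_c10_ok) (L (nat_lit 456) ln8_11_5_c10 ln8_11_5_c10_ok))))))))) (B (M (nat_lit 391) (B (L (nat_lit 390) ln6_12_0_c10 ln6_12_0_c10_ok) (M (nat_lit 359) (B (L (nat_lit 358) ln10_12_3_c10 ln10_12_3_c10_ok) (M (nat_lit 456) (B (L (nat_lit 488) ln8_15_7_c10 ln8_15_7_c10_ok) (M (nat_lit 327) (B (L (nat_lit 295) ln7_9_4_c10 ln7_9_4_c10_ok) (L (nat_lit 360) ln8_14_7_c10 ln8_14_7_c10_ok))))))))) (M (nat_lit 423) (B (L (nat_lit 422) ln6_13_2_c10 ln6_13_2_c10_ok) (M (nat_lit 455) (B (L (nat_lit 454) ln10_13_1_c10 ln10_13_1_c10_ok) (M (nat_lit 456) (B (M (nat_lit 487) (B (L (nat_lit 519) ln7_16_6_c10 ln7_16_6_c10_ok) (L (nat_lit 360) ln8_11_5_c10 ln8_11_5_c10_ok))) (M (nat_lit 488) (B (L (nat_lit 361) ln8_15_6_c10 ln8_15_6_c10_ok) (L (nat_lit 520) ln8_16_6_c10 ln8_16_6_c10_ok))))))))))))))))))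 (M (nat_lit 362) (B (M (nat_lit 330) (B (L (nat_lit 298) ln10_9_5_c10 ln10_9_5_c10_ok) (M (nat_lit 331) (B (L (nat_lit 299) ln10_13_6 ln10_13_6_ok) (M (nat_lit 458) (B (L (nat_lit 363) ln10_14_6 ln10_14_6_ok) (M (nat_lit 329) (B (L (nat_lit 297) ln10_13_7_c10 ln10_13_7_c10_ok) (L (nat_lit 361) ln9_10_4_c10 ln9_10_4_c10_ok))))))))) (B (M (nat_lit 330) (B (L (nat_lit 298) ln10_9_5_c10 ln10_9_5_c10_ok) (M (nat_lit 458) (B (M (nat_lit 361) (B (L (nat_lit 329) ln9_10_4_c10 ln9_10_4_c10_ok) (L (nat_lit 490) ln10_15_7 ln10_15_7_ok))) (M (nat_lit 331) (B (L (nat_lit 299) ln10_13_6 ln10_13_6_ok) (L (nat_lit 363) ln10_14_6 ln10_14_6_ok))))))) (B (M (nat_lit 330) (B (L (nat_lit 298) ln10_9_5_c10 ln10_9_5_c10_ok) (M (nat_lit 458) (B (M (nat_lit 490) (B (L (nat_lit 361) ln10_15_7 ln10_15_7_ok) (L (nat_lit 522) ln10_16_7 ln10_16_7_ok))) (M (nat_lit 331) (B (L (nat_lit 299) ln10_13_6 ln10_13_6_ok) (L (nat_lit 363)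 ln10_14_6 ln10_14_6_ok))))))) (B (M (nat_lit 330) (B (L (nat_lit 298) ln10_9_5_c10 ln10_9_5_c10_ok) (M (nat_lit 329) (B (L (nat_lit 297) ln10_13_7_c10 ln10_13_7_c10_ok) (M (nat_lit 331) (B (L (nat_lit 299) ln10_13_6 ln10_13_6_ok) (M (nat_lit 363) (B (L (nat_lit 458) ln10_14_6 ln10_14_6_ok) (M (nat_lit 328) (B (L (nat_lit 327) ln7_10_0_c10 ln7_10_0_c10_ok) (L (nat_lit 364) ln8_10_0 ln8_10_0_ok))))))))))) (B (M (nat_lit 361) (B (M (nat_lit 329) (B (L (nat_lit 297) ln9_9_4_c10 ln9_9_4_c10_ok) (L (nat_lit 458) ln9_10_4_c10 ln9_10_4_c10_ok))) (B (M (nat_lit 458) (B (L (nat_lit 329) ln9_10_4_c10 ln9_10_4_c10_ok) (L (nat_lit 490) ln10_15_7 ln10_15_7_ok))) (B (M (nat_lit 363) (B (M (nat_lit 392) (B (L (nat_lit 391) ln7_12_2_c10 ln7_12_2_c10_ok) (L (nat_lit 364) ln12_11_1 ln12_11_1_ok))) (M (nat_lit 458) (B (L (nat_lit 490) ln10_15_7 ln10_15_7_ok) (L (nat_lit 331) ln10_14_6 ln10_14_6_ok))))) (M (nat_lit 329)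 (B (L (nat_lit 297) ln9_9_4_c10 ln9_9_4_c10_ok) (M (nat_lit 328) (B (L (nat_lit 296) ln9_13_7_c10 ln9_13_7_c10_ok) (M (nat_lit 363) (B (L (nat_lit 364) ln12_11_3 ln12_11_3_ok) (M (nat_lit 327) (B (L (nat_lit 326) ln6_10_0_c10 ln6_10_0_c10_ok) (L (nat_lit 360) ln11_11_3 ln11_11_3_ok))))))))))))) (B (M (nat_lit 361) (B (M (nat_lit 329) (B (L (nat_lit 297) ln9_9_4_c10 ln9_9_4_c10_ok) (M (nat_lit 328) (B (L (nat_lit 296) ln9_13_7_c10 ln9_13_7_c10_ok) (M (nat_lit 363) (B (L (nat_lit 364) ln12_11_3 ln12_11_3_ok) (M (nat_lit 327) (B (L (nat_lit 326) ln6_10_0_c10 ln6_10_0_c10_ok) (L (nat_lit 360) ln11_11_3 ln11_11_3_ok))))))))) (B (M (nat_lit 330) (B (L (nat_lit 298) ln10_9_5_c10 ln10_9_5_c10_ok) (M (nat_lit 329) (B (L (nat_lit 297) ln9_9_4_c10 ln9_9_4_c10_ok) (M (nat_lit 331) (B (L (nat_lit 299) ln10_13_6 ln10_13_6_ok) (M (nat_lit 360) (B (L (nat_lit 359) ln7_11_2 ln7_11_2_ok) (L (nat_lit 332) ln12_10_1 ln12_10_1_ok)))))))))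 (B (M (nat_lit 329) (B (L (nat_lit 297) ln9_9_4_c10 ln9_9_4_c10_ok) (M (nat_lit 330) (B (L (nat_lit 298) ln10_9_5_c10 ln10_9_5_c10_ok) (M (nat_lit 328) (B (L (nat_lit 296) ln9_13_7_c10 ln9_13_7_c10_ok) (M (nat_lit 327) (B (L (nat_lit 326) ln6_10_0_c10 ln6_10_0_c10_ok) (L (nat_lit 363) ln7_10_0_c10 ln7_10_0_c10_ok))))))))) (M (nat_lit 392) (B (M (nat_lit 391) (B (L (nat_lit 390) ln6_12_0_c10 ln6_12_0_c10_ok) (L (nat_lit 363) ln7_12_2_c10 ln7_12_2_c10_ok))) (B (M (nat_lit 363) (B (L (nat_lit 391) ln7_12_2_c10 ln7_12_2_c10_ok) (L (nat_lit 364) ln12_11_1 ln12_11_1_ok))) (B (M (nat_lit 360) (B (M (nat_lit 363) (B (L (nat_lit 364) ln12_11_1 ln12_11_1_ok) (M (nat_lit 328) (B (L (nat_lit 327) ln11_11_3 ln11_11_3_ok) (L (nat_lit 296) ln8_9_4_c10 ln8_9_4_c10_ok))))) (M (nat_lit 359) (B (L (nat_lit 358) ln6_11_0_c10 ln6_11_0_c10_ok) (M (nat_lit 330) (B (L (nat_lit 331) ln7_11_2 ln7_11_2_ok) (L (nat_lit 298) ln10_9_5_c10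 ln10_9_5_c10_ok))))))) (M (nat_lit 330) (B (L (nat_lit 298) ln10_9_5_c10 ln10_9_5_c10_ok) (M (nat_lit 359) (B (M (nat_lit 391) (B (L (nat_lit 358) ln10_12_3_c10 ln10_12_3_c10_ok) (L (nat_lit 390) ln6_12_0_c10 ln6_12_0_c10_ok))) (M (nat_lit 331) (B (L (nat_lit 360) ln7_11_2 ln7_11_2_ok) (L (nat_lit 299) ln10_13_6 ln10_13_6_ok))))))))))))))) (B (M (nat_lit 330) (B (L (nat_lit 298) ln10_9_5_c10 ln10_9_5_c10_ok) (M (nat_lit 329) (B (L (nat_lit 297) ln10_13_7_c10 ln10_13_7_c10_ok) (M (nat_lit 361) (B (L (nat_lit 458) ln9_10_4_c10 ln9_10_4_c10_ok) (M (nat_lit 328) (B (L (nat_lit 296) ln9_13_7_c10 ln9_13_7_c10_ok) (M (nat_lit 327) (B (L (nat_lit 326) ln6_10_0_c10 ln6_10_0_c10_ok) (L (nat_lit 363) ln7_10_0_c10 ln7_10_0_c10_ok))))))))))) (M (nat_lit 330) (B (L (nat_lit 298) ln10_9_5_c10 ln10_9_5_c10_ok) (M (nat_lit 329) (B (L (nat_lit 297) ln10_13_7_c10 ln10_13_7_c10_ok) (M (nat_lit 361) (B (L (nat_lit 458) ln9_10_4_c10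 ln9_10_4_c10_ok) (M (nat_lit 331) (B (L (nat_lit 299) ln10_13_6 ln10_13_6_ok) (M (nat_lit 360) (B (L (nat_lit 359) ln7_11_2 ln7_11_2_ok) (L (nat_lit 332) ln12_10_1 ln12_10_1_ok))))))))))))))))))))
noncomputable def c10_d88 : Cert := (B (M (nat_lit 328) (B (M (nat_lit 296) (B (L (nat_lit 264) ln8_8_4_c10 ln8_8_4_c10_ok) (L (nat_lit 392) ln8_9_4_c10 ln8_9_4_c10_ok))) (B (M (nat_lit 296) (B (L (nat_lit 392) ln8_9_4_c10 ln8_9_4_c10_ok) (L (nat_lit 329) ln9_13_7_c10 ln9_13_7_c10_ok))) (B (M (nat_lit 424) (B (M (nat_lit 329) (B (L (nat_lit 456) ln9_10_5_c10 ln9_10_5_c10_ok) (M (nat_lit 297) (B (L (nat_lit 392) ln9_9_5_c10 ln9_9_5_c10_ok) (L (nat_lit 394) ln9_9_4_c10 ln9_9_4_c10_ok))))) (B (M (nat_lit 394) (B (M (nat_lit 423) (B (L (nat_lit 422) ln6_13_2_c10 ln6_13_2_c10_ok) (L (nat_lit 395) ln7_13_2 ln7_13_2_ok))) (M (nat_lit 329) (B (L (nat_lit 456) ln9_10_5_c10 ln9_10_5_c10_ok) (L (nat_lit 297) ln9_9_4_c10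 ln9_9_4_c10_ok))))) (B (M (nat_lit 423) (B (M (nat_lit 455) (B (L (nat_lit 454) ln10_13_1_c10 ln10_13_1_c10_ok) (L (nat_lit 392) ln8_10_5_c10 ln8_10_5_c10_ok))) (M (nat_lit 394) (B (L (nat_lit 422) ln6_13_2_c10 ln6_13_2_c10_ok) (L (nat_lit 395) ln7_13_2 ln7_13_2_ok))))) (M (nat_lit 456) (B (L (nat_lit 329) ln9_10_5_c10 ln9_10_5_c10_ok) (M (nat_lit 488) (B (L (nat_lit 392) ln8_15_6_c10 ln8_15_6_c10_ok) (L (nat_lit 520) ln8_16_6_c10 ln8_16_6_c10_ok))))))))) (M (nat_lit 296) (B (L (nat_lit 264) ln8_8_4_c10 ln8_8_4_c10_ok) (L (nat_lit 329) ln9_13_7_c10 ln9_13_7_c10_ok))))))) (B (M (nat_lit 359) (B (M (nat_lit 394) (B (L (nat_lit 358) ln6_11_0_c10 ln6_11_0_c10_ok) (M (nat_lit 395) (B (L (nat_lit 392) ln11_12_3 ln11_12_3_ok) (L (nat_lit 396) ln12_12_3 ln12_12_3_ok))))) (B (M (nat_lit 362) (B (M (nat_lit 394) (B (L (nat_lit 395) ln7_11_0 ln7_11_0_ok) (M (nat_lit 330) (B (L (nat_lit 331) ln7_11_2 ln7_11_2_ok)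 (L (nat_lit 298) ln10_9_5_c10 ln10_9_5_c10_ok))))) (B (M (nat_lit 363) (B (M (nat_lit 327) (B (L (nat_lit 326) ln10_11_3 ln10_11_3_ok) (L (nat_lit 328) ln11_11_3 ln11_11_3_ok))) (M (nat_lit 395) (B (L (nat_lit 394) ln7_11_0 ln7_11_0_ok) (L (nat_lit 396) ln8_11_0 ln8_11_0_ok))))) (M (nat_lit 330) (B (L (nat_lit 331) ln7_11_2 ln7_11_2_ok) (M (nat_lit 298) (B (L (nat_lit 329) ln9_13_6_c10 ln9_13_6_c10_ok) (L (nat_lit 266) ln10_8_5_c10 ln10_8_5_c10_ok)))))))) (K (nat_lit 20839919904649913397057401104656340239574708887163894513640713597496729898061343960318803611533518896935834267215669505398877647654357041152) (nat_lit 19543395083686535489165154809710851987501142604010462535611755869354221109350099608213976611864033017376022312693792768) (nat_lit 19543395083686535489165154809710851987501142604010462535611755869354221109350099608213976611864033017376022312693792768) c10_s243)))) (B (M (nat_lit 359) (B (M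 (nat_lit 394) (B (L (nat_lit 358) ln6_11_0_c10 ln6_11_0_c10_ok) (M (nat_lit 395) (B (L (nat_lit 392) ln11_12_3 ln11_12_3_ok) (L (nat_lit 396) ln12_12_3 ln12_12_3_ok))))) (B (M (nat_lit 362) (B (M (nat_lit 330) (B (L (nat_lit 331) ln7_11_2 ln7_11_2_ok) (M (nat_lit 298) (B (L (nat_lit 329) ln9_13_6_c10 ln9_13_6_c10_ok) (L (nat_lit 266) ln10_8_5_c10 ln10_8_5_c10_ok))))) (B (M (nat_lit 394) (B (L (nat_lit 395) ln7_11_0 ln7_11_0_ok) (M (nat_lit 330) (B (L (nat_lit 331) ln7_11_2 ln7_11_2_ok) (L (nat_lit 298) ln10_9_5_c10 ln10_9_5_c10_ok))))) (M (nat_lit 363) (B (M (nat_lit 391) (B (L (nat_lit 390) ln10_11_1 ln10_11_1_ok) (L (nat_lit 392) ln11_11_1 ln11_11_1_ok))) (M (nat_lit 395) (B (L (nat_lit 394) ln7_11_0 ln7_11_0_ok) (L (nat_lit 396) ln8_11_0 ln8_11_0_ok)))))))) (B (M (nat_lit 394) (B (L (nat_lit 358) ln6_11_0_c10 ln6_11_0_c10_ok) (M (nat_lit 395) (B (L (nat_lit 362) ln7_11_0 ln7_11_0_ok) (L (nat_lit 396)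 ln12_12_3 ln12_12_3_ok))))) (K (nat_lit 20839919904649913397057401104656340239574708887163894513640713597496729898061343960318803611533518896935834267215669505398877647654357041152) (nat_lit 19543395083686535489165154809710851987501142604010462535611755869354221109350099608213976611864033017376022312693792768) (nat_lit 19543395083686535489165154809710851987501142604010462535611755869354221109350099608213976611864033017376022312693792768) c10_s243))))) (B (M (nat_lit 329) (B (M (nat_lit 297) (B (L (nat_lit 394) ln9_9_4_c10 ln9_9_4_c10_ok) (M (nat_lit 298) (B (L (nat_lit 266) ln9_12_6_c10 ln9_12_6_c10_ok) (L (nat_lit 330) ln9_13_6_c10 ln9_13_6_c10_ok))))) (B (M (nat_lit 328) (B (L (nat_lit 296) ln9_13_7_c10 ln9_13_7_c10_ok) (M (nat_lit 330) (B (L (nat_lit 298) ln9_13_6_c10 ln9_13_6_c10_ok) (M (nat_lit 359) (B (L (nat_lit 358) ln6_11_2_c10 ln6_11_2_c10_ok) (L (nat_lit 331) ln11_10_1_c10 ln11_10_1_c10_ok)))))))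 (M (nat_lit 394) (B (L (nat_lit 297) ln9_9_4_c10 ln9_9_4_c10_ok) (M (nat_lit 424) (B (L (nat_lit 456) ln9_10_5_c10 ln9_10_5_c10_ok) (M (nat_lit 395) (B (L (nat_lit 423) ln7_13_2 ln7_13_2_ok) (L (nat_lit 396) ln12_12_1 ln12_12_1_ok)))))))))) (B (M (nat_lit 359) (B (M (nat_lit 394) (B (L (nat_lit 358) ln6_11_0_c10 ln6_11_0_c10_ok) (M (nat_lit 395) (B (L (nat_lit 362) ln7_11_0 ln7_11_0_ok) (L (nat_lit 396) ln12_12_3 ln12_12_3_ok))))) (B (M (nat_lit 362) (B (M (nat_lit 394) (B (L (nat_lit 395) ln7_11_0 ln7_11_0_ok) (M (nat_lit 330) (B (L (nat_lit 331) ln7_11_2 ln7_11_2_ok) (L (nat_lit 298) ln10_9_5_c10 ln10_9_5_c10_ok))))) (B (M (nat_lit 363) (B (M (nat_lit 327) (B (L (nat_lit 326) ln10_11_3 ln10_11_3_ok) (L (nat_lit 328) ln11_11_3 ln11_11_3_ok))) (M (nat_lit 395) (B (L (nat_lit 394) ln7_11_0 ln7_11_0_ok) (L (nat_lit 396) ln8_11_0 ln8_11_0_ok))))) (M (nat_lit 363) (B (M (nat_lit 327) (B (L (nat_lit 326)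 ln10_11_3 ln10_11_3_ok) (L (nat_lit 328) ln11_11_3 ln11_11_3_ok))) (M (nat_lit 331) (B (L (nat_lit 330) ln7_11_2 ln7_11_2_ok) (L (nat_lit 332) ln8_11_2 ln8_11_2_ok)))))))) (B (M (nat_lit 394) (B (L (nat_lit 358) ln6_11_0_c10 ln6_11_0_c10_ok) (M (nat_lit 395) (B (L (nat_lit 392) ln11_12_3 ln11_12_3_ok) (L (nat_lit 396) ln12_12_3 ln12_12_3_ok))))) (K (nat_lit 20839919904649913397057401104656340239574708887163894513640713597496729898061343960318803611533518896935834267215669505398877647654357041152) (nat_lit 19543395083686535489165154809710851987501142604010462535611755869354221109350099608213976611864033017376022312693792768) (nat_lit 19543395083686535489165154809710851987501142604010462535611755869354221109350099608213976611864033017376022312693792768) c10_s243))))) (M (nat_lit 329) (B (M (nat_lit 424) (B (L (nat_lit 456) ln9_10_5_c10 ln9_10_5_c10_ok) (M (nat_lit 297) (B (L (nat_lit 392) ln9_9_5_c10 ln9_9_5_c10_ok)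 (M (nat_lit 298) (B (L (nat_lit 266) ln9_12_6_c10 ln9_12_6_c10_ok) (L (nat_lit 330) ln9_13_6_c10 ln9_13_6_c10_ok))))))) (B (M (nat_lit 296) (B (L (nat_lit 328) ln9_13_7_c10 ln9_13_7_c10_ok) (M (nat_lit 297) (B (L (nat_lit 264) ln9_12_7_c10 ln9_12_7_c10_ok) (M (nat_lit 298) (B (L (nat_lit 266) ln9_12_6_c10 ln9_12_6_c10_ok) (L (nat_lit 330) ln9_13_6_c10 ln9_13_6_c10_ok))))))) (B (M (nat_lit 330) (B (L (nat_lit 298) ln9_13_6_c10 ln9_13_6_c10_ok) (M (nat_lit 359) (B (L (nat_lit 358) ln6_11_2_c10 ln6_11_2_c10_ok) (M (nat_lit 328) (B (L (nat_lit 331) ln11_10_1_c10 ln11_10_1_c10_ok) (L (nat_lit 296) ln9_13_7_c10 ln9_13_7_c10_ok))))))) (M (nat_lit 297) (B (M (nat_lit 296) (B (L (nat_lit 264) ln9_12_7_c10 ln9_12_7_c10_ok) (L (nat_lit 328) ln9_13_7_c10 ln9_13_7_c10_ok))) (M (nat_lit 424) (B (L (nat_lit 392) ln9_9_5_c10 ln9_9_5_c10_ok) (L (nat_lit 456) ln9_10_5_c10 ln9_10_5_c10_ok))))))))))))))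
noncomputable def c10_d89 : Cert := (B (K (nat_lit 20839919904649913397057401104652817425700548137322060292745529591955666374237981480512742675076220583398162354550473956901300494599809138688) (nat_lit 372141426839350728001601443995508981220134968643162784491917750564744392754769708852828151625147265610014411041890887101897283285769256960) (nat_lit 372141426839350728001601443995508981220134968643162784491917750564744392754769708852828151625147265610014411041890887101897283285769256960) c10_s223) (B (K (nat_lit 20839919904649913397057401104652817425700548137322060292745529591955666374237981480512742675076220583398162354550473956901300494599809138688) (nat_lit 3432398832462807744691844573544112337078822357468603928584175847562787550560666664113551333025724475240487434118184224850909557435201273261239606068071366656) (nat_lit 3432398832462807744691844573544112337078822357468603928584175847562787550560666664113551333025724475240487434118184224850909557435201273261239606068071366656)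 c10_s230) (B (M (nat_lit 360) (B (M (nat_lit 328) (B (L (nat_lit 457) ln9_14_7_c10 ln9_14_7_c10_ok) (M (nat_lit 296) (B (L (nat_lit 264) ln8_8_4_c10 ln8_8_4_c10_ok) (L (nat_lit 392) ln8_9_4_c10 ln8_9_4_c10_ok))))) (B (M (nat_lit 457) (B (L (nat_lit 328) ln9_14_7_c10 ln9_14_7_c10_ok) (M (nat_lit 489) (B (L (nat_lit 392) ln9_15_7 ln9_15_7_ok) (M (nat_lit 488) (B (L (nat_lit 456) ln9_11_5_c10 ln9_11_5_c10_ok) (L (nat_lit 520) ln9_12_5_c10 ln9_12_5_c10_ok))))))) (B (M (nat_lit 359) (B (M (nat_lit 394) (B (L (nat_lit 358) ln6_11_0_c10 ln6_11_0_c10_ok) (M (nat_lit 395) (B (L (nat_lit 392) ln11_12_3 ln11_12_3_ok) (L (nat_lit 396) ln12_12_3 ln12_12_3_ok))))) (B (M (nat_lit 362) (B (M (nat_lit 330) (B (L (nat_lit 331) ln7_11_2 ln7_11_2_ok) (L (nat_lit 457) ln9_14_6_c10 ln9_14_6_c10_ok))) (B (M (nat_lit 394) (B (L (nat_lit 395) ln7_11_0 ln7_11_0_ok) (M (nat_lit 330) (B (L (nat_lit 331) ln7_11_2 ln7_11_2_ok) (L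 (nat_lit 298) ln10_9_5_c10 ln10_9_5_c10_ok))))) (M (nat_lit 363) (B (M (nat_lit 391) (B (L (nat_lit 390) ln10_11_1 ln10_11_1_ok) (L (nat_lit 392) ln11_11_1 ln11_11_1_ok))) (M (nat_lit 395) (B (L (nat_lit 394) ln7_11_0 ln7_11_0_ok) (L (nat_lit 396) ln8_11_0 ln8_11_0_ok)))))))) (B (M (nat_lit 394) (B (L (nat_lit 358) ln6_11_0_c10 ln6_11_0_c10_ok) (M (nat_lit 395) (B (L (nat_lit 362) ln7_11_0 ln7_11_0_ok) (L (nat_lit 396) ln12_12_3 ln12_12_3_ok))))) (K (nat_lit 20839919904649913397057401104656340239574708887163894513640713597496729898061343960318803611533518896935834267215669505398877647654357041152) (nat_lit 19543395083686535489165154809710851987501142604010462535611755869354221109350099608213976611864033017376022312693792768) (nat_lit 19543395083686535489165154809710851987501142604010462535611755869354221109350099608213976611864033017376022312693792768) c10_s243))))) (B (M (nat_lit 457) (B (L (nat_lit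 328) ln9_14_7_c10 ln9_14_7_c10_ok) (M (nat_lit 489) (B (M (nat_lit 488) (B (L (nat_lit 456) ln9_11_5_c10 ln9_11_5_c10_ok) (L (nat_lit 520) ln9_12_5_c10 ln9_12_5_c10_ok))) (M (nat_lit 362) (B (L (nat_lit 330) ln9_14_6_c10 ln9_14_6_c10_ok) (L (nat_lit 394) ln9_15_6 ln9_15_6_ok))))))) (M (nat_lit 359) (B (M (nat_lit 394) (B (L (nat_lit 358) ln6_11_0_c10 ln6_11_0_c10_ok) (M (nat_lit 395) (B (L (nat_lit 362) ln7_11_0 ln7_11_0_ok) (L (nat_lit 396) ln12_12_3 ln12_12_3_ok))))) (B (M (nat_lit 362) (B (M (nat_lit 394) (B (L (nat_lit 395) ln7_11_0 ln7_11_0_ok) (M (nat_lit 330) (B (L (nat_lit 331) ln7_11_2 ln7_11_2_ok) (L (nat_lit 298) ln10_9_5_c10 ln10_9_5_c10_ok))))) (M (nat_lit 328) (B (M (nat_lit 327) (B (L (nat_lit 326) ln10_11_3 ln10_11_3_ok) (L (nat_lit 363) ln11_11_3 ln11_11_3_ok))) (M (nat_lit 296) (B (L (nat_lit 264) ln8_8_4_c10 ln8_8_4_c10_ok) (L (nat_lit 392) ln8_9_4_c10 ln8_9_4_c10_ok))))))) (B (M (nat_lit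 394) (B (L (nat_lit 358) ln6_11_0_c10 ln6_11_0_c10_ok) (M (nat_lit 395) (B (L (nat_lit 392) ln11_12_3 ln11_12_3_ok) (L (nat_lit 396) ln12_12_3 ln12_12_3_ok))))) (K (nat_lit 20839919904649913397057401104656340239574708887163894513640713597496729898061343960318803611533518896935834267215669505398877647654357041152) (nat_lit 19543395083686535489165154809710851987501142604010462535611755869354221109350099608213976611864033017376022312693792768) (nat_lit 19543395083686535489165154809710851987501142604010462535611755869354221109350099608213976611864033017376022312693792768) c10_s243)))))))))) (B (M (nat_lit 360) (B (M (nat_lit 328) (B (M (nat_lit 296) (B (L (nat_lit 264) ln8_8_4_c10 ln8_8_4_c10_ok) (L (nat_lit 392) ln8_9_4_c10 ln8_9_4_c10_ok))) (B (M (nat_lit 296) (B (L (nat_lit 392) ln8_9_4_c10 ln8_9_4_c10_ok) (L (nat_lit 329) ln9_13_7_c10 ln9_13_7_c10_ok))) (B (M (nat_lit 329) (B (M (nat_lit 424) (B (L (nat_lit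 456) ln9_10_5_c10 ln9_10_5_c10_ok) (M (nat_lit 297) (B (L (nat_lit 392) ln9_9_5_c10 ln9_9_5_c10_ok) (L (nat_lit 394) ln9_9_4_c10 ln9_9_4_c10_ok))))) (M (nat_lit 330) (B (L (nat_lit 298) ln9_13_6_c10 ln9_13_6_c10_ok) (M (nat_lit 359) (B (L (nat_lit 358) ln6_11_2_c10 ln6_11_2_c10_ok) (L (nat_lit 331) ln11_10_1_c10 ln11_10_1_c10_ok))))))) (M (nat_lit 296) (B (L (nat_lit 264) ln8_8_4_c10 ln8_8_4_c10_ok) (L (nat_lit 329) ln9_13_7_c10 ln9_13_7_c10_ok))))))) c10_d88)) (B (M (nat_lit 329) (B (M (nat_lit 297) (B (L (nat_lit 394) ln9_9_4_c10 ln9_9_4_c10_ok) (M (nat_lit 424) (B (L (nat_lit 392) ln9_9_5_c10 ln9_9_5_c10_ok) (L (nat_lit 456) ln9_10_5_c10 ln9_10_5_c10_ok))))) (B (M (nat_lit 297) (B (L (nat_lit 394) ln9_9_4_c10 ln9_9_4_c10_ok) (M (nat_lit 296) (B (L (nat_lit 264) ln9_12_7_c10 ln9_12_7_c10_ok) (L (nat_lit 328) ln9_13_7_c10 ln9_13_7_c10_ok))))) (M (nat_lit 457) (B (M (nat_lit 328) (B (L (nat_lit 296)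 ln9_13_7_c10 ln9_13_7_c10_ok) (L (nat_lit 360) ln9_14_7_c10 ln9_14_7_c10_ok))) (M (nat_lit 456) (B (L (nat_lit 424) ln9_10_5_c10 ln9_10_5_c10_ok) (L (nat_lit 488) ln9_11_5_c10 ln9_11_5_c10_ok)))))))) (K (nat_lit 20839919904649913397057401104652817425700548137322060292745529591955666374237981480512742675076220583398162354550473956901300494599809138688) (nat_lit 3432398832462807744691844573544112337038474703123495981870802110500749749018348632622161827059847767334802682122587565247480383902537714969994453182543036416) (nat_lit 3432398832462807744691844573544112337038474703123495981870802110500749749018348632622161827059847767334802682122587565247480383902537714969994453182543036416) c10_s242))))))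
noncomputable def c10_d90 : Cert := (B (M (nat_lit 424) (B (M (nat_lit 458) (B (L (nat_lit 459) ln13_14_3 ln13_14_3_ok) (M (nat_lit 361) (B (L (nat_lit 329) ln9_10_4_c10 ln9_10_4_c10_ok) (M (nat_lit 490) (B (L (nat_lit 457) ln9_11_4 ln9_11_4_ok) (L (nat_lit 522) ln10_16_7 ln10_16_7_ok))))))) (B (M (nat_lit 456) (B (M (nat_lit 488) (B (L (nat_lit 520) ln8_16_6_c10 ln8_16_6_c10_ok) (M (nat_lit 361) (B (L (nat_lit 392) ln8_15_6_c10 ln8_15_6_c10_ok) (L (nat_lit 329) ln9_10_5_c10 ln9_10_5_c10_ok))))) (B (M (nat_lit 361) (B (L (nat_lit 329) ln9_10_5_c10 ln9_10_5_c10_ok) (M (nat_lit 488) (B (L (nat_lit 520) ln8_16_6_c10 ln8_16_6_c10_ok) (L (nat_lit 457) ln9_11_5_c10 ln9_11_5_c10_ok))))) (B (M (nat_lit 361) (B (L (nat_lit 329) ln9_10_5_c10 ln9_10_5_c10_ok) (M (nat_lit 457) (B (M (nat_lit 360) (B (L (nat_lit 328) ln9_14_7_c10 ln9_14_7_c10_ok) (M (nat_lit 392) (B (L (nat_lit 489) ln8_11_4_c10 ln8_11_4_c10_ok)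 (M (nat_lit 455) (B (L (nat_lit 454) ln6_14_2_c10 ln6_14_2_c10_ok) (L (nat_lit 487) ln8_11_5_c10 ln8_11_5_c10_ok))))))) (B (M (nat_lit 489) (B (M (nat_lit 360) (B (L (nat_lit 328) ln9_14_7_c10 ln9_14_7_c10_ok) (L (nat_lit 392) ln8_11_4_c10 ln8_11_4_c10_ok))) (M (nat_lit 490) (B (L (nat_lit 458) ln9_11_4 ln9_11_4_ok) (L (nat_lit 522) ln9_12_4 ln9_12_4_ok))))) (B (M (nat_lit 489) (B (M (nat_lit 392) (B (L (nat_lit 360) ln8_11_4_c10 ln8_11_4_c10_ok) (L (nat_lit 521) ln9_16_7 ln9_16_7_ok))) (M (nat_lit 490) (B (L (nat_lit 458) ln9_11_4 ln9_11_4_ok) (L (nat_lit 522) ln9_12_4 ln9_12_4_ok))))) (B (M (nat_lit 489) (B (M (nat_lit 521) (B (L (nat_lit 392) ln9_16_7 ln9_16_7_ok) (L (nat_lit 553) ln9_17_7_c10 ln9_17_7_c10_ok))) (M (nat_lit 490) (B (L (nat_lit 458) ln9_11_4 ln9_11_4_ok) (L (nat_lit 522) ln9_12_4 ln9_12_4_ok))))) (B (M (nat_lit 489) (B (M (nat_lit 490) (B (L (nat_lit 458) ln9_11_4 ln9_11_4_ok) (L (nat_lit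 522) ln9_12_4 ln9_12_4_ok))) (M (nat_lit 521) (B (L (nat_lit 553) ln9_17_7_c10 ln9_17_7_c10_ok) (L (nat_lit 394) ln9_16_6 ln9_16_6_ok))))) (M (nat_lit 455) (B (L (nat_lit 454) ln6_14_2_c10 ln6_14_2_c10_ok) (M (nat_lit 487) (B (M (nat_lit 458) (B (L (nat_lit 486) ln10_14_1_c10 ln10_14_1_c10_ok) (L (nat_lit 490) ln9_11_4 ln9_11_4_ok))) (M (nat_lit 360) (B (L (nat_lit 392) ln8_11_5_c10 ln8_11_5_c10_ok) (L (nat_lit 328) ln9_14_7_c10 ln9_14_7_c10_ok))))))))))))))) (B (M (nat_lit 488) (B (L (nat_lit 520) ln8_16_6_c10 ln8_16_6_c10_ok) (M (nat_lit 361) (B (L (nat_lit 392) ln8_15_6_c10 ln8_15_6_c10_ok) (L (nat_lit 457) ln9_11_5_c10 ln9_11_5_c10_ok))))) (M (nat_lit 488) (B (L (nat_lit 520) ln8_16_6_c10 ln8_16_6_c10_ok) (M (nat_lit 392) (B (M (nat_lit 391) (B (L (nat_lit 390) ln6_12_0_c10 ln6_12_0_c10_ok) (L (nat_lit 359) ln8_15_7_c10 ln8_15_7_c10_ok))) (M (nat_lit 360) (B (M (nat_lit 487) (B (L (nat_lit 455) ln8_11_5_c10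 ln8_11_5_c10_ok) (L (nat_lit 519) ln8_12_5_c10 ln8_12_5_c10_ok))) (M (nat_lit 489) (B (L (nat_lit 457) ln8_11_4_c10 ln8_11_4_c10_ok) (L (nat_lit 521) ln8_12_4_c10 ln8_12_4_c10_ok)))))))))))))) (B (M (nat_lit 458) (B (L (nat_lit 459) ln13_14_3 ln13_14_3_ok) (M (nat_lit 490) (B (L (nat_lit 522) ln10_16_7 ln10_16_7_ok) (M (nat_lit 361) (B (L (nat_lit 457) ln9_11_4 ln9_11_4_ok) (L (nat_lit 394) ln10_15_7 ln10_15_7_ok))))))) (M (nat_lit 423) (B (M (nat_lit 394) (B (L (nat_lit 422) ln6_13_2_c10 ln6_13_2_c10_ok) (L (nat_lit 395) ln7_13_2 ln7_13_2_ok))) (B (M (nat_lit 392) (B (M (nat_lit 391) (B (L (nat_lit 390) ln6_12_0_c10 ln6_12_0_c10_ok) (M (nat_lit 455) (B (L (nat_lit 454) ln10_13_1_c10 ln10_13_1_c10_ok) (M (nat_lit 487) (B (L (nat_lit 360) ln7_15_6_c10 ln7_15_6_c10_ok) (L (nat_lit 519) ln7_16_6_c10 ln7_16_6_c10_ok))))))) (B (M (nat_lit 455) (B (L (nat_lit 454) ln10_13_1_c10 ln10_13_1_c10_ok) (M (nat_lit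 360) (B (L (nat_lit 328) ln8_10_5_c10 ln8_10_5_c10_ok) (M (nat_lit 487) (B (L (nat_lit 391) ln7_15_6_c10 ln7_15_6_c10_ok) (L (nat_lit 519) ln7_16_6_c10 ln7_16_6_c10_ok))))))) (B (M (nat_lit 391) (B (L (nat_lit 390) ln6_12_0_c10 ln6_12_0_c10_ok) (M (nat_lit 359) (B (M (nat_lit 394) (B (L (nat_lit 358) ln10_12_3_c10 ln10_12_3_c10_ok) (L (nat_lit 395) ln11_12_1 ln11_12_1_ok))) (M (nat_lit 327) (B (L (nat_lit 295) ln7_9_4_c10 ln7_9_4_c10_ok) (L (nat_lit 456) ln7_10_4_c10 ln7_10_4_c10_ok))))))) (M (nat_lit 455) (B (L (nat_lit 454) ln10_13_1_c10 ln10_13_1_c10_ok) (M (nat_lit 487) (B (L (nat_lit 519) ln7_16_6_c10 ln7_16_6_c10_ok) (M (nat_lit 360) (B (L (nat_lit 328) ln8_10_5_c10 ln8_10_5_c10_ok) (L (nat_lit 456) ln8_11_5_c10 ln8_11_5_c10_ok))))))))))) (M (nat_lit 422) (B (M (nat_lit 390) (B (L (nat_lit 389) ln9_13_3_c10 ln9_13_3_c10_ok) (L (nat_lit 391) ln10_13_3_c10 ln10_13_3_c10_ok))) (M (nat_lit 454) (B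 (L (nat_lit 453) ln9_13_1_c10 ln9_13_1_c10_ok) (L (nat_lit 455) ln10_13_1_c10 ln10_13_1_c10_ok)))))))))))) (B (M (nat_lit 361) (B (M (nat_lit 458) (B (L (nat_lit 329) ln9_10_4_c10 ln9_10_4_c10_ok) (M (nat_lit 490) (B (L (nat_lit 457) ln9_11_4 ln9_11_4_ok) (L (nat_lit 522) ln10_16_7 ln10_16_7_ok))))) (B (M (nat_lit 457) (B (M (nat_lit 489) (B (M (nat_lit 360) (B (L (nat_lit 328) ln9_14_7_c10 ln9_14_7_c10_ok) (L (nat_lit 392) ln9_15_7 ln9_15_7_ok))) (M (nat_lit 488) (B (L (nat_lit 456) ln9_11_5_c10 ln9_11_5_c10_ok) (L (nat_lit 520) ln9_12_5_c10 ln9_12_5_c10_ok))))) (B (M (nat_lit 489) (B (M (nat_lit 488) (B (L (nat_lit 456) ln9_11_5_c10 ln9_11_5_c10_ok) (L (nat_lit 520) ln9_12_5_c10 ln9_12_5_c10_ok))) (M (nat_lit 490) (B (L (nat_lit 458) ln9_11_4 ln9_11_4_ok) (L (nat_lit 522) ln9_12_4 ln9_12_4_ok))))) (B (M (nat_lit 489) (B (M (nat_lit 360) (B (L (nat_lit 328) ln9_14_7_c10 ln9_14_7_c10_ok) (L (nat_lit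 392) ln9_15_7 ln9_15_7_ok))) (M (nat_lit 490) (B (L (nat_lit 458) ln9_11_4 ln9_11_4_ok) (L (nat_lit 522) ln9_12_4 ln9_12_4_ok))))) (M (nat_lit 424) (B (M (nat_lit 458) (B (L (nat_lit 490) ln9_11_4 ln9_11_4_ok) (M (nat_lit 423) (B (L (nat_lit 422) ln6_13_0_c10 ln6_13_0_c10_ok) (L (nat_lit 459) ln7_13_0 ln7_13_0_ok))))) (M (nat_lit 360) (B (L (nat_lit 328) ln9_14_7_c10 ln9_14_7_c10_ok) (M (nat_lit 392) (B (M (nat_lit 456) (B (L (nat_lit 488) ln9_11_5_c10 ln9_11_5_c10_ok) (M (nat_lit 455) (B (L (nat_lit 454) ln6_14_2_c10 ln6_14_2_c10_ok) (L (nat_lit 487) ln8_11_5_c10 ln8_11_5_c10_ok))))) (M (nat_lit 391) (B (L (nat_lit 390) ln6_12_0_c10 ln6_12_0_c10_ok) (M (nat_lit 362) (B (L (nat_lit 363) ln11_11_1 ln11_11_1_ok) (L (nat_lit 330) ln9_14_6_c10 ln9_14_6_c10_ok))))))))))))))) (B (M (nat_lit 329) (B (L (nat_lit 458) ln9_10_4_c10 ln9_10_4_c10_ok) (M (nat_lit 297) (B (M (nat_lit 296) (B (L (nat_lit 264) ln9_12_7_c10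 ln9_12_7_c10_ok) (L (nat_lit 328) ln9_13_7_c10 ln9_13_7_c10_ok))) (M (nat_lit 424) (B (L (nat_lit 392) ln9_9_5_c10 ln9_9_5_c10_ok) (L (nat_lit 456) ln9_10_5_c10 ln9_10_5_c10_ok))))))) (K (nat_lit 20839919904649913397057401104652817425700548137322060292745529591955666374237981480512742675076220583398162354550473956901300494599809138688) (nat_lit 3432398832462807744691844573544112337038474703123495981870802110500749749018348632622161827059847767334802682122587565247480383902537714969994453182543036416) (nat_lit 3432398832462807744691844573544112337038474703123495981870802110500749749018348632622161827059847767334802682122587565247480383902537714969994453182543036416) c10_s242))))) (M (nat_lit 361) (B (M (nat_lit 329) (B (M (nat_lit 297) (B (L (nat_lit 394) ln9_9_4_c10 ln9_9_4_c10_ok) (M (nat_lit 296) (B (L (nat_lit 264) ln9_12_7_c10 ln9_12_7_c10_ok) (L (nat_lit 328) ln9_13_7_c10 ln9_13_7_c10_ok))))) (B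 (M (nat_lit 297) (B (L (nat_lit 394) ln9_9_4_c10 ln9_9_4_c10_ok) (M (nat_lit 424) (B (L (nat_lit 392) ln9_9_5_c10 ln9_9_5_c10_ok) (L (nat_lit 456) ln9_10_5_c10 ln9_10_5_c10_ok))))) (M (nat_lit 457) (B (M (nat_lit 328) (B (L (nat_lit 296) ln9_13_7_c10 ln9_13_7_c10_ok) (L (nat_lit 360) ln9_14_7_c10 ln9_14_7_c10_ok))) (M (nat_lit 330) (B (L (nat_lit 298) ln9_13_6_c10 ln9_13_6_c10_ok) (L (nat_lit 362) ln9_14_6_c10 ln9_14_6_c10_ok)))))))) (B (M (nat_lit 329) (B (M (nat_lit 297) (B (L (nat_lit 394) ln9_9_4_c10 ln9_9_4_c10_ok) (M (nat_lit 424) (B (L (nat_lit 392) ln9_9_5_c10 ln9_9_5_c10_ok) (L (nat_lit 456) ln9_10_5_c10 ln9_10_5_c10_ok))))) (M (nat_lit 457) (B (M (nat_lit 328) (B (L (nat_lit 296) ln9_13_7_c10 ln9_13_7_c10_ok) (L (nat_lit 360) ln9_14_7_c10 ln9_14_7_c10_ok))) (M (nat_lit 330) (B (L (nat_lit 298) ln9_13_6_c10 ln9_13_6_c10_ok) (L (nat_lit 362) ln9_14_6_c10 ln9_14_6_c10_ok))))))) (B (K (nat_lit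 20839919904649913397057401104652817425700548137322060292745529591955666374237981480512742675076220583398162354550473956901300494599809138688) (nat_lit 799167629439106151536037946790003558851320432259158242821678935698488943193734328364895528118878275398636108964092685647609693550166488613839175680) (nat_lit 799167629439106151536037946790003558851320432259158242821678935698488943193734328364895528118878275398636108964092685647609693550166488613839175680) c10_s228) (B (K (nat_lit 20839919904649913397057401104652817425700548137322060292745529591955666374237981480512742675076220583398162354550473956901300494599809138688) (nat_lit 799167629439106151536037946779916645265043445581361621237365238294032203652511110160793077672342614613253823830912284498637749099667104447900680192) (nat_lit 799167629439106151536037946779916645265043445581361621237365238294032203652511110160793077672342614613253823830912284498637749099667104447900680192)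 c10_s229) c10_d89)))))))
noncomputable def c10_d91 : Cert := (B (M (nat_lit 394) (B (M (nat_lit 395) (B (M (nat_lit 424) (B (L (nat_lit 423) ln7_13_2 ln7_13_2_ok) (L (nat_lit 396) ln12_12_1 ln12_12_1_ok))) (B (L (nat_lit 396) ln13_12_1 ln13_12_1_ok) (M (nat_lit 392) (B (M (nat_lit 423) (B (L (nat_lit 424) ln11_12_1 ln11_12_1_ok) (M (nat_lit 391) (B (L (nat_lit 390) ln6_12_0_c10 ln6_12_0_c10_ok) (L (nat_lit 422) ln10_12_1_c10 ln10_12_1_c10_ok))))) (B (M (nat_lit 391) (B (M (nat_lit 359) (B (L (nat_lit 358) ln10_12_3_c10 ln10_12_3_c10_ok) (L (nat_lit 360) ln11_12_3 ln11_12_3_ok))) (M (nat_lit 423) (B (L (nat_lit 422) ln10_12_1_c10 ln10_12_1_c10_ok) (L (nat_lit 424) ln11_12_1 ln11_12_1_ok))))) (B (M (nat_lit 391) (B (L (nat_lit 390) ln6_12_0_c10 ln6_12_0_c10_ok) (M (nat_lit 363) (B (L (nat_lit 362) ln7_12_2_c10 ln7_12_2_c10_ok) (L (nat_lit 364) ln8_12_2 ln8_12_2_ok))))) (M (nat_lit 363) (B (L (nat_lit 364)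 ln8_12_2 ln8_12_2_ok) (M (nat_lit 458) (B (L (nat_lit 490) ln10_15_6 ln10_15_6_ok) (M (nat_lit 331) (B (L (nat_lit 362) ln10_14_6 ln10_14_6_ok) (L (nat_lit 299) ln11_9_5 ln11_9_5_ok)))))))))))))) (B (M (nat_lit 395) (B (M (nat_lit 424) (B (L (nat_lit 423) ln7_13_2 ln7_13_2_ok) (L (nat_lit 396) ln12_12_1 ln12_12_1_ok))) (B (L (nat_lit 396) ln13_12_1 ln13_12_1_ok) (M (nat_lit 423) (B (L (nat_lit 424) ln7_13_2 ln7_13_2_ok) (M (nat_lit 363) (B (M (nat_lit 392) (B (L (nat_lit 364) ln8_12_2 ln8_12_2_ok) (M (nat_lit 391) (B (L (nat_lit 390) ln6_12_0_c10 ln6_12_0_c10_ok) (L (nat_lit 422) ln10_12_1_c10 ln10_12_1_c10_ok))))) (B (M (nat_lit 392) (B (L (nat_lit 364) ln8_12_2 ln8_12_2_ok) (M (nat_lit 391) (B (L (nat_lit 422) ln10_12_1_c10 ln10_12_1_c10_ok) (L (nat_lit 362) ln7_12_2_c10 ln7_12_2_c10_ok))))) (B (M (nat_lit 392) (B (L (nat_lit 364) ln8_12_2 ln8_12_2_ok) (M (nat_lit 391) (B (L (nat_lit 390) ln6_12_0_c10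 ln6_12_0_c10_ok) (L (nat_lit 362) ln7_12_2_c10 ln7_12_2_c10_ok))))) (M (nat_lit 458) (B (L (nat_lit 490) ln10_15_6 ln10_15_6_ok) (M (nat_lit 331) (B (L (nat_lit 362) ln10_14_6 ln10_14_6_ok) (L (nat_lit 299) ln11_9_5 ln11_9_5_ok)))))))))))))) (B (M (nat_lit 395) (B (M (nat_lit 424) (B (L (nat_lit 423) ln7_13_2 ln7_13_2_ok) (L (nat_lit 396) ln12_12_1 ln12_12_1_ok))) (B (L (nat_lit 396) ln13_12_1 ln13_12_1_ok) (M (nat_lit 392) (B (M (nat_lit 423) (B (L (nat_lit 424) ln11_12_1 ln11_12_1_ok) (M (nat_lit 391) (B (L (nat_lit 422) ln10_12_1_c10 ln10_12_1_c10_ok) (M (nat_lit 363) (B (L (nat_lit 362) ln7_12_2_c10 ln7_12_2_c10_ok) (L (nat_lit 364) ln8_12_2 ln8_12_2_ok))))))) (B (M (nat_lit 391) (B (M (nat_lit 359) (B (L (nat_lit 358) ln10_12_3_c10 ln10_12_3_c10_ok) (L (nat_lit 360) ln11_12_3 ln11_12_3_ok))) (M (nat_lit 363) (B (L (nat_lit 362) ln7_12_2_c10 ln7_12_2_c10_ok) (L (nat_lit 364) ln8_12_2 ln8_12_2_ok)))))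 (B (M (nat_lit 363) (B (L (nat_lit 364) ln8_12_2 ln8_12_2_ok) (M (nat_lit 458) (B (L (nat_lit 490) ln10_15_6 ln10_15_6_ok) (M (nat_lit 331) (B (L (nat_lit 362) ln10_14_6 ln10_14_6_ok) (L (nat_lit 299) ln11_9_5 ln11_9_5_ok))))))) (M (nat_lit 391) (B (M (nat_lit 359) (B (L (nat_lit 358) ln10_12_3_c10 ln10_12_3_c10_ok) (L (nat_lit 360) ln11_12_3 ln11_12_3_ok))) (M (nat_lit 423) (B (L (nat_lit 422) ln10_12_1_c10 ln10_12_1_c10_ok) (L (nat_lit 424) ln11_12_1 ln11_12_1_ok)))))))))))) (B (M (nat_lit 395) (B (M (nat_lit 424) (B (L (nat_lit 423) ln7_13_2 ln7_13_2_ok) (L (nat_lit 396) ln12_12_1 ln12_12_1_ok))) (B (L (nat_lit 396) ln13_12_1 ln13_12_1_ok) (M (nat_lit 392) (B (M (nat_lit 391) (B (L (nat_lit 390) ln6_12_0_c10 ln6_12_0_c10_ok) (M (nat_lit 363) (B (L (nat_lit 362) ln7_12_2_c10 ln7_12_2_c10_ok) (L (nat_lit 364) ln8_12_2 ln8_12_2_ok))))) (B (M (nat_lit 363) (B (L (nat_lit 364) ln8_12_2 ln8_12_2_ok) (M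 (nat_lit 458) (B (L (nat_lit 490) ln10_15_6 ln10_15_6_ok) (M (nat_lit 331) (B (L (nat_lit 362) ln10_14_6 ln10_14_6_ok) (L (nat_lit 299) ln11_9_5 ln11_9_5_ok))))))) (M (nat_lit 359) (B (L (nat_lit 360) ln11_12_3 ln11_12_3_ok) (M (nat_lit 391) (B (L (nat_lit 358) ln10_12_3_c10 ln10_12_3_c10_ok) (L (nat_lit 390) ln6_12_0_c10 ln6_12_0_c10_ok))))))))))) (B (M (nat_lit 395) (B (L (nat_lit 396) ln13_12_1 ln13_12_1_ok) (M (nat_lit 458) (B (M (nat_lit 361) (B (L (nat_lit 329) ln9_10_4_c10 ln9_10_4_c10_ok) (L (nat_lit 490) ln10_15_7 ln10_15_7_ok))) (B (M (nat_lit 490) (B (L (nat_lit 361) ln10_15_7 ln10_15_7_ok) (L (nat_lit 522) ln10_16_7 ln10_16_7_ok))) (B (M (nat_lit 490) (B (L (nat_lit 522) ln10_16_7 ln10_16_7_ok) (L (nat_lit 363) ln10_15_6 ln10_15_6_ok))) (M (nat_lit 362) (B (M (nat_lit 329) (B (L (nat_lit 361) ln9_10_4_c10 ln9_10_4_c10_ok) (M (nat_lit 330) (B (L (nat_lit 297) ln10_13_7_c10 ln10_13_7_c10_ok)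 (L (nat_lit 298) ln10_9_5_c10 ln10_9_5_c10_ok))))) (M (nat_lit 363) (B (L (nat_lit 331) ln10_14_6 ln10_14_6_ok) (L (nat_lit 364) ln13_11_1 ln13_11_1_ok))))))))))) (B (M (nat_lit 395) (B (M (nat_lit 424) (B (L (nat_lit 423) ln7_13_2 ln7_13_2_ok) (L (nat_lit 396) ln12_12_1 ln12_12_1_ok))) (B (L (nat_lit 396) ln13_12_1 ln13_12_1_ok) (M (nat_lit 392) (B (M (nat_lit 423) (B (L (nat_lit 424) ln11_12_1 ln11_12_1_ok) (M (nat_lit 391) (B (L (nat_lit 390) ln6_12_0_c10 ln6_12_0_c10_ok) (L (nat_lit 422) ln10_12_1_c10 ln10_12_1_c10_ok))))) (B (M (nat_lit 391) (B (M (nat_lit 359) (B (L (nat_lit 358) ln10_12_3_c10 ln10_12_3_c10_ok) (L (nat_lit 360) ln11_12_3 ln11_12_3_ok))) (M (nat_lit 423) (B (L (nat_lit 422) ln10_12_1_c10 ln10_12_1_c10_ok) (L (nat_lit 424) ln11_12_1 ln11_12_1_ok))))) (B (M (nat_lit 359) (B (L (nat_lit 360) ln11_12_3 ln11_12_3_ok) (M (nat_lit 391) (B (L (nat_lit 358) ln10_12_3_c10 ln10_12_3_c10_ok)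 (L (nat_lit 390) ln6_12_0_c10 ln6_12_0_c10_ok))))) (M (nat_lit 424) (B (L (nat_lit 423) ln11_12_1 ln11_12_1_ok) (M (nat_lit 360) (B (L (nat_lit 359) ln11_12_3 ln11_12_3_ok) (M (nat_lit 329) (B (M (nat_lit 328) (B (L (nat_lit 296) ln8_9_4_c10 ln8_9_4_c10_ok) (L (nat_lit 297) ln8_13_6_c10 ln8_13_6_c10_ok))) (M (nat_lit 361) (B (L (nat_lit 456) ln9_10_5_c10 ln9_10_5_c10_ok) (L (nat_lit 458) ln9_10_4_c10 ln9_10_4_c10_ok)))))))))))))))) c10_d87))))))) (B (M (nat_lit 458) (B (M (nat_lit 490) (B (L (nat_lit 522) ln10_16_7 ln10_16_7_ok) (M (nat_lit 361) (B (L (nat_lit 329) ln9_10_4_c10 ln9_10_4_c10_ok) (L (nat_lit 394) ln10_15_7 ln10_15_7_ok))))) (B (M (nat_lit 490) (B (L (nat_lit 522) ln10_16_7 ln10_16_7_ok) (M (nat_lit 361) (B (L (nat_lit 457) ln9_11_4 ln9_11_4_ok) (L (nat_lit 394) ln10_15_7 ln10_15_7_ok))))) (B (M (nat_lit 489) (B (M (nat_lit 490) (B (L (nat_lit 522) ln10_16_7 ln10_16_7_ok) (M (nat_lit 394)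 (B (L (nat_lit 521) ln10_12_5 ln10_12_5_ok) (M (nat_lit 395) (B (L (nat_lit 363) ln10_15_6 ln10_15_6_ok) (L (nat_lit 396) ln13_12_1 ln13_12_1_ok))))))) (B (M (nat_lit 457) (B (M (nat_lit 521) (B (L (nat_lit 394) ln9_16_6 ln9_16_6_ok) (L (nat_lit 553) ln9_17_6 ln9_17_6_ok))) (M (nat_lit 488) (B (L (nat_lit 520) ln9_12_5_c10 ln9_12_5_c10_ok) (M (nat_lit 487) (B (L (nat_lit 486) ln6_15_2 ln6_15_2_ok) (L (nat_lit 459) ln12_14_1 ln12_14_1_ok))))))) (B (M (nat_lit 457) (B (M (nat_lit 488) (B (L (nat_lit 520) ln9_12_5_c10 ln9_12_5_c10_ok) (M (nat_lit 487) (B (L (nat_lit 486) ln6_15_2 ln6_15_2_ok) (L (nat_lit 459) ln12_14_1 ln12_14_1_ok))))) (B (M (nat_lit 490) (B (L (nat_lit 522) ln9_12_4 ln9_12_4_ok) (M (nat_lit 488) (B (L (nat_lit 520) ln9_12_5_c10 ln9_12_5_c10_ok) (L (nat_lit 459) ln12_14_1 ln12_14_1_ok))))) (M (nat_lit 394) (B (L (nat_lit 362) ln10_11_5 ln10_11_5_ok) (M (nat_lit 395) (B (L (nat_lit 396)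 ln13_12_1 ln13_12_1_ok) (M (nat_lit 490) (B (L (nat_lit 522) ln9_12_4 ln9_12_4_ok) (L (nat_lit 363) ln10_15_6 ln10_15_6_ok)))))))))) (M (nat_lit 490) (B (L (nat_lit 522) ln10_16_7 ln10_16_7_ok) (M (nat_lit 457) (B (M (nat_lit 488) (B (L (nat_lit 520) ln9_12_5_c10 ln9_12_5_c10_ok) (M (nat_lit 487) (B (L (nat_lit 486) ln6_15_2 ln6_15_2_ok) (L (nat_lit 459) ln12_14_1 ln12_14_1_ok))))) (M (nat_lit 392) (B (L (nat_lit 360) ln9_15_7 ln9_15_7_ok) (M (nat_lit 521) (B (L (nat_lit 424) ln9_16_7 ln9_16_7_ok) (L (nat_lit 553) ln9_17_6 ln9_17_6_ok))))))))))))) (B (M (nat_lit 490) (B (L (nat_lit 522) ln10_16_7 ln10_16_7_ok) (M (nat_lit 361) (B (L (nat_lit 329) ln9_10_4_c10 ln9_10_4_c10_ok) (L (nat_lit 457) ln9_11_4 ln9_11_4_ok))))) (M (nat_lit 457) (B (M (nat_lit 361) (B (L (nat_lit 329) ln9_10_4_c10 ln9_10_4_c10_ok) (M (nat_lit 488) (B (L (nat_lit 456) ln9_11_5_c10 ln9_11_5_c10_ok) (M (nat_lit 489) (B (L (nat_lit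 520) ln9_12_5_c10 ln9_12_5_c10_ok) (M (nat_lit 360) (B (L (nat_lit 328) ln9_14_7_c10 ln9_14_7_c10_ok) (L (nat_lit 392) ln9_15_7 ln9_15_7_ok))))))))) (B (M (nat_lit 489) (B (M (nat_lit 521) (B (L (nat_lit 394) ln9_16_6 ln9_16_6_ok) (L (nat_lit 553) ln9_17_6 ln9_17_6_ok))) (M (nat_lit 488) (B (L (nat_lit 520) ln9_12_5_c10 ln9_12_5_c10_ok) (M (nat_lit 361) (B (L (nat_lit 456) ln9_11_5_c10 ln9_11_5_c10_ok) (L (nat_lit 329) ln9_10_4_c10 ln9_10_4_c10_ok))))))) (B (M (nat_lit 489) (B (M (nat_lit 521) (B (L (nat_lit 394) ln9_16_6 ln9_16_6_ok) (L (nat_lit 553) ln9_17_6 ln9_17_6_ok))) (M (nat_lit 360) (B (L (nat_lit 392) ln9_15_7 ln9_15_7_ok) (M (nat_lit 361) (B (L (nat_lit 328) ln9_14_7_c10 ln9_14_7_c10_ok) (L (nat_lit 329) ln9_10_4_c10 ln9_10_4_c10_ok))))))) (B (M (nat_lit 488) (B (M (nat_lit 489) (B (L (nat_lit 520) ln9_12_5_c10 ln9_12_5_c10_ok) (M (nat_lit 394) (B (L (nat_lit 362) ln10_11_5 ln10_11_5_ok) (L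 (nat_lit 521) ln9_16_6 ln9_16_6_ok))))) (L (nat_lit 459) ln13_14_3 ln13_14_3_ok))) (M (nat_lit 456) (B (M (nat_lit 361) (B (L (nat_lit 488) ln9_11_5_c10 ln9_11_5_c10_ok) (L (nat_lit 329) ln9_10_4_c10 ln9_10_4_c10_ok))) (B (M (nat_lit 455) (B (L (nat_lit 454) ln6_14_2_c10 ln6_14_2_c10_ok) (M (nat_lit 424) (B (M (nat_lit 423) (B (L (nat_lit 422) ln6_13_0_c10 ln6_13_0_c10_ok) (L (nat_lit 459) ln7_13_0 ln7_13_0_ok))) (M (nat_lit 360) (B (M (nat_lit 487) (B (L (nat_lit 486) ln10_14_1_c10 ln10_14_1_c10_ok) (L (nat_lit 392) ln8_11_5_c10 ln8_11_5_c10_ok))) (B (M (nat_lit 392) (B (L (nat_lit 487) ln8_11_5_c10 ln8_11_5_c10_ok) (L (nat_lit 328) ln8_10_4_c10 ln8_10_4_c10_ok))) (B (M (nat_lit 328) (B (L (nat_lit 392) ln8_10_4_c10 ln8_10_4_c10_ok) (L (nat_lit 361) ln9_14_7_c10 ln9_14_7_c10_ok))) (M (nat_lit 361) (B (L (nat_lit 328) ln9_14_7_c10 ln9_14_7_c10_ok) (L (nat_lit 329) ln9_10_4_c10 ln9_10_4_c10_ok)))))))))))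 (B (M (nat_lit 455) (B (L (nat_lit 454) ln6_14_2_c10 ln6_14_2_c10_ok) (M (nat_lit 487) (B (L (nat_lit 486) ln10_14_1_c10 ln10_14_1_c10_ok) (M (nat_lit 488) (B (L (nat_lit 459) ln11_14_1 ln11_14_1_ok) (L (nat_lit 361) ln9_11_5_c10 ln9_11_5_c10_ok))))))) (M (nat_lit 455) (B (L (nat_lit 454) ln6_14_2_c10 ln6_14_2_c10_ok) (L (nat_lit 459) ln13_14_3 ln13_14_3_ok))))))))))))))))) c10_d90))
noncomputable def c10_d92 : Cert := (B (M (nat_lit 361) (B (M (nat_lit 458) (B (L (nat_lit 329) ln9_10_4_c10 ln9_10_4_c10_ok) (M (nat_lit 490) (B (L (nat_lit 457) ln9_11_4 ln9_11_4_ok) (L (nat_lit 522) ln10_16_7 ln10_16_7_ok))))) (B (K (nat_lit 20839919904649913397057401104652817425700548137322060292745529591955666374237981480512742675076220583398162354550473956901300494599809138688) (nat_lit 17161994155920697690923505070277032827124894484860095769559273682876682602131892322976238575712199831326361291315990222652644564143697272677408625438459166720)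 (nat_lit 17161994155920697690923505070277032827124894484860095769559273682876682602131892322976238575712199831326361291315990222652644564143697272677408625438459166720) c10_s222) (B (M (nat_lit 458) (B (L (nat_lit 329) ln9_10_4_c10 ln9_10_4_c10_ok) (M (nat_lit 490) (B (L (nat_lit 394) ln10_15_7 ln10_15_7_ok) (L (nat_lit 522) ln10_16_7 ln10_16_7_ok))))) (K (nat_lit 20839919904649913397057401104652817425700548137322060292745529591955666374237981480512742675076220583398162354550473956901300494599809138688) (nat_lit 3432398832462807744691844573544112337078822357468603928584175847562787550560666664113551333025724475240487434118184224850909557435201273261239606068071366656) (nat_lit 3432398832462807744691844573544112337078822357468603928584175847562787550560666664113551333025724475240487434118184224850909557435201273261239606068071366656) c10_s230))))) (B (M (nat_lit 392) (B (K (nat_lit 20839919904649913397067488018234397327213343905131918096686051331154154163487159603882814997906659451264455189824797097308577453959263813632)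 (nat_lit 1598335258133929449306728509905353703819696398151230798657115577927926079640366256904598468619884682732491449103015420717655862917116182963041599488) (nat_lit 1598335258133929449306728509905353703819696398151230798657115577927926079640366256904598468619884682732491449103015420717655862917116182963041599488) c10_s231) c10_d82)) (B (M (nat_lit 392) (B (K (nat_lit 20839919904649913397067488018234397327213343905131918096686051331154154163487159603882814997906659451264455189824797097308577453959263813632) (nat_lit 1598335258133929449306728509905353703819696398151230798657115577927926079640366256904598468619884682732491449103015420717655862917116182963041599488) (nat_lit 1598335258133929449306728509905353703819696398151230798657115577927926079640366256904598468619884682732491449103015420717655862917116182963041599488) c10_s231) (B (M (nat_lit 394) (B (M (nat_lit 362) (B (M (nat_lit 391) (B (L (nat_lit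 390) ln6_12_0_c10 ln6_12_0_c10_ok) (L (nat_lit 363) ln7_12_2_c10 ln7_12_2_c10_ok))) (M (nat_lit 457) (B (L (nat_lit 489) ln9_15_6 ln9_15_6_ok) (L (nat_lit 330) ln10_10_5 ln10_10_5_ok))))) (B (M (nat_lit 362) (B (M (nat_lit 457) (B (L (nat_lit 489) ln9_15_6 ln9_15_6_ok) (L (nat_lit 330) ln10_10_5 ln10_10_5_ok))) (M (nat_lit 395) (B (M (nat_lit 363) (B (L (nat_lit 391) ln7_12_2_c10 ln7_12_2_c10_ok) (L (nat_lit 364) ln13_11_1 ln13_11_1_ok))) (M (nat_lit 424) (B (L (nat_lit 423) ln11_12_1 ln11_12_1_ok) (L (nat_lit 396) ln12_12_1 ln12_12_1_ok))))))) (B (K (nat_lit 20839919904649913397107835672579505273926717642194465157222452984167110780875138656328762617000672594930543398469799250924763441021337993216) (nat_lit 1598335258133929449371712955813397462527480147229333115109399041241121062412348061678886735252682011869761352630140026131543567332172168046661599232) (nat_lit 1598335258133929449371712955813397462527480147229333115109399041241121062412348061678886735252682011869761352630140026131543567332172168046661599232)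 c10_s240) (M (nat_lit 395) (B (L (nat_lit 396) ln13_12_1 ln13_12_1_ok) (M (nat_lit 391) (B (L (nat_lit 390) ln6_12_0_c10 ln6_12_0_c10_ok) (M (nat_lit 363) (B (L (nat_lit 362) ln7_12_2_c10 ln7_12_2_c10_ok) (L (nat_lit 364) ln8_12_2 ln8_12_2_ok))))))))))) (B (M (nat_lit 394) (B (M (nat_lit 395) (B (L (nat_lit 396) ln13_12_1 ln13_12_1_ok) (M (nat_lit 362) (B (M (nat_lit 363) (B (L (nat_lit 391) ln7_12_2_c10 ln7_12_2_c10_ok) (L (nat_lit 364) ln13_11_1 ln13_11_1_ok))) (M (nat_lit 330) (B (L (nat_lit 298) ln10_9_5_c10 ln10_9_5_c10_ok) (L (nat_lit 457) ln10_10_5 ln10_10_5_ok))))))) (B (K (nat_lit 20839919904649913397107835672579505273926717642194465157222452984167110780875138656328762617000672594930543398469799250924763441021337993216) (nat_lit 1598335258133929449371712955813397462527480147229333115109399041241121062412348061678886735252682011869761352630140026131543567332172168046661599232) (nat_lit 1598335258133929449371712955813397462527480147229333115109399041241121062412348061678886735252682011869761352630140026131543567332172168046661599232)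 c10_s240) (B (M (nat_lit 362) (B (M (nat_lit 457) (B (L (nat_lit 489) ln9_15_6 ln9_15_6_ok) (L (nat_lit 330) ln10_10_5 ln10_10_5_ok))) (M (nat_lit 363) (B (L (nat_lit 391) ln7_12_2_c10 ln7_12_2_c10_ok) (L (nat_lit 364) ln13_11_1 ln13_11_1_ok))))) (K (nat_lit 20839919904649913397107835672579505273926717642194465157222452984167110780875138656328762617000672594930543398469799250924763441021337993216) (nat_lit 75815187195745414184493385986930792672747413109648948979584526994392307390477001781011170915650909315300205071038394902708748288) (nat_lit 75815187195745414184493385986930792672747413109648948979584526994392307390477001781011170915650909315300205071038394902708748288) c10_s233))))) (B (M (nat_lit 394) (B (M (nat_lit 362) (B (M (nat_lit 391) (B (L (nat_lit 390) ln6_12_0_c10 ln6_12_0_c10_ok) (L (nat_lit 363) ln7_12_2_c10 ln7_12_2_c10_ok))) (M (nat_lit 457) (B (L (nat_lit 489) ln9_15_6 ln9_15_6_ok) (L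 (nat_lit 330) ln10_10_5 ln10_10_5_ok))))) (B (M (nat_lit 395) (B (L (nat_lit 396) ln13_12_1 ln13_12_1_ok) (M (nat_lit 362) (B (M (nat_lit 363) (B (L (nat_lit 391) ln7_12_2_c10 ln7_12_2_c10_ok) (L (nat_lit 364) ln13_11_1 ln13_11_1_ok))) (M (nat_lit 457) (B (L (nat_lit 489) ln9_15_6 ln9_15_6_ok) (L (nat_lit 330) ln10_10_5 ln10_10_5_ok))))))) (B (K (nat_lit 20839919904649913397107835672579505273926717642194465157222452984167110780875138656328762617000672594930543398469799250924763441021337993216) (nat_lit 4795005774401788347985169975044107338953597666945913846965213980232689499274791734010991350784416971214092429565845724600885167877763836135163822080) (nat_lit 4795005774401788347985169975044107338953597666945913846965213980232689499274791734010991350784416971214092429565845724600885167877763836135163822080) c10_s236) (M (nat_lit 395) (B (M (nat_lit 424) (B (L (nat_lit 423) ln11_12_1 ln11_12_1_ok) (L (nat_lit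 396) ln12_12_1 ln12_12_1_ok))) (B (L (nat_lit 396) ln13_12_1 ln13_12_1_ok) (M (nat_lit 423) (B (L (nat_lit 424) ln11_12_1 ln11_12_1_ok) (M (nat_lit 391) (B (L (nat_lit 390) ln6_12_0_c10 ln6_12_0_c10_ok) (L (nat_lit 422) ln10_12_1_c10 ln10_12_1_c10_ok)))))))))))) (B (M (nat_lit 424) c10_d83) c10_d86)))))) c10_d91)))
noncomputable def c10_d93 : Cert := (B (M (nat_lit 458) (B (M (nat_lit 490) (B (L (nat_lit 522) ln10_16_7 ln10_16_7_ok) (M (nat_lit 361) (B (L (nat_lit 329) ln9_10_4_c10 ln9_10_4_c10_ok) (L (nat_lit 394) ln10_15_7 ln10_15_7_ok))))) (B (M (nat_lit 490) (B (L (nat_lit 522) ln10_16_7 ln10_16_7_ok) (M (nat_lit 361) (B (L (nat_lit 457) ln9_11_4 ln9_11_4_ok) (L (nat_lit 394) ln10_15_7 ln10_15_7_ok))))) (B (K (nat_lit 21584202758328614852979908683925436983713129224210095025280196881861889640168284314257347729064050056482153959788363125108470389261446676480) (nat_lit 20594392985186834920091773598918881823825580004829499934697490478839034463579707980898407127195685595068486861123854350068370319659464680733717963413068447744)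 (nat_lit 20594392985186834920091773598918881823825580004829499934697490478839034463579707980898407127195685595068486861123854350068370319659464680733717963413068447744) c10_s224) (B (M (nat_lit 490) (B (L (nat_lit 522) ln10_16_7 ln10_16_7_ok) (M (nat_lit 361) (B (L (nat_lit 329) ln9_10_4_c10 ln9_10_4_c10_ok) (L (nat_lit 457) ln9_11_4 ln9_11_4_ok))))) (M (nat_lit 394) (B (M (nat_lit 361) (B (L (nat_lit 329) ln9_10_4_c10 ln9_10_4_c10_ok) (M (nat_lit 362) (B (M (nat_lit 330) (B (L (nat_lit 457) ln10_10_5 ln10_10_5_ok) (L (nat_lit 298) ln10_9_5_c10 ln10_9_5_c10_ok))) (M (nat_lit 363) (B (L (nat_lit 331) ln10_14_6 ln10_14_6_ok) (L (nat_lit 364) ln13_11_1 ln13_11_1_ok))))))) (B (M (nat_lit 457) (B (M (nat_lit 489) (B (L (nat_lit 362) ln10_11_5 ln10_11_5_ok) (L (nat_lit 521) ln9_16_6 ln9_16_6_ok))) (K (nat_lit 21956344185167965580981510127909203252015567337944548932680721516855333573070323103446305166123510145715352579495773561826626092357371559936)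 (nat_lit 799167630695083467151338876667474138771610683709972661854594724635070417964276873470721959740493309177772444859264026655606996011479313739354734592) (nat_lit 799167630695083467151338876667474138771610683709972661854594724635070417964276873470721959740493309177772444859264026655606996011479313739354734592) c10_s225))) (B (M (nat_lit 362) (B (M (nat_lit 457) (B (L (nat_lit 489) ln10_11_5 ln10_11_5_ok) (L (nat_lit 330) ln10_10_5 ln10_10_5_ok))) (M (nat_lit 363) (B (L (nat_lit 331) ln10_14_6 ln10_14_6_ok) (M (nat_lit 392) (B (L (nat_lit 391) ln7_12_2_c10 ln7_12_2_c10_ok) (L (nat_lit 364) ln13_11_1 ln13_11_1_ok))))))) (B (K (nat_lit 21584202758328614853020256338270544930426502961272642085816598534874846257556263366703295348158063200148242168433365278724656376323520856064) (nat_lit 15130370449871757508385525772643995831259920778391549899631350606969630481336122844644719711492486276306353623635329024)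 (nat_lit 15130370449871757508385525772643995831259920778391549899631350606969630481336122844644719711492486276306353623635329024) c10_s226) (M (nat_lit 457) (B (M (nat_lit 489) (B (L (nat_lit 521) ln9_16_6 ln9_16_6_ok) (M (nat_lit 361) (B (L (nat_lit 329) ln9_10_4_c10 ln9_10_4_c10_ok) (M (nat_lit 488) (B (L (nat_lit 456) ln9_11_5_c10 ln9_11_5_c10_ok) (L (nat_lit 520) ln9_12_5_c10 ln9_12_5_c10_ok))))))) (B (K (nat_lit 21956344185167965580981510127909203252015567337944548932680721516855333573070323103446305166123510145715352579495773561826626092357371559936) (nat_lit 6864797661728944974232254528981989097815515046026367370339470957446746951116414161044004138683828538310858160630288575917838506776076129130812485587374702592) (nat_lit 6864797661728944974232254528981989097815515046026367370339470957446746951116414161044004138683828538310858160630288575917838506776076129130812485587374702592) c10_s227) (K (nat_lit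 21956344185167965580981510127909203252015567337944548932680721516855333573070323103446305166123510145715352579495773561826626092357371559936) (nat_lit 799167630695083467151338876667474138771610683709972661854594724635070417964276873470721959740493309177772444859264026655606996011479313739354734592) (nat_lit 799167630695083467151338876667474138771610683709972661854594724635070417964276873470721959740493309177772444859264026655606996011479313739354734592) c10_s225)))))))))))))) (B (M (nat_lit 361) (B (M (nat_lit 458) (B (L (nat_lit 329) ln9_10_4_c10 ln9_10_4_c10_ok) (M (nat_lit 490) (B (L (nat_lit 457) ln9_11_4 ln9_11_4_ok) (L (nat_lit 522) ln10_16_7 ln10_16_7_ok))))) (B (M (nat_lit 458) (B (M (nat_lit 490) (B (L (nat_lit 457) ln9_11_4 ln9_11_4_ok) (L (nat_lit 394) ln10_15_7 ln10_15_7_ok))) (B (M (nat_lit 490) (B (L (nat_lit 394) ln10_15_7 ln10_15_7_ok) (L (nat_lit 522) ln10_16_7 ln10_16_7_ok))) (B (M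 (nat_lit 490) (B (L (nat_lit 457) ln9_11_4 ln9_11_4_ok) (L (nat_lit 522) ln10_16_7 ln10_16_7_ok))) (M (nat_lit 457) (B (M (nat_lit 362) (B (L (nat_lit 330) ln9_14_6_c10 ln9_14_6_c10_ok) (M (nat_lit 489) (B (L (nat_lit 394) ln10_11_5 ln10_11_5_ok) (M (nat_lit 488) (B (L (nat_lit 456) ln9_11_5_c10 ln9_11_5_c10_ok) (L (nat_lit 520) ln9_12_5_c10 ln9_12_5_c10_ok))))))) (B (M (nat_lit 489) (B (M (nat_lit 362) (B (L (nat_lit 330) ln9_14_6_c10 ln9_14_6_c10_ok) (L (nat_lit 394) ln10_11_5 ln10_11_5_ok))) (B (M (nat_lit 394) (B (L (nat_lit 362) ln10_11_5 ln10_11_5_ok) (L (nat_lit 521) ln9_16_6 ln9_16_6_ok))) (B (M (nat_lit 521) (B (L (nat_lit 394) ln9_16_6 ln9_16_6_ok) (L (nat_lit 553) ln9_17_6 ln9_17_6_ok))) (M (nat_lit 521) (B (L (nat_lit 553) ln9_17_6 ln9_17_6_ok) (M (nat_lit 520) (B (L (nat_lit 488) ln9_12_5_c10 ln9_12_5_c10_ok) (L (nat_lit 552) ln9_13_5_c10 ln9_13_5_c10_ok))))))))) (B (M (nat_lit 489) (B (M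 (nat_lit 362) (B (L (nat_lit 330) ln9_14_6_c10 ln9_14_6_c10_ok) (L (nat_lit 394) ln10_11_5 ln10_11_5_ok))) (B (M (nat_lit 394) (B (L (nat_lit 362) ln10_11_5 ln10_11_5_ok) (L (nat_lit 521) ln9_16_6 ln9_16_6_ok))) (B (M (nat_lit 521) (B (L (nat_lit 394) ln9_16_6 ln9_16_6_ok) (L (nat_lit 553) ln9_17_6 ln9_17_6_ok))) (M (nat_lit 424) (B (M (nat_lit 423) (B (L (nat_lit 422) ln6_13_0_c10 ln6_13_0_c10_ok) (L (nat_lit 459) ln7_13_0 ln7_13_0_ok))) (M (nat_lit 521) (B (L (nat_lit 392) ln9_16_7 ln9_16_7_ok) (L (nat_lit 553) ln9_17_6 ln9_17_6_ok))))))))) (B (M (nat_lit 394) (B (M (nat_lit 362) (B (L (nat_lit 330) ln10_10_5 ln10_10_5_ok) (M (nat_lit 363) (B (L (nat_lit 331) ln10_14_6 ln10_14_6_ok) (M (nat_lit 392) (B (L (nat_lit 391) ln7_12_2_c10 ln7_12_2_c10_ok) (L (nat_lit 364) ln12_11_1 ln12_11_1_ok))))))) (M (nat_lit 423) (B (M (nat_lit 424) (B (L (nat_lit 422) ln6_13_0_c10 ln6_13_0_c10_ok) (L (nat_lit 395) ln7_13_2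 ln7_13_2_ok))) (B (M (nat_lit 424) (B (L (nat_lit 395) ln7_13_2 ln7_13_2_ok) (L (nat_lit 459) ln7_13_0 ln7_13_0_ok))) (M (nat_lit 456) (B (L (nat_lit 488) ln9_11_5_c10 ln9_11_5_c10_ok) (M (nat_lit 455) (B (L (nat_lit 422) ln10_14_3 ln10_14_3_ok) (L (nat_lit 454) ln6_14_2_c10 ln6_14_2_c10_ok)))))))))) (B (M (nat_lit 489) (B (M (nat_lit 488) (B (L (nat_lit 456) ln9_11_5_c10 ln9_11_5_c10_ok) (L (nat_lit 520) ln9_12_5_c10 ln9_12_5_c10_ok))) (M (nat_lit 521) (B (L (nat_lit 394) ln9_16_6 ln9_16_6_ok) (L (nat_lit 553) ln9_17_6 ln9_17_6_ok))))) (M (nat_lit 424) (B (M (nat_lit 423) (B (L (nat_lit 422) ln6_13_0_c10 ln6_13_0_c10_ok) (L (nat_lit 459) ln7_13_0 ln7_13_0_ok))) (M (nat_lit 489) (B (M (nat_lit 488) (B (L (nat_lit 456) ln9_11_5_c10 ln9_11_5_c10_ok) (L (nat_lit 520) ln9_12_5_c10 ln9_12_5_c10_ok))) (M (nat_lit 521) (B (L (nat_lit 392) ln9_16_7 ln9_16_7_ok) (L (nat_lit 553) ln9_17_6 ln9_17_6_ok)))))))))))))))))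 (B (M (nat_lit 458) (B (L (nat_lit 329) ln9_10_4_c10 ln9_10_4_c10_ok) (M (nat_lit 490) (B (L (nat_lit 394) ln10_15_7 ln10_15_7_ok) (L (nat_lit 522) ln10_16_7 ln10_16_7_ok))))) (K (nat_lit 20839919904649913397057401104652817425700548137322060292745529591955666374237981480512742675076220583398162354550473956901300494599809138688) (nat_lit 799167629439106151536037946790003558851320432259158242821678935698488943193734328364895528118878275398636108964092685647609693550166488613839175680) (nat_lit 799167629439106151536037946790003558851320432259158242821678935698488943193734328364895528118878275398636108964092685647609693550166488613839175680) c10_s228))))) (B (M (nat_lit 361) (B (M (nat_lit 458) (B (L (nat_lit 329) ln9_10_4_c10 ln9_10_4_c10_ok) (M (nat_lit 490) (B (L (nat_lit 394) ln10_15_7 ln10_15_7_ok) (L (nat_lit 522) ln10_16_7 ln10_16_7_ok))))) (B (M (nat_lit 458) (B (M (nat_lit 490) (B (L (nat_lit 457)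 ln9_11_4 ln9_11_4_ok) (L (nat_lit 394) ln10_15_7 ln10_15_7_ok))) (B (M (nat_lit 490) (B (L (nat_lit 394) ln10_15_7 ln10_15_7_ok) (L (nat_lit 522) ln10_16_7 ln10_16_7_ok))) (B (M (nat_lit 490) (B (L (nat_lit 457) ln9_11_4 ln9_11_4_ok) (L (nat_lit 522) ln10_16_7 ln10_16_7_ok))) (M (nat_lit 360) (B (M (nat_lit 457) (B (L (nat_lit 328) ln9_14_7_c10 ln9_14_7_c10_ok) (M (nat_lit 362) (B (L (nat_lit 330) ln9_14_6_c10 ln9_14_6_c10_ok) (M (nat_lit 394) (B (L (nat_lit 489) ln10_11_5 ln10_11_5_ok) (M (nat_lit 359) (B (L (nat_lit 358) ln6_11_0_c10 ln6_11_0_c10_ok) (L (nat_lit 395) ln7_11_0 ln7_11_0_ok))))))))) c10_d80)))))) (B (M (nat_lit 458) (B (L (nat_lit 329) ln9_10_4_c10 ln9_10_4_c10_ok) (M (nat_lit 490) (B (L (nat_lit 457) ln9_11_4 ln9_11_4_ok) (L (nat_lit 522) ln10_16_7 ln10_16_7_ok))))) (K (nat_lit 20839919904649913397057401104652817425700548137322060292745529591955666374237981480512742675076220583398162354550473956901300494599809138688)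 (nat_lit 799167629439106151536037946779916645265043445581361621237365238294032203652511110160793077672342614613253823830912284498637749099667104447900680192) (nat_lit 799167629439106151536037946779916645265043445581361621237365238294032203652511110160793077672342614613253823830912284498637749099667104447900680192) c10_s229))))) c10_d92)))
noncomputable def c10_d94 : Cert := (B (M (nat_lit 458) (B (M (nat_lit 490) (B (L (nat_lit 522) ln10_16_7 ln10_16_7_ok) (M (nat_lit 361) (B (L (nat_lit 329) ln9_10_4_c10 ln9_10_4_c10_ok) (L (nat_lit 457) ln9_11_4 ln9_11_4_ok))))) (B (M (nat_lit 490) (B (L (nat_lit 522) ln10_16_7 ln10_16_7_ok) (M (nat_lit 361) (B (L (nat_lit 457) ln9_11_4 ln9_11_4_ok) (L (nat_lit 394) ln10_15_7 ln10_15_7_ok))))) (B (K (nat_lit 21584202758328614852979908683925436983713129224210095025280196881861889640168284314257347729064050056482153959788363125108470389261446676480) (nat_lit 20594392985186834920091773598918881823825580004829499934697490478839034463579707980898407127195685595068486861123854350068370319659464680733717963413068447744)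 (nat_lit 20594392985186834920091773598918881823825580004829499934697490478839034463579707980898407127195685595068486861123854350068370319659464680733717963413068447744) c10_s224) (B (M (nat_lit 490) (B (L (nat_lit 522) ln10_16_7 ln10_16_7_ok) (M (nat_lit 361) (B (L (nat_lit 329) ln9_10_4_c10 ln9_10_4_c10_ok) (L (nat_lit 394) ln10_15_7 ln10_15_7_ok))))) (M (nat_lit 394) (B (M (nat_lit 361) (B (L (nat_lit 329) ln9_10_4_c10 ln9_10_4_c10_ok) (M (nat_lit 362) (B (M (nat_lit 330) (B (L (nat_lit 457) ln10_10_5 ln10_10_5_ok) (L (nat_lit 298) ln10_9_5_c10 ln10_9_5_c10_ok))) (M (nat_lit 363) (B (L (nat_lit 331) ln10_14_6 ln10_14_6_ok) (L (nat_lit 364) ln13_11_1 ln13_11_1_ok))))))) (B (M (nat_lit 457) (B (M (nat_lit 489) (B (L (nat_lit 362) ln10_11_5 ln10_11_5_ok) (L (nat_lit 521) ln9_16_6 ln9_16_6_ok))) (K (nat_lit 21956344185167965580981510127909203252015567337944548932680721516855333573070323103446305166123510145715352579495773561826626092357371559936)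 (nat_lit 799167630695083467151338876667474138771610683709972661854594724635070417964276873470721959740493309177772444859264026655606996011479313739354734592) (nat_lit 799167630695083467151338876667474138771610683709972661854594724635070417964276873470721959740493309177772444859264026655606996011479313739354734592) c10_s225))) (B (M (nat_lit 362) (B (M (nat_lit 457) (B (L (nat_lit 489) ln10_11_5 ln10_11_5_ok) (L (nat_lit 330) ln10_10_5 ln10_10_5_ok))) (M (nat_lit 363) (B (L (nat_lit 331) ln10_14_6 ln10_14_6_ok) (M (nat_lit 392) (B (L (nat_lit 391) ln7_12_2_c10 ln7_12_2_c10_ok) (L (nat_lit 364) ln13_11_1 ln13_11_1_ok))))))) (B (K (nat_lit 21584202758328614853020256338270544930426502961272642085816598534874846257556263366703295348158063200148242168433365278724656376323520856064) (nat_lit 15130370449871757508385525772643995831259920778391549899631350606969630481336122844644719711492486276306353623635329024)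 (nat_lit 15130370449871757508385525772643995831259920778391549899631350606969630481336122844644719711492486276306353623635329024) c10_s226) (M (nat_lit 457) (B (M (nat_lit 489) (B (L (nat_lit 521) ln9_16_6 ln9_16_6_ok) (M (nat_lit 361) (B (L (nat_lit 329) ln9_10_4_c10 ln9_10_4_c10_ok) (M (nat_lit 360) (B (L (nat_lit 328) ln9_14_7_c10 ln9_14_7_c10_ok) (L (nat_lit 392) ln9_15_7 ln9_15_7_ok))))))) (B (K (nat_lit 21956344185167965580981510127909203252015567337944548932680721516855333573070323103446305166123510145715352579495773561826626092357371559936) (nat_lit 6864797661728944974232254528981989097815515046026367370339470957446746951116414161044004138683828538310858160630288575917838506776076129130812485587374702592) (nat_lit 6864797661728944974232254528981989097815515046026367370339470957446746951116414161044004138683828538310858160630288575917838506776076129130812485587374702592) c10_s227) (K (nat_lit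 21956344185167965580981510127909203252015567337944548932680721516855333573070323103446305166123510145715352579495773561826626092357371559936) (nat_lit 799167630695083467151338876667474138771610683709972661854594724635070417964276873470721959740493309177772444859264026655606996011479313739354734592) (nat_lit 799167630695083467151338876667474138771610683709972661854594724635070417964276873470721959740493309177772444859264026655606996011479313739354734592) c10_s225)))))))))))))) (B (M (nat_lit 361) (B (M (nat_lit 458) (B (L (nat_lit 329) ln9_10_4_c10 ln9_10_4_c10_ok) (M (nat_lit 490) (B (L (nat_lit 457) ln9_11_4 ln9_11_4_ok) (L (nat_lit 522) ln10_16_7 ln10_16_7_ok))))) (B (M (nat_lit 457) (B (M (nat_lit 362) (B (L (nat_lit 330) ln9_14_6_c10 ln9_14_6_c10_ok) (M (nat_lit 489) (B (L (nat_lit 394) ln9_15_6 ln9_15_6_ok) (M (nat_lit 488) (B (L (nat_lit 456) ln9_11_5_c10 ln9_11_5_c10_ok) (L (nat_lit 520) ln9_12_5_c10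 ln9_12_5_c10_ok))))))) (B (M (nat_lit 489) (B (M (nat_lit 360) (B (L (nat_lit 328) ln9_14_7_c10 ln9_14_7_c10_ok) (L (nat_lit 392) ln9_15_7 ln9_15_7_ok))) (M (nat_lit 490) (B (L (nat_lit 458) ln9_11_4 ln9_11_4_ok) (L (nat_lit 522) ln9_12_4 ln9_12_4_ok))))) (M (nat_lit 394) (B (M (nat_lit 362) (B (L (nat_lit 330) ln10_10_5 ln10_10_5_ok) (M (nat_lit 360) (B (L (nat_lit 328) ln9_14_7_c10 ln9_14_7_c10_ok) (M (nat_lit 359) (B (L (nat_lit 358) ln6_11_0_c10 ln6_11_0_c10_ok) (L (nat_lit 395) ln7_11_0 ln7_11_0_ok))))))) (B (M (nat_lit 362) (B (L (nat_lit 330) ln10_10_5 ln10_10_5_ok) (M (nat_lit 360) (B (L (nat_lit 328) ln9_14_7_c10 ln9_14_7_c10_ok) (M (nat_lit 395) (B (L (nat_lit 359) ln7_11_0 ln7_11_0_ok) (L (nat_lit 396) ln12_12_3 ln12_12_3_ok))))))) (B (M (nat_lit 362) (B (L (nat_lit 330) ln10_10_5 ln10_10_5_ok) (M (nat_lit 363) (B (L (nat_lit 364) ln13_11_1 ln13_11_1_ok) (M (nat_lit 458) (B (L (nat_lit 490)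 ln9_11_4 ln9_11_4_ok) (L (nat_lit 331) ln10_14_6 ln10_14_6_ok))))))) (M (nat_lit 360) (B (L (nat_lit 328) ln9_14_7_c10 ln9_14_7_c10_ok) (M (nat_lit 395) (B (L (nat_lit 396) ln12_12_3 ln12_12_3_ok) (M (nat_lit 359) (B (L (nat_lit 358) ln6_11_0_c10 ln6_11_0_c10_ok) (L (nat_lit 392) ln11_12_3 ln11_12_3_ok)))))))))))))) (B (M (nat_lit 458) (B (L (nat_lit 329) ln9_10_4_c10 ln9_10_4_c10_ok) (M (nat_lit 490) (B (L (nat_lit 394) ln10_15_7 ln10_15_7_ok) (L (nat_lit 522) ln10_16_7 ln10_16_7_ok))))) (K (nat_lit 20839919904649913397057401104652817425700548137322060292745529591955666374237981480512742675076220583398162354550473956901300494599809138688) (nat_lit 372141426839350728001601443995508981220134968643162784491917750564744392754769708852828151625147265610014411041890887101897283285769256960) (nat_lit 372141426839350728001601443995508981220134968643162784491917750564744392754769708852828151625147265610014411041890887101897283285769256960)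 c10_s223))))) c10_d93))
theorem c10_s244 : Sem (nat_lit 20839919904649913397037227277475566367178313602335007801283750091394436700446175314548354283586149593514889033341045482096437963662708178944) (nat_lit 106879795260804898766353062991730000583918392767111390172002507046542190531335172435177075499921156413512762071761020551416264072137994846175707486005193828985103974400) (nat_lit 106879795260804898766353062991730000583918392767111390172002507046542190531335172435177075499921156413512762071761020551416264072137994846175707486005193828985103974400) :=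
  sem_of_chk (M (nat_lit 393) (B (M (nat_lit 361) (B (M (nat_lit 458) (B (L (nat_lit 329) ln9_10_4_c10 ln9_10_4_c10_ok) (M (nat_lit 490) (B (L (nat_lit 457) ln9_11_4 ln9_11_4_ok) (L (nat_lit 522) ln10_16_7 ln10_16_7_ok))))) (B (K (nat_lit 20839919904649913397057401104652817425700548137322060292745529591955666374237981480512742675076220583398162354550473956901300494599809138688) (nat_lit 17161994155920697690923505070277032827124894484860095769559273682876682602131892322976238575712199831326361291315990222652644564143697272677408625438459166720) (nat_lit 17161994155920697690923505070277032827124894484860095769559273682876682602131892322976238575712199831326361291315990222652644564143697272677408625438459166720) c10_s222) (B (M (nat_lit 458) (B (L (nat_lit 329) ln9_10_4_c10 ln9_10_4_c10_ok) (M (nat_lit 490) (B (L (nat_lit 394) ln10_15_7 ln10_15_7_ok) (L (nat_lit 522) ln10_16_7 ln10_16_7_ok))))) (K (nat_lit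 20839919904649913397057401104652817425700548137322060292745529591955666374237981480512742675076220583398162354550473956901300494599809138688) (nat_lit 372141426839350728001601443995508981220134968643162784491917750564744392754769708852828151625147265610014411041890887101897283285769256960) (nat_lit 372141426839350728001601443995508981220134968643162784491917750564744392754769708852828151625147265610014411041890887101897283285769256960) c10_s223))))) (B (M (nat_lit 361) (B (M (nat_lit 458) (B (L (nat_lit 329) ln9_10_4_c10 ln9_10_4_c10_ok) (M (nat_lit 490) (B (L (nat_lit 394) ln10_15_7 ln10_15_7_ok) (L (nat_lit 522) ln10_16_7 ln10_16_7_ok))))) (B (M (nat_lit 457) (B (M (nat_lit 489) (B (M (nat_lit 362) (B (L (nat_lit 330) ln9_14_6_c10 ln9_14_6_c10_ok) (L (nat_lit 394) ln9_15_6 ln9_15_6_ok))) (M (nat_lit 490) (B (L (nat_lit 458) ln9_11_4 ln9_11_4_ok) (L (nat_lit 522) ln9_12_4 ln9_12_4_ok))))) (B (M (nat_lit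 362) (B (L (nat_lit 330) ln9_14_6_c10 ln9_14_6_c10_ok) (M (nat_lit 394) (B (M (nat_lit 360) (B (L (nat_lit 328) ln9_14_7_c10 ln9_14_7_c10_ok) (M (nat_lit 395) (B (L (nat_lit 359) ln7_11_0 ln7_11_0_ok) (L (nat_lit 396) ln12_12_3 ln12_12_3_ok))))) (M (nat_lit 363) (B (M (nat_lit 392) (B (L (nat_lit 391) ln7_12_2_c10 ln7_12_2_c10_ok) (L (nat_lit 364) ln12_11_1 ln12_11_1_ok))) (M (nat_lit 458) (B (L (nat_lit 490) ln9_11_4 ln9_11_4_ok) (L (nat_lit 331) ln10_14_6 ln10_14_6_ok))))))))) (B (M (nat_lit 489) (B (M (nat_lit 360) (B (L (nat_lit 328) ln9_14_7_c10 ln9_14_7_c10_ok) (L (nat_lit 392) ln9_15_7 ln9_15_7_ok))) (M (nat_lit 490) (B (L (nat_lit 458) ln9_11_4 ln9_11_4_ok) (L (nat_lit 522) ln9_12_4 ln9_12_4_ok))))) (M (nat_lit 362) (B (L (nat_lit 330) ln9_14_6_c10 ln9_14_6_c10_ok) (M (nat_lit 489) (B (L (nat_lit 394) ln9_15_6 ln9_15_6_ok) (M (nat_lit 360) (B (L (nat_lit 328) ln9_14_7_c10 ln9_14_7_c10_ok) (L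 (nat_lit 392) ln9_15_7 ln9_15_7_ok))))))))))) (B (M (nat_lit 458) (B (L (nat_lit 329) ln9_10_4_c10 ln9_10_4_c10_ok) (M (nat_lit 490) (B (L (nat_lit 457) ln9_11_4 ln9_11_4_ok) (L (nat_lit 522) ln10_16_7 ln10_16_7_ok))))) (K (nat_lit 20839919904649913397057401104652817425700548137322060292745529591955666374237981480512742675076220583398162354550473956901300494599809138688) (nat_lit 372141426839350728001601443995508981220134968643162784491917750564744392754769708852828151625147265610014411041890887101897283285769256960) (nat_lit 372141426839350728001601443995508981220134968643162784491917750564744392754769708852828151625147265610014411041890887101897283285769256960) c10_s223))))) c10_d94))) (nat_lit 20839919904649913397037227277475566367178313602335007801283750091394436700446175314548354283586149593514889033341045482096437963662708178944) (nat_lit 106879795260804898766353062991730000583918392767111390172002507046542190531335172435177075499921156413512762071761020551416264072137994846175707486005193828985103974400)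 (nat_lit 106879795260804898766353062991730000583918392767111390172002507046542190531335172435177075499921156413512762071761020551416264072137994846175707486005193828985103974400) (by decide +kernel)
noncomputable def c10_d95 : Cert := (B (M (nat_lit 591) (B (M (nat_lit 494) (B (L (nat_lit 526) ln14_14_4 ln14_14_4_ok) (L (nat_lit 495) ln15_18_7 ln15_18_7_ok))) (B (M (nat_lit 623) (B (M (nat_lit 526) (B (L (nat_lit 494) ln14_14_4 ln14_14_4_ok) (L (nat_lit 655) ln15_20_7_c10 ln15_20_7_c10_ok))) (B (M (nat_lit 655) (B (L (nat_lit 526) ln15_20_7_c10 ln15_20_7_c10_ok) (M (nat_lit 656) (B (L (nat_lit 624) ln15_16_4_c10 ln15_16_4_c10_ok) (L (nat_lit 688) ln15_17_4_c10 ln15_17_4_c10_ok))))) (B (M (nat_lit 655) (B (M (nat_lit 656) (B (L (nat_lit 624) ln15_16_4_c10 ln15_16_4_c10_ok) (L (nat_lit 688) ln15_17_4_c10 ln15_17_4_c10_ok))) (M (nat_lit 654) (B (L (nat_lit 622) ln15_16_5_c10 ln15_16_5_c10_ok) (L (nat_lit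 686) ln15_17_5_c10 ln15_17_5_c10_ok))))) (M (nat_lit 590) (B (M (nat_lit 622) (B (L (nat_lit 654) ln15_16_5_c10 ln15_16_5_c10_ok) (M (nat_lit 624) (B (L (nat_lit 656) ln15_16_4_c10 ln15_16_4_c10_ok) (M (nat_lit 589) (B (L (nat_lit 588) ln12_18_0_c10 ln12_18_0_c10_ok) (L (nat_lit 625) ln17_19_3_c10 ln17_19_3_c10_ok))))))) (B (M (nat_lit 622) (B (L (nat_lit 654) ln15_16_5_c10 ln15_16_5_c10_ok) (M (nat_lit 621) (B (M (nat_lit 526) (B (L (nat_lit 494) ln14_14_4 ln14_14_4_ok) (L (nat_lit 653) ln14_16_5 ln14_16_5_ok))) (M (nat_lit 620) (B (L (nat_lit 592) ln12_19_2_c10 ln12_19_2_c10_ok) (L (nat_lit 619) ln11_19_2_c10 ln11_19_2_c10_ok))))))) (M (nat_lit 589) (B (M (nat_lit 560) (B (L (nat_lit 561) ln17_17_1_c10 ln17_17_1_c10_ok) (L (nat_lit 588) ln12_18_2_c10 ln12_18_2_c10_ok))) (B (M (nat_lit 588) (B (L (nat_lit 560) ln12_18_2_c10 ln12_18_2_c10_ok) (L (nat_lit 624) ln12_18_0_c10 ln12_18_0_c10_ok))) (B (M (nat_lit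 624) (B (L (nat_lit 656) ln15_16_4_c10 ln15_16_4_c10_ok) (L (nat_lit 588) ln12_18_0_c10 ln12_18_0_c10_ok))) (M (nat_lit 592) (B (M (nat_lit 557) (B (L (nat_lit 556) ln12_17_0_c10 ln12_17_0_c10_ok) (L (nat_lit 593) ln17_18_3_c10 ln17_18_3_c10_ok))) (M (nat_lit 624) (B (L (nat_lit 656) ln15_16_4_c10 ln15_16_4_c10_ok) (L (nat_lit 625) ln13_18_0_c10 ln13_18_0_c10_ok)))))))))))))))) (M (nat_lit 592) (B (M (nat_lit 624) (B (L (nat_lit 495) ln15_15_4_c10 ln15_15_4_c10_ok) (M (nat_lit 656) (B (L (nat_lit 560) ln16_20_7_c10 ln16_20_7_c10_ok) (L (nat_lit 623) ln15_16_4_c10 ln15_16_4_c10_ok))))) (B (M (nat_lit 557) (B (L (nat_lit 556) ln12_17_0_c10 ln12_17_0_c10_ok) (M (nat_lit 593) (B (L (nat_lit 560) ln13_17_0_c10 ln13_17_0_c10_ok) (L (nat_lit 594) ln18_18_3_c10 ln18_18_3_c10_ok))))) (M (nat_lit 624) (B (L (nat_lit 495) ln15_15_4_c10 ln15_15_4_c10_ok) (M (nat_lit 656) (B (L (nat_lit 623) ln15_16_4_c10 ln15_16_4_c10_ok)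 (L (nat_lit 688) ln16_21_7_c10 ln16_21_7_c10_ok))))))))))) (B (M (nat_lit 591) (B (M (nat_lit 495) (B (L (nat_lit 494) ln15_18_7 ln15_18_7_ok) (M (nat_lit 590) (B (L (nat_lit 622) ln15_15_5_c10 ln15_15_5_c10_ok) (M (nat_lit 592) (B (L (nat_lit 624) ln15_15_4_c10 ln15_15_4_c10_ok) (M (nat_lit 557) (B (L (nat_lit 556) ln12_17_0_c10 ln12_17_0_c10_ok) (L (nat_lit 593) ln17_18_3_c10 ln17_18_3_c10_ok))))))))) (B (M (nat_lit 623) (B (M (nat_lit 528) (B (L (nat_lit 496) ln15_19_6_c10 ln15_19_6_c10_ok) (M (nat_lit 655) (B (L (nat_lit 560) ln15_20_6_c10 ln15_20_6_c10_ok) (M (nat_lit 656) (B (L (nat_lit 624) ln15_16_4_c10 ln15_16_4_c10_ok) (L (nat_lit 688) ln15_17_4_c10 ln15_17_4_c10_ok))))))) (B (M (nat_lit 655) (B (M (nat_lit 656) (B (L (nat_lit 624) ln15_16_4_c10 ln15_16_4_c10_ok) (L (nat_lit 688) ln15_17_4_c10 ln15_17_4_c10_ok))) (M (nat_lit 654) (B (L (nat_lit 622) ln15_16_5_c10 ln15_16_5_c10_ok) (L (nat_lit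 686) ln15_17_5_c10 ln15_17_5_c10_ok))))) (B (M (nat_lit 655) (B (M (nat_lit 528) (B (L (nat_lit 496) ln15_19_6_c10 ln15_19_6_c10_ok) (L (nat_lit 560) ln15_20_6_c10 ln15_20_6_c10_ok))) (M (nat_lit 654) (B (L (nat_lit 622) ln15_16_5_c10 ln15_16_5_c10_ok) (L (nat_lit 686) ln15_17_5_c10 ln15_17_5_c10_ok))))) (M (nat_lit 528) (B (L (nat_lit 496) ln15_19_6_c10 ln15_19_6_c10_ok) (M (nat_lit 557) (B (L (nat_lit 556) ln12_17_2_c10 ln12_17_2_c10_ok) (M (nat_lit 529) (B (L (nat_lit 530) ln18_16_1_c10 ln18_16_1_c10_ok) (L (nat_lit 560) ln13_17_2_c10 ln13_17_2_c10_ok))))))))))) (B (M (nat_lit 623) (B (M (nat_lit 496) (B (L (nat_lit 528) ln15_19_6_c10 ln15_19_6_c10_ok) (M (nat_lit 495) (B (L (nat_lit 464) ln15_18_6_c10 ln15_18_6_c10_ok) (L (nat_lit 494) ln15_18_7 ln15_18_7_ok))))) (B (M (nat_lit 655) (B (M (nat_lit 528) (B (L (nat_lit 496) ln15_19_6_c10 ln15_19_6_c10_ok) (L (nat_lit 560) ln15_20_6_c10 ln15_20_6_c10_ok)))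 (M (nat_lit 654) (B (L (nat_lit 622) ln15_16_5_c10 ln15_16_5_c10_ok) (L (nat_lit 686) ln15_17_5_c10 ln15_17_5_c10_ok))))) (M (nat_lit 655) (B (M (nat_lit 656) (B (L (nat_lit 624) ln15_16_4_c10 ln15_16_4_c10_ok) (L (nat_lit 688) ln15_17_4_c10 ln15_17_4_c10_ok))) (M (nat_lit 654) (B (L (nat_lit 622) ln15_16_5_c10 ln15_16_5_c10_ok) (L (nat_lit 686) ln15_17_5_c10 ln15_17_5_c10_ok)))))))) (B (M (nat_lit 623) (B (M (nat_lit 496) (B (L (nat_lit 528) ln15_19_6_c10 ln15_19_6_c10_ok) (M (nat_lit 495) (B (L (nat_lit 464) ln15_18_6_c10 ln15_18_6_c10_ok) (L (nat_lit 494) ln15_18_7 ln15_18_7_ok))))) (B (M (nat_lit 495) (B (L (nat_lit 494) ln15_18_7 ln15_18_7_ok) (M (nat_lit 622) (B (L (nat_lit 590) ln15_15_5_c10 ln15_15_5_c10_ok) (L (nat_lit 654) ln15_16_5_c10 ln15_16_5_c10_ok))))) (M (nat_lit 655) (B (M (nat_lit 528) (B (L (nat_lit 496) ln15_19_6_c10 ln15_19_6_c10_ok) (L (nat_lit 560) ln15_20_6_c10 ln15_20_6_c10_ok)))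 (M (nat_lit 654) (B (L (nat_lit 622) ln15_16_5_c10 ln15_16_5_c10_ok) (L (nat_lit 686) ln15_17_5_c10 ln15_17_5_c10_ok)))))))) (M (nat_lit 623) (B (M (nat_lit 496) (B (L (nat_lit 528) ln15_19_6_c10 ln15_19_6_c10_ok) (M (nat_lit 495) (B (L (nat_lit 464) ln15_18_6_c10 ln15_18_6_c10_ok) (L (nat_lit 494) ln15_18_7 ln15_18_7_ok))))) (B (M (nat_lit 495) (B (L (nat_lit 494) ln15_18_7 ln15_18_7_ok) (M (nat_lit 624) (B (L (nat_lit 592) ln15_15_4_c10 ln15_15_4_c10_ok) (L (nat_lit 656) ln15_16_4_c10 ln15_16_4_c10_ok))))) (M (nat_lit 528) (B (L (nat_lit 496) ln15_19_6_c10 ln15_19_6_c10_ok) (M (nat_lit 655) (B (L (nat_lit 560) ln15_20_6_c10 ln15_20_6_c10_ok) (M (nat_lit 656) (B (L (nat_lit 624) ln15_16_4_c10 ln15_16_4_c10_ok) (L (nat_lit 688) ln15_17_4_c10 ln15_17_4_c10_ok))))))))))))))) (M (nat_lit 528) (B (M (nat_lit 529) (B (L (nat_lit 530) ln18_16_1_c10 ln18_16_1_c10_ok) (M (nat_lit 526) (B (L (nat_lit 494) ln17_16_3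 ln17_16_3_ok) (L (nat_lit 557) ln17_16_1 ln17_16_1_ok))))) (B (M (nat_lit 529) (B (L (nat_lit 530) ln18_16_1_c10 ln18_16_1_c10_ok) (M (nat_lit 557) (B (L (nat_lit 526) ln17_16_1 ln17_16_1_ok) (L (nat_lit 556) ln12_17_2_c10 ln12_17_2_c10_ok))))) (B (M (nat_lit 526) (B (L (nat_lit 494) ln14_17_7 ln14_17_7_ok) (M (nat_lit 557) (B (L (nat_lit 529) ln17_16_1 ln17_16_1_ok) (L (nat_lit 556) ln12_17_2_c10 ln12_17_2_c10_ok))))) (B (M (nat_lit 560) (B (M (nat_lit 557) (B (L (nat_lit 556) ln12_17_2_c10 ln12_17_2_c10_ok) (M (nat_lit 592) (B (L (nat_lit 593) ln13_17_0_c10 ln13_17_0_c10_ok) (M (nat_lit 624) (B (L (nat_lit 495) ln16_19_7_c10 ln16_19_7_c10_ok) (L (nat_lit 656) ln16_20_7_c10 ln16_20_7_c10_ok))))))) (B (M (nat_lit 557) (B (L (nat_lit 556) ln12_17_2_c10 ln12_17_2_c10_ok) (M (nat_lit 561) (B (M (nat_lit 526) (B (L (nat_lit 494) ln14_17_7 ln14_17_7_ok) (L (nat_lit 562) ln18_17_3_c10 ln18_17_3_c10_ok))) (M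 (nat_lit 593) (B (L (nat_lit 594) ln14_17_0_c10 ln14_17_0_c10_ok) (L (nat_lit 592) ln13_17_0_c10 ln13_17_0_c10_ok))))))) (M (nat_lit 526) (B (L (nat_lit 494) ln14_17_7 ln14_17_7_ok) (M (nat_lit 590) (B (M (nat_lit 622) (B (L (nat_lit 495) ln14_19_6 ln14_19_6_ok) (L (nat_lit 654) ln14_20_6_c10 ln14_20_6_c10_ok))) (M (nat_lit 561) (B (L (nat_lit 562) ln18_17_3_c10 ln18_17_3_c10_ok) (L (nat_lit 589) ln17_17_1_c10 ln17_17_1_c10_ok)))))))))) (B (M (nat_lit 529) (B (L (nat_lit 530) ln18_16_1_c10 ln18_16_1_c10_ok) (M (nat_lit 557) (B (L (nat_lit 560) ln13_17_2_c10 ln13_17_2_c10_ok) (L (nat_lit 556) ln12_17_2_c10 ln12_17_2_c10_ok))))) (M (nat_lit 529) (B (L (nat_lit 530) ln18_16_1_c10 ln18_16_1_c10_ok) (M (nat_lit 494) (B (L (nat_lit 526) ln17_16_3 ln17_16_3_ok) (M (nat_lit 495) (B (L (nat_lit 496) ln13_15_0 ln13_15_0_ok) (L (nat_lit 492) ln12_15_0 ln12_15_0_ok)))))))))))))))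
noncomputable def c10_d96 : Cert := (B (M (nat_lit 528) (B (M (nat_lit 529) (B (L (nat_lit 530) ln18_16_1_c10 ln18_16_1_c10_ok) (M (nat_lit 526) (B (L (nat_lit 494) ln17_16_3 ln17_16_3_ok) (L (nat_lit 557) ln17_16_1 ln17_16_1_ok))))) (B (M (nat_lit 529) (B (L (nat_lit 530) ln18_16_1_c10 ln18_16_1_c10_ok) (M (nat_lit 557) (B (L (nat_lit 526) ln17_16_1 ln17_16_1_ok) (L (nat_lit 556) ln12_17_2_c10 ln12_17_2_c10_ok))))) (B (M (nat_lit 526) (B (L (nat_lit 494) ln14_17_7 ln14_17_7_ok) (M (nat_lit 557) (B (L (nat_lit 529) ln17_16_1 ln17_16_1_ok) (L (nat_lit 556) ln12_17_2_c10 ln12_17_2_c10_ok))))) (B (M (nat_lit 560) (B (M (nat_lit 526) (B (L (nat_lit 494) ln14_17_7 ln14_17_7_ok) (M (nat_lit 557) (B (L (nat_lit 556) ln12_17_2_c10 ln12_17_2_c10_ok) (M (nat_lit 561) (B (L (nat_lit 562) ln18_17_3_c10 ln18_17_3_c10_ok) (M (nat_lit 589) (B (L (nat_lit 590) ln17_17_1_c10 ln17_17_1_c10_ok) (L (nat_lit 588) ln16_17_1_c10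 ln16_17_1_c10_ok))))))))) (B (M (nat_lit 561) (B (M (nat_lit 562) (B (L (nat_lit 563) ln19_17_3_c10 ln19_17_3_c10_ok) (L (nat_lit 526) ln18_17_3_c10 ln18_17_3_c10_ok))) (M (nat_lit 593) (B (L (nat_lit 594) ln14_17_0_c10 ln14_17_0_c10_ok) (M (nat_lit 557) (B (L (nat_lit 556) ln12_17_2_c10 ln12_17_2_c10_ok) (L (nat_lit 592) ln13_17_0_c10 ln13_17_0_c10_ok))))))) (B (M (nat_lit 561) (B (M (nat_lit 590) (B (L (nat_lit 589) ln17_17_1_c10 ln17_17_1_c10_ok) (M (nat_lit 562) (B (L (nat_lit 563) ln19_17_3_c10 ln19_17_3_c10_ok) (L (nat_lit 591) ln18_17_1_c10 ln18_17_1_c10_ok))))) (M (nat_lit 593) (B (L (nat_lit 594) ln14_17_0_c10 ln14_17_0_c10_ok) (M (nat_lit 557) (B (L (nat_lit 556) ln12_17_2_c10 ln12_17_2_c10_ok) (L (nat_lit 592) ln13_17_0_c10 ln13_17_0_c10_ok))))))) (B (M (nat_lit 526) (B (L (nat_lit 494) ln14_17_7 ln14_17_7_ok) (M (nat_lit 557) (B (L (nat_lit 556) ln12_17_2_c10 ln12_17_2_c10_ok) (M (nat_lit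 561) (B (M (nat_lit 593) (B (L (nat_lit 594) ln14_17_0_c10 ln14_17_0_c10_ok) (L (nat_lit 592) ln13_17_0_c10 ln13_17_0_c10_ok))) (M (nat_lit 589) (B (L (nat_lit 590) ln17_17_1_c10 ln17_17_1_c10_ok) (L (nat_lit 588) ln16_17_1_c10 ln16_17_1_c10_ok))))))))) (B (M (nat_lit 592) (B (M (nat_lit 557) (B (L (nat_lit 556) ln12_17_2_c10 ln12_17_2_c10_ok) (L (nat_lit 593) ln13_17_0_c10 ln13_17_0_c10_ok))) (M (nat_lit 496) (B (M (nat_lit 464) (B (L (nat_lit 432) ln16_13_5_c10 ln16_13_5_c10_ok) (L (nat_lit 591) ln16_14_5_c10 ln16_14_5_c10_ok))) (B (M (nat_lit 591) (B (L (nat_lit 464) ln16_14_5_c10 ln16_14_5_c10_ok) (L (nat_lit 623) ln16_15_5_c10 ln16_15_5_c10_ok))) (B (M (nat_lit 623) (B (L (nat_lit 591) ln16_15_5_c10 ln16_15_5_c10_ok) (M (nat_lit 624) (B (L (nat_lit 655) ln16_16_5_c10 ln16_16_5_c10_ok) (L (nat_lit 656) ln16_20_7_c10 ln16_20_7_c10_ok))))) (M (nat_lit 465) (B (L (nat_lit 497) ln16_18_6_c10 ln16_18_6_c10_ok)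 (M (nat_lit 464) (B (L (nat_lit 433) ln16_17_6_c10 ln16_17_6_c10_ok) (L (nat_lit 432) ln16_13_5_c10 ln16_13_5_c10_ok))))))))))) (M (nat_lit 623) (B (M (nat_lit 591) (B (L (nat_lit 496) ln15_19_6_c10 ln15_19_6_c10_ok) (L (nat_lit 655) ln15_20_6_c10 ln15_20_6_c10_ok))) (B (M (nat_lit 526) (B (L (nat_lit 494) ln14_17_7 ln14_17_7_ok) (M (nat_lit 590) (B (M (nat_lit 622) (B (L (nat_lit 654) ln14_20_6_c10 ln14_20_6_c10_ok) (L (nat_lit 655) ln14_16_4 ln14_16_4_ok))) (M (nat_lit 561) (B (L (nat_lit 562) ln18_17_3_c10 ln18_17_3_c10_ok) (L (nat_lit 589) ln17_17_1_c10 ln17_17_1_c10_ok))))))) (M (nat_lit 496) (B (L (nat_lit 591) ln15_19_6_c10 ln15_19_6_c10_ok) (M (nat_lit 561) (B (M (nat_lit 464) (B (L (nat_lit 432) ln16_13_5_c10 ln16_13_5_c10_ok) (L (nat_lit 593) ln16_14_4_c10 ln16_14_4_c10_ok))) (M (nat_lit 526) (B (L (nat_lit 494) ln14_17_7 ln14_17_7_ok) (L (nat_lit 562) ln18_17_3_c10 ln18_17_3_c10_ok))))))))))))))))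 (B (M (nat_lit 529) (B (L (nat_lit 530) ln18_16_1_c10 ln18_16_1_c10_ok) (M (nat_lit 557) (B (L (nat_lit 560) ln13_17_2_c10 ln13_17_2_c10_ok) (L (nat_lit 556) ln12_17_2_c10 ln12_17_2_c10_ok))))) (M (nat_lit 529) (B (L (nat_lit 530) ln18_16_1_c10 ln18_16_1_c10_ok) (M (nat_lit 561) (B (M (nat_lit 526) (B (L (nat_lit 494) ln17_16_3 ln17_16_3_ok) (L (nat_lit 562) ln14_16_0 ln14_16_0_ok))) (B (M (nat_lit 562) (B (L (nat_lit 526) ln14_16_0 ln14_16_0_ok) (M (nat_lit 560) (B (L (nat_lit 563) ln19_17_3_c10 ln19_17_3_c10_ok) (M (nat_lit 590) (B (L (nat_lit 591) ln18_17_1_c10 ln18_17_1_c10_ok) (L (nat_lit 589) ln17_17_1_c10 ln17_17_1_c10_ok))))))) (B (M (nat_lit 560) (B (M (nat_lit 593) (B (L (nat_lit 594) ln14_17_0_c10 ln14_17_0_c10_ok) (M (nat_lit 496) (B (L (nat_lit 464) ln16_14_4_c10 ln16_14_4_c10_ok) (L (nat_lit 625) ln17_19_7_c10 ln17_19_7_c10_ok))))) (M (nat_lit 562) (B (L (nat_lit 563) ln19_17_3_c10 ln19_17_3_c10_ok)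 (M (nat_lit 590) (B (L (nat_lit 591) ln18_17_1_c10 ln18_17_1_c10_ok) (L (nat_lit 589) ln17_17_1_c10 ln17_17_1_c10_ok))))))) (M (nat_lit 560) (B (M (nat_lit 593) (B (L (nat_lit 594) ln14_17_0_c10 ln14_17_0_c10_ok) (M (nat_lit 496) (B (L (nat_lit 464) ln16_14_4_c10 ln16_14_4_c10_ok) (L (nat_lit 625) ln17_19_7_c10 ln17_19_7_c10_ok))))) (M (nat_lit 497) (B (M (nat_lit 465) (B (L (nat_lit 433) ln17_13_5_c10 ln17_13_5_c10_ok) (L (nat_lit 592) ln17_14_5_c10 ln17_14_5_c10_ok))) (M (nat_lit 526) (B (L (nat_lit 494) ln17_16_3 ln17_16_3_ok) (L (nat_lit 498) ln14_16_2 ln14_16_2_ok))))))))))))))))))) (B (M (nat_lit 557) (B (M (nat_lit 528) (B (L (nat_lit 556) ln12_17_2_c10 ln12_17_2_c10_ok) (M (nat_lit 529) (B (L (nat_lit 530) ln18_16_1_c10 ln18_16_1_c10_ok) (L (nat_lit 560) ln13_17_2_c10 ln13_17_2_c10_ok))))) (B (M (nat_lit 528) (B (L (nat_lit 556) ln12_17_2_c10 ln12_17_2_c10_ok) (M (nat_lit 529) (B (L (nat_lit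 526) ln17_16_1 ln17_16_1_ok) (L (nat_lit 560) ln13_17_2_c10 ln13_17_2_c10_ok))))) (B (M (nat_lit 556) (B (L (nat_lit 528) ln12_17_2_c10 ln12_17_2_c10_ok) (M (nat_lit 591) (B (L (nat_lit 592) ln12_17_0_c10 ln12_17_0_c10_ok) (M (nat_lit 555) (B (L (nat_lit 526) ln11_17_2 ln11_17_2_ok) (L (nat_lit 590) ln11_17_0 ln11_17_0_ok))))))) (B (M (nat_lit 556) (B (M (nat_lit 591) (B (L (nat_lit 592) ln12_17_0_c10 ln12_17_0_c10_ok) (M (nat_lit 555) (B (L (nat_lit 526) ln11_17_2 ln11_17_2_ok) (L (nat_lit 590) ln11_17_0 ln11_17_0_ok))))) (B (M (nat_lit 560) (B (M (nat_lit 592) (B (L (nat_lit 593) ln13_17_0_c10 ln13_17_0_c10_ok) (L (nat_lit 591) ln12_17_0_c10 ln12_17_0_c10_ok))) (M (nat_lit 588) (B (L (nat_lit 589) ln16_17_1_c10 ln16_17_1_c10_ok) (L (nat_lit 587) ln15_17_1_c10 ln15_17_1_c10_ok))))) (B (M (nat_lit 590) (B (M (nat_lit 555) (B (L (nat_lit 526) ln11_17_2 ln11_17_2_ok) (L (nat_lit 591) ln11_17_0 ln11_17_0_ok)))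 (B (M (nat_lit 591) (B (L (nat_lit 555) ln11_17_0 ln11_17_0_ok) (M (nat_lit 622) (B (L (nat_lit 495) ln15_15_5_c10 ln15_15_5_c10_ok) (L (nat_lit 654) ln14_20_6_c10 ln14_20_6_c10_ok))))) (B (M (nat_lit 622) (B (L (nat_lit 654) ln14_20_6_c10 ln14_20_6_c10_ok) (M (nat_lit 495) (B (L (nat_lit 526) ln14_19_6 ln14_19_6_ok) (L (nat_lit 591) ln15_15_5_c10 ln15_15_5_c10_ok))))) (M (nat_lit 622) (B (L (nat_lit 654) ln14_20_6_c10 ln14_20_6_c10_ok) (M (nat_lit 526) (B (L (nat_lit 495) ln14_19_6 ln14_19_6_ok) (L (nat_lit 555) ln11_17_2 ln11_17_2_ok))))))))) (M (nat_lit 560) (B (M (nat_lit 588) (B (L (nat_lit 589) ln16_17_1_c10 ln16_17_1_c10_ok) (L (nat_lit 587) ln15_17_1_c10 ln15_17_1_c10_ok))) (M (nat_lit 561) (B (M (nat_lit 526) (B (L (nat_lit 562) ln18_17_3_c10 ln18_17_3_c10_ok) (L (nat_lit 555) ln11_17_2 ln11_17_2_ok))) (M (nat_lit 593) (B (L (nat_lit 594) ln14_17_0_c10 ln14_17_0_c10_ok) (L (nat_lit 592) ln13_17_0_c10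 ln13_17_0_c10_ok))))))))))) (M (nat_lit 560) (B (M (nat_lit 592) (B (L (nat_lit 593) ln13_17_0_c10 ln13_17_0_c10_ok) (M (nat_lit 624) (B (L (nat_lit 656) ln16_20_7_c10 ln16_20_7_c10_ok) (M (nat_lit 495) (B (L (nat_lit 528) ln16_19_7_c10 ln16_19_7_c10_ok) (L (nat_lit 591) ln15_15_4_c10 ln15_15_4_c10_ok))))))) (B (M (nat_lit 561) (B (M (nat_lit 593) (B (L (nat_lit 594) ln14_17_0_c10 ln14_17_0_c10_ok) (L (nat_lit 592) ln13_17_0_c10 ln13_17_0_c10_ok))) (M (nat_lit 589) (B (L (nat_lit 590) ln17_17_1_c10 ln17_17_1_c10_ok) (L (nat_lit 588) ln16_17_1_c10 ln16_17_1_c10_ok))))) (M (nat_lit 591) (B (M (nat_lit 528) (B (L (nat_lit 529) ln13_17_2_c10 ln13_17_2_c10_ok) (M (nat_lit 496) (B (L (nat_lit 464) ln16_14_5_c10 ln16_14_5_c10_ok) (L (nat_lit 623) ln15_19_6_c10 ln15_19_6_c10_ok))))) (M (nat_lit 590) (B (M (nat_lit 622) (B (L (nat_lit 495) ln15_15_5_c10 ln15_15_5_c10_ok) (L (nat_lit 654) ln14_20_6_c10 ln14_20_6_c10_ok)))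 (M (nat_lit 589) (B (L (nat_lit 561) ln17_17_1_c10 ln17_17_1_c10_ok) (L (nat_lit 588) ln16_17_1_c10 ln16_17_1_c10_ok))))))))))))))) (B (M (nat_lit 494) (B (L (nat_lit 526) ln14_17_7 ln14_17_7_ok) (M (nat_lit 495) (B (L (nat_lit 591) ln15_18_7 ln15_18_7_ok) (M (nat_lit 528) (B (L (nat_lit 492) ln12_15_0 ln12_15_0_ok) (M (nat_lit 496) (B (L (nat_lit 497) ln17_15_3 ln17_15_3_ok) (M (nat_lit 464) (B (L (nat_lit 432) ln16_13_5_c10 ln16_13_5_c10_ok) (L (nat_lit 465) ln13_15_2 ln13_15_2_ok))))))))))) c10_d95)))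
noncomputable def c10_d97 : Cert := (B (M (nat_lit 560) (B (M (nat_lit 561) (B (M (nat_lit 529) (B (L (nat_lit 530) ln14_17_2_c10 ln14_17_2_c10_ok) (L (nat_lit 528) ln13_17_2_c10 ln13_17_2_c10_ok))) (M (nat_lit 589) (B (L (nat_lit 590) ln17_17_1_c10 ln17_17_1_c10_ok) (L (nat_lit 588) ln16_17_1_c10 ln16_17_1_c10_ok))))) (B (M (nat_lit 561) (B (M (nat_lit 593) (B (L (nat_lit 594) ln14_17_0_c10 ln14_17_0_c10_ok) (L (nat_lit 592) ln13_17_0_c10 ln13_17_0_c10_ok))) (M (nat_lit 589) (B (L (nat_lit 590) ln17_17_1_c10 ln17_17_1_c10_ok) (L (nat_lit 588) ln16_17_1_c10 ln16_17_1_c10_ok))))) (B (M (nat_lit 592) (B (L (nat_lit 593) ln13_17_0_c10 ln13_17_0_c10_ok) (M (nat_lit 624) (B (M (nat_lit 528) (B (L (nat_lit 529) ln13_17_2_c10 ln13_17_2_c10_ok) (M (nat_lit 527) (B (L (nat_lit 495) ln16_19_7_c10 ln16_19_7_c10_ok) (L (nat_lit 656) ln16_20_7_c10 ln16_20_7_c10_ok))))) (B (M (nat_lit 528) (B (L (nat_lit 529) ln13_17_2_c10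 ln13_17_2_c10_ok) (M (nat_lit 656) (B (L (nat_lit 527) ln16_20_7_c10 ln16_20_7_c10_ok) (M (nat_lit 657) (B (L (nat_lit 625) ln16_16_4_c10 ln16_16_4_c10_ok) (L (nat_lit 689) ln16_17_4_c10 ln16_17_4_c10_ok))))))) (B (M (nat_lit 527) (B (L (nat_lit 656) ln16_20_7_c10 ln16_20_7_c10_ok) (M (nat_lit 495) (B (L (nat_lit 528) ln16_19_7_c10 ln16_19_7_c10_ok) (L (nat_lit 591) ln15_15_4_c10 ln15_15_4_c10_ok))))) (B (M (nat_lit 656) (B (L (nat_lit 527) ln16_20_7_c10 ln16_20_7_c10_ok) (M (nat_lit 688) (B (L (nat_lit 591) ln16_21_7_c10 ln16_21_7_c10_ok) (M (nat_lit 689) (B (L (nat_lit 657) ln16_17_4_c10 ln16_17_4_c10_ok) (L (nat_lit 721) ln16_18_4_c10 ln16_18_4_c10_ok))))))) (B (M (nat_lit 656) (B (M (nat_lit 528) (B (L (nat_lit 529) ln13_17_2_c10 ln13_17_2_c10_ok) (M (nat_lit 655) (B (L (nat_lit 623) ln16_16_5_c10 ln16_16_5_c10_ok) (L (nat_lit 687) ln16_17_5_c10 ln16_17_5_c10_ok))))) (M (nat_lit 688) (B (L (nat_lit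 591) ln16_21_7_c10 ln16_21_7_c10_ok) (M (nat_lit 689) (B (L (nat_lit 657) ln16_17_4_c10 ln16_17_4_c10_ok) (L (nat_lit 721) ln16_18_4_c10 ln16_18_4_c10_ok))))))) (M (nat_lit 623) (B (M (nat_lit 528) (B (L (nat_lit 529) ln13_17_2_c10 ln13_17_2_c10_ok) (L (nat_lit 655) ln16_16_5_c10 ln16_16_5_c10_ok))) (B (M (nat_lit 526) (B (L (nat_lit 494) ln14_17_7 ln14_17_7_ok) (M (nat_lit 655) (B (L (nat_lit 528) ln16_16_5_c10 ln16_16_5_c10_ok) (L (nat_lit 591) ln15_20_7_c10 ln15_20_7_c10_ok))))) (B (M (nat_lit 590) (B (M (nat_lit 526) (B (L (nat_lit 494) ln14_17_7 ln14_17_7_ok) (M (nat_lit 655) (B (L (nat_lit 591) ln15_20_7_c10 ln15_20_7_c10_ok) (L (nat_lit 622) ln14_16_4 ln14_16_4_ok))))) (B (M (nat_lit 589) (B (L (nat_lit 588) ln16_17_1_c10 ln16_17_1_c10_ok) (M (nat_lit 625) (B (L (nat_lit 591) ln13_18_0_c10 ln13_18_0_c10_ok) (L (nat_lit 622) ln17_19_3_c10 ln17_19_3_c10_ok))))) (B (M (nat_lit 622) (B (M (nat_lit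 526) (B (L (nat_lit 494) ln14_17_7 ln14_17_7_ok) (L (nat_lit 655) ln14_16_4 ln14_16_4_ok))) (M (nat_lit 589) (B (L (nat_lit 588) ln16_17_1_c10 ln16_17_1_c10_ok) (L (nat_lit 625) ln17_19_3_c10 ln17_19_3_c10_ok))))) (M (nat_lit 591) (B (M (nat_lit 526) (B (L (nat_lit 494) ln14_14_4 ln14_14_4_ok) (L (nat_lit 655) ln15_20_7_c10 ln15_20_7_c10_ok))) (M (nat_lit 589) (B (L (nat_lit 588) ln16_17_1_c10 ln16_17_1_c10_ok) (L (nat_lit 625) ln13_18_0_c10 ln13_18_0_c10_ok))))))))) (M (nat_lit 589) (B (L (nat_lit 588) ln16_17_1_c10 ln16_17_1_c10_ok) (M (nat_lit 625) (B (M (nat_lit 528) (B (L (nat_lit 529) ln13_17_2_c10 ln13_17_2_c10_ok) (L (nat_lit 657) ln16_16_4_c10 ln16_16_4_c10_ok))) (M (nat_lit 590) (B (L (nat_lit 591) ln13_18_0_c10 ln13_18_0_c10_ok) (L (nat_lit 622) ln17_19_3_c10 ln17_19_3_c10_ok))))))))))))))))))) (M (nat_lit 593) (B (L (nat_lit 592) ln13_17_0_c10 ln13_17_0_c10_ok) (M (nat_lit 561) (B (L (nat_lit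 594) ln14_17_0_c10 ln14_17_0_c10_ok) (M (nat_lit 529) (B (L (nat_lit 530) ln14_17_2_c10 ln14_17_2_c10_ok) (L (nat_lit 528) ln13_17_2_c10 ln13_17_2_c10_ok))))))))))) (B (M (nat_lit 526) (B (L (nat_lit 494) ln14_17_7 ln14_17_7_ok) (M (nat_lit 556) (B (M (nat_lit 527) (B (L (nat_lit 528) ln12_17_2_c10 ln12_17_2_c10_ok) (L (nat_lit 555) ln11_17_2 ln11_17_2_ok))) (B (M (nat_lit 555) (B (L (nat_lit 527) ln11_17_2 ln11_17_2_ok) (M (nat_lit 587) (B (L (nat_lit 588) ln15_17_1_c10 ln15_17_1_c10_ok) (L (nat_lit 586) ln14_17_1 ln14_17_1_ok))))) (B (M (nat_lit 555) (B (M (nat_lit 587) (B (L (nat_lit 588) ln15_17_1_c10 ln15_17_1_c10_ok) (L (nat_lit 586) ln14_17_1 ln14_17_1_ok))) (M (nat_lit 554) (B (M (nat_lit 522) (B (L (nat_lit 523) ln14_17_3 ln14_17_3_ok) (L (nat_lit 521) ln13_17_3 ln13_17_3_ok))) (M (nat_lit 590) (B (L (nat_lit 591) ln11_17_0 ln11_17_0_ok) (L (nat_lit 589) ln10_17_0 ln10_17_0_ok))))))) (M (nat_lit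 560) (B (M (nat_lit 528) (B (L (nat_lit 529) ln13_17_2_c10 ln13_17_2_c10_ok) (L (nat_lit 527) ln12_17_2_c10 ln12_17_2_c10_ok))) (M (nat_lit 588) (B (L (nat_lit 589) ln16_17_1_c10 ln16_17_1_c10_ok) (L (nat_lit 587) ln15_17_1_c10 ln15_17_1_c10_ok))))))))))) (B (K (nat_lit 3302217121718848683236933622506786676402499033295346888110659740547032874081726870479043672453200502336523036756208884197541994763493178470081579685254113166397536206848) (nat_lit 121061306281401182428268466113493895631535009952819570432520278891942295554865275005733186775824268623042588658865715026020910080013563167390016537546981223141561048770314791550976) (nat_lit 121061306281401182428268466113493895631535009952819570432520278891942295554865275005733186775824268623042588658865715026020910080013563167390016537546981223141561048770314791550976) c10_s511) (M (nat_lit 527) (B (M (nat_lit 526) (B (L (nat_lit 494) ln14_17_7 ln14_17_7_ok)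 (M (nat_lit 556) (B (L (nat_lit 528) ln12_17_2_c10 ln12_17_2_c10_ok) (L (nat_lit 555) ln11_17_2 ln11_17_2_ok))))) (B (M (nat_lit 528) (B (L (nat_lit 556) ln12_17_2_c10 ln12_17_2_c10_ok) (M (nat_lit 529) (B (L (nat_lit 530) ln18_16_1_c10 ln18_16_1_c10_ok) (L (nat_lit 560) ln13_17_2_c10 ln13_17_2_c10_ok))))) (B (M (nat_lit 591) (B (M (nat_lit 494) (B (L (nat_lit 526) ln14_14_4 ln14_14_4_ok) (L (nat_lit 495) ln15_18_7 ln15_18_7_ok))) (M (nat_lit 592) (B (L (nat_lit 556) ln12_17_0_c10 ln12_17_0_c10_ok) (M (nat_lit 593) (B (L (nat_lit 560) ln13_17_0_c10 ln13_17_0_c10_ok) (L (nat_lit 594) ln18_18_3_c10 ln18_18_3_c10_ok))))))) (M (nat_lit 494) (B (L (nat_lit 526) ln14_17_7 ln14_17_7_ok) (M (nat_lit 528) (B (M (nat_lit 495) (B (L (nat_lit 591) ln15_18_7 ln15_18_7_ok) (L (nat_lit 492) ln12_15_0 ln12_15_0_ok))) (M (nat_lit 529) (B (L (nat_lit 530) ln18_16_1_c10 ln18_16_1_c10_ok) (L (nat_lit 560) ln13_17_2_c10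 ln13_17_2_c10_ok))))))))))))))
noncomputable def c10_d98 : Cert := (B (M (nat_lit 592) (B (M (nat_lit 593) (B (L (nat_lit 557) ln13_17_0_c10 ln13_17_0_c10_ok) (M (nat_lit 594) (B (L (nat_lit 595) ln19_18_3_c10 ln19_18_3_c10_ok) (L (nat_lit 591) ln18_18_3_c10 ln18_18_3_c10_ok))))) (B (M (nat_lit 624) (B (M (nat_lit 656) (B (L (nat_lit 527) ln16_20_7_c10 ln16_20_7_c10_ok) (M (nat_lit 688) (B (L (nat_lit 591) ln16_21_7_c10 ln16_21_7_c10_ok) (M (nat_lit 689) (B (L (nat_lit 657) ln16_17_4_c10 ln16_17_4_c10_ok) (L (nat_lit 721) ln16_18_4_c10 ln16_18_4_c10_ok))))))) (B (K (nat_lit 69617319010688342356987518396871958505336321253731418288249366323971064105125577958151133959956845707196690947843226299594208419596673950657053106268004614238312357638777123629054572888064) (nat_lit 13789130662249713280929689213128436971673232860143531607560661340027276192533131502627839045273007090456701616066217041608886626707555211022665994510624046191333959017295135441041573300434989582454556119531443093241856)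 (nat_lit 13789130662249713280929689213128436971673232860143531607560661340027276192533131502627839045273007090456701616066217041608886626707555211022665994510624046191333959017295135441041573300434989582454556119531443093241856) c10_s513) (B (M (nat_lit 656) (B (L (nat_lit 527) ln16_20_7_c10 ln16_20_7_c10_ok) (M (nat_lit 528) (B (M (nat_lit 657) (B (L (nat_lit 625) ln16_16_4_c10 ln16_16_4_c10_ok) (L (nat_lit 689) ln16_17_4_c10 ln16_17_4_c10_ok))) (M (nat_lit 655) (B (L (nat_lit 623) ln16_16_5_c10 ln16_16_5_c10_ok) (L (nat_lit 687) ln16_17_5_c10 ln16_17_5_c10_ok))))))) (B (M (nat_lit 656) (B (L (nat_lit 527) ln16_20_7_c10 ln16_20_7_c10_ok) (M (nat_lit 688) (B (L (nat_lit 591) ln16_21_7_c10 ln16_21_7_c10_ok) (M (nat_lit 687) (B (L (nat_lit 655) ln16_17_5_c10 ln16_17_5_c10_ok) (L (nat_lit 719) ln16_18_5_c10 ln16_18_5_c10_ok))))))) (K (nat_lit 69617319010688342356987518396871958505336321253731418288249366323971064105125577958151133959956845707196690947843226299594208419596673950657053106268004614238312357638777123629054572888064)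 (nat_lit 747510270965263762148890411753893441067711970033137017871749260749358603663715767087118037584332770150239962285772398365169208126810342127741145697320306473106092450489700673806876994545914474397696) (nat_lit 747510270965263762148890411753893441067711970033137017871749260749358603663715767087118037584332770150239962285772398365169208126810342127741145697320306473106092450489700673806876994545914474397696) c10_s514)))))) (B (M (nat_lit 528) (B (M (nat_lit 529) (B (L (nat_lit 557) ln13_17_2_c10 ln13_17_2_c10_ok) (M (nat_lit 530) (B (L (nat_lit 531) ln19_16_1_c10 ln19_16_1_c10_ok) (L (nat_lit 527) ln18_16_1_c10 ln18_16_1_c10_ok))))) (B (M (nat_lit 557) (B (L (nat_lit 529) ln13_17_2_c10 ln13_17_2_c10_ok) (M (nat_lit 556) (B (L (nat_lit 527) ln12_17_2_c10 ln12_17_2_c10_ok) (L (nat_lit 591) ln12_17_0_c10 ln12_17_0_c10_ok))))) (B (M (nat_lit 591) (B (M (nat_lit 623) (B (L (nat_lit 496) ln16_15_5_c10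 ln16_15_5_c10_ok) (L (nat_lit 655) ln15_20_6_c10 ln15_20_6_c10_ok))) (M (nat_lit 624) (B (M (nat_lit 656) (B (L (nat_lit 527) ln16_20_7_c10 ln16_20_7_c10_ok) (L (nat_lit 688) ln16_21_7_c10 ln16_21_7_c10_ok))) (M (nat_lit 589) (B (M (nat_lit 557) (B (L (nat_lit 588) ln16_17_1_c10 ln16_17_1_c10_ok) (L (nat_lit 556) ln12_17_0_c10 ln12_17_0_c10_ok))) (B (M (nat_lit 590) (B (L (nat_lit 588) ln12_18_2_c10 ln12_18_2_c10_ok) (L (nat_lit 625) ln13_18_0_c10 ln13_18_0_c10_ok))) (M (nat_lit 625) (B (L (nat_lit 657) ln16_16_4_c10 ln16_16_4_c10_ok) (L (nat_lit 590) ln13_18_0_c10 ln13_18_0_c10_ok)))))))))) (B (M (nat_lit 591) (B (M (nat_lit 623) (B (L (nat_lit 496) ln16_15_5_c10 ln16_15_5_c10_ok) (L (nat_lit 655) ln15_20_6_c10 ln15_20_6_c10_ok))) (M (nat_lit 557) (B (L (nat_lit 529) ln13_17_2_c10 ln13_17_2_c10_ok) (L (nat_lit 556) ln12_17_0_c10 ln12_17_0_c10_ok))))) (M (nat_lit 591) (B (M (nat_lit 623) (B (L (nat_lit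 496) ln16_15_5_c10 ln16_15_5_c10_ok) (L (nat_lit 655) ln15_20_6_c10 ln15_20_6_c10_ok))) (M (nat_lit 624) (B (M (nat_lit 656) (B (L (nat_lit 527) ln16_20_7_c10 ln16_20_7_c10_ok) (L (nat_lit 688) ln16_21_7_c10 ln16_21_7_c10_ok))) (B (M (nat_lit 657) (B (L (nat_lit 625) ln16_16_4_c10 ln16_16_4_c10_ok) (M (nat_lit 656) (B (L (nat_lit 689) ln16_17_4_c10 ln16_17_4_c10_ok) (L (nat_lit 688) ln16_21_7_c10 ln16_21_7_c10_ok))))) (M (nat_lit 529) (B (L (nat_lit 497) ln16_19_6_c10 ln16_19_6_c10_ok) (M (nat_lit 530) (B (L (nat_lit 531) ln19_16_1_c10 ln19_16_1_c10_ok) (L (nat_lit 527) ln18_16_1_c10 ln18_16_1_c10_ok))))))))))))))) (M (nat_lit 528) (B (M (nat_lit 557) (B (L (nat_lit 529) ln13_17_2_c10 ln13_17_2_c10_ok) (L (nat_lit 593) ln13_17_0_c10 ln13_17_0_c10_ok))) (B (M (nat_lit 593) (B (L (nat_lit 557) ln13_17_0_c10 ln13_17_0_c10_ok) (M (nat_lit 625) (B (L (nat_lit 496) ln16_15_4_c10 ln16_15_4_c10_ok) (M (nat_lit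 657) (B (L (nat_lit 624) ln16_16_4_c10 ln16_16_4_c10_ok) (L (nat_lit 689) ln17_21_7_c10 ln17_21_7_c10_ok))))))) (M (nat_lit 624) (B (M (nat_lit 656) (B (L (nat_lit 527) ln16_20_7_c10 ln16_20_7_c10_ok) (M (nat_lit 657) (B (L (nat_lit 625) ln16_16_4_c10 ln16_16_4_c10_ok) (L (nat_lit 689) ln16_17_4_c10 ln16_17_4_c10_ok))))) (B (M (nat_lit 656) (B (M (nat_lit 657) (B (L (nat_lit 625) ln16_16_4_c10 ln16_16_4_c10_ok) (L (nat_lit 689) ln16_17_4_c10 ln16_17_4_c10_ok))) (M (nat_lit 655) (B (L (nat_lit 623) ln16_16_5_c10 ln16_16_5_c10_ok) (L (nat_lit 687) ln16_17_5_c10 ln16_17_5_c10_ok))))) (B (M (nat_lit 656) (B (L (nat_lit 527) ln16_20_7_c10 ln16_20_7_c10_ok) (M (nat_lit 655) (B (L (nat_lit 623) ln16_16_5_c10 ln16_16_5_c10_ok) (L (nat_lit 687) ln16_17_5_c10 ln16_17_5_c10_ok))))) (M (nat_lit 529) (B (L (nat_lit 497) ln16_19_6_c10 ln16_19_6_c10_ok) (M (nat_lit 530) (B (L (nat_lit 531) ln19_16_1_c10 ln19_16_1_c10_ok)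 (L (nat_lit 527) ln18_16_1_c10 ln18_16_1_c10_ok)))))))))))))))) (B (M (nat_lit 561) (B (M (nat_lit 526) (B (L (nat_lit 494) ln14_17_7 ln14_17_7_ok) (M (nat_lit 562) (B (L (nat_lit 527) ln18_17_3_c10 ln18_17_3_c10_ok) (M (nat_lit 530) (B (L (nat_lit 531) ln15_17_2_c10 ln15_17_2_c10_ok) (L (nat_lit 529) ln14_17_2_c10 ln14_17_2_c10_ok))))))) (B (M (nat_lit 562) (B (M (nat_lit 530) (B (L (nat_lit 531) ln15_17_2_c10 ln15_17_2_c10_ok) (L (nat_lit 529) ln14_17_2_c10 ln14_17_2_c10_ok))) (M (nat_lit 594) (B (L (nat_lit 595) ln15_17_0_c10 ln15_17_0_c10_ok) (L (nat_lit 593) ln14_17_0_c10 ln14_17_0_c10_ok))))) (B (M (nat_lit 562) (B (M (nat_lit 526) (B (L (nat_lit 494) ln14_17_7 ln14_17_7_ok) (L (nat_lit 527) ln18_17_3_c10 ln18_17_3_c10_ok))) (M (nat_lit 590) (B (L (nat_lit 591) ln18_17_1_c10 ln18_17_1_c10_ok) (L (nat_lit 589) ln17_17_1_c10 ln17_17_1_c10_ok))))) (K (nat_lit 14152359093080780070931403042848059737788647541992613119692252853753202340959154820226658007338969459018244614969654938284382425574526957288695703158123114291889547771904)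 (nat_lit 6421064335037820637659025012142050215350281277075741203541460774430560374655058786282723966706681538123993132549912430758955693063356428791519000650224010822790821109490503300935192834159162605092990911250432) (nat_lit 6421064335037820637659025012142050215350281277075741203541460774430560374655058786282723966706681538123993132549912430758955693063356428791519000650224010822790821109490503300935192834159162605092990911250432) c10_s515))))) (B (M (nat_lit 561) (B (M (nat_lit 526) (B (L (nat_lit 494) ln14_17_7 ln14_17_7_ok) (M (nat_lit 562) (B (L (nat_lit 527) ln18_17_3_c10 ln18_17_3_c10_ok) (M (nat_lit 530) (B (L (nat_lit 531) ln15_17_2_c10 ln15_17_2_c10_ok) (L (nat_lit 529) ln14_17_2_c10 ln14_17_2_c10_ok))))))) (B (M (nat_lit 562) (B (M (nat_lit 530) (B (L (nat_lit 531) ln15_17_2_c10 ln15_17_2_c10_ok) (L (nat_lit 529) ln14_17_2_c10 ln14_17_2_c10_ok))) (M (nat_lit 590) (B (L (nat_lit 591) ln18_17_1_c10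 ln18_17_1_c10_ok) (L (nat_lit 589) ln17_17_1_c10 ln17_17_1_c10_ok))))) (B (M (nat_lit 562) (B (M (nat_lit 526) (B (L (nat_lit 494) ln14_17_7 ln14_17_7_ok) (L (nat_lit 527) ln18_17_3_c10 ln18_17_3_c10_ok))) (M (nat_lit 590) (B (L (nat_lit 591) ln18_17_1_c10 ln18_17_1_c10_ok) (L (nat_lit 589) ln17_17_1_c10 ln17_17_1_c10_ok))))) (M (nat_lit 557) (B (M (nat_lit 529) (B (L (nat_lit 530) ln14_17_2_c10 ln14_17_2_c10_ok) (L (nat_lit 528) ln13_17_2_c10 ln13_17_2_c10_ok))) (M (nat_lit 589) (B (L (nat_lit 590) ln17_17_1_c10 ln17_17_1_c10_ok) (L (nat_lit 588) ln16_17_1_c10 ln16_17_1_c10_ok))))))))) (M (nat_lit 561) (B (M (nat_lit 562) (B (M (nat_lit 526) (B (L (nat_lit 494) ln14_17_7 ln14_17_7_ok) (L (nat_lit 527) ln18_17_3_c10 ln18_17_3_c10_ok))) (M (nat_lit 594) (B (L (nat_lit 595) ln15_17_0_c10 ln15_17_0_c10_ok) (L (nat_lit 593) ln14_17_0_c10 ln14_17_0_c10_ok))))) (B (M (nat_lit 562) (B (M (nat_lit 530) (B (L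 (nat_lit 531) ln15_17_2_c10 ln15_17_2_c10_ok) (L (nat_lit 529) ln14_17_2_c10 ln14_17_2_c10_ok))) (M (nat_lit 594) (B (L (nat_lit 595) ln15_17_0_c10 ln15_17_0_c10_ok) (L (nat_lit 593) ln14_17_0_c10 ln14_17_0_c10_ok))))) (B (M (nat_lit 593) (B (L (nat_lit 594) ln14_17_0_c10 ln14_17_0_c10_ok) (M (nat_lit 529) (B (L (nat_lit 530) ln14_17_2_c10 ln14_17_2_c10_ok) (M (nat_lit 557) (B (L (nat_lit 528) ln13_17_2_c10 ln13_17_2_c10_ok) (L (nat_lit 592) ln13_17_0_c10 ln13_17_0_c10_ok))))))) (M (nat_lit 526) (B (L (nat_lit 494) ln14_17_7 ln14_17_7_ok) (M (nat_lit 562) (B (L (nat_lit 527) ln18_17_3_c10 ln18_17_3_c10_ok) (M (nat_lit 530) (B (L (nat_lit 531) ln15_17_2_c10 ln15_17_2_c10_ok) (L (nat_lit 529) ln14_17_2_c10 ln14_17_2_c10_ok))))))))))))))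
noncomputable def c10_d99 : Cert := (B (M (nat_lit 592) (B (M (nat_lit 593) (B (L (nat_lit 557) ln13_17_0_c10 ln13_17_0_c10_ok) (M (nat_lit 594) (B (L (nat_lit 595) ln19_18_3_c10 ln19_18_3_c10_ok) (L (nat_lit 591) ln18_18_3_c10 ln18_18_3_c10_ok))))) (B (M (nat_lit 624) (B (M (nat_lit 527) (B (L (nat_lit 656) ln16_20_7_c10 ln16_20_7_c10_ok) (M (nat_lit 495) (B (L (nat_lit 528) ln16_19_7_c10 ln16_19_7_c10_ok) (L (nat_lit 591) ln15_15_4_c10 ln15_15_4_c10_ok))))) (B (M (nat_lit 656) (B (L (nat_lit 527) ln16_20_7_c10 ln16_20_7_c10_ok) (M (nat_lit 688) (B (L (nat_lit 591) ln16_21_7_c10 ln16_21_7_c10_ok) (M (nat_lit 689) (B (L (nat_lit 657) ln16_17_4_c10 ln16_17_4_c10_ok) (L (nat_lit 721) ln16_18_4_c10 ln16_18_4_c10_ok))))))) (B (K (nat_lit 69617319010688342356987518396871958505336321253731418288249366323971064105125577958151133959956845707196690947843226299594208419596673950657053106268004614238312357638777123629054572888064)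 (nat_lit 13789130662249713280929689213128436971673232860143531607560661340027276192533131502627839045273007090456701616066217041608886626707555211022665994510624046191333959017295135441041573300434989582454556119531443093241856) (nat_lit 13789130662249713280929689213128436971673232860143531607560661340027276192533131502627839045273007090456701616066217041608886626707555211022665994510624046191333959017295135441041573300434989582454556119531443093241856) c10_s513) (B (M (nat_lit 527) (B (L (nat_lit 656) ln16_20_7_c10 ln16_20_7_c10_ok) (M (nat_lit 528) (B (L (nat_lit 495) ln16_19_7_c10 ln16_19_7_c10_ok) (M (nat_lit 529) (B (L (nat_lit 497) ln16_19_6_c10 ln16_19_6_c10_ok) (L (nat_lit 530) ln18_16_1_c10 ln18_16_1_c10_ok))))))) (K (nat_lit 69617319010688342356987518396871958505336321253731418288249366323971064105125577958151133959956845707196690947843226299594208419596673950657053106268004614238312357638777123629054572888064)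 (nat_lit 747510270965263762148890411753893441067711970033137017871749260749358603663715767087118037584332770150239962285772398365169208126810342127741145697320306473106092450489700673806876994545914474397696) (nat_lit 747510270965263762148890411753893441067711970033137017871749260749358603663715767087118037584332770150239962285772398365169208126810342127741145697320306473106092450489700673806876994545914474397696) c10_s514)))))) (B (M (nat_lit 624) (B (M (nat_lit 527) (B (L (nat_lit 656) ln16_20_7_c10 ln16_20_7_c10_ok) (M (nat_lit 495) (B (L (nat_lit 528) ln16_19_7_c10 ln16_19_7_c10_ok) (L (nat_lit 591) ln15_15_4_c10 ln15_15_4_c10_ok))))) (B (M (nat_lit 656) (B (L (nat_lit 527) ln16_20_7_c10 ln16_20_7_c10_ok) (M (nat_lit 688) (B (L (nat_lit 591) ln16_21_7_c10 ln16_21_7_c10_ok) (M (nat_lit 687) (B (L (nat_lit 655) ln16_17_5_c10 ln16_17_5_c10_ok) (L (nat_lit 719) ln16_18_5_c10 ln16_18_5_c10_ok))))))) (B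 (M (nat_lit 656) (B (M (nat_lit 688) (B (L (nat_lit 591) ln16_21_7_c10 ln16_21_7_c10_ok) (M (nat_lit 687) (B (L (nat_lit 655) ln16_17_5_c10 ln16_17_5_c10_ok) (L (nat_lit 719) ln16_18_5_c10 ln16_18_5_c10_ok))))) (B (M (nat_lit 528) (B (M (nat_lit 529) (B (L (nat_lit 497) ln16_19_6_c10 ln16_19_6_c10_ok) (L (nat_lit 557) ln13_17_2_c10 ln13_17_2_c10_ok))) (M (nat_lit 655) (B (L (nat_lit 623) ln16_16_5_c10 ln16_16_5_c10_ok) (L (nat_lit 687) ln16_17_5_c10 ln16_17_5_c10_ok))))) (M (nat_lit 528) (B (M (nat_lit 529) (B (L (nat_lit 497) ln16_19_6_c10 ln16_19_6_c10_ok) (L (nat_lit 557) ln13_17_2_c10 ln13_17_2_c10_ok))) (M (nat_lit 657) (B (L (nat_lit 625) ln16_16_4_c10 ln16_16_4_c10_ok) (L (nat_lit 689) ln16_17_4_c10 ln16_17_4_c10_ok)))))))) (B (M (nat_lit 528) (B (M (nat_lit 527) (B (L (nat_lit 495) ln16_19_7_c10 ln16_19_7_c10_ok) (L (nat_lit 656) ln16_20_7_c10 ln16_20_7_c10_ok))) (M (nat_lit 529) (B (L (nat_lit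 497) ln16_19_6_c10 ln16_19_6_c10_ok) (L (nat_lit 557) ln13_17_2_c10 ln13_17_2_c10_ok))))) (M (nat_lit 528) (B (M (nat_lit 529) (B (L (nat_lit 497) ln16_19_6_c10 ln16_19_6_c10_ok) (L (nat_lit 557) ln13_17_2_c10 ln13_17_2_c10_ok))) (B (M (nat_lit 527) (B (L (nat_lit 495) ln16_19_7_c10 ln16_19_7_c10_ok) (M (nat_lit 557) (B (L (nat_lit 529) ln13_17_2_c10 ln13_17_2_c10_ok) (L (nat_lit 556) ln12_17_2_c10 ln12_17_2_c10_ok))))) (B (M (nat_lit 591) (B (M (nat_lit 623) (B (L (nat_lit 496) ln16_15_5_c10 ln16_15_5_c10_ok) (L (nat_lit 655) ln16_16_5_c10 ln16_16_5_c10_ok))) (M (nat_lit 589) (B (M (nat_lit 557) (B (L (nat_lit 588) ln16_17_1_c10 ln16_17_1_c10_ok) (L (nat_lit 556) ln12_17_0_c10 ln12_17_0_c10_ok))) (B (M (nat_lit 590) (B (L (nat_lit 588) ln12_18_2_c10 ln12_18_2_c10_ok) (L (nat_lit 625) ln13_18_0_c10 ln13_18_0_c10_ok))) (M (nat_lit 625) (B (L (nat_lit 657) ln16_16_4_c10 ln16_16_4_c10_ok) (L (nat_lit 590)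 ln13_18_0_c10 ln13_18_0_c10_ok)))))))) (M (nat_lit 527) (B (L (nat_lit 495) ln16_19_7_c10 ln16_19_7_c10_ok) (M (nat_lit 529) (B (L (nat_lit 497) ln16_19_6_c10 ln16_19_6_c10_ok) (L (nat_lit 530) ln18_16_1_c10 ln18_16_1_c10_ok)))))))))))))) (M (nat_lit 557) (B (L (nat_lit 593) ln13_17_0_c10 ln13_17_0_c10_ok) (M (nat_lit 528) (B (L (nat_lit 529) ln13_17_2_c10 ln13_17_2_c10_ok) (M (nat_lit 527) (B (L (nat_lit 556) ln12_17_2_c10 ln12_17_2_c10_ok) (M (nat_lit 624) (B (L (nat_lit 495) ln16_19_7_c10 ln16_19_7_c10_ok) (L (nat_lit 656) ln16_20_7_c10 ln16_20_7_c10_ok))))))))))))) (B (M (nat_lit 561) (B (M (nat_lit 562) (B (M (nat_lit 594) (B (L (nat_lit 595) ln15_17_0_c10 ln15_17_0_c10_ok) (L (nat_lit 593) ln14_17_0_c10 ln14_17_0_c10_ok))) (M (nat_lit 590) (B (L (nat_lit 591) ln18_17_1_c10 ln18_17_1_c10_ok) (L (nat_lit 589) ln17_17_1_c10 ln17_17_1_c10_ok))))) (B (K (nat_lit 14152359093080780070931403042848059737788647541992613119692252853753202340959154820226658007338969459018244614969654938284382425574526957288695703158123114291889547771904)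 (nat_lit 6421064335037820637659025012142050215350281277075741203541460774430560374655058786282723966706681538123993132549912430758955693063356428791519000650224010822790821109490503300935192834159162605092990911250432) (nat_lit 6421064335037820637659025012142050215350281277075741203541460774430560374655058786282723966706681538123993132549912430758955693063356428791519000650224010822790821109490503300935192834159162605092990911250432) c10_s515) (M (nat_lit 562) (B (M (nat_lit 530) (B (L (nat_lit 531) ln15_17_2_c10 ln15_17_2_c10_ok) (L (nat_lit 529) ln14_17_2_c10 ln14_17_2_c10_ok))) (M (nat_lit 590) (B (L (nat_lit 591) ln18_17_1_c10 ln18_17_1_c10_ok) (L (nat_lit 589) ln17_17_1_c10 ln17_17_1_c10_ok)))))))) (B (K (nat_lit 6604434243437697366448293880871521955954805101159732262939840253261954016174857116054404556983651923935307864908127248484841256314677372023572834655257722204590757117952) (nat_lit 64329648109804139701887791168879941511671986341827697372527765962748721136114500299581561720425223050978181756253052220765933009617118540301316477120838120887517844763741557620736)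 (nat_lit 64329648109804139701887791168879941511671986341827697372527765962748721136114500299581561720425223050978181756253052220765933009617118540301316477120838120887517844763741557620736) c10_s519) (B (M (nat_lit 561) (B (M (nat_lit 562) (B (M (nat_lit 530) (B (L (nat_lit 531) ln15_17_2_c10 ln15_17_2_c10_ok) (L (nat_lit 529) ln14_17_2_c10 ln14_17_2_c10_ok))) (M (nat_lit 590) (B (L (nat_lit 591) ln18_17_1_c10 ln18_17_1_c10_ok) (L (nat_lit 589) ln17_17_1_c10 ln17_17_1_c10_ok))))) (B (M (nat_lit 557) (B (M (nat_lit 529) (B (L (nat_lit 530) ln14_17_2_c10 ln14_17_2_c10_ok) (L (nat_lit 528) ln13_17_2_c10 ln13_17_2_c10_ok))) (M (nat_lit 589) (B (L (nat_lit 590) ln17_17_1_c10 ln17_17_1_c10_ok) (L (nat_lit 588) ln16_17_1_c10 ln16_17_1_c10_ok))))) (B (M (nat_lit 562) (B (M (nat_lit 590) (B (L (nat_lit 591) ln18_17_1_c10 ln18_17_1_c10_ok) (L (nat_lit 589) ln17_17_1_c10 ln17_17_1_c10_ok))) (M (nat_lit 563) (B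 (M (nat_lit 527) (B (L (nat_lit 528) ln19_17_3_c10 ln19_17_3_c10_ok) (L (nat_lit 526) ln18_17_3_c10 ln18_17_3_c10_ok))) (M (nat_lit 595) (B (L (nat_lit 596) ln16_17_0_c10 ln16_17_0_c10_ok) (L (nat_lit 594) ln15_17_0_c10 ln15_17_0_c10_ok))))))) (M (nat_lit 562) (B (M (nat_lit 530) (B (L (nat_lit 531) ln15_17_2_c10 ln15_17_2_c10_ok) (L (nat_lit 529) ln14_17_2_c10 ln14_17_2_c10_ok))) (M (nat_lit 563) (B (M (nat_lit 527) (B (L (nat_lit 528) ln19_17_3_c10 ln19_17_3_c10_ok) (L (nat_lit 526) ln18_17_3_c10 ln18_17_3_c10_ok))) (M (nat_lit 595) (B (L (nat_lit 596) ln16_17_0_c10 ln16_17_0_c10_ok) (L (nat_lit 594) ln15_17_0_c10 ln15_17_0_c10_ok))))))))))) (B (K (nat_lit 6604434243437697366448293880871521955954805101159732262939840253261954016174857116054404556983651923935307864908127248484841256314677372023572834655257722204590757117952) (nat_lit 250227135158273054228631478835759590386141203952987650435344576005936647382021386234903301381623349344304313815019126905913685689471289958428249627504341281609413468250398156390400)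 (nat_lit 250227135158273054228631478835759590386141203952987650435344576005936647382021386234903301381623349344304313815019126905913685689471289958428249627504341281609413468250398156390400) c10_s512) (B (K (nat_lit 6604434243437697366448293880871521955954805101159732262939840253261954016174857116054404556983651923935307864908127248484841256314677372023572834655257722204590757117952) (nat_lit 125113567575834309992596890734668434934705866696941519149807902628139143178295771975358520445236313787621705485910778624804924480448345717662940620198679385834703125087005857284096) (nat_lit 125113567575834309992596890734668434934705866696941519149807902628139143178295771975358520445236313787621705485910778624804924480448345717662940620198679385834703125087005857284096) c10_s520) (M (nat_lit 561) (B (M (nat_lit 562) (B (M (nat_lit 530) (B (L (nat_lit 531) ln15_17_2_c10 ln15_17_2_c10_ok) (L (nat_lit 529) ln14_17_2_c10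 ln14_17_2_c10_ok))) (M (nat_lit 594) (B (L (nat_lit 595) ln15_17_0_c10 ln15_17_0_c10_ok) (L (nat_lit 593) ln14_17_0_c10 ln14_17_0_c10_ok))))) (B (M (nat_lit 593) (B (L (nat_lit 594) ln14_17_0_c10 ln14_17_0_c10_ok) (M (nat_lit 529) (B (L (nat_lit 530) ln14_17_2_c10 ln14_17_2_c10_ok) (M (nat_lit 557) (B (L (nat_lit 528) ln13_17_2_c10 ln13_17_2_c10_ok) (L (nat_lit 592) ln13_17_0_c10 ln13_17_0_c10_ok))))))) (B (M (nat_lit 562) (B (M (nat_lit 594) (B (L (nat_lit 595) ln15_17_0_c10 ln15_17_0_c10_ok) (L (nat_lit 593) ln14_17_0_c10 ln14_17_0_c10_ok))) (M (nat_lit 563) (B (M (nat_lit 527) (B (L (nat_lit 528) ln19_17_3_c10 ln19_17_3_c10_ok) (L (nat_lit 526) ln18_17_3_c10 ln18_17_3_c10_ok))) (M (nat_lit 591) (B (L (nat_lit 592) ln19_17_1_c10 ln19_17_1_c10_ok) (L (nat_lit 590) ln18_17_1_c10 ln18_17_1_c10_ok))))))) (M (nat_lit 562) (B (M (nat_lit 530) (B (L (nat_lit 531) ln15_17_2_c10 ln15_17_2_c10_ok) (L (nat_lit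 529) ln14_17_2_c10 ln14_17_2_c10_ok))) (M (nat_lit 563) (B (M (nat_lit 527) (B (L (nat_lit 528) ln19_17_3_c10 ln19_17_3_c10_ok) (L (nat_lit 526) ln18_17_3_c10 ln18_17_3_c10_ok))) (M (nat_lit 591) (B (L (nat_lit 592) ln19_17_1_c10 ln19_17_1_c10_ok) (L (nat_lit 590) ln18_17_1_c10 ln18_17_1_c10_ok)))))))))))))))))
noncomputable def c10_d100 : Cert := (B (M (nat_lit 655) (B (M (nat_lit 687) (B (L (nat_lit 590) ln15_21_7_c10 ln15_21_7_c10_ok) (M (nat_lit 686) (B (L (nat_lit 654) ln15_17_5_c10 ln15_17_5_c10_ok) (L (nat_lit 718) ln15_18_5_c10 ln15_18_5_c10_ok))))) (B (K (nat_lit 149502054193052752429778082353609160029434598309171564791532181657708613171242898356682253806708545853620253759646962565992427820533320119548379960795834111182057561987818323779900348404709982208000) (nat_lit 19584246217686770530725491490894403380178899641193519693496167011807343266601340574602400627001048089804548623829499931380473141430291101506376531729645576967571059711227680350064689542658330301334977358331904)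 (nat_lit 19584246217686770530725491490894403380178899641193519693496167011807343266601340574602400627001048089804548623829499931380473141430291101506376531729645576967571059711227680350064689542658330301334977358331904) c10_s524) (K (nat_lit 149502054193052752429778082353609160029434598309171564791532181657708613171242898356682253806708545853620253759646962565992427820533320119548379960795834111182057561987818323779900348404709982208000) (nat_lit 642106433294479187895628647930031283882744540486659721453764176399838081048360106511824971832649369917427623373127572888408368323678464117137817652986673166825649876689222160941853145224664814791633884151808) (nat_lit 642106433294479187895628647930031283882744540486659721453764176399838081048360106511824971832649369917427623373127572888408368323678464117137817652986673166825649876689222160941853145224664814791633884151808) c10_s525)))) (M (nat_lit 592) (B (M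 (nat_lit 593) (B (L (nat_lit 594) ln18_18_3_c10 ln18_18_3_c10_ok) (M (nat_lit 557) (B (L (nat_lit 560) ln13_17_0_c10 ln13_17_0_c10_ok) (L (nat_lit 556) ln12_17_0_c10 ln12_17_0_c10_ok))))) (B (M (nat_lit 593) (B (L (nat_lit 594) ln18_18_3_c10 ln18_18_3_c10_ok) (M (nat_lit 557) (B (L (nat_lit 556) ln12_17_0_c10 ln12_17_0_c10_ok) (L (nat_lit 590) ln17_18_3_c10 ln17_18_3_c10_ok))))) (B (M (nat_lit 590) (B (M (nat_lit 593) (B (L (nat_lit 594) ln18_18_3_c10 ln18_18_3_c10_ok) (M (nat_lit 621) (B (L (nat_lit 622) ln17_18_1_c10 ln17_18_1_c10_ok) (M (nat_lit 589) (B (L (nat_lit 620) ln16_18_1_c10 ln16_18_1_c10_ok) (M (nat_lit 625) (B (L (nat_lit 626) ln14_18_0_c10 ln14_18_0_c10_ok) (L (nat_lit 624) ln13_18_0_c10 ln13_18_0_c10_ok))))))))) (B (M (nat_lit 621) (B (M (nat_lit 622) (B (L (nat_lit 593) ln17_18_1_c10 ln17_18_1_c10_ok) (L (nat_lit 620) ln12_19_2_c10 ln12_19_2_c10_ok))) (B (M (nat_lit 620) (B (L (nat_lit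 589) ln16_18_1_c10 ln16_18_1_c10_ok) (L (nat_lit 622) ln12_19_2_c10 ln12_19_2_c10_ok))) (B (M (nat_lit 589) (B (L (nat_lit 620) ln16_18_1_c10 ln16_18_1_c10_ok) (M (nat_lit 624) (B (L (nat_lit 625) ln13_18_0_c10 ln13_18_0_c10_ok) (L (nat_lit 588) ln12_18_0_c10 ln12_18_0_c10_ok))))) (M (nat_lit 526) (B (L (nat_lit 494) ln14_14_4 ln14_14_4_ok) (M (nat_lit 622) (B (L (nat_lit 653) ln14_16_5 ln14_16_5_ok) (L (nat_lit 593) ln17_18_1_c10 ln17_18_1_c10_ok))))))))) (B (M (nat_lit 621) (B (M (nat_lit 620) (B (L (nat_lit 589) ln16_18_1_c10 ln16_18_1_c10_ok) (L (nat_lit 622) ln12_19_2_c10 ln12_19_2_c10_ok))) (B (M (nat_lit 526) (B (L (nat_lit 494) ln14_14_4 ln14_14_4_ok) (M (nat_lit 622) (B (L (nat_lit 653) ln14_16_5 ln14_16_5_ok) (L (nat_lit 620) ln12_19_2_c10 ln12_19_2_c10_ok))))) (B (M (nat_lit 589) (B (L (nat_lit 620) ln16_18_1_c10 ln16_18_1_c10_ok) (M (nat_lit 588) (B (L (nat_lit 560) ln12_18_2_c10 ln12_18_2_c10_ok)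 (L (nat_lit 587) ln11_18_2_c10 ln11_18_2_c10_ok))))) (M (nat_lit 589) (B (M (nat_lit 588) (B (L (nat_lit 560) ln12_18_2_c10 ln12_18_2_c10_ok) (L (nat_lit 587) ln11_18_2_c10 ln11_18_2_c10_ok))) (M (nat_lit 526) (B (L (nat_lit 494) ln14_14_4 ln14_14_4_ok) (M (nat_lit 653) (B (L (nat_lit 622) ln14_16_5 ln14_16_5_ok) (L (nat_lit 685) ln13_21_6_c10 ln13_21_6_c10_ok))))))))))) (B (M (nat_lit 622) (B (M (nat_lit 593) (B (L (nat_lit 594) ln18_18_1_c10 ln18_18_1_c10_ok) (L (nat_lit 621) ln17_18_1_c10 ln17_18_1_c10_ok))) (B (M (nat_lit 621) (B (L (nat_lit 593) ln17_18_1_c10 ln17_18_1_c10_ok) (L (nat_lit 620) ln12_19_2_c10 ln12_19_2_c10_ok))) (B (M (nat_lit 526) (B (L (nat_lit 494) ln14_14_4 ln14_14_4_ok) (M (nat_lit 621) (B (L (nat_lit 653) ln14_16_5 ln14_16_5_ok) (L (nat_lit 620) ln12_19_2_c10 ln12_19_2_c10_ok))))) (M (nat_lit 654) (B (L (nat_lit 686) ln14_21_6_c10 ln14_21_6_c10_ok) (M (nat_lit 625) (B (M (nat_lit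 593) (B (L (nat_lit 594) ln18_18_1_c10 ln18_18_1_c10_ok) (L (nat_lit 626) ln14_18_0_c10 ln14_18_0_c10_ok))) (B (M (nat_lit 626) (B (L (nat_lit 593) ln14_18_0_c10 ln14_18_0_c10_ok) (L (nat_lit 624) ln18_19_3_c10 ln18_19_3_c10_ok))) (B (M (nat_lit 624) (B (L (nat_lit 626) ln18_19_3_c10 ln18_19_3_c10_ok) (L (nat_lit 653) ln17_19_1_c10 ln17_19_1_c10_ok))) (M (nat_lit 653) (B (L (nat_lit 685) ln14_17_5_c10 ln14_17_5_c10_ok) (L (nat_lit 624) ln17_19_1_c10 ln17_19_1_c10_ok))))))))))))) (M (nat_lit 589) (B (M (nat_lit 560) (B (L (nat_lit 561) ln17_17_1_c10 ln17_17_1_c10_ok) (L (nat_lit 588) ln12_18_2_c10 ln12_18_2_c10_ok))) (B (M (nat_lit 588) (B (L (nat_lit 560) ln12_18_2_c10 ln12_18_2_c10_ok) (L (nat_lit 624) ln12_18_0_c10 ln12_18_0_c10_ok))) (B (M (nat_lit 588) (B (L (nat_lit 587) ln11_18_2_c10 ln11_18_2_c10_ok) (L (nat_lit 624) ln12_18_0_c10 ln12_18_0_c10_ok))) (M (nat_lit 561) (B (L (nat_lit 560) ln17_17_1_c10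 ln17_17_1_c10_ok) (M (nat_lit 593) (B (L (nat_lit 562) ln14_18_2_c10 ln14_18_2_c10_ok) (L (nat_lit 594) ln18_18_3_c10 ln18_18_3_c10_ok)))))))))))))) (B (M (nat_lit 557) (B (L (nat_lit 556) ln12_17_0_c10 ln12_17_0_c10_ok) (M (nat_lit 593) (B (L (nat_lit 560) ln13_17_0_c10 ln13_17_0_c10_ok) (L (nat_lit 590) ln17_18_3_c10 ln17_18_3_c10_ok))))) (M (nat_lit 557) (B (L (nat_lit 556) ln12_17_0_c10 ln12_17_0_c10_ok) (M (nat_lit 589) (B (M (nat_lit 588) (B (L (nat_lit 560) ln16_17_1_c10 ln16_17_1_c10_ok) (M (nat_lit 590) (B (L (nat_lit 587) ln11_18_2_c10 ln11_18_2_c10_ok) (L (nat_lit 624) ln12_18_0_c10 ln12_18_0_c10_ok))))) (B (M (nat_lit 621) (B (M (nat_lit 526) (B (L (nat_lit 494) ln14_14_4 ln14_14_4_ok) (L (nat_lit 653) ln13_20_6_c10 ln13_20_6_c10_ok))) (M (nat_lit 620) (B (L (nat_lit 590) ln16_18_1_c10 ln16_18_1_c10_ok) (L (nat_lit 622) ln12_19_2_c10 ln12_19_2_c10_ok))))) (M (nat_lit 621) (B (M (nat_lit 526)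 (B (L (nat_lit 494) ln14_14_4 ln14_14_4_ok) (L (nat_lit 653) ln13_20_6_c10 ln13_20_6_c10_ok))) (M (nat_lit 588) (B (L (nat_lit 560) ln16_17_1_c10 ln16_17_1_c10_ok) (M (nat_lit 622) (B (L (nat_lit 620) ln12_19_2_c10 ln12_19_2_c10_ok) (L (nat_lit 624) ln16_19_3_c10 ln16_19_3_c10_ok))))))))))))))))))
noncomputable def c10_d101 : Cert := (B (M (nat_lit 622) (B (M (nat_lit 654) (B (L (nat_lit 527) ln15_16_5_c10 ln15_16_5_c10_ok) (M (nat_lit 686) (B (L (nat_lit 590) ln14_21_6_c10 ln14_21_6_c10_ok) (L (nat_lit 718) ln14_22_6_c10 ln14_22_6_c10_ok))))) (B (M (nat_lit 621) (B (M (nat_lit 592) (B (L (nat_lit 620) ln12_19_2_c10 ln12_19_2_c10_ok) (M (nat_lit 593) (B (L (nat_lit 594) ln18_18_1_c10 ln18_18_1_c10_ok) (L (nat_lit 624) ln13_19_2_c10 ln13_19_2_c10_ok))))) (B (M (nat_lit 592) (B (L (nat_lit 620) ln12_19_2_c10 ln12_19_2_c10_ok) (M (nat_lit 593) (B (L (nat_lit 590) ln17_18_1_c10 ln17_18_1_c10_ok) (L (nat_lit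 624) ln13_19_2_c10 ln13_19_2_c10_ok))))) (B (M (nat_lit 624) (B (M (nat_lit 592) (B (L (nat_lit 620) ln12_19_2_c10 ln12_19_2_c10_ok) (M (nat_lit 656) (B (L (nat_lit 688) ln16_21_7_c10 ln16_21_7_c10_ok) (L (nat_lit 657) ln13_19_0_c10 ln13_19_0_c10_ok))))) (M (nat_lit 625) (B (M (nat_lit 590) (B (L (nat_lit 626) ln18_19_3_c10 ln18_19_3_c10_ok) (L (nat_lit 589) ln17_19_3_c10 ln17_19_3_c10_ok))) (M (nat_lit 653) (B (L (nat_lit 654) ln17_19_1_c10 ln17_19_1_c10_ok) (L (nat_lit 652) ln16_19_1_c10 ln16_19_1_c10_ok))))))) (B (M (nat_lit 624) (B (M (nat_lit 625) (B (M (nat_lit 590) (B (L (nat_lit 626) ln18_19_3_c10 ln18_19_3_c10_ok) (L (nat_lit 589) ln17_19_3_c10 ln17_19_3_c10_ok))) (M (nat_lit 657) (B (L (nat_lit 658) ln14_19_0_c10 ln14_19_0_c10_ok) (L (nat_lit 656) ln13_19_0_c10 ln13_19_0_c10_ok))))) (B (M (nat_lit 625) (B (M (nat_lit 657) (B (L (nat_lit 658) ln14_19_0_c10 ln14_19_0_c10_ok) (L (nat_lit 656)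 ln13_19_0_c10 ln13_19_0_c10_ok))) (M (nat_lit 653) (B (L (nat_lit 654) ln17_19_1_c10 ln17_19_1_c10_ok) (L (nat_lit 652) ln16_19_1_c10 ln16_19_1_c10_ok))))) (M (nat_lit 620) (B (M (nat_lit 588) (B (L (nat_lit 589) ln16_19_3_c10 ln16_19_3_c10_ok) (L (nat_lit 587) ln15_19_3_c10 ln15_19_3_c10_ok))) (M (nat_lit 652) (B (L (nat_lit 653) ln16_19_1_c10 ln16_19_1_c10_ok) (L (nat_lit 651) ln15_19_1_c10 ln15_19_1_c10_ok)))))))) (B (M (nat_lit 592) (B (L (nat_lit 620) ln12_19_2_c10 ln12_19_2_c10_ok) (M (nat_lit 593) (B (L (nat_lit 594) ln18_18_1_c10 ln18_18_1_c10_ok) (L (nat_lit 590) ln17_18_1_c10 ln17_18_1_c10_ok))))) (M (nat_lit 624) (B (M (nat_lit 592) (B (L (nat_lit 593) ln13_19_2_c10 ln13_19_2_c10_ok) (M (nat_lit 656) (B (L (nat_lit 688) ln16_21_7_c10 ln16_21_7_c10_ok) (L (nat_lit 657) ln13_19_0_c10 ln13_19_0_c10_ok))))) (M (nat_lit 625) (B (M (nat_lit 590) (B (L (nat_lit 626) ln18_19_3_c10 ln18_19_3_c10_ok)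 (L (nat_lit 589) ln17_19_3_c10 ln17_19_3_c10_ok))) (M (nat_lit 653) (B (L (nat_lit 654) ln17_19_1_c10 ln17_19_1_c10_ok) (L (nat_lit 652) ln16_19_1_c10 ln16_19_1_c10_ok))))))))))))) (B (M (nat_lit 592) (B (M (nat_lit 527) (B (L (nat_lit 654) ln15_16_5_c10 ln15_16_5_c10_ok) (M (nat_lit 624) (B (L (nat_lit 495) ln15_15_4_c10 ln15_15_4_c10_ok) (L (nat_lit 656) ln15_16_4_c10 ln15_16_4_c10_ok))))) (M (nat_lit 593) (B (L (nat_lit 594) ln18_18_1_c10 ln18_18_1_c10_ok) (M (nat_lit 557) (B (L (nat_lit 560) ln13_17_0_c10 ln13_17_0_c10_ok) (L (nat_lit 556) ln12_17_0_c10 ln12_17_0_c10_ok))))))) (M (nat_lit 624) (B (M (nat_lit 527) (B (L (nat_lit 656) ln15_16_4_c10 ln15_16_4_c10_ok) (M (nat_lit 495) (B (L (nat_lit 592) ln15_15_4_c10 ln15_15_4_c10_ok) (L (nat_lit 590) ln15_15_5_c10 ln15_15_5_c10_ok))))) (B (M (nat_lit 592) (B (M (nat_lit 656) (B (L (nat_lit 527) ln15_16_4_c10 ln15_16_4_c10_ok) (L (nat_lit 688) ln16_21_7_c10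 ln16_21_7_c10_ok))) (M (nat_lit 593) (B (L (nat_lit 594) ln18_18_1_c10 ln18_18_1_c10_ok) (L (nat_lit 621) ln13_19_2_c10 ln13_19_2_c10_ok))))) (B (M (nat_lit 592) (B (M (nat_lit 593) (B (L (nat_lit 594) ln18_18_1_c10 ln18_18_1_c10_ok) (L (nat_lit 621) ln13_19_2_c10 ln13_19_2_c10_ok))) (B (M (nat_lit 621) (B (L (nat_lit 593) ln13_19_2_c10 ln13_19_2_c10_ok) (L (nat_lit 620) ln12_19_2_c10 ln12_19_2_c10_ok))) (B (M (nat_lit 621) (B (L (nat_lit 620) ln12_19_2_c10 ln12_19_2_c10_ok) (M (nat_lit 656) (B (L (nat_lit 688) ln16_21_7_c10 ln16_21_7_c10_ok) (L (nat_lit 657) ln13_19_0_c10 ln13_19_0_c10_ok))))) (M (nat_lit 593) (B (L (nat_lit 594) ln18_18_1_c10 ln18_18_1_c10_ok) (M (nat_lit 557) (B (L (nat_lit 556) ln12_17_0_c10 ln12_17_0_c10_ok) (L (nat_lit 590) ln17_18_3_c10 ln17_18_3_c10_ok))))))))) (B (M (nat_lit 590) (B (M (nat_lit 527) (B (L (nat_lit 495) ln15_15_5_c10 ln15_15_5_c10_ok) (L (nat_lit 656) ln15_16_4_c10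 ln15_16_4_c10_ok))) (M (nat_lit 625) (B (L (nat_lit 626) ln18_19_3_c10 ln18_19_3_c10_ok) (L (nat_lit 589) ln17_19_3_c10 ln17_19_3_c10_ok))))) (M (nat_lit 593) (B (M (nat_lit 594) (B (L (nat_lit 592) ln18_18_1_c10 ln18_18_1_c10_ok) (L (nat_lit 625) ln14_19_2_c10 ln14_19_2_c10_ok))) (B (M (nat_lit 592) (B (L (nat_lit 621) ln13_19_2_c10 ln13_19_2_c10_ok) (M (nat_lit 557) (B (L (nat_lit 560) ln13_17_0_c10 ln13_17_0_c10_ok) (L (nat_lit 590) ln17_18_3_c10 ln17_18_3_c10_ok))))) (M (nat_lit 625) (B (L (nat_lit 594) ln14_19_2_c10 ln14_19_2_c10_ok) (M (nat_lit 590) (B (L (nat_lit 626) ln18_19_3_c10 ln18_19_3_c10_ok) (L (nat_lit 589) ln17_19_3_c10 ln17_19_3_c10_ok))))))))))))))))) (M (nat_lit 592) (B (M (nat_lit 593) (B (L (nat_lit 594) ln18_18_3_c10 ln18_18_3_c10_ok) (M (nat_lit 557) (B (L (nat_lit 560) ln13_17_0_c10 ln13_17_0_c10_ok) (L (nat_lit 556) ln12_17_0_c10 ln12_17_0_c10_ok))))) (B (M (nat_lit 593) (B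 (L (nat_lit 594) ln18_18_3_c10 ln18_18_3_c10_ok) (M (nat_lit 557) (B (L (nat_lit 556) ln12_17_0_c10 ln12_17_0_c10_ok) (L (nat_lit 590) ln17_18_3_c10 ln17_18_3_c10_ok))))) (B (M (nat_lit 593) (B (L (nat_lit 594) ln18_18_3_c10 ln18_18_3_c10_ok) (M (nat_lit 624) (B (M (nat_lit 527) (B (L (nat_lit 495) ln15_15_4_c10 ln15_15_4_c10_ok) (L (nat_lit 656) ln15_16_4_c10 ln15_16_4_c10_ok))) (M (nat_lit 625) (B (M (nat_lit 590) (B (L (nat_lit 626) ln14_18_0_c10 ln14_18_0_c10_ok) (L (nat_lit 589) ln13_18_0_c10 ln13_18_0_c10_ok))) (M (nat_lit 657) (B (M (nat_lit 689) (B (L (nat_lit 560) ln17_21_7_c10 ln17_21_7_c10_ok) (L (nat_lit 721) ln17_22_7_c10 ln17_22_7_c10_ok))) (M (nat_lit 622) (B (L (nat_lit 621) ln13_19_2_c10 ln13_19_2_c10_ok) (L (nat_lit 658) ln14_19_0_c10 ln14_19_0_c10_ok))))))))))) (B (M (nat_lit 557) (B (L (nat_lit 556) ln12_17_0_c10 ln12_17_0_c10_ok) (M (nat_lit 593) (B (L (nat_lit 560) ln13_17_0_c10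 ln13_17_0_c10_ok) (L (nat_lit 590) ln17_18_3_c10 ln17_18_3_c10_ok))))) (M (nat_lit 656) (B (M (nat_lit 624) (B (L (nat_lit 527) ln15_16_4_c10 ln15_16_4_c10_ok) (L (nat_lit 688) ln16_21_7_c10 ln16_21_7_c10_ok))) (B (M (nat_lit 688) (B (L (nat_lit 624) ln16_21_7_c10 ln16_21_7_c10_ok) (L (nat_lit 655) ln15_17_4_c10 ln15_17_4_c10_ok))) (B (M (nat_lit 655) (B (L (nat_lit 688) ln15_17_4_c10 ln15_17_4_c10_ok) (M (nat_lit 687) (B (L (nat_lit 560) ln15_21_6_c10 ln15_21_6_c10_ok) (L (nat_lit 590) ln15_21_7_c10 ln15_21_7_c10_ok))))) (M (nat_lit 624) (B (L (nat_lit 527) ln15_16_4_c10 ln15_16_4_c10_ok) (M (nat_lit 625) (B (M (nat_lit 590) (B (L (nat_lit 589) ln13_18_0_c10 ln13_18_0_c10_ok) (L (nat_lit 626) ln18_19_3_c10 ln18_19_3_c10_ok))) (M (nat_lit 657) (B (M (nat_lit 689) (B (L (nat_lit 560) ln16_17_4_c10 ln16_17_4_c10_ok) (L (nat_lit 721) ln17_22_7_c10 ln17_22_7_c10_ok))) (M (nat_lit 622) (B (L (nat_lit 658)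 ln14_19_0_c10 ln14_19_0_c10_ok) (L (nat_lit 621) ln13_19_0_c10 ln13_19_0_c10_ok)))))))))))))))))))
noncomputable def c10_d102 : Cert := (B (M (nat_lit 655) (B (M (nat_lit 687) (B (L (nat_lit 590) ln15_21_7_c10 ln15_21_7_c10_ok) (M (nat_lit 688) (B (L (nat_lit 656) ln15_17_4_c10 ln15_17_4_c10_ok) (L (nat_lit 720) ln15_18_4_c10 ln15_18_4_c10_ok))))) (B (K (nat_lit 149502054193052752429778082353609160029434598309171564791532181657708613171242898356682253806708545853620253759646962565992427820533320119548379960795834111182057561987818323779900348404709982208000) (nat_lit 19584246217686770530725491490894403380178899641193519693496167011807343266601340574602400627001048089804548623829499931380473141430291101506376531729645576967571059711227680350064689542658330301334977358331904) (nat_lit 19584246217686770530725491490894403380178899641193519693496167011807343266601340574602400627001048089804548623829499931380473141430291101506376531729645576967571059711227680350064689542658330301334977358331904)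 c10_s524) (K (nat_lit 149502054193052752429778082353609160029434598309171564791532181657708613171242898356682253806708545853620253759646962565992427820533320119548379960795834111182057561987818323779900348404709982208000) (nat_lit 642106433294479187895628647930031283882744540486659721453764176399838081048360106511824971832649369917427623373127572888408368323678464117137817652986673166825649876689222160941853145224664814791633884151808) (nat_lit 642106433294479187895628647930031283882744540486659721453764176399838081048360106511824971832649369917427623373127572888408368323678464117137817652986673166825649876689222160941853145224664814791633884151808) c10_s525)))) (B (M (nat_lit 592) (B (M (nat_lit 593) (B (L (nat_lit 594) ln18_18_3_c10 ln18_18_3_c10_ok) (M (nat_lit 557) (B (L (nat_lit 560) ln13_17_0_c10 ln13_17_0_c10_ok) (L (nat_lit 556) ln12_17_0_c10 ln12_17_0_c10_ok))))) (B (M (nat_lit 622) (B (M (nat_lit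 593) (B (L (nat_lit 594) ln18_18_1_c10 ln18_18_1_c10_ok) (M (nat_lit 621) (B (L (nat_lit 624) ln13_19_2_c10 ln13_19_2_c10_ok) (L (nat_lit 620) ln12_19_2_c10 ln12_19_2_c10_ok))))) (M (nat_lit 654) (B (L (nat_lit 527) ln15_16_5_c10 ln15_16_5_c10_ok) (M (nat_lit 686) (B (L (nat_lit 655) ln15_17_5_c10 ln15_17_5_c10_ok) (L (nat_lit 718) ln14_22_6_c10 ln14_22_6_c10_ok))))))) (M (nat_lit 655) (B (M (nat_lit 688) (B (L (nat_lit 656) ln15_17_4_c10 ln15_17_4_c10_ok) (M (nat_lit 687) (B (L (nat_lit 560) ln15_21_6_c10 ln15_21_6_c10_ok) (L (nat_lit 720) ln15_18_4_c10 ln15_18_4_c10_ok))))) (M (nat_lit 527) (B (M (nat_lit 495) (B (L (nat_lit 494) ln15_18_7 ln15_18_7_ok) (L (nat_lit 624) ln15_15_4_c10 ln15_15_4_c10_ok))) (M (nat_lit 654) (B (L (nat_lit 622) ln15_16_5_c10 ln15_16_5_c10_ok) (L (nat_lit 686) ln15_17_5_c10 ln15_17_5_c10_ok)))))))))) (B (M (nat_lit 655) (B (M (nat_lit 687) (B (L (nat_lit 590) ln15_21_7_c10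 ln15_21_7_c10_ok) (M (nat_lit 688) (B (L (nat_lit 656) ln15_17_4_c10 ln15_17_4_c10_ok) (L (nat_lit 720) ln15_18_4_c10 ln15_18_4_c10_ok))))) (B (M (nat_lit 654) (B (L (nat_lit 686) ln15_17_5_c10 ln15_17_5_c10_ok) (M (nat_lit 622) (B (L (nat_lit 527) ln15_16_5_c10 ln15_16_5_c10_ok) (M (nat_lit 656) (B (L (nat_lit 688) ln15_17_4_c10 ln15_17_4_c10_ok) (M (nat_lit 621) (B (L (nat_lit 620) ln12_19_0_c10 ln12_19_0_c10_ok) (L (nat_lit 657) ln17_20_3_c10 ln17_20_3_c10_ok))))))))) (K (nat_lit 149502054193052752429778082353609160029434598309171564791532181657708613171242898356682253806708545853620253759646962565992427820533320119548379960795834111182057561987818323779900348404709982208000) (nat_lit 642106433294479187895628647930031283882744540486659721453764176399838081048360106511824971832649369917427623373127572888408368323678464117137817652986673166825649876689222160941853145224664814791633884151808) (nat_lit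 642106433294479187895628647930031283882744540486659721453764176399838081048360106511824971832649369917427623373127572888408368323678464117137817652986673166825649876689222160941853145224664814791633884151808) c10_s525)))) (B (M (nat_lit 655) (B (M (nat_lit 687) (B (L (nat_lit 590) ln15_21_7_c10 ln15_21_7_c10_ok) (M (nat_lit 688) (B (L (nat_lit 656) ln15_17_4_c10 ln15_17_4_c10_ok) (L (nat_lit 720) ln15_18_4_c10 ln15_18_4_c10_ok))))) (B (M (nat_lit 656) (B (L (nat_lit 688) ln15_17_4_c10 ln15_17_4_c10_ok) (M (nat_lit 654) (B (L (nat_lit 686) ln15_17_5_c10 ln15_17_5_c10_ok) (M (nat_lit 624) (B (L (nat_lit 527) ln15_16_4_c10 ln15_16_4_c10_ok) (M (nat_lit 625) (B (L (nat_lit 626) ln18_19_1_c10 ln18_19_1_c10_ok) (L (nat_lit 653) ln13_20_2_c10 ln13_20_2_c10_ok))))))))) (K (nat_lit 149502054193052752429778082353609160029434598309171564791532181657708613171242898356682253806708545853620253759646962565992427820533320119548379960795834111182057561987818323779900348404709982208000)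 (nat_lit 642106433294479187895628647930031283882744540486659721453764176399838081048360106511824971832649369917427623373127572888408368323678464117137817652986673166825649876689222160941853145224664814791633884151808) (nat_lit 642106433294479187895628647930031283882744540486659721453764176399838081048360106511824971832649369917427623373127572888408368323678464117137817652986673166825649876689222160941853145224664814791633884151808) c10_s525)))) (B (M (nat_lit 655) (B (M (nat_lit 687) (B (L (nat_lit 590) ln15_21_7_c10 ln15_21_7_c10_ok) (M (nat_lit 686) (B (L (nat_lit 654) ln15_17_5_c10 ln15_17_5_c10_ok) (L (nat_lit 718) ln15_18_5_c10 ln15_18_5_c10_ok))))) (B (M (nat_lit 592) (B (M (nat_lit 593) (B (L (nat_lit 594) ln18_18_3_c10 ln18_18_3_c10_ok) (M (nat_lit 560) (B (L (nat_lit 557) ln13_17_0_c10 ln13_17_0_c10_ok) (L (nat_lit 687) ln15_21_6_c10 ln15_21_6_c10_ok))))) (M (nat_lit 527) (B (M (nat_lit 495)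 (B (L (nat_lit 494) ln15_18_7 ln15_18_7_ok) (L (nat_lit 624) ln15_15_4_c10 ln15_15_4_c10_ok))) (M (nat_lit 654) (B (L (nat_lit 622) ln15_16_5_c10 ln15_16_5_c10_ok) (L (nat_lit 686) ln15_17_5_c10 ln15_17_5_c10_ok))))))) (B (K (nat_lit 149502054193052752429778082353609160029434598309171564791532181657708613171242898356682253806708545853620253759646962565992427820533320119548379960795834111182057561987818323779900348404709982208000) (nat_lit 642106433294479187895628647930031283882744540486659721453764176399838081048360106511824971832649369917427623373127572888408368323678464117137817652986673166825649876689222160941853145224664814791633884151808) (nat_lit 642106433294479187895628647930031283882744540486659721453764176399838081048360106511824971832649369917427623373127572888408368323678464117137817652986673166825649876689222160941853145224664814791633884151808) c10_s525) (M (nat_lit 592) (B (M (nat_lit 593)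 (B (L (nat_lit 594) ln18_18_3_c10 ln18_18_3_c10_ok) (M (nat_lit 557) (B (L (nat_lit 560) ln13_17_0_c10 ln13_17_0_c10_ok) (L (nat_lit 556) ln12_17_0_c10 ln12_17_0_c10_ok))))) (M (nat_lit 527) (B (M (nat_lit 495) (B (L (nat_lit 494) ln15_18_7 ln15_18_7_ok) (L (nat_lit 624) ln15_15_4_c10 ln15_15_4_c10_ok))) (M (nat_lit 654) (B (L (nat_lit 622) ln15_16_5_c10 ln15_16_5_c10_ok) (L (nat_lit 686) ln15_17_5_c10 ln15_17_5_c10_ok))))))))))) c10_d101)))))
noncomputable def c10_d103 : Cert := (B (M (nat_lit 623) (B (M (nat_lit 655) (B (L (nat_lit 526) ln15_20_7_c10 ln15_20_7_c10_ok) (M (nat_lit 687) (B (L (nat_lit 590) ln15_21_7_c10 ln15_21_7_c10_ok) (M (nat_lit 688) (B (L (nat_lit 656) ln15_17_4_c10 ln15_17_4_c10_ok) (L (nat_lit 720) ln15_18_4_c10 ln15_18_4_c10_ok))))))) (B (K (nat_lit 34808659505344171178022013895333286583650752986313201231185164492148957755656502805460919825673702559539421027235780344223289767221636754671176596661416200498381161895584726873173269676032)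 (nat_lit 6894565331124856640464844606564218485836616430071765803780330670013638096266565751313919522636503545228350808033108520804443313353777605511332997255312023095666979508647567720520786650217494791227278059765721546620928) (nat_lit 6894565331124856640464844606564218485836616430071765803780330670013638096266565751313919522636503545228350808033108520804443313353777605511332997255312023095666979508647567720520786650217494791227278059765721546620928) c10_s522) (B (M (nat_lit 655) (B (L (nat_lit 526) ln15_20_7_c10 ln15_20_7_c10_ok) (M (nat_lit 687) (B (M (nat_lit 688) (B (L (nat_lit 656) ln15_17_4_c10 ln15_17_4_c10_ok) (L (nat_lit 720) ln15_18_4_c10 ln15_18_4_c10_ok))) (M (nat_lit 686) (B (L (nat_lit 654) ln15_17_5_c10 ln15_17_5_c10_ok) (L (nat_lit 718) ln15_18_5_c10 ln15_18_5_c10_ok))))))) (B (M (nat_lit 655) (B (L (nat_lit 526) ln15_20_7_c10 ln15_20_7_c10_ok) (M (nat_lit 687) (B (L (nat_lit 590) ln15_21_7_c10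 ln15_21_7_c10_ok) (M (nat_lit 686) (B (L (nat_lit 654) ln15_17_5_c10 ln15_17_5_c10_ok) (L (nat_lit 718) ln15_18_5_c10 ln15_18_5_c10_ok))))))) (M (nat_lit 622) (B (M (nat_lit 654) (B (L (nat_lit 527) ln15_16_5_c10 ln15_16_5_c10_ok) (M (nat_lit 686) (B (L (nat_lit 590) ln14_21_6_c10 ln14_21_6_c10_ok) (L (nat_lit 718) ln14_22_6_c10 ln14_22_6_c10_ok))))) (B (M (nat_lit 621) (B (M (nat_lit 592) (B (L (nat_lit 620) ln12_19_2_c10 ln12_19_2_c10_ok) (M (nat_lit 593) (B (L (nat_lit 594) ln18_18_1_c10 ln18_18_1_c10_ok) (L (nat_lit 624) ln13_19_2_c10 ln13_19_2_c10_ok))))) (B (M (nat_lit 592) (B (L (nat_lit 620) ln12_19_2_c10 ln12_19_2_c10_ok) (M (nat_lit 593) (B (L (nat_lit 590) ln17_18_1_c10 ln17_18_1_c10_ok) (L (nat_lit 624) ln13_19_2_c10 ln13_19_2_c10_ok))))) (B (M (nat_lit 590) (B (M (nat_lit 620) (B (L (nat_lit 592) ln12_19_2_c10 ln12_19_2_c10_ok) (L (nat_lit 619) ln11_19_2_c10 ln11_19_2_c10_ok))) (M (nat_lit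 653) (B (L (nat_lit 526) ln14_16_5 ln14_16_5_ok) (M (nat_lit 654) (B (L (nat_lit 686) ln14_21_6_c10 ln14_21_6_c10_ok) (L (nat_lit 685) ln14_17_5_c10 ln14_17_5_c10_ok))))))) (B (M (nat_lit 590) (B (M (nat_lit 653) (B (L (nat_lit 526) ln14_16_5 ln14_16_5_ok) (M (nat_lit 654) (B (L (nat_lit 686) ln14_21_6_c10 ln14_21_6_c10_ok) (L (nat_lit 685) ln14_17_5_c10 ln14_17_5_c10_ok))))) (K (nat_lit 60915154132326168910547998109847497858540813470367866343958497558127202640963140376721653248732716323724075399253336610773453261761875385624715134481859778226313774182831659729905057267712) (nat_lit 76143942653757459907431754316474807907549686054679208421504205809834302742175758438459201334889075171192081293296829370664921362445597123873340954131997497086769825693647142609561690570752) (nat_lit 76143942653757459907431754316474807907549686054679208421504205809834302742175758438459201334889075171192081293296829370664921362445597123873340954131997497086769825693647142609561690570752)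 c10_s523))) (M (nat_lit 624) (B (M (nat_lit 592) (B (L (nat_lit 593) ln13_19_2_c10 ln13_19_2_c10_ok) (M (nat_lit 656) (B (L (nat_lit 688) ln16_21_7_c10 ln16_21_7_c10_ok) (L (nat_lit 657) ln13_19_0_c10 ln13_19_0_c10_ok))))) (M (nat_lit 590) (B (M (nat_lit 653) (B (L (nat_lit 526) ln14_16_5 ln14_16_5_ok) (L (nat_lit 652) ln16_19_1_c10 ln16_19_1_c10_ok))) (M (nat_lit 589) (B (L (nat_lit 588) ln12_18_0_c10 ln12_18_0_c10_ok) (L (nat_lit 625) ln17_19_3_c10 ln17_19_3_c10_ok)))))))))))) (B (M (nat_lit 527) (B (L (nat_lit 654) ln15_16_5_c10 ln15_16_5_c10_ok) (M (nat_lit 624) (B (L (nat_lit 656) ln15_16_4_c10 ln15_16_4_c10_ok) (M (nat_lit 592) (B (L (nat_lit 495) ln15_15_4_c10 ln15_15_4_c10_ok) (M (nat_lit 593) (B (L (nat_lit 594) ln18_18_1_c10 ln18_18_1_c10_ok) (L (nat_lit 621) ln13_19_2_c10 ln13_19_2_c10_ok))))))))) (M (nat_lit 624) (B (M (nat_lit 527) (B (L (nat_lit 656) ln15_16_4_c10 ln15_16_4_c10_ok) (M (nat_lit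 495) (B (L (nat_lit 592) ln15_15_4_c10 ln15_15_4_c10_ok) (L (nat_lit 590) ln15_15_5_c10 ln15_15_5_c10_ok))))) (B (M (nat_lit 621) (B (M (nat_lit 592) (B (L (nat_lit 593) ln13_19_2_c10 ln13_19_2_c10_ok) (L (nat_lit 620) ln12_19_2_c10 ln12_19_2_c10_ok))) (M (nat_lit 656) (B (L (nat_lit 527) ln15_16_4_c10 ln15_16_4_c10_ok) (L (nat_lit 657) ln13_19_0_c10 ln13_19_0_c10_ok))))) (B (M (nat_lit 621) (B (M (nat_lit 592) (B (L (nat_lit 593) ln13_19_2_c10 ln13_19_2_c10_ok) (L (nat_lit 620) ln12_19_2_c10 ln12_19_2_c10_ok))) (M (nat_lit 590) (B (M (nat_lit 653) (B (L (nat_lit 526) ln14_16_5 ln14_16_5_ok) (L (nat_lit 652) ln16_19_1_c10 ln16_19_1_c10_ok))) (M (nat_lit 589) (B (L (nat_lit 588) ln12_18_0_c10 ln12_18_0_c10_ok) (L (nat_lit 625) ln17_19_3_c10 ln17_19_3_c10_ok))))))) (M (nat_lit 590) (B (M (nat_lit 527) (B (L (nat_lit 495) ln15_15_5_c10 ln15_15_5_c10_ok) (L (nat_lit 656) ln15_16_4_c10 ln15_16_4_c10_ok)))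 (M (nat_lit 589) (B (L (nat_lit 588) ln12_18_0_c10 ln12_18_0_c10_ok) (L (nat_lit 625) ln17_19_3_c10 ln17_19_3_c10_ok)))))))))))))))))) (B (M (nat_lit 623) (B (M (nat_lit 526) (B (L (nat_lit 494) ln14_14_4 ln14_14_4_ok) (L (nat_lit 655) ln15_20_7_c10 ln15_20_7_c10_ok))) (B (M (nat_lit 655) (B (L (nat_lit 526) ln15_20_7_c10 ln15_20_7_c10_ok) (M (nat_lit 687) (B (L (nat_lit 590) ln15_21_7_c10 ln15_21_7_c10_ok) (M (nat_lit 686) (B (L (nat_lit 654) ln15_17_5_c10 ln15_17_5_c10_ok) (L (nat_lit 718) ln15_18_5_c10 ln15_18_5_c10_ok))))))) c10_d100))) (M (nat_lit 623) (B (K (nat_lit 34808659505344171178022013895333286583650752986313201231185164492148957755656502805460919825673702559539421027235780344223289767221636754671176596661416200498381161895584726873173269676032) (nat_lit 6894565331124856640464844606564218485836616430071765803780330670013638096266565751313919522636503545228350808033108520804443313353777605511332997255312023095666979508647567720520786650217494791227278059765721546620928)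 (nat_lit 6894565331124856640464844606564218485836616430071765803780330670013638096266565751313919522636503545228350808033108520804443313353777605511332997255312023095666979508647567720520786650217494791227278059765721546620928) c10_s522) c10_d102))))
noncomputable def c10_d104 : Cert := (B (M (nat_lit 526) (B (L (nat_lit 494) ln14_14_4 ln14_14_4_ok) (M (nat_lit 622) (B (M (nat_lit 623) (B (L (nat_lit 655) ln15_20_7_c10 ln15_20_7_c10_ok) (M (nat_lit 654) (B (L (nat_lit 527) ln15_16_5_c10 ln15_16_5_c10_ok) (M (nat_lit 686) (B (L (nat_lit 590) ln14_21_6_c10 ln14_21_6_c10_ok) (L (nat_lit 718) ln14_22_6_c10 ln14_22_6_c10_ok))))))) (B (M (nat_lit 590) (B (M (nat_lit 655) (B (L (nat_lit 623) ln14_16_4 ln14_16_4_ok) (M (nat_lit 654) (B (L (nat_lit 686) ln14_21_6_c10 ln14_21_6_c10_ok) (L (nat_lit 687) ln14_17_4_c10 ln14_17_4_c10_ok))))) (M (nat_lit 589) (B (M (nat_lit 560) (B (L (nat_lit 561) ln17_17_1_c10 ln17_17_1_c10_ok)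 (L (nat_lit 588) ln12_18_2_c10 ln12_18_2_c10_ok))) (M (nat_lit 621) (B (L (nat_lit 653) ln14_16_5 ln14_16_5_ok) (M (nat_lit 592) (B (L (nat_lit 593) ln17_18_1_c10 ln17_18_1_c10_ok) (L (nat_lit 620) ln16_18_1_c10 ln16_18_1_c10_ok))))))))) (B (M (nat_lit 623) (B (L (nat_lit 655) ln15_20_7_c10 ln15_20_7_c10_ok) (M (nat_lit 592) (B (M (nat_lit 527) (B (L (nat_lit 654) ln15_16_5_c10 ln15_16_5_c10_ok) (M (nat_lit 624) (B (L (nat_lit 495) ln15_15_4_c10 ln15_15_4_c10_ok) (L (nat_lit 656) ln15_16_4_c10 ln15_16_4_c10_ok))))) (M (nat_lit 593) (B (L (nat_lit 594) ln18_18_1_c10 ln18_18_1_c10_ok) (M (nat_lit 557) (B (L (nat_lit 560) ln13_17_0_c10 ln13_17_0_c10_ok) (L (nat_lit 556) ln12_17_0_c10 ln12_17_0_c10_ok))))))))) (B (M (nat_lit 590) (B (M (nat_lit 654) (B (L (nat_lit 527) ln14_20_6_c10 ln14_20_6_c10_ok) (L (nat_lit 686) ln14_21_6_c10 ln14_21_6_c10_ok))) (K (nat_lit 17404329760776608185896932229288941432824724777048832021030638339702764946766710424630083893859070623597386521407945156097428028180639090536814645278488845971066049077998616132141570850816)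 (nat_lit 37375513552614270659075858332976898599185221143481753872300892615930605197108241318070696070317910382038215443282579474223426675108396068263042735718527908539955909009681127634295158223135530024960) (nat_lit 37375513552614270659075858332976898599185221143481753872300892615930605197108241318070696070317910382038215443282579474223426675108396068263042735718527908539955909009681127634295158223135530024960) c10_s521))) (M (nat_lit 590) (B (M (nat_lit 623) (B (L (nat_lit 655) ln14_16_4 ln14_16_4_ok) (M (nat_lit 621) (B (L (nat_lit 653) ln14_16_5 ln14_16_5_ok) (M (nat_lit 592) (B (L (nat_lit 593) ln17_18_1_c10 ln17_18_1_c10_ok) (L (nat_lit 620) ln12_19_2_c10 ln12_19_2_c10_ok))))))) (B (M (nat_lit 623) (B (L (nat_lit 655) ln14_16_4 ln14_16_4_ok) (M (nat_lit 624) (B (M (nat_lit 527) (B (L (nat_lit 495) ln15_15_5_c10 ln15_15_5_c10_ok) (L (nat_lit 656) ln15_16_4_c10 ln15_16_4_c10_ok))) (M (nat_lit 625)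 (B (L (nat_lit 626) ln18_19_3_c10 ln18_19_3_c10_ok) (L (nat_lit 589) ln17_19_3_c10 ln17_19_3_c10_ok))))))) (K (nat_lit 17404329760776608185896932229288941432824724777048832021030638339702764946766710424630083893859070623597386521407945156097428028180639090536814645278488845971066049077998616132141570850816) (nat_lit 37375513552614270659075858332976898599185221143481753872300892615930605197108241318070696070317910382038215443282579474223426675108396068263042735718527908539955909009681127634295158223135530024960) (nat_lit 37375513552614270659075858332976898599185221143481753872300892615930605197108241318070696070317910382038215443282579474223426675108396068263042735718527908539955909009681127634295158223135530024960) c10_s521))))))))))) (B (M (nat_lit 623) (B (M (nat_lit 526) (B (L (nat_lit 494) ln14_14_4 ln14_14_4_ok) (L (nat_lit 655) ln15_20_7_c10 ln15_20_7_c10_ok))) (B (M (nat_lit 655) (B (L (nat_lit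 526) ln15_20_7_c10 ln15_20_7_c10_ok) (M (nat_lit 687) (B (L (nat_lit 590) ln15_21_7_c10 ln15_21_7_c10_ok) (M (nat_lit 688) (B (L (nat_lit 656) ln15_17_4_c10 ln15_17_4_c10_ok) (L (nat_lit 720) ln15_18_4_c10 ln15_18_4_c10_ok))))))) (B (K (nat_lit 34808659505344171178022013895333286583650752986313201231185164492148957755656502805460919825673702559539421027235780344223289767221636754671176596661416200498381161895584726873173269676032) (nat_lit 6894565331124856640464844606564218485836616430071765803780330670013638096266565751313919522636503545228350808033108520804443313353777605511332997255312023095666979508647567720520786650217494791227278059765721546620928) (nat_lit 6894565331124856640464844606564218485836616430071765803780330670013638096266565751313919522636503545228350808033108520804443313353777605511332997255312023095666979508647567720520786650217494791227278059765721546620928) c10_s522) (M (nat_lit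 622) (B (M (nat_lit 654) (B (L (nat_lit 527) ln15_16_5_c10 ln15_16_5_c10_ok) (M (nat_lit 686) (B (L (nat_lit 590) ln14_21_6_c10 ln14_21_6_c10_ok) (L (nat_lit 718) ln14_22_6_c10 ln14_22_6_c10_ok))))) (B (M (nat_lit 621) (B (M (nat_lit 592) (B (L (nat_lit 620) ln12_19_2_c10 ln12_19_2_c10_ok) (M (nat_lit 593) (B (L (nat_lit 594) ln18_18_1_c10 ln18_18_1_c10_ok) (L (nat_lit 624) ln13_19_2_c10 ln13_19_2_c10_ok))))) (B (M (nat_lit 592) (B (L (nat_lit 620) ln12_19_2_c10 ln12_19_2_c10_ok) (M (nat_lit 593) (B (L (nat_lit 590) ln17_18_1_c10 ln17_18_1_c10_ok) (L (nat_lit 624) ln13_19_2_c10 ln13_19_2_c10_ok))))) (B (M (nat_lit 590) (B (M (nat_lit 526) (B (L (nat_lit 494) ln14_14_4 ln14_14_4_ok) (L (nat_lit 653) ln14_16_5 ln14_16_5_ok))) (M (nat_lit 620) (B (L (nat_lit 592) ln12_19_2_c10 ln12_19_2_c10_ok) (L (nat_lit 619) ln11_19_2_c10 ln11_19_2_c10_ok))))) (B (M (nat_lit 590) (B (M (nat_lit 526) (B (L (nat_lit 494)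 ln14_14_4 ln14_14_4_ok) (L (nat_lit 653) ln14_16_5 ln14_16_5_ok))) (K (nat_lit 60915154132326168910547998109847497858540813470367866343958497558127202640963140376721653248732716323724075399253336610773453261761875385624715134481859778226313774182831659729905057267712) (nat_lit 76143942653757459907431754316474807907549686054679208421504205809834302742175758438459201334889075171192081293296829370664921362445597123873340954131997497086769825693647142609561690570752) (nat_lit 76143942653757459907431754316474807907549686054679208421504205809834302742175758438459201334889075171192081293296829370664921362445597123873340954131997497086769825693647142609561690570752) c10_s523))) (M (nat_lit 624) (B (M (nat_lit 592) (B (L (nat_lit 593) ln13_19_2_c10 ln13_19_2_c10_ok) (M (nat_lit 656) (B (L (nat_lit 688) ln16_21_7_c10 ln16_21_7_c10_ok) (L (nat_lit 657) ln13_19_0_c10 ln13_19_0_c10_ok))))) (M (nat_lit 526) (B (L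 (nat_lit 494) ln14_14_4 ln14_14_4_ok) (M (nat_lit 653) (B (L (nat_lit 590) ln14_16_5 ln14_16_5_ok) (L (nat_lit 652) ln16_19_1_c10 ln16_19_1_c10_ok)))))))))))) (M (nat_lit 624) (B (M (nat_lit 527) (B (L (nat_lit 656) ln15_16_4_c10 ln15_16_4_c10_ok) (L (nat_lit 654) ln15_16_5_c10 ln15_16_5_c10_ok))) (B (M (nat_lit 592) (B (M (nat_lit 593) (B (L (nat_lit 594) ln18_18_1_c10 ln18_18_1_c10_ok) (L (nat_lit 621) ln13_19_2_c10 ln13_19_2_c10_ok))) (B (M (nat_lit 621) (B (L (nat_lit 593) ln13_19_2_c10 ln13_19_2_c10_ok) (L (nat_lit 620) ln12_19_2_c10 ln12_19_2_c10_ok))) (B (M (nat_lit 621) (B (L (nat_lit 620) ln12_19_2_c10 ln12_19_2_c10_ok) (M (nat_lit 656) (B (L (nat_lit 688) ln16_21_7_c10 ln16_21_7_c10_ok) (L (nat_lit 657) ln13_19_0_c10 ln13_19_0_c10_ok))))) (M (nat_lit 593) (B (L (nat_lit 594) ln18_18_1_c10 ln18_18_1_c10_ok) (M (nat_lit 557) (B (L (nat_lit 560) ln13_17_0_c10 ln13_17_0_c10_ok) (L (nat_lit 556)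 ln12_17_0_c10 ln12_17_0_c10_ok))))))))) (M (nat_lit 593) (B (M (nat_lit 594) (B (L (nat_lit 592) ln18_18_1_c10 ln18_18_1_c10_ok) (L (nat_lit 625) ln14_19_2_c10 ln14_19_2_c10_ok))) (B (M (nat_lit 592) (B (L (nat_lit 621) ln13_19_2_c10 ln13_19_2_c10_ok) (M (nat_lit 557) (B (L (nat_lit 560) ln13_17_0_c10 ln13_17_0_c10_ok) (L (nat_lit 556) ln12_17_0_c10 ln12_17_0_c10_ok))))) (M (nat_lit 625) (B (L (nat_lit 594) ln14_19_2_c10 ln14_19_2_c10_ok) (M (nat_lit 654) (B (L (nat_lit 527) ln15_16_5_c10 ln15_16_5_c10_ok) (L (nat_lit 653) ln17_19_1_c10 ln17_19_1_c10_ok)))))))))))))))))) c10_d103))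
noncomputable def c10_d105 : Cert := (B (M (nat_lit 592) (B (M (nat_lit 593) (B (L (nat_lit 557) ln13_17_0_c10 ln13_17_0_c10_ok) (M (nat_lit 594) (B (L (nat_lit 595) ln19_18_3_c10 ln19_18_3_c10_ok) (L (nat_lit 591) ln18_18_3_c10 ln18_18_3_c10_ok))))) (B (M (nat_lit 496) (B (M (nat_lit 495) (B (L (nat_lit 497) ln17_15_3 ln17_15_3_ok) (L (nat_lit 460) ln16_15_3 ln16_15_3_ok))) (B (M (nat_lit 528) (B (M (nat_lit 497) (B (L (nat_lit 465) ln16_18_6_c10 ln16_18_6_c10_ok) (L (nat_lit 495) ln17_15_3 ln17_15_3_ok))) (M (nat_lit 591) (B (L (nat_lit 464) ln16_14_5_c10 ln16_14_5_c10_ok) (L (nat_lit 623) ln16_15_5_c10 ln16_15_5_c10_ok))))) (B (M (nat_lit 528) (B (M (nat_lit 495) (B (L (nat_lit 460) ln16_15_3 ln16_15_3_ok) (L (nat_lit 529) ln13_15_0 ln13_15_0_ok))) (M (nat_lit 591) (B (L (nat_lit 464) ln16_14_5_c10 ln16_14_5_c10_ok) (L (nat_lit 623) ln16_15_5_c10 ln16_15_5_c10_ok))))) (M (nat_lit 528) (B (M (nat_lit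 591) (B (L (nat_lit 464) ln16_14_5_c10 ln16_14_5_c10_ok) (L (nat_lit 623) ln16_15_5_c10 ln16_15_5_c10_ok))) (M (nat_lit 624) (B (M (nat_lit 497) (B (L (nat_lit 465) ln16_18_6_c10 ln16_18_6_c10_ok) (L (nat_lit 529) ln16_19_6_c10 ln16_19_6_c10_ok))) (M (nat_lit 625) (B (L (nat_lit 593) ln16_15_4_c10 ln16_15_4_c10_ok) (L (nat_lit 657) ln16_16_4_c10 ln16_16_4_c10_ok))))))))))) (B (M (nat_lit 496) (B (M (nat_lit 495) (B (L (nat_lit 497) ln17_15_3 ln17_15_3_ok) (L (nat_lit 460) ln16_15_3 ln16_15_3_ok))) (B (M (nat_lit 528) (B (M (nat_lit 497) (B (L (nat_lit 465) ln16_18_6_c10 ln16_18_6_c10_ok) (L (nat_lit 495) ln17_15_3 ln17_15_3_ok))) (M (nat_lit 591) (B (L (nat_lit 464) ln16_14_5_c10 ln16_14_5_c10_ok) (L (nat_lit 623) ln16_15_5_c10 ln16_15_5_c10_ok))))) (B (M (nat_lit 528) (B (M (nat_lit 495) (B (L (nat_lit 460) ln16_15_3 ln16_15_3_ok) (L (nat_lit 529) ln13_15_0 ln13_15_0_ok))) (M (nat_lit 591) (B (L (nat_lit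 464) ln16_14_5_c10 ln16_14_5_c10_ok) (L (nat_lit 623) ln16_15_5_c10 ln16_15_5_c10_ok))))) (M (nat_lit 528) (B (M (nat_lit 591) (B (L (nat_lit 464) ln16_14_5_c10 ln16_14_5_c10_ok) (L (nat_lit 623) ln16_15_5_c10 ln16_15_5_c10_ok))) (M (nat_lit 497) (B (L (nat_lit 465) ln16_18_6_c10 ln16_18_6_c10_ok) (M (nat_lit 529) (B (L (nat_lit 624) ln16_19_6_c10 ln16_19_6_c10_ok) (L (nat_lit 557) ln13_17_2_c10 ln13_17_2_c10_ok))))))))))) (M (nat_lit 496) (B (M (nat_lit 495) (B (L (nat_lit 497) ln17_15_3 ln17_15_3_ok) (L (nat_lit 460) ln16_15_3 ln16_15_3_ok))) (B (M (nat_lit 528) (B (M (nat_lit 497) (B (L (nat_lit 465) ln16_18_6_c10 ln16_18_6_c10_ok) (L (nat_lit 495) ln17_15_3 ln17_15_3_ok))) (M (nat_lit 593) (B (L (nat_lit 625) ln16_15_4_c10 ln16_15_4_c10_ok) (L (nat_lit 557) ln13_17_0_c10 ln13_17_0_c10_ok))))) (B (M (nat_lit 528) (B (M (nat_lit 495) (B (L (nat_lit 460) ln16_15_3 ln16_15_3_ok) (L (nat_lit 529) ln13_15_0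 ln13_15_0_ok))) (B (M (nat_lit 557) (B (L (nat_lit 529) ln13_17_2_c10 ln13_17_2_c10_ok) (L (nat_lit 593) ln13_17_0_c10 ln13_17_0_c10_ok))) (M (nat_lit 593) (B (L (nat_lit 625) ln16_15_4_c10 ln16_15_4_c10_ok) (L (nat_lit 557) ln13_17_0_c10 ln13_17_0_c10_ok)))))) (M (nat_lit 528) (B (M (nat_lit 593) (B (L (nat_lit 625) ln16_15_4_c10 ln16_15_4_c10_ok) (L (nat_lit 557) ln13_17_0_c10 ln13_17_0_c10_ok))) (B (M (nat_lit 624) (B (M (nat_lit 497) (B (L (nat_lit 465) ln16_18_6_c10 ln16_18_6_c10_ok) (L (nat_lit 529) ln16_19_6_c10 ln16_19_6_c10_ok))) (M (nat_lit 625) (B (L (nat_lit 593) ln16_15_4_c10 ln16_15_4_c10_ok) (L (nat_lit 657) ln16_16_4_c10 ln16_16_4_c10_ok))))) (M (nat_lit 497) (B (L (nat_lit 465) ln16_18_6_c10 ln16_18_6_c10_ok) (M (nat_lit 529) (B (L (nat_lit 624) ln16_19_6_c10 ln16_19_6_c10_ok) (L (nat_lit 557) ln13_17_2_c10 ln13_17_2_c10_ok)))))))))))))))) (B (M (nat_lit 561) (B (M (nat_lit 594) (B (L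 (nat_lit 593) ln14_17_0_c10 ln14_17_0_c10_ok) (M (nat_lit 562) (B (L (nat_lit 595) ln15_17_0_c10 ln15_17_0_c10_ok) (M (nat_lit 590) (B (L (nat_lit 591) ln18_17_1_c10 ln18_17_1_c10_ok) (L (nat_lit 589) ln17_17_1_c10 ln17_17_1_c10_ok))))))) (B (M (nat_lit 496) (B (M (nat_lit 495) (B (L (nat_lit 497) ln17_15_3 ln17_15_3_ok) (L (nat_lit 460) ln16_15_3 ln16_15_3_ok))) (B (M (nat_lit 495) (B (L (nat_lit 497) ln17_15_3 ln17_15_3_ok) (M (nat_lit 529) (B (L (nat_lit 528) ln13_15_0 ln13_15_0_ok) (L (nat_lit 530) ln14_17_2_c10 ln14_17_2_c10_ok))))) (B (M (nat_lit 495) (B (L (nat_lit 460) ln16_15_3 ln16_15_3_ok) (M (nat_lit 529) (B (L (nat_lit 528) ln13_15_0 ln13_15_0_ok) (L (nat_lit 530) ln14_17_2_c10 ln14_17_2_c10_ok))))) (M (nat_lit 593) (B (L (nat_lit 594) ln14_17_0_c10 ln14_17_0_c10_ok) (M (nat_lit 528) (B (L (nat_lit 464) ln16_14_4_c10 ln16_14_4_c10_ok) (M (nat_lit 529) (B (L (nat_lit 625) ln17_19_7_c10 ln17_19_7_c10_ok)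 (L (nat_lit 530) ln14_17_2_c10 ln14_17_2_c10_ok))))))))))) (B (M (nat_lit 496) (B (M (nat_lit 495) (B (L (nat_lit 497) ln17_15_3 ln17_15_3_ok) (L (nat_lit 460) ln16_15_3 ln16_15_3_ok))) (B (M (nat_lit 495) (B (L (nat_lit 497) ln17_15_3 ln17_15_3_ok) (M (nat_lit 529) (B (L (nat_lit 528) ln13_15_0 ln13_15_0_ok) (L (nat_lit 530) ln14_17_2_c10 ln14_17_2_c10_ok))))) (B (M (nat_lit 495) (B (L (nat_lit 460) ln16_15_3 ln16_15_3_ok) (M (nat_lit 529) (B (L (nat_lit 528) ln13_15_0 ln13_15_0_ok) (L (nat_lit 530) ln14_17_2_c10 ln14_17_2_c10_ok))))) (M (nat_lit 528) (B (M (nat_lit 464) (B (L (nat_lit 593) ln16_14_4_c10 ln16_14_4_c10_ok) (L (nat_lit 591) ln16_14_5_c10 ln16_14_5_c10_ok))) (B (M (nat_lit 591) (B (M (nat_lit 623) (B (L (nat_lit 592) ln16_15_5_c10 ln16_15_5_c10_ok) (L (nat_lit 655) ln15_20_6_c10 ln15_20_6_c10_ok))) (M (nat_lit 590) (B (L (nat_lit 562) ln18_17_1_c10 ln18_17_1_c10_ok) (L (nat_lit 589) ln17_17_1_c10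 ln17_17_1_c10_ok))))) (M (nat_lit 593) (B (L (nat_lit 464) ln16_14_4_c10 ln16_14_4_c10_ok) (M (nat_lit 529) (B (L (nat_lit 625) ln17_19_7_c10 ln17_19_7_c10_ok) (L (nat_lit 530) ln14_17_2_c10 ln14_17_2_c10_ok)))))))))))) (K (nat_lit 14152359093080780070982549771096436954507603631005544356445637885722625228294831247853160097907792498938295710162247190739865030014020083398214722791652573558347806015488) (nat_lit 149502054193052752452065519503418933684243304979266263643093335856944770767495673894623190875185036764560291281873374873184251569641814117872136940259462539628382068157311989308397162602511816720384) (nat_lit 149502054193052752452065519503418933684243304979266263643093335856944770767495673894623190875185036764560291281873374873184251569641814117872136940259462539628382068157311989308397162602511816720384) c10_s527))))) (B (M (nat_lit 528) (B (M (nat_lit 529) (B (L (nat_lit 557) ln13_17_2_c10 ln13_17_2_c10_ok)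 (M (nat_lit 530) (B (L (nat_lit 531) ln19_16_1_c10 ln19_16_1_c10_ok) (L (nat_lit 561) ln14_17_2_c10 ln14_17_2_c10_ok))))) (B (K (nat_lit 6604434244316391466996158652637582474956179521983151218111568377633868226286283071155806622224162597860025143137813428798433410582922112597055584696796657092311742676992) (nat_lit 149502054193052752445987127541720066956764923714217914020354555560048122039912386232997666562386904270189749528522658873480951760514834160382276341435367033201272097783245856215957326016850532761600) (nat_lit 149502054193052752445987127541720066956764923714217914020354555560048122039912386232997666562386904270189749528522658873480951760514834160382276341435367033201272097783245856215957326016850532761600) c10_s526) (M (nat_lit 496) (B (M (nat_lit 495) (B (L (nat_lit 497) ln17_15_3 ln17_15_3_ok) (L (nat_lit 460) ln16_15_3 ln16_15_3_ok))) (M (nat_lit 591) (B (L (nat_lit 464) ln16_14_5_c10 ln16_14_5_c10_ok)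 (M (nat_lit 623) (B (L (nat_lit 592) ln16_15_5_c10 ln16_15_5_c10_ok) (L (nat_lit 655) ln15_20_6_c10 ln15_20_6_c10_ok)))))))))) (M (nat_lit 561) (B (M (nat_lit 562) (B (M (nat_lit 530) (B (L (nat_lit 531) ln15_17_2_c10 ln15_17_2_c10_ok) (L (nat_lit 529) ln14_17_2_c10 ln14_17_2_c10_ok))) (M (nat_lit 590) (B (L (nat_lit 591) ln18_17_1_c10 ln18_17_1_c10_ok) (L (nat_lit 589) ln17_17_1_c10 ln17_17_1_c10_ok))))) (B (M (nat_lit 594) (B (L (nat_lit 593) ln14_17_0_c10 ln14_17_0_c10_ok) (M (nat_lit 562) (B (L (nat_lit 595) ln15_17_0_c10 ln15_17_0_c10_ok) (M (nat_lit 590) (B (L (nat_lit 591) ln18_17_1_c10 ln18_17_1_c10_ok) (L (nat_lit 589) ln17_17_1_c10 ln17_17_1_c10_ok))))))) (B (M (nat_lit 557) (B (M (nat_lit 529) (B (L (nat_lit 530) ln14_17_2_c10 ln14_17_2_c10_ok) (L (nat_lit 528) ln13_17_2_c10 ln13_17_2_c10_ok))) (M (nat_lit 589) (B (L (nat_lit 590) ln17_17_1_c10 ln17_17_1_c10_ok) (L (nat_lit 588) ln16_17_1_c10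 ln16_17_1_c10_ok))))) (M (nat_lit 562) (B (M (nat_lit 530) (B (L (nat_lit 531) ln15_17_2_c10 ln15_17_2_c10_ok) (L (nat_lit 529) ln14_17_2_c10 ln14_17_2_c10_ok))) (M (nat_lit 594) (B (L (nat_lit 595) ln15_17_0_c10 ln15_17_0_c10_ok) (L (nat_lit 593) ln14_17_0_c10 ln14_17_0_c10_ok))))))))))))
noncomputable def c10_d106 : Cert := (B (M (nat_lit 561) (B (M (nat_lit 557) (B (M (nat_lit 593) (B (L (nat_lit 594) ln14_17_0_c10 ln14_17_0_c10_ok) (L (nat_lit 592) ln13_17_0_c10 ln13_17_0_c10_ok))) (M (nat_lit 589) (B (L (nat_lit 590) ln17_17_1_c10 ln17_17_1_c10_ok) (L (nat_lit 588) ln16_17_1_c10 ln16_17_1_c10_ok))))) (B (M (nat_lit 562) (B (M (nat_lit 530) (B (L (nat_lit 531) ln15_17_2_c10 ln15_17_2_c10_ok) (L (nat_lit 529) ln14_17_2_c10 ln14_17_2_c10_ok))) (M (nat_lit 594) (B (L (nat_lit 595) ln15_17_0_c10 ln15_17_0_c10_ok) (L (nat_lit 593) ln14_17_0_c10 ln14_17_0_c10_ok))))) (M (nat_lit 557) (B (M (nat_lit 529)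 (B (L (nat_lit 530) ln14_17_2_c10 ln14_17_2_c10_ok) (L (nat_lit 528) ln13_17_2_c10 ln13_17_2_c10_ok))) (M (nat_lit 589) (B (L (nat_lit 590) ln17_17_1_c10 ln17_17_1_c10_ok) (L (nat_lit 588) ln16_17_1_c10 ln16_17_1_c10_ok)))))))) (B (M (nat_lit 561) (B (M (nat_lit 593) (B (L (nat_lit 594) ln14_17_0_c10 ln14_17_0_c10_ok) (M (nat_lit 529) (B (L (nat_lit 530) ln14_17_2_c10 ln14_17_2_c10_ok) (M (nat_lit 557) (B (L (nat_lit 528) ln13_17_2_c10 ln13_17_2_c10_ok) (L (nat_lit 592) ln13_17_0_c10 ln13_17_0_c10_ok))))))) (B (M (nat_lit 557) (B (M (nat_lit 593) (B (L (nat_lit 594) ln14_17_0_c10 ln14_17_0_c10_ok) (L (nat_lit 592) ln13_17_0_c10 ln13_17_0_c10_ok))) (M (nat_lit 589) (B (L (nat_lit 590) ln17_17_1_c10 ln17_17_1_c10_ok) (L (nat_lit 588) ln16_17_1_c10 ln16_17_1_c10_ok))))) (B (M (nat_lit 562) (B (M (nat_lit 594) (B (L (nat_lit 595) ln15_17_0_c10 ln15_17_0_c10_ok) (L (nat_lit 593) ln14_17_0_c10 ln14_17_0_c10_ok)))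 (M (nat_lit 590) (B (L (nat_lit 591) ln18_17_1_c10 ln18_17_1_c10_ok) (L (nat_lit 589) ln17_17_1_c10 ln17_17_1_c10_ok))))) (M (nat_lit 557) (B (M (nat_lit 529) (B (L (nat_lit 530) ln14_17_2_c10 ln14_17_2_c10_ok) (L (nat_lit 528) ln13_17_2_c10 ln13_17_2_c10_ok))) (M (nat_lit 589) (B (L (nat_lit 590) ln17_17_1_c10 ln17_17_1_c10_ok) (L (nat_lit 588) ln16_17_1_c10 ln16_17_1_c10_ok))))))))) (B (M (nat_lit 528) (B (K (nat_lit 6604434244316391466996158652637582474956179521983151218111568377633868226286283071155806622224162597860025143137813428798433410582922112597055584696796657092311742676992) (nat_lit 149502054193052752445987127541720066956764923714217914020354555560048122039912386232997666562386904270189749528522658873480951760514834160382276341435367033201272097783245856215957326016850532761600) (nat_lit 149502054193052752445987127541720066956764923714217914020354555560048122039912386232997666562386904270189749528522658873480951760514834160382276341435367033201272097783245856215957326016850532761600)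 c10_s526) (B (M (nat_lit 557) (B (L (nat_lit 529) ln13_17_2_c10 ln13_17_2_c10_ok) (M (nat_lit 561) (B (M (nat_lit 593) (B (L (nat_lit 594) ln14_17_0_c10 ln14_17_0_c10_ok) (L (nat_lit 592) ln13_17_0_c10 ln13_17_0_c10_ok))) (M (nat_lit 589) (B (L (nat_lit 590) ln17_17_1_c10 ln17_17_1_c10_ok) (L (nat_lit 588) ln16_17_1_c10 ln16_17_1_c10_ok))))))) (B (M (nat_lit 496) (B (M (nat_lit 495) (B (L (nat_lit 497) ln17_15_3 ln17_15_3_ok) (L (nat_lit 460) ln16_15_3 ln16_15_3_ok))) (M (nat_lit 591) (B (L (nat_lit 464) ln16_14_5_c10 ln16_14_5_c10_ok) (M (nat_lit 623) (B (L (nat_lit 592) ln16_15_5_c10 ln16_15_5_c10_ok) (L (nat_lit 655) ln15_20_6_c10 ln15_20_6_c10_ok))))))) (M (nat_lit 561) (B (M (nat_lit 557) (B (L (nat_lit 529) ln13_17_2_c10 ln13_17_2_c10_ok) (M (nat_lit 589) (B (L (nat_lit 590) ln17_17_1_c10 ln17_17_1_c10_ok) (L (nat_lit 588) ln16_17_1_c10 ln16_17_1_c10_ok))))) (M (nat_lit 496) (B (M (nat_lit 593)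 (B (L (nat_lit 464) ln16_14_4_c10 ln16_14_4_c10_ok) (L (nat_lit 594) ln14_17_0_c10 ln14_17_0_c10_ok))) (M (nat_lit 495) (B (L (nat_lit 497) ln17_15_3 ln17_15_3_ok) (L (nat_lit 460) ln16_15_3 ln16_15_3_ok))))))))))) (B (M (nat_lit 561) (B (M (nat_lit 557) (B (M (nat_lit 593) (B (L (nat_lit 594) ln14_17_0_c10 ln14_17_0_c10_ok) (L (nat_lit 592) ln13_17_0_c10 ln13_17_0_c10_ok))) (M (nat_lit 589) (B (L (nat_lit 590) ln17_17_1_c10 ln17_17_1_c10_ok) (L (nat_lit 588) ln16_17_1_c10 ln16_17_1_c10_ok))))) (B (M (nat_lit 594) (B (L (nat_lit 593) ln14_17_0_c10 ln14_17_0_c10_ok) (M (nat_lit 562) (B (L (nat_lit 595) ln15_17_0_c10 ln15_17_0_c10_ok) (M (nat_lit 590) (B (L (nat_lit 591) ln18_17_1_c10 ln18_17_1_c10_ok) (L (nat_lit 589) ln17_17_1_c10 ln17_17_1_c10_ok))))))) (B (K (nat_lit 14152359093080780070982549771096436954507603631005544356445637885722625228294831247853160097907792498938295710162247190739865030014020083398214722791652573558347806015488)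 (nat_lit 149502054193052752452065519503418933684243304979266263643093335856944770767495673894623190875185036764560291281873374873184251569641814117872136940259462539628382068157311989308397162602511816720384) (nat_lit 149502054193052752452065519503418933684243304979266263643093335856944770767495673894623190875185036764560291281873374873184251569641814117872136940259462539628382068157311989308397162602511816720384) c10_s527) (M (nat_lit 593) (B (L (nat_lit 594) ln14_17_0_c10 ln14_17_0_c10_ok) (M (nat_lit 496) (B (M (nat_lit 495) (B (L (nat_lit 497) ln17_15_3 ln17_15_3_ok) (L (nat_lit 460) ln16_15_3 ln16_15_3_ok))) (M (nat_lit 528) (B (L (nat_lit 464) ln16_14_4_c10 ln16_14_4_c10_ok) (M (nat_lit 592) (B (L (nat_lit 625) ln16_15_4_c10 ln16_15_4_c10_ok) (L (nat_lit 557) ln13_17_0_c10 ln13_17_0_c10_ok))))))))))))) (B (M (nat_lit 561) (B (M (nat_lit 562) (B (M (nat_lit 530) (B (L (nat_lit 531) ln15_17_2_c10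 ln15_17_2_c10_ok) (L (nat_lit 529) ln14_17_2_c10 ln14_17_2_c10_ok))) (M (nat_lit 590) (B (L (nat_lit 591) ln18_17_1_c10 ln18_17_1_c10_ok) (L (nat_lit 589) ln17_17_1_c10 ln17_17_1_c10_ok))))) (B (M (nat_lit 562) (B (M (nat_lit 594) (B (L (nat_lit 595) ln15_17_0_c10 ln15_17_0_c10_ok) (L (nat_lit 593) ln14_17_0_c10 ln14_17_0_c10_ok))) (M (nat_lit 590) (B (L (nat_lit 591) ln18_17_1_c10 ln18_17_1_c10_ok) (L (nat_lit 589) ln17_17_1_c10 ln17_17_1_c10_ok))))) (B (M (nat_lit 557) (B (M (nat_lit 593) (B (L (nat_lit 594) ln14_17_0_c10 ln14_17_0_c10_ok) (L (nat_lit 592) ln13_17_0_c10 ln13_17_0_c10_ok))) (M (nat_lit 589) (B (L (nat_lit 590) ln17_17_1_c10 ln17_17_1_c10_ok) (L (nat_lit 588) ln16_17_1_c10 ln16_17_1_c10_ok))))) (M (nat_lit 562) (B (M (nat_lit 530) (B (L (nat_lit 531) ln15_17_2_c10 ln15_17_2_c10_ok) (L (nat_lit 529) ln14_17_2_c10 ln14_17_2_c10_ok))) (M (nat_lit 594) (B (L (nat_lit 595) ln15_17_0_c10 ln15_17_0_c10_ok)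 (L (nat_lit 593) ln14_17_0_c10 ln14_17_0_c10_ok))))))))) c10_d105)))))
noncomputable def c10_d107 : Cert := (B (M (nat_lit 561) (B (M (nat_lit 562) (B (M (nat_lit 530) (B (L (nat_lit 531) ln15_17_2_c10 ln15_17_2_c10_ok) (L (nat_lit 529) ln14_17_2_c10 ln14_17_2_c10_ok))) (M (nat_lit 590) (B (L (nat_lit 591) ln18_17_1_c10 ln18_17_1_c10_ok) (L (nat_lit 589) ln17_17_1_c10 ln17_17_1_c10_ok))))) (B (M (nat_lit 557) (B (M (nat_lit 529) (B (L (nat_lit 530) ln14_17_2_c10 ln14_17_2_c10_ok) (L (nat_lit 528) ln13_17_2_c10 ln13_17_2_c10_ok))) (M (nat_lit 589) (B (L (nat_lit 590) ln17_17_1_c10 ln17_17_1_c10_ok) (L (nat_lit 588) ln16_17_1_c10 ln16_17_1_c10_ok))))) (B (M (nat_lit 562) (B (M (nat_lit 590) (B (L (nat_lit 591) ln18_17_1_c10 ln18_17_1_c10_ok) (L (nat_lit 589) ln17_17_1_c10 ln17_17_1_c10_ok))) (M (nat_lit 563) (B (M (nat_lit 595) (B (L (nat_lit 596) ln16_17_0_c10 ln16_17_0_c10_ok) (L (nat_lit 594) ln15_17_0_c10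 ln15_17_0_c10_ok))) (M (nat_lit 528) (B (L (nat_lit 527) ln19_17_3_c10 ln19_17_3_c10_ok) (M (nat_lit 529) (B (L (nat_lit 564) ln20_17_3_c10 ln20_17_3_c10_ok) (L (nat_lit 557) ln13_17_2_c10 ln13_17_2_c10_ok))))))))) (B (M (nat_lit 562) (B (M (nat_lit 590) (B (L (nat_lit 591) ln18_17_1_c10 ln18_17_1_c10_ok) (L (nat_lit 589) ln17_17_1_c10 ln17_17_1_c10_ok))) (M (nat_lit 563) (B (M (nat_lit 531) (B (L (nat_lit 532) ln16_17_2_c10 ln16_17_2_c10_ok) (L (nat_lit 530) ln15_17_2_c10 ln15_17_2_c10_ok))) (M (nat_lit 595) (B (L (nat_lit 596) ln16_17_0_c10 ln16_17_0_c10_ok) (L (nat_lit 594) ln15_17_0_c10 ln15_17_0_c10_ok))))))) (M (nat_lit 562) (B (M (nat_lit 530) (B (L (nat_lit 531) ln15_17_2_c10 ln15_17_2_c10_ok) (L (nat_lit 529) ln14_17_2_c10 ln14_17_2_c10_ok))) (B (M (nat_lit 529) (B (L (nat_lit 530) ln14_17_2_c10 ln14_17_2_c10_ok) (M (nat_lit 528) (B (L (nat_lit 557) ln13_17_2_c10 ln13_17_2_c10_ok) (M (nat_lit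 563) (B (L (nat_lit 564) ln20_17_3_c10 ln20_17_3_c10_ok) (L (nat_lit 527) ln19_17_3_c10 ln19_17_3_c10_ok))))))) (B (M (nat_lit 563) (B (M (nat_lit 595) (B (L (nat_lit 596) ln16_17_0_c10 ln16_17_0_c10_ok) (L (nat_lit 594) ln15_17_0_c10 ln15_17_0_c10_ok))) (M (nat_lit 528) (B (L (nat_lit 527) ln19_17_3_c10 ln19_17_3_c10_ok) (M (nat_lit 529) (B (L (nat_lit 564) ln20_17_3_c10 ln20_17_3_c10_ok) (L (nat_lit 557) ln13_17_2_c10 ln13_17_2_c10_ok))))))) (M (nat_lit 563) (B (M (nat_lit 531) (B (L (nat_lit 532) ln16_17_2_c10 ln16_17_2_c10_ok) (L (nat_lit 530) ln15_17_2_c10 ln15_17_2_c10_ok))) (M (nat_lit 595) (B (L (nat_lit 596) ln16_17_0_c10 ln16_17_0_c10_ok) (L (nat_lit 594) ln15_17_0_c10 ln15_17_0_c10_ok)))))))))))))) (B (K (nat_lit 6604434243437697366448293880871521955954805101159732262939840253261954016174857116054404556983651923935307864908127248484841256314677372023572834655257722204590757117952) (nat_lit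 250227135158273054228631478835759590386141203952987650435344576005936647382021386234903301381623349344304313815019126905913685689471289958428249627504341281609413468250398156390400) (nat_lit 250227135158273054228631478835759590386141203952987650435344576005936647382021386234903301381623349344304313815019126905913685689471289958428249627504341281609413468250398156390400) c10_s512) (B (K (nat_lit 6604434243437697366448293880871521955954805101159732262939840253261954016174857116054404556983651923935307864908127248484841256314677372023572834655257722204590757117952) (nat_lit 125113567575834309992596890734668434934705866696941519149807902628139143178295771975358520445236313787621705485910778624804924480448345717662940620198679385834703125087005857284096) (nat_lit 125113567575834309992596890734668434934705866696941519149807902628139143178295771975358520445236313787621705485910778624804924480448345717662940620198679385834703125087005857284096)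 c10_s520) (M (nat_lit 528) (B (M (nat_lit 529) (B (L (nat_lit 557) ln13_17_2_c10 ln13_17_2_c10_ok) (M (nat_lit 530) (B (L (nat_lit 531) ln19_16_1_c10 ln19_16_1_c10_ok) (L (nat_lit 561) ln14_17_2_c10 ln14_17_2_c10_ok))))) (B (M (nat_lit 529) (B (L (nat_lit 557) ln13_17_2_c10 ln13_17_2_c10_ok) (M (nat_lit 530) (B (L (nat_lit 527) ln18_16_1_c10 ln18_16_1_c10_ok) (L (nat_lit 561) ln14_17_2_c10 ln14_17_2_c10_ok))))) (B (M (nat_lit 592) (B (M (nat_lit 557) (B (L (nat_lit 529) ln13_17_2_c10 ln13_17_2_c10_ok) (L (nat_lit 593) ln13_17_0_c10 ln13_17_0_c10_ok))) (B (M (nat_lit 591) (B (M (nat_lit 623) (B (L (nat_lit 496) ln16_15_5_c10 ln16_15_5_c10_ok) (L (nat_lit 655) ln15_20_6_c10 ln15_20_6_c10_ok))) (M (nat_lit 593) (B (L (nat_lit 557) ln13_17_0_c10 ln13_17_0_c10_ok) (L (nat_lit 594) ln18_18_3_c10 ln18_18_3_c10_ok))))) (M (nat_lit 624) (B (M (nat_lit 527) (B (L (nat_lit 495) ln16_19_7_c10 ln16_19_7_c10_ok) (L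 (nat_lit 656) ln16_20_7_c10 ln16_20_7_c10_ok))) (M (nat_lit 496) (B (M (nat_lit 497) (B (L (nat_lit 465) ln16_18_6_c10 ln16_18_6_c10_ok) (L (nat_lit 529) ln16_19_6_c10 ln16_19_6_c10_ok))) (M (nat_lit 623) (B (L (nat_lit 591) ln16_15_5_c10 ln16_15_5_c10_ok) (L (nat_lit 655) ln16_16_5_c10 ln16_16_5_c10_ok)))))))))) (B (M (nat_lit 496) (B (M (nat_lit 591) (B (L (nat_lit 464) ln16_14_5_c10 ln16_14_5_c10_ok) (M (nat_lit 623) (B (L (nat_lit 527) ln15_19_6_c10 ln15_19_6_c10_ok) (L (nat_lit 592) ln16_15_5_c10 ln16_15_5_c10_ok))))) (B (M (nat_lit 592) (B (M (nat_lit 593) (B (L (nat_lit 625) ln16_15_4_c10 ln16_15_4_c10_ok) (L (nat_lit 557) ln13_17_0_c10 ln13_17_0_c10_ok))) (M (nat_lit 624) (B (M (nat_lit 623) (B (L (nat_lit 591) ln16_15_5_c10 ln16_15_5_c10_ok) (L (nat_lit 655) ln16_16_5_c10 ln16_16_5_c10_ok))) (M (nat_lit 527) (B (L (nat_lit 495) ln16_19_7_c10 ln16_19_7_c10_ok) (L (nat_lit 656) ln16_20_7_c10 ln16_20_7_c10_ok)))))))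 (B (M (nat_lit 591) (B (L (nat_lit 464) ln16_14_5_c10 ln16_14_5_c10_ok) (M (nat_lit 623) (B (L (nat_lit 592) ln16_15_5_c10 ln16_15_5_c10_ok) (L (nat_lit 655) ln15_20_6_c10 ln15_20_6_c10_ok))))) (B (M (nat_lit 591) (B (L (nat_lit 464) ln16_14_5_c10 ln16_14_5_c10_ok) (M (nat_lit 623) (B (L (nat_lit 527) ln15_19_6_c10 ln15_19_6_c10_ok) (L (nat_lit 655) ln15_20_6_c10 ln15_20_6_c10_ok))))) (M (nat_lit 593) (B (M (nat_lit 561) (B (L (nat_lit 464) ln16_14_4_c10 ln16_14_4_c10_ok) (L (nat_lit 594) ln14_17_0_c10 ln14_17_0_c10_ok))) (M (nat_lit 592) (B (L (nat_lit 625) ln16_15_4_c10 ln16_15_4_c10_ok) (L (nat_lit 557) ln13_17_0_c10 ln13_17_0_c10_ok)))))))))) (M (nat_lit 496) (B (M (nat_lit 591) (B (L (nat_lit 464) ln16_14_5_c10 ln16_14_5_c10_ok) (M (nat_lit 623) (B (L (nat_lit 527) ln15_19_6_c10 ln15_19_6_c10_ok) (L (nat_lit 592) ln16_15_5_c10 ln16_15_5_c10_ok))))) (B (M (nat_lit 592) (B (M (nat_lit 593) (B (L (nat_lit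 625) ln16_15_4_c10 ln16_15_4_c10_ok) (M (nat_lit 594) (B (L (nat_lit 561) ln14_17_0_c10 ln14_17_0_c10_ok) (L (nat_lit 595) ln19_18_3_c10 ln19_18_3_c10_ok))))) (M (nat_lit 529) (B (M (nat_lit 497) (B (L (nat_lit 465) ln16_18_6_c10 ln16_18_6_c10_ok) (L (nat_lit 624) ln16_19_6_c10 ln16_19_6_c10_ok))) (M (nat_lit 530) (B (L (nat_lit 531) ln19_16_1_c10 ln19_16_1_c10_ok) (L (nat_lit 527) ln18_16_1_c10 ln18_16_1_c10_ok))))))) (M (nat_lit 464) (B (L (nat_lit 591) ln16_14_5_c10 ln16_14_5_c10_ok) (M (nat_lit 561) (B (L (nat_lit 593) ln16_14_4_c10 ln16_14_4_c10_ok) (M (nat_lit 529) (B (L (nat_lit 432) ln16_13_4_c10 ln16_13_4_c10_ok) (L (nat_lit 530) ln14_17_2_c10 ln14_17_2_c10_ok))))))))))))))))))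
noncomputable def c10_d108 : Cert := (B (M (nat_lit 592) (B (M (nat_lit 593) (B (L (nat_lit 557) ln13_17_0_c10 ln13_17_0_c10_ok) (M (nat_lit 594) (B (L (nat_lit 595) ln19_18_3_c10 ln19_18_3_c10_ok) (L (nat_lit 591) ln18_18_3_c10 ln18_18_3_c10_ok))))) (B (M (nat_lit 624) (B (M (nat_lit 527) (B (L (nat_lit 656) ln16_20_7_c10 ln16_20_7_c10_ok) (M (nat_lit 495) (B (L (nat_lit 528) ln16_19_7_c10 ln16_19_7_c10_ok) (L (nat_lit 591) ln15_15_4_c10 ln15_15_4_c10_ok))))) (B (M (nat_lit 656) (B (L (nat_lit 527) ln16_20_7_c10 ln16_20_7_c10_ok) (M (nat_lit 688) (B (L (nat_lit 591) ln16_21_7_c10 ln16_21_7_c10_ok) (M (nat_lit 689) (B (L (nat_lit 657) ln16_17_4_c10 ln16_17_4_c10_ok) (L (nat_lit 721) ln16_18_4_c10 ln16_18_4_c10_ok))))))) (B (M (nat_lit 656) (B (M (nat_lit 688) (B (L (nat_lit 591) ln16_21_7_c10 ln16_21_7_c10_ok) (M (nat_lit 689) (B (L (nat_lit 657) ln16_17_4_c10 ln16_17_4_c10_ok) (L (nat_lit 721) ln16_18_4_c10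 ln16_18_4_c10_ok))))) (B (M (nat_lit 528) (B (M (nat_lit 657) (B (L (nat_lit 625) ln16_16_4_c10 ln16_16_4_c10_ok) (L (nat_lit 689) ln16_17_4_c10 ln16_17_4_c10_ok))) (M (nat_lit 655) (B (L (nat_lit 623) ln16_16_5_c10 ln16_16_5_c10_ok) (L (nat_lit 687) ln16_17_5_c10 ln16_17_5_c10_ok))))) (M (nat_lit 528) (B (M (nat_lit 655) (B (L (nat_lit 623) ln16_16_5_c10 ln16_16_5_c10_ok) (L (nat_lit 687) ln16_17_5_c10 ln16_17_5_c10_ok))) (M (nat_lit 496) (B (M (nat_lit 497) (B (L (nat_lit 465) ln16_18_6_c10 ln16_18_6_c10_ok) (L (nat_lit 529) ln16_19_6_c10 ln16_19_6_c10_ok))) (M (nat_lit 591) (B (L (nat_lit 464) ln16_14_5_c10 ln16_14_5_c10_ok) (L (nat_lit 688) ln16_21_7_c10 ln16_21_7_c10_ok)))))))))) (B (M (nat_lit 527) (B (L (nat_lit 656) ln16_20_7_c10 ln16_20_7_c10_ok) (M (nat_lit 528) (B (L (nat_lit 495) ln16_19_7_c10 ln16_19_7_c10_ok) (M (nat_lit 529) (B (L (nat_lit 497) ln16_19_6_c10 ln16_19_6_c10_ok) (L (nat_lit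 530) ln18_16_1_c10 ln18_16_1_c10_ok))))))) (K (nat_lit 69617319010688342356987518396871958505336321253731418288249366323971064105125577958151133959956845707196690947843226299594208419596673950657053106268004614238312357638777123629054572888064) (nat_lit 747510270965263762148890411753893441067711970033137017871749260749358603663715767087118037584332770150239962285772398365169208126810342127741145697320306473106092450489700673806876994545914474397696) (nat_lit 747510270965263762148890411753893441067711970033137017871749260749358603663715767087118037584332770150239962285772398365169208126810342127741145697320306473106092450489700673806876994545914474397696) c10_s514)))))) (B (M (nat_lit 528) (B (M (nat_lit 529) (B (L (nat_lit 557) ln13_17_2_c10 ln13_17_2_c10_ok) (M (nat_lit 530) (B (L (nat_lit 531) ln19_16_1_c10 ln19_16_1_c10_ok) (L (nat_lit 527) ln18_16_1_c10 ln18_16_1_c10_ok))))) (B (M (nat_lit 557) (B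 (L (nat_lit 529) ln13_17_2_c10 ln13_17_2_c10_ok) (M (nat_lit 556) (B (L (nat_lit 527) ln12_17_2_c10 ln12_17_2_c10_ok) (L (nat_lit 591) ln12_17_0_c10 ln12_17_0_c10_ok))))) (B (M (nat_lit 591) (B (M (nat_lit 623) (B (L (nat_lit 496) ln16_15_5_c10 ln16_15_5_c10_ok) (L (nat_lit 655) ln15_20_6_c10 ln15_20_6_c10_ok))) (M (nat_lit 624) (B (M (nat_lit 527) (B (L (nat_lit 495) ln15_15_4_c10 ln15_15_4_c10_ok) (L (nat_lit 656) ln16_20_7_c10 ln16_20_7_c10_ok))) (M (nat_lit 589) (B (M (nat_lit 557) (B (L (nat_lit 588) ln16_17_1_c10 ln16_17_1_c10_ok) (L (nat_lit 556) ln12_17_0_c10 ln12_17_0_c10_ok))) (B (M (nat_lit 590) (B (L (nat_lit 588) ln12_18_2_c10 ln12_18_2_c10_ok) (L (nat_lit 625) ln13_18_0_c10 ln13_18_0_c10_ok))) (M (nat_lit 625) (B (L (nat_lit 657) ln16_16_4_c10 ln16_16_4_c10_ok) (L (nat_lit 590) ln13_18_0_c10 ln13_18_0_c10_ok)))))))))) (B (M (nat_lit 591) (B (M (nat_lit 623) (B (L (nat_lit 496) ln16_15_5_c10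 ln16_15_5_c10_ok) (L (nat_lit 655) ln15_20_6_c10 ln15_20_6_c10_ok))) (M (nat_lit 557) (B (L (nat_lit 529) ln13_17_2_c10 ln13_17_2_c10_ok) (L (nat_lit 556) ln12_17_0_c10 ln12_17_0_c10_ok))))) (M (nat_lit 591) (B (M (nat_lit 623) (B (L (nat_lit 496) ln16_15_5_c10 ln16_15_5_c10_ok) (L (nat_lit 655) ln15_20_6_c10 ln15_20_6_c10_ok))) (M (nat_lit 624) (B (M (nat_lit 527) (B (L (nat_lit 495) ln15_15_4_c10 ln15_15_4_c10_ok) (L (nat_lit 656) ln16_20_7_c10 ln16_20_7_c10_ok))) (B (M (nat_lit 656) (B (L (nat_lit 527) ln16_20_7_c10 ln16_20_7_c10_ok) (L (nat_lit 688) ln16_21_7_c10 ln16_21_7_c10_ok))) (B (M (nat_lit 657) (B (L (nat_lit 625) ln16_16_4_c10 ln16_16_4_c10_ok) (M (nat_lit 656) (B (L (nat_lit 689) ln16_17_4_c10 ln16_17_4_c10_ok) (L (nat_lit 688) ln16_21_7_c10 ln16_21_7_c10_ok))))) (M (nat_lit 527) (B (L (nat_lit 495) ln15_15_4_c10 ln15_15_4_c10_ok) (M (nat_lit 529) (B (L (nat_lit 497) ln16_19_6_c10 ln16_19_6_c10_ok)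 (L (nat_lit 530) ln18_16_1_c10 ln18_16_1_c10_ok)))))))))))))))) (M (nat_lit 557) (B (L (nat_lit 593) ln13_17_0_c10 ln13_17_0_c10_ok) (M (nat_lit 528) (B (L (nat_lit 529) ln13_17_2_c10 ln13_17_2_c10_ok) (M (nat_lit 527) (B (L (nat_lit 556) ln12_17_2_c10 ln12_17_2_c10_ok) (M (nat_lit 624) (B (L (nat_lit 495) ln16_19_7_c10 ln16_19_7_c10_ok) (L (nat_lit 656) ln16_20_7_c10 ln16_20_7_c10_ok))))))))))))) (B (M (nat_lit 561) (B (M (nat_lit 562) (B (M (nat_lit 530) (B (L (nat_lit 531) ln15_17_2_c10 ln15_17_2_c10_ok) (L (nat_lit 529) ln14_17_2_c10 ln14_17_2_c10_ok))) (M (nat_lit 594) (B (L (nat_lit 595) ln15_17_0_c10 ln15_17_0_c10_ok) (L (nat_lit 593) ln14_17_0_c10 ln14_17_0_c10_ok))))) (B (M (nat_lit 562) (B (M (nat_lit 594) (B (L (nat_lit 595) ln15_17_0_c10 ln15_17_0_c10_ok) (L (nat_lit 593) ln14_17_0_c10 ln14_17_0_c10_ok))) (M (nat_lit 590) (B (L (nat_lit 591) ln18_17_1_c10 ln18_17_1_c10_ok) (L (nat_lit 589)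 ln17_17_1_c10 ln17_17_1_c10_ok))))) (B (M (nat_lit 529) (B (L (nat_lit 530) ln14_17_2_c10 ln14_17_2_c10_ok) (M (nat_lit 593) (B (L (nat_lit 594) ln14_17_0_c10 ln14_17_0_c10_ok) (M (nat_lit 497) (B (M (nat_lit 592) (B (L (nat_lit 465) ln17_14_5_c10 ln17_14_5_c10_ok) (L (nat_lit 624) ln17_15_5_c10 ln17_15_5_c10_ok))) (B (M (nat_lit 625) (B (M (nat_lit 496) (B (L (nat_lit 464) ln17_18_7_c10 ln17_18_7_c10_ok) (L (nat_lit 528) ln17_19_7_c10 ln17_19_7_c10_ok))) (M (nat_lit 624) (B (L (nat_lit 592) ln17_15_5_c10 ln17_15_5_c10_ok) (L (nat_lit 656) ln17_16_5_c10 ln17_16_5_c10_ok))))) (M (nat_lit 465) (B (M (nat_lit 466) (B (L (nat_lit 434) ln17_17_6_c10 ln17_17_6_c10_ok) (L (nat_lit 498) ln17_18_6_c10 ln17_18_6_c10_ok))) (M (nat_lit 464) (B (L (nat_lit 432) ln17_17_7_c10 ln17_17_7_c10_ok) (L (nat_lit 496) ln17_18_7_c10 ln17_18_7_c10_ok)))))))))))) (M (nat_lit 562) (B (M (nat_lit 530) (B (L (nat_lit 531) ln15_17_2_c10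 ln15_17_2_c10_ok) (L (nat_lit 529) ln14_17_2_c10 ln14_17_2_c10_ok))) (M (nat_lit 590) (B (L (nat_lit 591) ln18_17_1_c10 ln18_17_1_c10_ok) (L (nat_lit 589) ln17_17_1_c10 ln17_17_1_c10_ok))))))))) (B (K (nat_lit 6604434243437697366448293880871521955954805101159732262939840253261954016174857116054404556983651923935307864908127248484841256314677372023572834655257722204590757117952) (nat_lit 64329648109804139701887791168879941511671986341827697372527765962748721136114500299581561720425223050978181756253052220765933009617118540301316477120838120887517844763741557620736) (nat_lit 64329648109804139701887791168879941511671986341827697372527765962748721136114500299581561720425223050978181756253052220765933009617118540301316477120838120887517844763741557620736) c10_s519) c10_d107)))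
noncomputable def c10_d109 : Cert := (B (K (nat_lit 6604434243437697366448293880871521955954805101159732262939840253261954016174857116054404556983651923935307864908127248484841256314677372023572834655257722204590757117952) (nat_lit 258331657753743743593696472640557645161070921582076813351164692480641958915092291876134232991798961645149949240269494295488799796050577183446453264203010273671629033990064911155200) (nat_lit 258331657753743743593696472640557645161070921582076813351164692480641958915092291876134232991798961645149949240269494295488799796050577183446453264203010273671629033990064911155200) c10_s516) (B (K (nat_lit 6604434243437697366448293880871521955954805101159732262939840253261954016174857116054404556983651923935307864908127248484841256314677372023572834655257722204590757117952) (nat_lit 129165828873569654675129387637067462322170725511486100607717960865491798944831224795973986250324119938044523198535962319592481533737989330172042438548013881865810907956839234666496)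 (nat_lit 129165828873569654675129387637067462322170725511486100607717960865491798944831224795973986250324119938044523198535962319592481533737989330172042438548013881865810907956839234666496) c10_s517) (B (M (nat_lit 561) (B (M (nat_lit 557) (B (M (nat_lit 593) (B (L (nat_lit 594) ln14_17_0_c10 ln14_17_0_c10_ok) (L (nat_lit 592) ln13_17_0_c10 ln13_17_0_c10_ok))) (M (nat_lit 589) (B (L (nat_lit 590) ln17_17_1_c10 ln17_17_1_c10_ok) (L (nat_lit 588) ln16_17_1_c10 ln16_17_1_c10_ok))))) (B (M (nat_lit 562) (B (M (nat_lit 594) (B (L (nat_lit 595) ln15_17_0_c10 ln15_17_0_c10_ok) (L (nat_lit 593) ln14_17_0_c10 ln14_17_0_c10_ok))) (M (nat_lit 590) (B (L (nat_lit 591) ln18_17_1_c10 ln18_17_1_c10_ok) (L (nat_lit 589) ln17_17_1_c10 ln17_17_1_c10_ok))))) (B (M (nat_lit 591) (B (M (nat_lit 590) (B (L (nat_lit 562) ln18_17_1_c10 ln18_17_1_c10_ok) (L (nat_lit 589) ln17_17_1_c10 ln17_17_1_c10_ok))) (M (nat_lit 623) (B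 (M (nat_lit 528) (B (L (nat_lit 655) ln15_20_6_c10 ln15_20_6_c10_ok) (M (nat_lit 496) (B (L (nat_lit 464) ln16_14_5_c10 ln16_14_5_c10_ok) (L (nat_lit 592) ln16_15_5_c10 ln16_15_5_c10_ok))))) (B (M (nat_lit 528) (B (L (nat_lit 655) ln15_20_6_c10 ln15_20_6_c10_ok) (M (nat_lit 496) (B (L (nat_lit 527) ln15_19_6_c10 ln15_19_6_c10_ok) (L (nat_lit 592) ln16_15_5_c10 ln16_15_5_c10_ok))))) (B (M (nat_lit 655) (B (L (nat_lit 528) ln15_20_6_c10 ln15_20_6_c10_ok) (M (nat_lit 687) (B (L (nat_lit 592) ln15_21_6_c10 ln15_21_6_c10_ok) (M (nat_lit 688) (B (L (nat_lit 656) ln15_17_4_c10 ln15_17_4_c10_ok) (L (nat_lit 720) ln15_18_4_c10 ln15_18_4_c10_ok))))))) (B (M (nat_lit 655) (B (M (nat_lit 687) (B (L (nat_lit 592) ln15_21_6_c10 ln15_21_6_c10_ok) (M (nat_lit 688) (B (L (nat_lit 656) ln15_17_4_c10 ln15_17_4_c10_ok) (L (nat_lit 720) ln15_18_4_c10 ln15_18_4_c10_ok))))) (B (M (nat_lit 687) (B (M (nat_lit 688) (B (L (nat_lit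 656) ln15_17_4_c10 ln15_17_4_c10_ok) (L (nat_lit 720) ln15_18_4_c10 ln15_18_4_c10_ok))) (M (nat_lit 686) (B (L (nat_lit 654) ln15_17_5_c10 ln15_17_5_c10_ok) (L (nat_lit 718) ln15_18_5_c10 ln15_18_5_c10_ok))))) (B (M (nat_lit 687) (B (L (nat_lit 592) ln15_21_6_c10 ln15_21_6_c10_ok) (M (nat_lit 686) (B (L (nat_lit 654) ln15_17_5_c10 ln15_17_5_c10_ok) (L (nat_lit 718) ln15_18_5_c10 ln15_18_5_c10_ok))))) (M (nat_lit 527) (B (M (nat_lit 656) (B (L (nat_lit 624) ln15_16_4_c10 ln15_16_4_c10_ok) (L (nat_lit 688) ln15_17_4_c10 ln15_17_4_c10_ok))) (M (nat_lit 654) (B (L (nat_lit 622) ln15_16_5_c10 ln15_16_5_c10_ok) (L (nat_lit 686) ln15_17_5_c10 ln15_17_5_c10_ok))))))))) (B (M (nat_lit 528) (B (L (nat_lit 655) ln15_20_6_c10 ln15_20_6_c10_ok) (M (nat_lit 496) (B (L (nat_lit 464) ln16_14_5_c10 ln16_14_5_c10_ok) (L (nat_lit 527) ln15_19_6_c10 ln15_19_6_c10_ok))))) (M (nat_lit 495) (B (M (nat_lit 527) (B (L (nat_lit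 494) ln15_18_7 ln15_18_7_ok) (M (nat_lit 496) (B (L (nat_lit 464) ln15_18_6_c10 ln15_18_6_c10_ok) (L (nat_lit 528) ln15_19_6_c10 ln15_19_6_c10_ok))))) (B (M (nat_lit 527) (B (L (nat_lit 494) ln15_18_7 ln15_18_7_ok) (M (nat_lit 624) (B (L (nat_lit 592) ln15_15_4_c10 ln15_15_4_c10_ok) (L (nat_lit 656) ln15_16_4_c10 ln15_16_4_c10_ok))))) (B (M (nat_lit 527) (B (M (nat_lit 496) (B (L (nat_lit 464) ln15_18_6_c10 ln15_18_6_c10_ok) (L (nat_lit 528) ln15_19_6_c10 ln15_19_6_c10_ok))) (M (nat_lit 624) (B (L (nat_lit 592) ln15_15_4_c10 ln15_15_4_c10_ok) (L (nat_lit 656) ln15_16_4_c10 ln15_16_4_c10_ok))))) (M (nat_lit 496) (B (M (nat_lit 494) (B (L (nat_lit 497) ln17_15_3 ln17_15_3_ok) (L (nat_lit 460) ln16_15_3 ln16_15_3_ok))) (M (nat_lit 528) (B (L (nat_lit 464) ln16_14_5_c10 ln16_14_5_c10_ok) (L (nat_lit 592) ln16_15_5_c10 ln16_15_5_c10_ok))))))))))))))))) (M (nat_lit 562) (B (M (nat_lit 594) (B (L (nat_lit 595)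 ln15_17_0_c10 ln15_17_0_c10_ok) (L (nat_lit 593) ln14_17_0_c10 ln14_17_0_c10_ok))) (B (M (nat_lit 593) (B (L (nat_lit 594) ln14_17_0_c10 ln14_17_0_c10_ok) (M (nat_lit 592) (B (L (nat_lit 557) ln13_17_0_c10 ln13_17_0_c10_ok) (M (nat_lit 563) (B (L (nat_lit 564) ln20_17_1_c10 ln20_17_1_c10_ok) (L (nat_lit 591) ln19_17_1_c10 ln19_17_1_c10_ok))))))) (B (M (nat_lit 563) (B (M (nat_lit 531) (B (L (nat_lit 532) ln16_17_2_c10 ln16_17_2_c10_ok) (L (nat_lit 530) ln15_17_2_c10 ln15_17_2_c10_ok))) (M (nat_lit 592) (B (L (nat_lit 591) ln19_17_1_c10 ln19_17_1_c10_ok) (M (nat_lit 593) (B (L (nat_lit 564) ln20_17_1_c10 ln20_17_1_c10_ok) (L (nat_lit 557) ln13_17_0_c10 ln13_17_0_c10_ok))))))) (M (nat_lit 563) (B (M (nat_lit 531) (B (L (nat_lit 532) ln16_17_2_c10 ln16_17_2_c10_ok) (L (nat_lit 530) ln15_17_2_c10 ln15_17_2_c10_ok))) (M (nat_lit 595) (B (L (nat_lit 596) ln16_17_0_c10 ln16_17_0_c10_ok) (L (nat_lit 594) ln15_17_0_c10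 ln15_17_0_c10_ok))))))))))))) (B (K (nat_lit 6604434243437697366448293880871521955954805101159732262939840253261954016174857116054404556983651923935307864908127248484841256314677372023572834655257722204590757117952) (nat_lit 258331657753743743599847331344034671465694704698053741673838106509570360561909731135564479684123261467851762678302157576748457291057344032247714565450756386527695363338904002363392) (nat_lit 258331657753743743599847331344034671465694704698053741673838106509570360561909731135564479684123261467851762678302157576748457291057344032247714565450756386527695363338904002363392) c10_s518) c10_d108))))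
noncomputable def c10_d110 : Cert := (B (M (nat_lit 529) (B (M (nat_lit 530) (B (L (nat_lit 561) ln14_17_2_c10 ln14_17_2_c10_ok) (M (nat_lit 528) (B (L (nat_lit 527) ln18_16_1_c10 ln18_16_1_c10_ok) (L (nat_lit 557) ln13_17_2_c10 ln13_17_2_c10_ok))))) (B (M (nat_lit 557) (B (L (nat_lit 528) ln13_17_2_c10 ln13_17_2_c10_ok) (M (nat_lit 561) (B (M (nat_lit 593) (B (L (nat_lit 594) ln14_17_0_c10 ln14_17_0_c10_ok) (L (nat_lit 592) ln13_17_0_c10 ln13_17_0_c10_ok))) (M (nat_lit 589) (B (L (nat_lit 590) ln17_17_1_c10 ln17_17_1_c10_ok) (L (nat_lit 588) ln16_17_1_c10 ln16_17_1_c10_ok))))))) (B (M (nat_lit 561) (B (L (nat_lit 530) ln14_17_2_c10 ln14_17_2_c10_ok) (M (nat_lit 557) (B (M (nat_lit 593) (B (L (nat_lit 594) ln14_17_0_c10 ln14_17_0_c10_ok) (L (nat_lit 592) ln13_17_0_c10 ln13_17_0_c10_ok))) (M (nat_lit 589) (B (L (nat_lit 590) ln17_17_1_c10 ln17_17_1_c10_ok) (L (nat_lit 588) ln16_17_1_c10 ln16_17_1_c10_ok)))))))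 (B (M (nat_lit 528) (B (L (nat_lit 557) ln13_17_2_c10 ln13_17_2_c10_ok) (M (nat_lit 530) (B (L (nat_lit 531) ln19_16_1_c10 ln19_16_1_c10_ok) (L (nat_lit 527) ln18_16_1_c10 ln18_16_1_c10_ok))))) (M (nat_lit 530) (B (L (nat_lit 561) ln14_17_2_c10 ln14_17_2_c10_ok) (M (nat_lit 528) (B (L (nat_lit 531) ln19_16_1_c10 ln19_16_1_c10_ok) (L (nat_lit 527) ln18_16_1_c10 ln18_16_1_c10_ok)))))))))) (B (M (nat_lit 494) (B (L (nat_lit 526) ln14_17_7 ln14_17_7_ok) (M (nat_lit 528) (B (M (nat_lit 529) (B (L (nat_lit 557) ln13_17_2_c10 ln13_17_2_c10_ok) (M (nat_lit 530) (B (L (nat_lit 531) ln19_16_1_c10 ln19_16_1_c10_ok) (L (nat_lit 527) ln18_16_1_c10 ln18_16_1_c10_ok))))) (B (M (nat_lit 529) (B (L (nat_lit 557) ln13_17_2_c10 ln13_17_2_c10_ok) (M (nat_lit 495) (B (L (nat_lit 496) ln13_15_0 ln13_15_0_ok) (M (nat_lit 527) (B (L (nat_lit 492) ln12_15_0 ln12_15_0_ok) (L (nat_lit 530) ln18_16_1_c10 ln18_16_1_c10_ok)))))))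 (B (M (nat_lit 592) (B (M (nat_lit 557) (B (L (nat_lit 529) ln13_17_2_c10 ln13_17_2_c10_ok) (L (nat_lit 593) ln13_17_0_c10 ln13_17_0_c10_ok))) (M (nat_lit 495) (B (M (nat_lit 460) (B (L (nat_lit 459) ln11_14_0 ln11_14_0_ok) (L (nat_lit 496) ln16_15_3 ln16_15_3_ok))) (M (nat_lit 527) (B (L (nat_lit 492) ln12_15_0 ln12_15_0_ok) (L (nat_lit 624) ln16_19_7_c10 ln16_19_7_c10_ok))))))) (B (M (nat_lit 495) (B (M (nat_lit 460) (B (L (nat_lit 459) ln11_14_0 ln11_14_0_ok) (L (nat_lit 496) ln16_15_3 ln16_15_3_ok))) (B (M (nat_lit 496) (B (L (nat_lit 497) ln17_15_3 ln17_15_3_ok) (M (nat_lit 464) (B (L (nat_lit 465) ln13_15_2 ln13_15_2_ok) (M (nat_lit 527) (B (L (nat_lit 432) ln16_13_5_c10 ln16_13_5_c10_ok) (L (nat_lit 492) ln12_15_0 ln12_15_0_ok))))))) (M (nat_lit 459) (B (L (nat_lit 460) ln11_14_0 ln11_14_0_ok) (M (nat_lit 492) (B (L (nat_lit 527) ln12_15_0 ln12_15_0_ok) (M (nat_lit 491) (B (L (nat_lit 490) ln10_15_2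 ln10_15_2_ok) (L (nat_lit 458) ln14_15_3 ln14_15_3_ok)))))))))) (M (nat_lit 496) (B (M (nat_lit 495) (B (L (nat_lit 497) ln17_15_3 ln17_15_3_ok) (L (nat_lit 460) ln16_15_3 ln16_15_3_ok))) (B (M (nat_lit 495) (B (L (nat_lit 497) ln17_15_3 ln17_15_3_ok) (L (nat_lit 529) ln13_15_0 ln13_15_0_ok))) (B (M (nat_lit 495) (B (L (nat_lit 460) ln16_15_3 ln16_15_3_ok) (L (nat_lit 529) ln13_15_0 ln13_15_0_ok))) (M (nat_lit 592) (B (M (nat_lit 557) (B (L (nat_lit 529) ln13_17_2_c10 ln13_17_2_c10_ok) (L (nat_lit 593) ln13_17_0_c10 ln13_17_0_c10_ok))) (B (M (nat_lit 593) (B (L (nat_lit 625) ln16_15_4_c10 ln16_15_4_c10_ok) (L (nat_lit 557) ln13_17_0_c10 ln13_17_0_c10_ok))) (B (M (nat_lit 624) (B (M (nat_lit 497) (B (L (nat_lit 465) ln16_18_6_c10 ln16_18_6_c10_ok) (L (nat_lit 529) ln16_19_6_c10 ln16_19_6_c10_ok))) (M (nat_lit 625) (B (L (nat_lit 593) ln16_15_4_c10 ln16_15_4_c10_ok) (L (nat_lit 657) ln16_16_4_c10 ln16_16_4_c10_ok)))))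 (M (nat_lit 497) (B (L (nat_lit 465) ln16_18_6_c10 ln16_18_6_c10_ok) (M (nat_lit 529) (B (L (nat_lit 624) ln16_19_6_c10 ln16_19_6_c10_ok) (L (nat_lit 557) ln13_17_2_c10 ln13_17_2_c10_ok)))))))))))))))))))) (B (M (nat_lit 561) (B (M (nat_lit 526) (B (L (nat_lit 494) ln14_17_7 ln14_17_7_ok) (M (nat_lit 562) (B (L (nat_lit 527) ln18_17_3_c10 ln18_17_3_c10_ok) (M (nat_lit 530) (B (L (nat_lit 531) ln15_17_2_c10 ln15_17_2_c10_ok) (L (nat_lit 529) ln14_17_2_c10 ln14_17_2_c10_ok))))))) (B (M (nat_lit 562) (B (M (nat_lit 530) (B (L (nat_lit 531) ln15_17_2_c10 ln15_17_2_c10_ok) (L (nat_lit 529) ln14_17_2_c10 ln14_17_2_c10_ok))) (M (nat_lit 594) (B (L (nat_lit 595) ln15_17_0_c10 ln15_17_0_c10_ok) (L (nat_lit 593) ln14_17_0_c10 ln14_17_0_c10_ok))))) (B (M (nat_lit 562) (B (M (nat_lit 526) (B (L (nat_lit 494) ln14_17_7 ln14_17_7_ok) (L (nat_lit 527) ln18_17_3_c10 ln18_17_3_c10_ok))) (M (nat_lit 594) (B (L (nat_lit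 595) ln15_17_0_c10 ln15_17_0_c10_ok) (L (nat_lit 593) ln14_17_0_c10 ln14_17_0_c10_ok))))) (M (nat_lit 529) (B (L (nat_lit 530) ln14_17_2_c10 ln14_17_2_c10_ok) (M (nat_lit 496) (B (M (nat_lit 593) (B (L (nat_lit 594) ln14_17_0_c10 ln14_17_0_c10_ok) (M (nat_lit 464) (B (L (nat_lit 497) ln17_18_7_c10 ln17_18_7_c10_ok) (L (nat_lit 528) ln16_14_4_c10 ln16_14_4_c10_ok))))) (B (M (nat_lit 494) (B (L (nat_lit 526) ln14_17_7 ln14_17_7_ok) (M (nat_lit 495) (B (L (nat_lit 497) ln17_15_3 ln17_15_3_ok) (L (nat_lit 460) ln16_15_3 ln16_15_3_ok))))) (M (nat_lit 494) (B (L (nat_lit 526) ln14_17_7 ln14_17_7_ok) (M (nat_lit 495) (B (L (nat_lit 460) ln16_15_3 ln16_15_3_ok) (L (nat_lit 528) ln13_15_0 ln13_15_0_ok)))))))))))))) (M (nat_lit 561) (B (M (nat_lit 526) (B (L (nat_lit 494) ln14_17_7 ln14_17_7_ok) (M (nat_lit 562) (B (L (nat_lit 527) ln18_17_3_c10 ln18_17_3_c10_ok) (M (nat_lit 530) (B (L (nat_lit 531) ln15_17_2_c10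 ln15_17_2_c10_ok) (L (nat_lit 529) ln14_17_2_c10 ln14_17_2_c10_ok))))))) (B (M (nat_lit 557) (B (M (nat_lit 529) (B (L (nat_lit 530) ln14_17_2_c10 ln14_17_2_c10_ok) (L (nat_lit 528) ln13_17_2_c10 ln13_17_2_c10_ok))) (M (nat_lit 589) (B (L (nat_lit 590) ln17_17_1_c10 ln17_17_1_c10_ok) (L (nat_lit 588) ln16_17_1_c10 ln16_17_1_c10_ok))))) (B (M (nat_lit 557) (B (M (nat_lit 589) (B (L (nat_lit 590) ln17_17_1_c10 ln17_17_1_c10_ok) (L (nat_lit 588) ln16_17_1_c10 ln16_17_1_c10_ok))) (M (nat_lit 527) (B (M (nat_lit 528) (B (L (nat_lit 529) ln13_17_2_c10 ln13_17_2_c10_ok) (L (nat_lit 556) ln12_17_2_c10 ln12_17_2_c10_ok))) (M (nat_lit 526) (B (L (nat_lit 494) ln14_17_7 ln14_17_7_ok) (L (nat_lit 562) ln18_17_3_c10 ln18_17_3_c10_ok))))))) (M (nat_lit 562) (B (M (nat_lit 526) (B (L (nat_lit 494) ln14_17_7 ln14_17_7_ok) (L (nat_lit 527) ln18_17_3_c10 ln18_17_3_c10_ok))) (M (nat_lit 563) (B (M (nat_lit 531) (B (L (nat_lit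 532) ln16_17_2_c10 ln16_17_2_c10_ok) (L (nat_lit 530) ln15_17_2_c10 ln15_17_2_c10_ok))) (M (nat_lit 595) (B (L (nat_lit 596) ln16_17_0_c10 ln16_17_0_c10_ok) (L (nat_lit 594) ln15_17_0_c10 ln15_17_0_c10_ok))))))))))))))
noncomputable def c10_d111 : Cert := (B (M (nat_lit 560) (B (M (nat_lit 561) (B (M (nat_lit 562) (B (M (nat_lit 530) (B (L (nat_lit 531) ln15_17_2_c10 ln15_17_2_c10_ok) (L (nat_lit 529) ln14_17_2_c10 ln14_17_2_c10_ok))) (M (nat_lit 594) (B (L (nat_lit 595) ln15_17_0_c10 ln15_17_0_c10_ok) (L (nat_lit 593) ln14_17_0_c10 ln14_17_0_c10_ok))))) (B (M (nat_lit 562) (B (M (nat_lit 594) (B (L (nat_lit 595) ln15_17_0_c10 ln15_17_0_c10_ok) (L (nat_lit 593) ln14_17_0_c10 ln14_17_0_c10_ok))) (M (nat_lit 590) (B (L (nat_lit 591) ln18_17_1_c10 ln18_17_1_c10_ok) (L (nat_lit 589) ln17_17_1_c10 ln17_17_1_c10_ok))))) (B (M (nat_lit 593) (B (L (nat_lit 594) ln14_17_0_c10 ln14_17_0_c10_ok) (M (nat_lit 529)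 (B (L (nat_lit 530) ln14_17_2_c10 ln14_17_2_c10_ok) (M (nat_lit 557) (B (L (nat_lit 528) ln13_17_2_c10 ln13_17_2_c10_ok) (L (nat_lit 592) ln13_17_0_c10 ln13_17_0_c10_ok))))))) (M (nat_lit 562) (B (M (nat_lit 530) (B (L (nat_lit 531) ln15_17_2_c10 ln15_17_2_c10_ok) (L (nat_lit 529) ln14_17_2_c10 ln14_17_2_c10_ok))) (M (nat_lit 590) (B (L (nat_lit 591) ln18_17_1_c10 ln18_17_1_c10_ok) (L (nat_lit 589) ln17_17_1_c10 ln17_17_1_c10_ok))))))))) (B (K (nat_lit 6604434243437697366448293880871521955954805101159732262939840253261954016174857116054404556983651923935307864908127248484841256314677372023572834655257722204590757117952) (nat_lit 258331657753743743593696472640557645161070921582076813351164692480641958915092291876134232991798961645149949240269494295488799796050577183446453264203010273671629033990064911155200) (nat_lit 258331657753743743593696472640557645161070921582076813351164692480641958915092291876134232991798961645149949240269494295488799796050577183446453264203010273671629033990064911155200)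 c10_s516) (B (K (nat_lit 6604434243437697366448293880871521955954805101159732262939840253261954016174857116054404556983651923935307864908127248484841256314677372023572834655257722204590757117952) (nat_lit 129165828873569654675129387637067462322170725511486100607717960865491798944831224795973986250324119938044523198535962319592481533737989330172042438548013881865810907956839234666496) (nat_lit 129165828873569654675129387637067462322170725511486100607717960865491798944831224795973986250324119938044523198535962319592481533737989330172042438548013881865810907956839234666496) c10_s517) (B (M (nat_lit 561) (B (M (nat_lit 562) (B (M (nat_lit 594) (B (L (nat_lit 595) ln15_17_0_c10 ln15_17_0_c10_ok) (L (nat_lit 593) ln14_17_0_c10 ln14_17_0_c10_ok))) (M (nat_lit 590) (B (L (nat_lit 591) ln18_17_1_c10 ln18_17_1_c10_ok) (L (nat_lit 589) ln17_17_1_c10 ln17_17_1_c10_ok))))) (B (M (nat_lit 557) (B (M (nat_lit 593)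 (B (L (nat_lit 594) ln14_17_0_c10 ln14_17_0_c10_ok) (L (nat_lit 592) ln13_17_0_c10 ln13_17_0_c10_ok))) (M (nat_lit 589) (B (L (nat_lit 590) ln17_17_1_c10 ln17_17_1_c10_ok) (L (nat_lit 588) ln16_17_1_c10 ln16_17_1_c10_ok))))) (B (M (nat_lit 562) (B (M (nat_lit 590) (B (L (nat_lit 591) ln18_17_1_c10 ln18_17_1_c10_ok) (L (nat_lit 589) ln17_17_1_c10 ln17_17_1_c10_ok))) (M (nat_lit 563) (B (M (nat_lit 531) (B (L (nat_lit 532) ln16_17_2_c10 ln16_17_2_c10_ok) (L (nat_lit 530) ln15_17_2_c10 ln15_17_2_c10_ok))) (M (nat_lit 527) (B (L (nat_lit 528) ln19_17_3_c10 ln19_17_3_c10_ok) (L (nat_lit 526) ln18_17_3_c10 ln18_17_3_c10_ok))))))) (M (nat_lit 562) (B (M (nat_lit 594) (B (L (nat_lit 595) ln15_17_0_c10 ln15_17_0_c10_ok) (L (nat_lit 593) ln14_17_0_c10 ln14_17_0_c10_ok))) (M (nat_lit 563) (B (M (nat_lit 531) (B (L (nat_lit 532) ln16_17_2_c10 ln16_17_2_c10_ok) (L (nat_lit 530) ln15_17_2_c10 ln15_17_2_c10_ok))) (M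 (nat_lit 527) (B (L (nat_lit 528) ln19_17_3_c10 ln19_17_3_c10_ok) (L (nat_lit 526) ln18_17_3_c10 ln18_17_3_c10_ok))))))))))) (B (K (nat_lit 6604434243437697366448293880871521955954805101159732262939840253261954016174857116054404556983651923935307864908127248484841256314677372023572834655257722204590757117952) (nat_lit 258331657753743743599847331344034671465694704698053741673838106509570360561909731135564479684123261467851762678302157576748457291057344032247714565450756386527695363338904002363392) (nat_lit 258331657753743743599847331344034671465694704698053741673838106509570360561909731135564479684123261467851762678302157576748457291057344032247714565450756386527695363338904002363392) c10_s518) c10_d99)))))) (B (M (nat_lit 494) (B (L (nat_lit 526) ln14_17_7 ln14_17_7_ok) (M (nat_lit 495) (B (M (nat_lit 460) (B (L (nat_lit 459) ln11_14_0 ln11_14_0_ok) (L (nat_lit 496) ln16_15_3 ln16_15_3_ok))) (B (M (nat_lit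 496) (B (L (nat_lit 497) ln17_15_3 ln17_15_3_ok) (M (nat_lit 527) (B (L (nat_lit 591) ln15_18_7 ln15_18_7_ok) (M (nat_lit 464) (B (L (nat_lit 465) ln13_15_2 ln13_15_2_ok) (M (nat_lit 528) (B (L (nat_lit 432) ln16_13_5_c10 ln16_13_5_c10_ok) (L (nat_lit 492) ln12_15_0 ln12_15_0_ok))))))))) (M (nat_lit 459) (B (L (nat_lit 460) ln11_14_0 ln11_14_0_ok) (M (nat_lit 492) (B (M (nat_lit 491) (B (L (nat_lit 490) ln10_15_2 ln10_15_2_ok) (L (nat_lit 458) ln14_15_3 ln14_15_3_ok))) (M (nat_lit 527) (B (L (nat_lit 591) ln15_18_7 ln15_18_7_ok) (L (nat_lit 528) ln12_15_0 ln12_15_0_ok)))))))))))) (B (M (nat_lit 591) (B (M (nat_lit 494) (B (L (nat_lit 526) ln14_14_4 ln14_14_4_ok) (M (nat_lit 495) (B (L (nat_lit 527) ln15_18_7 ln15_18_7_ok) (M (nat_lit 460) (B (L (nat_lit 459) ln11_14_0 ln11_14_0_ok) (L (nat_lit 496) ln16_15_3 ln16_15_3_ok))))))) c10_d104)) (B (M (nat_lit 494) (B (L (nat_lit 526) ln14_17_7 ln14_17_7_ok)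 (M (nat_lit 560) c10_d106))) (B (M (nat_lit 560) (B (M (nat_lit 561) (B (M (nat_lit 593) (B (L (nat_lit 594) ln14_17_0_c10 ln14_17_0_c10_ok) (M (nat_lit 529) (B (L (nat_lit 530) ln14_17_2_c10 ln14_17_2_c10_ok) (M (nat_lit 557) (B (L (nat_lit 528) ln13_17_2_c10 ln13_17_2_c10_ok) (L (nat_lit 592) ln13_17_0_c10 ln13_17_0_c10_ok))))))) (B (M (nat_lit 557) (B (M (nat_lit 593) (B (L (nat_lit 594) ln14_17_0_c10 ln14_17_0_c10_ok) (L (nat_lit 592) ln13_17_0_c10 ln13_17_0_c10_ok))) (M (nat_lit 589) (B (L (nat_lit 590) ln17_17_1_c10 ln17_17_1_c10_ok) (L (nat_lit 588) ln16_17_1_c10 ln16_17_1_c10_ok))))) (M (nat_lit 562) (B (M (nat_lit 530) (B (L (nat_lit 531) ln15_17_2_c10 ln15_17_2_c10_ok) (L (nat_lit 529) ln14_17_2_c10 ln14_17_2_c10_ok))) (M (nat_lit 590) (B (L (nat_lit 591) ln18_17_1_c10 ln18_17_1_c10_ok) (L (nat_lit 589) ln17_17_1_c10 ln17_17_1_c10_ok)))))))) c10_d109)) (M (nat_lit 560) (B (K (nat_lit 6604434243437697366448293880871521955954805101159732262939840253261954016174857116054404556983651923935307864908127248484841256314677372023572834655257722204590757117952)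 (nat_lit 250227135158273054228631478835759590386141203952987650435344576005936647382021386234903301381623349344304313815019126905913685689471289958428249627504341281609413468250398156390400) (nat_lit 250227135158273054228631478835759590386141203952987650435344576005936647382021386234903301381623349344304313815019126905913685689471289958428249627504341281609413468250398156390400) c10_s512) (B (M (nat_lit 561) (B (M (nat_lit 562) (B (M (nat_lit 526) (B (L (nat_lit 494) ln14_17_7 ln14_17_7_ok) (L (nat_lit 527) ln18_17_3_c10 ln18_17_3_c10_ok))) (M (nat_lit 594) (B (L (nat_lit 595) ln15_17_0_c10 ln15_17_0_c10_ok) (L (nat_lit 593) ln14_17_0_c10 ln14_17_0_c10_ok))))) (M (nat_lit 557) (B (M (nat_lit 529) (B (L (nat_lit 530) ln14_17_2_c10 ln14_17_2_c10_ok) (L (nat_lit 528) ln13_17_2_c10 ln13_17_2_c10_ok))) (M (nat_lit 589) (B (L (nat_lit 590) ln17_17_1_c10 ln17_17_1_c10_ok) (L (nat_lit 588) ln16_17_1_c10 ln16_17_1_c10_ok)))))))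 (B (M (nat_lit 561) (B (M (nat_lit 562) (B (M (nat_lit 526) (B (L (nat_lit 494) ln14_17_7 ln14_17_7_ok) (L (nat_lit 527) ln18_17_3_c10 ln18_17_3_c10_ok))) (M (nat_lit 594) (B (L (nat_lit 595) ln15_17_0_c10 ln15_17_0_c10_ok) (L (nat_lit 593) ln14_17_0_c10 ln14_17_0_c10_ok))))) (B (M (nat_lit 557) (B (M (nat_lit 593) (B (L (nat_lit 594) ln14_17_0_c10 ln14_17_0_c10_ok) (L (nat_lit 592) ln13_17_0_c10 ln13_17_0_c10_ok))) (M (nat_lit 589) (B (L (nat_lit 590) ln17_17_1_c10 ln17_17_1_c10_ok) (L (nat_lit 588) ln16_17_1_c10 ln16_17_1_c10_ok))))) (M (nat_lit 557) (B (M (nat_lit 589) (B (L (nat_lit 590) ln17_17_1_c10 ln17_17_1_c10_ok) (L (nat_lit 588) ln16_17_1_c10 ln16_17_1_c10_ok))) (M (nat_lit 527) (B (M (nat_lit 528) (B (L (nat_lit 529) ln13_17_2_c10 ln13_17_2_c10_ok) (L (nat_lit 556) ln12_17_2_c10 ln12_17_2_c10_ok))) (M (nat_lit 526) (B (L (nat_lit 494) ln14_17_7 ln14_17_7_ok) (L (nat_lit 562) ln18_17_3_c10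 ln18_17_3_c10_ok)))))))))) (B (M (nat_lit 561) (B (M (nat_lit 562) (B (M (nat_lit 526) (B (L (nat_lit 494) ln14_17_7 ln14_17_7_ok) (L (nat_lit 527) ln18_17_3_c10 ln18_17_3_c10_ok))) (M (nat_lit 594) (B (L (nat_lit 595) ln15_17_0_c10 ln15_17_0_c10_ok) (L (nat_lit 593) ln14_17_0_c10 ln14_17_0_c10_ok))))) (B (M (nat_lit 557) (B (M (nat_lit 593) (B (L (nat_lit 594) ln14_17_0_c10 ln14_17_0_c10_ok) (L (nat_lit 592) ln13_17_0_c10 ln13_17_0_c10_ok))) (M (nat_lit 589) (B (L (nat_lit 590) ln17_17_1_c10 ln17_17_1_c10_ok) (L (nat_lit 588) ln16_17_1_c10 ln16_17_1_c10_ok))))) (M (nat_lit 557) (B (M (nat_lit 589) (B (L (nat_lit 590) ln17_17_1_c10 ln17_17_1_c10_ok) (L (nat_lit 588) ln16_17_1_c10 ln16_17_1_c10_ok))) (M (nat_lit 526) (B (L (nat_lit 494) ln14_17_7 ln14_17_7_ok) (M (nat_lit 527) (B (L (nat_lit 562) ln18_17_3_c10 ln18_17_3_c10_ok) (M (nat_lit 556) (B (L (nat_lit 528) ln12_17_2_c10 ln12_17_2_c10_ok) (L (nat_lit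 555) ln11_17_2 ln11_17_2_ok)))))))))))) (B (M (nat_lit 561) (B (M (nat_lit 526) (B (L (nat_lit 494) ln14_17_7 ln14_17_7_ok) (M (nat_lit 562) (B (L (nat_lit 527) ln18_17_3_c10 ln18_17_3_c10_ok) (M (nat_lit 530) (B (L (nat_lit 531) ln15_17_2_c10 ln15_17_2_c10_ok) (L (nat_lit 529) ln14_17_2_c10 ln14_17_2_c10_ok))))))) (M (nat_lit 557) (B (M (nat_lit 593) (B (L (nat_lit 594) ln14_17_0_c10 ln14_17_0_c10_ok) (L (nat_lit 592) ln13_17_0_c10 ln13_17_0_c10_ok))) (M (nat_lit 589) (B (L (nat_lit 590) ln17_17_1_c10 ln17_17_1_c10_ok) (L (nat_lit 588) ln16_17_1_c10 ln16_17_1_c10_ok))))))) c10_d110)))))))))))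
noncomputable def c10_d112 : Cert := (B (M (nat_lit 557) (B (M (nat_lit 556) (B (M (nat_lit 526) (B (L (nat_lit 494) ln14_17_7 ln14_17_7_ok) (M (nat_lit 527) (B (L (nat_lit 528) ln12_17_2_c10 ln12_17_2_c10_ok) (L (nat_lit 555) ln11_17_2 ln11_17_2_ok))))) (B (M (nat_lit 560) (B (M (nat_lit 528) (B (L (nat_lit 529) ln13_17_2_c10 ln13_17_2_c10_ok) (L (nat_lit 527) ln12_17_2_c10 ln12_17_2_c10_ok))) (M (nat_lit 592) (B (L (nat_lit 593) ln13_17_0_c10 ln13_17_0_c10_ok) (L (nat_lit 591) ln12_17_0_c10 ln12_17_0_c10_ok))))) (M (nat_lit 560) (B (M (nat_lit 592) (B (L (nat_lit 593) ln13_17_0_c10 ln13_17_0_c10_ok) (L (nat_lit 591) ln12_17_0_c10 ln12_17_0_c10_ok))) (M (nat_lit 588) (B (L (nat_lit 589) ln16_17_1_c10 ln16_17_1_c10_ok) (L (nat_lit 587) ln15_17_1_c10 ln15_17_1_c10_ok)))))))) (B (M (nat_lit 556) (B (M (nat_lit 555) (B (M (nat_lit 527) (B (L (nat_lit 528) ln12_17_2_c10 ln12_17_2_c10_ok) (L (nat_lit 526)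 ln11_17_2 ln11_17_2_ok))) (M (nat_lit 591) (B (L (nat_lit 592) ln12_17_0_c10 ln12_17_0_c10_ok) (L (nat_lit 590) ln11_17_0 ln11_17_0_ok))))) (B (M (nat_lit 555) (B (M (nat_lit 591) (B (L (nat_lit 592) ln12_17_0_c10 ln12_17_0_c10_ok) (L (nat_lit 590) ln11_17_0 ln11_17_0_ok))) (M (nat_lit 587) (B (L (nat_lit 588) ln15_17_1_c10 ln15_17_1_c10_ok) (L (nat_lit 586) ln14_17_1 ln14_17_1_ok))))) (B (M (nat_lit 560) (B (M (nat_lit 592) (B (L (nat_lit 593) ln13_17_0_c10 ln13_17_0_c10_ok) (L (nat_lit 591) ln12_17_0_c10 ln12_17_0_c10_ok))) (M (nat_lit 588) (B (L (nat_lit 589) ln16_17_1_c10 ln16_17_1_c10_ok) (L (nat_lit 587) ln15_17_1_c10 ln15_17_1_c10_ok))))) (M (nat_lit 555) (B (M (nat_lit 527) (B (L (nat_lit 528) ln12_17_2_c10 ln12_17_2_c10_ok) (L (nat_lit 526) ln11_17_2 ln11_17_2_ok))) (M (nat_lit 587) (B (L (nat_lit 588) ln15_17_1_c10 ln15_17_1_c10_ok) (L (nat_lit 586) ln14_17_1 ln14_17_1_ok))))))))) (B (M (nat_lit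 526) (B (L (nat_lit 494) ln14_17_7 ln14_17_7_ok) (M (nat_lit 556) (B (M (nat_lit 555) (B (L (nat_lit 527) ln11_17_2 ln11_17_2_ok) (M (nat_lit 591) (B (L (nat_lit 592) ln12_17_0_c10 ln12_17_0_c10_ok) (L (nat_lit 590) ln11_17_0 ln11_17_0_ok))))) (B (M (nat_lit 555) (B (M (nat_lit 591) (B (L (nat_lit 592) ln12_17_0_c10 ln12_17_0_c10_ok) (L (nat_lit 590) ln11_17_0 ln11_17_0_ok))) (M (nat_lit 587) (B (L (nat_lit 588) ln15_17_1_c10 ln15_17_1_c10_ok) (L (nat_lit 586) ln14_17_1 ln14_17_1_ok))))) (B (M (nat_lit 560) (B (M (nat_lit 592) (B (L (nat_lit 593) ln13_17_0_c10 ln13_17_0_c10_ok) (L (nat_lit 591) ln12_17_0_c10 ln12_17_0_c10_ok))) (M (nat_lit 588) (B (L (nat_lit 589) ln16_17_1_c10 ln16_17_1_c10_ok) (L (nat_lit 587) ln15_17_1_c10 ln15_17_1_c10_ok))))) (M (nat_lit 555) (B (L (nat_lit 527) ln11_17_2 ln11_17_2_ok) (M (nat_lit 587) (B (L (nat_lit 588) ln15_17_1_c10 ln15_17_1_c10_ok) (L (nat_lit 586) ln14_17_1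 ln14_17_1_ok))))))))))) (B (M (nat_lit 560) (B (M (nat_lit 561) (B (M (nat_lit 593) (B (L (nat_lit 594) ln14_17_0_c10 ln14_17_0_c10_ok) (L (nat_lit 592) ln13_17_0_c10 ln13_17_0_c10_ok))) (M (nat_lit 589) (B (L (nat_lit 590) ln17_17_1_c10 ln17_17_1_c10_ok) (L (nat_lit 588) ln16_17_1_c10 ln16_17_1_c10_ok))))) (B (M (nat_lit 556) (B (M (nat_lit 592) (B (L (nat_lit 593) ln13_17_0_c10 ln13_17_0_c10_ok) (L (nat_lit 591) ln12_17_0_c10 ln12_17_0_c10_ok))) (M (nat_lit 588) (B (L (nat_lit 589) ln16_17_1_c10 ln16_17_1_c10_ok) (L (nat_lit 587) ln15_17_1_c10 ln15_17_1_c10_ok))))) (B (M (nat_lit 561) (B (M (nat_lit 529) (B (L (nat_lit 530) ln14_17_2_c10 ln14_17_2_c10_ok) (L (nat_lit 528) ln13_17_2_c10 ln13_17_2_c10_ok))) (M (nat_lit 589) (B (L (nat_lit 590) ln17_17_1_c10 ln17_17_1_c10_ok) (L (nat_lit 588) ln16_17_1_c10 ln16_17_1_c10_ok))))) (M (nat_lit 593) (B (L (nat_lit 592) ln13_17_0_c10 ln13_17_0_c10_ok) (M (nat_lit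 561) (B (L (nat_lit 594) ln14_17_0_c10 ln14_17_0_c10_ok) (M (nat_lit 529) (B (L (nat_lit 530) ln14_17_2_c10 ln14_17_2_c10_ok) (L (nat_lit 528) ln13_17_2_c10 ln13_17_2_c10_ok))))))))))) (B (M (nat_lit 556) (B (M (nat_lit 526) (B (L (nat_lit 494) ln14_17_7 ln14_17_7_ok) (M (nat_lit 527) (B (L (nat_lit 528) ln12_17_2_c10 ln12_17_2_c10_ok) (L (nat_lit 555) ln11_17_2 ln11_17_2_ok))))) (B (M (nat_lit 555) (B (M (nat_lit 527) (B (L (nat_lit 528) ln12_17_2_c10 ln12_17_2_c10_ok) (L (nat_lit 526) ln11_17_2 ln11_17_2_ok))) (M (nat_lit 587) (B (L (nat_lit 588) ln15_17_1_c10 ln15_17_1_c10_ok) (L (nat_lit 586) ln14_17_1 ln14_17_1_ok))))) (B (M (nat_lit 555) (B (M (nat_lit 526) (B (L (nat_lit 494) ln14_17_7 ln14_17_7_ok) (L (nat_lit 527) ln11_17_2 ln11_17_2_ok))) (M (nat_lit 587) (B (L (nat_lit 588) ln15_17_1_c10 ln15_17_1_c10_ok) (L (nat_lit 586) ln14_17_1 ln14_17_1_ok))))) (B (M (nat_lit 555) (B (M (nat_lit 591)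 (B (L (nat_lit 592) ln12_17_0_c10 ln12_17_0_c10_ok) (L (nat_lit 590) ln11_17_0 ln11_17_0_ok))) (M (nat_lit 587) (B (L (nat_lit 588) ln15_17_1_c10 ln15_17_1_c10_ok) (L (nat_lit 586) ln14_17_1 ln14_17_1_ok))))) (M (nat_lit 494) (B (L (nat_lit 526) ln14_17_7 ln14_17_7_ok) (M (nat_lit 591) (B (L (nat_lit 592) ln12_17_0_c10 ln12_17_0_c10_ok) (M (nat_lit 527) (B (L (nat_lit 495) ln15_18_7 ln15_18_7_ok) (L (nat_lit 528) ln12_17_2_c10 ln12_17_2_c10_ok)))))))))))) c10_d97)))))) (B (M (nat_lit 560) (B (M (nat_lit 561) (B (M (nat_lit 593) (B (L (nat_lit 594) ln14_17_0_c10 ln14_17_0_c10_ok) (M (nat_lit 529) (B (L (nat_lit 530) ln14_17_2_c10 ln14_17_2_c10_ok) (M (nat_lit 557) (B (L (nat_lit 528) ln13_17_2_c10 ln13_17_2_c10_ok) (L (nat_lit 592) ln13_17_0_c10 ln13_17_0_c10_ok))))))) (M (nat_lit 562) (B (M (nat_lit 526) (B (L (nat_lit 494) ln14_17_7 ln14_17_7_ok) (L (nat_lit 527) ln18_17_3_c10 ln18_17_3_c10_ok))) (M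 (nat_lit 590) (B (L (nat_lit 591) ln18_17_1_c10 ln18_17_1_c10_ok) (L (nat_lit 589) ln17_17_1_c10 ln17_17_1_c10_ok))))))) (B (K (nat_lit 6604434243437697366448293880871521955954805101159732262939840253261954016174857116054404556983651923935307864908127248484841256314677372023572834655257722204590757117952) (nat_lit 250227135158273054228631478835759590386141203952987650435344576005936647382021386234903301381623349344304313815019126905913685689471289958428249627504341281609413468250398156390400) (nat_lit 250227135158273054228631478835759590386141203952987650435344576005936647382021386234903301381623349344304313815019126905913685689471289958428249627504341281609413468250398156390400) c10_s512) (B (M (nat_lit 561) (B (M (nat_lit 562) (B (M (nat_lit 526) (B (L (nat_lit 494) ln14_17_7 ln14_17_7_ok) (L (nat_lit 527) ln18_17_3_c10 ln18_17_3_c10_ok))) (M (nat_lit 594) (B (L (nat_lit 595) ln15_17_0_c10 ln15_17_0_c10_ok)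 (L (nat_lit 593) ln14_17_0_c10 ln14_17_0_c10_ok))))) (B (M (nat_lit 562) (B (M (nat_lit 594) (B (L (nat_lit 595) ln15_17_0_c10 ln15_17_0_c10_ok) (L (nat_lit 593) ln14_17_0_c10 ln14_17_0_c10_ok))) (M (nat_lit 590) (B (L (nat_lit 591) ln18_17_1_c10 ln18_17_1_c10_ok) (L (nat_lit 589) ln17_17_1_c10 ln17_17_1_c10_ok))))) (B (M (nat_lit 557) (B (M (nat_lit 593) (B (L (nat_lit 594) ln14_17_0_c10 ln14_17_0_c10_ok) (L (nat_lit 592) ln13_17_0_c10 ln13_17_0_c10_ok))) (M (nat_lit 589) (B (L (nat_lit 590) ln17_17_1_c10 ln17_17_1_c10_ok) (L (nat_lit 588) ln16_17_1_c10 ln16_17_1_c10_ok))))) (M (nat_lit 562) (B (M (nat_lit 526) (B (L (nat_lit 494) ln14_17_7 ln14_17_7_ok) (L (nat_lit 527) ln18_17_3_c10 ln18_17_3_c10_ok))) (M (nat_lit 590) (B (L (nat_lit 591) ln18_17_1_c10 ln18_17_1_c10_ok) (L (nat_lit 589) ln17_17_1_c10 ln17_17_1_c10_ok))))))))) (B (M (nat_lit 557) (B (M (nat_lit 561) (B (M (nat_lit 593) (B (L (nat_lit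 594) ln14_17_0_c10 ln14_17_0_c10_ok) (L (nat_lit 592) ln13_17_0_c10 ln13_17_0_c10_ok))) (M (nat_lit 589) (B (L (nat_lit 590) ln17_17_1_c10 ln17_17_1_c10_ok) (L (nat_lit 588) ln16_17_1_c10 ln16_17_1_c10_ok))))) (B (M (nat_lit 592) (B (L (nat_lit 593) ln13_17_0_c10 ln13_17_0_c10_ok) (M (nat_lit 556) (B (L (nat_lit 591) ln12_17_0_c10 ln12_17_0_c10_ok) (M (nat_lit 528) (B (L (nat_lit 529) ln13_17_2_c10 ln13_17_2_c10_ok) (L (nat_lit 527) ln12_17_2_c10 ln12_17_2_c10_ok))))))) (M (nat_lit 561) (B (M (nat_lit 529) (B (L (nat_lit 530) ln14_17_2_c10 ln14_17_2_c10_ok) (L (nat_lit 528) ln13_17_2_c10 ln13_17_2_c10_ok))) (M (nat_lit 589) (B (L (nat_lit 590) ln17_17_1_c10 ln17_17_1_c10_ok) (L (nat_lit 588) ln16_17_1_c10 ln16_17_1_c10_ok)))))))) c10_d98))))) c10_d111))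
theorem c10_s528 : Sem (nat_lit 943490606205385338085962009389118619579423270535071620375530802893517772586633837925214469217163772623105302361981481135185379369790183074730683278108678139116664127488) (nat_lit 20683696007019331629715133982810853095772490748088736561480268972533577081682744472750020084850008780265038603948486614594231355820580173003898733033840740199519621950246706522620104939870341125238376761526980496588800) (nat_lit 20683696007019331629715133982810853095772490748088736561480268972533577081682744472750020084850008780265038603948486614594231355820580173003898733033840740199519621950246706522620104939870341125238376761526980496588800) :=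
  sem_of_chk (M (nat_lit 559) (B (M (nat_lit 494) (B (L (nat_lit 526) ln14_17_7 ln14_17_7_ok) (M (nat_lit 495) (B (M (nat_lit 460) (B (L (nat_lit 459) ln11_14_0 ln11_14_0_ok) (L (nat_lit 496) ln16_15_3 ln16_15_3_ok))) (B (M (nat_lit 528) (B (M (nat_lit 496) (B (L (nat_lit 497) ln17_15_3 ln17_15_3_ok) (L (nat_lit 529) ln13_15_0 ln13_15_0_ok))) (M (nat_lit 527) (B (L (nat_lit 591) ln15_18_7 ln15_18_7_ok) (L (nat_lit 492) ln12_15_0 ln12_15_0_ok))))) (M (nat_lit 459) (B (L (nat_lit 460) ln11_14_0 ln11_14_0_ok) (M (nat_lit 492) (B (M (nat_lit 491) (B (L (nat_lit 490) ln10_15_2 ln10_15_2_ok) (L (nat_lit 458) ln14_15_3 ln14_15_3_ok))) (M (nat_lit 527) (B (L (nat_lit 591) ln15_18_7 ln15_18_7_ok) (L (nat_lit 528) ln12_15_0 ln12_15_0_ok)))))))))))) (B (M (nat_lit 527) (B (M (nat_lit 494) (B (L (nat_lit 526) ln14_17_7 ln14_17_7_ok) (M (nat_lit 495) (B (L (nat_lit 591) ln15_18_7 ln15_18_7_ok) (M (nat_lit 528) (B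 (L (nat_lit 492) ln12_15_0 ln12_15_0_ok) (M (nat_lit 496) (B (L (nat_lit 497) ln17_15_3 ln17_15_3_ok) (L (nat_lit 529) ln13_15_0 ln13_15_0_ok))))))))) (B (M (nat_lit 528) (B (M (nat_lit 529) (B (L (nat_lit 530) ln18_16_1_c10 ln18_16_1_c10_ok) (M (nat_lit 526) (B (L (nat_lit 494) ln17_16_3 ln17_16_3_ok) (L (nat_lit 557) ln17_16_1 ln17_16_1_ok))))) (B (M (nat_lit 529) (B (L (nat_lit 530) ln18_16_1_c10 ln18_16_1_c10_ok) (M (nat_lit 557) (B (L (nat_lit 526) ln17_16_1 ln17_16_1_ok) (L (nat_lit 556) ln12_17_2_c10 ln12_17_2_c10_ok))))) (B (M (nat_lit 494) (B (L (nat_lit 526) ln14_17_7 ln14_17_7_ok) (M (nat_lit 495) (B (L (nat_lit 591) ln15_18_7 ln15_18_7_ok) (L (nat_lit 492) ln12_15_0 ln12_15_0_ok))))) (M (nat_lit 529) (B (L (nat_lit 530) ln18_16_1_c10 ln18_16_1_c10_ok) (M (nat_lit 557) (B (L (nat_lit 560) ln13_17_2_c10 ln13_17_2_c10_ok) (L (nat_lit 556) ln12_17_2_c10 ln12_17_2_c10_ok))))))))) c10_d96))) (B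 (M (nat_lit 494) (B (L (nat_lit 526) ln14_17_7 ln14_17_7_ok) (M (nat_lit 495) (B (M (nat_lit 460) (B (L (nat_lit 459) ln11_14_0 ln11_14_0_ok) (L (nat_lit 496) ln16_15_3 ln16_15_3_ok))) (B (M (nat_lit 527) (B (L (nat_lit 591) ln15_18_7 ln15_18_7_ok) (M (nat_lit 528) (B (L (nat_lit 492) ln12_15_0 ln12_15_0_ok) (M (nat_lit 529) (B (L (nat_lit 496) ln13_15_0 ln13_15_0_ok) (L (nat_lit 530) ln18_16_1_c10 ln18_16_1_c10_ok))))))) (M (nat_lit 459) (B (L (nat_lit 460) ln11_14_0 ln11_14_0_ok) (M (nat_lit 492) (B (M (nat_lit 491) (B (L (nat_lit 490) ln10_15_2 ln10_15_2_ok) (L (nat_lit 458) ln14_15_3 ln14_15_3_ok))) (M (nat_lit 527) (B (L (nat_lit 591) ln15_18_7 ln15_18_7_ok) (L (nat_lit 528) ln12_15_0 ln12_15_0_ok)))))))))))) c10_d112)))) (nat_lit 943490606205385338085962009389118619579423270535071620375530802893517772586633837925214469217163772623105302361981481135185379369790183074730683278108678139116664127488)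 (nat_lit 20683696007019331629715133982810853095772490748088736561480268972533577081682744472750020084850008780265038603948486614594231355820580173003898733033840740199519621950246706522620104939870341125238376761526980496588800) (nat_lit 20683696007019331629715133982810853095772490748088736561480268972533577081682744472750020084850008780265038603948486614594231355820580173003898733033840740199519621950246706522620104939870341125238376761526980496588800) (by decide +kernel)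

end Vale.Agent.Lib.P062.Data
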