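import Vale.Agent.Lib.P062.Data.c10_lines
import Vale.Agent.Lib.P062.Data.c10_l0_0
import Vale.Agent.Lib.P062.Data.c10_l0_1
import Vale.Agent.Lib.P062.Data.c10_l0_2
import Vale.Agent.Lib.P062.Data.c10_l0_3
import Vale.Agent.Lib.P062.Data.c10_l1_0
import Vale.Agent.Lib.P062.Data.c10_l1_2
import Vale.Agent.Lib.P062.Data.c10_l1_3
import Vale.Agent.Lib.P062.Data.c10_l1_4

namespace Vale.Agent.Lib.P062.Data
theorem c10_s121 : Sem (nat_lit 5954262831509113917970671779033862168167677465089648269778033016598694956424787681501984599132935639058289333405543081762115182783130238976) (nat_lit 1488565707703986623852202942086673995290465625129839772732334323923489785071431389229989476894184230187305106103151088031980704957091282944) (nat_lit 1488565707703986623852202942086673995290465625129839772732334323923489785071431389229989476894184230187305106103151088031980704957091282944) :=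
  sem_of_chk (M (nat_lit 332) (B (M (nat_lit 331) (B (K (nat_lit 5954262831509113917970671779033862168180800969438346341324268029961400684616906698087343873751490262696749051400739337301456261845268561920) (nat_lit 80695308704307148975884490952281127340191295835282767685890863300741437080018462530495804253707833613455061864694153216) (nat_lit 80695308704307148975884490952281127340191295835282767685890863300741437080018462530495804253707833613455061864694153216) c10_s114) (B (M (nat_lit 330) (B (M (nat_lit 333) (B (M (nat_lit 362) (B (L (nat_lit 334) ln14_10_1 ln14_10_1_ok) (L (nat_lit 361) ln13_10_1 ln13_10_1_ok))) (L (nat_lit 329) ln9_10_0 ln9_10_0_ok))) (B (M (nat_lit 333) (B (M (nat_lit 334) (B (L (nat_lit 362) ln14_10_1 ln14_10_1_ok) (M (nat_lit 298) (B (L (nat_lit 297) ln13_10_3 ln13_10_3_ok) (L (nat_lit 299) ln14_10_3 ln14_10_3_ok))))) (B (M (nat_lit 334) (B (M (nat_lit 298) (B (L (nat_lit 297) ln13_10_3 ln13_10_3_ok) (L (nat_lit 299) ln14_10_3 ln14_10_3_ok))) (M (nat_lit 302) (B (L (nat_lit 301)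 ln10_10_2 ln10_10_2_ok) (L (nat_lit 303) ln11_10_2 ln11_10_2_ok))))) (L (nat_lit 329) ln9_10_0 ln9_10_0_ok)))) (B (L (nat_lit 329) ln9_10_0 ln9_10_0_ok) (M (nat_lit 333) (B (M (nat_lit 334) (B (M (nat_lit 298) (B (L (nat_lit 299) ln14_10_3 ln14_10_3_ok) (L (nat_lit 297) ln13_10_3 ln13_10_3_ok))) (M (nat_lit 302) (B (L (nat_lit 303) ln11_10_2 ln11_10_2_ok) (L (nat_lit 301) ln10_10_2 ln10_10_2_ok))))) (B (M (nat_lit 362) (B (L (nat_lit 334) ln14_10_1 ln14_10_1_ok) (L (nat_lit 361) ln13_10_1 ln13_10_1_ok))) (M (nat_lit 298) (B (L (nat_lit 297) ln13_10_3 ln13_10_3_ok) (M (nat_lit 362) (B (L (nat_lit 361) ln13_10_1 ln13_10_1_ok) (M (nat_lit 266) (B (L (nat_lit 234) ln10_7_4 ln10_7_4_ok) (M (nat_lit 267) (B (L (nat_lit 235) ln10_11_6_c10 ln10_11_6_c10_ok) (M (nat_lit 265) (B (L (nat_lit 233) ln10_11_7_c10 ln10_11_7_c10_ok) (M (nat_lit 301) (B (L (nat_lit 302) ln10_10_2 ln10_10_2_ok) (M (nat_lit 300) (B (L (nat_lit 299) ln13_9_3 ln13_9_3_ok) (L (nat_lit 268) ln9_8_0_c10 ln9_8_0_c10_ok)))))))))))))))))))))) (B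 (K (nat_lit 5954262831509113917970671779033862168180800969438346341324268029961400684616906698087343873751490262696749051400739337301456261845268561920) (nat_lit 80695308704307148979165366989675578551281770259553698768414692022850540873609743054968244699431925195839682588568453120) (nat_lit 80695308704307148979165366989675578551281770259553698768414692022850540873609743054968244699431925195839682588568453120) c10_s115) (B (K (nat_lit 5954262831509113917970671779033862168180800969438346341324268029961400684616906698087343873751490262696749051400739337301456261845268561920) (nat_lit 346583711845797166151608922067042853127309734875029329778390254538633328957641129788569810408773822224536026124432427145911861248) (nat_lit 346583711845797166151608922067042853127309734875029329778390254538633328957641129788569810408773822224536026124432427145911861248) c10_s116) (B (K (nat_lit 5954262831509113917970671779033862168180800969438346341324268029961400684616906698087343873751490262696749051400739337301456261845268561920)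 (nat_lit 1488565707703986623690812324692150952926657360449382645231619335153856355282292248865738951399803168105230903561618167638477389522437931008) (nat_lit 1488565707703986623690812324692150952926657360449382645231619335153856355282292248865738951399803168105230903561618167638477389522437931008) c10_s117) (B (K (nat_lit 5954262831509113917970671779033862168180800969438346341324268029961400684616906698087343873751490262696749051400739337301456261845268561920) (nat_lit 346583711845797166151608921997050829907962857726253724055998314385987218162058232334146819903037698851544529139329190556843638784) (nat_lit 346583711845797166151608921997050829907962857726253724055998314385987218162058232334146819903037698851544529139329190556843638784) c10_s118) (B (K (nat_lit 5954262831509113917970671779033862168180800969438346341324268029961400684616906698087343873751490262696749051400739337301456261845268561920) (nat_lit 1488565707703986623690812324692150952804718132514593171023902249229619726706192224637328502793919716373212391285289965430072169657719062528)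 (nat_lit 1488565707703986623690812324692150952804718132514593171023902249229619726706192224637328502793919716373212391285289965430072169657719062528) c10_s119) (K (nat_lit 5954262831509113917970671779033862168180800969438346341324268029961400684616906698087343873751490262696749051400739337301456261845268561920) (nat_lit 80695308704307149049157390196736582464885014838946084117600976401412192711740041520438304737684934104375312314198392832) (nat_lit 80695308704307149049157390196736582464885014838946084117600976401412192711740041520438304737684934104375312314198392832) c10_s120))))))))) (L (nat_lit 396) ln12_10_4 ln12_10_4_ok))) (nat_lit 5954262831509113917970671779033862168167677465089648269778033016598694956424787681501984599132935639058289333405543081762115182783130238976) (nat_lit 1488565707703986623852202942086673995290465625129839772732334323923489785071431389229989476894184230187305106103151088031980704957091282944) (nat_lit 1488565707703986623852202942086673995290465625129839772732334323923489785071431389229989476894184230187305106103151088031980704957091282944)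 (by decide +kernel)
noncomputable def c10_d307 : Cert := (B (K (nat_lit 20839919904693236361007865009656479088805549285201202130586497225381475443893278772482817183946149193610266214248817219767709894472535900160) (nat_lit 2953872575916422338076748902047714555348318794631375690260419377402055232912931100885007475079777634104797951008375989402164970321942151168) (nat_lit 2953872575916422338076748902047714555348318794631375690260419377402055232912931100885007475079777634104797951008375989402164970321942151168) c10_s210) (B (M (nat_lit 392) (B (M (nat_lit 391) (B (L (nat_lit 427) ln11_13_3 ln11_13_3_ok) (M (nat_lit 390) (B (L (nat_lit 393) ln6_12_0_c10 ln6_12_0_c10_ok) (L (nat_lit 389) ln5_12_0_c10 ln5_12_0_c10_ok))))) (B (M (nat_lit 456) (B (M (nat_lit 360) (B (M (nat_lit 457) (B (L (nat_lit 328) ln8_10_4_c10 ln8_10_4_c10_ok) (L (nat_lit 489) ln8_11_4_c10 ln8_11_4_c10_ok))) (M (nat_lit 391) (B (M (nat_lit 390) (B (L (nat_lit 393) ln6_12_0_c10 ln6_12_0_c10_ok) (L (nat_lit 389) ln5_12_0_c10 ln5_12_0_c10_ok)))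 (M (nat_lit 359) (B (L (nat_lit 327) ln8_14_7_c10 ln8_14_7_c10_ok) (L (nat_lit 488) ln8_15_7_c10 ln8_15_7_c10_ok))))))) (B (M (nat_lit 360) (B (M (nat_lit 457) (B (L (nat_lit 328) ln8_10_4_c10 ln8_10_4_c10_ok) (L (nat_lit 489) ln8_11_4_c10 ln8_11_4_c10_ok))) (M (nat_lit 488) (B (M (nat_lit 359) (B (L (nat_lit 327) ln8_14_7_c10 ln8_14_7_c10_ok) (L (nat_lit 391) ln8_15_7_c10 ln8_15_7_c10_ok))) (M (nat_lit 487) (B (L (nat_lit 455) ln8_11_5_c10 ln8_11_5_c10_ok) (L (nat_lit 519) ln8_12_5_c10 ln8_12_5_c10_ok))))))) (B (M (nat_lit 488) (B (M (nat_lit 393) (B (L (nat_lit 361) ln8_15_6_c10 ln8_15_6_c10_ok) (L (nat_lit 520) ln8_16_6_c10 ln8_16_6_c10_ok))) (M (nat_lit 487) (B (L (nat_lit 519) ln8_12_5_c10 ln8_12_5_c10_ok) (M (nat_lit 360) (B (L (nat_lit 455) ln8_11_5_c10 ln8_11_5_c10_ok) (M (nat_lit 359) (B (L (nat_lit 327) ln8_14_7_c10 ln8_14_7_c10_ok) (L (nat_lit 391) ln8_15_7_c10 ln8_15_7_c10_ok))))))))) (B (M (nat_lit 488) (B (M (nat_lit 393) (B (L (nat_lit 361) ln8_15_6_c10 ln8_15_6_c10_ok) (L (nat_lit 520)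 ln8_16_6_c10 ln8_16_6_c10_ok))) (B (M (nat_lit 393) (B (L (nat_lit 520) ln8_16_6_c10 ln8_16_6_c10_ok) (M (nat_lit 391) (B (L (nat_lit 390) ln6_12_0_c10 ln6_12_0_c10_ok) (L (nat_lit 359) ln8_15_7_c10 ln8_15_7_c10_ok))))) (B (M (nat_lit 520) (B (M (nat_lit 521) (B (L (nat_lit 489) ln8_12_4_c10 ln8_12_4_c10_ok) (L (nat_lit 553) ln8_13_4_c10 ln8_13_4_c10_ok))) (M (nat_lit 519) (B (L (nat_lit 487) ln8_12_5_c10 ln8_12_5_c10_ok) (L (nat_lit 551) ln8_13_5_c10 ln8_13_5_c10_ok))))) (M (nat_lit 393) (B (L (nat_lit 361) ln8_15_6_c10 ln8_15_6_c10_ok) (M (nat_lit 391) (B (L (nat_lit 390) ln6_12_0_c10 ln6_12_0_c10_ok) (L (nat_lit 359) ln8_15_7_c10 ln8_15_7_c10_ok))))))))) (B (M (nat_lit 360) (B (M (nat_lit 457) (B (L (nat_lit 328) ln8_10_4_c10 ln8_10_4_c10_ok) (L (nat_lit 489) ln8_11_4_c10 ln8_11_4_c10_ok))) (B (M (nat_lit 328) (B (M (nat_lit 329) (B (L (nat_lit 297) ln8_13_6_c10 ln8_13_6_c10_ok) (L (nat_lit 361) ln8_14_6_c10 ln8_14_6_c10_ok))) (M (nat_lit 327) (B (L (nat_lit 295) ln8_13_7_c10 ln8_13_7_c10_ok) (L (nat_lit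 359) ln8_14_7_c10 ln8_14_7_c10_ok))))) (M (nat_lit 457) (B (L (nat_lit 489) ln8_11_4_c10 ln8_11_4_c10_ok) (M (nat_lit 455) (B (L (nat_lit 454) ln6_14_2_c10 ln6_14_2_c10_ok) (L (nat_lit 487) ln8_11_5_c10 ln8_11_5_c10_ok)))))))) (M (nat_lit 360) (B (M (nat_lit 457) (B (L (nat_lit 328) ln8_10_4_c10 ln8_10_4_c10_ok) (L (nat_lit 489) ln8_11_4_c10 ln8_11_4_c10_ok))) (M (nat_lit 488) (B (M (nat_lit 361) (B (L (nat_lit 329) ln8_14_6_c10 ln8_14_6_c10_ok) (L (nat_lit 393) ln8_15_6_c10 ln8_15_6_c10_ok))) (M (nat_lit 487) (B (L (nat_lit 455) ln8_11_5_c10 ln8_11_5_c10_ok) (L (nat_lit 519) ln8_12_5_c10 ln8_12_5_c10_ok))))))))))))) (B (K (nat_lit 20839919904693236361017951923242756075483892719466838895720597638634714598240273535594304088719652479526788266410067758171756391238054445056) (nat_lit 1716199417829739130526369414758625748909532004803017721387963871152080294274089107315921667895477669923981697467296649476579349628002887434581297900065652736) (nat_lit 1716199417829739130526369414758625748909532004803017721387963871152080294274089107315921667895477669923981697467296649476579349628002887434581297900065652736)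 c10_s246) (M (nat_lit 456) (B (M (nat_lit 455) (B (L (nat_lit 427) ln11_13_1_c10 ln11_13_1_c10_ok) (M (nat_lit 454) (B (L (nat_lit 457) ln6_14_2_c10 ln6_14_2_c10_ok) (L (nat_lit 453) ln5_14_2_c10 ln5_14_2_c10_ok))))) (B (M (nat_lit 360) (B (M (nat_lit 457) (B (L (nat_lit 328) ln8_10_4_c10 ln8_10_4_c10_ok) (L (nat_lit 489) ln8_11_4_c10 ln8_11_4_c10_ok))) (M (nat_lit 488) (B (M (nat_lit 361) (B (L (nat_lit 329) ln8_14_6_c10 ln8_14_6_c10_ok) (L (nat_lit 393) ln8_15_6_c10 ln8_15_6_c10_ok))) (M (nat_lit 487) (B (L (nat_lit 455) ln8_11_5_c10 ln8_11_5_c10_ok) (L (nat_lit 519) ln8_12_5_c10 ln8_12_5_c10_ok))))))) (B (M (nat_lit 361) (B (M (nat_lit 329) (B (L (nat_lit 393) ln9_10_5_c10 ln9_10_5_c10_ok) (L (nat_lit 360) ln8_14_6_c10 ln8_14_6_c10_ok))) (B (M (nat_lit 487) (B (M (nat_lit 455) (B (L (nat_lit 427) ln11_13_1_c10 ln11_13_1_c10_ok) (L (nat_lit 360) ln8_11_5_c10 ln8_11_5_c10_ok))) (M (nat_lit 488) (B (L (nat_lit 393) ln8_15_6_c10 ln8_15_6_c10_ok) (L (nat_lit 519) ln8_12_5_c10 ln8_12_5_c10_ok))))) (B (M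 (nat_lit 360) (B (L (nat_lit 329) ln8_14_6_c10 ln8_14_6_c10_ok) (M (nat_lit 455) (B (L (nat_lit 427) ln11_13_1_c10 ln11_13_1_c10_ok) (L (nat_lit 487) ln8_11_5_c10 ln8_11_5_c10_ok))))) (M (nat_lit 393) (B (L (nat_lit 329) ln9_10_5_c10 ln9_10_5_c10_ok) (L (nat_lit 488) ln8_15_6_c10 ln8_15_6_c10_ok))))))) (K (nat_lit 21025990618112911724998578818062085236278424907802792319152659129624958255997303403965808997702375952310343471941271899722741249254979796992) (nat_lit 6864797662528112601996724259621810617732014639777660976948534808930672709916156238518627513376576013233213143973427041946188525139964071549585426822081806336) (nat_lit 6864797662528112601996724259621810617732014639777660976948534808930672709916156238518627513376576013233213143973427041946188525139964071549585426822081806336) c10_s247))))))))) (K (nat_lit 20839919904693236361007865009656479088805549285201202130586497225381475443893278772482817183946149193610266214248817219767709894472535900160) (nat_lit 2604989988254531030631986437235741728880464880749531955951742356645171789019115278522473717187489783729110788439712983501655542975554387968)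 (nat_lit 2604989988254531030631986437235741728880464880749531955951742356645171789019115278522473717187489783729110788439712983501655542975554387968) c10_s245)))
noncomputable def c10_d308 : Cert := (B (K (nat_lit 20839919904693236361007865009656479088805549285201202130586497225381475443893278772482817183946149193610266214248817219767709894472535900160) (nat_lit 2767801862496746973973818179994776931078872465824576489577390375716286828698589729786723845718326819583412863022009069702116339023104442368) (nat_lit 2767801862496746973973818179994776931078872465824576489577390375716286828698589729786723845718326819583412863022009069702116339023104442368) c10_s202) (B (K (nat_lit 20839919904693236361007865009656479088805549285201202130586497225381475443893278772482817183946149193610266214248817219767709894472535900160) (nat_lit 2953872575916422337944358161227829105195061219894893147875351453453291332108624835046741849927547006450446016391962672849054700274511249408) (nat_lit 2953872575916422337944358161227829105195061219894893147875351453453291332108624835046741849927547006450446016391962672849054700274511249408)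 c10_s203) (B (K (nat_lit 20839919904693236361007865009656479088805549285201202130586497225381475443893278772482817183946149193610266214248817219767709894472535900160) (nat_lit 18427550908455630338004792581586381988355292646812088139151786159282376086556672172675658160788095102322238626578790053359267521481401580289126336982455919632787177472) (nat_lit 18427550908455630338004792581586381988355292646812088139151786159282376086556672172675658160788095102322238626578790053359267521481401580289126336982455919632787177472) c10_s219) (B (K (nat_lit 20839919904693236361007865009656479088805549285201202130586497225381475443893278772482817183946149193610266214248817219767709894472535900160) (nat_lit 3432398830864472486720726998804522000714951165819988819376504298894944284248548132398806628813880688425050092695968212480623854906565545096137871720330559488) (nat_lit 3432398830864472486720726998804522000714951165819988819376504298894944284248548132398806628813880688425050092695968212480623854906565545096137871720330559488)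 c10_s191) (B (K (nat_lit 20839919904693236361007865009656479088805549285201202130586497225381475443893278772482817183946149193610266214248817219767709894472535900160) (nat_lit 2930613736738962917456866712961689946774088130618535735080444180332750029235990864611790641078209858269023667861812693559228089787914125312) (nat_lit 2930613736738962917456866712961689946774088130618535735080444180332750029235990864611790641078209858269023667861812693559228089787914125312) c10_s204) (B (K (nat_lit 20839919904693236361007865009656479088805549285201202130586497225381475443893278772482817183946149193610266214248817219767709894472535900160) (nat_lit 1716199417030571501668734242724057760577987300455921064834934591384667137444799028129637008148717124761007792192478910304593882777943669290037762704870998016) (nat_lit 1716199417030571501668734242724057760577987300455921064834934591384667137444799028129637008148717124761007792192478910304593882777943669290037762704870998016) c10_s205) (B (M (nat_lit 423) (B (M (nat_lit 422)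 (B (M (nat_lit 454) (B (L (nat_lit 453) ln9_13_1_c10 ln9_13_1_c10_ok) (L (nat_lit 455) ln10_13_1_c10 ln10_13_1_c10_ok))) (M (nat_lit 458) (B (L (nat_lit 457) ln6_13_0_c10 ln6_13_0_c10_ok) (L (nat_lit 459) ln7_13_0 ln7_13_0_ok))))) (B (M (nat_lit 427) (B (M (nat_lit 455) (B (L (nat_lit 454) ln10_13_1_c10 ln10_13_1_c10_ok) (L (nat_lit 456) ln11_13_1_c10 ln11_13_1_c10_ok))) (L (nat_lit 459) ln8_13_0 ln8_13_0_ok))) (B (M (nat_lit 422) (B (M (nat_lit 458) (B (L (nat_lit 457) ln6_13_0_c10 ln6_13_0_c10_ok) (L (nat_lit 459) ln7_13_0 ln7_13_0_ok))) (M (nat_lit 421) (B (M (nat_lit 389) (B (L (nat_lit 388) ln8_13_3_c10 ln8_13_3_c10_ok) (L (nat_lit 390) ln9_13_3_c10 ln9_13_3_c10_ok))) (M (nat_lit 393) (B (L (nat_lit 392) ln5_13_2_c10 ln5_13_2_c10_ok) (L (nat_lit 394) ln6_13_2_c10 ln6_13_2_c10_ok))))))) (M (nat_lit 422) (B (M (nat_lit 454) (B (L (nat_lit 453) ln9_13_1_c10 ln9_13_1_c10_ok) (L (nat_lit 455) ln10_13_1_c10 ln10_13_1_c10_ok))) (M (nat_lit 421) (B (M (nat_lit 389) (B (L (nat_lit 388) ln8_13_3_c10 ln8_13_3_c10_ok)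 (L (nat_lit 390) ln9_13_3_c10 ln9_13_3_c10_ok))) (M (nat_lit 393) (B (L (nat_lit 392) ln5_13_2_c10 ln5_13_2_c10_ok) (L (nat_lit 394) ln6_13_2_c10 ln6_13_2_c10_ok))))))))))) (B (K (nat_lit 20839919904693236361007865009656479088805549285201202130586497225381475443893278772482817183946149193610266214248817219767709894472535900160) (nat_lit 2686395925381054372789145111551596433504729699379691748793309344675869997442745673284919739224404965751661921183081955406748435585039335424) (nat_lit 2686395925381054372789145111551596433504729699379691748793309344675869997442745673284919739224404965751661921183081955406748435585039335424) c10_s254) (B (K (nat_lit 20839919904693236361007865009656479088805549285201202130586497225381475443893278772482817183946149193610266214248817219767709894472535900160) (nat_lit 158291456994384044337592020035777359362455531620338534850726684031388943475135516987463481152738143727655371788671129817527835672398172496908950547649396341895864910997666922496) (nat_lit 158291456994384044337592020035777359362455531620338534850726684031388943475135516987463481152738143727655371788671129817527835672398172496908950547649396341895864910997666922496)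 c10_s221) (B (K (nat_lit 20839919904693236361007865009656479088805549285201202130586497225381475443893278772482817183946149193610266214248817219767709894472535900160) (nat_lit 17161994154322362434813094629793765205811311345187555970067282228011941959454940757541770266602977115167778693934812502982705374185085792142053854228955267072) (nat_lit 17161994154322362434813094629793765205811311345187555970067282228011941959454940757541770266602977115167778693934812502982705374185085792142053854228955267072) c10_s248) (K (nat_lit 20839919904693236361007865009656479088805549285201202130586497225381475443893278772482817183946149193610266214248817219767709894472535900160) (nat_lit 17161994154322362434650282755551549262337088861608635317715617068200414883444224814521891326119196398065262940251744839474051364986376389388482788133974310912) (nat_lit 17161994154322362434650282755551549262337088861608635317715617068200414883444224814521891326119196398065262940251744839474051364986376389388482788133974310912) c10_s249)))))))))))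
noncomputable def c10_d309 : Cert := (B (M (nat_lit 457) (B (M (nat_lit 422) (B (L (nat_lit 458) ln6_13_0_c10 ln6_13_0_c10_ok) (M (nat_lit 421) (B (L (nat_lit 456) ln5_13_0_c10 ln5_13_0_c10_ok) (M (nat_lit 393) (B (L (nat_lit 394) ln6_13_2_c10 ln6_13_2_c10_ok) (L (nat_lit 392) ln5_13_2_c10 ln5_13_2_c10_ok))))))) (B (M (nat_lit 393) (B (M (nat_lit 422) (B (L (nat_lit 394) ln6_13_2_c10 ln6_13_2_c10_ok) (M (nat_lit 421) (B (L (nat_lit 456) ln5_13_0_c10 ln5_13_0_c10_ok) (L (nat_lit 392) ln5_13_2_c10 ln5_13_2_c10_ok))))) (B (M (nat_lit 489) (B (M (nat_lit 392) (B (L (nat_lit 521) ln9_16_7 ln9_16_7_ok) (L (nat_lit 360) ln9_15_7 ln9_15_7_ok))) (B (M (nat_lit 361) (B (M (nat_lit 488) (B (L (nat_lit 520) ln9_12_5_c10 ln9_12_5_c10_ok) (L (nat_lit 456) ln9_11_5_c10 ln9_11_5_c10_ok))) (M (nat_lit 360) (B (L (nat_lit 392) ln9_15_7 ln9_15_7_ok) (L (nat_lit 328) ln9_14_7_c10 ln9_14_7_c10_ok))))) (M (nat_lit 521) (B (M (nat_lit 522) (B (L (nat_lit 554) ln9_13_4 ln9_13_4_ok) (L (nat_lit 490) ln9_12_4 ln9_12_4_ok))) (M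 (nat_lit 520) (B (L (nat_lit 552) ln9_13_5_c10 ln9_13_5_c10_ok) (L (nat_lit 488) ln9_12_5_c10 ln9_12_5_c10_ok)))))))) (B (M (nat_lit 392) (B (M (nat_lit 489) (B (L (nat_lit 521) ln9_16_7 ln9_16_7_ok) (L (nat_lit 360) ln9_15_7 ln9_15_7_ok))) (M (nat_lit 422) (B (L (nat_lit 394) ln6_13_2_c10 ln6_13_2_c10_ok) (L (nat_lit 421) ln5_13_2_c10 ln5_13_2_c10_ok))))) (M (nat_lit 456) (B (M (nat_lit 422) (B (L (nat_lit 394) ln6_13_2_c10 ln6_13_2_c10_ok) (L (nat_lit 421) ln5_13_0_c10 ln5_13_0_c10_ok))) (M (nat_lit 488) (B (L (nat_lit 361) ln9_11_5_c10 ln9_11_5_c10_ok) (L (nat_lit 520) ln8_16_6_c10 ln8_16_6_c10_ok))))))))) (B (M (nat_lit 422) (B (L (nat_lit 458) ln6_13_0_c10 ln6_13_0_c10_ok) (M (nat_lit 421) (B (L (nat_lit 456) ln5_13_0_c10 ln5_13_0_c10_ok) (M (nat_lit 453) (B (L (nat_lit 454) ln9_13_1_c10 ln9_13_1_c10_ok) (L (nat_lit 452) ln8_13_1_c10 ln8_13_1_c10_ok))))))) (B (M (nat_lit 422) (B (L (nat_lit 458) ln6_13_0_c10 ln6_13_0_c10_ok) (M (nat_lit 421) (B (M (nat_lit 393) (B (L (nat_lit 394) ln6_13_2_c10 ln6_13_2_c10_ok)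 (L (nat_lit 392) ln5_13_2_c10 ln5_13_2_c10_ok))) (M (nat_lit 389) (B (L (nat_lit 390) ln9_13_3_c10 ln9_13_3_c10_ok) (L (nat_lit 388) ln8_13_3_c10 ln8_13_3_c10_ok))))))) (M (nat_lit 489) (B (M (nat_lit 392) (B (L (nat_lit 521) ln9_16_7 ln9_16_7_ok) (M (nat_lit 360) (B (L (nat_lit 393) ln9_15_7 ln9_15_7_ok) (L (nat_lit 456) ln8_11_4_c10 ln8_11_4_c10_ok))))) (B (M (nat_lit 393) (B (M (nat_lit 392) (B (L (nat_lit 360) ln9_15_7 ln9_15_7_ok) (M (nat_lit 394) (B (L (nat_lit 395) ln11_12_1 ln11_12_1_ok) (L (nat_lit 362) ln9_15_6 ln9_15_6_ok))))) (M (nat_lit 361) (B (M (nat_lit 490) (B (L (nat_lit 522) ln9_12_4 ln9_12_4_ok) (L (nat_lit 458) ln9_11_4 ln9_11_4_ok))) (M (nat_lit 488) (B (L (nat_lit 520) ln9_12_5_c10 ln9_12_5_c10_ok) (L (nat_lit 456) ln9_11_5_c10 ln9_11_5_c10_ok))))))) (B (M (nat_lit 392) (B (L (nat_lit 521) ln9_16_7 ln9_16_7_ok) (M (nat_lit 360) (B (L (nat_lit 456) ln8_11_4_c10 ln8_11_4_c10_ok) (L (nat_lit 328) ln8_10_4_c10 ln8_10_4_c10_ok))))) (B (M (nat_lit 392) (B (L (nat_lit 521) ln9_16_7 ln9_16_7_ok)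 (M (nat_lit 360) (B (L (nat_lit 393) ln9_15_7 ln9_15_7_ok) (L (nat_lit 328) ln8_10_4_c10 ln8_10_4_c10_ok))))) (M (nat_lit 393) (B (M (nat_lit 361) (B (M (nat_lit 362) (B (L (nat_lit 394) ln9_15_6 ln9_15_6_ok) (L (nat_lit 330) ln9_14_6_c10 ln9_14_6_c10_ok))) (M (nat_lit 488) (B (L (nat_lit 520) ln9_12_5_c10 ln9_12_5_c10_ok) (L (nat_lit 456) ln9_11_5_c10 ln9_11_5_c10_ok))))) (B (M (nat_lit 361) (B (M (nat_lit 490) (B (L (nat_lit 522) ln9_12_4 ln9_12_4_ok) (L (nat_lit 458) ln9_11_4 ln9_11_4_ok))) (M (nat_lit 488) (B (L (nat_lit 520) ln9_12_5_c10 ln9_12_5_c10_ok) (L (nat_lit 456) ln9_11_5_c10 ln9_11_5_c10_ok))))) (B (M (nat_lit 521) (B (M (nat_lit 522) (B (L (nat_lit 554) ln9_13_4 ln9_13_4_ok) (L (nat_lit 490) ln9_12_4 ln9_12_4_ok))) (M (nat_lit 520) (B (L (nat_lit 552) ln9_13_5_c10 ln9_13_5_c10_ok) (L (nat_lit 488) ln9_12_5_c10 ln9_12_5_c10_ok))))) (M (nat_lit 490) (B (L (nat_lit 522) ln9_12_4 ln9_12_4_ok) (M (nat_lit 361) (B (L (nat_lit 458) ln9_11_4 ln9_11_4_ok) (M (nat_lit 362) (B (L (nat_lit 394) ln9_15_6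 ln9_15_6_ok) (L (nat_lit 330) ln9_14_6_c10 ln9_14_6_c10_ok))))))))))))))))))))) (B (M (nat_lit 422) (B (M (nat_lit 421) (B (M (nat_lit 457) (B (L (nat_lit 458) ln6_13_0_c10 ln6_13_0_c10_ok) (L (nat_lit 456) ln5_13_0_c10 ln5_13_0_c10_ok))) (M (nat_lit 453) (B (L (nat_lit 454) ln9_13_1_c10 ln9_13_1_c10_ok) (L (nat_lit 452) ln8_13_1_c10 ln8_13_1_c10_ok))))) (B (M (nat_lit 421) (B (M (nat_lit 453) (B (L (nat_lit 454) ln9_13_1_c10 ln9_13_1_c10_ok) (L (nat_lit 452) ln8_13_1_c10 ln8_13_1_c10_ok))) (M (nat_lit 389) (B (L (nat_lit 390) ln9_13_3_c10 ln9_13_3_c10_ok) (L (nat_lit 388) ln8_13_3_c10 ln8_13_3_c10_ok))))) (B (M (nat_lit 421) (B (M (nat_lit 457) (B (L (nat_lit 458) ln6_13_0_c10 ln6_13_0_c10_ok) (L (nat_lit 456) ln5_13_0_c10 ln5_13_0_c10_ok))) (M (nat_lit 389) (B (L (nat_lit 390) ln9_13_3_c10 ln9_13_3_c10_ok) (L (nat_lit 388) ln8_13_3_c10 ln8_13_3_c10_ok))))) (M (nat_lit 454) (B (L (nat_lit 455) ln10_13_1_c10 ln10_13_1_c10_ok) (L (nat_lit 453) ln9_13_1_c10 ln9_13_1_c10_ok))))))) (B (M (nat_lit 422) (B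 (M (nat_lit 421) (B (M (nat_lit 457) (B (L (nat_lit 458) ln6_13_0_c10 ln6_13_0_c10_ok) (L (nat_lit 456) ln5_13_0_c10 ln5_13_0_c10_ok))) (M (nat_lit 393) (B (L (nat_lit 394) ln6_13_2_c10 ln6_13_2_c10_ok) (L (nat_lit 392) ln5_13_2_c10 ln5_13_2_c10_ok))))) (B (M (nat_lit 421) (B (M (nat_lit 393) (B (L (nat_lit 394) ln6_13_2_c10 ln6_13_2_c10_ok) (L (nat_lit 392) ln5_13_2_c10 ln5_13_2_c10_ok))) (M (nat_lit 389) (B (L (nat_lit 390) ln9_13_3_c10 ln9_13_3_c10_ok) (L (nat_lit 388) ln8_13_3_c10 ln8_13_3_c10_ok))))) (B (M (nat_lit 421) (B (M (nat_lit 457) (B (L (nat_lit 458) ln6_13_0_c10 ln6_13_0_c10_ok) (L (nat_lit 456) ln5_13_0_c10 ln5_13_0_c10_ok))) (M (nat_lit 389) (B (L (nat_lit 390) ln9_13_3_c10 ln9_13_3_c10_ok) (L (nat_lit 388) ln8_13_3_c10 ln8_13_3_c10_ok))))) (M (nat_lit 394) (B (L (nat_lit 395) ln7_13_2 ln7_13_2_ok) (L (nat_lit 393) ln6_13_2_c10 ln6_13_2_c10_ok))))))) (M (nat_lit 455) (B (L (nat_lit 454) ln10_13_1_c10 ln10_13_1_c10_ok) (M (nat_lit 391) (B (L (nat_lit 390) ln10_13_3_c10 ln10_13_3_c10_ok)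 (M (nat_lit 487) (B (M (nat_lit 392) (B (L (nat_lit 519) ln7_16_6_c10 ln7_16_6_c10_ok) (L (nat_lit 360) ln7_15_6_c10 ln7_15_6_c10_ok))) (B (M (nat_lit 519) (B (M (nat_lit 520) (B (L (nat_lit 552) ln7_13_4_c10 ln7_13_4_c10_ok) (L (nat_lit 488) ln7_12_4_c10 ln7_12_4_c10_ok))) (M (nat_lit 518) (B (L (nat_lit 550) ln7_13_5_c10 ln7_13_5_c10_ok) (L (nat_lit 486) ln7_12_5_c10 ln7_12_5_c10_ok))))) (M (nat_lit 359) (B (M (nat_lit 488) (B (L (nat_lit 520) ln7_12_4_c10 ln7_12_4_c10_ok) (L (nat_lit 456) ln7_11_4_c10 ln7_11_4_c10_ok))) (M (nat_lit 360) (B (L (nat_lit 392) ln7_15_6_c10 ln7_15_6_c10_ok) (L (nat_lit 328) ln7_14_6_c10 ln7_14_6_c10_ok)))))))))))))))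
noncomputable def c10_d310 : Cert := (B (M (nat_lit 423) (B (M (nat_lit 422) (B (M (nat_lit 394) (B (L (nat_lit 395) ln7_13_2 ln7_13_2_ok) (L (nat_lit 393) ln6_13_2_c10 ln6_13_2_c10_ok))) (M (nat_lit 454) (B (L (nat_lit 455) ln10_13_1_c10 ln10_13_1_c10_ok) (L (nat_lit 453) ln9_13_1_c10 ln9_13_1_c10_ok))))) (B (M (nat_lit 422) (B (M (nat_lit 457) (B (L (nat_lit 458) ln6_13_0_c10 ln6_13_0_c10_ok) (M (nat_lit 421) (B (L (nat_lit 456) ln5_13_0_c10 ln5_13_0_c10_ok) (M (nat_lit 393) (B (L (nat_lit 394) ln6_13_2_c10 ln6_13_2_c10_ok) (L (nat_lit 392) ln5_13_2_c10 ln5_13_2_c10_ok))))))) (B (M (nat_lit 421) (B (M (nat_lit 457) (B (L (nat_lit 458) ln6_13_0_c10 ln6_13_0_c10_ok) (L (nat_lit 456) ln5_13_0_c10 ln5_13_0_c10_ok))) (M (nat_lit 453) (B (L (nat_lit 454) ln9_13_1_c10 ln9_13_1_c10_ok) (L (nat_lit 452) ln8_13_1_c10 ln8_13_1_c10_ok))))) (M (nat_lit 394) (B (L (nat_lit 395) ln7_13_2 ln7_13_2_ok) (L (nat_lit 393) ln6_13_2_c10 ln6_13_2_c10_ok)))))) (B (K (nat_lit 20839919904714897842993183875746935449619167126634299295237870792374994815616830501450048634126148993657954804702703088603345859877449760768)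 (nat_lit 73710203633822521352019170315913938582216897713656489762023423544725416215258465691822276483416783803892583715418665905519468844758765195020056452701051068206851031040) (nat_lit 73710203633822521352019170315913938582216897713656489762023423544725416215258465691822276483416783803892583715418665905519468844758765195020056452701051068206851031040) c10_s264) (B (K (nat_lit 20839919904714897842993183875746935449619167126634299295237870792374994815616830501450048634126148993657954804702703088603345859877449760768) (nat_lit 10297196492593417459673745372593013331466105037552314662305513321010081771629248623405255119124854457508931126640698247862554712249013581552434345266544377856) (nat_lit 10297196492593417459673745372593013331466105037552314662305513321010081771629248623405255119124854457508931126640698247862554712249013581552434345266544377856) c10_s269) (B (K (nat_lit 20839919904714897842993183875746935449619167126634299295237870792374994815616830501450048634126148993657954804702703088603345859877449760768)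 (nat_lit 44226122219079619599980041285789771034945362848096535990779042969276543274715541662801886296864749584281703470553355288358439033157545375939910824114891353477378736128) (nat_lit 44226122219079619599980041285789771034945362848096535990779042969276543274715541662801886296864749584281703470553355288358439033157545375939910824114891353477378736128) c10_s265) (M (nat_lit 455) (B (L (nat_lit 454) ln10_13_1_c10 ln10_13_1_c10_ok) (M (nat_lit 456) (B (L (nat_lit 427) ln11_13_1_c10 ln11_13_1_c10_ok) (M (nat_lit 487) (B (M (nat_lit 519) (B (L (nat_lit 551) ln7_17_6_c10 ln7_17_6_c10_ok) (M (nat_lit 520) (B (L (nat_lit 552) ln7_13_4_c10 ln7_13_4_c10_ok) (M (nat_lit 391) (B (L (nat_lit 488) ln7_12_4_c10 ln7_12_4_c10_ok) (M (nat_lit 518) (B (L (nat_lit 486) ln7_12_5_c10 ln7_12_5_c10_ok) (L (nat_lit 550) ln7_13_5_c10 ln7_13_5_c10_ok))))))))) (B (M (nat_lit 519) (B (L (nat_lit 551) ln7_17_6_c10 ln7_17_6_c10_ok) (M (nat_lit 520) (B (L (nat_lit 552) ln7_13_4_c10 ln7_13_4_c10_ok) (M (nat_lit 488) (B (L (nat_lit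 391) ln7_12_4_c10 ln7_12_4_c10_ok) (M (nat_lit 518) (B (L (nat_lit 550) ln7_13_5_c10 ln7_13_5_c10_ok) (M (nat_lit 517) (B (L (nat_lit 516) ln4_16_2_c10 ln4_16_2_c10_ok) (L (nat_lit 489) ln5_16_2_c10 ln5_16_2_c10_ok))))))))))) (B (M (nat_lit 519) (B (L (nat_lit 551) ln7_17_6_c10 ln7_17_6_c10_ok) (M (nat_lit 520) (B (L (nat_lit 552) ln7_13_4_c10 ln7_13_4_c10_ok) (M (nat_lit 488) (B (L (nat_lit 391) ln7_12_4_c10 ln7_12_4_c10_ok) (M (nat_lit 521) (B (L (nat_lit 553) ln8_13_4_c10 ln8_13_4_c10_ok) (M (nat_lit 486) (B (L (nat_lit 485) ln5_15_0_c10 ln5_15_0_c10_ok) (L (nat_lit 522) ln10_16_3_c10 ln10_16_3_c10_ok))))))))))) (B (M (nat_lit 519) (B (L (nat_lit 551) ln7_17_6_c10 ln7_17_6_c10_ok) (M (nat_lit 520) (B (L (nat_lit 552) ln7_13_4_c10 ln7_13_4_c10_ok) (M (nat_lit 488) (B (M (nat_lit 518) (B (L (nat_lit 550) ln7_13_5_c10 ln7_13_5_c10_ok) (M (nat_lit 517) (B (L (nat_lit 516) ln4_16_2_c10 ln4_16_2_c10_ok) (L (nat_lit 489) ln5_16_2_c10 ln5_16_2_c10_ok))))) (M (nat_lit 521) (B (L (nat_lit 553) ln8_13_4_c10 ln8_13_4_c10_ok)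 (M (nat_lit 486) (B (L (nat_lit 485) ln5_15_0_c10 ln5_15_0_c10_ok) (L (nat_lit 522) ln10_16_3_c10 ln10_16_3_c10_ok))))))))))) (B (M (nat_lit 488) (B (M (nat_lit 391) (B (L (nat_lit 359) ln7_11_4_c10 ln7_11_4_c10_ok) (L (nat_lit 520) ln7_12_4_c10 ln7_12_4_c10_ok))) (B (M (nat_lit 520) (B (L (nat_lit 391) ln7_12_4_c10 ln7_12_4_c10_ok) (L (nat_lit 552) ln8_17_7_c10 ln8_17_7_c10_ok))) (B (M (nat_lit 520) (B (L (nat_lit 552) ln8_17_7_c10 ln8_17_7_c10_ok) (M (nat_lit 521) (B (L (nat_lit 553) ln8_13_4_c10 ln8_13_4_c10_ok) (M (nat_lit 486) (B (L (nat_lit 485) ln5_15_0_c10 ln5_15_0_c10_ok) (M (nat_lit 522) (B (L (nat_lit 489) ln6_15_0 ln6_15_0_ok) (L (nat_lit 523) ln11_16_3_c10 ln11_16_3_c10_ok))))))))) (M (nat_lit 486) (B (M (nat_lit 485) (B (L (nat_lit 484) ln4_15_2_c10 ln4_15_2_c10_ok) (L (nat_lit 457) ln5_15_2_c10 ln5_15_2_c10_ok))) (M (nat_lit 391) (B (L (nat_lit 518) ln7_12_5_c10 ln7_12_5_c10_ok) (L (nat_lit 359) ln7_11_4_c10 ln7_11_4_c10_ok))))))))) (B (M (nat_lit 519) (B (L (nat_lit 551) ln7_17_6_c10 ln7_17_6_c10_ok)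 (M (nat_lit 520) (B (L (nat_lit 552) ln7_13_4_c10 ln7_13_4_c10_ok) (M (nat_lit 518) (B (L (nat_lit 550) ln7_13_5_c10 ln7_13_5_c10_ok) (M (nat_lit 486) (B (L (nat_lit 391) ln7_12_5_c10 ln7_12_5_c10_ok) (M (nat_lit 485) (B (L (nat_lit 484) ln4_15_0_c10 ln4_15_0_c10_ok) (L (nat_lit 521) ln9_16_3_c10 ln9_16_3_c10_ok))))))))))) (M (nat_lit 519) (B (L (nat_lit 551) ln7_17_6_c10 ln7_17_6_c10_ok) (M (nat_lit 518) (B (L (nat_lit 550) ln7_13_5_c10 ln7_13_5_c10_ok) (M (nat_lit 486) (B (L (nat_lit 391) ln7_12_5_c10 ln7_12_5_c10_ok) (M (nat_lit 488) (B (M (nat_lit 485) (B (L (nat_lit 484) ln4_15_2_c10 ln4_15_2_c10_ok) (L (nat_lit 457) ln5_15_2_c10 ln5_15_2_c10_ok))) (M (nat_lit 517) (B (L (nat_lit 516) ln4_16_2_c10 ln4_16_2_c10_ok) (L (nat_lit 489) ln9_15_1_c10 ln9_15_1_c10_ok)))))))))))))))))))))))))))) (K (nat_lit 20839919904693236361007865009656479088805549285201202130586497225381475443893278772482817183946149193610266214248817219767709894472535900160) (nat_lit 10297196492993001274951510588974765164301866587996297578029690945870000448577844948958842673392544980913076705575417757333211727360111519484297507747666067456)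 (nat_lit 10297196492993001274951510588974765164301866587996297578029690945870000448577844948958842673392544980913076705575417757333211727360111519484297507747666067456) c10_s270))
noncomputable def c10_d311 : Cert := (B (K (nat_lit 20839919904693236361007865009656479088805549285201202130586497225381475443893278772482817183946149193610266214248817219767709894472535900160) (nat_lit 1716199415432236243348734080008484628117142554906041950644735914174390640684186220025169373047769395953630127917104474162883869016668826483456457798424985600) (nat_lit 1716199415432236243348734080008484628117142554906041950644735914174390640684186220025169373047769395953630127917104474162883869016668826483456457798424985600) c10_s260) (B (K (nat_lit 20839919904693236361007865009656479088805549285201202130586497225381475443893278772482817183946149193610266214248817219767709894472535900160) (nat_lit 126633165605826663977847697343664183780196930912916041560072511702954816412455519573104607493423239027718908698619619515017740653818693698489708834068896118913637541740409782272)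 (nat_lit 126633165605826663977847697343664183780196930912916041560072511702954816412455519573104607493423239027718908698619619515017740653818693698489708834068896118913637541740409782272) c10_s192) (B (M (nat_lit 423) (B (K (nat_lit 20839919904714897842993183875746935449619167126634299295237870792374994815616830501450048634126148993657954804702703088603345859877449760768) (nat_lit 3432398832462807745517533364316844912285792472487553868786899918990987246428254624521947264908823574295927934430915046802735798054876496030763664210596462592) (nat_lit 3432398832462807745517533364316844912285792472487553868786899918990987246428254624521947264908823574295927934430915046802735798054876496030763664210596462592) c10_s261) (B (K (nat_lit 20839919904714897842993183875746935449619167126634299295237870792374994815616830501450048634126148993657954804702703088603345859877449760768) (nat_lit 73710203633822521352019170315913938582216897713660902786717419726397191467749681776568445414215075933919393924279941426357876532347243592840603563252821410541765394432)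 (nat_lit 73710203633822521352019170315913938582216897713660902786717419726397191467749681776568445414215075933919393924279941426357876532347243592840603563252821410541765394432) c10_s262) (B (M (nat_lit 422) (B (M (nat_lit 421) (B (M (nat_lit 389) (B (L (nat_lit 388) ln8_13_3_c10 ln8_13_3_c10_ok) (L (nat_lit 390) ln9_13_3_c10 ln9_13_3_c10_ok))) (M (nat_lit 453) (B (L (nat_lit 452) ln8_13_1_c10 ln8_13_1_c10_ok) (L (nat_lit 454) ln9_13_1_c10 ln9_13_1_c10_ok))))) (B (M (nat_lit 453) (B (L (nat_lit 454) ln9_13_1_c10 ln9_13_1_c10_ok) (M (nat_lit 421) (B (L (nat_lit 452) ln8_13_1_c10 ln8_13_1_c10_ok) (M (nat_lit 393) (B (L (nat_lit 392) ln5_13_2_c10 ln5_13_2_c10_ok) (L (nat_lit 394) ln6_13_2_c10 ln6_13_2_c10_ok))))))) (B (M (nat_lit 421) (B (M (nat_lit 389) (B (L (nat_lit 388) ln8_13_3_c10 ln8_13_3_c10_ok) (L (nat_lit 390) ln9_13_3_c10 ln9_13_3_c10_ok))) (M (nat_lit 393) (B (L (nat_lit 392) ln5_13_2_c10 ln5_13_2_c10_ok) (L (nat_lit 394) ln6_13_2_c10 ln6_13_2_c10_ok))))) (M (nat_lit 454) (B (L (nat_lit 453)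 ln9_13_1_c10 ln9_13_1_c10_ok) (M (nat_lit 390) (B (L (nat_lit 389) ln9_13_3_c10 ln9_13_3_c10_ok) (M (nat_lit 358) (B (L (nat_lit 455) ln10_13_1_c10 ln10_13_1_c10_ok) (M (nat_lit 326) (B (M (nat_lit 325) (B (L (nat_lit 293) ln6_13_7_c10 ln6_13_7_c10_ok) (L (nat_lit 357) ln6_14_7_c10 ln6_14_7_c10_ok))) (M (nat_lit 327) (B (L (nat_lit 295) ln6_13_6_c10 ln6_13_6_c10_ok) (L (nat_lit 359) ln6_14_6_c10 ln6_14_6_c10_ok))))))))))))))) (B (M (nat_lit 422) (B (M (nat_lit 457) (B (L (nat_lit 458) ln6_13_0_c10 ln6_13_0_c10_ok) (M (nat_lit 453) (B (L (nat_lit 454) ln9_13_1_c10 ln9_13_1_c10_ok) (M (nat_lit 421) (B (L (nat_lit 452) ln8_13_1_c10 ln8_13_1_c10_ok) (L (nat_lit 456) ln5_13_0_c10 ln5_13_0_c10_ok))))))) (B (M (nat_lit 421) (B (M (nat_lit 389) (B (L (nat_lit 388) ln8_13_3_c10 ln8_13_3_c10_ok) (L (nat_lit 390) ln9_13_3_c10 ln9_13_3_c10_ok))) (M (nat_lit 457) (B (L (nat_lit 456) ln5_13_0_c10 ln5_13_0_c10_ok) (L (nat_lit 458) ln6_13_0_c10 ln6_13_0_c10_ok))))) (M (nat_lit 454) (B (L (nat_lit 453) ln9_13_1_c10 ln9_13_1_c10_ok)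 (L (nat_lit 455) ln10_13_1_c10 ln10_13_1_c10_ok)))))) (B (K (nat_lit 20839919904714897842993183875746935449619167126634299295237870792374994815616830501450048634126148993657954804702703088603345859877449760768) (nat_lit 3432398832462807745436127427195736940544268206004097360939292086594007623676727722213715664640123006883394536750973527459930395634974684102207788828191621120) (nat_lit 3432398832462807745436127427195736940544268206004097360939292086594007623676727722213715664640123006883394536750973527459930395634974684102207788828191621120) c10_s263) (B (K (nat_lit 20839919904714897842993183875746935449619167126634299295237870792374994815616830501450048634126148993657954804702703088603345859877449760768) (nat_lit 73710203633822521352019170315913938582216897713656489762023423544725416215258465691822276483416783803892583715418665905519468844758765195020056452701051068206851031040) (nat_lit 73710203633822521352019170315913938582216897713656489762023423544725416215258465691822276483416783803892583715418665905519468844758765195020056452701051068206851031040)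 c10_s264) (K (nat_lit 20839919904714897842993183875746935449619167126634299295237870792374994815616830501450048634126148993657954804702703088603345859877449760768) (nat_lit 44226122219079619599980041285789771034945362848096535990779042969276543274715541662801886296864749584281703470553355288358439033157545375939910824114891353477378736128) (nat_lit 44226122219079619599980041285789771034945362848096535990779042969276543274715541662801886296864749584281703470553355288358439033157545375939910824114891353477378736128) c10_s265)))))))) (B (K (nat_lit 20839919904693236361007865009656479088805549285201202130586497225381475443893278772482817183946149193610266214248817219767709894472535900160) (nat_lit 82923979088050336521021566605230193288977869917727739427968402649136542854873333547240162748249780501832081998661148712438954291332120932290820936991370943532911034368) (nat_lit 82923979088050336521021566605230193288977869917727739427968402649136542854873333547240162748249780501832081998661148712438954291332120932290820936991370943532911034368)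 c10_s268) c10_d310))))
noncomputable def c10_d312 : Cert := (B (M (nat_lit 423) (B (K (nat_lit 20839919904714897842993183875746935449619167126634299295237870792374994815616830501450048634126148993657954804702703088603345859877449760768) (nat_lit 81405937137354083386230144539449760304747979947570057997732207150250574293096019671536077755898345714881025499621400167750643253782773760) (nat_lit 81405937137354083386230144539449760304747979947570057997732207150250574293096019671536077755898345714881025499621400167750643253782773760) c10_s255) (B (K (nat_lit 20839919904714897842993183875746935449619167126634299295237870792374994815616830501450048634126148993657954804702703088603345859877449760768) (nat_lit 174441293847191765295848283260953422035672165160981799739432367243339731459322125999686136863920190626400144818127669337184919600809115648) (nat_lit 174441293847191765295848283260953422035672165160981799739432367243339731459322125999686136863920190626400144818127669337184919600809115648) c10_s256) (B (K (nat_lit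 20839919904714897842993183875746935449619167126634299295237870792374994815616830501450048634126148993657954804702703088603345859877449760768) (nat_lit 162811874253046684484534015400133559445575090492939997321078449709807146452797417031233562126698313886411895707840779378470418137095340032) (nat_lit 162811874253046684484534015400133559445575090492939997321078449709807146452797417031233562126698313886411895707840779378470418137095340032) c10_s200) (B (K (nat_lit 20839919904714897842993183875746935449619167126634299295237870792374994815616830501450048634126148993657954804702703088603345859877449760768) (nat_lit 3685510186496484430811219996972707806125662390354773663148475331233249585124350775715703246766323080204149646301368144035030335505296080439733959809159543926995025920) (nat_lit 3685510186496484430811219996972707806125662390354773663148475331233249585124350775715703246766323080204149646301368144035030335505296080439733959809159543926995025920) c10_s201) (B (K (nat_lit 20839919904714897842993183875746935449619167126634299295237870792374994815616830501450048634126148993657954804702703088603345859877449760768)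 (nat_lit 3432398830864472487023091907762203070291876549327256039356642713023811802714521773468208813620083509679895830688993351656174773520546947602280947666177228800) (nat_lit 3432398830864472487023091907762203070291876549327256039356642713023811802714521773468208813620083509679895830688993351656174773520546947602280947666177228800) c10_s257) (K (nat_lit 20839919904714897842993183875746935449619167126634299295237870792374994815616830501450048634126148993657954804702703088603345859877449760768) (nat_lit 3432398830864472487104497844883311041948292482426500472105727818804481219647076438952235049086015763339258469342500896078325360829897341746694506589519347712) (nat_lit 3432398830864472487104497844883311041948292482426500472105727818804481219647076438952235049086015763339258469342500896078325360829897341746694506589519347712) c10_s258))))))) (B (K (nat_lit 20839919904693236361007865009656479088805549285201202130586497225381475443893278772482817183946149193610266214248817219767709894472535900160) (nat_lit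 3432398831264056301161174004085613475477076991587298222230268416110288228807935921507988435722563836175888251122457637738503478989216221645550051670309732352) (nat_lit 3432398831264056301161174004085613475477076991587298222230268416110288228807935921507988435722563836175888251122457637738503478989216221645550051670309732352) c10_s187) (B (K (nat_lit 20839919904693236361007865009656479088805549285201202130586497225381475443893278772482817183946149193610266214248817219767709894472535900160) (nat_lit 3432398830864472486720726998804522000714951165819988819376504298894944284248548132398806628813880688425050092695968212480623854906565545096137871720330559488) (nat_lit 3432398830864472486720726998804522000714951165819988819376504298894944284248548132398806628813880688425050092695968212480623854906565545096137871720330559488) c10_s191) (B (K (nat_lit 20839919904693236361007865009656479088805549285201202130586497225381475443893278772482817183946149193610266214248817219767709894472535900160) (nat_lit 1716199417030571501668734242724057760579248164654205688169727520667871733086561579786291902442091470149943655289166821044159139298099986590543574800560816128)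 (nat_lit 1716199417030571501668734242724057760579248164654205688169727520667871733086561579786291902442091470149943655289166821044159139298099986590543574800560816128) c10_s188) (B (K (nat_lit 20839919904693236361007865009656479088805549285201202130586497225381475443893278772482817183946149193610266214248817219767709894472535900160) (nat_lit 3432398830864472486697468159627062580217372803967572674277187775352950106319540446025026171594251954878611979073127778382679454215165027402264764468214890496) (nat_lit 3432398830864472486697468159627062580217372803967572674277187775352950106319540446025026171594251954878611979073127778382679454215165027402264764468214890496) c10_s215) (B (K (nat_lit 20839919904693236361007865009656479088805549285201202130586497225381475443893278772482817183946149193610266214248817219767709894472535900160) (nat_lit 1716199417030571501668734242724057760577987300455921064834934591384667137444799028129637008148717124761007792192478910304593882777943669290037762704870998016) (nat_lit 1716199417030571501668734242724057760577987300455921064834934591384667137444799028129637008148717124761007792192478910304593882777943669290037762704870998016)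 c10_s205) (B (K (nat_lit 20839919904693236361007865009656479088805549285201202130586497225381475443893278772482817183946149193610266214248817219767709894472535900160) (nat_lit 63316582802913331988923848672631259518967730047962180327840444059757333428062886350897794918099706746816329762611952262587762619052042387797990524035903175554497795054513422336) (nat_lit 63316582802913331988923848672631259518967730047962180327840444059757333428062886350897794918099706746816329762611952262587762619052042387797990524035903175554497795054513422336) c10_s259) c10_d311)))))))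
noncomputable def c10_d313 : Cert := (B (M (nat_lit 423) (B (M (nat_lit 422) (B (M (nat_lit 458) (B (L (nat_lit 459) ln7_13_0 ln7_13_0_ok) (L (nat_lit 457) ln6_13_0_c10 ln6_13_0_c10_ok))) (M (nat_lit 421) (B (M (nat_lit 393) (B (L (nat_lit 394) ln6_13_2_c10 ln6_13_2_c10_ok) (L (nat_lit 392) ln5_13_2_c10 ln5_13_2_c10_ok))) (M (nat_lit 453) (B (L (nat_lit 454) ln9_13_1_c10 ln9_13_1_c10_ok) (L (nat_lit 452) ln8_13_1_c10 ln8_13_1_c10_ok))))))) (B (M (nat_lit 427) (B (M (nat_lit 455) (B (L (nat_lit 454) ln10_13_1_c10 ln10_13_1_c10_ok) (L (nat_lit 456) ln11_13_1_c10 ln11_13_1_c10_ok))) (L (nat_lit 459) ln8_13_0 ln8_13_0_ok))) (B (M (nat_lit 422) (B (M (nat_lit 454) (B (L (nat_lit 455) ln10_13_1_c10 ln10_13_1_c10_ok) (L (nat_lit 453) ln9_13_1_c10 ln9_13_1_c10_ok))) (M (nat_lit 390) (B (L (nat_lit 391) ln10_13_3_c10 ln10_13_3_c10_ok) (L (nat_lit 389) ln9_13_3_c10 ln9_13_3_c10_ok))))) (M (nat_lit 427) (B (M (nat_lit 391) (B (L (nat_lit 390) ln10_13_3_c10 ln10_13_3_c10_ok) (L (nat_lit 392) ln11_13_3 ln11_13_3_ok)))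 (L (nat_lit 459) ln8_13_0 ln8_13_0_ok))))))) (B (K (nat_lit 20839919904693236361007865009656479088805549285201202130586497225381475443893278772482817183946149193610266214248817219767709894472535900160) (nat_lit 2767801862496746973973818179994776931078872465824576489577390375716286828698589729786723845718326819583412863022009069702116339023104442368) (nat_lit 2767801862496746973973818179994776931078872465824576489577390375716286828698589729786723845718326819583412863022009069702116339023104442368) c10_s202) (B (K (nat_lit 20839919904693236361007865009656479088805549285201202130586497225381475443893278772482817183946149193610266214248817219767709894472535900160) (nat_lit 2953872575916422337944358161227829105195061219894893147875351453453291332108624835046741849927547006450446016391962672849054700274511249408) (nat_lit 2953872575916422337944358161227829105195061219894893147875351453453291332108624835046741849927547006450446016391962672849054700274511249408) c10_s203) (B (K (nat_lit 20839919904693236361007865009656479088805549285201202130586497225381475443893278772482817183946149193610266214248817219767709894472535900160)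 (nat_lit 18427550908455630338004792581586381988355292646812088139151786159282376086556672172675658160788095102322238626578790053359267521481401580289126336982455919632787177472) (nat_lit 18427550908455630338004792581586381988355292646812088139151786159282376086556672172675658160788095102322238626578790053359267521481401580289126336982455919632787177472) c10_s219) (B (K (nat_lit 20839919904693236361007865009656479088805549285201202130586497225381475443893278772482817183946149193610266214248817219767709894472535900160) (nat_lit 3432398830864472486720726998804522000714951165819988819376504298894944284248548132398806628813880688425050092695968212480623854906565545096137871720330559488) (nat_lit 3432398830864472486720726998804522000714951165819988819376504298894944284248548132398806628813880688425050092695968212480623854906565545096137871720330559488) c10_s191) (B (K (nat_lit 20839919904693236361007865009656479088805549285201202130586497225381475443893278772482817183946149193610266214248817219767709894472535900160)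 (nat_lit 2930613736738962917456866712961689946774088130618535735080444180332750029235990864611790641078209858269023667861812693559228089787914125312) (nat_lit 2930613736738962917456866712961689946774088130618535735080444180332750029235990864611790641078209858269023667861812693559228089787914125312) c10_s204) (B (M (nat_lit 423) (B (M (nat_lit 391) (B (L (nat_lit 390) ln10_13_3_c10 ln10_13_3_c10_ok) (M (nat_lit 427) (B (L (nat_lit 392) ln11_13_3 ln11_13_3_ok) (M (nat_lit 455) (B (L (nat_lit 454) ln10_13_1_c10 ln10_13_1_c10_ok) (L (nat_lit 456) ln11_13_1_c10 ln11_13_1_c10_ok))))))) (B (M (nat_lit 427) (B (M (nat_lit 391) (B (L (nat_lit 390) ln10_13_3_c10 ln10_13_3_c10_ok) (L (nat_lit 392) ln11_13_3 ln11_13_3_ok))) (L (nat_lit 459) ln8_13_0 ln8_13_0_ok))) (B (M (nat_lit 427) (B (M (nat_lit 455) (B (L (nat_lit 454) ln10_13_1_c10 ln10_13_1_c10_ok) (L (nat_lit 456) ln11_13_1_c10 ln11_13_1_c10_ok))) (L (nat_lit 459) ln8_13_0 ln8_13_0_ok))) (M (nat_lit 422) (B (M (nat_lit 454) (B (L (nat_lit 453) ln9_13_1_c10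 ln9_13_1_c10_ok) (L (nat_lit 455) ln10_13_1_c10 ln10_13_1_c10_ok))) (M (nat_lit 458) (B (L (nat_lit 457) ln6_13_0_c10 ln6_13_0_c10_ok) (L (nat_lit 459) ln7_13_0 ln7_13_0_ok))))))))) (B (K (nat_lit 20839919904693236361007865009656479088805549285201202130586497225381475443893278772482817183946149193610266214248817219767709894472535900160) (nat_lit 2686395925381054372789145111551596433504729699379691748793309344675869997442745673284919739224404965751661921183081955406748435585039335424) (nat_lit 2686395925381054372789145111551596433504729699379691748793309344675869997442745673284919739224404965751661921183081955406748435585039335424) c10_s254) (B (K (nat_lit 20839919904693236361007865009656479088805549285201202130586497225381475443893278772482817183946149193610266214248817219767709894472535900160) (nat_lit 126633165605826663977847697343664183780196930912916041560072511702954816412455519573104607493423239027718908698619619515017740653818693698489708834068896118913637541740409782272) (nat_lit 126633165605826663977847697343664183780196930912916041560072511702954816412455519573104607493423239027718908698619619515017740653818693698489708834068896118913637541740409782272)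 c10_s192) (B (K (nat_lit 20839919904693236361007865009656479088805549285201202130586497225381475443893278772482817183946149193610266214248817219767709894472535900160) (nat_lit 17161994154322362434813094629793765205811311345187555970067282228011941959454940757541770266602977115167778693934812502982705374185085792142053854228955267072) (nat_lit 17161994154322362434813094629793765205811311345187555970067282228011941959454940757541770266602977115167778693934812502982705374185085792142053854228955267072) c10_s248) (K (nat_lit 20839919904693236361007865009656479088805549285201202130586497225381475443893278772482817183946149193610266214248817219767709894472535900160) (nat_lit 17161994154322362434650282755551549262337088861608635317715617068200414883444224814521891326119196398065262940251744839474051364986376389388482788133974310912) (nat_lit 17161994154322362434650282755551549262337088861608635317715617068200414883444224814521891326119196398065262940251744839474051364986376389388482788133974310912) c10_s249)))))))))))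
noncomputable def c10_d314 : Cert := (B (M (nat_lit 488) (B (M (nat_lit 393) (B (L (nat_lit 520) ln8_16_6_c10 ln8_16_6_c10_ok) (M (nat_lit 361) (B (L (nat_lit 457) ln9_11_5_c10 ln9_11_5_c10_ok) (L (nat_lit 329) ln9_10_5_c10 ln9_10_5_c10_ok))))) (B (M (nat_lit 393) (B (L (nat_lit 520) ln8_16_6_c10 ln8_16_6_c10_ok) (M (nat_lit 361) (B (L (nat_lit 329) ln9_10_5_c10 ln9_10_5_c10_ok) (L (nat_lit 392) ln8_15_6_c10 ln8_15_6_c10_ok))))) (B (M (nat_lit 520) (B (M (nat_lit 552) (B (L (nat_lit 457) ln8_17_6_c10 ln8_17_6_c10_ok) (M (nat_lit 553) (B (L (nat_lit 585) ln8_14_4_c10 ln8_14_4_c10_ok) (L (nat_lit 521) ln8_13_4_c10 ln8_13_4_c10_ok))))) (B (M (nat_lit 552) (B (L (nat_lit 457) ln8_17_6_c10 ln8_17_6_c10_ok) (M (nat_lit 551) (B (L (nat_lit 583) ln8_14_5_c10 ln8_14_5_c10_ok) (L (nat_lit 519) ln8_13_5_c10 ln8_13_5_c10_ok))))) (M (nat_lit 392) (B (M (nat_lit 521) (B (L (nat_lit 553) ln8_13_4_c10 ln8_13_4_c10_ok) (L (nat_lit 489) ln8_12_4_c10 ln8_12_4_c10_ok))) (M (nat_lit 519) (B (L (nat_lit 551) ln8_13_5_c10 ln8_13_5_c10_ok)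 (L (nat_lit 487) ln8_12_5_c10 ln8_12_5_c10_ok)))))))) (M (nat_lit 489) (B (M (nat_lit 521) (B (L (nat_lit 392) ln8_12_4_c10 ln8_12_4_c10_ok) (M (nat_lit 553) (B (L (nat_lit 585) ln9_18_7_c10 ln9_18_7_c10_ok) (L (nat_lit 457) ln9_17_7_c10 ln9_17_7_c10_ok))))) (B (M (nat_lit 392) (B (L (nat_lit 521) ln8_12_4_c10 ln8_12_4_c10_ok) (M (nat_lit 361) (B (L (nat_lit 393) ln8_15_6_c10 ln8_15_6_c10_ok) (M (nat_lit 360) (B (L (nat_lit 457) ln8_11_4_c10 ln8_11_4_c10_ok) (L (nat_lit 329) ln8_14_6_c10 ln8_14_6_c10_ok))))))) (B (M (nat_lit 392) (B (M (nat_lit 361) (B (L (nat_lit 393) ln8_15_6_c10 ln8_15_6_c10_ok) (M (nat_lit 360) (B (L (nat_lit 457) ln8_11_4_c10 ln8_11_4_c10_ok) (L (nat_lit 329) ln8_14_6_c10 ln8_14_6_c10_ok))))) (B (M (nat_lit 360) (B (M (nat_lit 361) (B (L (nat_lit 393) ln8_15_6_c10 ln8_15_6_c10_ok) (L (nat_lit 329) ln8_14_6_c10 ln8_14_6_c10_ok))) (M (nat_lit 487) (B (L (nat_lit 519) ln8_12_5_c10 ln8_12_5_c10_ok) (L (nat_lit 455) ln8_11_5_c10 ln8_11_5_c10_ok))))) (B (M (nat_lit 360) (B (L (nat_lit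 457) ln8_11_4_c10 ln8_11_4_c10_ok) (M (nat_lit 487) (B (L (nat_lit 519) ln8_12_5_c10 ln8_12_5_c10_ok) (L (nat_lit 455) ln8_11_5_c10 ln8_11_5_c10_ok))))) (M (nat_lit 490) (B (M (nat_lit 455) (B (L (nat_lit 491) ln11_15_3 ln11_15_3_ok) (M (nat_lit 487) (B (L (nat_lit 454) ln10_15_3 ln10_15_3_ok) (L (nat_lit 519) ln8_12_5_c10 ln8_12_5_c10_ok))))) (B (M (nat_lit 522) (B (M (nat_lit 487) (B (L (nat_lit 523) ln7_15_0 ln7_15_0_ok) (L (nat_lit 519) ln8_12_5_c10 ln8_12_5_c10_ok))) (M (nat_lit 393) (B (L (nat_lit 457) ln9_12_4 ln9_12_4_ok) (L (nat_lit 361) ln8_15_6_c10 ln8_15_6_c10_ok))))) (B (M (nat_lit 455) (B (L (nat_lit 491) ln11_15_3 ln11_15_3_ok) (M (nat_lit 454) (B (L (nat_lit 457) ln6_14_0_c10 ln6_14_0_c10_ok) (L (nat_lit 487) ln10_15_3 ln10_15_3_ok))))) (M (nat_lit 455) (B (L (nat_lit 491) ln11_15_3 ln11_15_3_ok) (M (nat_lit 454) (B (L (nat_lit 457) ln6_14_0_c10 ln6_14_0_c10_ok) (L (nat_lit 423) ln10_13_1_c10 ln10_13_1_c10_ok))))))))))))) (B (M (nat_lit 455) (B (M (nat_lit 454) (B (L (nat_lit 423) ln10_13_1_c10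 ln10_13_1_c10_ok) (L (nat_lit 453) ln5_14_0_c10 ln5_14_0_c10_ok))) (M (nat_lit 392) (B (L (nat_lit 521) ln8_12_4_c10 ln8_12_4_c10_ok) (M (nat_lit 487) (B (L (nat_lit 519) ln8_12_5_c10 ln8_12_5_c10_ok) (L (nat_lit 360) ln8_11_5_c10 ln8_11_5_c10_ok))))))) (M (nat_lit 490) (B (M (nat_lit 455) (B (L (nat_lit 491) ln11_15_3 ln11_15_3_ok) (M (nat_lit 454) (B (L (nat_lit 457) ln6_14_0_c10 ln6_14_0_c10_ok) (L (nat_lit 487) ln10_15_3 ln10_15_3_ok))))) (B (M (nat_lit 487) (B (M (nat_lit 455) (B (L (nat_lit 454) ln10_15_3 ln10_15_3_ok) (M (nat_lit 519) (B (L (nat_lit 518) ln10_15_1 ln10_15_1_ok) (L (nat_lit 551) ln7_17_6_c10 ln7_17_6_c10_ok))))) (M (nat_lit 521) (B (M (nat_lit 522) (B (L (nat_lit 523) ln7_15_0 ln7_15_0_ok) (L (nat_lit 486) ln6_15_0 ln6_15_0_ok))) (M (nat_lit 553) (B (L (nat_lit 585) ln9_18_7_c10 ln9_18_7_c10_ok) (L (nat_lit 457) ln9_17_7_c10 ln9_17_7_c10_ok))))))) (B (M (nat_lit 455) (B (L (nat_lit 491) ln11_15_3 ln11_15_3_ok) (M (nat_lit 454) (B (L (nat_lit 487) ln10_15_3 ln10_15_3_ok) (L (nat_lit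 423) ln10_13_1_c10 ln10_13_1_c10_ok))))) (B (M (nat_lit 455) (B (L (nat_lit 491) ln11_15_3 ln11_15_3_ok) (M (nat_lit 454) (B (L (nat_lit 457) ln6_14_0_c10 ln6_14_0_c10_ok) (L (nat_lit 423) ln10_13_1_c10 ln10_13_1_c10_ok))))) (M (nat_lit 522) (B (M (nat_lit 523) (B (L (nat_lit 487) ln7_15_0 ln7_15_0_ok) (M (nat_lit 524) (B (L (nat_lit 525) ln13_16_3 ln13_16_3_ok) (L (nat_lit 521) ln12_16_3 ln12_16_3_ok))))) (B (M (nat_lit 523) (B (L (nat_lit 487) ln7_15_0 ln7_15_0_ok) (M (nat_lit 524) (B (L (nat_lit 491) ln8_15_0 ln8_15_0_ok) (L (nat_lit 521) ln12_16_3 ln12_16_3_ok))))) (B (M (nat_lit 457) (B (L (nat_lit 393) ln9_12_4 ln9_12_4_ok) (M (nat_lit 554) (B (L (nat_lit 586) ln10_18_7_c10 ln10_18_7_c10_ok) (L (nat_lit 521) ln9_13_4 ln9_13_4_ok))))) (M (nat_lit 523) (B (L (nat_lit 487) ln7_15_0 ln7_15_0_ok) (M (nat_lit 524) (B (L (nat_lit 525) ln13_16_3 ln13_16_3_ok) (L (nat_lit 491) ln8_15_0 ln8_15_0_ok))))))))))))))))))))))) (M (nat_lit 488) (B (M (nat_lit 393) (B (L (nat_lit 520) ln8_16_6_c10 ln8_16_6_c10_ok)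 (M (nat_lit 361) (B (L (nat_lit 392) ln8_15_6_c10 ln8_15_6_c10_ok) (L (nat_lit 457) ln9_11_5_c10 ln9_11_5_c10_ok))))) (B (M (nat_lit 392) (B (M (nat_lit 391) (B (L (nat_lit 359) ln8_15_7_c10 ln8_15_7_c10_ok) (L (nat_lit 427) ln11_13_3 ln11_13_3_ok))) (M (nat_lit 360) (B (M (nat_lit 489) (B (L (nat_lit 521) ln8_12_4_c10 ln8_12_4_c10_ok) (L (nat_lit 457) ln8_11_4_c10 ln8_11_4_c10_ok))) (M (nat_lit 361) (B (L (nat_lit 393) ln8_15_6_c10 ln8_15_6_c10_ok) (L (nat_lit 329) ln8_14_6_c10 ln8_14_6_c10_ok))))))) (B (M (nat_lit 393) (B (L (nat_lit 520) ln8_16_6_c10 ln8_16_6_c10_ok) (M (nat_lit 361) (B (L (nat_lit 457) ln9_11_5_c10 ln9_11_5_c10_ok) (L (nat_lit 329) ln9_10_5_c10 ln9_10_5_c10_ok))))) (B (M (nat_lit 393) (B (L (nat_lit 520) ln8_16_6_c10 ln8_16_6_c10_ok) (M (nat_lit 361) (B (L (nat_lit 392) ln8_15_6_c10 ln8_15_6_c10_ok) (L (nat_lit 329) ln9_10_5_c10 ln9_10_5_c10_ok))))) (M (nat_lit 392) (B (M (nat_lit 391) (B (L (nat_lit 359) ln8_15_7_c10 ln8_15_7_c10_ok) (L (nat_lit 427) ln11_13_3 ln11_13_3_ok))) (M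 (nat_lit 520) (B (M (nat_lit 519) (B (L (nat_lit 551) ln8_13_5_c10 ln8_13_5_c10_ok) (L (nat_lit 487) ln8_12_5_c10 ln8_12_5_c10_ok))) (M (nat_lit 521) (B (L (nat_lit 553) ln8_13_4_c10 ln8_13_4_c10_ok) (L (nat_lit 489) ln8_12_4_c10 ln8_12_4_c10_ok)))))))))))))
noncomputable def c10_d315 : Cert := (B (K (nat_lit 20839919904693236361007865009656479088805549285201202130586497225381475443893278772482817183946149193610266214248817219767709894472535900160) (nat_lit 1716199417030571501668734242724057760579248164654205688169727520667871733086561579786291902442091470149943655289166821044159139298099986590543574800560816128) (nat_lit 1716199417030571501668734242724057760579248164654205688169727520667871733086561579786291902442091470149943655289166821044159139298099986590543574800560816128) c10_s188) (B (K (nat_lit 20839919904693236361007865009656479088805549285201202130586497225381475443893278772482817183946149193610266214248817219767709894472535900160) (nat_lit 3432398830864472486697468159627062580217372803967572674277187775352950106319540446025026171594251954878611979073127778382679454215165027402264764468214890496)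 (nat_lit 3432398830864472486697468159627062580217372803967572674277187775352950106319540446025026171594251954878611979073127778382679454215165027402264764468214890496) c10_s215) (B (K (nat_lit 20839919904693236361007865009656479088805549285201202130586497225381475443893278772482817183946149193610266214248817219767709894472535900160) (nat_lit 1716199417030571501668734242724057760577987300455921064834934591384667137444799028129637008148717124761007792192478910304593882777943669290037762704870998016) (nat_lit 1716199417030571501668734242724057760577987300455921064834934591384667137444799028129637008148717124761007792192478910304593882777943669290037762704870998016) c10_s205) (B (K (nat_lit 20839919904693236361007865009656479088805549285201202130586497225381475443893278772482817183946149193610266214248817219767709894472535900160) (nat_lit 63316582802913331988923848672631259518967730047962180327840444059757333428062886350897794918099706746816329762611952262587762619052042387797990524035903175554497795054513422336)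 (nat_lit 63316582802913331988923848672631259518967730047962180327840444059757333428062886350897794918099706746816329762611952262587762619052042387797990524035903175554497795054513422336) c10_s259) (B (K (nat_lit 20839919904693236361007865009656479088805549285201202130586497225381475443893278772482817183946149193610266214248817219767709894472535900160) (nat_lit 1716199415432236243348734080008484628117142554906041950644735914174390640684186220025169373047769395953630127917104474162883869016668826483456457798424985600) (nat_lit 1716199415432236243348734080008484628117142554906041950644735914174390640684186220025169373047769395953630127917104474162883869016668826483456457798424985600) c10_s260) (B (K (nat_lit 20839919904693236361007865009656479088805549285201202130586497225381475443893278772482817183946149193610266214248817219767709894472535900160) (nat_lit 126633165605826663977847697343664183780196930912916041560072511702954816412455519573104607493423239027718908698619619515017740653818693698489708834068896118913637541740409782272)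 (nat_lit 126633165605826663977847697343664183780196930912916041560072511702954816412455519573104607493423239027718908698619619515017740653818693698489708834068896118913637541740409782272) c10_s192) (B (M (nat_lit 456) (B (M (nat_lit 455) (B (L (nat_lit 427) ln11_13_1_c10 ln11_13_1_c10_ok) (M (nat_lit 454) (B (L (nat_lit 453) ln5_14_2_c10 ln5_14_2_c10_ok) (L (nat_lit 423) ln10_13_1_c10 ln10_13_1_c10_ok))))) (B (M (nat_lit 455) (B (L (nat_lit 427) ln11_13_1_c10 ln11_13_1_c10_ok) (M (nat_lit 454) (B (L (nat_lit 423) ln10_13_1_c10 ln10_13_1_c10_ok) (L (nat_lit 457) ln6_14_2_c10 ln6_14_2_c10_ok))))) (B (M (nat_lit 455) (B (L (nat_lit 427) ln11_13_1_c10 ln11_13_1_c10_ok) (M (nat_lit 454) (B (L (nat_lit 453) ln5_14_2_c10 ln5_14_2_c10_ok) (L (nat_lit 457) ln6_14_2_c10 ln6_14_2_c10_ok))))) c10_d314)))) (B (K (nat_lit 20839919904693236361007865009656479088805549285201202130586497225381475443893278772482817183946149193610266214248817219767709894472535900160) (nat_lit 6864797662927696416716277335736413302885813955683272410926771563439622497760412369632336799555086356022946446542906536858757556957647968626143001695011995648)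 (nat_lit 6864797662927696416716277335736413302885813955683272410926771563439622497760412369632336799555086356022946446542906536858757556957647968626143001695011995648) c10_s271) (B (M (nat_lit 423) (B (M (nat_lit 455) (B (L (nat_lit 454) ln10_13_1_c10 ln10_13_1_c10_ok) (M (nat_lit 427) (B (L (nat_lit 459) ln8_13_0 ln8_13_0_ok) (L (nat_lit 456) ln11_13_1_c10 ln11_13_1_c10_ok))))) (B (M (nat_lit 422) (B (M (nat_lit 454) (B (L (nat_lit 453) ln9_13_1_c10 ln9_13_1_c10_ok) (L (nat_lit 455) ln10_13_1_c10 ln10_13_1_c10_ok))) (M (nat_lit 394) (B (L (nat_lit 393) ln6_13_2_c10 ln6_13_2_c10_ok) (L (nat_lit 395) ln7_13_2 ln7_13_2_ok))))) (B (M (nat_lit 394) (B (L (nat_lit 395) ln7_13_2 ln7_13_2_ok) (M (nat_lit 422) (B (L (nat_lit 393) ln6_13_2_c10 ln6_13_2_c10_ok) (M (nat_lit 421) (B (M (nat_lit 453) (B (L (nat_lit 454) ln9_13_1_c10 ln9_13_1_c10_ok) (L (nat_lit 452) ln8_13_1_c10 ln8_13_1_c10_ok))) (M (nat_lit 389) (B (L (nat_lit 390) ln9_13_3_c10 ln9_13_3_c10_ok) (L (nat_lit 388) ln8_13_3_c10 ln8_13_3_c10_ok)))))))))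 (M (nat_lit 422) (B (M (nat_lit 394) (B (L (nat_lit 393) ln6_13_2_c10 ln6_13_2_c10_ok) (L (nat_lit 395) ln7_13_2 ln7_13_2_ok))) (M (nat_lit 421) (B (M (nat_lit 389) (B (L (nat_lit 388) ln8_13_3_c10 ln8_13_3_c10_ok) (L (nat_lit 390) ln9_13_3_c10 ln9_13_3_c10_ok))) (M (nat_lit 456) (B (L (nat_lit 457) ln5_13_0_c10 ln5_13_0_c10_ok) (M (nat_lit 455) (B (L (nat_lit 420) ln4_13_0_c10 ln4_13_0_c10_ok) (L (nat_lit 427) ln11_13_1_c10 ln11_13_1_c10_ok))))))))))))) (K (nat_lit 20839919904693236361007865009656479088805549285201202130586497225381475443893278772482817183946149193610266214248817219767709894472535900160) (nat_lit 10297196492593417459755151310090489552717044540656511948306415002336659348701720296950657790586044185527318149455156479952686597333088357289507134638062043136) (nat_lit 10297196492593417459755151310090489552717044540656511948306415002336659348701720296950657790586044185527318149455156479952686597333088357289507134638062043136) c10_s272))))))))))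
noncomputable def c10_d316 : Cert := (B (M (nat_lit 423) (B (K (nat_lit 20839919904714897842993183875746935449619167126634299295237870792374994815616830501450048634126148993657954804702703088603345859877449760768) (nat_lit 81405937137354083386230144539449760304747979947570057997732207150250574293096019671536077755898345714881025499621400167750643253782773760) (nat_lit 81405937137354083386230144539449760304747979947570057997732207150250574293096019671536077755898345714881025499621400167750643253782773760) c10_s255) (B (K (nat_lit 20839919904714897842993183875746935449619167126634299295237870792374994815616830501450048634126148993657954804702703088603345859877449760768) (nat_lit 174441293847191765295848283260953422035672165160981799739432367243339731459322125999686136863920190626400144818127669337184919600809115648) (nat_lit 174441293847191765295848283260953422035672165160981799739432367243339731459322125999686136863920190626400144818127669337184919600809115648) c10_s256) (B (K (nat_lit 20839919904714897842993183875746935449619167126634299295237870792374994815616830501450048634126148993657954804702703088603345859877449760768)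 (nat_lit 162811874253046684484534015400133559445575090492939997321078449709807146452797417031233562126698313886411895707840779378470418137095340032) (nat_lit 162811874253046684484534015400133559445575090492939997321078449709807146452797417031233562126698313886411895707840779378470418137095340032) c10_s200) (B (K (nat_lit 20839919904714897842993183875746935449619167126634299295237870792374994815616830501450048634126148993657954804702703088603345859877449760768) (nat_lit 3685510186496484430811219996972707806125662390354773663148475331233249585124350775715703246766323080204149646301368144035030335505296080439733959809159543926995025920) (nat_lit 3685510186496484430811219996972707806125662390354773663148475331233249585124350775715703246766323080204149646301368144035030335505296080439733959809159543926995025920) c10_s201) (B (K (nat_lit 20839919904714897842993183875746935449619167126634299295237870792374994815616830501450048634126148993657954804702703088603345859877449760768) (nat_lit 3432398830864472487023091907762203070291876549327256039356642713023811802714521773468208813620083509679895830688993351656174773520546947602280947666177228800)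 (nat_lit 3432398830864472487023091907762203070291876549327256039356642713023811802714521773468208813620083509679895830688993351656174773520546947602280947666177228800) c10_s257) (K (nat_lit 20839919904714897842993183875746935449619167126634299295237870792374994815616830501450048634126148993657954804702703088603345859877449760768) (nat_lit 3432398830864472487104497844883311041948292482426500472105727818804481219647076438952235049086015763339258469342500896078325360829897341746694506589519347712) (nat_lit 3432398830864472487104497844883311041948292482426500472105727818804481219647076438952235049086015763339258469342500896078325360829897341746694506589519347712) c10_s258))))))) (B (M (nat_lit 423) (B (K (nat_lit 20839919904714897842993183875746935449619167126634299295237870792374994815616830501450048634126148993657954804702703088603345859877449760768) (nat_lit 81405937137354083386230144539449760304747979947570057997732207150250574293096019671536077755898345714881025499621400167750643253782773760) (nat_lit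 81405937137354083386230144539449760304747979947570057997732207150250574293096019671536077755898345714881025499621400167750643253782773760) c10_s255) (B (K (nat_lit 20839919904714897842993183875746935449619167126634299295237870792374994815616830501450048634126148993657954804702703088603345859877449760768) (nat_lit 174441293847191765295848283260953422035672165160981799739432367243339731459322125999686136863920190626400144818127669337184919600809115648) (nat_lit 174441293847191765295848283260953422035672165160981799739432367243339731459322125999686136863920190626400144818127669337184919600809115648) c10_s256) (B (K (nat_lit 20839919904714897842993183875746935449619167126634299295237870792374994815616830501450048634126148993657954804702703088603345859877449760768) (nat_lit 162811874253046684484534015400133559445575090492939997321078449709807146452797417031233562126698313886411895707840779378470418137095340032) (nat_lit 162811874253046684484534015400133559445575090492939997321078449709807146452797417031233562126698313886411895707840779378470418137095340032)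 c10_s196) (B (K (nat_lit 20839919904714897842993183875746935449619167126634299295237870792374994815616830501450048634126148993657954804702703088603345859877449760768) (nat_lit 63316582802913331988923848671832091890063577197518539793405446083677706167067652875849600954395954715485254570396365721232892043615451810591416448807941207448927460065049313280) (nat_lit 63316582802913331988923848671832091890063577197518539793405446083677706167067652875849600954395954715485254570396365721232892043615451810591416448807941207448927460065049313280) c10_s197) (B (K (nat_lit 20839919904714897842993183875746935449619167126634299295237870792374994815616830501450048634126148993657954804702703088603345859877449760768) (nat_lit 3432398830864472487023091907762203070291876549327256039356642713023811802714521773468208813620083509679895830688993351656174773520546947602280947666177228800) (nat_lit 3432398830864472487023091907762203070291876549327256039356642713023811802714521773468208813620083509679895830688993351656174773520546947602280947666177228800)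 c10_s257) (K (nat_lit 20839919904714897842993183875746935449619167126634299295237870792374994815616830501450048634126148993657954804702703088603345859877449760768) (nat_lit 3432398830864472487104497844883311041948292482426500472105727818804481219647076438952235049086015763339258469342500896078325360829897341746694506589519347712) (nat_lit 3432398830864472487104497844883311041948292482426500472105727818804481219647076438952235049086015763339258469342500896078325360829897341746694506589519347712) c10_s258))))))) (B (K (nat_lit 20839919904693236361007865009656479088805549285201202130586497225381475443893278772482817183946149193610266214248817219767709894472535900160) (nat_lit 3432398831264056301161174004085613475477076991587298222230268416110288228807935921507988435722563836175888251122457637738503478989216221645550051670309732352) (nat_lit 3432398831264056301161174004085613475477076991587298222230268416110288228807935921507988435722563836175888251122457637738503478989216221645550051670309732352) c10_s187)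 (B (K (nat_lit 20839919904693236361007865009656479088805549285201202130586497225381475443893278772482817183946149193610266214248817219767709894472535900160) (nat_lit 3432398830864472486720726998804522000714951165819988819376504298894944284248548132398806628813880688425050092695968212480623854906565545096137871720330559488) (nat_lit 3432398830864472486720726998804522000714951165819988819376504298894944284248548132398806628813880688425050092695968212480623854906565545096137871720330559488) c10_s191) c10_d315))))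
noncomputable def c10_d317 : Cert := (B (M (nat_lit 423) (B (M (nat_lit 422) (B (M (nat_lit 394) (B (L (nat_lit 393) ln6_13_2_c10 ln6_13_2_c10_ok) (L (nat_lit 395) ln7_13_2 ln7_13_2_ok))) (M (nat_lit 389) (B (L (nat_lit 390) ln9_13_3_c10 ln9_13_3_c10_ok) (M (nat_lit 421) (B (L (nat_lit 388) ln8_13_3_c10 ln8_13_3_c10_ok) (M (nat_lit 453) (B (L (nat_lit 454) ln9_13_1_c10 ln9_13_1_c10_ok) (L (nat_lit 452) ln8_13_1_c10 ln8_13_1_c10_ok))))))))) (B (M (nat_lit 422) (B (M (nat_lit 458) (B (L (nat_lit 459) ln7_13_0 ln7_13_0_ok) (L (nat_lit 457) ln6_13_0_c10 ln6_13_0_c10_ok))) (M (nat_lit 421) (B (M (nat_lit 393) (B (L (nat_lit 394) ln6_13_2_c10 ln6_13_2_c10_ok) (L (nat_lit 392) ln5_13_2_c10 ln5_13_2_c10_ok))) (M (nat_lit 453) (B (L (nat_lit 454) ln9_13_1_c10 ln9_13_1_c10_ok) (L (nat_lit 452) ln8_13_1_c10 ln8_13_1_c10_ok))))))) (B (K (nat_lit 20839919904714897842993183875746935449619167126634299295237870792374994815616830501450048634126148993657954804702703088603345859877449760768) (nat_lit 2872466638432484542944329863035232372047579291002319932467148373205318125443622598571806140894201148720378326048925447371826062024884879360)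 (nat_lit 2872466638432484542944329863035232372047579291002319932467148373205318125443622598571806140894201148720378326048925447371826062024884879360) c10_s194) (B (M (nat_lit 422) (B (M (nat_lit 421) (B (M (nat_lit 393) (B (L (nat_lit 394) ln6_13_2_c10 ln6_13_2_c10_ok) (L (nat_lit 392) ln5_13_2_c10 ln5_13_2_c10_ok))) (M (nat_lit 389) (B (L (nat_lit 390) ln9_13_3_c10 ln9_13_3_c10_ok) (L (nat_lit 388) ln8_13_3_c10 ln8_13_3_c10_ok))))) (B (M (nat_lit 421) (B (M (nat_lit 457) (B (L (nat_lit 458) ln6_13_0_c10 ln6_13_0_c10_ok) (L (nat_lit 456) ln5_13_0_c10 ln5_13_0_c10_ok))) (M (nat_lit 389) (B (L (nat_lit 390) ln9_13_3_c10 ln9_13_3_c10_ok) (L (nat_lit 388) ln8_13_3_c10 ln8_13_3_c10_ok))))) (B (M (nat_lit 421) (B (M (nat_lit 457) (B (L (nat_lit 458) ln6_13_0_c10 ln6_13_0_c10_ok) (L (nat_lit 456) ln5_13_0_c10 ln5_13_0_c10_ok))) (M (nat_lit 393) (B (L (nat_lit 394) ln6_13_2_c10 ln6_13_2_c10_ok) (L (nat_lit 392) ln5_13_2_c10 ln5_13_2_c10_ok))))) (M (nat_lit 458) (B (L (nat_lit 457) ln6_13_0_c10 ln6_13_0_c10_ok)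 (L (nat_lit 459) ln7_13_0 ln7_13_0_ok))))))) (M (nat_lit 427) (B (L (nat_lit 459) ln8_13_0 ln8_13_0_ok) (M (nat_lit 391) (B (L (nat_lit 392) ln11_13_3 ln11_13_3_ok) (L (nat_lit 390) ln10_13_3_c10 ln10_13_3_c10_ok)))))))))) (B (K (nat_lit 20839919904693236361007865009656479088805549285201202130586497225381475443893278772482817183946149193610266214248817219767709894472535900160) (nat_lit 2604989988254531030631986437235741728880464880749531955951742356645171789019115278522473717187489783729110788439712983501655542975554387968) (nat_lit 2604989988254531030631986437235741728880464880749531955951742356645171789019115278522473717187489783729110788439712983501655542975554387968) c10_s274) (B (K (nat_lit 20839919904693236361007865009656479088805549285201202130586497225381475443893278772482817183946149193610266214248817219767709894472535900160) (nat_lit 2686395925381054372789145111551596433504729699379691748793309344675869997442745673284919739224404965751661921183081955406748435585039335424) (nat_lit 2686395925381054372789145111551596433504729699379691748793309344675869997442745673284919739224404965751661921183081955406748435585039335424)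 c10_s254) (B (K (nat_lit 20839919904693236361007865009656479088805549285201202130586497225381475443893278772482817183946149193610266214248817219767709894472535900160) (nat_lit 2686395925383762057997592747566937843560454657137884131659210663365430748666897759654343982951235752461317414604893694045269850246424297472) (nat_lit 2686395925383762057997592747566937843560454657137884131659210663365430748666897759654343982951235752461317414604893694045269850246424297472) c10_s206) (B (K (nat_lit 20839919904693236361007865009656479088805549285201202130586497225381475443893278772482817183946149193610266214248817219767709894472535900160) (nat_lit 6864797664925615490872254854391473881088536412008194721878584173188015247353455444427431329280246013766789073501947054919860791269949368204415577656383242240) (nat_lit 6864797664925615490872254854391473881088536412008194721878584173188015247353455444427431329280246013766789073501947054919860791269949368204415577656383242240) c10_s275) (B (K (nat_lit 20839919904693236361007865009656479088805549285201202130586497225381475443893278772482817183946149193610266214248817219767709894472535900160)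 (nat_lit 147420407267645042704038340631665065290191579483829930991079934073755616765722972138141499162217104407247766296012265015679054650831919585200309281544990385648892379136) (nat_lit 147420407267645042704038340631665065290191579483829930991079934073755616765722972138141499162217104407247766296012265015679054650831919585200309281544990385648892379136) c10_s276) (B (K (nat_lit 20839919904693236361007865009656479088805549285201202130586497225381475443893278772482817183946149193610266214248817219767709894472535900160) (nat_lit 3196670517756424606349935865978934944688344990546972254375572302899764960384434644288742215773340865850982918983754952608770513453658325089920221184) (nat_lit 3196670517756424606349935865978934944688344990546972254375572302899764960384434644288742215773340865850982918983754952608770513453658325089920221184) c10_s277) (B (K (nat_lit 20839919904693236361007865009656479088805549285201202130586497225381475443893278772482817183946149193610266214248817219767709894472535900160) (nat_lit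 82923979088050336521021566605230193288977869917727739427968402649136542854873333547240162748249780501832081998661148712438954291332120932290820936991370943532911034368) (nat_lit 82923979088050336521021566605230193288977869917727739427968402649136542854873333547240162748249780501832081998661148712438954291332120932290820936991370943532911034368) c10_s268) (B (K (nat_lit 20839919904693236361007865009656479088805549285201202130586497225381475443893278772482817183946149193610266214248817219767709894472535900160) (nat_lit 10297196492593417459755151310090489552717044540656511948306415002336659348701720296950657790586044185527318149455156479952686597333088357289507134638062043136) (nat_lit 10297196492593417459755151310090489552717044540656511948306415002336659348701720296950657790586044185527318149455156479952686597333088357289507134638062043136) c10_s272) (M (nat_lit 459) (B (L (nat_lit 427) ln8_13_0 ln8_13_0_ok) (L (nat_lit 458) ln13_14_3 ln13_14_3_ok))))))))))))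
noncomputable def c10_d318 : Cert := (B (K (nat_lit 20839919904693236361007865009656479088805549285201202130586497225381475443893278772482817183946149193610266214248817219767709894472535900160) (nat_lit 1651377581978694790230012737088395156473694486244566065220664663663518148720962857729575195554344074973825103572135440752352333543122141184) (nat_lit 1651377581978694790230012737088395156473694486244566065220664663663518148720962857729575195554344074973825103572135440752352333543122141184) c10_s278) (B (K (nat_lit 20839919904693236361007865009656479088805549285201202130586497225381475443893278772482817183946149193610266214248817219767709894472535900160) (nat_lit 2767801862496746973973818179994776931078872465824576489577390375716286828698589729786723845718326819583412863022009069702116339023104442368) (nat_lit 2767801862496746973973818179994776931078872465824576489577390375716286828698589729786723845718326819583412863022009069702116339023104442368) c10_s202) (B (K (nat_lit 20839919904693236361007865009656479088805549285201202130586497225381475443893278772482817183946149193610266214248817219767709894472535900160)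 (nat_lit 6864797664925615491035066728633689824571584944975107737573799837981974492856509249043894529817647148591855868861830093605471596109752992061527328421192925184) (nat_lit 6864797664925615491035066728633689824571584944975107737573799837981974492856509249043894529817647148591855868861830093605471596109752992061527328421192925184) c10_s251) (B (M (nat_lit 394) (B (M (nat_lit 423) (B (L (nat_lit 395) ln7_13_2 ln7_13_2_ok) (M (nat_lit 422) (B (L (nat_lit 393) ln6_13_2_c10 ln6_13_2_c10_ok) (M (nat_lit 454) (B (L (nat_lit 455) ln10_13_1_c10 ln10_13_1_c10_ok) (L (nat_lit 453) ln9_13_1_c10 ln9_13_1_c10_ok))))))) (B (M (nat_lit 423) (B (L (nat_lit 395) ln7_13_2 ln7_13_2_ok) (M (nat_lit 422) (B (L (nat_lit 393) ln6_13_2_c10 ln6_13_2_c10_ok) (M (nat_lit 458) (B (L (nat_lit 459) ln7_13_0 ln7_13_0_ok) (L (nat_lit 457) ln6_13_0_c10 ln6_13_0_c10_ok))))))) (B (M (nat_lit 362) (B (M (nat_lit 457) (B (L (nat_lit 330) ln10_10_5 ln10_10_5_ok) (M (nat_lit 489) (B (L (nat_lit 521) ln9_16_6 ln9_16_6_ok) (L (nat_lit 393)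 ln9_15_6 ln9_15_6_ok))))) (B (M (nat_lit 457) (B (L (nat_lit 330) ln10_10_5 ln10_10_5_ok) (M (nat_lit 489) (B (L (nat_lit 458) ln10_11_5 ln10_11_5_ok) (L (nat_lit 393) ln9_15_6 ln9_15_6_ok))))) (B (M (nat_lit 458) (B (L (nat_lit 459) ln13_14_3 ln13_14_3_ok) (M (nat_lit 490) (B (M (nat_lit 363) (B (L (nat_lit 395) ln10_15_6 ln10_15_6_ok) (L (nat_lit 331) ln10_14_6 ln10_14_6_ok))) (M (nat_lit 361) (B (L (nat_lit 393) ln10_15_7 ln10_15_7_ok) (L (nat_lit 329) ln10_14_7 ln10_14_7_ok))))))) (M (nat_lit 457) (B (L (nat_lit 330) ln10_10_5 ln10_10_5_ok) (M (nat_lit 489) (B (L (nat_lit 521) ln9_16_6 ln9_16_6_ok) (L (nat_lit 458) ln10_11_5 ln10_11_5_ok))))))))) (B (M (nat_lit 458) (B (L (nat_lit 459) ln13_14_3 ln13_14_3_ok) (M (nat_lit 362) (B (M (nat_lit 457) (B (L (nat_lit 489) ln10_11_5 ln10_11_5_ok) (L (nat_lit 330) ln10_10_5 ln10_10_5_ok))) (B (M (nat_lit 330) (B (L (nat_lit 457) ln10_10_5 ln10_10_5_ok) (M (nat_lit 331) (B (L (nat_lit 363) ln10_14_6 ln10_14_6_ok) (L (nat_lit 299) ln10_13_6 ln10_13_6_ok)))))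 (B (M (nat_lit 330) (B (M (nat_lit 331) (B (L (nat_lit 363) ln10_14_6 ln10_14_6_ok) (L (nat_lit 299) ln10_13_6 ln10_13_6_ok))) (M (nat_lit 329) (B (L (nat_lit 361) ln10_14_7 ln10_14_7_ok) (L (nat_lit 297) ln10_13_7_c10 ln10_13_7_c10_ok))))) (M (nat_lit 490) (B (M (nat_lit 489) (B (L (nat_lit 521) ln10_12_5 ln10_12_5_ok) (L (nat_lit 457) ln10_11_5 ln10_11_5_ok))) (M (nat_lit 361) (B (L (nat_lit 393) ln10_15_7 ln10_15_7_ok) (L (nat_lit 329) ln10_14_7 ln10_14_7_ok))))))))))) (M (nat_lit 423) (B (L (nat_lit 395) ln7_13_2 ln7_13_2_ok) (M (nat_lit 422) (B (M (nat_lit 458) (B (L (nat_lit 459) ln7_13_0 ln7_13_0_ok) (L (nat_lit 457) ln6_13_0_c10 ln6_13_0_c10_ok))) (M (nat_lit 454) (B (L (nat_lit 455) ln10_13_1_c10 ln10_13_1_c10_ok) (L (nat_lit 453) ln9_13_1_c10 ln9_13_1_c10_ok)))))))))))) (B (K (nat_lit 20839919904693236361007865009656479088805549285201202130586497225381475443893278772482817183946149193610266214248817219767709894472535900160) (nat_lit 2604989988254531030631986437235741728880464880749531955951742356645171789019115278522473717187489783729110788439712983501655542975554387968)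 (nat_lit 2604989988254531030631986437235741728880464880749531955951742356645171789019115278522473717187489783729110788439712983501655542975554387968) c10_s274) (B (K (nat_lit 20839919904693236361007865009656479088805549285201202130586497225381475443893278772482817183946149193610266214248817219767709894472535900160) (nat_lit 1716199415432236243348734080008484628117142554906041950644735914174390640684186220025169373047769395953630127917104474162883869016668826483456457798424985600) (nat_lit 1716199415432236243348734080008484628117142554906041950644735914174390640684186220025169373047769395953630127917104474162883869016668826483456457798424985600) c10_s260) (B (M (nat_lit 423) (B (M (nat_lit 427) (B (L (nat_lit 459) ln8_13_0 ln8_13_0_ok) (M (nat_lit 391) (B (L (nat_lit 392) ln11_13_3 ln11_13_3_ok) (L (nat_lit 390) ln10_13_3_c10 ln10_13_3_c10_ok))))) (B (M (nat_lit 458) (B (L (nat_lit 459) ln7_13_0 ln7_13_0_ok) (M (nat_lit 394) (B (L (nat_lit 395) ln7_13_2 ln7_13_2_ok) (M (nat_lit 490) (B (M (nat_lit 393)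 (B (L (nat_lit 522) ln10_16_7 ln10_16_7_ok) (L (nat_lit 361) ln10_15_7 ln10_15_7_ok))) (B (M (nat_lit 362) (B (M (nat_lit 489) (B (L (nat_lit 521) ln10_12_5 ln10_12_5_ok) (L (nat_lit 457) ln10_11_5 ln10_11_5_ok))) (M (nat_lit 361) (B (L (nat_lit 393) ln10_15_7 ln10_15_7_ok) (L (nat_lit 329) ln10_14_7 ln10_14_7_ok))))) (M (nat_lit 522) (B (M (nat_lit 523) (B (L (nat_lit 555) ln10_13_4 ln10_13_4_ok) (L (nat_lit 491) ln10_12_4 ln10_12_4_ok))) (M (nat_lit 521) (B (L (nat_lit 553) ln10_13_5 ln10_13_5_ok) (L (nat_lit 489) ln10_12_5 ln10_12_5_ok)))))))))))) (M (nat_lit 391) (B (L (nat_lit 390) ln10_13_3_c10 ln10_13_3_c10_ok) (M (nat_lit 392) (B (L (nat_lit 427) ln11_13_3 ln11_13_3_ok) (M (nat_lit 455) (B (L (nat_lit 454) ln10_13_1_c10 ln10_13_1_c10_ok) (M (nat_lit 487) (B (L (nat_lit 519) ln7_16_6_c10 ln7_16_6_c10_ok) (L (nat_lit 360) ln7_15_6_c10 ln7_15_6_c10_ok)))))))))))) (M (nat_lit 459) (B (L (nat_lit 427) ln8_13_0 ln8_13_0_ok) (L (nat_lit 458) ln13_14_3 ln13_14_3_ok))))))))))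
noncomputable def c10_d319 : Cert := (B (M (nat_lit 522) (B (M (nat_lit 553) (B (L (nat_lit 521) ln10_13_5 ln10_13_5_ok) (M (nat_lit 554) (B (L (nat_lit 585) ln10_14_5 ln10_14_5_ok) (M (nat_lit 555) (B (L (nat_lit 587) ln10_14_4 ln10_14_4_ok) (L (nat_lit 523) ln10_13_4 ln10_13_4_ok))))))) (B (M (nat_lit 394) (B (M (nat_lit 521) (B (L (nat_lit 553) ln10_13_5 ln10_13_5_ok) (L (nat_lit 489) ln10_12_5 ln10_12_5_ok))) (M (nat_lit 523) (B (L (nat_lit 555) ln10_13_4 ln10_13_4_ok) (L (nat_lit 491) ln10_12_4 ln10_12_4_ok))))) (B (M (nat_lit 554) (B (M (nat_lit 555) (B (L (nat_lit 523) ln10_13_4 ln10_13_4_ok) (L (nat_lit 587) ln10_14_4 ln10_14_4_ok))) (M (nat_lit 586) (B (L (nat_lit 457) ln10_17_7 ln10_17_7_ok) (M (nat_lit 585) (B (L (nat_lit 553) ln10_14_5 ln10_14_5_ok) (L (nat_lit 617) ln10_15_5 ln10_15_5_ok))))))) (B (M (nat_lit 554) (B (M (nat_lit 555) (B (L (nat_lit 587) ln10_14_4 ln10_14_4_ok) (L (nat_lit 523) ln10_13_4 ln10_13_4_ok))) (B (M (nat_lit 586) (B (L (nat_lit 457) ln10_17_7 ln10_17_7_ok) (M (nat_lit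 618) (B (M (nat_lit 617) (B (L (nat_lit 649) ln10_16_5 ln10_16_5_ok) (L (nat_lit 585) ln10_15_5 ln10_15_5_ok))) (M (nat_lit 523) (B (L (nat_lit 491) ln10_19_6 ln10_19_6_ok) (L (nat_lit 555) ln10_13_4 ln10_13_4_ok))))))) (M (nat_lit 586) (B (L (nat_lit 457) ln10_17_7 ln10_17_7_ok) (M (nat_lit 618) (B (M (nat_lit 619) (B (L (nat_lit 651) ln10_16_4 ln10_16_4_ok) (L (nat_lit 587) ln10_15_4 ln10_15_4_ok))) (M (nat_lit 617) (B (L (nat_lit 649) ln10_16_5 ln10_16_5_ok) (L (nat_lit 585) ln10_15_5 ln10_15_5_ok)))))))))) (B (M (nat_lit 554) (B (M (nat_lit 553) (B (L (nat_lit 585) ln10_14_5 ln10_14_5_ok) (L (nat_lit 521) ln10_13_5 ln10_13_5_ok))) (M (nat_lit 586) (B (M (nat_lit 587) (B (L (nat_lit 619) ln10_15_4 ln10_15_4_ok) (L (nat_lit 555) ln10_14_4 ln10_14_4_ok))) (L (nat_lit 457) ln10_17_7 ln10_17_7_ok))))) (M (nat_lit 554) (B (M (nat_lit 553) (B (L (nat_lit 521) ln10_13_5 ln10_13_5_ok) (L (nat_lit 585) ln10_14_5 ln10_14_5_ok))) (B (M (nat_lit 586) (B (L (nat_lit 457) ln10_17_7 ln10_17_7_ok) (M (nat_lit 585)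 (B (L (nat_lit 553) ln10_14_5 ln10_14_5_ok) (L (nat_lit 617) ln10_15_5 ln10_15_5_ok))))) (L (nat_lit 457) ln10_17_7 ln10_17_7_ok)))))))))) (B (M (nat_lit 522) (B (L (nat_lit 393) ln10_16_7 ln10_16_7_ok) (M (nat_lit 555) (B (L (nat_lit 523) ln10_13_4 ln10_13_4_ok) (M (nat_lit 553) (B (L (nat_lit 521) ln10_13_5 ln10_13_5_ok) (M (nat_lit 554) (B (L (nat_lit 587) ln10_14_4 ln10_14_4_ok) (L (nat_lit 585) ln10_14_5 ln10_14_5_ok))))))))) (M (nat_lit 394) (B (M (nat_lit 362) (B (M (nat_lit 361) (B (L (nat_lit 393) ln10_15_7 ln10_15_7_ok) (L (nat_lit 329) ln10_14_7 ln10_14_7_ok))) (B (M (nat_lit 330) (B (M (nat_lit 329) (B (L (nat_lit 361) ln10_14_7 ln10_14_7_ok) (L (nat_lit 297) ln10_13_7_c10 ln10_13_7_c10_ok))) (M (nat_lit 331) (B (L (nat_lit 363) ln10_14_6 ln10_14_6_ok) (L (nat_lit 299) ln10_13_6 ln10_13_6_ok))))) (B (M (nat_lit 330) (B (M (nat_lit 331) (B (L (nat_lit 363) ln10_14_6 ln10_14_6_ok) (L (nat_lit 299) ln10_13_6 ln10_13_6_ok))) (M (nat_lit 297) (B (L (nat_lit 329) ln10_13_7_c10 ln10_13_7_c10_ok)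 (M (nat_lit 298) (B (L (nat_lit 393) ln10_9_5_c10 ln10_9_5_c10_ok) (L (nat_lit 265) ln10_12_7_c10 ln10_12_7_c10_ok))))))) (M (nat_lit 330) (B (M (nat_lit 393) (B (L (nat_lit 361) ln10_15_7 ln10_15_7_ok) (L (nat_lit 298) ln10_9_5_c10 ln10_9_5_c10_ok))) (M (nat_lit 331) (B (L (nat_lit 363) ln10_14_6 ln10_14_6_ok) (L (nat_lit 299) ln10_13_6 ln10_13_6_ok))))))))) (B (K (nat_lit 3196670537107778803263370416308284808184555455158746551221145282204778368919807943865467290017337317078719405783518445955802929012154586946124906496) (nat_lit 6864797661728944973115830248388121726884790238358125576194482107825804811165532894360855962695819449037499503465741525969079531471130380483360489805178732544) (nat_lit 6864797661728944973115830248388121726884790238358125576194482107825804811165532894360855962695819449037499503465741525969079531471130380483360489805178732544) c10_s177) (B (M (nat_lit 362) (B (M (nat_lit 361) (B (L (nat_lit 329) ln10_14_7 ln10_14_7_ok) (L (nat_lit 393) ln10_15_7 ln10_15_7_ok))) (M (nat_lit 457)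 (B (L (nat_lit 330) ln10_10_5 ln10_10_5_ok) (L (nat_lit 489) ln10_11_5 ln10_11_5_ok))))) (B (M (nat_lit 362) (B (M (nat_lit 363) (B (L (nat_lit 331) ln10_14_6 ln10_14_6_ok) (L (nat_lit 395) ln10_15_6 ln10_15_6_ok))) (M (nat_lit 457) (B (L (nat_lit 330) ln10_10_5 ln10_10_5_ok) (L (nat_lit 489) ln10_11_5 ln10_11_5_ok))))) (B (M (nat_lit 489) (B (L (nat_lit 521) ln10_12_5 ln10_12_5_ok) (M (nat_lit 457) (B (L (nat_lit 362) ln10_11_5 ln10_11_5_ok) (M (nat_lit 488) (B (M (nat_lit 520) (B (L (nat_lit 393) ln9_12_5_c10 ln9_12_5_c10_ok) (M (nat_lit 552) (B (L (nat_lit 584) ln8_18_6_c10 ln8_18_6_c10_ok) (L (nat_lit 456) ln8_17_6_c10 ln8_17_6_c10_ok))))) (B (M (nat_lit 491) (B (L (nat_lit 523) ln10_12_4 ln10_12_4_ok) (M (nat_lit 520) (B (L (nat_lit 519) ln11_15_1 ln11_15_1_ok) (L (nat_lit 393) ln9_12_5_c10 ln9_12_5_c10_ok))))) (M (nat_lit 455) (B (M (nat_lit 487) (B (L (nat_lit 486) ln6_15_2 ln6_15_2_ok) (L (nat_lit 454) ln10_15_3 ln10_15_3_ok))) (B (M (nat_lit 454) (B (L (nat_lit 487) ln10_15_3 ln10_15_3_ok) (L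 (nat_lit 456) ln6_14_0_c10 ln6_14_0_c10_ok))) (M (nat_lit 491) (B (L (nat_lit 456) ln7_14_0 ln7_14_0_ok) (L (nat_lit 523) ln10_12_4 ln10_12_4_ok))))))))))))) (M (nat_lit 393) (B (L (nat_lit 361) ln10_15_7 ln10_15_7_ok) (M (nat_lit 489) (B (L (nat_lit 521) ln10_12_5 ln10_12_5_ok) (M (nat_lit 491) (B (L (nat_lit 523) ln10_12_4 ln10_12_4_ok) (M (nat_lit 488) (B (M (nat_lit 520) (B (L (nat_lit 457) ln9_12_5_c10 ln9_12_5_c10_ok) (L (nat_lit 519) ln11_15_1 ln11_15_1_ok))) (B (M (nat_lit 456) (B (L (nat_lit 455) ln11_15_3 ln11_15_3_ok) (M (nat_lit 520) (B (L (nat_lit 519) ln11_15_1 ln11_15_1_ok) (L (nat_lit 424) ln8_16_6_c10 ln8_16_6_c10_ok))))) (B (M (nat_lit 487) (B (M (nat_lit 486) (B (L (nat_lit 457) ln6_15_2 ln6_15_2_ok) (M (nat_lit 454) (B (L (nat_lit 453) ln9_15_3_c10 ln9_15_3_c10_ok) (L (nat_lit 455) ln10_15_3 ln10_15_3_ok))))) (B (M (nat_lit 455) (B (L (nat_lit 454) ln10_15_3 ln10_15_3_ok) (L (nat_lit 456) ln11_15_3 ln11_15_3_ok))) (M (nat_lit 486) (B (L (nat_lit 457) ln6_15_2 ln6_15_2_ok) (M (nat_lit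 518) (B (L (nat_lit 517) ln9_15_1_c10 ln9_15_1_c10_ok) (L (nat_lit 519) ln10_15_1 ln10_15_1_ok)))))))) (M (nat_lit 487) (B (M (nat_lit 455) (B (L (nat_lit 454) ln10_15_3 ln10_15_3_ok) (L (nat_lit 456) ln11_15_3 ln11_15_3_ok))) (M (nat_lit 457) (B (L (nat_lit 486) ln6_15_2 ln6_15_2_ok) (L (nat_lit 520) ln9_12_5_c10 ln9_12_5_c10_ok)))))))))))))))))))))))
noncomputable def c10_d320 : Cert := (B (M (nat_lit 458) (B (L (nat_lit 459) ln13_14_3 ln13_14_3_ok) (M (nat_lit 490) (B (M (nat_lit 394) (B (M (nat_lit 523) (B (L (nat_lit 491) ln10_12_4 ln10_12_4_ok) (M (nat_lit 522) (B (L (nat_lit 555) ln10_13_4 ln10_13_4_ok) (M (nat_lit 521) (B (L (nat_lit 553) ln10_13_5 ln10_13_5_ok) (L (nat_lit 489) ln10_12_5 ln10_12_5_ok))))))) (M (nat_lit 363) (B (L (nat_lit 395) ln10_15_6 ln10_15_6_ok) (M (nat_lit 362) (B (L (nat_lit 331) ln10_14_6 ln10_14_6_ok) (M (nat_lit 361) (B (L (nat_lit 393) ln10_15_7 ln10_15_7_ok) (L (nat_lit 329) ln10_14_7 ln10_14_7_ok))))))))) (B (M (nat_lit 394) (B (M (nat_lit 522) (B (M (nat_lit 523)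 (B (L (nat_lit 555) ln10_13_4 ln10_13_4_ok) (L (nat_lit 491) ln10_12_4 ln10_12_4_ok))) (L (nat_lit 393) ln10_16_7 ln10_16_7_ok))) (M (nat_lit 362) (B (M (nat_lit 489) (B (L (nat_lit 521) ln10_12_5 ln10_12_5_ok) (L (nat_lit 457) ln10_11_5 ln10_11_5_ok))) (M (nat_lit 363) (B (L (nat_lit 395) ln10_15_6 ln10_15_6_ok) (L (nat_lit 331) ln10_14_6 ln10_14_6_ok))))))) (B (M (nat_lit 522) (B (M (nat_lit 555) (B (L (nat_lit 523) ln10_13_4 ln10_13_4_ok) (M (nat_lit 554) (B (L (nat_lit 587) ln10_14_4 ln10_14_4_ok) (M (nat_lit 553) (B (L (nat_lit 521) ln10_13_5 ln10_13_5_ok) (L (nat_lit 585) ln10_14_5 ln10_14_5_ok))))))) (B (M (nat_lit 554) (B (L (nat_lit 393) ln10_16_7 ln10_16_7_ok) (M (nat_lit 553) (B (L (nat_lit 521) ln10_13_5 ln10_13_5_ok) (L (nat_lit 585) ln10_14_5 ln10_14_5_ok))))) (B (M (nat_lit 554) (B (L (nat_lit 393) ln10_16_7 ln10_16_7_ok) (M (nat_lit 555) (B (L (nat_lit 523) ln10_13_4 ln10_13_4_ok) (L (nat_lit 587) ln10_14_4 ln10_14_4_ok))))) (M (nat_lit 394) (B (L (nat_lit 393) ln10_16_7 ln10_16_7_ok)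 (M (nat_lit 523) (B (L (nat_lit 491) ln10_12_4 ln10_12_4_ok) (L (nat_lit 555) ln10_13_4 ln10_13_4_ok))))))))) (B (M (nat_lit 522) (B (M (nat_lit 554) (B (L (nat_lit 393) ln10_16_7 ln10_16_7_ok) (M (nat_lit 555) (B (L (nat_lit 523) ln10_13_4 ln10_13_4_ok) (L (nat_lit 587) ln10_14_4 ln10_14_4_ok))))) (B (M (nat_lit 553) (B (L (nat_lit 521) ln10_13_5 ln10_13_5_ok) (M (nat_lit 554) (B (L (nat_lit 585) ln10_14_5 ln10_14_5_ok) (M (nat_lit 555) (B (L (nat_lit 523) ln10_13_4 ln10_13_4_ok) (L (nat_lit 587) ln10_14_4 ln10_14_4_ok))))))) (B (M (nat_lit 554) (B (L (nat_lit 393) ln10_16_7 ln10_16_7_ok) (M (nat_lit 553) (B (L (nat_lit 521) ln10_13_5 ln10_13_5_ok) (L (nat_lit 585) ln10_14_5 ln10_14_5_ok))))) (M (nat_lit 394) (B (L (nat_lit 393) ln10_16_7 ln10_16_7_ok) (M (nat_lit 521) (B (L (nat_lit 489) ln10_12_5 ln10_12_5_ok) (L (nat_lit 553) ln10_13_5 ln10_13_5_ok))))))))) (B (M (nat_lit 394) (B (M (nat_lit 362) (B (M (nat_lit 489) (B (L (nat_lit 521) ln10_12_5 ln10_12_5_ok) (L (nat_lit 457) ln10_11_5 ln10_11_5_ok)))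 (M (nat_lit 363) (B (L (nat_lit 395) ln10_15_6 ln10_15_6_ok) (L (nat_lit 331) ln10_14_6 ln10_14_6_ok))))) (B (M (nat_lit 361) (B (L (nat_lit 393) ln10_15_7 ln10_15_7_ok) (M (nat_lit 362) (B (L (nat_lit 329) ln10_14_7 ln10_14_7_ok) (M (nat_lit 363) (B (L (nat_lit 395) ln10_15_6 ln10_15_6_ok) (L (nat_lit 331) ln10_14_6 ln10_14_6_ok))))))) (B (M (nat_lit 362) (B (M (nat_lit 489) (B (L (nat_lit 521) ln10_12_5 ln10_12_5_ok) (L (nat_lit 457) ln10_11_5 ln10_11_5_ok))) (M (nat_lit 361) (B (L (nat_lit 393) ln10_15_7 ln10_15_7_ok) (L (nat_lit 329) ln10_14_7 ln10_14_7_ok))))) (M (nat_lit 522) (B (M (nat_lit 521) (B (L (nat_lit 553) ln10_13_5 ln10_13_5_ok) (L (nat_lit 489) ln10_12_5 ln10_12_5_ok))) (L (nat_lit 393) ln10_16_7 ln10_16_7_ok))))))) (B (M (nat_lit 394) (B (M (nat_lit 362) (B (M (nat_lit 363) (B (L (nat_lit 331) ln10_14_6 ln10_14_6_ok) (L (nat_lit 395) ln10_15_6 ln10_15_6_ok))) (M (nat_lit 361) (B (L (nat_lit 329) ln10_14_7 ln10_14_7_ok) (L (nat_lit 393) ln10_15_7 ln10_15_7_ok))))) (B (M (nat_lit 522)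 (B (L (nat_lit 393) ln10_16_7 ln10_16_7_ok) (M (nat_lit 523) (B (L (nat_lit 491) ln10_12_4 ln10_12_4_ok) (L (nat_lit 555) ln10_13_4 ln10_13_4_ok))))) (M (nat_lit 362) (B (M (nat_lit 363) (B (L (nat_lit 331) ln10_14_6 ln10_14_6_ok) (L (nat_lit 395) ln10_15_6 ln10_15_6_ok))) (M (nat_lit 330) (B (M (nat_lit 329) (B (L (nat_lit 297) ln10_13_7_c10 ln10_13_7_c10_ok) (L (nat_lit 361) ln10_14_7 ln10_14_7_ok))) (L (nat_lit 457) ln10_10_5 ln10_10_5_ok)))))))) c10_d319))))))))) (M (nat_lit 424) (B (K (nat_lit 20839919904693236361007865009656479088805549285201202130586497225381475443893278772482817183946149193610266214248817219767709894472535900160) (nat_lit 1651377581978694790230012737088395156473694486244566065220664663663518148720962857729575195554344074973825103572135440752352333543122141184) (nat_lit 1651377581978694790230012737088395156473694486244566065220664663663518148720962857729575195554344074973825103572135440752352333543122141184) c10_s278) (B (K (nat_lit 20839919904693236361007865009656479088805549285201202130586497225381475443893278772482817183946149193610266214248817219767709894472535900160)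 (nat_lit 3432398831264056301161174004085613475477076991587298222230268416110288228807935921507988435722563836175888251122457637738503478989216221645550051670309732352) (nat_lit 3432398831264056301161174004085613475477076991587298222230268416110288228807935921507988435722563836175888251122457637738503478989216221645550051670309732352) c10_s187) (B (K (nat_lit 20839919904693236361007865009656479088805549285201202130586497225381475443893278772482817183946149193610266214248817219767709894472535900160) (nat_lit 3432398830864472486720726998804522000714951165819988819376504298894944284248548132398806628813880688425050092695968212480623854906565545096137871720330559488) (nat_lit 3432398830864472486720726998804522000714951165819988819376504298894944284248548132398806628813880688425050092695968212480623854906565545096137871720330559488) c10_s191) (B (K (nat_lit 20839919904693236361007865009656479088805549285201202130586497225381475443893278772482817183946149193610266214248817219767709894472535900160) (nat_lit 1837448295398370154070683705898131127106211524144809372417082920765068539913440387929199300804709455665636835365988361947192048938477682688)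 (nat_lit 1837448295398370154070683705898131127106211524144809372417082920765068539913440387929199300804709455665636835365988361947192048938477682688) c10_s273) (B (M (nat_lit 423) (B (M (nat_lit 422) (B (M (nat_lit 390) (B (L (nat_lit 389) ln9_13_3_c10 ln9_13_3_c10_ok) (L (nat_lit 391) ln10_13_3_c10 ln10_13_3_c10_ok))) (M (nat_lit 394) (B (L (nat_lit 393) ln6_13_2_c10 ln6_13_2_c10_ok) (L (nat_lit 395) ln7_13_2 ln7_13_2_ok))))) (B (M (nat_lit 422) (B (M (nat_lit 454) (B (L (nat_lit 453) ln9_13_1_c10 ln9_13_1_c10_ok) (L (nat_lit 455) ln10_13_1_c10 ln10_13_1_c10_ok))) (M (nat_lit 394) (B (L (nat_lit 393) ln6_13_2_c10 ln6_13_2_c10_ok) (L (nat_lit 395) ln7_13_2 ln7_13_2_ok))))) (M (nat_lit 427) (B (M (nat_lit 455) (B (L (nat_lit 454) ln10_13_1_c10 ln10_13_1_c10_ok) (L (nat_lit 456) ln11_13_1_c10 ln11_13_1_c10_ok))) (L (nat_lit 459) ln8_13_0 ln8_13_0_ok)))))) (B (M (nat_lit 423) (B (M (nat_lit 422) (B (M (nat_lit 390) (B (L (nat_lit 389) ln9_13_3_c10 ln9_13_3_c10_ok) (L (nat_lit 391) ln10_13_3_c10 ln10_13_3_c10_ok)))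 (M (nat_lit 394) (B (L (nat_lit 393) ln6_13_2_c10 ln6_13_2_c10_ok) (L (nat_lit 395) ln7_13_2 ln7_13_2_ok))))) (M (nat_lit 427) (B (M (nat_lit 455) (B (L (nat_lit 454) ln10_13_1_c10 ln10_13_1_c10_ok) (L (nat_lit 456) ln11_13_1_c10 ln11_13_1_c10_ok))) (L (nat_lit 459) ln8_13_0 ln8_13_0_ok))))) (B (K (nat_lit 20839919904693236361007865009656479088805549285201202130586497225381475443893278772482817183946149193610266214248817219767709894472535900160) (nat_lit 3196670517756424606349935865978934944688344990546972254375572302899764960384434644288742215773340865850982918983754952608770513453658325089920221184) (nat_lit 3196670517756424606349935865978934944688344990546972254375572302899764960384434644288742215773340865850982918983754952608770513453658325089920221184) c10_s277) (M (nat_lit 459) (B (L (nat_lit 427) ln8_13_0 ln8_13_0_ok) (L (nat_lit 458) ln13_14_3 ln13_14_3_ok))))))))))))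
noncomputable def c10_d321 : Cert := (B (M (nat_lit 424) (B (K (nat_lit 20839919904693236361007865009656479088805549285201202130586497225381475443893278772482817183946149193610266214248817219767709894472535900160) (nat_lit 2604989988254531030631986437235741728880464880749531955951742356645171789019115278522473717187489783729110788439712983501655542975554387968) (nat_lit 2604989988254531030631986437235741728880464880749531955951742356645171789019115278522473717187489783729110788439712983501655542975554387968) c10_s274) (B (K (nat_lit 20839919904693236361007865009656479088805549285201202130586497225381475443893278772482817183946149193610266214248817219767709894472535900160) (nat_lit 6864797664925615490872254854391473881088536412008194721878584173188015247353455444427431329280246013766789073501947054919860791269949368204415577656383242240) (nat_lit 6864797664925615490872254854391473881088536412008194721878584173188015247353455444427431329280246013766789073501947054919860791269949368204415577656383242240)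 c10_s275) (B (K (nat_lit 20839919904693236361007865009656479088805549285201202130586497225381475443893278772482817183946149193610266214248817219767709894472535900160) (nat_lit 147420407267645042704038340631665065290191579483829930991079934073755616765722972138141499162217104407247766296012265015679054650831919585200309281544990385648892379136) (nat_lit 147420407267645042704038340631665065290191579483829930991079934073755616765722972138141499162217104407247766296012265015679054650831919585200309281544990385648892379136) c10_s276) (B (K (nat_lit 20839919904693236361007865009656479088805549285201202130586497225381475443893278772482817183946149193610266214248817219767709894472535900160) (nat_lit 17161994154322362434650282755551549262337088861608635317715617068200414883444224814521891326119196398065262940251744839474051364986376389388482788133974310912) (nat_lit 17161994154322362434650282755551549262337088861608635317715617068200414883444224814521891326119196398065262940251744839474051364986376389388482788133974310912)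 c10_s249) (B (K (nat_lit 20839919904693236361007865009656479088805549285201202130586497225381475443893278772482817183946149193610266214248817219767709894472535900160) (nat_lit 3196670517756424606349935865978934944688344990546972254375572302899764960384434644288742215773340865850982918983754952608770513453658325089920221184) (nat_lit 3196670517756424606349935865978934944688344990546972254375572302899764960384434644288742215773340865850982918983754952608770513453658325089920221184) c10_s277) (B (K (nat_lit 20839919904693236361007865009656479088805549285201202130586497225381475443893278772482817183946149193610266214248817219767709894472535900160) (nat_lit 10297196492993001274951510588974765164301866587996297578029690945870000448577844948958842673392544980913076705575417757333211727360111519484297507747666067456) (nat_lit 10297196492993001274951510588974765164301866587996297578029690945870000448577844948958842673392544980913076705575417757333211727360111519484297507747666067456) c10_s270) (B (K (nat_lit 20839919904693236361007865009656479088805549285201202130586497225381475443893278772482817183946149193610266214248817219767709894472535900160)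 (nat_lit 6864797662927696416716277335736413302885813955683272410926771563439622497760412369632336799555086356022946446542906536858757556957647968626143001695011995648) (nat_lit 6864797662927696416716277335736413302885813955683272410926771563439622497760412369632336799555086356022946446542906536858757556957647968626143001695011995648) c10_s271) (M (nat_lit 459) (B (L (nat_lit 427) ln8_13_0 ln8_13_0_ok) (L (nat_lit 458) ln13_14_3 ln13_14_3_ok))))))))))) (B (M (nat_lit 458) (B (L (nat_lit 459) ln13_14_3 ln13_14_3_ok) (M (nat_lit 394) (B (K (nat_lit 21584202758328614853000082511097990957069816092741368555548397708368367948862273840480321538611056628315198064110864201916563382792483766272) (nat_lit 6864797664925615488639406293322877290213166362617244047640099434836855068090114381418774266393002424797489091480410875270444017638570184387044687489856962560) (nat_lit 6864797664925615488639406293322877290213166362617244047640099434836855068090114381418774266393002424797489091480410875270444017638570184387044687489856962560)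 c10_s174) (B (K (nat_lit 21584202758328614853000082511097990957069816092741368555548397708368367948862273840480321538611056628315198064110864201916563382792483766272) (nat_lit 147420407267645042704038340629432216729122982892963386991076975762860682532354244128370495960805031604414143124765516075334333846359459607210024318831160180152194826240) (nat_lit 147420407267645042704038340629432216729122982892963386991076975762860682532354244128370495960805031604414143124765516075334333846359459607210024318831160180152194826240) c10_s175) (B (K (nat_lit 21584202758328614853000082511097990957069816092741368555548397708368367948862273840480321538611056628315198064110864201916563382792483766272) (nat_lit 3196670515895717471774106291370325222620872282627918220536517642437071305046407863005909249943580129043124915831338256006388484259047031246069694464) (nat_lit 3196670515895717471774106291370325222620872282627918220536517642437071305046407863005909249943580129043124915831338256006388484259047031246069694464) c10_s176)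 (B (K (nat_lit 21584202758328614853000082511097990957069816092741368555548397708368367948862273840480321538611056628315198064110864201916563382792483766272) (nat_lit 126633165760618091594458917094871992255361168889520338997950379576864812826054941610401031783337105506577755411718442228755121372738875473049168333509619162244106504240002760704) (nat_lit 126633165760618091594458917094871992255361168889520338997950379576864812826054941610401031783337105506577755411718442228755121372738875473049168333509619162244106504240002760704) c10_s178) (B (K (nat_lit 21584202758328614853000082511097990957069816092741368555548397708368367948862273840480321538611056628315198064110864201916563382792483766272) (nat_lit 147420407267645042704038340629060075302283632165002133201457105781940370573681584568533157142600077009256824529516088705503700453263951353554897041406244124413954883584) (nat_lit 147420407267645042704038340629060075302283632165002133201457105781940370573681584568533157142600077009256824529516088705503700453263951353554897041406244124413954883584)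 c10_s179) (B (M (nat_lit 490) (B (M (nat_lit 393) (B (L (nat_lit 522) ln10_16_7 ln10_16_7_ok) (L (nat_lit 361) ln10_15_7 ln10_15_7_ok))) (M (nat_lit 362) (B (M (nat_lit 489) (B (L (nat_lit 521) ln10_12_5 ln10_12_5_ok) (L (nat_lit 457) ln10_11_5 ln10_11_5_ok))) (M (nat_lit 363) (B (L (nat_lit 395) ln10_15_6 ln10_15_6_ok) (L (nat_lit 331) ln10_14_6 ln10_14_6_ok))))))) (B (K (nat_lit 21584202758328614853000082511097990957069816092741368555548397708368367948862273840480321538611056628315198064110864201916563382792483766272) (nat_lit 117936325823726750889651195465461366018834535858459946144401955297694948515209049547280836410075353838255345946589841403246625288359545105288491721422126365200730816512) (nat_lit 117936325823726750889651195465461366018834535858459946144401955297694948515209049547280836410075353838255345946589841403246625288359545105288491721422126365200730816512) c10_s180) (B (K (nat_lit 21584202758328614853000082511097990957069816092741368555548397708368367948862273840480321538611056628315198064110864201916563382792483766272)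 (nat_lit 2397502887340447209371432999274473571734468912034403419264048930226535286392471062708668672816624040335259908044050270512796268797527401740462194688) (nat_lit 2397502887340447209371432999274473571734468912034403419264048930226535286392471062708668672816624040335259908044050270512796268797527401740462194688) c10_s253) (K (nat_lit 21584202758328614853000082511097990957069816092741368555548397708368367948862273840480321538611056628315198064110864201916563382792483766272) (nat_lit 20594392985986002547809725651550368214408633868016953059010474721871167070265878583653141206319290893636788044646665599645035674975908032712764168146786451456) (nat_lit 20594392985986002547809725651550368214408633868016953059010474721871167070265878583653141206319290893636788044646665599645035674975908032712764168146786451456) c10_s181)))))))))))) c10_d320))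
noncomputable def c10_d322 : Cert := (B (M (nat_lit 424) (B (K (nat_lit 20839919904693236361007865009656479088805549285201202130586497225381475443893278772482817183946149193610266214248817219767709894472535900160) (nat_lit 2767801862496746973973818179994776931078872465824576489577390375716286828698589729786723845718326819583412863022009069702116339023104442368) (nat_lit 2767801862496746973973818179994776931078872465824576489577390375716286828698589729786723845718326819583412863022009069702116339023104442368) c10_s202) (B (K (nat_lit 20839919904693236361007865009656479088805549285201202130586497225381475443893278772482817183946149193610266214248817219767709894472535900160) (nat_lit 2953872575916422337944358161227829105195061219894893147875351453453291332108624835046741849927547006450446016391962672849054700274511249408) (nat_lit 2953872575916422337944358161227829105195061219894893147875351453453291332108624835046741849927547006450446016391962672849054700274511249408) c10_s203) (B (K (nat_lit 20839919904693236361007865009656479088805549285201202130586497225381475443893278772482817183946149193610266214248817219767709894472535900160)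 (nat_lit 18427550908455630338004792581586381988355292646812088139151786159282376086556672172675658160788095102322238626578790053359267521481401580289126336982455919632787177472) (nat_lit 18427550908455630338004792581586381988355292646812088139151786159282376086556672172675658160788095102322238626578790053359267521481401580289126336982455919632787177472) c10_s219) (B (K (nat_lit 20839919904693236361007865009656479088805549285201202130586497225381475443893278772482817183946149193610266214248817219767709894472535900160) (nat_lit 1716199417030571501668734242724057760579248164654205688169727520667871733086561579786291902442091470149943655289166821044159139298099986590543574800560816128) (nat_lit 1716199417030571501668734242724057760579248164654205688169727520667871733086561579786291902442091470149943655289166821044159139298099986590543574800560816128) c10_s188) (B (K (nat_lit 20839919904693236361007865009656479088805549285201202130586497225381475443893278772482817183946149193610266214248817219767709894472535900160)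 (nat_lit 1837448295398370154070683705898131127106211524144809372417082920765068539913440387929199300804709455665636835365988361947192048938477682688) (nat_lit 1837448295398370154070683705898131127106211524144809372417082920765068539913440387929199300804709455665636835365988361947192048938477682688) c10_s273) (B (K (nat_lit 20839919904693236361007865009656479088805549285201202130586497225381475443893278772482817183946149193610266214248817219767709894472535900160) (nat_lit 2930613736738962917456866712961689946774088130618535735080444180332750029235990864611790641078209858269023667861812693559228089787914125312) (nat_lit 2930613736738962917456866712961689946774088130618535735080444180332750029235990864611790641078209858269023667861812693559228089787914125312) c10_s204) (B (K (nat_lit 20839919904693236361007865009656479088805549285201202130586497225381475443893278772482817183946149193610266214248817219767709894472535900160) (nat_lit 1716199417030571501668734242724057760577987300455921064834934591384667137444799028129637008148717124761007792192478910304593882777943669290037762704870998016)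 (nat_lit 1716199417030571501668734242724057760577987300455921064834934591384667137444799028129637008148717124761007792192478910304593882777943669290037762704870998016) c10_s205) (M (nat_lit 459) (B (L (nat_lit 427) ln8_13_0 ln8_13_0_ok) (L (nat_lit 458) ln13_14_3 ln13_14_3_ok))))))))))) (B (M (nat_lit 424) c10_d317) (B (M (nat_lit 424) (B (M (nat_lit 423) (B (M (nat_lit 422) (B (M (nat_lit 394) (B (L (nat_lit 393) ln6_13_2_c10 ln6_13_2_c10_ok) (L (nat_lit 395) ln7_13_2 ln7_13_2_ok))) (M (nat_lit 389) (B (L (nat_lit 390) ln9_13_3_c10 ln9_13_3_c10_ok) (M (nat_lit 421) (B (L (nat_lit 388) ln8_13_3_c10 ln8_13_3_c10_ok) (M (nat_lit 453) (B (L (nat_lit 454) ln9_13_1_c10 ln9_13_1_c10_ok) (L (nat_lit 452) ln8_13_1_c10 ln8_13_1_c10_ok))))))))) (B (M (nat_lit 422) (B (M (nat_lit 458) (B (L (nat_lit 459) ln7_13_0 ln7_13_0_ok) (L (nat_lit 457) ln6_13_0_c10 ln6_13_0_c10_ok))) (M (nat_lit 421) (B (M (nat_lit 393) (B (L (nat_lit 394) ln6_13_2_c10 ln6_13_2_c10_ok) (L (nat_lit 392) ln5_13_2_c10 ln5_13_2_c10_ok))) (M (nat_lit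 453) (B (L (nat_lit 454) ln9_13_1_c10 ln9_13_1_c10_ok) (L (nat_lit 452) ln8_13_1_c10 ln8_13_1_c10_ok))))))) (B (M (nat_lit 422) (B (M (nat_lit 454) (B (L (nat_lit 453) ln9_13_1_c10 ln9_13_1_c10_ok) (L (nat_lit 455) ln10_13_1_c10 ln10_13_1_c10_ok))) (M (nat_lit 394) (B (L (nat_lit 393) ln6_13_2_c10 ln6_13_2_c10_ok) (L (nat_lit 395) ln7_13_2 ln7_13_2_ok))))) (B (M (nat_lit 455) (B (L (nat_lit 454) ln10_13_1_c10 ln10_13_1_c10_ok) (M (nat_lit 391) (B (L (nat_lit 390) ln10_13_3_c10 ln10_13_3_c10_ok) (M (nat_lit 392) (B (M (nat_lit 360) (B (L (nat_lit 487) ln7_15_6_c10 ln7_15_6_c10_ok) (L (nat_lit 328) ln8_10_5_c10 ln8_10_5_c10_ok))) (M (nat_lit 422) (B (M (nat_lit 421) (B (L (nat_lit 420) ln4_13_2_c10 ln4_13_2_c10_ok) (L (nat_lit 393) ln5_13_2_c10 ln5_13_2_c10_ok))) (M (nat_lit 458) (B (L (nat_lit 457) ln6_13_0_c10 ln6_13_0_c10_ok) (L (nat_lit 459) ln7_13_0 ln7_13_0_ok))))))))))) (B (K (nat_lit 20839919904714897842993183875746935449619167126634299295237870792374994815616830501450048634126148993657954804702703088603345859877449760768)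 (nat_lit 162811874253046684484534015400133559445575090492939997321078449709807146452797417031233562126698313886411895707840779378470418137095340032) (nat_lit 162811874253046684484534015400133559445575090492939997321078449709807146452797417031233562126698313886411895707840779378470418137095340032) c10_s196) (B (M (nat_lit 422) (B (M (nat_lit 394) (B (L (nat_lit 393) ln6_13_2_c10 ln6_13_2_c10_ok) (L (nat_lit 395) ln7_13_2 ln7_13_2_ok))) (M (nat_lit 390) (B (L (nat_lit 389) ln9_13_3_c10 ln9_13_3_c10_ok) (L (nat_lit 391) ln10_13_3_c10 ln10_13_3_c10_ok))))) (M (nat_lit 427) (B (L (nat_lit 459) ln8_13_0 ln8_13_0_ok) (M (nat_lit 391) (B (L (nat_lit 392) ln11_13_3 ln11_13_3_ok) (L (nat_lit 390) ln10_13_3_c10 ln10_13_3_c10_ok)))))))))))) c10_d318)) c10_d321)))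
noncomputable def c10_d323 : Cert := (B (M (nat_lit 424) (B (M (nat_lit 423) (B (M (nat_lit 422) (B (M (nat_lit 457) (B (L (nat_lit 458) ln6_13_0_c10 ln6_13_0_c10_ok) (M (nat_lit 421) (B (L (nat_lit 456) ln5_13_0_c10 ln5_13_0_c10_ok) (M (nat_lit 393) (B (L (nat_lit 394) ln6_13_2_c10 ln6_13_2_c10_ok) (L (nat_lit 392) ln5_13_2_c10 ln5_13_2_c10_ok))))))) (M (nat_lit 454) (B (L (nat_lit 455) ln10_13_1_c10 ln10_13_1_c10_ok) (L (nat_lit 453) ln9_13_1_c10 ln9_13_1_c10_ok))))) (B (M (nat_lit 422) (B (M (nat_lit 421) (B (M (nat_lit 393) (B (L (nat_lit 394) ln6_13_2_c10 ln6_13_2_c10_ok) (L (nat_lit 392) ln5_13_2_c10 ln5_13_2_c10_ok))) (M (nat_lit 453) (B (L (nat_lit 454) ln9_13_1_c10 ln9_13_1_c10_ok) (L (nat_lit 452) ln8_13_1_c10 ln8_13_1_c10_ok))))) (B (M (nat_lit 421) (B (M (nat_lit 453) (B (L (nat_lit 454) ln9_13_1_c10 ln9_13_1_c10_ok) (L (nat_lit 452) ln8_13_1_c10 ln8_13_1_c10_ok))) (M (nat_lit 389) (B (L (nat_lit 390) ln9_13_3_c10 ln9_13_3_c10_ok) (L (nat_lit 388) ln8_13_3_c10 ln8_13_3_c10_ok))))) (B (M (nat_lit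 421) (B (M (nat_lit 393) (B (L (nat_lit 394) ln6_13_2_c10 ln6_13_2_c10_ok) (L (nat_lit 392) ln5_13_2_c10 ln5_13_2_c10_ok))) (M (nat_lit 389) (B (L (nat_lit 390) ln9_13_3_c10 ln9_13_3_c10_ok) (L (nat_lit 388) ln8_13_3_c10 ln8_13_3_c10_ok))))) (M (nat_lit 454) (B (L (nat_lit 455) ln10_13_1_c10 ln10_13_1_c10_ok) (L (nat_lit 453) ln9_13_1_c10 ln9_13_1_c10_ok))))))) (B (M (nat_lit 422) (B (M (nat_lit 457) (B (L (nat_lit 458) ln6_13_0_c10 ln6_13_0_c10_ok) (M (nat_lit 421) (B (L (nat_lit 456) ln5_13_0_c10 ln5_13_0_c10_ok) (M (nat_lit 393) (B (L (nat_lit 394) ln6_13_2_c10 ln6_13_2_c10_ok) (L (nat_lit 392) ln5_13_2_c10 ln5_13_2_c10_ok))))))) (B (M (nat_lit 421) (B (M (nat_lit 393) (B (L (nat_lit 394) ln6_13_2_c10 ln6_13_2_c10_ok) (L (nat_lit 392) ln5_13_2_c10 ln5_13_2_c10_ok))) (M (nat_lit 453) (B (L (nat_lit 454) ln9_13_1_c10 ln9_13_1_c10_ok) (L (nat_lit 452) ln8_13_1_c10 ln8_13_1_c10_ok))))) (B (M (nat_lit 421) (B (M (nat_lit 457) (B (L (nat_lit 458) ln6_13_0_c10 ln6_13_0_c10_ok) (L (nat_lit 456) ln5_13_0_c10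 ln5_13_0_c10_ok))) (M (nat_lit 453) (B (L (nat_lit 454) ln9_13_1_c10 ln9_13_1_c10_ok) (L (nat_lit 452) ln8_13_1_c10 ln8_13_1_c10_ok))))) (M (nat_lit 454) (B (L (nat_lit 453) ln9_13_1_c10 ln9_13_1_c10_ok) (M (nat_lit 390) (B (L (nat_lit 389) ln9_13_3_c10 ln9_13_3_c10_ok) (M (nat_lit 486) (B (L (nat_lit 391) ln10_13_3_c10 ln10_13_3_c10_ok) (M (nat_lit 518) (B (M (nat_lit 519) (B (L (nat_lit 551) ln6_13_4_c10 ln6_13_4_c10_ok) (L (nat_lit 487) ln6_12_4_c10 ln6_12_4_c10_ok))) (M (nat_lit 517) (B (L (nat_lit 549) ln6_13_5_c10 ln6_13_5_c10_ok) (L (nat_lit 485) ln6_12_5_c10 ln6_12_5_c10_ok))))))))))))))) (B (M (nat_lit 422) (B (M (nat_lit 421) (B (M (nat_lit 457) (B (L (nat_lit 458) ln6_13_0_c10 ln6_13_0_c10_ok) (L (nat_lit 456) ln5_13_0_c10 ln5_13_0_c10_ok))) (M (nat_lit 389) (B (L (nat_lit 390) ln9_13_3_c10 ln9_13_3_c10_ok) (L (nat_lit 388) ln8_13_3_c10 ln8_13_3_c10_ok))))) (B (M (nat_lit 421) (B (M (nat_lit 453) (B (L (nat_lit 454) ln9_13_1_c10 ln9_13_1_c10_ok) (L (nat_lit 452) ln8_13_1_c10 ln8_13_1_c10_ok)))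 (M (nat_lit 389) (B (L (nat_lit 390) ln9_13_3_c10 ln9_13_3_c10_ok) (L (nat_lit 388) ln8_13_3_c10 ln8_13_3_c10_ok))))) (B (M (nat_lit 421) (B (M (nat_lit 457) (B (L (nat_lit 458) ln6_13_0_c10 ln6_13_0_c10_ok) (L (nat_lit 456) ln5_13_0_c10 ln5_13_0_c10_ok))) (M (nat_lit 453) (B (L (nat_lit 454) ln9_13_1_c10 ln9_13_1_c10_ok) (L (nat_lit 452) ln8_13_1_c10 ln8_13_1_c10_ok))))) (M (nat_lit 454) (B (L (nat_lit 455) ln10_13_1_c10 ln10_13_1_c10_ok) (L (nat_lit 453) ln9_13_1_c10 ln9_13_1_c10_ok))))))) (B (M (nat_lit 422) (B (M (nat_lit 394) (B (L (nat_lit 395) ln7_13_2 ln7_13_2_ok) (L (nat_lit 393) ln6_13_2_c10 ln6_13_2_c10_ok))) (M (nat_lit 421) (B (M (nat_lit 457) (B (L (nat_lit 458) ln6_13_0_c10 ln6_13_0_c10_ok) (L (nat_lit 456) ln5_13_0_c10 ln5_13_0_c10_ok))) (M (nat_lit 389) (B (L (nat_lit 390) ln9_13_3_c10 ln9_13_3_c10_ok) (L (nat_lit 388) ln8_13_3_c10 ln8_13_3_c10_ok))))))) (M (nat_lit 455) (B (L (nat_lit 454) ln10_13_1_c10 ln10_13_1_c10_ok) (M (nat_lit 391) (B (L (nat_lit 390) ln10_13_3_c10 ln10_13_3_c10_ok)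 (M (nat_lit 487) (B (M (nat_lit 392) (B (L (nat_lit 519) ln7_16_6_c10 ln7_16_6_c10_ok) (L (nat_lit 360) ln7_15_6_c10 ln7_15_6_c10_ok))) (B (M (nat_lit 519) (B (M (nat_lit 520) (B (L (nat_lit 552) ln7_13_4_c10 ln7_13_4_c10_ok) (L (nat_lit 488) ln7_12_4_c10 ln7_12_4_c10_ok))) (M (nat_lit 518) (B (L (nat_lit 550) ln7_13_5_c10 ln7_13_5_c10_ok) (L (nat_lit 486) ln7_12_5_c10 ln7_12_5_c10_ok))))) (M (nat_lit 359) (B (M (nat_lit 488) (B (L (nat_lit 520) ln7_12_4_c10 ln7_12_4_c10_ok) (L (nat_lit 456) ln7_11_4_c10 ln7_11_4_c10_ok))) (M (nat_lit 360) (B (L (nat_lit 392) ln7_15_6_c10 ln7_15_6_c10_ok) (L (nat_lit 328) ln7_14_6_c10 ln7_14_6_c10_ok)))))))))))))))))) (B (M (nat_lit 423) (B (M (nat_lit 422) (B (M (nat_lit 421) (B (M (nat_lit 457) (B (L (nat_lit 458) ln6_13_0_c10 ln6_13_0_c10_ok) (L (nat_lit 456) ln5_13_0_c10 ln5_13_0_c10_ok))) (M (nat_lit 393) (B (L (nat_lit 394) ln6_13_2_c10 ln6_13_2_c10_ok) (L (nat_lit 392) ln5_13_2_c10 ln5_13_2_c10_ok))))) (M (nat_lit 454) (B (L (nat_lit 455) ln10_13_1_c10 ln10_13_1_c10_ok)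 (L (nat_lit 453) ln9_13_1_c10 ln9_13_1_c10_ok))))) (B (M (nat_lit 422) (B (M (nat_lit 454) (B (L (nat_lit 455) ln10_13_1_c10 ln10_13_1_c10_ok) (L (nat_lit 453) ln9_13_1_c10 ln9_13_1_c10_ok))) (M (nat_lit 421) (B (M (nat_lit 393) (B (L (nat_lit 394) ln6_13_2_c10 ln6_13_2_c10_ok) (L (nat_lit 392) ln5_13_2_c10 ln5_13_2_c10_ok))) (M (nat_lit 389) (B (L (nat_lit 390) ln9_13_3_c10 ln9_13_3_c10_ok) (L (nat_lit 388) ln8_13_3_c10 ln8_13_3_c10_ok))))))) c10_d309))) c10_d312))) (B (M (nat_lit 424) c10_d313) (B (K (nat_lit 20839919904649913397037227277475566367178313602335007801283750091394436700446175314548354283586149593514889033341045482096437963662708178944) (nat_lit 189949748388469689983087767326521856535318176091319443059551439308494313086782765606479972764764822005056732756436465379662484940823092576427777212166937343775584977274074562560) (nat_lit 189949748388469689983087767326521856535318176091319443059551439308494313086782765606479972764764822005056732756436465379662484940823092576427777212166937343775584977274074562560)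 c10_s207) (B (M (nat_lit 424) (B (M (nat_lit 459) (B (L (nat_lit 427) ln8_13_0 ln8_13_0_ok) (L (nat_lit 458) ln13_14_3 ln13_14_3_ok))) (B (K (nat_lit 20839919904693236361007865009656479088805549285201202130586497225381475443893278772482817183946149193610266214248817219767709894472535900160) (nat_lit 18427550908455630338004792581586381988355292646812088139151786159282376086556672172675658160788095102322238626578790053359267521481401580289126336982455919632787177472) (nat_lit 18427550908455630338004792581586381988355292646812088139151786159282376086556672172675658160788095102322238626578790053359267521481401580289126336982455919632787177472) c10_s219) (K (nat_lit 20839919904693236361007865009656479088805549285201202130586497225381475443893278772482817183946149193610266214248817219767709894472535900160) (nat_lit 3432398830864472486720726998804522000714951165819988819376504298894944284248548132398806628813880688425050092695968212480623854906565545096137871720330559488) (nat_lit 3432398830864472486720726998804522000714951165819988819376504298894944284248548132398806628813880688425050092695968212480623854906565545096137871720330559488)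 c10_s191)))) (B (M (nat_lit 424) c10_d316) c10_d322)))))
noncomputable def c10_d324 : Cert := (B (M (nat_lit 424) (B (M (nat_lit 423) (B (M (nat_lit 422) (B (M (nat_lit 394) (B (L (nat_lit 395) ln7_13_2 ln7_13_2_ok) (L (nat_lit 393) ln6_13_2_c10 ln6_13_2_c10_ok))) (M (nat_lit 458) (B (L (nat_lit 459) ln7_13_0 ln7_13_0_ok) (L (nat_lit 457) ln6_13_0_c10 ln6_13_0_c10_ok))))) (M (nat_lit 427) (B (M (nat_lit 391) (B (L (nat_lit 392) ln11_13_3 ln11_13_3_ok) (L (nat_lit 390) ln10_13_3_c10 ln10_13_3_c10_ok))) (M (nat_lit 455) (B (L (nat_lit 456) ln11_13_1_c10 ln11_13_1_c10_ok) (L (nat_lit 454) ln10_13_1_c10 ln10_13_1_c10_ok))))))) (B (M (nat_lit 423) (B (M (nat_lit 427) (B (M (nat_lit 391) (B (L (nat_lit 392) ln11_13_3 ln11_13_3_ok) (L (nat_lit 390) ln10_13_3_c10 ln10_13_3_c10_ok))) (M (nat_lit 455) (B (L (nat_lit 456) ln11_13_1_c10 ln11_13_1_c10_ok) (L (nat_lit 454) ln10_13_1_c10 ln10_13_1_c10_ok))))) (B (M (nat_lit 422) (B (M (nat_lit 458) (B (L (nat_lit 459) ln7_13_0 ln7_13_0_ok) (L (nat_lit 457) ln6_13_0_c10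 ln6_13_0_c10_ok))) (M (nat_lit 454) (B (L (nat_lit 455) ln10_13_1_c10 ln10_13_1_c10_ok) (L (nat_lit 453) ln9_13_1_c10 ln9_13_1_c10_ok))))) (M (nat_lit 427) (B (L (nat_lit 459) ln8_13_0 ln8_13_0_ok) (M (nat_lit 391) (B (L (nat_lit 392) ln11_13_3 ln11_13_3_ok) (L (nat_lit 390) ln10_13_3_c10 ln10_13_3_c10_ok)))))))) (B (M (nat_lit 394) (B (M (nat_lit 423) (B (L (nat_lit 395) ln7_13_2 ln7_13_2_ok) (M (nat_lit 422) (B (L (nat_lit 393) ln6_13_2_c10 ln6_13_2_c10_ok) (M (nat_lit 458) (B (L (nat_lit 459) ln7_13_0 ln7_13_0_ok) (L (nat_lit 457) ln6_13_0_c10 ln6_13_0_c10_ok))))))) (B (M (nat_lit 458) (B (M (nat_lit 423) (B (L (nat_lit 459) ln7_13_0 ln7_13_0_ok) (M (nat_lit 422) (B (L (nat_lit 393) ln6_13_2_c10 ln6_13_2_c10_ok) (L (nat_lit 457) ln6_13_0_c10 ln6_13_0_c10_ok))))) (B (M (nat_lit 362) (B (M (nat_lit 457) (B (L (nat_lit 330) ln10_10_5 ln10_10_5_ok) (L (nat_lit 489) ln10_11_5 ln10_11_5_ok))) (B (M (nat_lit 490) (B (M (nat_lit 361) (B (L (nat_lit 329) ln10_14_7 ln10_14_7_ok) (L (nat_lit 393) ln10_15_7 ln10_15_7_ok)))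 (M (nat_lit 489) (B (L (nat_lit 457) ln10_11_5 ln10_11_5_ok) (L (nat_lit 521) ln10_12_5 ln10_12_5_ok))))) (M (nat_lit 330) (B (M (nat_lit 331) (B (L (nat_lit 299) ln10_13_6 ln10_13_6_ok) (L (nat_lit 363) ln10_14_6 ln10_14_6_ok))) (M (nat_lit 329) (B (L (nat_lit 297) ln10_13_7_c10 ln10_13_7_c10_ok) (L (nat_lit 361) ln10_14_7 ln10_14_7_ok)))))))) (B (M (nat_lit 457) (B (M (nat_lit 362) (B (L (nat_lit 330) ln10_10_5 ln10_10_5_ok) (L (nat_lit 489) ln10_11_5 ln10_11_5_ok))) (M (nat_lit 423) (B (L (nat_lit 459) ln7_13_0 ln7_13_0_ok) (L (nat_lit 422) ln6_13_0_c10 ln6_13_0_c10_ok))))) (M (nat_lit 393) (B (M (nat_lit 423) (B (L (nat_lit 459) ln7_13_0 ln7_13_0_ok) (L (nat_lit 422) ln6_13_2_c10 ln6_13_2_c10_ok))) (M (nat_lit 361) (B (L (nat_lit 490) ln10_15_7 ln10_15_7_ok) (L (nat_lit 329) ln9_10_4_c10 ln9_10_4_c10_ok))))))))) (B (M (nat_lit 423) (B (L (nat_lit 395) ln7_13_2 ln7_13_2_ok) (M (nat_lit 422) (B (L (nat_lit 393) ln6_13_2_c10 ln6_13_2_c10_ok) (M (nat_lit 390) (B (L (nat_lit 391) ln10_13_3_c10 ln10_13_3_c10_ok)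 (L (nat_lit 389) ln9_13_3_c10 ln9_13_3_c10_ok))))))) (B (M (nat_lit 423) (B (L (nat_lit 395) ln7_13_2 ln7_13_2_ok) (M (nat_lit 422) (B (M (nat_lit 458) (B (L (nat_lit 459) ln7_13_0 ln7_13_0_ok) (L (nat_lit 457) ln6_13_0_c10 ln6_13_0_c10_ok))) (M (nat_lit 454) (B (L (nat_lit 455) ln10_13_1_c10 ln10_13_1_c10_ok) (L (nat_lit 453) ln9_13_1_c10 ln9_13_1_c10_ok))))))) (M (nat_lit 362) (B (M (nat_lit 457) (B (L (nat_lit 330) ln10_10_5 ln10_10_5_ok) (M (nat_lit 489) (B (L (nat_lit 458) ln10_11_5 ln10_11_5_ok) (L (nat_lit 393) ln9_15_6 ln9_15_6_ok))))) (B (M (nat_lit 458) (B (M (nat_lit 457) (B (L (nat_lit 489) ln10_11_5 ln10_11_5_ok) (L (nat_lit 459) ln12_14_3 ln12_14_3_ok))) (M (nat_lit 490) (B (M (nat_lit 363) (B (L (nat_lit 331) ln10_14_6 ln10_14_6_ok) (L (nat_lit 395) ln10_15_6 ln10_15_6_ok))) (M (nat_lit 361) (B (L (nat_lit 329) ln10_14_7 ln10_14_7_ok) (L (nat_lit 393) ln10_15_7 ln10_15_7_ok))))))) (B (M (nat_lit 457) (B (L (nat_lit 330) ln10_10_5 ln10_10_5_ok) (M (nat_lit 489) (B (L (nat_lit 393) ln9_15_6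 ln9_15_6_ok) (L (nat_lit 521) ln9_16_6 ln9_16_6_ok))))) (B (M (nat_lit 457) (B (L (nat_lit 330) ln10_10_5 ln10_10_5_ok) (M (nat_lit 489) (B (L (nat_lit 458) ln10_11_5 ln10_11_5_ok) (L (nat_lit 521) ln9_16_6 ln9_16_6_ok))))) (M (nat_lit 458) (B (M (nat_lit 490) (B (M (nat_lit 491) (B (L (nat_lit 459) ln10_11_4 ln10_11_4_ok) (L (nat_lit 523) ln10_12_4 ln10_12_4_ok))) (M (nat_lit 361) (B (L (nat_lit 329) ln10_14_7 ln10_14_7_ok) (L (nat_lit 393) ln10_15_7 ln10_15_7_ok))))) (B (M (nat_lit 490) (B (M (nat_lit 363) (B (L (nat_lit 331) ln10_14_6 ln10_14_6_ok) (L (nat_lit 395) ln10_15_6 ln10_15_6_ok))) (M (nat_lit 361) (B (L (nat_lit 329) ln10_14_7 ln10_14_7_ok) (L (nat_lit 393) ln10_15_7 ln10_15_7_ok))))) (B (M (nat_lit 330) (B (M (nat_lit 331) (B (L (nat_lit 299) ln10_13_6 ln10_13_6_ok) (L (nat_lit 363) ln10_14_6 ln10_14_6_ok))) (M (nat_lit 329) (B (L (nat_lit 297) ln10_13_7_c10 ln10_13_7_c10_ok) (L (nat_lit 361) ln10_14_7 ln10_14_7_ok))))) (M (nat_lit 363) (B (L (nat_lit 331) ln10_14_6 ln10_14_6_ok) (M (nat_lit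 490) (B (L (nat_lit 395) ln10_15_6 ln10_15_6_ok) (M (nat_lit 491) (B (L (nat_lit 459) ln10_11_4 ln10_11_4_ok) (L (nat_lit 523) ln10_12_4 ln10_12_4_ok))))))))))))))))))))) (B (K (nat_lit 20839919904693236361007865009656479088805549285201202130586497225381475443893278772482817183946149193610266214248817219767709894472535900160) (nat_lit 348882588040967242366885337551375654246762097176096696837996778388467438715128124517976695771967676228503921373862767195964139520334495744) (nat_lit 348882588040967242366885337551375654246762097176096696837996778388467438715128124517976695771967676228503921373862767195964139520334495744) c10_s209) c10_d307))))) (B (M (nat_lit 424) (B (K (nat_lit 20839919904693236361007865009656479088805549285201202130586497225381475443893278772482817183946149193610266214248817219767709894472535900160) (nat_lit 2767801862496746973973818179994776931078872465824576489577390375716286828698589729786723845718326819583412863022009069702116339023104442368) (nat_lit 2767801862496746973973818179994776931078872465824576489577390375716286828698589729786723845718326819583412863022009069702116339023104442368)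 c10_s202) (B (K (nat_lit 20839919904693236361007865009656479088805549285201202130586497225381475443893278772482817183946149193610266214248817219767709894472535900160) (nat_lit 2953872575916422337944358161227829105195061219894893147875351453453291332108624835046741849927547006450446016391962672849054700274511249408) (nat_lit 2953872575916422337944358161227829105195061219894893147875351453453291332108624835046741849927547006450446016391962672849054700274511249408) c10_s203) (B (K (nat_lit 20839919904693236361007865009656479088805549285201202130586497225381475443893278772482817183946149193610266214248817219767709894472535900160) (nat_lit 18427550908455630338004792581586381988355292646812088139151786159282376086556672172675658160788095102322238626578790053359267521481401580289126336982455919632787177472) (nat_lit 18427550908455630338004792581586381988355292646812088139151786159282376086556672172675658160788095102322238626578790053359267521481401580289126336982455919632787177472) c10_s219) (B (K (nat_lit 20839919904693236361007865009656479088805549285201202130586497225381475443893278772482817183946149193610266214248817219767709894472535900160)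 (nat_lit 3432398830864472486720726998804522000714951165819988819376504298894944284248548132398806628813880688425050092695968212480623854906565545096137871720330559488) (nat_lit 3432398830864472486720726998804522000714951165819988819376504298894944284248548132398806628813880688425050092695968212480623854906565545096137871720330559488) c10_s191) (B (K (nat_lit 20839919904693236361007865009656479088805549285201202130586497225381475443893278772482817183946149193610266214248817219767709894472535900160) (nat_lit 2930613736738962917456866712961689946774088130618535735080444180332750029235990864611790641078209858269023667861812693559228089787914125312) (nat_lit 2930613736738962917456866712961689946774088130618535735080444180332750029235990864611790641078209858269023667861812693559228089787914125312) c10_s204) (B (K (nat_lit 20839919904693236361007865009656479088805549285201202130586497225381475443893278772482817183946149193610266214248817219767709894472535900160) (nat_lit 1716199417030571501668734242724057760577987300455921064834934591384667137444799028129637008148717124761007792192478910304593882777943669290037762704870998016)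 (nat_lit 1716199417030571501668734242724057760577987300455921064834934591384667137444799028129637008148717124761007792192478910304593882777943669290037762704870998016) c10_s205) (B (K (nat_lit 20839919904693236361007865009656479088805549285201202130586497225381475443893278772482817183946149193610266214248817219767709894472535900160) (nat_lit 126633165605826663977847697343664183780196930912916041560072511702954816412455519573104607493423239027718908698619619515017740653818693698489708834068896118913637541740409782272) (nat_lit 126633165605826663977847697343664183780196930912916041560072511702954816412455519573104607493423239027718908698619619515017740653818693698489708834068896118913637541740409782272) c10_s192) (B (K (nat_lit 20839919904693236361007865009656479088805549285201202130586497225381475443893278772482817183946149193610266214248817219767709894472535900160) (nat_lit 17161994154322362434813094629793765205811311345187555970067282228011941959454940757541770266602977115167778693934812502982705374185085792142053854228955267072)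 (nat_lit 17161994154322362434813094629793765205811311345187555970067282228011941959454940757541770266602977115167778693934812502982705374185085792142053854228955267072) c10_s248) (K (nat_lit 20839919904693236361007865009656479088805549285201202130586497225381475443893278772482817183946149193610266214248817219767709894472535900160) (nat_lit 17161994154322362434650282755551549262337088861608635317715617068200414883444224814521891326119196398065262940251744839474051364986376389388482788133974310912) (nat_lit 17161994154322362434650282755551549262337088861608635317715617068200414883444224814521891326119196398065262940251744839474051364986376389388482788133974310912) c10_s249)))))))))) (B (M (nat_lit 424) c10_d308) c10_d323)))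
theorem c10_s279 : Sem (nat_lit 20839919904563267469095951813113740923923842236602619142678255823420359213551968398679428482866150393324134671525502006753894102043052736512) (nat_lit 11679847984920016893213392907279022744127394544147532068362599883532596589898219962363258685148190087087416269068426086589491025709891748350823922753191754974608659929786165228705343615029185871872) (nat_lit 11679847984920016893213392907279022744127394544147532068362599883532596589898219962363258685148190087087416269068426086589491025709891748350823922753191754974608659929786165228705343615029185871872) :=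
  sem_of_chk (M (nat_lit 425) (B (K (nat_lit 20839919904649913397037227277475566367178313602335007801283750091394436700446175314548354283586149593514889033341045482096437963662708178944) (nat_lit 12013395908025653705255328013670094550182488382413232063953026043649691217183922692240069386457706308502182398952578817530015760810858971604532958394314653696) (nat_lit 12013395908025653705255328013670094550182488382413232063953026043649691217183922692240069386457706308502182398952578817530015760810858971604532958394314653696) c10_s208) c10_d324)) (nat_lit 20839919904563267469095951813113740923923842236602619142678255823420359213551968398679428482866150393324134671525502006753894102043052736512) (nat_lit 11679847984920016893213392907279022744127394544147532068362599883532596589898219962363258685148190087087416269068426086589491025709891748350823922753191754974608659929786165228705343615029185871872) (nat_lit 11679847984920016893213392907279022744127394544147532068362599883532596589898219962363258685148190087087416269068426086589491025709891748350823922753191754974608659929786165228705343615029185871872)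 (by decide +kernel)
noncomputable def c10_d325 : Cert := (B (M (nat_lit 392) (B (M (nat_lit 391) (B (L (nat_lit 390) ln6_12_2_c10 ln6_12_2_c10_ok) (L (nat_lit 363) ln7_12_2_c10 ln7_12_2_c10_ok))) (B (M (nat_lit 363) (B (L (nat_lit 391) ln7_12_2_c10 ln7_12_2_c10_ok) (L (nat_lit 364) ln12_11_1 ln12_11_1_ok))) (M (nat_lit 425) (B (L (nat_lit 457) ln10_10_5 ln10_10_5_ok) (M (nat_lit 424) (B (M (nat_lit 456) (B (L (nat_lit 488) ln8_15_6_c10 ln8_15_6_c10_ok) (L (nat_lit 329) ln9_10_5_c10 ln9_10_5_c10_ok))) (M (nat_lit 423) (B (L (nat_lit 422) ln6_13_2_c10 ln6_13_2_c10_ok) (L (nat_lit 395) ln11_12_1 ln11_12_1_ok)))))))))) (B (M (nat_lit 392) (B (M (nat_lit 391) (B (L (nat_lit 390) ln6_12_2_c10 ln6_12_2_c10_ok) (L (nat_lit 363) ln7_12_2_c10 ln7_12_2_c10_ok))) (B (M (nat_lit 363) (B (L (nat_lit 391) ln7_12_2_c10 ln7_12_2_c10_ok) (L (nat_lit 364) ln12_11_1 ln12_11_1_ok))) (B (M (nat_lit 360) (B (M (nat_lit 395) (B (L (nat_lit 359) ln7_11_0 ln7_11_0_ok) (L (nat_lit 396) ln12_12_3 ln12_12_3_ok))) (M (nat_lit 328)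 (B (M (nat_lit 425) (B (L (nat_lit 457) ln10_10_5 ln10_10_5_ok) (L (nat_lit 296) ln8_9_4_c10 ln8_9_4_c10_ok))) (M (nat_lit 363) (B (L (nat_lit 364) ln12_11_1 ln12_11_1_ok) (L (nat_lit 327) ln11_11_3 ln11_11_3_ok))))))) (M (nat_lit 359) (B (M (nat_lit 391) (B (L (nat_lit 390) ln6_12_2_c10 ln6_12_2_c10_ok) (L (nat_lit 358) ln10_12_3_c10 ln10_12_3_c10_ok))) (M (nat_lit 360) (B (L (nat_lit 395) ln7_11_0 ln7_11_0_ok) (L (nat_lit 331) ln7_11_2 ln7_11_2_ok))))))))) (B (M (nat_lit 392) (B (M (nat_lit 391) (B (L (nat_lit 390) ln6_12_2_c10 ln6_12_2_c10_ok) (L (nat_lit 363) ln7_12_2_c10 ln7_12_2_c10_ok))) (B (M (nat_lit 363) (B (L (nat_lit 391) ln7_12_2_c10 ln7_12_2_c10_ok) (L (nat_lit 364) ln12_11_1 ln12_11_1_ok))) (B (M (nat_lit 360) (B (M (nat_lit 395) (B (L (nat_lit 359) ln7_11_0 ln7_11_0_ok) (L (nat_lit 396) ln12_12_3 ln12_12_3_ok))) (M (nat_lit 328) (B (M (nat_lit 296) (B (L (nat_lit 425) ln8_9_4_c10 ln8_9_4_c10_ok) (L (nat_lit 264) ln8_8_4_c10 ln8_8_4_c10_ok))) (M (nat_lit 363) (B (L (nat_lit 364) ln12_11_1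 ln12_11_1_ok) (L (nat_lit 327) ln11_11_3 ln11_11_3_ok))))))) (M (nat_lit 359) (B (M (nat_lit 391) (B (L (nat_lit 390) ln6_12_2_c10 ln6_12_2_c10_ok) (L (nat_lit 358) ln10_12_3_c10 ln10_12_3_c10_ok))) (M (nat_lit 360) (B (L (nat_lit 395) ln7_11_0 ln7_11_0_ok) (L (nat_lit 331) ln7_11_2 ln7_11_2_ok))))))))) (B (M (nat_lit 360) (B (M (nat_lit 395) (B (L (nat_lit 396) ln12_12_3 ln12_12_3_ok) (L (nat_lit 359) ln7_11_0 ln7_11_0_ok))) (B (M (nat_lit 359) (B (L (nat_lit 358) ln6_11_0_c10 ln6_11_0_c10_ok) (L (nat_lit 331) ln7_11_2 ln7_11_2_ok))) (M (nat_lit 392) (B (M (nat_lit 363) (B (L (nat_lit 391) ln11_11_1 ln11_11_1_ok) (L (nat_lit 364) ln12_11_1 ln12_11_1_ok))) (M (nat_lit 424) (B (M (nat_lit 456) (B (L (nat_lit 488) ln8_15_6_c10 ln8_15_6_c10_ok) (L (nat_lit 329) ln8_14_6_c10 ln8_14_6_c10_ok))) (M (nat_lit 395) (B (L (nat_lit 423) ln11_12_1 ln11_12_1_ok) (L (nat_lit 396) ln12_12_3 ln12_12_3_ok)))))))))) (B (M (nat_lit 360) (B (M (nat_lit 395) (B (L (nat_lit 396) ln12_12_3 ln12_12_3_ok) (L (nat_lit 359) ln7_11_0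 ln7_11_0_ok))) (B (M (nat_lit 359) (B (L (nat_lit 358) ln6_11_0_c10 ln6_11_0_c10_ok) (L (nat_lit 331) ln7_11_2 ln7_11_2_ok))) (M (nat_lit 392) (B (M (nat_lit 328) (B (M (nat_lit 425) (B (L (nat_lit 457) ln10_10_5 ln10_10_5_ok) (L (nat_lit 296) ln8_9_4_c10 ln8_9_4_c10_ok))) (M (nat_lit 363) (B (L (nat_lit 364) ln12_11_1 ln12_11_1_ok) (L (nat_lit 327) ln11_11_3 ln11_11_3_ok))))) (M (nat_lit 424) (B (M (nat_lit 456) (B (L (nat_lit 488) ln8_15_6_c10 ln8_15_6_c10_ok) (L (nat_lit 329) ln8_14_6_c10 ln8_14_6_c10_ok))) (M (nat_lit 395) (B (L (nat_lit 423) ln11_12_1 ln11_12_1_ok) (L (nat_lit 396) ln12_12_3 ln12_12_3_ok)))))))))) (B (M (nat_lit 360) (B (M (nat_lit 395) (B (L (nat_lit 396) ln12_12_3 ln12_12_3_ok) (L (nat_lit 359) ln7_11_0 ln7_11_0_ok))) (B (M (nat_lit 359) (B (L (nat_lit 358) ln6_11_0_c10 ln6_11_0_c10_ok) (L (nat_lit 331) ln7_11_2 ln7_11_2_ok))) (M (nat_lit 363) (B (M (nat_lit 396) (B (L (nat_lit 395) ln8_11_0 ln8_11_0_ok) (M (nat_lit 328) (B (L (nat_lit 327) ln11_11_3 ln11_11_3_ok) (L (nat_lit 364)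 ln9_11_0 ln9_11_0_ok))))) (B (M (nat_lit 425) (B (L (nat_lit 457) ln10_10_5 ln10_10_5_ok) (M (nat_lit 328) (B (L (nat_lit 327) ln11_11_3 ln11_11_3_ok) (M (nat_lit 296) (B (L (nat_lit 329) ln9_13_7_c10 ln9_13_7_c10_ok) (L (nat_lit 264) ln8_8_4_c10 ln8_8_4_c10_ok))))))) (M (nat_lit 396) (B (L (nat_lit 395) ln8_11_0 ln8_11_0_ok) (M (nat_lit 332) (B (L (nat_lit 331) ln8_11_2 ln8_11_2_ok) (L (nat_lit 364) ln9_11_0 ln9_11_0_ok))))))))))) (B (M (nat_lit 360) (B (M (nat_lit 359) (B (L (nat_lit 358) ln6_11_0_c10 ln6_11_0_c10_ok) (L (nat_lit 331) ln7_11_2 ln7_11_2_ok))) (B (M (nat_lit 331) (B (L (nat_lit 359) ln7_11_2 ln7_11_2_ok) (M (nat_lit 332) (B (L (nat_lit 363) ln8_11_2 ln8_11_2_ok) (L (nat_lit 329) ln12_10_1 ln12_10_1_ok))))) (M (nat_lit 328) (B (M (nat_lit 296) (B (L (nat_lit 264) ln8_8_4_c10 ln8_8_4_c10_ok) (M (nat_lit 425) (B (L (nat_lit 392) ln8_9_4_c10 ln8_9_4_c10_ok) (L (nat_lit 329) ln9_13_7_c10 ln9_13_7_c10_ok))))) (B (M (nat_lit 363) (B (L (nat_lit 327) ln11_11_3 ln11_11_3_ok) (M (nat_lit 392) (B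 (L (nat_lit 391) ln11_11_1 ln11_11_1_ok) (L (nat_lit 364) ln12_11_1 ln12_11_1_ok))))) (M (nat_lit 425) (B (L (nat_lit 457) ln10_10_5 ln10_10_5_ok) (M (nat_lit 296) (B (L (nat_lit 329) ln9_13_7_c10 ln9_13_7_c10_ok) (L (nat_lit 264) ln8_8_4_c10 ln8_8_4_c10_ok))))))))))) (M (nat_lit 395) (B (L (nat_lit 396) ln13_12_3 ln13_12_3_ok) (M (nat_lit 392) (B (M (nat_lit 359) (B (L (nat_lit 360) ln7_11_0 ln7_11_0_ok) (M (nat_lit 391) (B (L (nat_lit 390) ln6_12_2_c10 ln6_12_2_c10_ok) (L (nat_lit 358) ln10_12_3_c10 ln10_12_3_c10_ok))))) (B (M (nat_lit 391) (B (M (nat_lit 423) (B (L (nat_lit 422) ln10_12_1_c10 ln10_12_1_c10_ok) (L (nat_lit 424) ln11_12_1 ln11_12_1_ok))) (M (nat_lit 359) (B (L (nat_lit 358) ln10_12_3_c10 ln10_12_3_c10_ok) (L (nat_lit 360) ln7_11_0 ln7_11_0_ok))))) (B (M (nat_lit 360) (B (L (nat_lit 359) ln7_11_0 ln7_11_0_ok) (M (nat_lit 424) (B (L (nat_lit 423) ln11_12_1 ln11_12_1_ok) (M (nat_lit 456) (B (L (nat_lit 488) ln8_15_6_c10 ln8_15_6_c10_ok) (L (nat_lit 329) ln8_14_6_c10 ln8_14_6_c10_ok)))))))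 (M (nat_lit 423) (B (L (nat_lit 424) ln11_12_1 ln11_12_1_ok) (M (nat_lit 391) (B (L (nat_lit 422) ln10_12_1_c10 ln10_12_1_c10_ok) (L (nat_lit 390) ln6_12_2_c10 ln6_12_2_c10_ok))))))))))))))))))
noncomputable def c10_d326 : Cert := (B (M (nat_lit 361) (B (M (nat_lit 393) (B (M (nat_lit 298) (B (L (nat_lit 425) ln10_9_5_c10 ln10_9_5_c10_ok) (L (nat_lit 266) ln10_8_5_c10 ln10_8_5_c10_ok))) (M (nat_lit 363) (B (M (nat_lit 392) (B (L (nat_lit 391) ln7_12_2_c10 ln7_12_2_c10_ok) (L (nat_lit 364) ln12_11_1 ln12_11_1_ok))) (M (nat_lit 331) (B (L (nat_lit 458) ln10_14_6 ln10_14_6_ok) (M (nat_lit 332) (B (L (nat_lit 360) ln8_11_2 ln8_11_2_ok) (L (nat_lit 333) ln13_10_1 ln13_10_1_ok))))))))) (B (M (nat_lit 393) (B (M (nat_lit 298) (B (L (nat_lit 425) ln10_9_5_c10 ln10_9_5_c10_ok) (L (nat_lit 266) ln10_8_5_c10 ln10_8_5_c10_ok))) (M (nat_lit 363) (B (M (nat_lit 392) (B (L (nat_lit 391) ln7_12_2_c10 ln7_12_2_c10_ok) (L (nat_lit 364) ln12_11_1 ln12_11_1_ok))) (M (nat_lit 331) (B (L (nat_lit 299) ln10_13_6 ln10_13_6_ok)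 (M (nat_lit 332) (B (L (nat_lit 360) ln8_11_2 ln8_11_2_ok) (L (nat_lit 333) ln13_10_1 ln13_10_1_ok))))))))) (B (M (nat_lit 298) (B (M (nat_lit 267) (B (L (nat_lit 299) ln10_12_6_c10 ln10_12_6_c10_ok) (M (nat_lit 266) (B (L (nat_lit 393) ln10_8_5_c10 ln10_8_5_c10_ok) (L (nat_lit 235) ln10_11_6_c10 ln10_11_6_c10_ok))))) (B (M (nat_lit 363) (B (M (nat_lit 395) (B (L (nat_lit 266) ln10_8_4 ln10_8_4_ok) (L (nat_lit 396) ln13_12_3 ln13_12_3_ok))) (M (nat_lit 331) (B (L (nat_lit 299) ln10_13_6 ln10_13_6_ok) (M (nat_lit 360) (B (L (nat_lit 359) ln7_11_2 ln7_11_2_ok) (L (nat_lit 332) ln8_11_2 ln8_11_2_ok))))))) (B (M (nat_lit 395) (B (M (nat_lit 266) (B (L (nat_lit 393) ln10_8_5_c10 ln10_8_5_c10_ok) (L (nat_lit 363) ln10_8_4 ln10_8_4_ok))) (M (nat_lit 360) (B (L (nat_lit 359) ln7_11_0 ln7_11_0_ok) (L (nat_lit 396) ln13_12_3 ln13_12_3_ok))))) (M (nat_lit 360) (B (M (nat_lit 359) (B (L (nat_lit 395) ln7_11_0 ln7_11_0_ok) (L (nat_lit 331) ln7_11_2 ln7_11_2_ok))) (B (M (nat_lit 331) (B (L (nat_lit 359) ln7_11_2 ln7_11_2_ok)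 (L (nat_lit 299) ln10_13_6 ln10_13_6_ok))) (B (M (nat_lit 331) (B (L (nat_lit 299) ln10_13_6 ln10_13_6_ok) (M (nat_lit 332) (B (L (nat_lit 329) ln12_10_1 ln12_10_1_ok) (L (nat_lit 333) ln13_10_1 ln13_10_1_ok))))) (M (nat_lit 395) (B (L (nat_lit 359) ln7_11_0 ln7_11_0_ok) (L (nat_lit 396) ln13_12_3 ln13_12_3_ok))))))))))) (B (M (nat_lit 393) (B (M (nat_lit 425) (B (L (nat_lit 457) ln10_10_5 ln10_10_5_ok) (L (nat_lit 298) ln10_9_5_c10 ln10_9_5_c10_ok))) (B (M (nat_lit 298) (B (L (nat_lit 425) ln10_9_5_c10 ln10_9_5_c10_ok) (L (nat_lit 266) ln10_8_5_c10 ln10_8_5_c10_ok))) (M (nat_lit 360) (B (M (nat_lit 395) (B (L (nat_lit 396) ln12_12_3 ln12_12_3_ok) (L (nat_lit 359) ln7_11_0 ln7_11_0_ok))) (B (M (nat_lit 359) (B (L (nat_lit 358) ln6_11_0_c10 ln6_11_0_c10_ok) (L (nat_lit 331) ln7_11_2 ln7_11_2_ok))) (M (nat_lit 392) (B (M (nat_lit 391) (B (L (nat_lit 390) ln6_12_2_c10 ln6_12_2_c10_ok) (L (nat_lit 363) ln11_11_1 ln11_11_1_ok))) (B (M (nat_lit 363) (B (L (nat_lit 391) ln11_11_1 ln11_11_1_ok) (L (nat_lit 364)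 ln12_11_1 ln12_11_1_ok))) (M (nat_lit 424) (B (M (nat_lit 456) (B (L (nat_lit 488) ln8_15_6_c10 ln8_15_6_c10_ok) (L (nat_lit 329) ln8_14_6_c10 ln8_14_6_c10_ok))) (M (nat_lit 395) (B (L (nat_lit 423) ln11_12_1 ln11_12_1_ok) (L (nat_lit 396) ln12_12_3 ln12_12_3_ok)))))))))))))) (B (M (nat_lit 360) (B (M (nat_lit 359) (B (L (nat_lit 395) ln7_11_0 ln7_11_0_ok) (L (nat_lit 331) ln7_11_2 ln7_11_2_ok))) (B (M (nat_lit 331) (B (L (nat_lit 359) ln7_11_2 ln7_11_2_ok) (M (nat_lit 332) (B (L (nat_lit 363) ln8_11_2 ln8_11_2_ok) (L (nat_lit 329) ln12_10_1 ln12_10_1_ok))))) (B (M (nat_lit 331) (B (M (nat_lit 332) (B (L (nat_lit 363) ln8_11_2 ln8_11_2_ok) (L (nat_lit 329) ln12_10_1 ln12_10_1_ok))) (B (M (nat_lit 332) (B (L (nat_lit 329) ln12_10_1 ln12_10_1_ok) (L (nat_lit 333) ln13_10_1 ln13_10_1_ok))) (B (M (nat_lit 332) (B (L (nat_lit 363) ln8_11_2 ln8_11_2_ok) (L (nat_lit 333) ln13_10_1 ln13_10_1_ok))) (L (nat_lit 299) ln10_13_6 ln10_13_6_ok))))) (M (nat_lit 395) (B (L (nat_lit 359) ln7_11_0 ln7_11_0_ok) (L (nat_lit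 396) ln13_12_3 ln13_12_3_ok))))))) (B (M (nat_lit 298) (B (M (nat_lit 393) (B (L (nat_lit 425) ln10_9_5_c10 ln10_9_5_c10_ok) (L (nat_lit 266) ln10_8_5_c10 ln10_8_5_c10_ok))) (B (M (nat_lit 267) (B (L (nat_lit 299) ln10_12_6_c10 ln10_12_6_c10_ok) (M (nat_lit 266) (B (L (nat_lit 393) ln10_8_5_c10 ln10_8_5_c10_ok) (L (nat_lit 235) ln10_11_6_c10 ln10_11_6_c10_ok))))) (B (M (nat_lit 329) (B (M (nat_lit 267) (B (L (nat_lit 299) ln10_12_6_c10 ln10_12_6_c10_ok) (M (nat_lit 266) (B (L (nat_lit 234) ln10_7_5_c10 ln10_7_5_c10_ok) (L (nat_lit 235) ln10_11_6_c10 ln10_11_6_c10_ok))))) (B (M (nat_lit 363) (B (M (nat_lit 266) (B (L (nat_lit 395) ln10_8_4 ln10_8_4_ok) (L (nat_lit 234) ln10_7_5_c10 ln10_7_5_c10_ok))) (M (nat_lit 328) (B (L (nat_lit 364) ln12_11_3 ln12_11_3_ok) (L (nat_lit 327) ln7_10_0_c10 ln7_10_0_c10_ok))))) (M (nat_lit 299) (B (L (nat_lit 267) ln10_12_6_c10 ln10_12_6_c10_ok) (L (nat_lit 458) ln10_14_7 ln10_14_7_ok)))))) (M (nat_lit 425) (B (L (nat_lit 393) ln10_9_5_c10 ln10_9_5_c10_ok) (L (nat_lit 457)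 ln10_10_5 ln10_10_5_ok))))))) (M (nat_lit 298) (B (M (nat_lit 393) (B (L (nat_lit 425) ln10_9_5_c10 ln10_9_5_c10_ok) (L (nat_lit 266) ln10_8_5_c10 ln10_8_5_c10_ok))) (B (M (nat_lit 267) (B (L (nat_lit 299) ln10_12_6_c10 ln10_12_6_c10_ok) (M (nat_lit 266) (B (L (nat_lit 393) ln10_8_5_c10 ln10_8_5_c10_ok) (L (nat_lit 235) ln10_11_6_c10 ln10_11_6_c10_ok))))) (M (nat_lit 299) (B (L (nat_lit 267) ln10_12_6_c10 ln10_12_6_c10_ok) (L (nat_lit 331) ln10_13_6 ln10_13_6_ok))))))))))))) (M (nat_lit 361) (B (M (nat_lit 360) (B (M (nat_lit 359) (B (L (nat_lit 395) ln7_11_0 ln7_11_0_ok) (L (nat_lit 331) ln7_11_2 ln7_11_2_ok))) (B (M (nat_lit 359) (B (L (nat_lit 331) ln7_11_2 ln7_11_2_ok) (M (nat_lit 358) (B (L (nat_lit 393) ln6_11_0_c10 ln6_11_0_c10_ok) (L (nat_lit 329) ln6_11_2_c10 ln6_11_2_c10_ok))))) (B (M (nat_lit 331) (B (M (nat_lit 332) (B (L (nat_lit 363) ln8_11_2 ln8_11_2_ok) (L (nat_lit 329) ln12_10_1 ln12_10_1_ok))) (B (M (nat_lit 332) (B (L (nat_lit 329) ln12_10_1 ln12_10_1_ok) (L (nat_lit 333) ln13_10_1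 ln13_10_1_ok))) (B (M (nat_lit 332) (B (L (nat_lit 363) ln8_11_2 ln8_11_2_ok) (L (nat_lit 333) ln13_10_1 ln13_10_1_ok))) (L (nat_lit 299) ln10_13_6 ln10_13_6_ok))))) (M (nat_lit 359) (B (L (nat_lit 395) ln7_11_0 ln7_11_0_ok) (M (nat_lit 358) (B (L (nat_lit 393) ln6_11_0_c10 ln6_11_0_c10_ok) (L (nat_lit 329) ln6_11_2_c10 ln6_11_2_c10_ok))))))))) (B (M (nat_lit 393) c10_d325) (B (M (nat_lit 360) (B (M (nat_lit 359) (B (L (nat_lit 395) ln7_11_0 ln7_11_0_ok) (L (nat_lit 331) ln7_11_2 ln7_11_2_ok))) (B (M (nat_lit 331) (B (L (nat_lit 359) ln7_11_2 ln7_11_2_ok) (M (nat_lit 332) (B (L (nat_lit 363) ln8_11_2 ln8_11_2_ok) (L (nat_lit 329) ln12_10_1 ln12_10_1_ok))))) (B (M (nat_lit 331) (B (M (nat_lit 332) (B (L (nat_lit 363) ln8_11_2 ln8_11_2_ok) (L (nat_lit 329) ln12_10_1 ln12_10_1_ok))) (B (M (nat_lit 332) (B (L (nat_lit 329) ln12_10_1 ln12_10_1_ok) (L (nat_lit 333) ln13_10_1 ln13_10_1_ok))) (B (M (nat_lit 332) (B (L (nat_lit 363) ln8_11_2 ln8_11_2_ok) (L (nat_lit 333) ln13_10_1 ln13_10_1_ok))) (L (nat_lit 299)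 ln10_13_6 ln10_13_6_ok))))) (M (nat_lit 359) (B (L (nat_lit 395) ln7_11_0 ln7_11_0_ok) (M (nat_lit 358) (B (L (nat_lit 329) ln6_11_2_c10 ln6_11_2_c10_ok) (M (nat_lit 390) (B (L (nat_lit 389) ln9_11_1_c10 ln9_11_1_c10_ok) (L (nat_lit 391) ln10_11_1 ln10_11_1_ok))))))))))) (B (M (nat_lit 360) (B (M (nat_lit 331) (B (L (nat_lit 359) ln7_11_2 ln7_11_2_ok) (M (nat_lit 332) (B (L (nat_lit 363) ln8_11_2 ln8_11_2_ok) (L (nat_lit 329) ln12_10_1 ln12_10_1_ok))))) (B (M (nat_lit 392) (B (M (nat_lit 391) (B (L (nat_lit 363) ln11_11_1 ln11_11_1_ok) (M (nat_lit 390) (B (L (nat_lit 389) ln5_12_2_c10 ln5_12_2_c10_ok) (L (nat_lit 393) ln6_12_2_c10 ln6_12_2_c10_ok))))) (B (M (nat_lit 363) (B (L (nat_lit 391) ln11_11_1 ln11_11_1_ok) (M (nat_lit 331) (B (L (nat_lit 332) ln8_11_2 ln8_11_2_ok) (L (nat_lit 458) ln10_14_6 ln10_14_6_ok))))) (M (nat_lit 329) (B (L (nat_lit 458) ln10_14_7 ln10_14_7_ok) (L (nat_lit 297) ln10_13_7_c10 ln10_13_7_c10_ok)))))) (B (M (nat_lit 359) (B (L (nat_lit 331) ln7_11_2 ln7_11_2_ok) (M (nat_lit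 358) (B (L (nat_lit 393) ln6_11_0_c10 ln6_11_0_c10_ok) (L (nat_lit 329) ln6_11_2_c10 ln6_11_2_c10_ok))))) (B (M (nat_lit 359) (B (L (nat_lit 331) ln7_11_2 ln7_11_2_ok) (M (nat_lit 358) (B (L (nat_lit 393) ln6_11_0_c10 ln6_11_0_c10_ok) (M (nat_lit 390) (B (L (nat_lit 389) ln9_11_1_c10 ln9_11_1_c10_ok) (L (nat_lit 391) ln10_11_1 ln10_11_1_ok))))))) (M (nat_lit 359) (B (M (nat_lit 358) (B (L (nat_lit 393) ln6_11_0_c10 ln6_11_0_c10_ok) (L (nat_lit 329) ln6_11_2_c10 ln6_11_2_c10_ok))) (M (nat_lit 363) (B (M (nat_lit 391) (B (L (nat_lit 390) ln10_11_1 ln10_11_1_ok) (L (nat_lit 392) ln11_11_1 ln11_11_1_ok))) (M (nat_lit 327) (B (L (nat_lit 326) ln10_11_3 ln10_11_3_ok) (L (nat_lit 328) ln11_11_3 ln11_11_3_ok)))))))))))) (B (M (nat_lit 360) (B (M (nat_lit 359) (B (L (nat_lit 395) ln7_11_0 ln7_11_0_ok) (L (nat_lit 331) ln7_11_2 ln7_11_2_ok))) (B (M (nat_lit 331) (B (L (nat_lit 359) ln7_11_2 ln7_11_2_ok) (M (nat_lit 332) (B (L (nat_lit 363) ln8_11_2 ln8_11_2_ok) (L (nat_lit 329) ln12_10_1 ln12_10_1_ok))))) (B (M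 (nat_lit 395) (B (L (nat_lit 396) ln13_12_3 ln13_12_3_ok) (M (nat_lit 331) (B (M (nat_lit 332) (B (L (nat_lit 363) ln8_11_2 ln8_11_2_ok) (L (nat_lit 329) ln12_10_1 ln12_10_1_ok))) (B (M (nat_lit 332) (B (L (nat_lit 329) ln12_10_1 ln12_10_1_ok) (L (nat_lit 333) ln13_10_1 ln13_10_1_ok))) (B (M (nat_lit 332) (B (L (nat_lit 363) ln8_11_2 ln8_11_2_ok) (L (nat_lit 333) ln13_10_1 ln13_10_1_ok))) (L (nat_lit 299) ln10_13_6 ln10_13_6_ok))))))) (M (nat_lit 395) (B (L (nat_lit 359) ln7_11_0 ln7_11_0_ok) (L (nat_lit 396) ln13_12_3 ln13_12_3_ok))))))) (B (M (nat_lit 329) (B (L (nat_lit 458) ln10_14_7 ln10_14_7_ok) (L (nat_lit 297) ln10_13_7_c10 ln10_13_7_c10_ok))) (M (nat_lit 360) (B (M (nat_lit 359) (B (L (nat_lit 395) ln7_11_0 ln7_11_0_ok) (L (nat_lit 331) ln7_11_2 ln7_11_2_ok))) (B (M (nat_lit 359) (B (L (nat_lit 331) ln7_11_2 ln7_11_2_ok) (M (nat_lit 358) (B (L (nat_lit 393) ln6_11_0_c10 ln6_11_0_c10_ok) (M (nat_lit 390) (B (L (nat_lit 389) ln9_11_1_c10 ln9_11_1_c10_ok) (L (nat_lit 391) ln10_11_1 ln10_11_1_ok)))))))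 (B (M (nat_lit 396) (B (L (nat_lit 395) ln13_12_3 ln13_12_3_ok) (M (nat_lit 363) (B (M (nat_lit 331) (B (L (nat_lit 332) ln8_11_2 ln8_11_2_ok) (L (nat_lit 458) ln10_14_6 ln10_14_6_ok))) (M (nat_lit 392) (B (L (nat_lit 391) ln11_11_1 ln11_11_1_ok) (L (nat_lit 364) ln9_11_0 ln9_11_0_ok))))))) (M (nat_lit 395) (B (L (nat_lit 359) ln7_11_0 ln7_11_0_ok) (L (nat_lit 396) ln13_12_3 ln13_12_3_ok)))))))))))))))
noncomputable def c10_d327 : Cert := (B (M (nat_lit 298) (B (M (nat_lit 297) (B (L (nat_lit 329) ln10_13_7_c10 ln10_13_7_c10_ok) (L (nat_lit 265) ln10_12_7_c10 ln10_12_7_c10_ok))) (B (M (nat_lit 393) (B (M (nat_lit 266) (B (L (nat_lit 361) ln10_8_5_c10 ln10_8_5_c10_ok) (M (nat_lit 267) (B (L (nat_lit 299) ln10_12_6_c10 ln10_12_6_c10_ok) (L (nat_lit 235) ln10_11_6_c10 ln10_11_6_c10_ok))))) (B (M (nat_lit 266) (B (M (nat_lit 265) (B (L (nat_lit 297) ln10_12_7_c10 ln10_12_7_c10_ok) (L (nat_lit 233) ln10_11_7_c10 ln10_11_7_c10_ok))) (M (nat_lit 267) (B (L (nat_lit 299) ln10_12_6_c10 ln10_12_6_c10_ok) (L (nat_lit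 235) ln10_11_6_c10 ln10_11_6_c10_ok))))) (B (M (nat_lit 266) (B (L (nat_lit 361) ln10_8_5_c10 ln10_8_5_c10_ok) (M (nat_lit 265) (B (L (nat_lit 297) ln10_12_7_c10 ln10_12_7_c10_ok) (L (nat_lit 233) ln10_11_7_c10 ln10_11_7_c10_ok))))) (M (nat_lit 297) (B (L (nat_lit 265) ln10_12_7_c10 ln10_12_7_c10_ok) (M (nat_lit 299) (B (L (nat_lit 267) ln10_12_6_c10 ln10_12_6_c10_ok) (L (nat_lit 331) ln10_13_6 ln10_13_6_ok))))))))) (M (nat_lit 361) (B (M (nat_lit 395) (B (M (nat_lit 266) (B (L (nat_lit 393) ln10_8_5_c10 ln10_8_5_c10_ok) (L (nat_lit 363) ln10_8_4 ln10_8_4_ok))) (B (M (nat_lit 266) (B (L (nat_lit 363) ln10_8_4 ln10_8_4_ok) (M (nat_lit 267) (B (L (nat_lit 299) ln10_12_6_c10 ln10_12_6_c10_ok) (L (nat_lit 235) ln10_11_6_c10 ln10_11_6_c10_ok))))) (B (M (nat_lit 266) (B (L (nat_lit 393) ln10_8_5_c10 ln10_8_5_c10_ok) (M (nat_lit 267) (B (L (nat_lit 299) ln10_12_6_c10 ln10_12_6_c10_ok) (L (nat_lit 235) ln10_11_6_c10 ln10_11_6_c10_ok))))) (M (nat_lit 360) (B (L (nat_lit 359) ln7_11_0 ln7_11_0_ok) (L (nat_lit 396)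 ln13_12_3 ln13_12_3_ok))))))) (B (M (nat_lit 329) (B (M (nat_lit 299) (B (L (nat_lit 267) ln10_12_6_c10 ln10_12_6_c10_ok) (L (nat_lit 458) ln10_14_7 ln10_14_7_ok))) (M (nat_lit 363) (B (M (nat_lit 266) (B (L (nat_lit 395) ln10_8_4 ln10_8_4_ok) (L (nat_lit 234) ln10_7_5_c10 ln10_7_5_c10_ok))) (M (nat_lit 328) (B (L (nat_lit 364) ln12_11_3 ln12_11_3_ok) (L (nat_lit 327) ln7_10_0_c10 ln7_10_0_c10_ok))))))) (B (M (nat_lit 267) (B (L (nat_lit 299) ln10_12_6_c10 ln10_12_6_c10_ok) (M (nat_lit 266) (B (L (nat_lit 393) ln10_8_5_c10 ln10_8_5_c10_ok) (L (nat_lit 235) ln10_11_6_c10 ln10_11_6_c10_ok))))) (B (M (nat_lit 395) (B (M (nat_lit 266) (B (L (nat_lit 393) ln10_8_5_c10 ln10_8_5_c10_ok) (L (nat_lit 363) ln10_8_4 ln10_8_4_ok))) (M (nat_lit 360) (B (L (nat_lit 359) ln7_11_0 ln7_11_0_ok) (L (nat_lit 396) ln13_12_3 ln13_12_3_ok))))) (M (nat_lit 360) (B (M (nat_lit 359) (B (L (nat_lit 395) ln7_11_0 ln7_11_0_ok) (L (nat_lit 331) ln7_11_2 ln7_11_2_ok))) (B (M (nat_lit 331) (B (L (nat_lit 359) ln7_11_2 ln7_11_2_ok)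 (L (nat_lit 299) ln10_13_6 ln10_13_6_ok))) (B (M (nat_lit 299) (B (L (nat_lit 267) ln10_12_6_c10 ln10_12_6_c10_ok) (L (nat_lit 331) ln10_13_6 ln10_13_6_ok))) (M (nat_lit 395) (B (L (nat_lit 359) ln7_11_0 ln7_11_0_ok) (L (nat_lit 396) ln13_12_3 ln13_12_3_ok))))))))))))))) (B (M (nat_lit 329) (B (M (nat_lit 298) (B (L (nat_lit 297) ln10_13_7_c10 ln10_13_7_c10_ok) (M (nat_lit 299) (B (L (nat_lit 267) ln10_12_6_c10 ln10_12_6_c10_ok) (M (nat_lit 328) (B (L (nat_lit 327) ln7_10_2_c10 ln7_10_2_c10_ok) (M (nat_lit 300) (B (L (nat_lit 331) ln8_10_2_c10 ln8_10_2_c10_ok) (L (nat_lit 301) ln13_9_1 ln13_9_1_ok))))))))) (B (M (nat_lit 298) (B (L (nat_lit 297) ln10_13_7_c10 ln10_13_7_c10_ok) (M (nat_lit 393) (B (L (nat_lit 425) ln10_9_5_c10 ln10_9_5_c10_ok) (M (nat_lit 266) (B (L (nat_lit 361) ln10_8_5_c10 ln10_8_5_c10_ok) (M (nat_lit 267) (B (L (nat_lit 299) ln10_12_6_c10 ln10_12_6_c10_ok) (L (nat_lit 235) ln10_11_6_c10 ln10_11_6_c10_ok))))))))) (B (L (nat_lit 297) ln10_13_7_c10 ln10_13_7_c10_ok) (M (nat_lit 298) (B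 (M (nat_lit 393) (B (L (nat_lit 425) ln10_9_5_c10 ln10_9_5_c10_ok) (M (nat_lit 266) (B (L (nat_lit 361) ln10_8_5_c10 ln10_8_5_c10_ok) (M (nat_lit 267) (B (L (nat_lit 299) ln10_12_6_c10 ln10_12_6_c10_ok) (L (nat_lit 235) ln10_11_6_c10 ln10_11_6_c10_ok))))))) (B (M (nat_lit 299) (B (L (nat_lit 267) ln10_12_6_c10 ln10_12_6_c10_ok) (M (nat_lit 328) (B (L (nat_lit 327) ln7_10_2_c10 ln7_10_2_c10_ok) (M (nat_lit 300) (B (L (nat_lit 331) ln8_10_2_c10 ln8_10_2_c10_ok) (L (nat_lit 301) ln13_9_1 ln13_9_1_ok))))))) (M (nat_lit 363) (B (M (nat_lit 328) (B (L (nat_lit 327) ln7_10_0_c10 ln7_10_0_c10_ok) (L (nat_lit 364) ln13_11_3 ln13_11_3_ok))) (M (nat_lit 393) (B (L (nat_lit 425) ln10_9_5_c10 ln10_9_5_c10_ok) (M (nat_lit 266) (B (L (nat_lit 361) ln10_8_5_c10 ln10_8_5_c10_ok) (L (nat_lit 395) ln10_8_4 ln10_8_4_ok)))))))))))))) (B (M (nat_lit 298) (B (M (nat_lit 297) (B (L (nat_lit 329) ln10_13_7_c10 ln10_13_7_c10_ok) (L (nat_lit 265) ln10_12_7_c10 ln10_12_7_c10_ok))) (B (M (nat_lit 267) (B (L (nat_lit 299) ln10_12_6_c10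 ln10_12_6_c10_ok) (M (nat_lit 266) (B (L (nat_lit 235) ln10_11_6_c10 ln10_11_6_c10_ok) (M (nat_lit 265) (B (L (nat_lit 297) ln10_12_7_c10 ln10_12_7_c10_ok) (L (nat_lit 233) ln10_11_7_c10 ln10_11_7_c10_ok))))))) (M (nat_lit 363) (B (M (nat_lit 267) (B (L (nat_lit 299) ln10_12_6_c10 ln10_12_6_c10_ok) (M (nat_lit 266) (B (L (nat_lit 395) ln10_8_4 ln10_8_4_ok) (L (nat_lit 235) ln10_11_6_c10 ln10_11_6_c10_ok))))) (B (M (nat_lit 329) (B (M (nat_lit 328) (B (L (nat_lit 327) ln7_10_0_c10 ln7_10_0_c10_ok) (L (nat_lit 364) ln13_11_3 ln13_11_3_ok))) (M (nat_lit 267) (B (L (nat_lit 299) ln10_12_6_c10 ln10_12_6_c10_ok) (M (nat_lit 266) (B (L (nat_lit 235) ln10_11_6_c10 ln10_11_6_c10_ok) (M (nat_lit 234) (B (L (nat_lit 361) ln10_7_5_c10 ln10_7_5_c10_ok) (L (nat_lit 331) ln10_7_4 ln10_7_4_ok))))))))) (B (M (nat_lit 329) (B (M (nat_lit 328) (B (L (nat_lit 327) ln7_10_0_c10 ln7_10_0_c10_ok) (L (nat_lit 364) ln13_11_3 ln13_11_3_ok))) (M (nat_lit 266) (B (L (nat_lit 395) ln10_8_4 ln10_8_4_ok) (M (nat_lit 234) (B (L (nat_lit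 361) ln10_7_5_c10 ln10_7_5_c10_ok) (L (nat_lit 331) ln10_7_4 ln10_7_4_ok))))))) (M (nat_lit 361) (B (M (nat_lit 299) (B (L (nat_lit 267) ln10_12_6_c10 ln10_12_6_c10_ok) (L (nat_lit 331) ln10_13_6 ln10_13_6_ok))) (B (M (nat_lit 360) (B (M (nat_lit 395) (B (L (nat_lit 359) ln7_11_0 ln7_11_0_ok) (L (nat_lit 396) ln8_11_0 ln8_11_0_ok))) (B (M (nat_lit 331) (B (L (nat_lit 359) ln7_11_2 ln7_11_2_ok) (L (nat_lit 332) ln8_11_2 ln8_11_2_ok))) (M (nat_lit 396) (B (L (nat_lit 395) ln8_11_0 ln8_11_0_ok) (L (nat_lit 364) ln9_11_0 ln9_11_0_ok)))))) (M (nat_lit 329) (B (M (nat_lit 328) (B (L (nat_lit 364) ln12_11_3 ln12_11_3_ok) (L (nat_lit 327) ln7_10_0_c10 ln7_10_0_c10_ok))) (M (nat_lit 299) (B (L (nat_lit 267) ln10_12_6_c10 ln10_12_6_c10_ok) (L (nat_lit 458) ln10_14_7 ln10_14_7_ok))))))))))))))) (B (M (nat_lit 298) (B (M (nat_lit 425) (B (L (nat_lit 457) ln10_10_5 ln10_10_5_ok) (L (nat_lit 393) ln10_9_5_c10 ln10_9_5_c10_ok))) (M (nat_lit 297) (B (L (nat_lit 329) ln10_13_7_c10 ln10_13_7_c10_ok) (L (nat_lit 265) ln10_12_7_c10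 ln10_12_7_c10_ok))))) (B (M (nat_lit 298) (B (M (nat_lit 425) (B (L (nat_lit 393) ln10_9_5_c10 ln10_9_5_c10_ok) (L (nat_lit 457) ln10_10_5 ln10_10_5_ok))) (B (M (nat_lit 266) (B (M (nat_lit 393) (B (L (nat_lit 425) ln10_9_5_c10 ln10_9_5_c10_ok) (L (nat_lit 361) ln10_8_5_c10 ln10_8_5_c10_ok))) (M (nat_lit 267) (B (L (nat_lit 299) ln10_12_6_c10 ln10_12_6_c10_ok) (L (nat_lit 235) ln10_11_6_c10 ln10_11_6_c10_ok))))) (M (nat_lit 395) (B (M (nat_lit 266) (B (L (nat_lit 363) ln10_8_4 ln10_8_4_ok) (M (nat_lit 267) (B (L (nat_lit 299) ln10_12_6_c10 ln10_12_6_c10_ok) (L (nat_lit 235) ln10_11_6_c10 ln10_11_6_c10_ok))))) (B (M (nat_lit 266) (B (M (nat_lit 265) (B (L (nat_lit 297) ln10_12_7_c10 ln10_12_7_c10_ok) (L (nat_lit 233) ln10_11_7_c10 ln10_11_7_c10_ok))) (M (nat_lit 267) (B (L (nat_lit 299) ln10_12_6_c10 ln10_12_6_c10_ok) (L (nat_lit 235) ln10_11_6_c10 ln10_11_6_c10_ok))))) (B (M (nat_lit 266) (B (L (nat_lit 363) ln10_8_4 ln10_8_4_ok) (M (nat_lit 265) (B (L (nat_lit 297) ln10_12_7_c10 ln10_12_7_c10_ok) (L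 (nat_lit 233) ln10_11_7_c10 ln10_11_7_c10_ok))))) (M (nat_lit 297) (B (L (nat_lit 265) ln10_12_7_c10 ln10_12_7_c10_ok) (M (nat_lit 299) (B (L (nat_lit 267) ln10_12_6_c10 ln10_12_6_c10_ok) (L (nat_lit 331) ln10_13_6 ln10_13_6_ok)))))))))))) c10_d326)))))
noncomputable def c10_d328 : Cert := (B (M (nat_lit 361) (B (M (nat_lit 458) (B (L (nat_lit 329) ln10_14_7 ln10_14_7_ok) (M (nat_lit 457) (B (L (nat_lit 489) ln10_11_5 ln10_11_5_ok) (M (nat_lit 330) (B (L (nat_lit 425) ln10_10_5 ln10_10_5_ok) (M (nat_lit 331) (B (L (nat_lit 299) ln10_13_6 ln10_13_6_ok) (L (nat_lit 363) ln10_14_6 ln10_14_6_ok))))))))) (B (M (nat_lit 458) (B (L (nat_lit 329) ln10_14_7 ln10_14_7_ok) (M (nat_lit 490) (B (M (nat_lit 363) (B (L (nat_lit 331) ln10_14_6 ln10_14_6_ok) (L (nat_lit 395) ln10_15_6 ln10_15_6_ok))) (M (nat_lit 489) (B (L (nat_lit 457) ln10_11_5 ln10_11_5_ok) (L (nat_lit 521) ln10_12_5 ln10_12_5_ok))))))) (B (M (nat_lit 363) (B (M (nat_lit 331) (B (L (nat_lit 458) ln10_14_6 ln10_14_6_ok) (M (nat_lit 299) (B (L (nat_lit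 267) ln11_8_5 ln11_8_5_ok) (L (nat_lit 330) ln10_13_6 ln10_13_6_ok))))) (B (M (nat_lit 331) (B (L (nat_lit 458) ln10_14_6 ln10_14_6_ok) (M (nat_lit 299) (B (L (nat_lit 330) ln10_13_6 ln10_13_6_ok) (L (nat_lit 395) ln11_9_5 ln11_9_5_ok))))) (B (M (nat_lit 360) (B (M (nat_lit 331) (B (L (nat_lit 332) ln8_11_2 ln8_11_2_ok) (L (nat_lit 458) ln10_14_6 ln10_14_6_ok))) (M (nat_lit 395) (B (L (nat_lit 359) ln7_11_0 ln7_11_0_ok) (L (nat_lit 396) ln8_11_0 ln8_11_0_ok))))) (B (M (nat_lit 395) (B (L (nat_lit 396) ln13_12_3 ln13_12_3_ok) (M (nat_lit 330) (B (M (nat_lit 298) (B (L (nat_lit 266) ln10_8_4 ln10_8_4_ok) (L (nat_lit 427) ln10_9_4 ln10_9_4_ok))) (M (nat_lit 457) (B (L (nat_lit 425) ln10_10_5 ln10_10_5_ok) (M (nat_lit 458) (B (L (nat_lit 489) ln10_11_5 ln10_11_5_ok) (L (nat_lit 490) ln10_15_6 ln10_15_6_ok))))))))) (M (nat_lit 360) (B (M (nat_lit 395) (B (L (nat_lit 359) ln7_11_0 ln7_11_0_ok) (L (nat_lit 396) ln8_11_0 ln8_11_0_ok))) (B (M (nat_lit 331) (B (L (nat_lit 332) ln8_11_2 ln8_11_2_ok) (M (nat_lit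 395) (B (L (nat_lit 299) ln11_9_5 ln11_9_5_ok) (L (nat_lit 396) ln8_11_0 ln8_11_0_ok))))) (M (nat_lit 331) (B (L (nat_lit 332) ln8_11_2 ln8_11_2_ok) (M (nat_lit 299) (B (L (nat_lit 267) ln11_8_5 ln11_8_5_ok) (L (nat_lit 330) ln10_13_6 ln10_13_6_ok))))))))))))) (B (M (nat_lit 395) (B (L (nat_lit 396) ln13_12_3 ln13_12_3_ok) (M (nat_lit 458) (B (L (nat_lit 329) ln10_14_7 ln10_14_7_ok) (M (nat_lit 490) (B (L (nat_lit 363) ln10_15_6 ln10_15_6_ok) (M (nat_lit 489) (B (L (nat_lit 457) ln10_11_5 ln10_11_5_ok) (L (nat_lit 521) ln10_12_5 ln10_12_5_ok))))))))) (B (M (nat_lit 360) (B (M (nat_lit 359) (B (L (nat_lit 395) ln7_11_0 ln7_11_0_ok) (M (nat_lit 330) (B (L (nat_lit 331) ln7_11_2 ln7_11_2_ok) (M (nat_lit 329) (B (L (nat_lit 358) ln6_11_2_c10 ln6_11_2_c10_ok) (L (nat_lit 458) ln10_14_7 ln10_14_7_ok))))))) (B (M (nat_lit 359) (B (L (nat_lit 395) ln7_11_0 ln7_11_0_ok) (M (nat_lit 326) (B (L (nat_lit 327) ln10_11_3 ln10_11_3_ok) (M (nat_lit 390) (B (L (nat_lit 391) ln10_11_1 ln10_11_1_ok) (M (nat_lit 358) (B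 (L (nat_lit 325) ln9_11_3_c10 ln9_11_3_c10_ok) (L (nat_lit 389) ln9_11_1_c10 ln9_11_1_c10_ok))))))))) (B (M (nat_lit 330) (B (M (nat_lit 331) (B (L (nat_lit 299) ln10_13_6 ln10_13_6_ok) (L (nat_lit 359) ln7_11_2 ln7_11_2_ok))) (M (nat_lit 457) (B (L (nat_lit 425) ln10_10_5 ln10_10_5_ok) (M (nat_lit 458) (B (L (nat_lit 329) ln10_14_7 ln10_14_7_ok) (L (nat_lit 489) ln10_11_5 ln10_11_5_ok))))))) (M (nat_lit 457) (B (M (nat_lit 458) (B (L (nat_lit 329) ln10_14_7 ln10_14_7_ok) (L (nat_lit 489) ln10_11_5 ln10_11_5_ok))) (B (M (nat_lit 425) (B (L (nat_lit 330) ln10_10_5 ln10_10_5_ok) (M (nat_lit 489) (B (L (nat_lit 458) ln10_11_5 ln10_11_5_ok) (L (nat_lit 521) ln9_16_6 ln9_16_6_ok))))) (M (nat_lit 330) (B (L (nat_lit 425) ln10_10_5 ln10_10_5_ok) (M (nat_lit 331) (B (L (nat_lit 299) ln10_13_6 ln10_13_6_ok) (M (nat_lit 332) (B (L (nat_lit 329) ln12_10_1 ln12_10_1_ok) (L (nat_lit 333) ln13_10_1 ln13_10_1_ok)))))))))))))) (B (M (nat_lit 458) (B (L (nat_lit 329) ln10_14_7 ln10_14_7_ok) (M (nat_lit 363) (B (L (nat_lit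 331) ln10_14_6 ln10_14_6_ok) (M (nat_lit 395) (B (L (nat_lit 490) ln10_15_6 ln10_15_6_ok) (M (nat_lit 360) (B (L (nat_lit 359) ln7_11_0 ln7_11_0_ok) (L (nat_lit 396) ln8_11_0 ln8_11_0_ok))))))))) (M (nat_lit 360) (B (M (nat_lit 395) (B (L (nat_lit 359) ln7_11_0 ln7_11_0_ok) (L (nat_lit 396) ln13_12_3 ln13_12_3_ok))) (B (K (nat_lit 20839919904563267469136299467475288668716632806260392567392182835624945608782305690220327138760889000166025139274750053358773470026350460928) (nat_lit 242085926127012702281851768578531622509582202589323955232681720490577267578112019643666351607314597780393692690336710656) (nat_lit 242085926127012702281851768578531622509582202589323955232681720490577267578112019643666351607314597780393692690336710656) c10_s299) (B (M (nat_lit 359) (B (L (nat_lit 395) ln7_11_0 ln7_11_0_ok) (M (nat_lit 358) (B (M (nat_lit 326) (B (L (nat_lit 325) ln9_11_3_c10 ln9_11_3_c10_ok) (L (nat_lit 327) ln10_11_3 ln10_11_3_ok))) (M (nat_lit 330) (B (L (nat_lit 329) ln6_11_2_c10 ln6_11_2_c10_ok) (L (nat_lit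 331) ln7_11_2 ln7_11_2_ok))))))) (M (nat_lit 363) (B (M (nat_lit 331) (B (L (nat_lit 332) ln8_11_2 ln8_11_2_ok) (M (nat_lit 299) (B (L (nat_lit 267) ln11_8_5 ln11_8_5_ok) (L (nat_lit 330) ln10_13_6 ln10_13_6_ok))))) (B (M (nat_lit 331) (B (L (nat_lit 332) ln8_11_2 ln8_11_2_ok) (M (nat_lit 330) (B (L (nat_lit 299) ln10_13_6 ln10_13_6_ok) (L (nat_lit 359) ln7_11_2 ln7_11_2_ok))))) (B (M (nat_lit 359) (B (M (nat_lit 327) (B (L (nat_lit 326) ln10_11_3 ln10_11_3_ok) (L (nat_lit 328) ln11_11_3 ln11_11_3_ok))) (M (nat_lit 331) (B (L (nat_lit 330) ln7_11_2 ln7_11_2_ok) (L (nat_lit 332) ln8_11_2 ln8_11_2_ok))))) (M (nat_lit 359) (B (M (nat_lit 327) (B (L (nat_lit 326) ln10_11_3 ln10_11_3_ok) (L (nat_lit 328) ln11_11_3 ln11_11_3_ok))) (M (nat_lit 391) (B (L (nat_lit 390) ln10_11_1 ln10_11_1_ok) (L (nat_lit 392) ln11_11_1 ln11_11_1_ok)))))))))))))))))))) (B (K (nat_lit 20839919904563267469136299467468243040968311306576724125601814824542818561135580730608205265846292373090681313944358956363619163917254656000) (nat_lit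 6864797664925615489383689147434808385902572745211955656829550289524365464269608193986424582049658647957704942614348580296750875855566989832296963184388997120) (nat_lit 6864797664925615489383689147434808385902572745211955656829550289524365464269608193986424582049658647957704942614348580296750875855566989832296963184388997120) c10_s300) (B (K (nat_lit 20839919904563267469136299467468243040968311306576724125601814824542818561135580730608205265846292373090681313944358956363619163917254656000) (nat_lit 117936325823726750889651195466205648872946466954310743144385318592773228232995304602839978845808246464706339823652308044735793286482158130502913484672682232830599626752) (nat_lit 117936325823726750889651195466205648872946466954310743144385318592773228232995304602839978845808246464706339823652308044735793286482158130502913484672682232830599626752) c10_s301) (B (K (nat_lit 20839919904563267469136299467468243040968311306576724125601814824542818561135580730608205265846292373090681313944358956363619163917254656000)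 (nat_lit 372141426925996655922703081200633113565176453993256711532865323622620503556172741289225465703030520108806613788331156485133432537833537536) (nat_lit 372141426925996655922703081200633113565176453993256711532865323622620503556172741289225465703030520108806613788331156485133432537833537536) c10_s289) (B (K (nat_lit 20839919904563267469136299467468243040968311306576724125601814824542818561135580730608205265846292373090681313944358956363619163917254656000) (nat_lit 4795005774401788348006831456907122377809858428647604740935748723544257071082180806449290091308329723919692194031006909079102356737445497056960446464) (nat_lit 4795005774401788348006831456907122377809858428647604740935748723544257071082180806449290091308329723919692194031006909079102356737445497056960446464) c10_s302) (M (nat_lit 458) (B (M (nat_lit 490) (B (M (nat_lit 489) (B (L (nat_lit 521) ln10_12_5 ln10_12_5_ok) (L (nat_lit 457) ln10_11_5 ln10_11_5_ok))) (M (nat_lit 363) (B (L (nat_lit 395) ln10_15_6 ln10_15_6_ok) (L (nat_lit 331) ln10_14_6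 ln10_14_6_ok))))) (B (M (nat_lit 330) (B (M (nat_lit 457) (B (L (nat_lit 489) ln10_11_5 ln10_11_5_ok) (L (nat_lit 425) ln10_10_5 ln10_10_5_ok))) (M (nat_lit 331) (B (L (nat_lit 363) ln10_14_6 ln10_14_6_ok) (L (nat_lit 299) ln10_13_6 ln10_13_6_ok))))) (B (M (nat_lit 490) (B (M (nat_lit 363) (B (L (nat_lit 395) ln10_15_6 ln10_15_6_ok) (L (nat_lit 331) ln10_14_6 ln10_14_6_ok))) (M (nat_lit 522) (B (M (nat_lit 393) (B (L (nat_lit 425) ln10_16_7 ln10_16_7_ok) (L (nat_lit 361) ln10_15_7 ln10_15_7_ok))) (M (nat_lit 523) (B (L (nat_lit 555) ln10_13_4 ln10_13_4_ok) (L (nat_lit 491) ln10_12_4 ln10_12_4_ok))))))) (M (nat_lit 490) (B (M (nat_lit 489) (B (L (nat_lit 521) ln10_12_5 ln10_12_5_ok) (L (nat_lit 457) ln10_11_5 ln10_11_5_ok))) (M (nat_lit 522) (B (M (nat_lit 393) (B (L (nat_lit 425) ln10_16_7 ln10_16_7_ok) (L (nat_lit 361) ln10_15_7 ln10_15_7_ok))) (M (nat_lit 523) (B (L (nat_lit 555) ln10_13_4 ln10_13_4_ok) (L (nat_lit 491) ln10_12_4 ln10_12_4_ok))))))))))))))))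
noncomputable def c10_d329 : Cert := (B (K (nat_lit 20839919904563267469136299467468243040968311306576724125601814824542818561135580730608205265846292373090681313944358956363619163917254656000) (nat_lit 744282853765347383964652179525397379051428171549987757857649166709520217330720733759671486419769349685382631311038338362165628034468544512) (nat_lit 744282853765347383964652179525397379051428171549987757857649166709520217330720733759671486419769349685382631311038338362165628034468544512) c10_s295) (B (K (nat_lit 20839919904563267469136299467468243040968311306576724125601814824542818561135580730608205265846292373090681313944358956363619163917254656000) (nat_lit 1598335258878212303072075893499311809017122056259167225528972386816905375590744239356599241009192203216582117771408515582878054990457616934222430208) (nat_lit 1598335258878212303072075893499311809017122056259167225528972386816905375590744239356599241009192203216582117771408515582878054990457616934222430208) c10_s297) (B (K (nat_lit 20839919904563267469136299467468243040968311306576724125601814824542818561135580730608205265846292373090681313944358956363619163917254656000)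 (nat_lit 2397502888038212384511093017345527028540526059175048892715452660211965210379812298781988473073064215245580066955755460727916435994395902126097170432) (nat_lit 2397502888038212384511093017345527028540526059175048892715452660211965210379812298781988473073064215245580066955755460727916435994395902126097170432) c10_s303) (B (K (nat_lit 20839919904563267469136299467468243040968311306576724125601814824542818561135580730608205265846292373090681313944358956363619163917254656000) (nat_lit 372141426925996656003398389928425688316305259764566607810903354869449640771257899608953609923933948110544221388395755593127056236791988224) (nat_lit 372141426925996656003398389928425688316305259764566607810903354869449640771257899608953609923933948110544221388395755593127056236791988224) c10_s304) (B (K (nat_lit 20839919904563267469136299467468243040968311306576724125601814824542818561135580730608205265846292373090681313944358956363619163917254656000) (nat_lit 1598335258878212303072075893499311809012424971092662636880909885783461927785587294239617576675763800585487932162692256029772267775055228302690091008)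 (nat_lit 1598335258878212303072075893499311809012424971092662636880909885783461927785587294239617576675763800585487932162692256029772267775055228302690091008) c10_s288) (B (K (nat_lit 20839919904563267469136299467468243040968311306576724125601814824542818561135580730608205265846292373090681313944358956363619163917254656000) (nat_lit 1598335258878212303072075893499311808998333715596019637513573002202725905621333198946167657451520054756294678012004605368990073784746616084498481152) (nat_lit 1598335258878212303072075893499311808998333715596019637513573002202725905621333198946167657451520054756294678012004605368990073784746616084498481152) c10_s280) (B (K (nat_lit 20839919904563267469136299467468243040968311306576724125601814824542818561135580730608205265846292373090681313944358956363619163917254656000) (nat_lit 6864797664925615489383689147001578746216369250575382413913880329394204960504006303296159402001446723692574801713202217636382823279536261829817018869578989568) (nat_lit 6864797664925615489383689147001578746216369250575382413913880329394204960504006303296159402001446723692574801713202217636382823279536261829817018869578989568)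 c10_s298) (B (K (nat_lit 20839919904563267469136299467468243040968311306576724125601814824542818561135580730608205265846292373090681313944358956363619163917254656000) (nat_lit 1598335258878212303072075893479137981844568082901523434805415316708839775333860350643444690194204572981545778379877368594198588963731772177716871168) (nat_lit 1598335258878212303072075893479137981844568082901523434805415316708839775333860350643444690194204572981545778379877368594198588963731772177716871168) c10_s305) (B (K (nat_lit 20839919904563267469136299467468243040968311306576724125601814824542818561135580730608205265846292373090681313944358956363619163917254656000) (nat_lit 6864797664925615489383689147434808385902572745211955656829550289524365464269608193986424582049658647957704942614348580296750875855566989832296963184388997120) (nat_lit 6864797664925615489383689147434808385902572745211955656829550289524365464269608193986424582049658647957704942614348580296750875855566989832296963184388997120) c10_s300) (B (K (nat_lit 20839919904563267469136299467468243040968311306576724125601814824542818561135580730608205265846292373090681313944358956363619163917254656000)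 (nat_lit 6864797664925615489383689147088224674076949406228203623075039053729326888408136184940573228113078127685718702742300399125259000678433482824261200559093055488) (nat_lit 6864797664925615489383689147088224674076949406228203623075039053729326888408136184940573228113078127685718702742300399125259000678433482824261200559093055488) c10_s306) (B (K (nat_lit 20839919904563267469136299467468243040968311306576724125601814824542818561135580730608205265846292373090681313944358956363619163917254656000) (nat_lit 4795005774401788348006831456907122377809858428647604740935748723544257071082180806449290091308329723919692194031006909079102356737445497056960446464) (nat_lit 4795005774401788348006831456907122377809858428647604740935748723544257071082180806449290091308329723919692194031006909079102356737445497056960446464) c10_s302) (B (K (nat_lit 20839919904563267469136299467468243040968311306576724125601814824542818561135580730608205265846292373090681313944358956363619163917254656000) (nat_lit 6864797664925615489383689147088224674157644714937207857168351695126338989612458760509453333184602467291369168883993175795807667538910439509890463400961507328)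 (nat_lit 6864797664925615489383689147088224674157644714937207857168351695126338989612458760509453333184602467291369168883993175795807667538910439509890463400961507328) c10_s307) (K (nat_lit 20839919904563267469136299467468243040968311306576724125601814824542818561135580730608205265846292373090681313944358956363619163917254656000) (nat_lit 1598335258878212303418659605345108975149942637536201948573167135316174625693644481186534078144139401364664437469883662237871533755125320410147586048) (nat_lit 1598335258878212303418659605345108975149942637536201948573167135316174625693644481186534078144139401364664437469883662237871533755125320410147586048) c10_s308)))))))))))))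
noncomputable def c10_d330 : Cert := (B (K (nat_lit 20839919904563267469136299467468243040968311306576724125601814824542818561135580730608205265846292373090681313944358956363619163917254656000) (nat_lit 1598335258878212303072075893499311809017122056259167225528972386816905375590744239356599241009192203216582117771408515582878054990457616934222430208) (nat_lit 1598335258878212303072075893499311809017122056259167225528972386816905375590744239356599241009192203216582117771408515582878054990457616934222430208) c10_s297) (B (K (nat_lit 20839919904563267469136299467468243040968311306576724125601814824542818561135580730608205265846292373090681313944358956363619163917254656000) (nat_lit 1598335258878212303072075893499311809012424971092662636880909885783461927785587294239617576675763800585487932162692256029772267775055228302690091008) (nat_lit 1598335258878212303072075893499311809012424971092662636880909885783461927785587294239617576675763800585487932162692256029772267775055228302690091008) c10_s288) (B (K (nat_lit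 20839919904563267469136299467468243040968311306576724125601814824542818561135580730608205265846292373090681313944358956363619163917254656000) (nat_lit 1598335258878212303072075893499311808998333715596019637513573002202725905621333198946167657451520054756294678012004605368990073784746616084498481152) (nat_lit 1598335258878212303072075893499311808998333715596019637513573002202725905621333198946167657451520054756294678012004605368990073784746616084498481152) c10_s280) (B (K (nat_lit 20839919904563267469136299467468243040968311306576724125601814824542818561135580730608205265846292373090681313944358956363619163917254656000) (nat_lit 6864797664925615489383689147001578746216369250575382413913880329394204960504006303296159402001446723692574801713202217636382823279536261829817018869578989568) (nat_lit 6864797664925615489383689147001578746216369250575382413913880329394204960504006303296159402001446723692574801713202217636382823279536261829817018869578989568) c10_s298) (B (K (nat_lit 20839919904563267469136299467468243040968311306576724125601814824542818561135580730608205265846292373090681313944358956363619163917254656000)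 (nat_lit 372141426925996655922703081238209794889421082469173548492656321498887600771430587864228080873443738720781631974039798360183861144763498496) (nat_lit 372141426925996655922703081238209794889421082469173548492656321498887600771430587864228080873443738720781631974039798360183861144763498496) c10_s309) (B (K (nat_lit 20839919904563267469136299467468243040968311306576724125601814824542818561135580730608205265846292373090681313944358956363619163917254656000) (nat_lit 744282853678701456164593505374972563194172644075234916123012523926223123846953795925963398222338182636313970207039852919856991822113931264) (nat_lit 744282853678701456164593505374972563194172644075234916123012523926223123846953795925963398222338182636313970207039852919856991822113931264) c10_s310) (B (K (nat_lit 20839919904563267469136299467468243040968311306576724125601814824542818561135580730608205265846292373090681313944358956363619163917254656000) (nat_lit 6864797664925615489383689147434808385902572745211955656829550289524365464269608193986424582049658647957704942614348580296750875855566989832296963184388997120)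 (nat_lit 6864797664925615489383689147434808385902572745211955656829550289524365464269608193986424582049658647957704942614348580296750875855566989832296963184388997120) c10_s300) (B (K (nat_lit 20839919904563267469136299467468243040968311306576724125601814824542818561135580730608205265846292373090681313944358956363619163917254656000) (nat_lit 6864797664925615489383689147088224674076949406228203623075039053729326888408136184940573228113078127685718702742300399125259000678433482824261200559093055488) (nat_lit 6864797664925615489383689147088224674076949406228203623075039053729326888408136184940573228113078127685718702742300399125259000678433482824261200559093055488) c10_s306) (B (K (nat_lit 20839919904563267469136299467468243040968311306576724125601814824542818561135580730608205265846292373090681313944358956363619163917254656000) (nat_lit 6864797664925615489383689147088224674157644714937207857168351695126338989612458760509453333184602467291369168883993175795807667538910439509890463400961507328) (nat_lit 6864797664925615489383689147088224674157644714937207857168351695126338989612458760509453333184602467291369168883993175795807667538910439509890463400961507328)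 c10_s307) (B (K (nat_lit 20839919904563267469136299467468243040968311306576724125601814824542818561135580730608205265846292373090681313944358956363619163917254656000) (nat_lit 1598335258878212303418659605345108975149942637536201948573167135316174625693644481186534078144139401364664437469883662237871533755125320410147586048) (nat_lit 1598335258878212303418659605345108975149942637536201948573167135316174625693644481186534078144139401364664437469883662237871533755125320410147586048) c10_s308) (M (nat_lit 458) (B (M (nat_lit 490) (B (M (nat_lit 489) (B (L (nat_lit 521) ln10_12_5 ln10_12_5_ok) (L (nat_lit 457) ln10_11_5 ln10_11_5_ok))) (M (nat_lit 363) (B (L (nat_lit 395) ln10_15_6 ln10_15_6_ok) (L (nat_lit 331) ln10_14_6 ln10_14_6_ok))))) (B (M (nat_lit 490) (B (M (nat_lit 361) (B (L (nat_lit 329) ln10_14_7 ln10_14_7_ok) (L (nat_lit 393) ln10_15_7 ln10_15_7_ok))) (M (nat_lit 489) (B (L (nat_lit 457) ln10_11_5 ln10_11_5_ok) (L (nat_lit 521) ln10_12_5 ln10_12_5_ok))))) (B (M (nat_lit 490) (B (M (nat_lit 361)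 (B (L (nat_lit 329) ln10_14_7 ln10_14_7_ok) (L (nat_lit 393) ln10_15_7 ln10_15_7_ok))) (M (nat_lit 363) (B (L (nat_lit 331) ln10_14_6 ln10_14_6_ok) (L (nat_lit 395) ln10_15_6 ln10_15_6_ok))))) (M (nat_lit 363) (B (L (nat_lit 331) ln10_14_6 ln10_14_6_ok) (M (nat_lit 361) (B (L (nat_lit 329) ln10_14_7 ln10_14_7_ok) (M (nat_lit 457) (B (L (nat_lit 489) ln10_11_5 ln10_11_5_ok) (M (nat_lit 393) (B (L (nat_lit 364) ln13_11_1 ln13_11_1_ok) (M (nat_lit 360) (B (M (nat_lit 395) (B (L (nat_lit 396) ln8_11_0 ln8_11_0_ok) (L (nat_lit 359) ln7_11_0 ln7_11_0_ok))) (M (nat_lit 328) (B (L (nat_lit 425) ln9_14_7_c10 ln9_14_7_c10_ok) (L (nat_lit 327) ln11_11_3 ln11_11_3_ok)))))))))))))))))))))))))))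
noncomputable def c10_d331 : Cert := (B (K (nat_lit 20839919904563267469136299467468243040968311306576724125601814824542818561135580730608205265846292373090681313944358956363619163917254656000) (nat_lit 1598335258878212303072075893499311808998333715596019637513573002202725905621333198946167657451520054756294678012004605368990073784746616084498481152) (nat_lit 1598335258878212303072075893499311808998333715596019637513573002202725905621333198946167657451520054756294678012004605368990073784746616084498481152) c10_s280) (B (K (nat_lit 20839919904563267469136299467468243040968311306576724125601814824542818561135580730608205265846292373090681313944358956363619163917254656000) (nat_lit 6864797664925615489383689147001578746216369250575382413913880329394204960504006303296159402001446723692574801713202217636382823279536261829817018869578989568) (nat_lit 6864797664925615489383689147001578746216369250575382413913880329394204960504006303296159402001446723692574801713202217636382823279536261829817018869578989568) c10_s298)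 (B (K (nat_lit 20839919904563267469136299467468243040968311306576724125601814824542818561135580730608205265846292373090681313944358956363619163917254656000) (nat_lit 1598335258878212303072075893479137981844568082901523434805415316708839775333860350643444690194204572981545778379877368594198588963731772177716871168) (nat_lit 1598335258878212303072075893479137981844568082901523434805415316708839775333860350643444690194204572981545778379877368594198588963731772177716871168) c10_s305) (B (K (nat_lit 20839919904563267469136299467468243040968311306576724125601814824542818561135580730608205265846292373090681313944358956363619163917254656000) (nat_lit 6864797664925615489383689147088224674076949406228203623075039053729326888408136184940573228113078127685718702742300399125259000678433482824261200559093055488) (nat_lit 6864797664925615489383689147088224674076949406228203623075039053729326888408136184940573228113078127685718702742300399125259000678433482824261200559093055488) c10_s306) (B (M (nat_lit 458) (B (M (nat_lit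 490) (B (M (nat_lit 363) (B (L (nat_lit 331) ln10_14_6 ln10_14_6_ok) (L (nat_lit 395) ln10_15_6 ln10_15_6_ok))) (M (nat_lit 361) (B (L (nat_lit 329) ln10_14_7 ln10_14_7_ok) (L (nat_lit 393) ln10_15_7 ln10_15_7_ok))))) (B (M (nat_lit 490) (B (M (nat_lit 361) (B (L (nat_lit 329) ln10_14_7 ln10_14_7_ok) (L (nat_lit 393) ln10_15_7 ln10_15_7_ok))) (M (nat_lit 489) (B (L (nat_lit 457) ln10_11_5 ln10_11_5_ok) (L (nat_lit 521) ln10_12_5 ln10_12_5_ok))))) (B (M (nat_lit 330) (B (M (nat_lit 329) (B (L (nat_lit 297) ln10_13_7_c10 ln10_13_7_c10_ok) (L (nat_lit 361) ln10_14_7 ln10_14_7_ok))) (M (nat_lit 457) (B (L (nat_lit 425) ln10_10_5 ln10_10_5_ok) (L (nat_lit 489) ln10_11_5 ln10_11_5_ok))))) (M (nat_lit 490) (B (M (nat_lit 363) (B (L (nat_lit 331) ln10_14_6 ln10_14_6_ok) (L (nat_lit 395) ln10_15_6 ln10_15_6_ok))) (M (nat_lit 489) (B (L (nat_lit 457) ln10_11_5 ln10_11_5_ok) (L (nat_lit 521) ln10_12_5 ln10_12_5_ok))))))))) (B (K (nat_lit 20839919904563267469136299467468243040968311306576724125601814824542818561135580730608205265846292373090681313944358956363619163917254656000)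 (nat_lit 4795005774401788348006831456907122377809858428647604740935748723544257071082180806449290091308329723919692194031006909079102356737445497056960446464) (nat_lit 4795005774401788348006831456907122377809858428647604740935748723544257071082180806449290091308329723919692194031006909079102356737445497056960446464) c10_s302) (B (K (nat_lit 20839919904563267469136299467468243040968311306576724125601814824542818561135580730608205265846292373090681313944358956363619163917254656000) (nat_lit 6864797664925615489383689147088224674157644714937207857168351695126338989612458760509453333184602467291369168883993175795807667538910439509890463400961507328) (nat_lit 6864797664925615489383689147088224674157644714937207857168351695126338989612458760509453333184602467291369168883993175795807667538910439509890463400961507328) c10_s307) (M (nat_lit 330) (B (M (nat_lit 298) (B (M (nat_lit 299) (B (L (nat_lit 267) ln10_12_6_c10 ln10_12_6_c10_ok) (L (nat_lit 331) ln10_13_6 ln10_13_6_ok))) (M (nat_lit 425) (B (L (nat_lit 393)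 ln10_9_5_c10 ln10_9_5_c10_ok) (L (nat_lit 457) ln10_10_5 ln10_10_5_ok))))) (B (M (nat_lit 458) (B (M (nat_lit 331) (B (L (nat_lit 299) ln10_13_6 ln10_13_6_ok) (L (nat_lit 363) ln10_14_6 ln10_14_6_ok))) (M (nat_lit 457) (B (L (nat_lit 425) ln10_10_5 ln10_10_5_ok) (L (nat_lit 489) ln10_11_5 ln10_11_5_ok))))) (B (M (nat_lit 298) (B (M (nat_lit 425) (B (L (nat_lit 393) ln10_9_5_c10 ln10_9_5_c10_ok) (L (nat_lit 457) ln10_10_5 ln10_10_5_ok))) (M (nat_lit 266) (B (M (nat_lit 265) (B (L (nat_lit 233) ln10_11_7_c10 ln10_11_7_c10_ok) (L (nat_lit 297) ln10_12_7_c10 ln10_12_7_c10_ok))) (M (nat_lit 363) (B (L (nat_lit 395) ln10_8_4 ln10_8_4_ok) (M (nat_lit 331) (B (L (nat_lit 234) ln10_7_4 ln10_7_4_ok) (L (nat_lit 458) ln10_14_6 ln10_14_6_ok))))))))) (B (M (nat_lit 298) (B (M (nat_lit 425) (B (L (nat_lit 393) ln10_9_5_c10 ln10_9_5_c10_ok) (L (nat_lit 457) ln10_10_5 ln10_10_5_ok))) (M (nat_lit 266) (B (M (nat_lit 267) (B (L (nat_lit 235) ln10_11_6_c10 ln10_11_6_c10_ok) (L (nat_lit 299) ln10_12_6_c10 ln10_12_6_c10_ok)))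 (M (nat_lit 265) (B (L (nat_lit 233) ln10_11_7_c10 ln10_11_7_c10_ok) (L (nat_lit 297) ln10_12_7_c10 ln10_12_7_c10_ok))))))) (M (nat_lit 298) (B (M (nat_lit 299) (B (L (nat_lit 267) ln10_12_6_c10 ln10_12_6_c10_ok) (L (nat_lit 331) ln10_13_6 ln10_13_6_ok))) (B (M (nat_lit 331) (B (L (nat_lit 299) ln10_13_6 ln10_13_6_ok) (M (nat_lit 363) (B (L (nat_lit 458) ln10_14_6 ln10_14_6_ok) (M (nat_lit 266) (B (L (nat_lit 234) ln10_7_4 ln10_7_4_ok) (L (nat_lit 395) ln10_8_4 ln10_8_4_ok))))))) (B (M (nat_lit 266) (B (M (nat_lit 265) (B (L (nat_lit 233) ln10_11_7_c10 ln10_11_7_c10_ok) (L (nat_lit 297) ln10_12_7_c10 ln10_12_7_c10_ok))) (M (nat_lit 363) (B (L (nat_lit 395) ln10_8_4 ln10_8_4_ok) (M (nat_lit 331) (B (L (nat_lit 234) ln10_7_4 ln10_7_4_ok) (L (nat_lit 458) ln10_14_6 ln10_14_6_ok))))))) (M (nat_lit 266) (B (M (nat_lit 267) (B (L (nat_lit 235) ln10_11_6_c10 ln10_11_6_c10_ok) (L (nat_lit 299) ln10_12_6_c10 ln10_12_6_c10_ok))) (M (nat_lit 265) (B (L (nat_lit 233) ln10_11_7_c10 ln10_11_7_c10_ok) (L (nat_lit 297)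 ln10_12_7_c10 ln10_12_7_c10_ok)))))))))))))))))))))
noncomputable def c10_d332 : Cert := (B (K (nat_lit 20839919904563267469136299467468243040968311306576724125601814824542818561135580730608205265846292373090681313944358956363619163917254656000) (nat_lit 744282853678701455942681406510932723695137476019423161714871918083277074129339904785511966164480118711673697349158976409536929344648118272) (nat_lit 744282853678701455942681406510932723695137476019423161714871918083277074129339904785511966164480118711673697349158976409536929344648118272) c10_s311) (B (K (nat_lit 20839919904563267469136299467468243040968311306576724125601814824542818561135580730608205265846292373090681313944358956363619163917254656000) (nat_lit 744282853678701456164593505374972563194172644075234916123012523926223123846953795925963398222338182636313970207039852919856991822113931264) (nat_lit 744282853678701456164593505374972563194172644075234916123012523926223123846953795925963398222338182636313970207039852919856991822113931264) c10_s310)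 (B (K (nat_lit 20839919904563267469136299467468243040968311306576724125601814824542818561135580730608205265846292373090681313944358956363619163917254656000) (nat_lit 6864797664925615489383689147434808385902572745211955656829550289524365464269608193986424582049658647957704942614348580296750875855566989832296963184388997120) (nat_lit 6864797664925615489383689147434808385902572745211955656829550289524365464269608193986424582049658647957704942614348580296750875855566989832296963184388997120) c10_s300) (B (K (nat_lit 20839919904563267469136299467468243040968311306576724125601814824542818561135580730608205265846292373090681313944358956363619163917254656000) (nat_lit 117936325823726750889651195466205648872946466954310743144385318592773228232995304602839978845808246464706339823652308044735793286482158130502913484672682232830599626752) (nat_lit 117936325823726750889651195466205648872946466954310743144385318592773228232995304602839978845808246464706339823652308044735793286482158130502913484672682232830599626752)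 c10_s301) (B (K (nat_lit 20839919904563267469136299467468243040968311306576724125601814824542818561135580730608205265846292373090681313944358956363619163917254656000) (nat_lit 147420407267645042704038340630176499582888330276827170034725512019630939736517881215846761912095640650894469335516758914475882537792100189258853070115675590712386125824) (nat_lit 147420407267645042704038340630176499582888330276827170034725512019630939736517881215846761912095640650894469335516758914475882537792100189258853070115675590712386125824) c10_s312) (B (K (nat_lit 20839919904563267469136299467468243040968311306576724125601814824542818561135580730608205265846292373090681313944358956363619163917254656000) (nat_lit 1598335258878212303418659605345108975149942637536201948573167135316174625693644481186534078144139401364664437469883662237871533755125320410147586048) (nat_lit 1598335258878212303418659605345108975149942637536201948573167135316174625693644481186534078144139401364664437469883662237871533755125320410147586048) c10_s308)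 (M (nat_lit 361) (B (M (nat_lit 329) (B (L (nat_lit 458) ln10_14_7 ln10_14_7_ok) (M (nat_lit 297) (B (L (nat_lit 265) ln9_8_4_c10 ln9_8_4_c10_ok) (L (nat_lit 393) ln9_9_4_c10 ln9_9_4_c10_ok))))) (B (M (nat_lit 458) (B (L (nat_lit 329) ln10_14_7 ln10_14_7_ok) (M (nat_lit 490) (B (L (nat_lit 393) ln10_15_7 ln10_15_7_ok) (M (nat_lit 489) (B (L (nat_lit 457) ln10_11_5 ln10_11_5_ok) (L (nat_lit 521) ln10_12_5 ln10_12_5_ok))))))) (B (M (nat_lit 363) (B (M (nat_lit 458) (B (L (nat_lit 331) ln10_14_6 ln10_14_6_ok) (M (nat_lit 490) (B (L (nat_lit 393) ln10_15_7 ln10_15_7_ok) (L (nat_lit 395) ln10_15_6 ln10_15_6_ok))))) (B (M (nat_lit 360) (B (M (nat_lit 395) (B (L (nat_lit 359) ln7_11_0 ln7_11_0_ok) (L (nat_lit 396) ln8_11_0 ln8_11_0_ok))) (B (M (nat_lit 364) (B (L (nat_lit 396) ln9_11_0 ln9_11_0_ok) (L (nat_lit 393) ln13_11_1 ln13_11_1_ok))) (M (nat_lit 359) (B (M (nat_lit 327) (B (L (nat_lit 326) ln10_11_3 ln10_11_3_ok) (L (nat_lit 328) ln11_11_3 ln11_11_3_ok))) (M (nat_lit 358) (B (L (nat_lit 393) ln6_11_0_c10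 ln6_11_0_c10_ok) (M (nat_lit 390) (B (L (nat_lit 389) ln9_11_1_c10 ln9_11_1_c10_ok) (L (nat_lit 391) ln10_11_1 ln10_11_1_ok)))))))))) (B (M (nat_lit 360) (B (M (nat_lit 331) (B (L (nat_lit 332) ln8_11_2 ln8_11_2_ok) (L (nat_lit 458) ln10_14_6 ln10_14_6_ok))) (M (nat_lit 395) (B (L (nat_lit 359) ln7_11_0 ln7_11_0_ok) (L (nat_lit 396) ln8_11_0 ln8_11_0_ok))))) (M (nat_lit 458) (B (L (nat_lit 331) ln10_14_6 ln10_14_6_ok) (M (nat_lit 489) (B (L (nat_lit 457) ln10_11_5 ln10_11_5_ok) (M (nat_lit 490) (B (L (nat_lit 393) ln10_15_7 ln10_15_7_ok) (L (nat_lit 521) ln10_12_5 ln10_12_5_ok))))))))))) (B (M (nat_lit 458) (B (L (nat_lit 329) ln10_14_7 ln10_14_7_ok) (M (nat_lit 490) (B (M (nat_lit 363) (B (L (nat_lit 331) ln10_14_6 ln10_14_6_ok) (L (nat_lit 395) ln10_15_6 ln10_15_6_ok))) (M (nat_lit 489) (B (L (nat_lit 457) ln10_11_5 ln10_11_5_ok) (L (nat_lit 521) ln10_12_5 ln10_12_5_ok))))))) (M (nat_lit 360) (B (M (nat_lit 395) (B (L (nat_lit 359) ln7_11_0 ln7_11_0_ok) (L (nat_lit 396) ln13_12_3 ln13_12_3_ok))) (B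 (K (nat_lit 20839919904563267469136299467475288668716632806260392567392182835624945608782305690220327138760889000166025139274750053358773470026350460928) (nat_lit 242085926127012702281851768578531622509582202589323955232681720490577267578112019643666351607314597780393692690336710656) (nat_lit 242085926127012702281851768578531622509582202589323955232681720490577267578112019643666351607314597780393692690336710656) c10_s299) (M (nat_lit 363) (B (M (nat_lit 364) (B (M (nat_lit 328) (B (L (nat_lit 327) ln11_11_3 ln11_11_3_ok) (L (nat_lit 329) ln12_11_3 ln12_11_3_ok))) (L (nat_lit 332) ln13_14_7 ln13_14_7_ok))) (B (M (nat_lit 364) (B (L (nat_lit 332) ln13_14_7 ln13_14_7_ok) (L (nat_lit 393) ln13_11_1 ln13_11_1_ok))) (B (M (nat_lit 364) (B (M (nat_lit 328) (B (L (nat_lit 327) ln11_11_3 ln11_11_3_ok) (L (nat_lit 329) ln12_11_3 ln12_11_3_ok))) (L (nat_lit 393) ln13_11_1 ln13_11_1_ok))) (M (nat_lit 359) (B (M (nat_lit 327) (B (L (nat_lit 326) ln10_11_3 ln10_11_3_ok) (L (nat_lit 328) ln11_11_3 ln11_11_3_ok))) (M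 (nat_lit 358) (B (L (nat_lit 393) ln6_11_0_c10 ln6_11_0_c10_ok) (M (nat_lit 390) (B (L (nat_lit 389) ln9_11_1_c10 ln9_11_1_c10_ok) (L (nat_lit 391) ln10_11_1 ln10_11_1_ok)))))))))))))))))))))))))
noncomputable def c10_d333 : Cert := (B (M (nat_lit 298) (B (M (nat_lit 266) (B (M (nat_lit 393) (B (L (nat_lit 425) ln10_9_5_c10 ln10_9_5_c10_ok) (L (nat_lit 361) ln10_8_5_c10 ln10_8_5_c10_ok))) (M (nat_lit 265) (B (L (nat_lit 297) ln10_12_7_c10 ln10_12_7_c10_ok) (L (nat_lit 233) ln10_11_7_c10 ln10_11_7_c10_ok))))) (B (M (nat_lit 425) (B (L (nat_lit 457) ln10_10_5 ln10_10_5_ok) (L (nat_lit 393) ln10_9_5_c10 ln10_9_5_c10_ok))) (B (M (nat_lit 266) (B (M (nat_lit 265) (B (L (nat_lit 297) ln10_12_7_c10 ln10_12_7_c10_ok) (L (nat_lit 233) ln10_11_7_c10 ln10_11_7_c10_ok))) (M (nat_lit 234) (B (M (nat_lit 235) (B (L (nat_lit 267) ln10_11_6_c10 ln10_11_6_c10_ok) (L (nat_lit 203) ln10_10_6_c10 ln10_10_6_c10_ok))) (M (nat_lit 361) (B (L (nat_lit 393) ln10_8_5_c10 ln10_8_5_c10_ok) (L (nat_lit 329) ln10_7_5_c10 ln10_7_5_c10_ok)))))))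 (M (nat_lit 266) (B (M (nat_lit 265) (B (L (nat_lit 297) ln10_12_7_c10 ln10_12_7_c10_ok) (L (nat_lit 233) ln10_11_7_c10 ln10_11_7_c10_ok))) (B (M (nat_lit 234) (B (M (nat_lit 235) (B (L (nat_lit 267) ln10_11_6_c10 ln10_11_6_c10_ok) (L (nat_lit 203) ln10_10_6_c10 ln10_10_6_c10_ok))) (M (nat_lit 233) (B (L (nat_lit 265) ln10_11_7_c10 ln10_11_7_c10_ok) (L (nat_lit 201) ln10_10_7_c10 ln10_10_7_c10_ok))))) (M (nat_lit 234) (B (M (nat_lit 235) (B (L (nat_lit 267) ln10_11_6_c10 ln10_11_6_c10_ok) (L (nat_lit 203) ln10_10_6_c10 ln10_10_6_c10_ok))) (M (nat_lit 329) (B (L (nat_lit 361) ln10_7_5_c10 ln10_7_5_c10_ok) (L (nat_lit 297) ln10_13_7_c10 ln10_13_7_c10_ok)))))))))))) (B (M (nat_lit 298) (B (M (nat_lit 266) (B (M (nat_lit 265) (B (L (nat_lit 233) ln10_11_7_c10 ln10_11_7_c10_ok) (M (nat_lit 267) (B (L (nat_lit 235) ln10_11_6_c10 ln10_11_6_c10_ok) (L (nat_lit 297) ln10_12_7_c10 ln10_12_7_c10_ok))))) (B (M (nat_lit 234) (B (M (nat_lit 235) (B (L (nat_lit 203) ln10_10_6_c10 ln10_10_6_c10_ok) (L (nat_lit 267) ln10_11_6_c10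 ln10_11_6_c10_ok))) (M (nat_lit 361) (B (L (nat_lit 329) ln10_7_5_c10 ln10_7_5_c10_ok) (L (nat_lit 393) ln10_8_5_c10 ln10_8_5_c10_ok))))) (M (nat_lit 234) (B (M (nat_lit 233) (B (L (nat_lit 201) ln10_10_7_c10 ln10_10_7_c10_ok) (L (nat_lit 265) ln10_11_7_c10 ln10_11_7_c10_ok))) (M (nat_lit 361) (B (L (nat_lit 329) ln10_7_5_c10 ln10_7_5_c10_ok) (L (nat_lit 393) ln10_8_5_c10 ln10_8_5_c10_ok)))))))) (B (M (nat_lit 266) (B (M (nat_lit 234) (B (M (nat_lit 235) (B (L (nat_lit 203) ln10_10_6_c10 ln10_10_6_c10_ok) (L (nat_lit 267) ln10_11_6_c10 ln10_11_6_c10_ok))) (M (nat_lit 361) (B (L (nat_lit 329) ln10_7_5_c10 ln10_7_5_c10_ok) (L (nat_lit 393) ln10_8_5_c10 ln10_8_5_c10_ok))))) (M (nat_lit 265) (B (L (nat_lit 233) ln10_11_7_c10 ln10_11_7_c10_ok) (L (nat_lit 297) ln10_12_7_c10 ln10_12_7_c10_ok))))) (B (M (nat_lit 266) (B (M (nat_lit 234) (B (M (nat_lit 361) (B (L (nat_lit 329) ln10_7_5_c10 ln10_7_5_c10_ok) (L (nat_lit 393) ln10_8_5_c10 ln10_8_5_c10_ok))) (M (nat_lit 363) (B (L (nat_lit 331) ln10_7_4 ln10_7_4_ok)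 (L (nat_lit 395) ln10_8_4 ln10_8_4_ok))))) (M (nat_lit 265) (B (L (nat_lit 233) ln10_11_7_c10 ln10_11_7_c10_ok) (L (nat_lit 297) ln10_12_7_c10 ln10_12_7_c10_ok))))) (B (M (nat_lit 266) (B (M (nat_lit 234) (B (M (nat_lit 361) (B (L (nat_lit 329) ln10_7_5_c10 ln10_7_5_c10_ok) (L (nat_lit 393) ln10_8_5_c10 ln10_8_5_c10_ok))) (M (nat_lit 363) (B (L (nat_lit 331) ln10_7_4 ln10_7_4_ok) (L (nat_lit 395) ln10_8_4 ln10_8_4_ok))))) (M (nat_lit 267) (B (L (nat_lit 235) ln10_11_6_c10 ln10_11_6_c10_ok) (L (nat_lit 299) ln10_12_6_c10 ln10_12_6_c10_ok))))) (B (M (nat_lit 266) (B (M (nat_lit 267) (B (L (nat_lit 235) ln10_11_6_c10 ln10_11_6_c10_ok) (L (nat_lit 299) ln10_12_6_c10 ln10_12_6_c10_ok))) (M (nat_lit 393) (B (L (nat_lit 361) ln10_8_5_c10 ln10_8_5_c10_ok) (L (nat_lit 425) ln10_9_5_c10 ln10_9_5_c10_ok))))) (M (nat_lit 297) (B (L (nat_lit 265) ln10_12_7_c10 ln10_12_7_c10_ok) (L (nat_lit 329) ln10_13_7_c10 ln10_13_7_c10_ok))))))))) (B (M (nat_lit 298) (B (M (nat_lit 266) (B (M (nat_lit 267) (B (L (nat_lit 235) ln10_11_6_c10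 ln10_11_6_c10_ok) (L (nat_lit 299) ln10_12_6_c10 ln10_12_6_c10_ok))) (M (nat_lit 393) (B (L (nat_lit 361) ln10_8_5_c10 ln10_8_5_c10_ok) (L (nat_lit 425) ln10_9_5_c10 ln10_9_5_c10_ok))))) (M (nat_lit 297) (B (L (nat_lit 265) ln10_12_7_c10 ln10_12_7_c10_ok) (L (nat_lit 329) ln10_13_7_c10 ln10_13_7_c10_ok))))) (B (M (nat_lit 298) (B (M (nat_lit 266) (B (M (nat_lit 265) (B (L (nat_lit 233) ln10_11_7_c10 ln10_11_7_c10_ok) (L (nat_lit 297) ln10_12_7_c10 ln10_12_7_c10_ok))) (M (nat_lit 267) (B (L (nat_lit 235) ln10_11_6_c10 ln10_11_6_c10_ok) (L (nat_lit 299) ln10_12_6_c10 ln10_12_6_c10_ok))))) (B (M (nat_lit 297) (B (L (nat_lit 265) ln10_12_7_c10 ln10_12_7_c10_ok) (L (nat_lit 329) ln10_13_7_c10 ln10_13_7_c10_ok))) (M (nat_lit 266) (B (M (nat_lit 267) (B (L (nat_lit 235) ln10_11_6_c10 ln10_11_6_c10_ok) (L (nat_lit 299) ln10_12_6_c10 ln10_12_6_c10_ok))) (B (M (nat_lit 299) (B (L (nat_lit 267) ln10_12_6_c10 ln10_12_6_c10_ok) (M (nat_lit 234) (B (M (nat_lit 361) (B (L (nat_lit 329) ln10_7_5_c10 ln10_7_5_c10_ok)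 (L (nat_lit 393) ln10_8_5_c10 ln10_8_5_c10_ok))) (L (nat_lit 331) ln10_13_6 ln10_13_6_ok))))) (B (M (nat_lit 234) (B (M (nat_lit 361) (B (L (nat_lit 329) ln10_7_5_c10 ln10_7_5_c10_ok) (L (nat_lit 393) ln10_8_5_c10 ln10_8_5_c10_ok))) (M (nat_lit 202) (B (M (nat_lit 203) (B (L (nat_lit 171) ln10_9_6_c10 ln10_9_6_c10_ok) (L (nat_lit 235) ln10_10_6_c10 ln10_10_6_c10_ok))) (M (nat_lit 331) (B (L (nat_lit 299) ln10_6_4_c10 ln10_6_4_c10_ok) (L (nat_lit 363) ln10_7_4 ln10_7_4_ok))))))) (M (nat_lit 234) (B (M (nat_lit 235) (B (L (nat_lit 203) ln10_10_6_c10 ln10_10_6_c10_ok) (L (nat_lit 267) ln10_11_6_c10 ln10_11_6_c10_ok))) (M (nat_lit 361) (B (L (nat_lit 329) ln10_7_5_c10 ln10_7_5_c10_ok) (L (nat_lit 393) ln10_8_5_c10 ln10_8_5_c10_ok)))))))))))) (B (M (nat_lit 298) (B (M (nat_lit 425) (B (L (nat_lit 457) ln10_10_5 ln10_10_5_ok) (L (nat_lit 393) ln10_9_5_c10 ln10_9_5_c10_ok))) (M (nat_lit 266) (B (M (nat_lit 395) (B (L (nat_lit 427) ln10_9_4 ln10_9_4_ok) (L (nat_lit 363) ln10_8_4 ln10_8_4_ok))) (M (nat_lit 265)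 (B (L (nat_lit 297) ln10_12_7_c10 ln10_12_7_c10_ok) (L (nat_lit 233) ln10_11_7_c10 ln10_11_7_c10_ok))))))) (B (M (nat_lit 298) (B (M (nat_lit 266) (B (M (nat_lit 395) (B (L (nat_lit 427) ln10_9_4 ln10_9_4_ok) (L (nat_lit 363) ln10_8_4 ln10_8_4_ok))) (M (nat_lit 267) (B (L (nat_lit 299) ln10_12_6_c10 ln10_12_6_c10_ok) (L (nat_lit 235) ln10_11_6_c10 ln10_11_6_c10_ok))))) (B (M (nat_lit 266) (B (M (nat_lit 393) (B (L (nat_lit 425) ln10_9_5_c10 ln10_9_5_c10_ok) (L (nat_lit 361) ln10_8_5_c10 ln10_8_5_c10_ok))) (M (nat_lit 267) (B (L (nat_lit 299) ln10_12_6_c10 ln10_12_6_c10_ok) (L (nat_lit 235) ln10_11_6_c10 ln10_11_6_c10_ok))))) (B (M (nat_lit 266) (B (M (nat_lit 393) (B (L (nat_lit 425) ln10_9_5_c10 ln10_9_5_c10_ok) (L (nat_lit 361) ln10_8_5_c10 ln10_8_5_c10_ok))) (M (nat_lit 395) (B (L (nat_lit 427) ln10_9_4 ln10_9_4_ok) (L (nat_lit 363) ln10_8_4 ln10_8_4_ok))))) (M (nat_lit 425) (B (L (nat_lit 457) ln10_10_5 ln10_10_5_ok) (L (nat_lit 393) ln10_9_5_c10 ln10_9_5_c10_ok))))))) (M (nat_lit 458) (B (M (nat_lit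 329) (B (L (nat_lit 297) ln10_13_7_c10 ln10_13_7_c10_ok) (L (nat_lit 361) ln10_14_7 ln10_14_7_ok))) (M (nat_lit 457) (B (L (nat_lit 425) ln10_10_5 ln10_10_5_ok) (L (nat_lit 489) ln10_11_5 ln10_11_5_ok)))))))))))
noncomputable def c10_d334 : Cert := (B (M (nat_lit 332) (B (L (nat_lit 364) ln13_14_7 ln13_14_7_ok) (M (nat_lit 333) (B (L (nat_lit 300) ln13_13_7 ln13_13_7_ok) (M (nat_lit 302) (B (L (nat_lit 334) ln13_13_6 ln13_13_6_ok) (M (nat_lit 301) (B (L (nat_lit 270) ln13_12_6 ln13_12_6_ok) (M (nat_lit 330) (B (L (nat_lit 331) ln10_10_2 ln10_10_2_ok) (M (nat_lit 303) (B (L (nat_lit 304) ln16_9_1 ln16_9_1_ok) (M (nat_lit 394) (B (M (nat_lit 298) (B (M (nat_lit 266) (B (M (nat_lit 393) (B (L (nat_lit 425) ln10_9_5_c10 ln10_9_5_c10_ok) (L (nat_lit 361) ln10_8_5_c10 ln10_8_5_c10_ok))) (M (nat_lit 267) (B (L (nat_lit 299) ln10_12_6_c10 ln10_12_6_c10_ok) (L (nat_lit 235) ln10_11_6_c10 ln10_11_6_c10_ok))))) (B (M (nat_lit 265) (B (L (nat_lit 297) ln10_12_7_c10 ln10_12_7_c10_ok) (M (nat_lit 266) (B (L (nat_lit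 233) ln10_11_7_c10 ln10_11_7_c10_ok) (M (nat_lit 267) (B (L (nat_lit 299) ln10_12_6_c10 ln10_12_6_c10_ok) (L (nat_lit 235) ln10_11_6_c10 ln10_11_6_c10_ok))))))) (B (M (nat_lit 266) (B (M (nat_lit 393) (B (L (nat_lit 425) ln10_9_5_c10 ln10_9_5_c10_ok) (L (nat_lit 361) ln10_8_5_c10 ln10_8_5_c10_ok))) (M (nat_lit 265) (B (L (nat_lit 297) ln10_12_7_c10 ln10_12_7_c10_ok) (L (nat_lit 233) ln10_11_7_c10 ln10_11_7_c10_ok))))) (M (nat_lit 425) (B (L (nat_lit 457) ln10_10_5 ln10_10_5_ok) (L (nat_lit 393) ln10_9_5_c10 ln10_9_5_c10_ok))))))) (B (M (nat_lit 298) (B (M (nat_lit 266) (B (M (nat_lit 265) (B (L (nat_lit 233) ln10_11_7_c10 ln10_11_7_c10_ok) (L (nat_lit 297) ln10_12_7_c10 ln10_12_7_c10_ok))) (M (nat_lit 393) (B (L (nat_lit 361) ln10_8_5_c10 ln10_8_5_c10_ok) (L (nat_lit 425) ln10_9_5_c10 ln10_9_5_c10_ok))))) (B (M (nat_lit 297) (B (L (nat_lit 265) ln10_12_7_c10 ln10_12_7_c10_ok) (L (nat_lit 329) ln10_13_7_c10 ln10_13_7_c10_ok))) (M (nat_lit 425) (B (L (nat_lit 393) ln10_9_5_c10 ln10_9_5_c10_ok) (L (nat_lit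 457) ln10_10_5 ln10_10_5_ok)))))) (B (M (nat_lit 458) (B (M (nat_lit 329) (B (L (nat_lit 297) ln10_13_7_c10 ln10_13_7_c10_ok) (L (nat_lit 361) ln10_14_7 ln10_14_7_ok))) (M (nat_lit 457) (B (L (nat_lit 425) ln10_10_5 ln10_10_5_ok) (L (nat_lit 489) ln10_11_5 ln10_11_5_ok))))) (B (M (nat_lit 298) (B (M (nat_lit 425) (B (L (nat_lit 457) ln10_10_5 ln10_10_5_ok) (L (nat_lit 393) ln10_9_5_c10 ln10_9_5_c10_ok))) (M (nat_lit 297) (B (L (nat_lit 329) ln10_13_7_c10 ln10_13_7_c10_ok) (L (nat_lit 265) ln10_12_7_c10 ln10_12_7_c10_ok))))) (B (M (nat_lit 298) (B (M (nat_lit 297) (B (L (nat_lit 265) ln10_12_7_c10 ln10_12_7_c10_ok) (L (nat_lit 329) ln10_13_7_c10 ln10_13_7_c10_ok))) (M (nat_lit 266) (B (M (nat_lit 267) (B (L (nat_lit 235) ln10_11_6_c10 ln10_11_6_c10_ok) (L (nat_lit 299) ln10_12_6_c10 ln10_12_6_c10_ok))) (M (nat_lit 393) (B (L (nat_lit 361) ln10_8_5_c10 ln10_8_5_c10_ok) (L (nat_lit 425) ln10_9_5_c10 ln10_9_5_c10_ok))))))) (B (M (nat_lit 425) (B (L (nat_lit 457) ln10_10_5 ln10_10_5_ok) (M (nat_lit 395) (B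 (M (nat_lit 298) (B (L (nat_lit 427) ln10_9_4 ln10_9_4_ok) (L (nat_lit 393) ln10_9_5_c10 ln10_9_5_c10_ok))) (M (nat_lit 424) (B (L (nat_lit 423) ln7_13_2 ln7_13_2_ok) (L (nat_lit 396) ln13_12_1 ln13_12_1_ok))))))) (M (nat_lit 298) (B (M (nat_lit 297) (B (L (nat_lit 265) ln10_12_7_c10 ln10_12_7_c10_ok) (L (nat_lit 329) ln10_13_7_c10 ln10_13_7_c10_ok))) (B (M (nat_lit 329) (B (L (nat_lit 297) ln10_13_7_c10 ln10_13_7_c10_ok) (M (nat_lit 361) (B (L (nat_lit 458) ln10_14_7 ln10_14_7_ok) (M (nat_lit 266) (B (L (nat_lit 234) ln10_7_5_c10 ln10_7_5_c10_ok) (L (nat_lit 393) ln10_8_5_c10 ln10_8_5_c10_ok))))))) (B (M (nat_lit 266) (B (M (nat_lit 267) (B (L (nat_lit 235) ln10_11_6_c10 ln10_11_6_c10_ok) (L (nat_lit 299) ln10_12_6_c10 ln10_12_6_c10_ok))) (M (nat_lit 361) (B (L (nat_lit 393) ln10_8_5_c10 ln10_8_5_c10_ok) (M (nat_lit 329) (B (L (nat_lit 234) ln10_7_5_c10 ln10_7_5_c10_ok) (L (nat_lit 458) ln10_14_7 ln10_14_7_ok))))))) (M (nat_lit 266) (B (M (nat_lit 265) (B (L (nat_lit 233) ln10_11_7_c10 ln10_11_7_c10_ok)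 (L (nat_lit 297) ln10_12_7_c10 ln10_12_7_c10_ok))) (M (nat_lit 267) (B (L (nat_lit 235) ln10_11_6_c10 ln10_11_6_c10_ok) (L (nat_lit 299) ln10_12_6_c10 ln10_12_6_c10_ok)))))))))))))))))))))))))))) (B (M (nat_lit 332) (B (L (nat_lit 364) ln13_14_7 ln13_14_7_ok) (M (nat_lit 333) (B (L (nat_lit 300) ln13_13_7 ln13_13_7_ok) (M (nat_lit 331) (B (M (nat_lit 363) (B (L (nat_lit 334) ln14_10_1 ln14_10_1_ok) (M (nat_lit 394) (B (L (nat_lit 458) ln10_14_6 ln10_14_6_ok) (M (nat_lit 299) (B (L (nat_lit 395) ln11_9_5 ln11_9_5_ok) (L (nat_lit 267) ln11_8_5 ln11_8_5_ok))))))) (B (M (nat_lit 334) (B (L (nat_lit 363) ln14_10_1 ln14_10_1_ok) (M (nat_lit 330) (B (M (nat_lit 298) (B (L (nat_lit 297) ln13_10_3 ln13_10_3_ok) (L (nat_lit 299) ln14_10_3 ln14_10_3_ok))) (L (nat_lit 302) ln13_13_6 ln13_13_6_ok))))) (B (M (nat_lit 334) (B (L (nat_lit 363) ln14_10_1 ln14_10_1_ok) (L (nat_lit 302) ln13_13_6 ln13_13_6_ok))) (B (M (nat_lit 302) (B (L (nat_lit 334) ln13_13_6 ln13_13_6_ok) (M (nat_lit 301) (B (L (nat_lit 270) ln13_12_6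 ln13_12_6_ok) (L (nat_lit 330) ln10_10_2 ln10_10_2_ok))))) (M (nat_lit 394) (B (M (nat_lit 330) (B (L (nat_lit 299) ln10_13_6 ln10_13_6_ok) (M (nat_lit 298) (B (M (nat_lit 425) (B (L (nat_lit 457) ln10_10_5 ln10_10_5_ok) (L (nat_lit 393) ln10_9_5_c10 ln10_9_5_c10_ok))) (L (nat_lit 297) ln13_10_3 ln13_10_3_ok))))) (B (M (nat_lit 330) (B (M (nat_lit 298) (B (L (nat_lit 297) ln13_10_3 ln13_10_3_ok) (L (nat_lit 299) ln10_13_6 ln10_13_6_ok))) (B (M (nat_lit 458) (B (L (nat_lit 299) ln10_13_6 ln10_13_6_ok) (M (nat_lit 457) (B (L (nat_lit 425) ln10_10_5 ln10_10_5_ok) (L (nat_lit 489) ln10_11_5 ln10_11_5_ok))))) (M (nat_lit 363) (B (M (nat_lit 457) (B (L (nat_lit 425) ln10_10_5 ln10_10_5_ok) (L (nat_lit 458) ln10_14_6 ln10_14_6_ok))) (M (nat_lit 298) (B (L (nat_lit 297) ln13_10_3 ln13_10_3_ok) (M (nat_lit 395) (B (L (nat_lit 266) ln10_8_4 ln10_8_4_ok) (L (nat_lit 427) ln10_9_4 ln10_9_4_ok)))))))))) (B (M (nat_lit 458) (B (M (nat_lit 490) (B (M (nat_lit 489) (B (L (nat_lit 521) ln10_12_5 ln10_12_5_ok) (L (nat_lit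 457) ln10_11_5 ln10_11_5_ok))) (L (nat_lit 363) ln10_14_6 ln10_14_6_ok))) (B (M (nat_lit 330) (B (M (nat_lit 457) (B (L (nat_lit 489) ln10_11_5 ln10_11_5_ok) (L (nat_lit 425) ln10_10_5 ln10_10_5_ok))) (L (nat_lit 363) ln10_14_6 ln10_14_6_ok))) (B (M (nat_lit 490) (B (L (nat_lit 363) ln10_14_6 ln10_14_6_ok) (M (nat_lit 522) (B (M (nat_lit 523) (B (L (nat_lit 555) ln10_13_4 ln10_13_4_ok) (L (nat_lit 491) ln10_12_4 ln10_12_4_ok))) (M (nat_lit 425) (B (L (nat_lit 393) ln10_16_7 ln10_16_7_ok) (M (nat_lit 457) (B (L (nat_lit 554) ln10_17_7 ln10_17_7_ok) (L (nat_lit 330) ln10_10_5 ln10_10_5_ok))))))))) (B (M (nat_lit 490) (B (L (nat_lit 363) ln10_14_6 ln10_14_6_ok) (M (nat_lit 522) (B (M (nat_lit 521) (B (L (nat_lit 553) ln10_13_5 ln10_13_5_ok) (L (nat_lit 489) ln10_12_5 ln10_12_5_ok))) (M (nat_lit 523) (B (L (nat_lit 555) ln10_13_4 ln10_13_4_ok) (L (nat_lit 491) ln10_12_4 ln10_12_4_ok))))))) (M (nat_lit 490) (B (M (nat_lit 489) (B (L (nat_lit 521) ln10_12_5 ln10_12_5_ok) (L (nat_lit 457) ln10_11_5 ln10_11_5_ok)))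 (B (M (nat_lit 457) (B (L (nat_lit 489) ln10_11_5 ln10_11_5_ok) (M (nat_lit 425) (B (L (nat_lit 330) ln10_10_5 ln10_10_5_ok) (M (nat_lit 522) (B (L (nat_lit 554) ln10_17_7 ln10_17_7_ok) (L (nat_lit 393) ln10_16_7 ln10_16_7_ok))))))) (B (M (nat_lit 522) (B (M (nat_lit 523) (B (L (nat_lit 555) ln10_13_4 ln10_13_4_ok) (L (nat_lit 491) ln10_12_4 ln10_12_4_ok))) (M (nat_lit 425) (B (L (nat_lit 393) ln10_16_7 ln10_16_7_ok) (M (nat_lit 457) (B (L (nat_lit 554) ln10_17_7 ln10_17_7_ok) (L (nat_lit 330) ln10_10_5 ln10_10_5_ok))))))) (M (nat_lit 522) (B (M (nat_lit 521) (B (L (nat_lit 553) ln10_13_5 ln10_13_5_ok) (L (nat_lit 489) ln10_12_5 ln10_12_5_ok))) (M (nat_lit 523) (B (L (nat_lit 555) ln10_13_4 ln10_13_4_ok) (L (nat_lit 491) ln10_12_4 ln10_12_4_ok)))))))))))))) (B (M (nat_lit 363) (B (L (nat_lit 458) ln10_14_6 ln10_14_6_ok) (M (nat_lit 299) (B (L (nat_lit 330) ln10_13_6 ln10_13_6_ok) (L (nat_lit 267) ln11_8_5 ln11_8_5_ok))))) (M (nat_lit 363) (B (L (nat_lit 458) ln10_14_6 ln10_14_6_ok) (M (nat_lit 299) (B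 (L (nat_lit 267) ln11_8_5 ln11_8_5_ok) (L (nat_lit 395) ln11_9_5 ln11_9_5_ok))))))))))))))))))) (M (nat_lit 364) (B (L (nat_lit 332) ln13_14_7 ln13_14_7_ok) (M (nat_lit 363) (B (L (nat_lit 398) ln10_11_0 ln10_11_0_ok) (M (nat_lit 394) (B (L (nat_lit 393) ln13_11_1 ln13_11_1_ok) (M (nat_lit 361) (B (L (nat_lit 396) ln9_11_0 ln9_11_0_ok) (M (nat_lit 329) (B (L (nat_lit 328) ln12_11_3 ln12_11_3_ok) (L (nat_lit 458) ln10_14_7 ln10_14_7_ok)))))))))))))
noncomputable def c10_d335 : Cert := (B (M (nat_lit 394) (B (M (nat_lit 330) c10_d333) (B (K (nat_lit 20839919904563267469136299467468243040968311306576724125601814824542818561135580730608205265846292373090681313944358956363619163917254656000) (nat_lit 206388570155481626332812630958118201003465224345834051728141312142293198605540165571755912331630652035957189951953103478833272056879861221457198175956115680201554264064) (nat_lit 206388570155481626332812630958118201003465224345834051728141312142293198605540165571755912331630652035957189951953103478833272056879861221457198175956115680201554264064)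 c10_s290) (B (K (nat_lit 20839919904563267469136299467468243040968311306576724125601814824542818561135580730608205265846292373090681313944358956363619163917254656000) (nat_lit 117936325823726750889651195466205648873011451400951349002325238146009649827819485765187469612741332265364094555902163573524311622745003990136870664537859847154988744704) (nat_lit 117936325823726750889651195466205648873011451400951349002325238146009649827819485765187469612741332265364094555902163573524311622745003990136870664537859847154988744704) c10_s313) (B (K (nat_lit 20839919904563267469136299467468243040968311306576724125601814824542818561135580730608205265846292373090681313944358956363619163917254656000) (nat_lit 1598335258878212303072075893499311809012424971092662636880909885783461927785587294239617576675763800585487932162692256029772267775055228302690091008) (nat_lit 1598335258878212303072075893499311809012424971092662636880909885783461927785587294239617576675763800585487932162692256029772267775055228302690091008) c10_s288)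 (B (K (nat_lit 20839919904563267469136299467468243040968311306576724125601814824542818561135580730608205265846292373090681313944358956363619163917254656000) (nat_lit 1598335258878212303072075893499311808998333715596019637513573002202725905621333198946167657451520054756294678012004605368990073784746616084498481152) (nat_lit 1598335258878212303072075893499311808998333715596019637513573002202725905621333198946167657451520054756294678012004605368990073784746616084498481152) c10_s280) (B (K (nat_lit 20839919904563267469136299467468243040968311306576724125601814824542818561135580730608205265846292373090681313944358956363619163917254656000) (nat_lit 6864797664925615489383689147001578746216369250575382413913880329394204960504006303296159402001446723692574801713202217636382823279536261829817018869578989568) (nat_lit 6864797664925615489383689147001578746216369250575382413913880329394204960504006303296159402001446723692574801713202217636382823279536261829817018869578989568) c10_s298) (B (K (nat_lit 20839919904563267469136299467468243040968311306576724125601814824542818561135580730608205265846292373090681313944358956363619163917254656000)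 (nat_lit 744282853678701455942681406510932723695137476019423161714871918083277074129339904785511966164480118711673697349158976409536929344648118272) (nat_lit 744282853678701455942681406510932723695137476019423161714871918083277074129339904785511966164480118711673697349158976409536929344648118272) c10_s311) (B (K (nat_lit 20839919904563267469136299467468243040968311306576724125601814824542818561135580730608205265846292373090681313944358956363619163917254656000) (nat_lit 1598335258878212303072075893479137981844568082901523434805415316708839775333860350643444690194204572981545778379877368594198588963731772177716871168) (nat_lit 1598335258878212303072075893479137981844568082901523434805415316708839775333860350643444690194204572981545778379877368594198588963731772177716871168) c10_s305) (B (K (nat_lit 20839919904563267469136299467468243040968311306576724125601814824542818561135580730608205265846292373090681313944358956363619163917254656000) (nat_lit 117936325823726750889651195466205648872946466954310743144385318592773228232995304602839978845808246464706339823652308044735793286482158130502913484672682232830599626752)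 (nat_lit 117936325823726750889651195466205648872946466954310743144385318592773228232995304602839978845808246464706339823652308044735793286482158130502913484672682232830599626752) c10_s301) (B (K (nat_lit 20839919904563267469136299467468243040968311306576724125601814824542818561135580730608205265846292373090681313944358956363619163917254656000) (nat_lit 1598335258878212303418659605345108975149942637536201948573167135316174625693644481186534078144139401364664437469883662237871533755125320410147586048) (nat_lit 1598335258878212303418659605345108975149942637536201948573167135316174625693644481186534078144139401364664437469883662237871533755125320410147586048) c10_s308) (K (nat_lit 20839919904563267469136299467468243040968311306576724125601814824542818561135580730608205265846292373090681313944358956363619163917254656000) (nat_lit 558212140410656466111459413985245569428950190539201347697531275290255881811463566699583858051511594624619259095980415868939987494509740032) (nat_lit 558212140410656466111459413985245569428950190539201347697531275290255881811463566699583858051511594624619259095980415868939987494509740032)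 c10_s291)))))))))))) (B (M (nat_lit 394) (B (K (nat_lit 20839919904563267469136299467468243040968311306576724125601814824542818561135580730608205265846292373090681313944358956363619163917254656000) (nat_lit 1598335258878212303072075893499311809017122056259167225528972386816905375590744239356599241009192203216582117771408515582878054990457616934222430208) (nat_lit 1598335258878212303072075893499311809017122056259167225528972386816905375590744239356599241009192203216582117771408515582878054990457616934222430208) c10_s297) (B (K (nat_lit 20839919904563267469136299467468243040968311306576724125601814824542818561135580730608205265846292373090681313944358956363619163917254656000) (nat_lit 1598335258878212303072075893499311809012424971092662636880909885783461927785587294239617576675763800585487932162692256029772267775055228302690091008) (nat_lit 1598335258878212303072075893499311809012424971092662636880909885783461927785587294239617576675763800585487932162692256029772267775055228302690091008) c10_s288) (B (K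 (nat_lit 20839919904563267469136299467468243040968311306576724125601814824542818561135580730608205265846292373090681313944358956363619163917254656000) (nat_lit 1598335258878212303072075893499311808998333715596019637513573002202725905621333198946167657451520054756294678012004605368990073784746616084498481152) (nat_lit 1598335258878212303072075893499311808998333715596019637513573002202725905621333198946167657451520054756294678012004605368990073784746616084498481152) c10_s280) (B (K (nat_lit 20839919904563267469136299467468243040968311306576724125601814824542818561135580730608205265846292373090681313944358956363619163917254656000) (nat_lit 6864797664925615489383689147001578746216369250575382413913880329394204960504006303296159402001446723692574801713202217636382823279536261829817018869578989568) (nat_lit 6864797664925615489383689147001578746216369250575382413913880329394204960504006303296159402001446723692574801713202217636382823279536261829817018869578989568) c10_s298) (B (K (nat_lit 20839919904563267469136299467468243040968311306576724125601814824542818561135580730608205265846292373090681313944358956363619163917254656000)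 (nat_lit 744282853678701456164593505374972563194172644075234916123012523926223123846953795925963398222338182636313970207039852919856991822113931264) (nat_lit 744282853678701456164593505374972563194172644075234916123012523926223123846953795925963398222338182636313970207039852919856991822113931264) c10_s310) (B (K (nat_lit 20839919904563267469136299467468243040968311306576724125601814824542818561135580730608205265846292373090681313944358956363619163917254656000) (nat_lit 6864797664925615489383689147434808385902572745211955656829550289524365464269608193986424582049658647957704942614348580296750875855566989832296963184388997120) (nat_lit 6864797664925615489383689147434808385902572745211955656829550289524365464269608193986424582049658647957704942614348580296750875855566989832296963184388997120) c10_s300) (B (K (nat_lit 20839919904563267469136299467468243040968311306576724125601814824542818561135580730608205265846292373090681313944358956363619163917254656000) (nat_lit 117936325823726750889651195466205648872946466954310743144385318592773228232995304602839978845808246464706339823652308044735793286482158130502913484672682232830599626752)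 (nat_lit 117936325823726750889651195466205648872946466954310743144385318592773228232995304602839978845808246464706339823652308044735793286482158130502913484672682232830599626752) c10_s301) (B (K (nat_lit 20839919904563267469136299467468243040968311306576724125601814824542818561135580730608205265846292373090681313944358956363619163917254656000) (nat_lit 147420407267645042704038340630176499582888330276827170034725512019630939736517881215846761912095640650894469335516758914475882537792100189258853070115675590712386125824) (nat_lit 147420407267645042704038340630176499582888330276827170034725512019630939736517881215846761912095640650894469335516758914475882537792100189258853070115675590712386125824) c10_s312) (B (K (nat_lit 20839919904563267469136299467468243040968311306576724125601814824542818561135580730608205265846292373090681313944358956363619163917254656000) (nat_lit 372141426925996655922703081200633113565176453993256711532865323622620503556172741289225465703030520108806613788331156485133432537833537536)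 (nat_lit 372141426925996655922703081200633113565176453993256711532865323622620503556172741289225465703030520108806613788331156485133432537833537536) c10_s289) (B (K (nat_lit 20839919904563267469136299467468243040968311306576724125601814824542818561135580730608205265846292373090681313944358956363619163917254656000) (nat_lit 1598335258878212303418659605345108975149942637536201948573167135316174625693644481186534078144139401364664437469883662237871533755125320410147586048) (nat_lit 1598335258878212303418659605345108975149942637536201948573167135316174625693644481186534078144139401364664437469883662237871533755125320410147586048) c10_s308) (K (nat_lit 20839919904563267469136299467468243040968311306576724125601814824542818561135580730608205265846292373090681313944358956363619163917254656000) (nat_lit 117936325823726750889651195466205648873011451400951349002325238146009649827819485765187469612741332265364094555902163573524311622745003990136870664537859847154988744704) (nat_lit 117936325823726750889651195466205648873011451400951349002325238146009649827819485765187469612741332265364094555902163573524311622745003990136870664537859847154988744704)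 c10_s313)))))))))))) (B (M (nat_lit 364) (B (L (nat_lit 332) ln13_14_7 ln13_14_7_ok) (M (nat_lit 363) (B (L (nat_lit 398) ln10_11_0 ln10_11_0_ok) (M (nat_lit 361) (B (L (nat_lit 396) ln9_11_0 ln9_11_0_ok) (M (nat_lit 329) (B (L (nat_lit 330) ln13_11_3 ln13_11_3_ok) (L (nat_lit 328) ln12_11_3 ln12_11_3_ok))))))))) c10_d334)))
noncomputable def c10_d336 : Cert := (B (M (nat_lit 394) (B (K (nat_lit 20839919904563267469136299467468243040968311306576724125601814824542818561135580730608205265846292373090681313944358956363619163917254656000) (nat_lit 744282853765347383964652179525397379051428171549987757857649166709520217330720733759671486419769349685382631311038338362165628034468544512) (nat_lit 744282853765347383964652179525397379051428171549987757857649166709520217330720733759671486419769349685382631311038338362165628034468544512) c10_s295) (B (K (nat_lit 20839919904563267469136299467468243040968311306576724125601814824542818561135580730608205265846292373090681313944358956363619163917254656000) (nat_lit 1598335258878212303072075893499311809017122056259167225528972386816905375590744239356599241009192203216582117771408515582878054990457616934222430208)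 (nat_lit 1598335258878212303072075893499311809017122056259167225528972386816905375590744239356599241009192203216582117771408515582878054990457616934222430208) c10_s297) (B (K (nat_lit 20839919904563267469136299467468243040968311306576724125601814824542818561135580730608205265846292373090681313944358956363619163917254656000) (nat_lit 2397502888038212384511093017345527028540526059175048892715452660211965210379812298781988473073064215245580066955755460727916435994395902126097170432) (nat_lit 2397502888038212384511093017345527028540526059175048892715452660211965210379812298781988473073064215245580066955755460727916435994395902126097170432) c10_s303) (B (K (nat_lit 20839919904563267469136299467468243040968311306576724125601814824542818561135580730608205265846292373090681313944358956363619163917254656000) (nat_lit 372141426925996656003398389928425688316305259764566607810903354869449640771257899608953609923933948110544221388395755593127056236791988224) (nat_lit 372141426925996656003398389928425688316305259764566607810903354869449640771257899608953609923933948110544221388395755593127056236791988224)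 c10_s304) (B (K (nat_lit 20839919904563267469136299467468243040968311306576724125601814824542818561135580730608205265846292373090681313944358956363619163917254656000) (nat_lit 1598335258878212303072075893499311809012424971092662636880909885783461927785587294239617576675763800585487932162692256029772267775055228302690091008) (nat_lit 1598335258878212303072075893499311809012424971092662636880909885783461927785587294239617576675763800585487932162692256029772267775055228302690091008) c10_s288) c10_d331)))))) (B (M (nat_lit 394) (B (M (nat_lit 330) (B (M (nat_lit 458) (B (M (nat_lit 329) (B (L (nat_lit 297) ln10_13_7_c10 ln10_13_7_c10_ok) (L (nat_lit 361) ln10_14_7 ln10_14_7_ok))) (M (nat_lit 331) (B (L (nat_lit 299) ln10_13_6 ln10_13_6_ok) (L (nat_lit 363) ln10_14_6 ln10_14_6_ok))))) (B (M (nat_lit 298) (B (M (nat_lit 266) (B (M (nat_lit 393) (B (L (nat_lit 361) ln10_8_5_c10 ln10_8_5_c10_ok) (L (nat_lit 425) ln10_9_5_c10 ln10_9_5_c10_ok))) (M (nat_lit 395) (B (L (nat_lit 363) ln10_8_4 ln10_8_4_ok) (L (nat_lit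 427) ln10_9_4 ln10_9_4_ok))))) (M (nat_lit 299) (B (L (nat_lit 267) ln10_12_6_c10 ln10_12_6_c10_ok) (L (nat_lit 331) ln10_13_6 ln10_13_6_ok))))) (B (M (nat_lit 298) (B (M (nat_lit 266) (B (M (nat_lit 393) (B (L (nat_lit 361) ln10_8_5_c10 ln10_8_5_c10_ok) (L (nat_lit 425) ln10_9_5_c10 ln10_9_5_c10_ok))) (M (nat_lit 395) (B (L (nat_lit 363) ln10_8_4 ln10_8_4_ok) (L (nat_lit 427) ln10_9_4 ln10_9_4_ok))))) (M (nat_lit 297) (B (L (nat_lit 265) ln10_12_7_c10 ln10_12_7_c10_ok) (L (nat_lit 329) ln10_13_7_c10 ln10_13_7_c10_ok))))) (M (nat_lit 425) (B (L (nat_lit 457) ln10_10_5 ln10_10_5_ok) (M (nat_lit 297) (B (L (nat_lit 329) ln10_13_7_c10 ln10_13_7_c10_ok) (M (nat_lit 298) (B (L (nat_lit 265) ln10_12_7_c10 ln10_12_7_c10_ok) (L (nat_lit 393) ln10_9_5_c10 ln10_9_5_c10_ok))))))))))) (B (M (nat_lit 330) (B (M (nat_lit 458) (B (M (nat_lit 329) (B (L (nat_lit 297) ln10_13_7_c10 ln10_13_7_c10_ok) (L (nat_lit 361) ln10_14_7 ln10_14_7_ok))) (M (nat_lit 331) (B (L (nat_lit 299) ln10_13_6 ln10_13_6_ok) (L (nat_lit 363)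 ln10_14_6 ln10_14_6_ok))))) (B (M (nat_lit 363) (B (M (nat_lit 331) (B (L (nat_lit 299) ln10_13_6 ln10_13_6_ok) (L (nat_lit 458) ln10_14_6 ln10_14_6_ok))) (M (nat_lit 298) (B (M (nat_lit 425) (B (L (nat_lit 393) ln10_9_5_c10 ln10_9_5_c10_ok) (L (nat_lit 457) ln10_10_5 ln10_10_5_ok))) (M (nat_lit 395) (B (L (nat_lit 266) ln10_8_4 ln10_8_4_ok) (L (nat_lit 427) ln10_9_4 ln10_9_4_ok))))))) (M (nat_lit 298) (B (M (nat_lit 297) (B (L (nat_lit 265) ln10_12_7_c10 ln10_12_7_c10_ok) (L (nat_lit 329) ln10_13_7_c10 ln10_13_7_c10_ok))) (M (nat_lit 425) (B (L (nat_lit 393) ln10_9_5_c10 ln10_9_5_c10_ok) (L (nat_lit 457) ln10_10_5 ln10_10_5_ok)))))))) (B (M (nat_lit 330) (B (M (nat_lit 425) (B (L (nat_lit 457) ln10_10_5 ln10_10_5_ok) (M (nat_lit 297) (B (L (nat_lit 329) ln10_13_7_c10 ln10_13_7_c10_ok) (M (nat_lit 298) (B (L (nat_lit 265) ln10_12_7_c10 ln10_12_7_c10_ok) (L (nat_lit 393) ln10_9_5_c10 ln10_9_5_c10_ok))))))) (B (M (nat_lit 458) (B (M (nat_lit 329) (B (L (nat_lit 297) ln10_13_7_c10 ln10_13_7_c10_ok) (L (nat_lit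 361) ln10_14_7 ln10_14_7_ok))) (M (nat_lit 331) (B (L (nat_lit 299) ln10_13_6 ln10_13_6_ok) (L (nat_lit 363) ln10_14_6 ln10_14_6_ok))))) (M (nat_lit 298) (B (M (nat_lit 425) (B (L (nat_lit 393) ln10_9_5_c10 ln10_9_5_c10_ok) (L (nat_lit 457) ln10_10_5 ln10_10_5_ok))) (M (nat_lit 299) (B (L (nat_lit 267) ln10_12_6_c10 ln10_12_6_c10_ok) (L (nat_lit 331) ln10_13_6 ln10_13_6_ok)))))))) (B (K (nat_lit 20839919904563267469136299467468243040968311306576724125601814824542818561135580730608205265846292373090681313944358956363619163917254656000) (nat_lit 1598335258878212303072075893499311809012424971092662636880909885783461927785587294239617576675763800585487932162692256029772267775055228302690091008) (nat_lit 1598335258878212303072075893499311809012424971092662636880909885783461927785587294239617576675763800585487932162692256029772267775055228302690091008) c10_s288) (B (K (nat_lit 20839919904563267469136299467468243040968311306576724125601814824542818561135580730608205265846292373090681313944358956363619163917254656000)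 (nat_lit 1598335258878212303072075893499311808998333715596019637513573002202725905621333198946167657451520054756294678012004605368990073784746616084498481152) (nat_lit 1598335258878212303072075893499311808998333715596019637513573002202725905621333198946167657451520054756294678012004605368990073784746616084498481152) c10_s280) (B (K (nat_lit 20839919904563267469136299467468243040968311306576724125601814824542818561135580730608205265846292373090681313944358956363619163917254656000) (nat_lit 6864797664925615489383689147001578746216369250575382413913880329394204960504006303296159402001446723692574801713202217636382823279536261829817018869578989568) (nat_lit 6864797664925615489383689147001578746216369250575382413913880329394204960504006303296159402001446723692574801713202217636382823279536261829817018869578989568) c10_s298) (B (K (nat_lit 20839919904563267469136299467468243040968311306576724125601814824542818561135580730608205265846292373090681313944358956363619163917254656000) (nat_lit 372141426925996655922703081238209794889421082469173548492656321498887600771430587864228080873443738720781631974039798360183861144763498496)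 (nat_lit 372141426925996655922703081238209794889421082469173548492656321498887600771430587864228080873443738720781631974039798360183861144763498496) c10_s309) c10_d332)))))))) c10_d335))
theorem c10_s314 : Sem (nat_lit 20839919904563267469095951813113740923923842236602619142678255823420359213551968398679428482866150393324134671525502006753894102043052736512) (nat_lit 206388570155481626333611798587278201085250825182292669546331102288215485137492531417791539586582219248158799521210985734061987667995157806379204295648705789010018041856) (nat_lit 206388570155481626333611798587278201085250825182292669546331102288215485137492531417791539586582219248158799521210985734061987667995157806379204295648705789010018041856) :=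
  sem_of_chk (M (nat_lit 362) (B (M (nat_lit 394) (B (K (nat_lit 20839919904563267469136299467468243040968311306576724125601814824542818561135580730608205265846292373090681313944358956363619163917254656000) (nat_lit 744282853765347383964652179525397379051428171549987757857649166709520217330720733759671486419769349685382631311038338362165628034468544512) (nat_lit 744282853765347383964652179525397379051428171549987757857649166709520217330720733759671486419769349685382631311038338362165628034468544512) c10_s295) (B (M (nat_lit 330) (B (M (nat_lit 298) (B (M (nat_lit 266) (B (M (nat_lit 393) (B (L (nat_lit 425) ln10_9_5_c10 ln10_9_5_c10_ok) (L (nat_lit 361) ln10_8_5_c10 ln10_8_5_c10_ok))) (M (nat_lit 265) (B (L (nat_lit 297) ln10_12_7_c10 ln10_12_7_c10_ok) (L (nat_lit 233) ln10_11_7_c10 ln10_11_7_c10_ok))))) (B (M (nat_lit 266) (B (M (nat_lit 265) (B (L (nat_lit 297) ln10_12_7_c10 ln10_12_7_c10_ok) (L (nat_lit 233) ln10_11_7_c10 ln10_11_7_c10_ok))) (M (nat_lit 267) (B (L (nat_lit 299) ln10_12_6_c10 ln10_12_6_c10_ok)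 (L (nat_lit 235) ln10_11_6_c10 ln10_11_6_c10_ok))))) (B (M (nat_lit 266) (B (M (nat_lit 393) (B (L (nat_lit 425) ln10_9_5_c10 ln10_9_5_c10_ok) (L (nat_lit 361) ln10_8_5_c10 ln10_8_5_c10_ok))) (M (nat_lit 267) (B (L (nat_lit 299) ln10_12_6_c10 ln10_12_6_c10_ok) (L (nat_lit 235) ln10_11_6_c10 ln10_11_6_c10_ok))))) (M (nat_lit 297) (B (L (nat_lit 329) ln10_13_7_c10 ln10_13_7_c10_ok) (L (nat_lit 265) ln10_12_7_c10 ln10_12_7_c10_ok))))))) c10_d327)) (B (K (nat_lit 20839919904563267469136299467468243040968311306576724125601814824542818561135580730608205265846292373090681313944358956363619163917254656000) (nat_lit 1598335258878212303072075893499311809017122056259167225528972386816905375590744239356599241009192203216582117771408515582878054990457616934222430208) (nat_lit 1598335258878212303072075893499311809017122056259167225528972386816905375590744239356599241009192203216582117771408515582878054990457616934222430208) c10_s297) (B (K (nat_lit 20839919904563267469136299467468243040968311306576724125601814824542818561135580730608205265846292373090681313944358956363619163917254656000)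 (nat_lit 1598335258878212303072075893499311809012424971092662636880909885783461927785587294239617576675763800585487932162692256029772267775055228302690091008) (nat_lit 1598335258878212303072075893499311809012424971092662636880909885783461927785587294239617576675763800585487932162692256029772267775055228302690091008) c10_s288) (B (K (nat_lit 20839919904563267469136299467468243040968311306576724125601814824542818561135580730608205265846292373090681313944358956363619163917254656000) (nat_lit 1598335258878212303072075893499311808998333715596019637513573002202725905621333198946167657451520054756294678012004605368990073784746616084498481152) (nat_lit 1598335258878212303072075893499311808998333715596019637513573002202725905621333198946167657451520054756294678012004605368990073784746616084498481152) c10_s280) (B (K (nat_lit 20839919904563267469136299467468243040968311306576724125601814824542818561135580730608205265846292373090681313944358956363619163917254656000) (nat_lit 6864797664925615489383689147001578746216369250575382413913880329394204960504006303296159402001446723692574801713202217636382823279536261829817018869578989568)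 (nat_lit 6864797664925615489383689147001578746216369250575382413913880329394204960504006303296159402001446723692574801713202217636382823279536261829817018869578989568) c10_s298) c10_d328))))))) (B (M (nat_lit 394) c10_d329) (B (M (nat_lit 394) (B (K (nat_lit 20839919904563267469136299467468243040968311306576724125601814824542818561135580730608205265846292373090681313944358956363619163917254656000) (nat_lit 744282853765347383964652179525397379051428171549987757857649166709520217330720733759671486419769349685382631311038338362165628034468544512) (nat_lit 744282853765347383964652179525397379051428171549987757857649166709520217330720733759671486419769349685382631311038338362165628034468544512) c10_s295) c10_d330)) c10_d336)))) (nat_lit 20839919904563267469095951813113740923923842236602619142678255823420359213551968398679428482866150393324134671525502006753894102043052736512) (nat_lit 206388570155481626333611798587278201085250825182292669546331102288215485137492531417791539586582219248158799521210985734061987667995157806379204295648705789010018041856)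 (nat_lit 206388570155481626333611798587278201085250825182292669546331102288215485137492531417791539586582219248158799521210985734061987667995157806379204295648705789010018041856) (by decide +kernel)
noncomputable def c10_d337 : Cert := (B (M (nat_lit 458) (B (M (nat_lit 490) (B (M (nat_lit 523) (B (L (nat_lit 491) ln10_12_4 ln10_12_4_ok) (M (nat_lit 522) (B (L (nat_lit 555) ln10_13_4 ln10_13_4_ok) (M (nat_lit 521) (B (L (nat_lit 489) ln10_12_5 ln10_12_5_ok) (L (nat_lit 553) ln10_13_5 ln10_13_5_ok))))))) (B (M (nat_lit 522) (B (M (nat_lit 393) (B (L (nat_lit 361) ln10_15_7 ln10_15_7_ok) (L (nat_lit 425) ln10_16_7 ln10_16_7_ok))) (M (nat_lit 521) (B (L (nat_lit 489) ln10_12_5 ln10_12_5_ok) (L (nat_lit 553) ln10_13_5 ln10_13_5_ok))))) (B (M (nat_lit 522) (B (M (nat_lit 393) (B (L (nat_lit 361) ln10_15_7 ln10_15_7_ok) (L (nat_lit 425) ln10_16_7 ln10_16_7_ok))) (M (nat_lit 523) (B (L (nat_lit 491) ln10_12_4 ln10_12_4_ok) (L (nat_lit 555) ln10_13_4 ln10_13_4_ok))))) (M (nat_lit 361) (B (L (nat_lit 329) ln10_14_7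 ln10_14_7_ok) (L (nat_lit 393) ln10_15_7 ln10_15_7_ok))))))) (B (M (nat_lit 490) (B (M (nat_lit 491) (B (L (nat_lit 523) ln10_12_4 ln10_12_4_ok) (L (nat_lit 459) ln10_11_4 ln10_11_4_ok))) (M (nat_lit 489) (B (L (nat_lit 521) ln10_12_5 ln10_12_5_ok) (L (nat_lit 457) ln10_11_5 ln10_11_5_ok))))) (B (M (nat_lit 490) (B (M (nat_lit 522) (B (M (nat_lit 523) (B (L (nat_lit 555) ln10_13_4 ln10_13_4_ok) (L (nat_lit 491) ln10_12_4 ln10_12_4_ok))) (M (nat_lit 393) (B (L (nat_lit 425) ln10_16_7 ln10_16_7_ok) (L (nat_lit 361) ln10_15_7 ln10_15_7_ok))))) (B (M (nat_lit 491) (B (L (nat_lit 523) ln10_12_4 ln10_12_4_ok) (L (nat_lit 459) ln10_11_4 ln10_11_4_ok))) (B (M (nat_lit 522) (B (M (nat_lit 393) (B (L (nat_lit 425) ln10_16_7 ln10_16_7_ok) (L (nat_lit 361) ln10_15_7 ln10_15_7_ok))) (M (nat_lit 554) (B (M (nat_lit 553) (B (L (nat_lit 585) ln10_14_5 ln10_14_5_ok) (L (nat_lit 521) ln10_13_5 ln10_13_5_ok))) (M (nat_lit 459) (B (L (nat_lit 427) ln10_17_6 ln10_17_6_ok) (L (nat_lit 491) ln10_11_4 ln10_11_4_ok))))))) (M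 (nat_lit 522) (B (M (nat_lit 393) (B (L (nat_lit 425) ln10_16_7 ln10_16_7_ok) (L (nat_lit 361) ln10_15_7 ln10_15_7_ok))) (M (nat_lit 554) (B (M (nat_lit 555) (B (L (nat_lit 587) ln10_14_4 ln10_14_4_ok) (L (nat_lit 523) ln10_13_4 ln10_13_4_ok))) (M (nat_lit 553) (B (L (nat_lit 585) ln10_14_5 ln10_14_5_ok) (L (nat_lit 521) ln10_13_5 ln10_13_5_ok))))))))))) (B (M (nat_lit 490) (B (M (nat_lit 491) (B (L (nat_lit 523) ln10_12_4 ln10_12_4_ok) (L (nat_lit 459) ln10_11_4 ln10_11_4_ok))) (M (nat_lit 361) (B (L (nat_lit 393) ln10_15_7 ln10_15_7_ok) (L (nat_lit 329) ln10_14_7 ln10_14_7_ok))))) (B (M (nat_lit 490) (B (M (nat_lit 361) (B (L (nat_lit 329) ln10_14_7 ln10_14_7_ok) (L (nat_lit 393) ln10_15_7 ln10_15_7_ok))) (M (nat_lit 489) (B (L (nat_lit 457) ln10_11_5 ln10_11_5_ok) (L (nat_lit 521) ln10_12_5 ln10_12_5_ok))))) (M (nat_lit 457) (B (L (nat_lit 489) ln10_11_5 ln10_11_5_ok) (M (nat_lit 459) (B (L (nat_lit 491) ln10_11_4 ln10_11_4_ok) (M (nat_lit 456) (B (M (nat_lit 455) (B (L (nat_lit 427) ln7_14_2 ln7_14_2_ok)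 (M (nat_lit 487) (B (L (nat_lit 488) ln11_14_1 ln11_14_1_ok) (L (nat_lit 486) ln10_14_1_c10 ln10_14_1_c10_ok))))) (B (M (nat_lit 455) (B (L (nat_lit 427) ln7_14_2 ln7_14_2_ok) (M (nat_lit 423) (B (L (nat_lit 422) ln10_14_3 ln10_14_3_ok) (L (nat_lit 424) ln11_14_3 ln11_14_3_ok))))) (M (nat_lit 424) (B (L (nat_lit 423) ln11_14_3 ln11_14_3_ok) (M (nat_lit 361) (B (L (nat_lit 329) ln10_14_7 ln10_14_7_ok) (M (nat_lit 488) (B (L (nat_lit 487) ln11_14_1 ln11_14_1_ok) (M (nat_lit 393) (B (L (nat_lit 392) ln8_15_6_c10 ln8_15_6_c10_ok) (L (nat_lit 425) ln9_11_5_c10 ln9_11_5_c10_ok)))))))))))))))))))))) (M (nat_lit 330) (B (M (nat_lit 299) (B (L (nat_lit 331) ln10_13_6 ln10_13_6_ok) (M (nat_lit 298) (B (L (nat_lit 267) ln10_12_6_c10 ln10_12_6_c10_ok) (M (nat_lit 297) (B (L (nat_lit 265) ln10_12_7_c10 ln10_12_7_c10_ok) (L (nat_lit 329) ln10_13_7_c10 ln10_13_7_c10_ok))))))) (B (M (nat_lit 298) (B (M (nat_lit 299) (B (L (nat_lit 267) ln10_12_6_c10 ln10_12_6_c10_ok) (L (nat_lit 331) ln10_13_6 ln10_13_6_ok))) (M (nat_lit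 425) (B (L (nat_lit 393) ln10_9_5_c10 ln10_9_5_c10_ok) (L (nat_lit 457) ln10_10_5 ln10_10_5_ok))))) (B (M (nat_lit 298) (B (M (nat_lit 425) (B (L (nat_lit 457) ln10_10_5 ln10_10_5_ok) (L (nat_lit 393) ln10_9_5_c10 ln10_9_5_c10_ok))) (M (nat_lit 297) (B (L (nat_lit 329) ln10_13_7_c10 ln10_13_7_c10_ok) (L (nat_lit 265) ln10_12_7_c10 ln10_12_7_c10_ok))))) (M (nat_lit 425) (B (L (nat_lit 457) ln10_10_5 ln10_10_5_ok) (M (nat_lit 427) (B (L (nat_lit 459) ln10_10_4 ln10_10_4_ok) (M (nat_lit 329) (B (L (nat_lit 297) ln10_13_7_c10 ln10_13_7_c10_ok) (M (nat_lit 331) (B (L (nat_lit 299) ln10_13_6 ln10_13_6_ok) (M (nat_lit 424) (B (M (nat_lit 456) (B (L (nat_lit 455) ln11_13_1_c10 ln11_13_1_c10_ok) (M (nat_lit 361) (B (L (nat_lit 393) ln9_10_5_c10 ln9_10_5_c10_ok) (M (nat_lit 360) (B (L (nat_lit 359) ln7_11_2 ln7_11_2_ok) (L (nat_lit 392) ln8_14_6_c10 ln8_14_6_c10_ok))))))) (B (M (nat_lit 423) (B (M (nat_lit 455) (B (L (nat_lit 456) ln11_13_1_c10 ln11_13_1_c10_ok) (L (nat_lit 454) ln10_13_1_c10 ln10_13_1_c10_ok)))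 (M (nat_lit 390) (B (L (nat_lit 391) ln10_13_3_c10 ln10_13_3_c10_ok) (M (nat_lit 422) (B (L (nat_lit 393) ln6_13_2_c10 ln6_13_2_c10_ok) (L (nat_lit 389) ln9_13_3_c10 ln9_13_3_c10_ok))))))) (B (M (nat_lit 423) (B (M (nat_lit 391) (B (L (nat_lit 392) ln11_13_3 ln11_13_3_ok) (L (nat_lit 390) ln10_13_3_c10 ln10_13_3_c10_ok))) (M (nat_lit 454) (B (L (nat_lit 455) ln10_13_1_c10 ln10_13_1_c10_ok) (M (nat_lit 422) (B (L (nat_lit 453) ln9_13_1_c10 ln9_13_1_c10_ok) (L (nat_lit 393) ln6_13_2_c10 ln6_13_2_c10_ok))))))) (B (M (nat_lit 455) (B (L (nat_lit 456) ln11_13_1_c10 ln11_13_1_c10_ok) (M (nat_lit 423) (B (L (nat_lit 454) ln10_13_1_c10 ln10_13_1_c10_ok) (M (nat_lit 391) (B (L (nat_lit 390) ln10_13_3_c10 ln10_13_3_c10_ok) (L (nat_lit 392) ln11_13_3 ln11_13_3_ok))))))) (M (nat_lit 391) (B (L (nat_lit 392) ln11_13_3 ln11_13_3_ok) (M (nat_lit 423) (B (L (nat_lit 390) ln10_13_3_c10 ln10_13_3_c10_ok) (M (nat_lit 422) (B (L (nat_lit 393) ln6_13_2_c10 ln6_13_2_c10_ok) (M (nat_lit 454) (B (L (nat_lit 453) ln9_13_1_c10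 ln9_13_1_c10_ok) (M (nat_lit 359) (B (L (nat_lit 327) ln7_10_5_c10 ln7_10_5_c10_ok) (M (nat_lit 360) (B (L (nat_lit 361) ln7_11_2 ln7_11_2_ok) (L (nat_lit 328) ln11_10_1_c10 ln11_10_1_c10_ok)))))))))))))))))))))))))))))))
noncomputable def c10_d338 : Cert := (B (M (nat_lit 458) (B (M (nat_lit 490) (B (M (nat_lit 361) (B (L (nat_lit 329) ln10_14_7 ln10_14_7_ok) (L (nat_lit 393) ln10_15_7 ln10_15_7_ok))) (M (nat_lit 491) (B (L (nat_lit 459) ln10_11_4 ln10_11_4_ok) (L (nat_lit 523) ln10_12_4 ln10_12_4_ok))))) (B (M (nat_lit 489) (B (L (nat_lit 457) ln10_11_5 ln10_11_5_ok) (M (nat_lit 490) (B (L (nat_lit 521) ln10_12_5 ln10_12_5_ok) (M (nat_lit 491) (B (L (nat_lit 459) ln10_11_4 ln10_11_4_ok) (L (nat_lit 523) ln10_12_4 ln10_12_4_ok))))))) (B (M (nat_lit 490) (B (M (nat_lit 361) (B (L (nat_lit 329) ln10_14_7 ln10_14_7_ok) (L (nat_lit 393) ln10_15_7 ln10_15_7_ok))) (M (nat_lit 489) (B (L (nat_lit 457) ln10_11_5 ln10_11_5_ok) (L (nat_lit 521) ln10_12_5 ln10_12_5_ok))))) (M (nat_lit 330) (B (M (nat_lit 329) (B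 (L (nat_lit 297) ln10_13_7_c10 ln10_13_7_c10_ok) (L (nat_lit 361) ln10_14_7 ln10_14_7_ok))) (M (nat_lit 457) (B (L (nat_lit 425) ln10_10_5 ln10_10_5_ok) (L (nat_lit 489) ln10_11_5 ln10_11_5_ok))))))))) (B (M (nat_lit 330) (B (M (nat_lit 298) (B (M (nat_lit 425) (B (L (nat_lit 457) ln10_10_5 ln10_10_5_ok) (L (nat_lit 393) ln10_9_5_c10 ln10_9_5_c10_ok))) (M (nat_lit 299) (B (L (nat_lit 331) ln10_13_6 ln10_13_6_ok) (L (nat_lit 267) ln10_12_6_c10 ln10_12_6_c10_ok))))) (B (M (nat_lit 297) (B (L (nat_lit 329) ln10_13_7_c10 ln10_13_7_c10_ok) (M (nat_lit 298) (B (L (nat_lit 265) ln10_12_7_c10 ln10_12_7_c10_ok) (M (nat_lit 299) (B (L (nat_lit 331) ln10_13_6 ln10_13_6_ok) (L (nat_lit 267) ln10_12_6_c10 ln10_12_6_c10_ok))))))) (B (M (nat_lit 298) (B (M (nat_lit 425) (B (L (nat_lit 457) ln10_10_5 ln10_10_5_ok) (L (nat_lit 393) ln10_9_5_c10 ln10_9_5_c10_ok))) (M (nat_lit 297) (B (L (nat_lit 329) ln10_13_7_c10 ln10_13_7_c10_ok) (L (nat_lit 265) ln10_12_7_c10 ln10_12_7_c10_ok))))) (M (nat_lit 458) (B (M (nat_lit 457)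 (B (L (nat_lit 489) ln10_11_5 ln10_11_5_ok) (L (nat_lit 425) ln10_10_5 ln10_10_5_ok))) (M (nat_lit 329) (B (L (nat_lit 361) ln10_14_7 ln10_14_7_ok) (L (nat_lit 297) ln10_13_7_c10 ln10_13_7_c10_ok))))))))) (B (M (nat_lit 330) (B (M (nat_lit 298) (B (M (nat_lit 299) (B (L (nat_lit 267) ln10_12_6_c10 ln10_12_6_c10_ok) (L (nat_lit 331) ln10_13_6 ln10_13_6_ok))) (M (nat_lit 297) (B (L (nat_lit 265) ln10_12_7_c10 ln10_12_7_c10_ok) (L (nat_lit 329) ln10_13_7_c10 ln10_13_7_c10_ok))))) (B (M (nat_lit 458) (B (M (nat_lit 329) (B (L (nat_lit 297) ln10_13_7_c10 ln10_13_7_c10_ok) (L (nat_lit 361) ln10_14_7 ln10_14_7_ok))) (M (nat_lit 459) (B (L (nat_lit 427) ln10_10_4 ln10_10_4_ok) (L (nat_lit 491) ln10_11_4 ln10_11_4_ok))))) (B (M (nat_lit 361) (B (M (nat_lit 459) (B (L (nat_lit 427) ln10_10_4 ln10_10_4_ok) (M (nat_lit 458) (B (L (nat_lit 329) ln10_14_7 ln10_14_7_ok) (L (nat_lit 491) ln10_11_4 ln10_11_4_ok))))) (M (nat_lit 298) (B (M (nat_lit 299) (B (L (nat_lit 267) ln10_12_6_c10 ln10_12_6_c10_ok) (L (nat_lit 331)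 ln10_13_6 ln10_13_6_ok))) (M (nat_lit 393) (B (L (nat_lit 266) ln10_8_5_c10 ln10_8_5_c10_ok) (L (nat_lit 425) ln10_9_5_c10 ln10_9_5_c10_ok))))))) (M (nat_lit 298) (B (M (nat_lit 299) (B (L (nat_lit 267) ln10_12_6_c10 ln10_12_6_c10_ok) (L (nat_lit 331) ln10_13_6 ln10_13_6_ok))) (M (nat_lit 266) (B (M (nat_lit 265) (B (L (nat_lit 233) ln10_11_7_c10 ln10_11_7_c10_ok) (L (nat_lit 297) ln10_12_7_c10 ln10_12_7_c10_ok))) (M (nat_lit 393) (B (L (nat_lit 361) ln10_8_5_c10 ln10_8_5_c10_ok) (L (nat_lit 425) ln10_9_5_c10 ln10_9_5_c10_ok))))))))))) (B (M (nat_lit 458) (B (M (nat_lit 490) (B (M (nat_lit 361) (B (L (nat_lit 329) ln10_14_7 ln10_14_7_ok) (L (nat_lit 393) ln10_15_7 ln10_15_7_ok))) (M (nat_lit 489) (B (L (nat_lit 457) ln10_11_5 ln10_11_5_ok) (L (nat_lit 521) ln10_12_5 ln10_12_5_ok))))) (B (M (nat_lit 490) (B (M (nat_lit 489) (B (L (nat_lit 457) ln10_11_5 ln10_11_5_ok) (L (nat_lit 521) ln10_12_5 ln10_12_5_ok))) (M (nat_lit 491) (B (L (nat_lit 459) ln10_11_4 ln10_11_4_ok) (L (nat_lit 523) ln10_12_4 ln10_12_4_ok)))))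 (B (M (nat_lit 490) (B (M (nat_lit 361) (B (L (nat_lit 329) ln10_14_7 ln10_14_7_ok) (L (nat_lit 393) ln10_15_7 ln10_15_7_ok))) (M (nat_lit 491) (B (L (nat_lit 459) ln10_11_4 ln10_11_4_ok) (L (nat_lit 523) ln10_12_4 ln10_12_4_ok))))) (M (nat_lit 330) (B (M (nat_lit 457) (B (L (nat_lit 425) ln10_10_5 ln10_10_5_ok) (L (nat_lit 489) ln10_11_5 ln10_11_5_ok))) (M (nat_lit 459) (B (L (nat_lit 427) ln10_10_4 ln10_10_4_ok) (L (nat_lit 491) ln10_11_4 ln10_11_4_ok))))))))) (B (M (nat_lit 458) (B (M (nat_lit 489) (B (L (nat_lit 457) ln10_11_5 ln10_11_5_ok) (M (nat_lit 490) (B (L (nat_lit 521) ln10_12_5 ln10_12_5_ok) (M (nat_lit 491) (B (L (nat_lit 523) ln10_12_4 ln10_12_4_ok) (L (nat_lit 459) ln10_11_4 ln10_11_4_ok))))))) (B (M (nat_lit 330) (B (M (nat_lit 457) (B (L (nat_lit 489) ln10_11_5 ln10_11_5_ok) (L (nat_lit 425) ln10_10_5 ln10_10_5_ok))) (M (nat_lit 459) (B (L (nat_lit 491) ln10_11_4 ln10_11_4_ok) (L (nat_lit 427) ln10_10_4 ln10_10_4_ok))))) (B (M (nat_lit 490) (B (M (nat_lit 491) (B (L (nat_lit 459) ln10_11_4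 ln10_11_4_ok) (L (nat_lit 523) ln10_12_4 ln10_12_4_ok))) (M (nat_lit 522) (B (M (nat_lit 393) (B (L (nat_lit 361) ln10_15_7 ln10_15_7_ok) (L (nat_lit 425) ln10_16_7 ln10_16_7_ok))) (M (nat_lit 521) (B (L (nat_lit 489) ln10_12_5 ln10_12_5_ok) (L (nat_lit 553) ln10_13_5 ln10_13_5_ok))))))) (B (M (nat_lit 490) (B (M (nat_lit 491) (B (L (nat_lit 523) ln10_12_4 ln10_12_4_ok) (L (nat_lit 459) ln10_11_4 ln10_11_4_ok))) (B (M (nat_lit 522) (B (M (nat_lit 393) (B (L (nat_lit 425) ln10_16_7 ln10_16_7_ok) (L (nat_lit 361) ln10_15_7 ln10_15_7_ok))) (M (nat_lit 554) (B (M (nat_lit 553) (B (L (nat_lit 585) ln10_14_5 ln10_14_5_ok) (L (nat_lit 521) ln10_13_5 ln10_13_5_ok))) (M (nat_lit 459) (B (L (nat_lit 427) ln10_17_6 ln10_17_6_ok) (L (nat_lit 491) ln10_11_4 ln10_11_4_ok))))))) (M (nat_lit 522) (B (M (nat_lit 393) (B (L (nat_lit 425) ln10_16_7 ln10_16_7_ok) (L (nat_lit 361) ln10_15_7 ln10_15_7_ok))) (M (nat_lit 554) (B (M (nat_lit 555) (B (L (nat_lit 587) ln10_14_4 ln10_14_4_ok) (L (nat_lit 523) ln10_13_4 ln10_13_4_ok)))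 (M (nat_lit 553) (B (L (nat_lit 585) ln10_14_5 ln10_14_5_ok) (L (nat_lit 521) ln10_13_5 ln10_13_5_ok)))))))))) (B (M (nat_lit 490) (B (M (nat_lit 489) (B (L (nat_lit 521) ln10_12_5 ln10_12_5_ok) (L (nat_lit 457) ln10_11_5 ln10_11_5_ok))) (M (nat_lit 522) (B (M (nat_lit 523) (B (L (nat_lit 555) ln10_13_4 ln10_13_4_ok) (L (nat_lit 491) ln10_12_4 ln10_12_4_ok))) (M (nat_lit 393) (B (L (nat_lit 425) ln10_16_7 ln10_16_7_ok) (L (nat_lit 361) ln10_15_7 ln10_15_7_ok))))))) (M (nat_lit 490) (B (M (nat_lit 489) (B (L (nat_lit 457) ln10_11_5 ln10_11_5_ok) (L (nat_lit 521) ln10_12_5 ln10_12_5_ok))) (B (M (nat_lit 522) (B (M (nat_lit 393) (B (L (nat_lit 361) ln10_15_7 ln10_15_7_ok) (L (nat_lit 425) ln10_16_7 ln10_16_7_ok))) (M (nat_lit 521) (B (L (nat_lit 489) ln10_12_5 ln10_12_5_ok) (L (nat_lit 553) ln10_13_5 ln10_13_5_ok))))) (M (nat_lit 393) (B (L (nat_lit 361) ln10_15_7 ln10_15_7_ok) (M (nat_lit 425) (B (L (nat_lit 522) ln10_16_7 ln10_16_7_ok) (M (nat_lit 330) (B (L (nat_lit 298) ln10_9_5_c10 ln10_9_5_c10_ok)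 (L (nat_lit 457) ln10_10_5 ln10_10_5_ok)))))))))))))))) c10_d337)))))
noncomputable def c10_d339 : Cert := (B (M (nat_lit 363) (B (M (nat_lit 362) (B (L (nat_lit 361) ln9_11_0 ln9_11_0_ok) (M (nat_lit 394) (B (L (nat_lit 393) ln13_11_1 ln13_11_1_ok) (M (nat_lit 366) (B (L (nat_lit 395) ln14_11_1 ln14_11_1_ok) (M (nat_lit 330) (B (L (nat_lit 331) ln14_11_3 ln14_11_3_ok) (L (nat_lit 329) ln13_11_3 ln13_11_3_ok))))))))) (B (M (nat_lit 362) (B (L (nat_lit 361) ln9_11_0 ln9_11_0_ok) (M (nat_lit 394) (B (L (nat_lit 393) ln13_11_1 ln13_11_1_ok) (M (nat_lit 395) (B (L (nat_lit 366) ln14_11_1 ln14_11_1_ok) (M (nat_lit 330) (B (L (nat_lit 329) ln13_11_3 ln13_11_3_ok) (M (nat_lit 298) (B (L (nat_lit 266) ln10_8_4 ln10_8_4_ok) (L (nat_lit 427) ln10_9_4 ln10_9_4_ok))))))))))) (B (M (nat_lit 362) (B (L (nat_lit 361) ln9_11_0 ln9_11_0_ok) (M (nat_lit 394) (B (L (nat_lit 393) ln13_11_1 ln13_11_1_ok) (M (nat_lit 395) (B (L (nat_lit 366) ln14_11_1 ln14_11_1_ok) (M (nat_lit 426) (B (L (nat_lit 425) ln13_12_1 ln13_12_1_ok)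 (M (nat_lit 331) (B (L (nat_lit 299) ln11_9_5 ln11_9_5_ok) (L (nat_lit 458) ln10_14_6 ln10_14_6_ok))))))))))) (B (M (nat_lit 362) (B (L (nat_lit 361) ln9_11_0 ln9_11_0_ok) (M (nat_lit 394) (B (L (nat_lit 393) ln13_11_1 ln13_11_1_ok) (M (nat_lit 395) (B (M (nat_lit 330) (B (L (nat_lit 329) ln13_11_3 ln13_11_3_ok) (M (nat_lit 298) (B (L (nat_lit 266) ln10_8_4 ln10_8_4_ok) (L (nat_lit 427) ln10_9_4 ln10_9_4_ok))))) (M (nat_lit 426) (B (L (nat_lit 425) ln13_12_1 ln13_12_1_ok) (M (nat_lit 331) (B (L (nat_lit 299) ln11_9_5 ln11_9_5_ok) (L (nat_lit 458) ln10_14_6 ln10_14_6_ok))))))))))) (B (M (nat_lit 395) (B (M (nat_lit 366) (B (L (nat_lit 367) ln15_11_1 ln15_11_1_ok) (L (nat_lit 394) ln14_11_1 ln14_11_1_ok))) (B (M (nat_lit 394) (B (L (nat_lit 366) ln14_11_1 ln14_11_1_ok) (L (nat_lit 393) ln9_12_2 ln9_12_2_ok))) (B (M (nat_lit 394) (B (L (nat_lit 393) ln9_12_2 ln9_12_2_ok) (M (nat_lit 426) (B (L (nat_lit 425) ln13_12_1 ln13_12_1_ok) (M (nat_lit 331) (B (L (nat_lit 299) ln11_9_5 ln11_9_5_ok) (M (nat_lit 458)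 (B (L (nat_lit 427) ln11_10_5 ln11_10_5_ok) (L (nat_lit 490) ln10_15_6 ln10_15_6_ok))))))))) (M (nat_lit 331) (B (M (nat_lit 299) (B (L (nat_lit 267) ln11_8_4 ln11_8_4_ok) (L (nat_lit 428) ln11_9_4 ln11_9_4_ok))) (M (nat_lit 366) (B (L (nat_lit 330) ln14_11_3 ln14_11_3_ok) (L (nat_lit 367) ln15_11_1 ln15_11_1_ok))))))))) (B (M (nat_lit 362) (B (L (nat_lit 361) ln9_11_0 ln9_11_0_ok) (M (nat_lit 394) (B (L (nat_lit 393) ln13_11_1 ln13_11_1_ok) (M (nat_lit 330) (B (L (nat_lit 329) ln13_11_3 ln13_11_3_ok) (M (nat_lit 331) (B (L (nat_lit 366) ln14_11_3 ln14_11_3_ok) (M (nat_lit 299) (B (L (nat_lit 267) ln11_8_4 ln11_8_4_ok) (L (nat_lit 426) ln10_13_6 ln10_13_6_ok))))))))))) (M (nat_lit 362) (B (L (nat_lit 361) ln9_11_0 ln9_11_0_ok) (M (nat_lit 330) (B (L (nat_lit 329) ln13_11_3 ln13_11_3_ok) (M (nat_lit 331) (B (L (nat_lit 366) ln14_11_3 ln14_11_3_ok) (M (nat_lit 395) (B (M (nat_lit 299) (B (L (nat_lit 267) ln11_8_4 ln11_8_4_ok) (L (nat_lit 428) ln11_9_4 ln11_9_4_ok))) (M (nat_lit 298) (B (L (nat_lit 266)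 ln10_8_4 ln10_8_4_ok) (L (nat_lit 427) ln11_13_7 ln11_13_7_ok)))))))))))))))))) (M (nat_lit 301) (B (L (nat_lit 269) ln13_8_5 ln13_8_5_ok) (M (nat_lit 366) (B (M (nat_lit 367) (B (L (nat_lit 368) ln16_11_1 ln16_11_1_ok) (M (nat_lit 363) (B (M (nat_lit 399) (B (L (nat_lit 400) ln12_11_0 ln12_11_0_ok) (L (nat_lit 398) ln11_11_0 ln11_11_0_ok))) (L (nat_lit 395) ln15_11_1 ln15_11_1_ok))))) (B (M (nat_lit 363) (B (M (nat_lit 398) (B (L (nat_lit 362) ln10_11_0 ln10_11_0_ok) (L (nat_lit 399) ln11_11_0 ln11_11_0_ok))) (B (M (nat_lit 367) (B (L (nat_lit 395) ln15_11_1 ln15_11_1_ok) (M (nat_lit 399) (B (L (nat_lit 398) ln11_11_0 ln11_11_0_ok) (L (nat_lit 400) ln12_11_0 ln12_11_0_ok))))) (M (nat_lit 362) (B (M (nat_lit 330) (B (L (nat_lit 329) ln13_11_3 ln13_11_3_ok) (L (nat_lit 331) ln14_11_3 ln14_11_3_ok))) (M (nat_lit 394) (B (L (nat_lit 393) ln13_11_1 ln13_11_1_ok) (L (nat_lit 395) ln14_11_1 ln14_11_1_ok)))))))) (B (M (nat_lit 363) (B (M (nat_lit 394) (B (L (nat_lit 395) ln14_11_1 ln14_11_1_ok) (M (nat_lit 362)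 (B (L (nat_lit 393) ln13_11_1 ln13_11_1_ok) (M (nat_lit 330) (B (L (nat_lit 331) ln14_11_3 ln14_11_3_ok) (L (nat_lit 329) ln13_11_3 ln13_11_3_ok))))))) (B (M (nat_lit 367) (B (L (nat_lit 368) ln16_11_1 ln16_11_1_ok) (L (nat_lit 395) ln15_11_1 ln15_11_1_ok))) (M (nat_lit 362) (B (M (nat_lit 330) (B (L (nat_lit 331) ln14_11_3 ln14_11_3_ok) (L (nat_lit 329) ln13_11_3 ln13_11_3_ok))) (L (nat_lit 361) ln9_11_0 ln9_11_0_ok)))))) (B (M (nat_lit 363) (B (M (nat_lit 398) (B (L (nat_lit 362) ln10_11_0 ln10_11_0_ok) (L (nat_lit 399) ln11_11_0 ln11_11_0_ok))) (B (M (nat_lit 367) (B (M (nat_lit 399) (B (L (nat_lit 398) ln11_11_0 ln11_11_0_ok) (L (nat_lit 400) ln12_11_0 ln12_11_0_ok))) (L (nat_lit 368) ln16_11_1 ln16_11_1_ok))) (M (nat_lit 362) (B (M (nat_lit 330) (B (L (nat_lit 329) ln13_11_3 ln13_11_3_ok) (L (nat_lit 331) ln14_11_3 ln14_11_3_ok))) (L (nat_lit 361) ln9_11_0 ln9_11_0_ok)))))) (B (M (nat_lit 367) (B (L (nat_lit 395) ln15_11_1 ln15_11_1_ok) (L (nat_lit 368) ln16_11_1 ln16_11_1_ok))) (M (nat_lit 394)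 (B (L (nat_lit 395) ln10_12_2 ln10_12_2_ok) (M (nat_lit 302) (B (L (nat_lit 270) ln13_12_6 ln13_12_6_ok) (M (nat_lit 362) (B (M (nat_lit 363) (B (L (nat_lit 361) ln9_11_0 ln9_11_0_ok) (M (nat_lit 330) (B (L (nat_lit 331) ln14_11_3 ln14_11_3_ok) (L (nat_lit 329) ln13_11_3 ln13_11_3_ok))))) (B (M (nat_lit 363) (B (L (nat_lit 398) ln10_11_0 ln10_11_0_ok) (M (nat_lit 330) (B (L (nat_lit 331) ln14_11_3 ln14_11_3_ok) (L (nat_lit 329) ln13_11_3 ln13_11_3_ok))))) (B (M (nat_lit 363) (B (L (nat_lit 393) ln13_11_1 ln13_11_1_ok) (L (nat_lit 398) ln10_11_0 ln10_11_0_ok))) (M (nat_lit 426) (B (M (nat_lit 330) (B (M (nat_lit 459) (B (L (nat_lit 427) ln10_10_4 ln10_10_4_ok) (M (nat_lit 458) (B (L (nat_lit 491) ln10_11_4 ln10_11_4_ok) (M (nat_lit 457) (B (L (nat_lit 489) ln10_11_5 ln10_11_5_ok) (L (nat_lit 425) ln10_10_5 ln10_10_5_ok))))))) (M (nat_lit 299) (B (L (nat_lit 331) ln10_13_6 ln10_13_6_ok) (M (nat_lit 298) (B (L (nat_lit 267) ln10_12_6_c10 ln10_12_6_c10_ok) (M (nat_lit 297) (B (L (nat_lit 329) ln10_13_7_c10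 ln10_13_7_c10_ok) (L (nat_lit 265) ln10_12_7_c10 ln10_12_7_c10_ok))))))))) (B (M (nat_lit 330) (B (M (nat_lit 458) (B (M (nat_lit 459) (B (L (nat_lit 491) ln10_11_4 ln10_11_4_ok) (L (nat_lit 427) ln10_10_4 ln10_10_4_ok))) (M (nat_lit 329) (B (L (nat_lit 361) ln10_14_7 ln10_14_7_ok) (L (nat_lit 297) ln10_13_7_c10 ln10_13_7_c10_ok))))) (M (nat_lit 298) (B (M (nat_lit 425) (B (L (nat_lit 457) ln10_10_5 ln10_10_5_ok) (L (nat_lit 393) ln10_9_5_c10 ln10_9_5_c10_ok))) (M (nat_lit 299) (B (L (nat_lit 331) ln10_13_6 ln10_13_6_ok) (L (nat_lit 267) ln10_12_6_c10 ln10_12_6_c10_ok))))))) (B (M (nat_lit 458) (B (M (nat_lit 491) (B (L (nat_lit 459) ln10_11_4 ln10_11_4_ok) (M (nat_lit 490) (B (L (nat_lit 523) ln10_12_4 ln10_12_4_ok) (M (nat_lit 489) (B (L (nat_lit 457) ln10_11_5 ln10_11_5_ok) (L (nat_lit 521) ln10_12_5 ln10_12_5_ok))))))) (B (M (nat_lit 490) (B (M (nat_lit 361) (B (L (nat_lit 329) ln10_14_7 ln10_14_7_ok) (L (nat_lit 393) ln10_15_7 ln10_15_7_ok))) (M (nat_lit 489) (B (L (nat_lit 457) ln10_11_5 ln10_11_5_ok)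 (L (nat_lit 521) ln10_12_5 ln10_12_5_ok))))) (B (M (nat_lit 490) (B (M (nat_lit 361) (B (L (nat_lit 329) ln10_14_7 ln10_14_7_ok) (L (nat_lit 393) ln10_15_7 ln10_15_7_ok))) (M (nat_lit 491) (B (L (nat_lit 459) ln10_11_4 ln10_11_4_ok) (L (nat_lit 523) ln10_12_4 ln10_12_4_ok))))) (M (nat_lit 330) (B (M (nat_lit 329) (B (L (nat_lit 297) ln10_13_7_c10 ln10_13_7_c10_ok) (L (nat_lit 361) ln10_14_7 ln10_14_7_ok))) (M (nat_lit 459) (B (L (nat_lit 427) ln10_10_4 ln10_10_4_ok) (L (nat_lit 491) ln10_11_4 ln10_11_4_ok))))))))) c10_d338)))))))))))))))))))))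
theorem c10_s407 : Sem (nat_lit 5954262830815946494763249298843757173852324438261567950902348008252711619201165097221184162808274170258209505398083731990017737449713696768) (nat_lit 633165841186404667301192165495663090666088690274556714232141249950316524015800253022819616779656468031120182112360789373839196911729736902555841556218335394877917535730365628416) (nat_lit 633165841186404667301192165495663090666088690274556714232141249950316524015800253022819616779656468031120182112360789373839196911729736902555841556218335394877917535730365628416) :=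
  sem_of_chk (M (nat_lit 333) (B (M (nat_lit 301) (B (M (nat_lit 269) (B (M (nat_lit 270) (B (L (nat_lit 238) ln13_11_6 ln13_11_6_ok) (L (nat_lit 302) ln13_12_6 ln13_12_6_ok))) (M (nat_lit 268) (B (L (nat_lit 236) ln13_11_7 ln13_11_7_ok) (L (nat_lit 300) ln13_12_7 ln13_12_7_ok))))) (B (M (nat_lit 300) (B (L (nat_lit 268) ln13_12_7 ln13_12_7_ok) (L (nat_lit 332) ln13_13_7 ln13_13_7_ok))) (M (nat_lit 269) (B (M (nat_lit 270) (B (L (nat_lit 238) ln13_11_6 ln13_11_6_ok) (L (nat_lit 302) ln13_12_6 ln13_12_6_ok))) (M (nat_lit 364) (B (L (nat_lit 396) ln13_8_5 ln13_8_5_ok) (L (nat_lit 332) ln13_14_7 ln13_14_7_ok)))))))) (B (M (nat_lit 332) (B (L (nat_lit 300) ln13_13_7 ln13_13_7_ok) (L (nat_lit 364) ln13_14_7 ln13_14_7_ok))) (B (K (nat_lit 5954262830815946494763249298843757173869822444059832046297328026069652590123990452668329862299680335109489129391678739375805842865898127360) (nat_lit 13208868489950824085351155109865655222757235114740961173575702960732792310122841894741401239081201356154434743023746995039320289466051472536515905630361652110503262027776)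 (nat_lit 13208868489950824085351155109865655222757235114740961173575702960732792310122841894741401239081201356154434743023746995039320289466051472536515905630361652110503262027776) c10_s404) (B (K (nat_lit 5954262830815946494763249298843757173869822444059832046297328026069652590123990452668329862299680335109489129391678739375805842865898127360) (nat_lit 153440184828491329809043217712881781326067183008522396027866778734845343586575264218608475380209554025417809055813928919894210360187882500363472863232) (nat_lit 153440184828491329809043217712881781326067183008522396027866778734845343586575264218608475380209554025417809055813928919894210360187882500363472863232) c10_s406) (M (nat_lit 462) (B (L (nat_lit 494) ln13_11_4 ln13_11_4_ok) (M (nat_lit 364) (B (L (nat_lit 332) ln13_14_7 ln13_14_7_ok) (M (nat_lit 396) (B (M (nat_lit 301) (B (L (nat_lit 269) ln13_8_5 ln13_8_5_ok) (L (nat_lit 428) ln13_9_5 ln13_9_5_ok))) c10_d339))))))))))) (nat_lit 5954262830815946494763249298843757173852324438261567950902348008252711619201165097221184162808274170258209505398083731990017737449713696768)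 (nat_lit 633165841186404667301192165495663090666088690274556714232141249950316524015800253022819616779656468031120182112360789373839196911729736902555841556218335394877917535730365628416) (nat_lit 633165841186404667301192165495663090666088690274556714232141249950316524015800253022819616779656468031120182112360789373839196911729736902555841556218335394877917535730365628416) (by decide +kernel)
noncomputable def c10_d340 : Cert := (B (M (nat_lit 556) (B (L (nat_lit 528) ln12_17_2_c10 ln12_17_2_c10_ok) (M (nat_lit 591) (B (L (nat_lit 592) ln12_17_0_c10 ln12_17_0_c10_ok) (M (nat_lit 555) (B (L (nat_lit 590) ln11_17_0 ln11_17_0_ok) (M (nat_lit 587) (B (L (nat_lit 588) ln15_17_1_c10 ln15_17_1_c10_ok) (L (nat_lit 586) ln14_17_1 ln14_17_1_ok))))))))) (B (M (nat_lit 591) (B (M (nat_lit 495) (B (L (nat_lit 494) ln15_18_7 ln15_18_7_ok) (M (nat_lit 592) (B (L (nat_lit 624) ln15_15_4_c10 ln15_15_4_c10_ok) (L (nat_lit 556) ln12_17_0_c10 ln12_17_0_c10_ok))))) (B (M (nat_lit 592) (B (L (nat_lit 556) ln12_17_0_c10 ln12_17_0_c10_ok)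 (M (nat_lit 593) (B (L (nat_lit 594) ln18_18_3_c10 ln18_18_3_c10_ok) (L (nat_lit 590) ln17_18_3_c10 ln17_18_3_c10_ok))))) (B (M (nat_lit 592) (B (M (nat_lit 495) (B (L (nat_lit 494) ln15_18_7 ln15_18_7_ok) (L (nat_lit 624) ln15_15_4_c10 ln15_15_4_c10_ok))) (M (nat_lit 593) (B (L (nat_lit 594) ln18_18_3_c10 ln18_18_3_c10_ok) (L (nat_lit 590) ln17_18_3_c10 ln17_18_3_c10_ok))))) (K (nat_lit 8104522598772906494252742342257091767336812374892217769504608969371887559039114758906529464191305758008180816626552982146621377570760393326085538112442280215550221686797473153024) (nat_lit 1378913068022869341736116399168113349725742969566374303587244510708016504568694985303073950834930154944657710611633366736869470147347260573331161747660530099075968507549723137259915273423749333503866437024829600169984) (nat_lit 1378913068022869341736116399168113349725742969566374303587244510708016504568694985303073950834930154944657710611633366736869470147347260573331161747660530099075968507549723137259915273423749333503866437024829600169984)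 c10_s509))))) (B (M (nat_lit 495) (B (M (nat_lit 494) (B (L (nat_lit 591) ln15_18_7 ln15_18_7_ok) (M (nat_lit 460) (B (L (nat_lit 459) ln11_14_0 ln11_14_0_ok) (L (nat_lit 496) ln16_15_3 ln16_15_3_ok))))) (B (M (nat_lit 494) (B (L (nat_lit 591) ln15_18_7 ln15_18_7_ok) (M (nat_lit 496) (B (L (nat_lit 497) ln17_15_3 ln17_15_3_ok) (M (nat_lit 528) (B (L (nat_lit 529) ln13_15_0 ln13_15_0_ok) (L (nat_lit 492) ln12_15_0 ln12_15_0_ok))))))) (B (M (nat_lit 591) (B (L (nat_lit 494) ln15_18_7 ln15_18_7_ok) (M (nat_lit 590) (B (L (nat_lit 622) ln15_15_5_c10 ln15_15_5_c10_ok) (M (nat_lit 592) (B (L (nat_lit 624) ln15_15_4_c10 ln15_15_4_c10_ok) (L (nat_lit 593) ln17_18_3_c10 ln17_18_3_c10_ok))))))) (B (M (nat_lit 591) (B (M (nat_lit 590) (B (L (nat_lit 622) ln15_15_5_c10 ln15_15_5_c10_ok) (M (nat_lit 592) (B (L (nat_lit 624) ln15_15_4_c10 ln15_15_4_c10_ok) (L (nat_lit 593) ln17_18_3_c10 ln17_18_3_c10_ok))))) (B (M (nat_lit 623) (B (M (nat_lit 496) (B (L (nat_lit 464) ln15_18_6_c10 ln15_18_6_c10_ok) (L (nat_lit 528)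 ln15_19_6_c10 ln15_19_6_c10_ok))) (M (nat_lit 622) (B (L (nat_lit 590) ln15_15_5_c10 ln15_15_5_c10_ok) (L (nat_lit 654) ln15_16_5_c10 ln15_16_5_c10_ok))))) (M (nat_lit 623) (B (M (nat_lit 496) (B (L (nat_lit 464) ln15_18_6_c10 ln15_18_6_c10_ok) (L (nat_lit 528) ln15_19_6_c10 ln15_19_6_c10_ok))) (M (nat_lit 624) (B (L (nat_lit 592) ln15_15_4_c10 ln15_15_4_c10_ok) (L (nat_lit 656) ln15_16_4_c10 ln15_16_4_c10_ok)))))))) (M (nat_lit 494) (B (M (nat_lit 460) (B (L (nat_lit 459) ln11_14_0 ln11_14_0_ok) (L (nat_lit 496) ln16_15_3 ln16_15_3_ok))) (B (M (nat_lit 496) (B (L (nat_lit 497) ln17_15_3 ln17_15_3_ok) (M (nat_lit 528) (B (L (nat_lit 529) ln13_15_0 ln13_15_0_ok) (L (nat_lit 492) ln12_15_0 ln12_15_0_ok))))) (M (nat_lit 459) (B (L (nat_lit 460) ln11_14_0 ln11_14_0_ok) (M (nat_lit 492) (B (L (nat_lit 528) ln12_15_0 ln12_15_0_ok) (M (nat_lit 491) (B (L (nat_lit 490) ln10_15_2 ln10_15_2_ok) (L (nat_lit 458) ln14_15_3 ln14_15_3_ok))))))))))))))) (B (M (nat_lit 556) (B (L (nat_lit 528) ln12_17_2_c10 ln12_17_2_c10_ok)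 (M (nat_lit 555) (B (M (nat_lit 587) (B (L (nat_lit 588) ln15_17_1_c10 ln15_17_1_c10_ok) (L (nat_lit 586) ln14_17_1 ln14_17_1_ok))) (M (nat_lit 554) (B (M (nat_lit 522) (B (L (nat_lit 523) ln14_17_3 ln14_17_3_ok) (L (nat_lit 521) ln13_17_3 ln13_17_3_ok))) (M (nat_lit 590) (B (L (nat_lit 591) ln11_17_0 ln11_17_0_ok) (L (nat_lit 589) ln10_17_0 ln10_17_0_ok))))))))) (B (M (nat_lit 556) (B (L (nat_lit 528) ln12_17_2_c10 ln12_17_2_c10_ok) (M (nat_lit 555) (B (M (nat_lit 587) (B (L (nat_lit 588) ln15_17_1_c10 ln15_17_1_c10_ok) (L (nat_lit 586) ln14_17_1 ln14_17_1_ok))) (B (M (nat_lit 554) (B (M (nat_lit 522) (B (L (nat_lit 523) ln14_17_3 ln14_17_3_ok) (L (nat_lit 521) ln13_17_3 ln13_17_3_ok))) (M (nat_lit 586) (B (L (nat_lit 587) ln14_17_1 ln14_17_1_ok) (L (nat_lit 585) ln13_17_1 ln13_17_1_ok))))) (B (M (nat_lit 554) (B (M (nat_lit 522) (B (L (nat_lit 523) ln14_17_3 ln14_17_3_ok) (L (nat_lit 521) ln13_17_3 ln13_17_3_ok))) (M (nat_lit 553) (B (M (nat_lit 589) (B (L (nat_lit 590) ln10_17_0 ln10_17_0_ok) (L (nat_lit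 588) ln9_17_0 ln9_17_0_ok))) (M (nat_lit 585) (B (L (nat_lit 586) ln13_17_1 ln13_17_1_ok) (L (nat_lit 584) ln12_17_1 ln12_17_1_ok))))))) (M (nat_lit 554) (B (M (nat_lit 522) (B (L (nat_lit 523) ln14_17_3 ln14_17_3_ok) (L (nat_lit 521) ln13_17_3 ln13_17_3_ok))) (M (nat_lit 589) (B (L (nat_lit 590) ln10_17_0 ln10_17_0_ok) (M (nat_lit 588) (B (L (nat_lit 587) ln15_17_1_c10 ln15_17_1_c10_ok) (L (nat_lit 553) ln9_17_0 ln9_17_0_ok))))))))))))) (M (nat_lit 591) (B (M (nat_lit 556) (B (L (nat_lit 528) ln12_17_2_c10 ln12_17_2_c10_ok) (L (nat_lit 592) ln12_17_0_c10 ln12_17_0_c10_ok))) (B (M (nat_lit 495) (B (L (nat_lit 494) ln15_18_7 ln15_18_7_ok) (M (nat_lit 592) (B (L (nat_lit 624) ln15_15_4_c10 ln15_15_4_c10_ok) (L (nat_lit 556) ln12_17_0_c10 ln12_17_0_c10_ok))))) (B (M (nat_lit 495) (B (L (nat_lit 494) ln15_18_7 ln15_18_7_ok) (M (nat_lit 623) (B (M (nat_lit 496) (B (L (nat_lit 464) ln15_18_6_c10 ln15_18_6_c10_ok) (L (nat_lit 528) ln15_19_6_c10 ln15_19_6_c10_ok))) (M (nat_lit 624) (B (L (nat_lit 592) ln15_15_4_c10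 ln15_15_4_c10_ok) (L (nat_lit 656) ln15_16_4_c10 ln15_16_4_c10_ok))))))) (M (nat_lit 496) (B (M (nat_lit 495) (B (L (nat_lit 464) ln15_18_6_c10 ln15_18_6_c10_ok) (L (nat_lit 494) ln15_18_7 ln15_18_7_ok))) (M (nat_lit 528) (B (L (nat_lit 623) ln15_19_6_c10 ln15_19_6_c10_ok) (L (nat_lit 556) ln12_17_2_c10 ln12_17_2_c10_ok))))))))))))))
noncomputable def c10_d341 : Cert := (B (M (nat_lit 556) (B (M (nat_lit 588) (B (L (nat_lit 587) ln15_17_1_c10 ln15_17_1_c10_ok) (M (nat_lit 560) (B (L (nat_lit 529) ln13_17_2_c10 ln13_17_2_c10_ok) (L (nat_lit 589) ln16_17_1_c10 ln16_17_1_c10_ok))))) (B (M (nat_lit 555) (B (M (nat_lit 587) (B (L (nat_lit 588) ln15_17_1_c10 ln15_17_1_c10_ok) (L (nat_lit 586) ln14_17_1 ln14_17_1_ok))) (B (M (nat_lit 554) (B (M (nat_lit 522) (B (L (nat_lit 523) ln14_17_3 ln14_17_3_ok) (L (nat_lit 521) ln13_17_3 ln13_17_3_ok))) (M (nat_lit 586) (B (L (nat_lit 587) ln14_17_1 ln14_17_1_ok) (L (nat_lit 585) ln13_17_1 ln13_17_1_ok))))) (M (nat_lit 523) (B (L (nat_lit 522) ln14_17_3 ln14_17_3_ok)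 (M (nat_lit 459) (B (L (nat_lit 460) ln11_17_6 ln11_17_6_ok) (L (nat_lit 588) ln11_14_4 ln11_14_4_ok)))))))) (B (M (nat_lit 555) (B (M (nat_lit 523) (B (L (nat_lit 522) ln14_17_3 ln14_17_3_ok) (M (nat_lit 460) (B (L (nat_lit 459) ln11_17_6 ln11_17_6_ok) (M (nat_lit 587) (B (L (nat_lit 492) ln11_18_6 ln11_18_6_ok) (L (nat_lit 586) ln14_17_1 ln14_17_1_ok))))))) (M (nat_lit 590) (B (L (nat_lit 591) ln11_17_0 ln11_17_0_ok) (M (nat_lit 560) (B (L (nat_lit 529) ln13_17_2_c10 ln13_17_2_c10_ok) (M (nat_lit 589) (B (L (nat_lit 561) ln17_17_1_c10 ln17_17_1_c10_ok) (L (nat_lit 554) ln10_17_0 ln10_17_0_ok))))))))) (K (nat_lit 3538089774148889118255142168367283936457094452508478537896688855711053567923945254662639328769594689302537380131799583918822531686551733237270277188169314698695633010688) (nat_lit 15195979870458409487967767779189351162775269691237585971820891769217299703644768376234381250126389617073241487964537570920023815548798954135426960833347444438695529784481004126208) (nat_lit 15195979870458409487967767779189351162775269691237585971820891769217299703644768376234381250126389617073241487964537570920023815548798954135426960833347444438695529784481004126208)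 c10_s510))))) (B (M (nat_lit 490) (B (L (nat_lit 492) ln10_15_2 ln10_15_2_ok) (M (nat_lit 459) (B (L (nat_lit 460) ln14_14_1 ln14_14_1_ok) (M (nat_lit 522) (B (L (nat_lit 395) ln11_12_5 ln11_12_5_ok) (M (nat_lit 554) (B (L (nat_lit 458) ln10_17_6 ln10_17_6_ok) (L (nat_lit 586) ln10_18_6 ln10_18_6_ok))))))))) (B (M (nat_lit 556) (B (M (nat_lit 588) (B (L (nat_lit 587) ln15_17_1_c10 ln15_17_1_c10_ok) (M (nat_lit 560) (B (L (nat_lit 529) ln13_17_2_c10 ln13_17_2_c10_ok) (L (nat_lit 589) ln16_17_1_c10 ln16_17_1_c10_ok))))) (B (M (nat_lit 588) (B (L (nat_lit 587) ln15_17_1_c10 ln15_17_1_c10_ok) (M (nat_lit 555) (B (M (nat_lit 590) (B (L (nat_lit 591) ln11_17_0 ln11_17_0_ok) (M (nat_lit 589) (B (L (nat_lit 560) ln16_17_1_c10 ln16_17_1_c10_ok) (L (nat_lit 554) ln10_17_0 ln10_17_0_ok))))) (M (nat_lit 459) (B (L (nat_lit 523) ln11_14_4 ln11_14_4_ok) (M (nat_lit 490) (B (L (nat_lit 460) ln14_14_1 ln14_14_1_ok) (L (nat_lit 492) ln10_15_2 ln10_15_2_ok))))))))) (B (M (nat_lit 555) (B (M (nat_lit 587) (B (L (nat_lit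 588) ln15_17_1_c10 ln15_17_1_c10_ok) (L (nat_lit 586) ln14_17_1 ln14_17_1_ok))) (B (M (nat_lit 586) (B (L (nat_lit 587) ln14_17_1 ln14_17_1_ok) (M (nat_lit 554) (B (L (nat_lit 585) ln13_17_1 ln13_17_1_ok) (M (nat_lit 590) (B (L (nat_lit 591) ln11_17_0 ln11_17_0_ok) (L (nat_lit 589) ln10_17_0 ln10_17_0_ok))))))) (B (M (nat_lit 459) (B (M (nat_lit 460) (B (L (nat_lit 523) ln11_17_6 ln11_17_6_ok) (L (nat_lit 490) ln14_14_1 ln14_14_1_ok))) (B (M (nat_lit 554) (B (M (nat_lit 523) (B (L (nat_lit 588) ln11_14_4 ln11_14_4_ok) (L (nat_lit 586) ln11_14_5 ln11_14_5_ok))) (M (nat_lit 590) (B (L (nat_lit 591) ln11_17_0 ln11_17_0_ok) (L (nat_lit 589) ln10_17_0 ln10_17_0_ok))))) (M (nat_lit 490) (B (L (nat_lit 460) ln14_14_1 ln14_14_1_ok) (L (nat_lit 492) ln10_15_2 ln10_15_2_ok)))))) (M (nat_lit 459) (B (M (nat_lit 460) (B (L (nat_lit 523) ln11_17_6 ln11_17_6_ok) (L (nat_lit 490) ln14_14_1 ln14_14_1_ok))) (B (M (nat_lit 588) (B (L (nat_lit 523) ln11_14_4 ln11_14_4_ok) (L (nat_lit 587) ln15_17_1_c10 ln15_17_1_c10_ok)))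 (M (nat_lit 490) (B (L (nat_lit 460) ln14_14_1 ln14_14_1_ok) (L (nat_lit 492) ln10_15_2 ln10_15_2_ok)))))))))) (B (M (nat_lit 587) (B (L (nat_lit 588) ln15_17_1_c10 ln15_17_1_c10_ok) (M (nat_lit 555) (B (L (nat_lit 586) ln14_17_1 ln14_17_1_ok) (M (nat_lit 460) (B (M (nat_lit 459) (B (L (nat_lit 523) ln11_17_6 ln11_17_6_ok) (L (nat_lit 490) ln14_14_1 ln14_14_1_ok))) (B (M (nat_lit 492) (B (L (nat_lit 490) ln10_15_2 ln10_15_2_ok) (L (nat_lit 523) ln11_18_6 ln11_18_6_ok))) (B (M (nat_lit 523) (B (L (nat_lit 459) ln11_17_6 ln11_17_6_ok) (L (nat_lit 492) ln11_18_6 ln11_18_6_ok))) (M (nat_lit 490) (B (L (nat_lit 459) ln14_14_1 ln14_14_1_ok) (L (nat_lit 492) ln10_15_2 ln10_15_2_ok))))))))))) (B (M (nat_lit 555) (B (M (nat_lit 590) (B (L (nat_lit 591) ln11_17_0 ln11_17_0_ok) (M (nat_lit 560) (B (L (nat_lit 529) ln13_17_2_c10 ln13_17_2_c10_ok) (M (nat_lit 589) (B (L (nat_lit 561) ln17_17_1_c10 ln17_17_1_c10_ok) (L (nat_lit 554) ln10_17_0 ln10_17_0_ok))))))) (B (M (nat_lit 586) (B (L (nat_lit 587) ln14_17_1 ln14_17_1_ok)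 (M (nat_lit 554) (B (L (nat_lit 585) ln13_17_1 ln13_17_1_ok) (M (nat_lit 590) (B (L (nat_lit 591) ln11_17_0 ln11_17_0_ok) (L (nat_lit 589) ln10_17_0 ln10_17_0_ok))))))) (M (nat_lit 460) (B (M (nat_lit 459) (B (L (nat_lit 523) ln11_17_6 ln11_17_6_ok) (L (nat_lit 490) ln14_14_1 ln14_14_1_ok))) (B (M (nat_lit 492) (B (L (nat_lit 490) ln10_15_2 ln10_15_2_ok) (M (nat_lit 587) (B (L (nat_lit 523) ln11_18_6 ln11_18_6_ok) (L (nat_lit 586) ln14_17_1 ln14_17_1_ok))))) (B (M (nat_lit 459) (B (L (nat_lit 523) ln11_17_6 ln11_17_6_ok) (M (nat_lit 458) (B (L (nat_lit 457) ln9_14_2 ln9_14_2_ok) (L (nat_lit 494) ln10_14_0 ln10_14_0_ok))))) (M (nat_lit 490) (B (L (nat_lit 459) ln14_14_1 ln14_14_1_ok) (L (nat_lit 492) ln10_15_2 ln10_15_2_ok)))))))))) (M (nat_lit 560) (B (L (nat_lit 529) ln13_17_2_c10 ln13_17_2_c10_ok) (M (nat_lit 589) (B (L (nat_lit 588) ln16_17_1_c10 ln16_17_1_c10_ok) (M (nat_lit 590) (B (L (nat_lit 561) ln17_17_1_c10 ln17_17_1_c10_ok) (M (nat_lit 555) (B (L (nat_lit 591) ln11_17_0 ln11_17_0_ok) (L (nat_lit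 554) ln10_17_0 ln10_17_0_ok))))))))))))))) (M (nat_lit 490) (B (L (nat_lit 492) ln10_15_2 ln10_15_2_ok) (M (nat_lit 459) (B (L (nat_lit 460) ln14_14_1 ln14_14_1_ok) (M (nat_lit 395) (B (L (nat_lit 522) ln11_12_5 ln11_12_5_ok) (M (nat_lit 363) (B (L (nat_lit 458) ln11_11_5 ln11_11_5_ok) (M (nat_lit 362) (B (L (nat_lit 330) ln11_14_7 ln11_14_7_ok) (L (nat_lit 394) ln11_15_7 ln11_15_7_ok))))))))))))))
noncomputable def c10_d342 : Cert := (B (M (nat_lit 556) (B (M (nat_lit 588) (B (L (nat_lit 587) ln15_17_1_c10 ln15_17_1_c10_ok) (M (nat_lit 560) (B (L (nat_lit 529) ln13_17_2_c10 ln13_17_2_c10_ok) (L (nat_lit 589) ln16_17_1_c10 ln16_17_1_c10_ok))))) (B (M (nat_lit 555) (B (M (nat_lit 587) (B (L (nat_lit 588) ln15_17_1_c10 ln15_17_1_c10_ok) (L (nat_lit 586) ln14_17_1 ln14_17_1_ok))) (M (nat_lit 554) (B (M (nat_lit 522) (B (L (nat_lit 523) ln14_17_3 ln14_17_3_ok) (L (nat_lit 521) ln13_17_3 ln13_17_3_ok))) (M (nat_lit 590) (B (L (nat_lit 591) ln11_17_0 ln11_17_0_ok) (L (nat_lit 589) ln10_17_0 ln10_17_0_ok)))))))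 (B (M (nat_lit 490) (B (L (nat_lit 492) ln10_15_2 ln10_15_2_ok) (M (nat_lit 587) (B (L (nat_lit 588) ln15_17_1_c10 ln15_17_1_c10_ok) (M (nat_lit 555) (B (L (nat_lit 586) ln14_17_1 ln14_17_1_ok) (M (nat_lit 523) (B (L (nat_lit 458) ln11_18_7 ln11_18_7_ok) (L (nat_lit 522) ln14_17_3 ln14_17_3_ok))))))))) (B (M (nat_lit 490) (B (L (nat_lit 492) ln10_15_2 ln10_15_2_ok) (M (nat_lit 555) (B (M (nat_lit 523) (B (L (nat_lit 522) ln14_17_3 ln14_17_3_ok) (M (nat_lit 587) (B (L (nat_lit 458) ln11_18_7 ln11_18_7_ok) (L (nat_lit 586) ln14_17_1 ln14_17_1_ok))))) (B (M (nat_lit 554) (B (M (nat_lit 522) (B (L (nat_lit 523) ln14_17_3 ln14_17_3_ok) (L (nat_lit 521) ln13_17_3 ln13_17_3_ok))) (M (nat_lit 586) (B (L (nat_lit 587) ln14_17_1 ln14_17_1_ok) (L (nat_lit 585) ln13_17_1 ln13_17_1_ok))))) (B (M (nat_lit 554) (B (M (nat_lit 590) (B (L (nat_lit 591) ln11_17_0 ln11_17_0_ok) (L (nat_lit 589) ln10_17_0 ln10_17_0_ok))) (M (nat_lit 586) (B (L (nat_lit 587) ln14_17_1 ln14_17_1_ok) (L (nat_lit 585) ln13_17_1 ln13_17_1_ok)))))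 (M (nat_lit 554) (B (M (nat_lit 522) (B (L (nat_lit 523) ln14_17_3 ln14_17_3_ok) (L (nat_lit 521) ln13_17_3 ln13_17_3_ok))) (M (nat_lit 590) (B (L (nat_lit 591) ln11_17_0 ln11_17_0_ok) (L (nat_lit 589) ln10_17_0 ln10_17_0_ok))))))))))) (M (nat_lit 522) (B (M (nat_lit 492) (B (L (nat_lit 490) ln10_15_2 ln10_15_2_ok) (M (nat_lit 523) (B (L (nat_lit 494) ln14_15_1 ln14_15_1_ok) (L (nat_lit 555) ln14_17_3 ln14_17_3_ok))))) (B (M (nat_lit 459) (B (M (nat_lit 490) (B (L (nat_lit 395) ln11_12_5 ln11_12_5_ok) (L (nat_lit 492) ln10_15_2 ln10_15_2_ok))) (M (nat_lit 523) (B (L (nat_lit 554) ln11_13_5 ln11_13_5_ok) (L (nat_lit 555) ln14_17_3 ln14_17_3_ok))))) (B (M (nat_lit 555) (B (L (nat_lit 523) ln14_17_3 ln14_17_3_ok) (M (nat_lit 554) (B (L (nat_lit 521) ln13_17_3 ln13_17_3_ok) (M (nat_lit 590) (B (L (nat_lit 591) ln11_17_0 ln11_17_0_ok) (L (nat_lit 589) ln10_17_0 ln10_17_0_ok))))))) (M (nat_lit 490) (B (L (nat_lit 492) ln10_15_2 ln10_15_2_ok) (M (nat_lit 459) (B (L (nat_lit 395) ln11_12_5 ln11_12_5_ok) (M (nat_lit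 554) (B (L (nat_lit 458) ln10_17_6 ln10_17_6_ok) (L (nat_lit 586) ln10_18_6 ln10_18_6_ok)))))))))))))))) (B (M (nat_lit 556) (B (M (nat_lit 588) (B (L (nat_lit 587) ln15_17_1_c10 ln15_17_1_c10_ok) (M (nat_lit 560) (B (L (nat_lit 529) ln13_17_2_c10 ln13_17_2_c10_ok) (L (nat_lit 589) ln16_17_1_c10 ln16_17_1_c10_ok))))) (B (M (nat_lit 555) (B (M (nat_lit 587) (B (L (nat_lit 588) ln15_17_1_c10 ln15_17_1_c10_ok) (L (nat_lit 586) ln14_17_1 ln14_17_1_ok))) (M (nat_lit 554) (B (M (nat_lit 522) (B (L (nat_lit 523) ln14_17_3 ln14_17_3_ok) (L (nat_lit 521) ln13_17_3 ln13_17_3_ok))) (M (nat_lit 590) (B (L (nat_lit 591) ln11_17_0 ln11_17_0_ok) (L (nat_lit 589) ln10_17_0 ln10_17_0_ok))))))) (B (M (nat_lit 490) (B (L (nat_lit 492) ln10_15_2 ln10_15_2_ok) (M (nat_lit 587) (B (L (nat_lit 588) ln15_17_1_c10 ln15_17_1_c10_ok) (M (nat_lit 555) (B (L (nat_lit 586) ln14_17_1 ln14_17_1_ok) (M (nat_lit 523) (B (L (nat_lit 458) ln11_18_7 ln11_18_7_ok) (L (nat_lit 522) ln14_17_3 ln14_17_3_ok))))))))) (B (M (nat_lit 555) (B (M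 (nat_lit 590) (B (L (nat_lit 591) ln11_17_0 ln11_17_0_ok) (M (nat_lit 560) (B (L (nat_lit 529) ln13_17_2_c10 ln13_17_2_c10_ok) (M (nat_lit 589) (B (L (nat_lit 561) ln17_17_1_c10 ln17_17_1_c10_ok) (L (nat_lit 554) ln10_17_0 ln10_17_0_ok))))))) (B (M (nat_lit 554) (B (M (nat_lit 522) (B (L (nat_lit 523) ln14_17_3 ln14_17_3_ok) (L (nat_lit 521) ln13_17_3 ln13_17_3_ok))) (M (nat_lit 590) (B (L (nat_lit 591) ln11_17_0 ln11_17_0_ok) (L (nat_lit 589) ln10_17_0 ln10_17_0_ok))))) (M (nat_lit 490) (B (L (nat_lit 492) ln10_15_2 ln10_15_2_ok) (M (nat_lit 523) (B (L (nat_lit 522) ln14_17_3 ln14_17_3_ok) (M (nat_lit 587) (B (L (nat_lit 458) ln11_18_7 ln11_18_7_ok) (L (nat_lit 586) ln14_17_1 ln14_17_1_ok)))))))))) (M (nat_lit 560) (B (L (nat_lit 529) ln13_17_2_c10 ln13_17_2_c10_ok) (M (nat_lit 589) (B (L (nat_lit 588) ln16_17_1_c10 ln16_17_1_c10_ok) (M (nat_lit 590) (B (L (nat_lit 561) ln17_17_1_c10 ln17_17_1_c10_ok) (M (nat_lit 555) (B (L (nat_lit 591) ln11_17_0 ln11_17_0_ok) (L (nat_lit 554) ln10_17_0 ln10_17_0_ok))))))))))))))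 (B (M (nat_lit 490) (B (L (nat_lit 492) ln10_15_2 ln10_15_2_ok) (M (nat_lit 459) (B (L (nat_lit 460) ln14_14_1 ln14_14_1_ok) (M (nat_lit 522) (B (L (nat_lit 395) ln11_12_5 ln11_12_5_ok) (M (nat_lit 554) (B (L (nat_lit 523) ln11_13_5 ln11_13_5_ok) (L (nat_lit 586) ln10_18_6 ln10_18_6_ok))))))))) (B (M (nat_lit 556) (B (M (nat_lit 588) (B (L (nat_lit 587) ln15_17_1_c10 ln15_17_1_c10_ok) (M (nat_lit 560) (B (L (nat_lit 529) ln13_17_2_c10 ln13_17_2_c10_ok) (L (nat_lit 589) ln16_17_1_c10 ln16_17_1_c10_ok))))) (B (M (nat_lit 555) (B (M (nat_lit 587) (B (L (nat_lit 588) ln15_17_1_c10 ln15_17_1_c10_ok) (L (nat_lit 586) ln14_17_1 ln14_17_1_ok))) (M (nat_lit 554) (B (M (nat_lit 522) (B (L (nat_lit 523) ln14_17_3 ln14_17_3_ok) (L (nat_lit 521) ln13_17_3 ln13_17_3_ok))) (M (nat_lit 590) (B (L (nat_lit 591) ln11_17_0 ln11_17_0_ok) (L (nat_lit 589) ln10_17_0 ln10_17_0_ok))))))) (B (M (nat_lit 555) (B (M (nat_lit 587) (B (L (nat_lit 588) ln15_17_1_c10 ln15_17_1_c10_ok) (L (nat_lit 586) ln14_17_1 ln14_17_1_ok))) (B (M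 (nat_lit 523) (B (L (nat_lit 522) ln14_17_3 ln14_17_3_ok) (M (nat_lit 459) (B (L (nat_lit 460) ln11_17_6 ln11_17_6_ok) (M (nat_lit 586) (B (L (nat_lit 554) ln11_14_5 ln11_14_5_ok) (L (nat_lit 587) ln14_17_1 ln14_17_1_ok))))))) (M (nat_lit 523) (B (L (nat_lit 522) ln14_17_3 ln14_17_3_ok) (M (nat_lit 459) (B (L (nat_lit 460) ln11_17_6 ln11_17_6_ok) (L (nat_lit 588) ln11_14_4 ln11_14_4_ok)))))))) (B (M (nat_lit 459) (B (M (nat_lit 460) (B (L (nat_lit 490) ln14_14_1 ln14_14_1_ok) (M (nat_lit 458) (B (L (nat_lit 457) ln9_14_2 ln9_14_2_ok) (L (nat_lit 494) ln10_14_0 ln10_14_0_ok))))) (B (M (nat_lit 554) (B (M (nat_lit 522) (B (L (nat_lit 523) ln11_13_5 ln11_13_5_ok) (M (nat_lit 490) (B (L (nat_lit 395) ln11_12_5 ln11_12_5_ok) (L (nat_lit 458) ln10_17_6 ln10_17_6_ok))))) (B (M (nat_lit 522) (B (L (nat_lit 523) ln11_13_5 ln11_13_5_ok) (M (nat_lit 490) (B (L (nat_lit 458) ln10_17_6 ln10_17_6_ok) (L (nat_lit 586) ln10_18_6 ln10_18_6_ok))))) (B (M (nat_lit 522) (B (L (nat_lit 523) ln11_13_5 ln11_13_5_ok) (M (nat_lit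 490) (B (L (nat_lit 395) ln11_12_5 ln11_12_5_ok) (L (nat_lit 586) ln10_18_6 ln10_18_6_ok))))) (B (M (nat_lit 555) (B (M (nat_lit 523) (B (L (nat_lit 522) ln11_13_5 ln11_13_5_ok) (L (nat_lit 586) ln11_14_5 ln11_14_5_ok))) (M (nat_lit 590) (B (L (nat_lit 591) ln11_17_0 ln11_17_0_ok) (L (nat_lit 589) ln10_17_0 ln10_17_0_ok))))) (M (nat_lit 555) (B (M (nat_lit 590) (B (L (nat_lit 591) ln11_17_0 ln11_17_0_ok) (L (nat_lit 589) ln10_17_0 ln10_17_0_ok))) (M (nat_lit 586) (B (L (nat_lit 587) ln14_17_1 ln14_17_1_ok) (L (nat_lit 585) ln13_17_1 ln13_17_1_ok)))))))))) (B (M (nat_lit 522) (B (M (nat_lit 490) (B (L (nat_lit 395) ln11_12_5 ln11_12_5_ok) (L (nat_lit 460) ln14_14_1 ln14_14_1_ok))) (M (nat_lit 523) (B (L (nat_lit 554) ln11_13_5 ln11_13_5_ok) (L (nat_lit 555) ln14_17_3 ln14_17_3_ok))))) (M (nat_lit 555) (B (M (nat_lit 523) (B (L (nat_lit 460) ln11_17_6 ln11_17_6_ok) (L (nat_lit 522) ln14_17_3 ln14_17_3_ok))) (B (M (nat_lit 523) (B (L (nat_lit 522) ln14_17_3 ln14_17_3_ok) (M (nat_lit 586) (B (L (nat_lit 554)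 ln11_14_5 ln11_14_5_ok) (L (nat_lit 587) ln14_17_1 ln14_17_1_ok))))) (M (nat_lit 554) (B (M (nat_lit 590) (B (L (nat_lit 591) ln11_17_0 ln11_17_0_ok) (L (nat_lit 589) ln10_17_0 ln10_17_0_ok))) (M (nat_lit 586) (B (L (nat_lit 587) ln14_17_1 ln14_17_1_ok) (L (nat_lit 585) ln13_17_1 ln13_17_1_ok)))))))))))) (K (nat_lit 3538089774148889118255142168367283936457094452508478537896688855711053567923945254662639328769594689302537380131799583918822531686551733237270277188169314698695633010688) (nat_lit 15195979870458409487967767779189351162775269691237585971820891769217299703644768376234381250126389617073241487964537570920023815548798954135426960833347444438695529784481004126208) (nat_lit 15195979870458409487967767779189351162775269691237585971820891769217299703644768376234381250126389617073241487964537570920023815548798954135426960833347444438695529784481004126208) c10_s510)))))) c10_d341))))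
noncomputable def c10_d343 : Cert := (B (M (nat_lit 528) (B (M (nat_lit 529) (B (L (nat_lit 560) ln13_17_2_c10 ln13_17_2_c10_ok) (M (nat_lit 527) (B (L (nat_lit 530) ln18_16_1_c10 ln18_16_1_c10_ok) (L (nat_lit 556) ln12_17_2_c10 ln12_17_2_c10_ok))))) (B (M (nat_lit 588) (B (M (nat_lit 560) (B (L (nat_lit 529) ln13_17_2_c10 ln13_17_2_c10_ok) (L (nat_lit 589) ln16_17_1_c10 ln16_17_1_c10_ok))) (M (nat_lit 556) (B (L (nat_lit 527) ln12_17_2_c10 ln12_17_2_c10_ok) (L (nat_lit 587) ln15_17_1_c10 ln15_17_1_c10_ok))))) (B (M (nat_lit 556) (B (L (nat_lit 527) ln12_17_2_c10 ln12_17_2_c10_ok) (M (nat_lit 555) (B (M (nat_lit 587) (B (L (nat_lit 588) ln15_17_1_c10 ln15_17_1_c10_ok) (L (nat_lit 586) ln14_17_1 ln14_17_1_ok))) (M (nat_lit 554) (B (M (nat_lit 522) (B (L (nat_lit 523) ln14_17_3 ln14_17_3_ok) (L (nat_lit 521) ln13_17_3 ln13_17_3_ok))) (M (nat_lit 590) (B (L (nat_lit 591) ln11_17_0 ln11_17_0_ok) (L (nat_lit 589) ln10_17_0 ln10_17_0_ok))))))))) (B (M (nat_lit 491) (B (M (nat_lit 490) (B (L (nat_lit 492) ln10_15_2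 ln10_15_2_ok) (M (nat_lit 459) (B (L (nat_lit 460) ln14_14_1 ln14_14_1_ok) (M (nat_lit 522) (B (L (nat_lit 395) ln11_12_5 ln11_12_5_ok) (M (nat_lit 554) (B (L (nat_lit 458) ln10_17_6 ln10_17_6_ok) (L (nat_lit 523) ln11_13_5 ln11_13_5_ok))))))))) (B (M (nat_lit 459) (B (M (nat_lit 490) (B (L (nat_lit 460) ln14_14_1 ln14_14_1_ok) (L (nat_lit 492) ln10_15_2 ln10_15_2_ok))) (B (M (nat_lit 523) (B (M (nat_lit 522) (B (L (nat_lit 554) ln11_13_5 ln11_13_5_ok) (M (nat_lit 492) (B (L (nat_lit 490) ln10_15_2 ln10_15_2_ok) (L (nat_lit 494) ln14_15_1 ln14_15_1_ok))))) (M (nat_lit 588) (B (M (nat_lit 560) (B (L (nat_lit 529) ln13_17_2_c10 ln13_17_2_c10_ok) (L (nat_lit 589) ln16_17_1_c10 ln16_17_1_c10_ok))) (M (nat_lit 556) (B (L (nat_lit 555) ln11_14_4 ln11_14_4_ok) (L (nat_lit 587) ln15_17_1_c10 ln15_17_1_c10_ok))))))) (B (M (nat_lit 460) (B (L (nat_lit 490) ln14_14_1 ln14_14_1_ok) (M (nat_lit 458) (B (L (nat_lit 457) ln9_14_2 ln9_14_2_ok) (L (nat_lit 494) ln10_14_0 ln10_14_0_ok))))) (M (nat_lit 523) (B (M (nat_lit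 460) (B (L (nat_lit 555) ln11_17_6 ln11_17_6_ok) (M (nat_lit 458) (B (L (nat_lit 457) ln9_14_2 ln9_14_2_ok) (L (nat_lit 494) ln10_14_0 ln10_14_0_ok))))) (B (M (nat_lit 588) (B (M (nat_lit 560) (B (L (nat_lit 529) ln13_17_2_c10 ln13_17_2_c10_ok) (L (nat_lit 589) ln16_17_1_c10 ln16_17_1_c10_ok))) (M (nat_lit 556) (B (L (nat_lit 555) ln11_14_4 ln11_14_4_ok) (L (nat_lit 587) ln15_17_1_c10 ln15_17_1_c10_ok))))) (M (nat_lit 494) (B (M (nat_lit 460) (B (L (nat_lit 495) ln11_14_0 ln11_14_0_ok) (L (nat_lit 458) ln10_14_0 ln10_14_0_ok))) (B (M (nat_lit 492) (B (L (nat_lit 458) ln14_15_3 ln14_15_3_ok) (L (nat_lit 522) ln14_15_1 ln14_15_1_ok))) (M (nat_lit 522) (B (L (nat_lit 554) ln11_13_5 ln11_13_5_ok) (L (nat_lit 492) ln14_15_1 ln14_15_1_ok))))))))))))) c10_d342))) (M (nat_lit 560) (B (L (nat_lit 529) ln13_17_2_c10 ln13_17_2_c10_ok) (M (nat_lit 561) (B (M (nat_lit 589) (B (L (nat_lit 590) ln17_17_1_c10 ln17_17_1_c10_ok) (L (nat_lit 588) ln16_17_1_c10 ln16_17_1_c10_ok))) (M (nat_lit 562) (B (M (nat_lit 594) (B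 (L (nat_lit 595) ln15_17_0_c10 ln15_17_0_c10_ok) (L (nat_lit 593) ln14_17_0_c10 ln14_17_0_c10_ok))) (M (nat_lit 531) (B (L (nat_lit 530) ln15_17_2_c10 ln15_17_2_c10_ok) (M (nat_lit 563) (B (L (nat_lit 532) ln16_17_2_c10 ln16_17_2_c10_ok) (L (nat_lit 527) ln19_17_3_c10 ln19_17_3_c10_ok)))))))))))))))) (B (K (nat_lit 3302217121718848683236933622506786676402499033295346888110659740547032874081726870479043672453200502336523036756208884197541994763493178470081579685254113166397536206848) (nat_lit 121061306281401182428268466113493895631535009952819570432520278891942295554865275005733186775824268623042588658865715026020910080013563167390016537546981223141561048770314791550976) (nat_lit 121061306281401182428268466113493895631535009952819570432520278891942295554865275005733186775824268623042588658865715026020910080013563167390016537546981223141561048770314791550976) c10_s511) (B (M (nat_lit 560) (B (M (nat_lit 556) (B (M (nat_lit 592) (B (L (nat_lit 593) ln13_17_0_c10 ln13_17_0_c10_ok) (L (nat_lit 591) ln12_17_0_c10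 ln12_17_0_c10_ok))) (M (nat_lit 588) (B (L (nat_lit 589) ln16_17_1_c10 ln16_17_1_c10_ok) (L (nat_lit 587) ln15_17_1_c10 ln15_17_1_c10_ok))))) (B (M (nat_lit 593) (B (L (nat_lit 592) ln13_17_0_c10 ln13_17_0_c10_ok) (M (nat_lit 561) (B (L (nat_lit 594) ln14_17_0_c10 ln14_17_0_c10_ok) (M (nat_lit 529) (B (L (nat_lit 530) ln14_17_2_c10 ln14_17_2_c10_ok) (L (nat_lit 528) ln13_17_2_c10 ln13_17_2_c10_ok))))))) (M (nat_lit 556) (B (M (nat_lit 528) (B (L (nat_lit 529) ln13_17_2_c10 ln13_17_2_c10_ok) (L (nat_lit 527) ln12_17_2_c10 ln12_17_2_c10_ok))) (M (nat_lit 588) (B (L (nat_lit 589) ln16_17_1_c10 ln16_17_1_c10_ok) (L (nat_lit 587) ln15_17_1_c10 ln15_17_1_c10_ok)))))))) (M (nat_lit 591) (B (M (nat_lit 592) (B (L (nat_lit 556) ln12_17_0_c10 ln12_17_0_c10_ok) (M (nat_lit 593) (B (L (nat_lit 560) ln13_17_0_c10 ln13_17_0_c10_ok) (L (nat_lit 594) ln18_18_3_c10 ln18_18_3_c10_ok))))) (B (M (nat_lit 592) (B (L (nat_lit 556) ln12_17_0_c10 ln12_17_0_c10_ok) (M (nat_lit 593) (B (L (nat_lit 594) ln18_18_3_c10 ln18_18_3_c10_ok)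 (L (nat_lit 590) ln17_18_3_c10 ln17_18_3_c10_ok))))) (B (M (nat_lit 527) (B (M (nat_lit 495) (B (L (nat_lit 494) ln15_18_7 ln15_18_7_ok) (M (nat_lit 592) (B (L (nat_lit 624) ln15_15_4_c10 ln15_15_4_c10_ok) (M (nat_lit 593) (B (L (nat_lit 560) ln13_17_0_c10 ln13_17_0_c10_ok) (L (nat_lit 594) ln18_18_3_c10 ln18_18_3_c10_ok))))))) (B (M (nat_lit 623) (B (M (nat_lit 528) (B (L (nat_lit 496) ln15_19_6_c10 ln15_19_6_c10_ok) (M (nat_lit 529) (B (L (nat_lit 530) ln18_16_1_c10 ln18_16_1_c10_ok) (L (nat_lit 560) ln13_17_2_c10 ln13_17_2_c10_ok))))) (M (nat_lit 655) (B (M (nat_lit 656) (B (L (nat_lit 624) ln15_16_4_c10 ln15_16_4_c10_ok) (L (nat_lit 688) ln15_17_4_c10 ln15_17_4_c10_ok))) (M (nat_lit 654) (B (L (nat_lit 622) ln15_16_5_c10 ln15_16_5_c10_ok) (L (nat_lit 686) ln15_17_5_c10 ln15_17_5_c10_ok))))))) (B (M (nat_lit 592) (B (M (nat_lit 495) (B (L (nat_lit 494) ln15_18_7 ln15_18_7_ok) (L (nat_lit 624) ln15_15_4_c10 ln15_15_4_c10_ok))) (M (nat_lit 593) (B (L (nat_lit 594) ln18_18_3_c10 ln18_18_3_c10_ok) (L (nat_lit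 590) ln17_18_3_c10 ln17_18_3_c10_ok))))) (M (nat_lit 495) (B (L (nat_lit 494) ln15_18_7 ln15_18_7_ok) (M (nat_lit 528) (B (M (nat_lit 496) (B (L (nat_lit 464) ln15_18_6_c10 ln15_18_6_c10_ok) (L (nat_lit 623) ln15_19_6_c10 ln15_19_6_c10_ok))) (M (nat_lit 529) (B (L (nat_lit 530) ln18_16_1_c10 ln18_16_1_c10_ok) (L (nat_lit 560) ln13_17_2_c10 ln13_17_2_c10_ok))))))))))) (B (M (nat_lit 592) (B (L (nat_lit 556) ln12_17_0_c10 ln12_17_0_c10_ok) (M (nat_lit 593) (B (L (nat_lit 560) ln13_17_0_c10 ln13_17_0_c10_ok) (L (nat_lit 590) ln17_18_3_c10 ln17_18_3_c10_ok))))) (B (M (nat_lit 556) (B (L (nat_lit 592) ln12_17_0_c10 ln12_17_0_c10_ok) (M (nat_lit 590) (B (L (nat_lit 555) ln11_17_0 ln11_17_0_ok) (M (nat_lit 527) (B (L (nat_lit 528) ln12_17_2_c10 ln12_17_2_c10_ok) (M (nat_lit 495) (B (L (nat_lit 494) ln15_18_7 ln15_18_7_ok) (L (nat_lit 622) ln15_15_5_c10 ln15_15_5_c10_ok))))))))) (M (nat_lit 527) (B (M (nat_lit 528) (B (L (nat_lit 556) ln12_17_2_c10 ln12_17_2_c10_ok) (M (nat_lit 529) (B (L (nat_lit 530) ln18_16_1_c10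 ln18_16_1_c10_ok) (L (nat_lit 560) ln13_17_2_c10 ln13_17_2_c10_ok))))) (B (M (nat_lit 623) (B (M (nat_lit 622) (B (L (nat_lit 654) ln15_16_5_c10 ln15_16_5_c10_ok) (M (nat_lit 495) (B (L (nat_lit 494) ln15_18_7 ln15_18_7_ok) (L (nat_lit 590) ln15_15_5_c10 ln15_15_5_c10_ok))))) (M (nat_lit 528) (B (L (nat_lit 556) ln12_17_2_c10 ln12_17_2_c10_ok) (M (nat_lit 560) (B (L (nat_lit 529) ln13_17_2_c10 ln13_17_2_c10_ok) (L (nat_lit 655) ln15_20_6_c10 ln15_20_6_c10_ok))))))) (B (M (nat_lit 623) (B (M (nat_lit 622) (B (L (nat_lit 654) ln15_16_5_c10 ln15_16_5_c10_ok) (M (nat_lit 495) (B (L (nat_lit 494) ln15_18_7 ln15_18_7_ok) (L (nat_lit 590) ln15_15_5_c10 ln15_15_5_c10_ok))))) (M (nat_lit 655) (B (M (nat_lit 528) (B (L (nat_lit 556) ln12_17_2_c10 ln12_17_2_c10_ok) (L (nat_lit 560) ln15_20_6_c10 ln15_20_6_c10_ok))) (M (nat_lit 656) (B (L (nat_lit 624) ln15_16_4_c10 ln15_16_4_c10_ok) (L (nat_lit 688) ln15_17_4_c10 ln15_17_4_c10_ok))))))) (K (nat_lit 8104522598772906494252742342257091767336812374892217769504608969371887559039114758906529464191305758008180816626552982146621377570760393326085538112442280215550221686797473153024)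 (nat_lit 1378913068022869341736116399168113349725742969566374303587244510708016504568694985303073950834930154944657710611633366736869470147347260573331161747660530099075968507549723137259915273423749333503866437024829600169984) (nat_lit 1378913068022869341736116399168113349725742969566374303587244510708016504568694985303073950834930154944657710611633366736869470147347260573331161747660530099075968507549723137259915273423749333503866437024829600169984) c10_s509))))))))))))))
noncomputable def c10_d344 : Cert := (B (M (nat_lit 556) (B (M (nat_lit 560) (B (M (nat_lit 592) (B (L (nat_lit 593) ln13_17_0_c10 ln13_17_0_c10_ok) (L (nat_lit 591) ln12_17_0_c10 ln12_17_0_c10_ok))) (M (nat_lit 588) (B (L (nat_lit 589) ln16_17_1_c10 ln16_17_1_c10_ok) (L (nat_lit 587) ln15_17_1_c10 ln15_17_1_c10_ok))))) (B (M (nat_lit 555) (B (M (nat_lit 591) (B (L (nat_lit 592) ln12_17_0_c10 ln12_17_0_c10_ok) (L (nat_lit 590) ln11_17_0 ln11_17_0_ok))) (M (nat_lit 587) (B (L (nat_lit 588) ln15_17_1_c10 ln15_17_1_c10_ok) (L (nat_lit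 586) ln14_17_1 ln14_17_1_ok))))) (B (M (nat_lit 555) (B (M (nat_lit 587) (B (L (nat_lit 588) ln15_17_1_c10 ln15_17_1_c10_ok) (L (nat_lit 586) ln14_17_1 ln14_17_1_ok))) (M (nat_lit 554) (B (M (nat_lit 522) (B (L (nat_lit 523) ln14_17_3 ln14_17_3_ok) (L (nat_lit 521) ln13_17_3 ln13_17_3_ok))) (M (nat_lit 590) (B (L (nat_lit 591) ln11_17_0 ln11_17_0_ok) (L (nat_lit 589) ln10_17_0 ln10_17_0_ok))))))) (B (K (nat_lit 3538089773270195017752030783818553482084806609571374414884172634312384384231236173734426592776804175307864810195631624503777656302863478009616669325968656669125623414784) (nat_lit 7977889433896810845632592296572918626914134948091199210446868498736526113192359885432994127349826032010132388393599199205217447394065721511846827424619320218064007849002716364800) (nat_lit 7977889433896810845632592296572918626914134948091199210446868498736526113192359885432994127349826032010132388393599199205217447394065721511846827424619320218064007849002716364800) c10_s508) (B (M (nat_lit 555) (B (M (nat_lit 591) (B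 (L (nat_lit 592) ln12_17_0_c10 ln12_17_0_c10_ok) (L (nat_lit 590) ln11_17_0 ln11_17_0_ok))) (M (nat_lit 554) (B (M (nat_lit 522) (B (L (nat_lit 523) ln14_17_3 ln14_17_3_ok) (L (nat_lit 521) ln13_17_3 ln13_17_3_ok))) (M (nat_lit 586) (B (L (nat_lit 587) ln14_17_1 ln14_17_1_ok) (L (nat_lit 585) ln13_17_1 ln13_17_1_ok))))))) (M (nat_lit 560) (B (M (nat_lit 592) (B (L (nat_lit 593) ln13_17_0_c10 ln13_17_0_c10_ok) (L (nat_lit 591) ln12_17_0_c10 ln12_17_0_c10_ok))) (B (M (nat_lit 590) (B (M (nat_lit 589) (B (L (nat_lit 561) ln17_17_1_c10 ln17_17_1_c10_ok) (L (nat_lit 588) ln16_17_1_c10 ln16_17_1_c10_ok))) (M (nat_lit 591) (B (L (nat_lit 592) ln12_17_0_c10 ln12_17_0_c10_ok) (L (nat_lit 555) ln11_17_0 ln11_17_0_ok))))) (M (nat_lit 561) (B (M (nat_lit 589) (B (L (nat_lit 590) ln17_17_1_c10 ln17_17_1_c10_ok) (L (nat_lit 588) ln16_17_1_c10 ln16_17_1_c10_ok))) (M (nat_lit 562) (B (M (nat_lit 530) (B (L (nat_lit 531) ln15_17_2_c10 ln15_17_2_c10_ok) (L (nat_lit 529) ln14_17_2_c10 ln14_17_2_c10_ok))) (M (nat_lit 594)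 (B (L (nat_lit 595) ln15_17_0_c10 ln15_17_0_c10_ok) (L (nat_lit 593) ln14_17_0_c10 ln14_17_0_c10_ok)))))))))))))))) (B (M (nat_lit 527) c10_d340) (B (M (nat_lit 560) (B (M (nat_lit 593) (B (L (nat_lit 592) ln13_17_0_c10 ln13_17_0_c10_ok) (M (nat_lit 561) (B (L (nat_lit 594) ln14_17_0_c10 ln14_17_0_c10_ok) (M (nat_lit 529) (B (L (nat_lit 530) ln14_17_2_c10 ln14_17_2_c10_ok) (L (nat_lit 528) ln13_17_2_c10 ln13_17_2_c10_ok))))))) (B (M (nat_lit 561) (B (M (nat_lit 593) (B (L (nat_lit 594) ln14_17_0_c10 ln14_17_0_c10_ok) (L (nat_lit 592) ln13_17_0_c10 ln13_17_0_c10_ok))) (M (nat_lit 589) (B (L (nat_lit 590) ln17_17_1_c10 ln17_17_1_c10_ok) (L (nat_lit 588) ln16_17_1_c10 ln16_17_1_c10_ok))))) (B (M (nat_lit 592) (B (L (nat_lit 593) ln13_17_0_c10 ln13_17_0_c10_ok) (M (nat_lit 624) (B (M (nat_lit 656) (B (L (nat_lit 527) ln16_20_7_c10 ln16_20_7_c10_ok) (M (nat_lit 688) (B (L (nat_lit 591) ln16_21_7_c10 ln16_21_7_c10_ok) (M (nat_lit 689) (B (L (nat_lit 657) ln16_17_4_c10 ln16_17_4_c10_ok) (L (nat_lit 721) ln16_18_4_c10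 ln16_18_4_c10_ok))))))) (B (M (nat_lit 656) (B (M (nat_lit 528) (B (L (nat_lit 529) ln13_17_2_c10 ln13_17_2_c10_ok) (M (nat_lit 657) (B (L (nat_lit 625) ln16_16_4_c10 ln16_16_4_c10_ok) (L (nat_lit 689) ln16_17_4_c10 ln16_17_4_c10_ok))))) (B (M (nat_lit 688) (B (L (nat_lit 591) ln16_21_7_c10 ln16_21_7_c10_ok) (M (nat_lit 689) (B (L (nat_lit 657) ln16_17_4_c10 ln16_17_4_c10_ok) (L (nat_lit 721) ln16_18_4_c10 ln16_18_4_c10_ok))))) (M (nat_lit 528) (B (L (nat_lit 529) ln13_17_2_c10 ln13_17_2_c10_ok) (M (nat_lit 655) (B (L (nat_lit 623) ln16_16_5_c10 ln16_16_5_c10_ok) (L (nat_lit 687) ln16_17_5_c10 ln16_17_5_c10_ok)))))))) (B (M (nat_lit 656) (B (L (nat_lit 527) ln16_20_7_c10 ln16_20_7_c10_ok) (M (nat_lit 528) (B (L (nat_lit 529) ln13_17_2_c10 ln13_17_2_c10_ok) (M (nat_lit 655) (B (L (nat_lit 623) ln16_16_5_c10 ln16_16_5_c10_ok) (L (nat_lit 687) ln16_17_5_c10 ln16_17_5_c10_ok))))))) (M (nat_lit 528) (B (L (nat_lit 529) ln13_17_2_c10 ln13_17_2_c10_ok) (M (nat_lit 591) (B (M (nat_lit 623) (B (L (nat_lit 496)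 ln16_15_5_c10 ln16_15_5_c10_ok) (L (nat_lit 655) ln16_16_5_c10 ln16_16_5_c10_ok))) (M (nat_lit 589) (B (L (nat_lit 588) ln16_17_1_c10 ln16_17_1_c10_ok) (M (nat_lit 625) (B (L (nat_lit 657) ln16_16_4_c10 ln16_16_4_c10_ok) (L (nat_lit 590) ln13_18_0_c10 ln13_18_0_c10_ok))))))))))))))) (M (nat_lit 561) (B (M (nat_lit 529) (B (L (nat_lit 530) ln14_17_2_c10 ln14_17_2_c10_ok) (L (nat_lit 528) ln13_17_2_c10 ln13_17_2_c10_ok))) (M (nat_lit 589) (B (L (nat_lit 590) ln17_17_1_c10 ln17_17_1_c10_ok) (L (nat_lit 588) ln16_17_1_c10 ln16_17_1_c10_ok))))))))) (B (M (nat_lit 556) (B (M (nat_lit 560) (B (M (nat_lit 528) (B (L (nat_lit 529) ln13_17_2_c10 ln13_17_2_c10_ok) (L (nat_lit 527) ln12_17_2_c10 ln12_17_2_c10_ok))) (M (nat_lit 588) (B (L (nat_lit 589) ln16_17_1_c10 ln16_17_1_c10_ok) (L (nat_lit 587) ln15_17_1_c10 ln15_17_1_c10_ok))))) (B (M (nat_lit 555) (B (M (nat_lit 591) (B (L (nat_lit 592) ln12_17_0_c10 ln12_17_0_c10_ok) (L (nat_lit 590) ln11_17_0 ln11_17_0_ok))) (M (nat_lit 587) (B (L (nat_lit 588) ln15_17_1_c10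 ln15_17_1_c10_ok) (L (nat_lit 586) ln14_17_1 ln14_17_1_ok))))) (B (M (nat_lit 555) (B (M (nat_lit 591) (B (L (nat_lit 592) ln12_17_0_c10 ln12_17_0_c10_ok) (L (nat_lit 590) ln11_17_0 ln11_17_0_ok))) (M (nat_lit 554) (B (M (nat_lit 522) (B (L (nat_lit 523) ln14_17_3 ln14_17_3_ok) (L (nat_lit 521) ln13_17_3 ln13_17_3_ok))) (M (nat_lit 586) (B (L (nat_lit 587) ln14_17_1 ln14_17_1_ok) (L (nat_lit 585) ln13_17_1 ln13_17_1_ok))))))) (M (nat_lit 560) (B (M (nat_lit 528) (B (L (nat_lit 529) ln13_17_2_c10 ln13_17_2_c10_ok) (L (nat_lit 527) ln12_17_2_c10 ln12_17_2_c10_ok))) (M (nat_lit 590) (B (M (nat_lit 589) (B (L (nat_lit 561) ln17_17_1_c10 ln17_17_1_c10_ok) (L (nat_lit 588) ln16_17_1_c10 ln16_17_1_c10_ok))) (M (nat_lit 591) (B (L (nat_lit 592) ln12_17_0_c10 ln12_17_0_c10_ok) (L (nat_lit 555) ln11_17_0 ln11_17_0_ok))))))))))) c10_d343))))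
noncomputable def c10_d345 : Cert := (B (M (nat_lit 527) (B (M (nat_lit 528) (B (L (nat_lit 556) ln12_17_2_c10 ln12_17_2_c10_ok) (M (nat_lit 529) (B (L (nat_lit 530) ln18_16_1_c10 ln18_16_1_c10_ok) (L (nat_lit 526) ln17_16_1 ln17_16_1_ok))))) (B (M (nat_lit 556) (B (L (nat_lit 528) ln12_17_2_c10 ln12_17_2_c10_ok) (M (nat_lit 591) (B (L (nat_lit 592) ln12_17_0_c10 ln12_17_0_c10_ok) (M (nat_lit 555) (B (L (nat_lit 526) ln11_17_2 ln11_17_2_ok) (L (nat_lit 590) ln11_17_0 ln11_17_0_ok))))))) (B (M (nat_lit 591) (B (M (nat_lit 556) (B (L (nat_lit 592) ln12_17_0_c10 ln12_17_0_c10_ok) (M (nat_lit 555) (B (L (nat_lit 526) ln11_17_2 ln11_17_2_ok) (L (nat_lit 590) ln11_17_0 ln11_17_0_ok))))) (B (M (nat_lit 590) (B (M (nat_lit 463) (B (L (nat_lit 464) ln16_14_3 ln16_14_3_ok) (L (nat_lit 495) ln15_14_5_c10 ln15_14_5_c10_ok))) (M (nat_lit 592) (B (L (nat_lit 556) ln12_17_0_c10 ln12_17_0_c10_ok) (L (nat_lit 593) ln17_18_3_c10 ln17_18_3_c10_ok))))) (B (M (nat_lit 495) (B (M (nat_lit 464) (B (L (nat_lit 463) ln16_14_3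 ln16_14_3_ok) (L (nat_lit 496) ln15_18_6_c10 ln15_18_6_c10_ok))) (B (M (nat_lit 590) (B (L (nat_lit 463) ln15_14_5_c10 ln15_14_5_c10_ok) (L (nat_lit 622) ln15_15_5_c10 ln15_15_5_c10_ok))) (M (nat_lit 590) (B (L (nat_lit 622) ln15_15_5_c10 ln15_15_5_c10_ok) (M (nat_lit 592) (B (L (nat_lit 624) ln15_15_4_c10 ln15_15_4_c10_ok) (L (nat_lit 593) ln17_18_3_c10 ln17_18_3_c10_ok)))))))) (B (M (nat_lit 623) (B (M (nat_lit 656) (B (L (nat_lit 624) ln15_16_4_c10 ln15_16_4_c10_ok) (M (nat_lit 655) (B (L (nat_lit 526) ln15_20_7_c10 ln15_20_7_c10_ok) (L (nat_lit 688) ln15_17_4_c10 ln15_17_4_c10_ok))))) (M (nat_lit 495) (B (M (nat_lit 464) (B (L (nat_lit 463) ln16_14_3 ln16_14_3_ok) (L (nat_lit 496) ln15_18_6_c10 ln15_18_6_c10_ok))) (B (M (nat_lit 590) (B (L (nat_lit 463) ln15_14_5_c10 ln15_14_5_c10_ok) (L (nat_lit 622) ln15_15_5_c10 ln15_15_5_c10_ok))) (M (nat_lit 622) (B (L (nat_lit 590) ln15_15_5_c10 ln15_15_5_c10_ok) (L (nat_lit 654) ln15_16_5_c10 ln15_16_5_c10_ok)))))))) (M (nat_lit 495) (B (M (nat_lit 464) (B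 (L (nat_lit 463) ln16_14_3 ln16_14_3_ok) (L (nat_lit 496) ln15_18_6_c10 ln15_18_6_c10_ok))) (M (nat_lit 592) (B (L (nat_lit 624) ln15_15_4_c10 ln15_15_4_c10_ok) (L (nat_lit 556) ln12_17_0_c10 ln12_17_0_c10_ok)))))))))) (B (M (nat_lit 556) (B (L (nat_lit 528) ln12_17_2_c10 ln12_17_2_c10_ok) (M (nat_lit 591) (B (L (nat_lit 592) ln12_17_0_c10 ln12_17_0_c10_ok) (M (nat_lit 555) (B (L (nat_lit 590) ln11_17_0 ln11_17_0_ok) (M (nat_lit 587) (B (L (nat_lit 588) ln15_17_1_c10 ln15_17_1_c10_ok) (L (nat_lit 586) ln14_17_1 ln14_17_1_ok))))))))) (M (nat_lit 591) (B (M (nat_lit 464) (B (L (nat_lit 463) ln16_14_3 ln16_14_3_ok) (M (nat_lit 496) (B (L (nat_lit 495) ln15_18_6_c10 ln15_18_6_c10_ok) (M (nat_lit 528) (B (L (nat_lit 432) ln16_13_5_c10 ln16_13_5_c10_ok) (L (nat_lit 623) ln15_19_6_c10 ln15_19_6_c10_ok))))))) (B (M (nat_lit 464) (B (L (nat_lit 463) ln16_14_3 ln16_14_3_ok) (M (nat_lit 528) (B (M (nat_lit 496) (B (L (nat_lit 495) ln15_18_6_c10 ln15_18_6_c10_ok) (L (nat_lit 623) ln15_19_6_c10 ln15_19_6_c10_ok)))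 (M (nat_lit 529) (B (L (nat_lit 530) ln18_16_1_c10 ln18_16_1_c10_ok) (L (nat_lit 526) ln17_16_1 ln17_16_1_ok))))))) (B (M (nat_lit 592) (B (M (nat_lit 593) (B (L (nat_lit 594) ln18_18_3_c10 ln18_18_3_c10_ok) (L (nat_lit 590) ln17_18_3_c10 ln17_18_3_c10_ok))) (M (nat_lit 624) (B (L (nat_lit 495) ln15_15_4_c10 ln15_15_4_c10_ok) (M (nat_lit 656) (B (L (nat_lit 623) ln15_16_4_c10 ln15_16_4_c10_ok) (L (nat_lit 688) ln16_21_7_c10 ln16_21_7_c10_ok))))))) (B (M (nat_lit 528) (B (M (nat_lit 529) (B (L (nat_lit 530) ln18_16_1_c10 ln18_16_1_c10_ok) (L (nat_lit 526) ln17_16_1 ln17_16_1_ok))) (M (nat_lit 464) (B (L (nat_lit 463) ln16_14_3 ln16_14_3_ok) (M (nat_lit 496) (B (L (nat_lit 432) ln16_13_5_c10 ln16_13_5_c10_ok) (L (nat_lit 623) ln15_19_6_c10 ln15_19_6_c10_ok))))))) (M (nat_lit 528) (B (M (nat_lit 529) (B (L (nat_lit 530) ln18_16_1_c10 ln18_16_1_c10_ok) (L (nat_lit 526) ln17_16_1 ln17_16_1_ok))) (M (nat_lit 464) (B (L (nat_lit 463) ln16_14_3 ln16_14_3_ok) (M (nat_lit 496) (B (L (nat_lit 432) ln16_13_5_c10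 ln16_13_5_c10_ok) (L (nat_lit 495) ln15_18_6_c10 ln15_18_6_c10_ok))))))))))))))))) (B (K (nat_lit 3302217121718848683236933622506786676402152449583581786253212438774014988618797315844621695381304192388946209092733180994661997962730161022819405783883937719918914437120) (nat_lit 120554773618948391690961210616237441394593008598444872881946398374421461733643383915953934163552384102533480758912898239824707143899328719558476659062893964449708235675475053117440) (nat_lit 120554773618948391690961210616237441394593008598444872881946398374421461733643383915953934163552384102533480758912898239824707143899328719558476659062893964449708235675475053117440) c10_s530) (B (M (nat_lit 556) (B (M (nat_lit 555) (B (M (nat_lit 527) (B (L (nat_lit 528) ln12_17_2_c10 ln12_17_2_c10_ok) (L (nat_lit 526) ln11_17_2 ln11_17_2_ok))) (M (nat_lit 591) (B (L (nat_lit 592) ln12_17_0_c10 ln12_17_0_c10_ok) (L (nat_lit 590) ln11_17_0 ln11_17_0_ok))))) (B (M (nat_lit 555) (B (M (nat_lit 591) (B (L (nat_lit 592) ln12_17_0_c10 ln12_17_0_c10_ok)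 (L (nat_lit 590) ln11_17_0 ln11_17_0_ok))) (M (nat_lit 587) (B (L (nat_lit 588) ln15_17_1_c10 ln15_17_1_c10_ok) (L (nat_lit 586) ln14_17_1 ln14_17_1_ok))))) (M (nat_lit 560) (B (M (nat_lit 528) (B (L (nat_lit 529) ln13_17_2_c10 ln13_17_2_c10_ok) (L (nat_lit 527) ln12_17_2_c10 ln12_17_2_c10_ok))) (M (nat_lit 588) (B (L (nat_lit 589) ln16_17_1_c10 ln16_17_1_c10_ok) (L (nat_lit 587) ln15_17_1_c10 ln15_17_1_c10_ok)))))))) (B (M (nat_lit 556) (B (M (nat_lit 560) (B (M (nat_lit 528) (B (L (nat_lit 529) ln13_17_2_c10 ln13_17_2_c10_ok) (L (nat_lit 527) ln12_17_2_c10 ln12_17_2_c10_ok))) (M (nat_lit 588) (B (L (nat_lit 589) ln16_17_1_c10 ln16_17_1_c10_ok) (L (nat_lit 587) ln15_17_1_c10 ln15_17_1_c10_ok))))) (B (M (nat_lit 555) (B (M (nat_lit 527) (B (L (nat_lit 528) ln12_17_2_c10 ln12_17_2_c10_ok) (L (nat_lit 526) ln11_17_2 ln11_17_2_ok))) (M (nat_lit 587) (B (L (nat_lit 588) ln15_17_1_c10 ln15_17_1_c10_ok) (L (nat_lit 586) ln14_17_1 ln14_17_1_ok))))) (B (M (nat_lit 555) (B (M (nat_lit 587) (B (L (nat_lit 588)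 ln15_17_1_c10 ln15_17_1_c10_ok) (L (nat_lit 586) ln14_17_1 ln14_17_1_ok))) (M (nat_lit 554) (B (M (nat_lit 522) (B (L (nat_lit 523) ln14_17_3 ln14_17_3_ok) (L (nat_lit 521) ln13_17_3 ln13_17_3_ok))) (M (nat_lit 590) (B (L (nat_lit 591) ln11_17_0 ln11_17_0_ok) (L (nat_lit 589) ln10_17_0 ln10_17_0_ok))))))) (B (M (nat_lit 555) (B (M (nat_lit 527) (B (L (nat_lit 528) ln12_17_2_c10 ln12_17_2_c10_ok) (L (nat_lit 526) ln11_17_2 ln11_17_2_ok))) (M (nat_lit 554) (B (M (nat_lit 522) (B (L (nat_lit 523) ln14_17_3 ln14_17_3_ok) (L (nat_lit 521) ln13_17_3 ln13_17_3_ok))) (M (nat_lit 586) (B (L (nat_lit 587) ln14_17_1 ln14_17_1_ok) (L (nat_lit 585) ln13_17_1 ln13_17_1_ok))))))) (M (nat_lit 555) (B (M (nat_lit 527) (B (L (nat_lit 528) ln12_17_2_c10 ln12_17_2_c10_ok) (L (nat_lit 526) ln11_17_2 ln11_17_2_ok))) (M (nat_lit 554) (B (M (nat_lit 522) (B (L (nat_lit 523) ln14_17_3 ln14_17_3_ok) (L (nat_lit 521) ln13_17_3 ln13_17_3_ok))) (M (nat_lit 590) (B (L (nat_lit 591) ln11_17_0 ln11_17_0_ok) (L (nat_lit 589) ln10_17_0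 ln10_17_0_ok)))))))))))) (B (M (nat_lit 556) (B (M (nat_lit 560) (B (M (nat_lit 592) (B (L (nat_lit 593) ln13_17_0_c10 ln13_17_0_c10_ok) (L (nat_lit 591) ln12_17_0_c10 ln12_17_0_c10_ok))) (M (nat_lit 588) (B (L (nat_lit 589) ln16_17_1_c10 ln16_17_1_c10_ok) (L (nat_lit 587) ln15_17_1_c10 ln15_17_1_c10_ok))))) (B (M (nat_lit 555) (B (M (nat_lit 527) (B (L (nat_lit 528) ln12_17_2_c10 ln12_17_2_c10_ok) (L (nat_lit 526) ln11_17_2 ln11_17_2_ok))) (M (nat_lit 587) (B (L (nat_lit 588) ln15_17_1_c10 ln15_17_1_c10_ok) (L (nat_lit 586) ln14_17_1 ln14_17_1_ok))))) (M (nat_lit 560) (B (M (nat_lit 528) (B (L (nat_lit 529) ln13_17_2_c10 ln13_17_2_c10_ok) (L (nat_lit 527) ln12_17_2_c10 ln12_17_2_c10_ok))) (M (nat_lit 592) (B (L (nat_lit 593) ln13_17_0_c10 ln13_17_0_c10_ok) (L (nat_lit 591) ln12_17_0_c10 ln12_17_0_c10_ok)))))))) (K (nat_lit 3302217121718848683236933622506786676402152449583581786253212438774014988618797315844621695381304192388946209092733180994661997962730161022819405783883937719918914437120) (nat_lit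 257318592432847997202923749186716611429825548185060310993252396859174994162519023928376192225776427878389148965817327386771667496039784267311213366769527480491396249050247214399488) (nat_lit 257318592432847997202923749186716611429825548185060310993252396859174994162519023928376192225776427878389148965817327386771667496039784267311213366769527480491396249050247214399488) c10_s531))))))
noncomputable def c10_d346 : Cert := (B (M (nat_lit 559) (B (M (nat_lit 560) (B (M (nat_lit 593) (B (L (nat_lit 592) ln13_17_0_c10 ln13_17_0_c10_ok) (M (nat_lit 561) (B (L (nat_lit 594) ln14_17_0_c10 ln14_17_0_c10_ok) (M (nat_lit 589) (B (L (nat_lit 590) ln17_17_1_c10 ln17_17_1_c10_ok) (L (nat_lit 588) ln16_17_1_c10 ln16_17_1_c10_ok))))))) (B (M (nat_lit 556) (B (M (nat_lit 528) (B (L (nat_lit 529) ln13_17_2_c10 ln13_17_2_c10_ok) (L (nat_lit 527) ln12_17_2_c10 ln12_17_2_c10_ok))) (M (nat_lit 588) (B (L (nat_lit 589) ln16_17_1_c10 ln16_17_1_c10_ok) (L (nat_lit 587) ln15_17_1_c10 ln15_17_1_c10_ok))))) (M (nat_lit 556) (B (M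 (nat_lit 528) (B (L (nat_lit 529) ln13_17_2_c10 ln13_17_2_c10_ok) (L (nat_lit 527) ln12_17_2_c10 ln12_17_2_c10_ok))) (M (nat_lit 592) (B (L (nat_lit 593) ln13_17_0_c10 ln13_17_0_c10_ok) (L (nat_lit 591) ln12_17_0_c10 ln12_17_0_c10_ok)))))))) (B (M (nat_lit 556) (B (M (nat_lit 555) (B (M (nat_lit 527) (B (L (nat_lit 528) ln12_17_2_c10 ln12_17_2_c10_ok) (L (nat_lit 526) ln11_17_2 ln11_17_2_ok))) (M (nat_lit 591) (B (L (nat_lit 592) ln12_17_0_c10 ln12_17_0_c10_ok) (L (nat_lit 590) ln11_17_0 ln11_17_0_ok))))) (B (M (nat_lit 555) (B (M (nat_lit 591) (B (L (nat_lit 592) ln12_17_0_c10 ln12_17_0_c10_ok) (L (nat_lit 590) ln11_17_0 ln11_17_0_ok))) (M (nat_lit 587) (B (L (nat_lit 588) ln15_17_1_c10 ln15_17_1_c10_ok) (L (nat_lit 586) ln14_17_1 ln14_17_1_ok))))) (B (M (nat_lit 560) (B (M (nat_lit 592) (B (L (nat_lit 593) ln13_17_0_c10 ln13_17_0_c10_ok) (L (nat_lit 591) ln12_17_0_c10 ln12_17_0_c10_ok))) (M (nat_lit 588) (B (L (nat_lit 589) ln16_17_1_c10 ln16_17_1_c10_ok) (L (nat_lit 587) ln15_17_1_c10 ln15_17_1_c10_ok)))))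 (M (nat_lit 555) (B (M (nat_lit 527) (B (L (nat_lit 528) ln12_17_2_c10 ln12_17_2_c10_ok) (L (nat_lit 526) ln11_17_2 ln11_17_2_ok))) (M (nat_lit 587) (B (L (nat_lit 588) ln15_17_1_c10 ln15_17_1_c10_ok) (L (nat_lit 586) ln14_17_1 ln14_17_1_ok))))))))) (B (M (nat_lit 560) (B (M (nat_lit 592) (B (L (nat_lit 593) ln13_17_0_c10 ln13_17_0_c10_ok) (M (nat_lit 556) (B (L (nat_lit 591) ln12_17_0_c10 ln12_17_0_c10_ok) (M (nat_lit 588) (B (L (nat_lit 589) ln16_17_1_c10 ln16_17_1_c10_ok) (L (nat_lit 587) ln15_17_1_c10 ln15_17_1_c10_ok))))))) (B (M (nat_lit 593) (B (L (nat_lit 592) ln13_17_0_c10 ln13_17_0_c10_ok) (M (nat_lit 561) (B (L (nat_lit 594) ln14_17_0_c10 ln14_17_0_c10_ok) (M (nat_lit 589) (B (L (nat_lit 590) ln17_17_1_c10 ln17_17_1_c10_ok) (L (nat_lit 588) ln16_17_1_c10 ln16_17_1_c10_ok))))))) (B (M (nat_lit 556) (B (M (nat_lit 588) (B (L (nat_lit 589) ln16_17_1_c10 ln16_17_1_c10_ok) (L (nat_lit 587) ln15_17_1_c10 ln15_17_1_c10_ok))) (B (M (nat_lit 555) (B (M (nat_lit 591) (B (L (nat_lit 592) ln12_17_0_c10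 ln12_17_0_c10_ok) (L (nat_lit 590) ln11_17_0 ln11_17_0_ok))) (M (nat_lit 587) (B (L (nat_lit 588) ln15_17_1_c10 ln15_17_1_c10_ok) (L (nat_lit 586) ln14_17_1 ln14_17_1_ok))))) (M (nat_lit 591) (B (L (nat_lit 592) ln12_17_0_c10 ln12_17_0_c10_ok) (M (nat_lit 590) (B (L (nat_lit 555) ln11_17_0 ln11_17_0_ok) (M (nat_lit 561) (B (L (nat_lit 562) ln18_17_1_c10 ln18_17_1_c10_ok) (L (nat_lit 589) ln17_17_1_c10 ln17_17_1_c10_ok)))))))))) (B (M (nat_lit 561) (B (M (nat_lit 589) (B (L (nat_lit 590) ln17_17_1_c10 ln17_17_1_c10_ok) (L (nat_lit 588) ln16_17_1_c10 ln16_17_1_c10_ok))) (M (nat_lit 562) (B (M (nat_lit 530) (B (L (nat_lit 531) ln15_17_2_c10 ln15_17_2_c10_ok) (L (nat_lit 529) ln14_17_2_c10 ln14_17_2_c10_ok))) (M (nat_lit 594) (B (L (nat_lit 595) ln15_17_0_c10 ln15_17_0_c10_ok) (L (nat_lit 593) ln14_17_0_c10 ln14_17_0_c10_ok))))))) (M (nat_lit 561) (B (M (nat_lit 593) (B (L (nat_lit 594) ln14_17_0_c10 ln14_17_0_c10_ok) (L (nat_lit 592) ln13_17_0_c10 ln13_17_0_c10_ok))) (B (M (nat_lit 527) (B (M (nat_lit 463)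 (B (L (nat_lit 464) ln16_14_3 ln16_14_3_ok) (M (nat_lit 592) (B (L (nat_lit 495) ln15_14_4_c10 ln15_14_4_c10_ok) (L (nat_lit 593) ln13_17_0_c10 ln13_17_0_c10_ok))))) (M (nat_lit 530) (B (L (nat_lit 529) ln14_17_2_c10 ln14_17_2_c10_ok) (M (nat_lit 562) (B (L (nat_lit 531) ln15_17_2_c10 ln15_17_2_c10_ok) (L (nat_lit 526) ln18_17_3_c10 ln18_17_3_c10_ok))))))) (B (M (nat_lit 527) (B (M (nat_lit 463) (B (L (nat_lit 464) ln16_14_3 ln16_14_3_ok) (M (nat_lit 495) (B (L (nat_lit 592) ln15_14_4_c10 ln15_14_4_c10_ok) (L (nat_lit 590) ln15_14_5_c10 ln15_14_5_c10_ok))))) (M (nat_lit 530) (B (L (nat_lit 529) ln14_17_2_c10 ln14_17_2_c10_ok) (M (nat_lit 562) (B (L (nat_lit 531) ln15_17_2_c10 ln15_17_2_c10_ok) (L (nat_lit 526) ln18_17_3_c10 ln18_17_3_c10_ok))))))) (M (nat_lit 562) (B (M (nat_lit 530) (B (L (nat_lit 531) ln15_17_2_c10 ln15_17_2_c10_ok) (L (nat_lit 529) ln14_17_2_c10 ln14_17_2_c10_ok))) (M (nat_lit 594) (B (L (nat_lit 595) ln15_17_0_c10 ln15_17_0_c10_ok) (L (nat_lit 593) ln14_17_0_c10 ln14_17_0_c10_ok))))))))))))))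 (B (M (nat_lit 560) (B (M (nat_lit 561) (B (M (nat_lit 593) (B (L (nat_lit 594) ln14_17_0_c10 ln14_17_0_c10_ok) (L (nat_lit 592) ln13_17_0_c10 ln13_17_0_c10_ok))) (M (nat_lit 589) (B (L (nat_lit 590) ln17_17_1_c10 ln17_17_1_c10_ok) (L (nat_lit 588) ln16_17_1_c10 ln16_17_1_c10_ok))))) (B (M (nat_lit 556) (B (M (nat_lit 592) (B (L (nat_lit 593) ln13_17_0_c10 ln13_17_0_c10_ok) (L (nat_lit 591) ln12_17_0_c10 ln12_17_0_c10_ok))) (M (nat_lit 588) (B (L (nat_lit 589) ln16_17_1_c10 ln16_17_1_c10_ok) (L (nat_lit 587) ln15_17_1_c10 ln15_17_1_c10_ok))))) (B (M (nat_lit 561) (B (M (nat_lit 529) (B (L (nat_lit 530) ln14_17_2_c10 ln14_17_2_c10_ok) (L (nat_lit 528) ln13_17_2_c10 ln13_17_2_c10_ok))) (M (nat_lit 589) (B (L (nat_lit 590) ln17_17_1_c10 ln17_17_1_c10_ok) (L (nat_lit 588) ln16_17_1_c10 ln16_17_1_c10_ok))))) (M (nat_lit 593) (B (L (nat_lit 592) ln13_17_0_c10 ln13_17_0_c10_ok) (M (nat_lit 561) (B (L (nat_lit 594) ln14_17_0_c10 ln14_17_0_c10_ok) (M (nat_lit 529) (B (L (nat_lit 530) ln14_17_2_c10 ln14_17_2_c10_ok)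 (L (nat_lit 528) ln13_17_2_c10 ln13_17_2_c10_ok))))))))))) c10_d345))))) (M (nat_lit 556) (B (M (nat_lit 525) (B (L (nat_lit 526) ln13_13_4 ln13_13_4_ok) (L (nat_lit 588) ln13_14_5 ln13_14_5_ok))) (B (M (nat_lit 588) (B (L (nat_lit 525) ln13_14_5 ln13_14_5_ok) (M (nat_lit 587) (B (L (nat_lit 559) ln15_17_1_c10 ln15_17_1_c10_ok) (M (nat_lit 586) (B (L (nat_lit 555) ln14_17_1 ln14_17_1_ok) (L (nat_lit 589) ln10_18_2 ln10_18_2_ok))))))) (B (M (nat_lit 559) (B (M (nat_lit 560) (B (M (nat_lit 592) (B (L (nat_lit 593) ln13_17_0_c10 ln13_17_0_c10_ok) (L (nat_lit 591) ln12_17_0_c10 ln12_17_0_c10_ok))) (M (nat_lit 588) (B (L (nat_lit 589) ln16_17_1_c10 ln16_17_1_c10_ok) (L (nat_lit 587) ln15_17_1_c10 ln15_17_1_c10_ok))))) (B (M (nat_lit 555) (B (M (nat_lit 527) (B (L (nat_lit 528) ln12_17_2_c10 ln12_17_2_c10_ok) (L (nat_lit 526) ln11_17_2 ln11_17_2_ok))) (M (nat_lit 587) (B (L (nat_lit 588) ln15_17_1_c10 ln15_17_1_c10_ok) (L (nat_lit 586) ln14_17_1 ln14_17_1_ok))))) (M (nat_lit 560) (B (M (nat_lit 528) (B (L (nat_lit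 529) ln13_17_2_c10 ln13_17_2_c10_ok) (L (nat_lit 527) ln12_17_2_c10 ln12_17_2_c10_ok))) (M (nat_lit 592) (B (L (nat_lit 593) ln13_17_0_c10 ln13_17_0_c10_ok) (L (nat_lit 591) ln12_17_0_c10 ln12_17_0_c10_ok)))))))) (M (nat_lit 526) (B (L (nat_lit 525) ln13_13_4 ln13_13_4_ok) (M (nat_lit 527) (B (L (nat_lit 555) ln11_17_2 ln11_17_2_ok) (M (nat_lit 528) (B (L (nat_lit 529) ln17_16_1 ln17_16_1_ok) (L (nat_lit 559) ln12_17_2_c10 ln12_17_2_c10_ok))))))))))))
noncomputable def c10_d347 : Cert := (B (M (nat_lit 527) (B (M (nat_lit 528) (B (L (nat_lit 556) ln12_17_2_c10 ln12_17_2_c10_ok) (M (nat_lit 463) (B (L (nat_lit 464) ln16_14_3 ln16_14_3_ok) (M (nat_lit 495) (B (L (nat_lit 590) ln15_14_5_c10 ln15_14_5_c10_ok) (M (nat_lit 494) (B (L (nat_lit 591) ln15_18_7 ln15_18_7_ok) (L (nat_lit 492) ln12_15_0 ln12_15_0_ok))))))))) (B (M (nat_lit 556) (B (L (nat_lit 528) ln12_17_2_c10 ln12_17_2_c10_ok) (M (nat_lit 591) (B (L (nat_lit 592) ln12_17_0_c10 ln12_17_0_c10_ok) (M (nat_lit 555) (B (L (nat_lit 590) ln11_17_0 ln11_17_0_ok)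 (M (nat_lit 587) (B (L (nat_lit 588) ln15_17_1_c10 ln15_17_1_c10_ok) (L (nat_lit 586) ln14_17_1 ln14_17_1_ok))))))))) (B (M (nat_lit 591) (B (M (nat_lit 592) (B (L (nat_lit 556) ln12_17_0_c10 ln12_17_0_c10_ok) (M (nat_lit 495) (B (L (nat_lit 494) ln15_18_7 ln15_18_7_ok) (L (nat_lit 624) ln15_15_4_c10 ln15_15_4_c10_ok))))) (B (M (nat_lit 592) (B (L (nat_lit 556) ln12_17_0_c10 ln12_17_0_c10_ok) (M (nat_lit 593) (B (L (nat_lit 594) ln18_18_3_c10 ln18_18_3_c10_ok) (L (nat_lit 590) ln17_18_3_c10 ln17_18_3_c10_ok))))) (M (nat_lit 495) (B (L (nat_lit 494) ln15_18_7 ln15_18_7_ok) (M (nat_lit 463) (B (L (nat_lit 464) ln16_14_3 ln16_14_3_ok) (L (nat_lit 590) ln15_14_5_c10 ln15_14_5_c10_ok)))))))) (B (M (nat_lit 495) (B (M (nat_lit 463) (B (L (nat_lit 464) ln16_14_3 ln16_14_3_ok) (L (nat_lit 590) ln15_14_5_c10 ln15_14_5_c10_ok))) (B (M (nat_lit 591) (B (L (nat_lit 494) ln15_18_7 ln15_18_7_ok) (M (nat_lit 592) (B (L (nat_lit 624) ln15_15_4_c10 ln15_15_4_c10_ok) (M (nat_lit 593) (B (L (nat_lit 594) ln18_18_3_c10 ln18_18_3_c10_ok)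 (L (nat_lit 590) ln17_18_3_c10 ln17_18_3_c10_ok))))))) (M (nat_lit 591) (B (L (nat_lit 494) ln15_18_7 ln15_18_7_ok) (M (nat_lit 464) (B (L (nat_lit 463) ln16_14_3 ln16_14_3_ok) (L (nat_lit 496) ln15_18_6_c10 ln15_18_6_c10_ok)))))))) (B (M (nat_lit 495) (B (M (nat_lit 463) (B (L (nat_lit 464) ln16_14_3 ln16_14_3_ok) (L (nat_lit 590) ln15_14_5_c10 ln15_14_5_c10_ok))) (M (nat_lit 528) (B (L (nat_lit 556) ln12_17_2_c10 ln12_17_2_c10_ok) (M (nat_lit 494) (B (L (nat_lit 492) ln12_15_0 ln12_15_0_ok) (M (nat_lit 529) (B (L (nat_lit 496) ln13_15_0 ln13_15_0_ok) (L (nat_lit 530) ln18_16_1_c10 ln18_16_1_c10_ok))))))))) (M (nat_lit 464) (B (L (nat_lit 463) ln16_14_3 ln16_14_3_ok) (M (nat_lit 591) (B (M (nat_lit 495) (B (L (nat_lit 496) ln15_18_6_c10 ln15_18_6_c10_ok) (L (nat_lit 494) ln15_18_7 ln15_18_7_ok))) (M (nat_lit 556) (B (L (nat_lit 528) ln12_17_2_c10 ln12_17_2_c10_ok) (L (nat_lit 592) ln12_17_0_c10 ln12_17_0_c10_ok))))))))))))) (B (K (nat_lit 3302217121718848683236933622506786676402152449583581786253212438774014988618797315844621695381304192388946209092733180994661997962730161022819405783883937719918914437120)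 (nat_lit 120554773618948391690961210616237441394593008598444872881946398374421461733643383915953934163552384102533480758912898239824707143899328719558476659062893964449708235675475053117440) (nat_lit 120554773618948391690961210616237441394593008598444872881946398374421461733643383915953934163552384102533480758912898239824707143899328719558476659062893964449708235675475053117440) c10_s530) (B (M (nat_lit 556) (B (M (nat_lit 560) (B (M (nat_lit 528) (B (L (nat_lit 529) ln13_17_2_c10 ln13_17_2_c10_ok) (L (nat_lit 527) ln12_17_2_c10 ln12_17_2_c10_ok))) (M (nat_lit 588) (B (L (nat_lit 589) ln16_17_1_c10 ln16_17_1_c10_ok) (L (nat_lit 587) ln15_17_1_c10 ln15_17_1_c10_ok))))) (B (M (nat_lit 555) (B (M (nat_lit 591) (B (L (nat_lit 592) ln12_17_0_c10 ln12_17_0_c10_ok) (L (nat_lit 590) ln11_17_0 ln11_17_0_ok))) (M (nat_lit 587) (B (L (nat_lit 588) ln15_17_1_c10 ln15_17_1_c10_ok) (L (nat_lit 586) ln14_17_1 ln14_17_1_ok))))) (M (nat_lit 590) (B (M (nat_lit 591) (B (L (nat_lit 592) ln12_17_0_c10 ln12_17_0_c10_ok) (L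 (nat_lit 555) ln11_17_0 ln11_17_0_ok))) (M (nat_lit 463) (B (L (nat_lit 464) ln16_14_3 ln16_14_3_ok) (M (nat_lit 527) (B (L (nat_lit 495) ln15_14_5_c10 ln15_14_5_c10_ok) (L (nat_lit 528) ln12_17_2_c10 ln12_17_2_c10_ok)))))))))) (B (M (nat_lit 560) (B (M (nat_lit 556) (B (M (nat_lit 528) (B (L (nat_lit 529) ln13_17_2_c10 ln13_17_2_c10_ok) (L (nat_lit 527) ln12_17_2_c10 ln12_17_2_c10_ok))) (M (nat_lit 588) (B (L (nat_lit 589) ln16_17_1_c10 ln16_17_1_c10_ok) (L (nat_lit 587) ln15_17_1_c10 ln15_17_1_c10_ok))))) (B (M (nat_lit 528) (B (M (nat_lit 556) (B (L (nat_lit 527) ln12_17_2_c10 ln12_17_2_c10_ok) (M (nat_lit 588) (B (L (nat_lit 589) ln16_17_1_c10 ln16_17_1_c10_ok) (L (nat_lit 587) ln15_17_1_c10 ln15_17_1_c10_ok))))) (B (M (nat_lit 464) (B (L (nat_lit 463) ln16_14_3 ln16_14_3_ok) (M (nat_lit 561) (B (M (nat_lit 496) (B (L (nat_lit 593) ln16_14_4_c10 ln16_14_4_c10_ok) (L (nat_lit 591) ln16_14_5_c10 ln16_14_5_c10_ok))) (M (nat_lit 589) (B (L (nat_lit 590) ln17_17_1_c10 ln17_17_1_c10_ok) (L (nat_lit 588)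 ln16_17_1_c10 ln16_17_1_c10_ok))))))) (M (nat_lit 464) (B (L (nat_lit 463) ln16_14_3 ln16_14_3_ok) (M (nat_lit 496) (B (L (nat_lit 591) ln16_14_5_c10 ln16_14_5_c10_ok) (M (nat_lit 527) (B (L (nat_lit 432) ln16_13_5_c10 ln16_13_5_c10_ok) (L (nat_lit 556) ln12_17_2_c10 ln12_17_2_c10_ok)))))))))) (B (M (nat_lit 561) (B (M (nat_lit 589) (B (L (nat_lit 590) ln17_17_1_c10 ln17_17_1_c10_ok) (L (nat_lit 588) ln16_17_1_c10 ln16_17_1_c10_ok))) (M (nat_lit 562) (B (M (nat_lit 530) (B (L (nat_lit 531) ln15_17_2_c10 ln15_17_2_c10_ok) (L (nat_lit 529) ln14_17_2_c10 ln14_17_2_c10_ok))) (M (nat_lit 594) (B (L (nat_lit 595) ln15_17_0_c10 ln15_17_0_c10_ok) (L (nat_lit 593) ln14_17_0_c10 ln14_17_0_c10_ok))))))) (M (nat_lit 528) (B (L (nat_lit 529) ln13_17_2_c10 ln13_17_2_c10_ok) (M (nat_lit 464) (B (L (nat_lit 463) ln16_14_3 ln16_14_3_ok) (M (nat_lit 496) (B (L (nat_lit 591) ln16_14_5_c10 ln16_14_5_c10_ok) (M (nat_lit 527) (B (L (nat_lit 432) ln16_13_5_c10 ln16_13_5_c10_ok) (L (nat_lit 556) ln12_17_2_c10 ln12_17_2_c10_ok)))))))))))))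 (K (nat_lit 3302217121718848683236933622506786676402152449583581786253212438774014988618797315844621695381304192388946209092733180994661997962730161022819405783883937719918914437120) (nat_lit 257318592432847997202923749186716611429825548185060310993252396859174994162519023928376192225776427878389148965817327386771667496039784267311213366769527480491396249050247214399488) (nat_lit 257318592432847997202923749186716611429825548185060310993252396859174994162519023928376192225776427878389148965817327386771667496039784267311213366769527480491396249050247214399488) c10_s531)))))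
noncomputable def c10_d348 : Cert := (B (K (nat_lit 3302217121718848683236933622506786676402152449583581786253212438774014988618797315844621695381304192388946209092733180994661997962730161022819405783883937719918914437120) (nat_lit 125113567579136527114315739417879795193070601976493825217672288002968323691010693117451650690811674672152156907509563452956842844735644979214124813752170640804706734125199078195200) (nat_lit 125113567579136527114315739417879795193070601976493825217672288002968323691010693117451650690811674672152156907509563452956842844735644979214124813752170640804706734125199078195200) c10_s532) (B (M (nat_lit 556) (B (M (nat_lit 560) (B (M (nat_lit 528) (B (L (nat_lit 529) ln13_17_2_c10 ln13_17_2_c10_ok) (L (nat_lit 527) ln12_17_2_c10 ln12_17_2_c10_ok))) (M (nat_lit 588) (B (L (nat_lit 589) ln16_17_1_c10 ln16_17_1_c10_ok) (L (nat_lit 587) ln15_17_1_c10 ln15_17_1_c10_ok))))) (B (M (nat_lit 560) (B (M (nat_lit 592) (B (L (nat_lit 593) ln13_17_0_c10 ln13_17_0_c10_ok) (L (nat_lit 591) ln12_17_0_c10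 ln12_17_0_c10_ok))) (M (nat_lit 588) (B (L (nat_lit 589) ln16_17_1_c10 ln16_17_1_c10_ok) (L (nat_lit 587) ln15_17_1_c10 ln15_17_1_c10_ok))))) (B (M (nat_lit 555) (B (M (nat_lit 591) (B (L (nat_lit 592) ln12_17_0_c10 ln12_17_0_c10_ok) (L (nat_lit 590) ln11_17_0 ln11_17_0_ok))) (M (nat_lit 587) (B (L (nat_lit 588) ln15_17_1_c10 ln15_17_1_c10_ok) (L (nat_lit 586) ln14_17_1 ln14_17_1_ok))))) (M (nat_lit 560) (B (M (nat_lit 528) (B (L (nat_lit 529) ln13_17_2_c10 ln13_17_2_c10_ok) (L (nat_lit 527) ln12_17_2_c10 ln12_17_2_c10_ok))) (M (nat_lit 592) (B (L (nat_lit 593) ln13_17_0_c10 ln13_17_0_c10_ok) (L (nat_lit 591) ln12_17_0_c10 ln12_17_0_c10_ok))))))))) (B (M (nat_lit 556) (B (M (nat_lit 560) (B (M (nat_lit 592) (B (L (nat_lit 593) ln13_17_0_c10 ln13_17_0_c10_ok) (L (nat_lit 591) ln12_17_0_c10 ln12_17_0_c10_ok))) (M (nat_lit 588) (B (L (nat_lit 589) ln16_17_1_c10 ln16_17_1_c10_ok) (L (nat_lit 587) ln15_17_1_c10 ln15_17_1_c10_ok))))) (B (M (nat_lit 555) (B (M (nat_lit 591) (B (L (nat_lit 592) ln12_17_0_c10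 ln12_17_0_c10_ok) (L (nat_lit 590) ln11_17_0 ln11_17_0_ok))) (M (nat_lit 587) (B (L (nat_lit 588) ln15_17_1_c10 ln15_17_1_c10_ok) (L (nat_lit 586) ln14_17_1 ln14_17_1_ok))))) (B (M (nat_lit 555) (B (M (nat_lit 587) (B (L (nat_lit 588) ln15_17_1_c10 ln15_17_1_c10_ok) (L (nat_lit 586) ln14_17_1 ln14_17_1_ok))) (M (nat_lit 554) (B (M (nat_lit 522) (B (L (nat_lit 523) ln14_17_3 ln14_17_3_ok) (L (nat_lit 521) ln13_17_3 ln13_17_3_ok))) (M (nat_lit 590) (B (L (nat_lit 591) ln11_17_0 ln11_17_0_ok) (L (nat_lit 589) ln10_17_0 ln10_17_0_ok))))))) (B (M (nat_lit 463) (B (L (nat_lit 464) ln16_14_3 ln16_14_3_ok) (M (nat_lit 560) (B (M (nat_lit 588) (B (L (nat_lit 589) ln16_17_1_c10 ln16_17_1_c10_ok) (L (nat_lit 587) ln15_17_1_c10 ln15_17_1_c10_ok))) (M (nat_lit 527) (B (L (nat_lit 528) ln12_17_2_c10 ln12_17_2_c10_ok) (M (nat_lit 495) (B (L (nat_lit 592) ln15_14_4_c10 ln15_14_4_c10_ok) (L (nat_lit 590) ln15_14_5_c10 ln15_14_5_c10_ok))))))))) (B (M (nat_lit 555) (B (M (nat_lit 591) (B (L (nat_lit 592) ln12_17_0_c10 ln12_17_0_c10_ok)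 (L (nat_lit 590) ln11_17_0 ln11_17_0_ok))) (M (nat_lit 554) (B (M (nat_lit 522) (B (L (nat_lit 523) ln14_17_3 ln14_17_3_ok) (L (nat_lit 521) ln13_17_3 ln13_17_3_ok))) (M (nat_lit 586) (B (L (nat_lit 587) ln14_17_1 ln14_17_1_ok) (L (nat_lit 585) ln13_17_1 ln13_17_1_ok))))))) (M (nat_lit 590) (B (M (nat_lit 591) (B (L (nat_lit 592) ln12_17_0_c10 ln12_17_0_c10_ok) (L (nat_lit 555) ln11_17_0 ln11_17_0_ok))) (M (nat_lit 463) (B (L (nat_lit 464) ln16_14_3 ln16_14_3_ok) (M (nat_lit 527) (B (L (nat_lit 495) ln15_14_5_c10 ln15_14_5_c10_ok) (L (nat_lit 528) ln12_17_2_c10 ln12_17_2_c10_ok))))))))))))) (B (M (nat_lit 556) (B (M (nat_lit 560) (B (M (nat_lit 592) (B (L (nat_lit 593) ln13_17_0_c10 ln13_17_0_c10_ok) (L (nat_lit 591) ln12_17_0_c10 ln12_17_0_c10_ok))) (M (nat_lit 588) (B (L (nat_lit 589) ln16_17_1_c10 ln16_17_1_c10_ok) (L (nat_lit 587) ln15_17_1_c10 ln15_17_1_c10_ok))))) (B (M (nat_lit 555) (B (M (nat_lit 591) (B (L (nat_lit 592) ln12_17_0_c10 ln12_17_0_c10_ok) (L (nat_lit 590) ln11_17_0 ln11_17_0_ok)))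 (M (nat_lit 587) (B (L (nat_lit 588) ln15_17_1_c10 ln15_17_1_c10_ok) (L (nat_lit 586) ln14_17_1 ln14_17_1_ok))))) (B (M (nat_lit 555) (B (M (nat_lit 587) (B (L (nat_lit 588) ln15_17_1_c10 ln15_17_1_c10_ok) (L (nat_lit 586) ln14_17_1 ln14_17_1_ok))) (M (nat_lit 554) (B (M (nat_lit 522) (B (L (nat_lit 523) ln14_17_3 ln14_17_3_ok) (L (nat_lit 521) ln13_17_3 ln13_17_3_ok))) (M (nat_lit 590) (B (L (nat_lit 591) ln11_17_0 ln11_17_0_ok) (L (nat_lit 589) ln10_17_0 ln10_17_0_ok))))))) (B (M (nat_lit 555) (B (M (nat_lit 587) (B (L (nat_lit 588) ln15_17_1_c10 ln15_17_1_c10_ok) (L (nat_lit 586) ln14_17_1 ln14_17_1_ok))) (B (M (nat_lit 554) (B (M (nat_lit 522) (B (L (nat_lit 523) ln14_17_3 ln14_17_3_ok) (L (nat_lit 521) ln13_17_3 ln13_17_3_ok))) (M (nat_lit 586) (B (L (nat_lit 587) ln14_17_1 ln14_17_1_ok) (L (nat_lit 585) ln13_17_1 ln13_17_1_ok))))) (M (nat_lit 554) (B (M (nat_lit 522) (B (L (nat_lit 523) ln14_17_3 ln14_17_3_ok) (L (nat_lit 521) ln13_17_3 ln13_17_3_ok))) (M (nat_lit 589) (B (L (nat_lit 590) ln10_17_0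 ln10_17_0_ok) (M (nat_lit 588) (B (L (nat_lit 560) ln16_17_1_c10 ln16_17_1_c10_ok) (L (nat_lit 553) ln9_17_0 ln9_17_0_ok)))))))))) (B (M (nat_lit 555) (B (M (nat_lit 591) (B (L (nat_lit 592) ln12_17_0_c10 ln12_17_0_c10_ok) (L (nat_lit 590) ln11_17_0 ln11_17_0_ok))) (M (nat_lit 554) (B (M (nat_lit 522) (B (L (nat_lit 523) ln14_17_3 ln14_17_3_ok) (L (nat_lit 521) ln13_17_3 ln13_17_3_ok))) (M (nat_lit 586) (B (L (nat_lit 587) ln14_17_1 ln14_17_1_ok) (L (nat_lit 585) ln13_17_1 ln13_17_1_ok))))))) (M (nat_lit 560) (B (M (nat_lit 592) (B (L (nat_lit 593) ln13_17_0_c10 ln13_17_0_c10_ok) (L (nat_lit 591) ln12_17_0_c10 ln12_17_0_c10_ok))) (B (M (nat_lit 590) (B (M (nat_lit 589) (B (L (nat_lit 561) ln17_17_1_c10 ln17_17_1_c10_ok) (L (nat_lit 588) ln16_17_1_c10 ln16_17_1_c10_ok))) (M (nat_lit 591) (B (L (nat_lit 592) ln12_17_0_c10 ln12_17_0_c10_ok) (L (nat_lit 555) ln11_17_0 ln11_17_0_ok))))) (M (nat_lit 561) (B (M (nat_lit 589) (B (L (nat_lit 590) ln17_17_1_c10 ln17_17_1_c10_ok) (L (nat_lit 588) ln16_17_1_c10 ln16_17_1_c10_ok)))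 (M (nat_lit 562) (B (M (nat_lit 530) (B (L (nat_lit 531) ln15_17_2_c10 ln15_17_2_c10_ok) (L (nat_lit 529) ln14_17_2_c10 ln14_17_2_c10_ok))) (M (nat_lit 594) (B (L (nat_lit 595) ln15_17_0_c10 ln15_17_0_c10_ok) (L (nat_lit 593) ln14_17_0_c10 ln14_17_0_c10_ok)))))))))))))))) c10_d347))))
noncomputable def c10_d349 : Cert := (B (M (nat_lit 464) (B (L (nat_lit 463) ln16_14_3 ln16_14_3_ok) (M (nat_lit 591) (B (M (nat_lit 592) (B (L (nat_lit 556) ln12_17_0_c10 ln12_17_0_c10_ok) (M (nat_lit 593) (B (L (nat_lit 560) ln13_17_0_c10 ln13_17_0_c10_ok) (L (nat_lit 594) ln18_18_3_c10 ln18_18_3_c10_ok))))) (B (M (nat_lit 592) (B (L (nat_lit 556) ln12_17_0_c10 ln12_17_0_c10_ok) (M (nat_lit 593) (B (L (nat_lit 594) ln18_18_3_c10 ln18_18_3_c10_ok) (L (nat_lit 590) ln17_18_3_c10 ln17_18_3_c10_ok))))) (M (nat_lit 495) (B (M (nat_lit 527) (B (L (nat_lit 496) ln15_18_6_c10 ln15_18_6_c10_ok) (L (nat_lit 494) ln15_18_7 ln15_18_7_ok))) (B (M (nat_lit 494) (B (L (nat_lit 527) ln15_18_7 ln15_18_7_ok) (M (nat_lit 525) (B (L (nat_lit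 589) ln13_18_6 ln13_18_6_ok) (L (nat_lit 590) ln13_14_4 ln13_14_4_ok))))) (B (M (nat_lit 527) (B (L (nat_lit 496) ln15_18_6_c10 ln15_18_6_c10_ok) (M (nat_lit 590) (B (L (nat_lit 525) ln13_14_4 ln13_14_4_ok) (L (nat_lit 622) ln15_15_5_c10 ln15_15_5_c10_ok))))) (M (nat_lit 494) (B (M (nat_lit 496) (B (L (nat_lit 465) ln13_15_2 ln13_15_2_ok) (L (nat_lit 497) ln17_15_3 ln17_15_3_ok))) (M (nat_lit 525) (B (L (nat_lit 589) ln13_18_6 ln13_18_6_ok) (L (nat_lit 590) ln13_14_4 ln13_14_4_ok)))))))))))))) (B (M (nat_lit 560) (B (M (nat_lit 561) (B (M (nat_lit 529) (B (L (nat_lit 530) ln14_17_2_c10 ln14_17_2_c10_ok) (L (nat_lit 528) ln13_17_2_c10 ln13_17_2_c10_ok))) (M (nat_lit 593) (B (L (nat_lit 594) ln14_17_0_c10 ln14_17_0_c10_ok) (L (nat_lit 592) ln13_17_0_c10 ln13_17_0_c10_ok))))) (B (M (nat_lit 590) (B (L (nat_lit 525) ln13_14_4 ln13_14_4_ok) (M (nat_lit 561) (B (L (nat_lit 589) ln17_17_1_c10 ln17_17_1_c10_ok) (M (nat_lit 593) (B (L (nat_lit 594) ln14_17_0_c10 ln14_17_0_c10_ok) (L (nat_lit 592) ln13_17_0_c10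 ln13_17_0_c10_ok))))))) (B (M (nat_lit 464) (B (L (nat_lit 463) ln16_14_3 ln16_14_3_ok) (M (nat_lit 591) (B (M (nat_lit 528) (B (L (nat_lit 496) ln16_14_5_c10 ln16_14_5_c10_ok) (L (nat_lit 529) ln13_17_2_c10 ln13_17_2_c10_ok))) (M (nat_lit 592) (B (L (nat_lit 593) ln13_17_0_c10 ln13_17_0_c10_ok) (L (nat_lit 556) ln12_17_0_c10 ln12_17_0_c10_ok))))))) (M (nat_lit 529) (B (L (nat_lit 528) ln13_17_2_c10 ln13_17_2_c10_ok) (M (nat_lit 561) (B (L (nat_lit 530) ln14_17_2_c10 ln14_17_2_c10_ok) (M (nat_lit 590) (B (L (nat_lit 525) ln13_14_4 ln13_14_4_ok) (L (nat_lit 589) ln17_17_1_c10 ln17_17_1_c10_ok))))))))))) (B (M (nat_lit 527) (B (M (nat_lit 528) (B (L (nat_lit 556) ln12_17_2_c10 ln12_17_2_c10_ok) (M (nat_lit 529) (B (L (nat_lit 530) ln18_16_1_c10 ln18_16_1_c10_ok) (L (nat_lit 560) ln13_17_2_c10 ln13_17_2_c10_ok))))) (B (M (nat_lit 528) (B (L (nat_lit 556) ln12_17_2_c10 ln12_17_2_c10_ok) (M (nat_lit 463) (B (L (nat_lit 464) ln16_14_3 ln16_14_3_ok) (M (nat_lit 495) (B (L (nat_lit 590) ln15_14_5_c10 ln15_14_5_c10_ok)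 (M (nat_lit 494) (B (L (nat_lit 591) ln15_18_7 ln15_18_7_ok) (L (nat_lit 492) ln12_15_0 ln12_15_0_ok))))))))) (B (M (nat_lit 592) (B (M (nat_lit 593) (B (L (nat_lit 560) ln13_17_0_c10 ln13_17_0_c10_ok) (M (nat_lit 591) (B (L (nat_lit 556) ln12_17_0_c10 ln12_17_0_c10_ok) (L (nat_lit 594) ln18_18_3_c10 ln18_18_3_c10_ok))))) (B (M (nat_lit 591) (B (L (nat_lit 556) ln12_17_0_c10 ln12_17_0_c10_ok) (M (nat_lit 495) (B (L (nat_lit 494) ln15_18_7 ln15_18_7_ok) (L (nat_lit 624) ln15_15_4_c10 ln15_15_4_c10_ok))))) (M (nat_lit 463) (B (L (nat_lit 464) ln16_14_3 ln16_14_3_ok) (M (nat_lit 560) (B (L (nat_lit 495) ln15_14_4_c10 ln15_14_4_c10_ok) (L (nat_lit 593) ln13_17_0_c10 ln13_17_0_c10_ok)))))))) (M (nat_lit 592) (B (M (nat_lit 463) (B (L (nat_lit 464) ln16_14_3 ln16_14_3_ok) (M (nat_lit 560) (B (L (nat_lit 495) ln15_14_4_c10 ln15_14_4_c10_ok) (L (nat_lit 593) ln13_17_0_c10 ln13_17_0_c10_ok))))) (B (M (nat_lit 593) (B (L (nat_lit 560) ln13_17_0_c10 ln13_17_0_c10_ok) (M (nat_lit 591) (B (L (nat_lit 594) ln18_18_3_c10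 ln18_18_3_c10_ok) (L (nat_lit 590) ln17_18_3_c10 ln17_18_3_c10_ok))))) (B (M (nat_lit 591) (B (M (nat_lit 495) (B (L (nat_lit 494) ln15_18_7 ln15_18_7_ok) (L (nat_lit 624) ln15_15_4_c10 ln15_15_4_c10_ok))) (M (nat_lit 593) (B (L (nat_lit 594) ln18_18_3_c10 ln18_18_3_c10_ok) (L (nat_lit 590) ln17_18_3_c10 ln17_18_3_c10_ok))))) (M (nat_lit 463) (B (L (nat_lit 464) ln16_14_3 ln16_14_3_ok) (M (nat_lit 495) (B (L (nat_lit 560) ln15_14_4_c10 ln15_14_4_c10_ok) (L (nat_lit 590) ln15_14_5_c10 ln15_14_5_c10_ok))))))))))))) (B (M (nat_lit 494) (B (M (nat_lit 525) (B (L (nat_lit 589) ln13_18_6 ln13_18_6_ok) (L (nat_lit 590) ln13_14_4 ln13_14_4_ok))) (M (nat_lit 495) (B (M (nat_lit 464) (B (L (nat_lit 463) ln16_14_3 ln16_14_3_ok) (M (nat_lit 496) (B (L (nat_lit 465) ln13_15_2 ln13_15_2_ok) (L (nat_lit 497) ln17_15_3 ln17_15_3_ok))))) (B (M (nat_lit 492) (B (M (nat_lit 463) (B (L (nat_lit 464) ln16_14_1 ln16_14_1_ok) (L (nat_lit 491) ln11_15_2 ln11_15_2_ok))) (M (nat_lit 527) (B (L (nat_lit 591) ln15_18_7 ln15_18_7_ok)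 (L (nat_lit 528) ln12_15_0 ln12_15_0_ok))))) (M (nat_lit 528) (B (M (nat_lit 496) (B (L (nat_lit 497) ln17_15_3 ln17_15_3_ok) (L (nat_lit 529) ln13_15_0 ln13_15_0_ok))) (M (nat_lit 527) (B (L (nat_lit 591) ln15_18_7 ln15_18_7_ok) (L (nat_lit 492) ln12_15_0 ln12_15_0_ok)))))))))) (M (nat_lit 464) (B (L (nat_lit 463) ln16_14_3 ln16_14_3_ok) (M (nat_lit 591) (B (M (nat_lit 592) (B (L (nat_lit 556) ln12_17_0_c10 ln12_17_0_c10_ok) (M (nat_lit 593) (B (L (nat_lit 560) ln13_17_0_c10 ln13_17_0_c10_ok) (L (nat_lit 594) ln18_18_3_c10 ln18_18_3_c10_ok))))) (B (M (nat_lit 527) (B (M (nat_lit 495) (B (L (nat_lit 496) ln15_18_6_c10 ln15_18_6_c10_ok) (L (nat_lit 494) ln15_18_7 ln15_18_7_ok))) (M (nat_lit 556) (B (L (nat_lit 528) ln12_17_2_c10 ln12_17_2_c10_ok) (L (nat_lit 592) ln12_17_0_c10 ln12_17_0_c10_ok))))) (B (M (nat_lit 527) (B (M (nat_lit 495) (B (L (nat_lit 496) ln15_18_6_c10 ln15_18_6_c10_ok) (L (nat_lit 494) ln15_18_7 ln15_18_7_ok))) (B (M (nat_lit 592) (B (M (nat_lit 495) (B (L (nat_lit 494) ln15_18_7 ln15_18_7_ok)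 (L (nat_lit 624) ln15_15_4_c10 ln15_15_4_c10_ok))) (M (nat_lit 593) (B (L (nat_lit 560) ln13_17_0_c10 ln13_17_0_c10_ok) (L (nat_lit 594) ln18_18_3_c10 ln18_18_3_c10_ok))))) (M (nat_lit 528) (B (M (nat_lit 496) (B (L (nat_lit 432) ln16_13_5_c10 ln16_13_5_c10_ok) (L (nat_lit 560) ln16_14_5_c10 ln16_14_5_c10_ok))) (B (M (nat_lit 496) (B (L (nat_lit 560) ln16_14_5_c10 ln16_14_5_c10_ok) (L (nat_lit 623) ln15_19_6_c10 ln15_19_6_c10_ok))) (B (M (nat_lit 529) (B (L (nat_lit 530) ln18_16_1_c10 ln18_16_1_c10_ok) (L (nat_lit 560) ln13_17_2_c10 ln13_17_2_c10_ok))) (M (nat_lit 496) (B (L (nat_lit 432) ln16_13_5_c10 ln16_13_5_c10_ok) (L (nat_lit 623) ln15_19_6_c10 ln15_19_6_c10_ok)))))))))) (M (nat_lit 527) (B (M (nat_lit 495) (B (L (nat_lit 496) ln15_18_6_c10 ln15_18_6_c10_ok) (L (nat_lit 494) ln15_18_7 ln15_18_7_ok))) (M (nat_lit 528) (B (L (nat_lit 556) ln12_17_2_c10 ln12_17_2_c10_ok) (M (nat_lit 529) (B (L (nat_lit 530) ln18_16_1_c10 ln18_16_1_c10_ok) (L (nat_lit 560) ln13_17_2_c10 ln13_17_2_c10_ok)))))))))))))))))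
noncomputable def c10_d350 : Cert := (B (M (nat_lit 559) (B (M (nat_lit 556) (B (M (nat_lit 588) (B (L (nat_lit 525) ln13_14_5 ln13_14_5_ok) (L (nat_lit 587) ln15_17_1_c10 ln15_17_1_c10_ok))) (M (nat_lit 560) (B (M (nat_lit 528) (B (L (nat_lit 529) ln13_17_2_c10 ln13_17_2_c10_ok) (L (nat_lit 527) ln12_17_2_c10 ln12_17_2_c10_ok))) (M (nat_lit 592) (B (L (nat_lit 593) ln13_17_0_c10 ln13_17_0_c10_ok) (L (nat_lit 591) ln12_17_0_c10 ln12_17_0_c10_ok))))))) (B (M (nat_lit 588) (B (M (nat_lit 556) (B (L (nat_lit 525) ln13_14_5 ln13_14_5_ok) (L (nat_lit 587) ln15_17_1_c10 ln15_17_1_c10_ok))) (B (M (nat_lit 589) (B (L (nat_lit 560) ln16_17_1_c10 ln16_17_1_c10_ok) (M (nat_lit 587) (B (L (nat_lit 556) ln15_17_1_c10 ln15_17_1_c10_ok) (L (nat_lit 586) ln10_18_2 ln10_18_2_ok))))) (M (nat_lit 589) (B (L (nat_lit 560) ln16_17_1_c10 ln16_17_1_c10_ok) (M (nat_lit 525) (B (L (nat_lit 494) ln13_18_6 ln13_18_6_ok) (L (nat_lit 620) ln13_15_5_c10 ln13_15_5_c10_ok)))))))) (B (K (nat_lit 3302217121718848683236933622506786676402152449583581786253212438774014988618797315844621695381304192388946209092733180994661997962730161022819405783883937719918914437120)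 (nat_lit 125113567579136527114315739417879795193070601976493825217672288002968323691010693117451650690811674672152156907509563452956842844735644979214124813752170640804706734125199078195200) (nat_lit 125113567579136527114315739417879795193070601976493825217672288002968323691010693117451650690811674672152156907509563452956842844735644979214124813752170640804706734125199078195200) c10_s532) (B (M (nat_lit 464) (B (L (nat_lit 463) ln16_14_3 ln16_14_3_ok) (M (nat_lit 556) (B (M (nat_lit 588) (B (L (nat_lit 525) ln13_14_5 ln13_14_5_ok) (L (nat_lit 587) ln15_17_1_c10 ln15_17_1_c10_ok))) (M (nat_lit 527) (B (L (nat_lit 528) ln12_17_2_c10 ln12_17_2_c10_ok) (M (nat_lit 591) (B (L (nat_lit 592) ln12_17_0_c10 ln12_17_0_c10_ok) (M (nat_lit 495) (B (L (nat_lit 496) ln15_18_6_c10 ln15_18_6_c10_ok) (L (nat_lit 494) ln15_18_7 ln15_18_7_ok))))))))))) (B (K (nat_lit 3302217121718848683236933622506786676402152449583581786253212438774014988618797315844621695381304192388946209092733180994661997962730161022819405783883937719918914437120)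 (nat_lit 4351082561761990989148842965196143678748958109411961161765363459566735727340365533898472710776099739469366618098062050147127427611090507478220847462663093171920043722981574661037048725504) (nat_lit 4351082561761990989148842965196143678748958109411961161765363459566735727340365533898472710776099739469366618098062050147127427611090507478220847462663093171920043722981574661037048725504) c10_s533) (M (nat_lit 464) (B (L (nat_lit 463) ln16_14_3 ln16_14_3_ok) (M (nat_lit 528) (B (M (nat_lit 527) (B (L (nat_lit 556) ln12_17_2_c10 ln12_17_2_c10_ok) (M (nat_lit 529) (B (L (nat_lit 530) ln18_16_1_c10 ln18_16_1_c10_ok) (L (nat_lit 560) ln13_17_2_c10 ln13_17_2_c10_ok))))) (B (M (nat_lit 496) (B (M (nat_lit 527) (B (L (nat_lit 432) ln16_13_5_c10 ln16_13_5_c10_ok) (L (nat_lit 556) ln12_17_2_c10 ln12_17_2_c10_ok))) (M (nat_lit 560) (B (L (nat_lit 591) ln16_14_5_c10 ln16_14_5_c10_ok) (L (nat_lit 529) ln13_17_2_c10 ln13_17_2_c10_ok))))) (B (M (nat_lit 527) (B (L (nat_lit 556) ln12_17_2_c10 ln12_17_2_c10_ok) (M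 (nat_lit 496) (B (L (nat_lit 432) ln16_13_5_c10 ln16_13_5_c10_ok) (M (nat_lit 591) (B (L (nat_lit 495) ln15_18_6_c10 ln15_18_6_c10_ok) (L (nat_lit 623) ln15_19_6_c10 ln15_19_6_c10_ok))))))) (M (nat_lit 560) (B (L (nat_lit 529) ln13_17_2_c10 ln13_17_2_c10_ok) (M (nat_lit 593) (B (L (nat_lit 592) ln13_17_0_c10 ln13_17_0_c10_ok) (M (nat_lit 496) (B (L (nat_lit 561) ln16_14_4_c10 ln16_14_4_c10_ok) (L (nat_lit 591) ln16_14_5_c10 ln16_14_5_c10_ok))))))))))))))))))) (B (M (nat_lit 559) (B (M (nat_lit 525) (B (L (nat_lit 590) ln13_14_4 ln13_14_4_ok) (M (nat_lit 556) (B (L (nat_lit 588) ln13_14_5 ln13_14_5_ok) (M (nat_lit 592) (B (L (nat_lit 591) ln12_17_0_c10 ln12_17_0_c10_ok) (M (nat_lit 528) (B (L (nat_lit 527) ln12_17_2_c10 ln12_17_2_c10_ok) (M (nat_lit 560) (B (L (nat_lit 529) ln13_17_2_c10 ln13_17_2_c10_ok) (L (nat_lit 593) ln13_17_0_c10 ln13_17_0_c10_ok))))))))))) (B (M (nat_lit 556) (B (M (nat_lit 525) (B (L (nat_lit 590) ln13_14_4 ln13_14_4_ok) (L (nat_lit 588) ln13_14_5 ln13_14_5_ok))) (B (M (nat_lit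 555) (B (M (nat_lit 591) (B (L (nat_lit 592) ln12_17_0_c10 ln12_17_0_c10_ok) (L (nat_lit 590) ln11_17_0 ln11_17_0_ok))) (M (nat_lit 587) (B (L (nat_lit 588) ln15_17_1_c10 ln15_17_1_c10_ok) (L (nat_lit 586) ln14_17_1 ln14_17_1_ok))))) (B (M (nat_lit 588) (B (L (nat_lit 525) ln13_14_5 ln13_14_5_ok) (L (nat_lit 587) ln15_17_1_c10 ln15_17_1_c10_ok))) (M (nat_lit 591) (B (L (nat_lit 592) ln12_17_0_c10 ln12_17_0_c10_ok) (M (nat_lit 590) (B (L (nat_lit 525) ln13_14_4 ln13_14_4_ok) (L (nat_lit 555) ln11_17_0 ln11_17_0_ok))))))))) (B (M (nat_lit 592) (B (M (nat_lit 593) (B (L (nat_lit 560) ln13_17_0_c10 ln13_17_0_c10_ok) (M (nat_lit 591) (B (L (nat_lit 556) ln12_17_0_c10 ln12_17_0_c10_ok) (L (nat_lit 594) ln18_18_3_c10 ln18_18_3_c10_ok))))) (B (M (nat_lit 591) (B (L (nat_lit 556) ln12_17_0_c10 ln12_17_0_c10_ok) (M (nat_lit 593) (B (L (nat_lit 594) ln18_18_3_c10 ln18_18_3_c10_ok) (L (nat_lit 590) ln17_18_3_c10 ln17_18_3_c10_ok))))) (B (M (nat_lit 593) (B (L (nat_lit 560) ln13_17_0_c10 ln13_17_0_c10_ok) (M (nat_lit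 591) (B (L (nat_lit 594) ln18_18_3_c10 ln18_18_3_c10_ok) (L (nat_lit 590) ln17_18_3_c10 ln17_18_3_c10_ok))))) (B (M (nat_lit 593) (B (L (nat_lit 560) ln13_17_0_c10 ln13_17_0_c10_ok) (M (nat_lit 591) (B (L (nat_lit 556) ln12_17_0_c10 ln12_17_0_c10_ok) (L (nat_lit 590) ln17_18_3_c10 ln17_18_3_c10_ok))))) (B (M (nat_lit 527) (B (M (nat_lit 556) (B (L (nat_lit 528) ln12_17_2_c10 ln12_17_2_c10_ok) (L (nat_lit 591) ln12_17_0_c10 ln12_17_0_c10_ok))) (M (nat_lit 463) (B (L (nat_lit 464) ln16_14_3 ln16_14_3_ok) (M (nat_lit 495) (B (L (nat_lit 560) ln15_14_4_c10 ln15_14_4_c10_ok) (L (nat_lit 590) ln15_14_5_c10 ln15_14_5_c10_ok))))))) (M (nat_lit 560) (B (L (nat_lit 593) ln13_17_0_c10 ln13_17_0_c10_ok) (M (nat_lit 527) (B (M (nat_lit 463) (B (L (nat_lit 464) ln16_14_3 ln16_14_3_ok) (L (nat_lit 495) ln15_14_4_c10 ln15_14_4_c10_ok))) (M (nat_lit 528) (B (L (nat_lit 529) ln13_17_2_c10 ln13_17_2_c10_ok) (L (nat_lit 556) ln12_17_2_c10 ln12_17_2_c10_ok))))))))))))) (B (K (nat_lit 3302217121718848683236933622506786676402152449583581786253212438774014988618797315844621695381304192388946209092733180994661997962730161022819405783883937719918914437120)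 (nat_lit 255292461783744452208458602963849322449395126198300080541199956660525385886466846961106330346624256694565298120775922052558721425741836504575711033673368639158346528984191280873472) (nat_lit 255292461783744452208458602963849322449395126198300080541199956660525385886466846961106330346624256694565298120775922052558721425741836504575711033673368639158346528984191280873472) c10_s534) (B (M (nat_lit 463) (B (L (nat_lit 464) ln16_14_3 ln16_14_3_ok) (M (nat_lit 527) (B (M (nat_lit 590) (B (L (nat_lit 495) ln15_14_5_c10 ln15_14_5_c10_ok) (L (nat_lit 525) ln13_14_4 ln13_14_4_ok))) (M (nat_lit 528) (B (L (nat_lit 556) ln12_17_2_c10 ln12_17_2_c10_ok) (M (nat_lit 529) (B (L (nat_lit 530) ln18_16_1_c10 ln18_16_1_c10_ok) (L (nat_lit 560) ln13_17_2_c10 ln13_17_2_c10_ok))))))))) (M (nat_lit 556) (B (M (nat_lit 588) (B (L (nat_lit 525) ln13_14_5 ln13_14_5_ok) (L (nat_lit 587) ln15_17_1_c10 ln15_17_1_c10_ok))) (M (nat_lit 560) (B (M (nat_lit 528) (B (L (nat_lit 529) ln13_17_2_c10 ln13_17_2_c10_ok) (L (nat_lit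 527) ln12_17_2_c10 ln12_17_2_c10_ok))) (M (nat_lit 592) (B (L (nat_lit 593) ln13_17_0_c10 ln13_17_0_c10_ok) (L (nat_lit 591) ln12_17_0_c10 ln12_17_0_c10_ok))))))))))))) (M (nat_lit 559) (B (M (nat_lit 463) (B (L (nat_lit 464) ln16_14_3 ln16_14_3_ok) (M (nat_lit 527) (B (M (nat_lit 590) (B (L (nat_lit 495) ln15_14_5_c10 ln15_14_5_c10_ok) (L (nat_lit 525) ln13_14_4 ln13_14_4_ok))) (M (nat_lit 528) (B (L (nat_lit 556) ln12_17_2_c10 ln12_17_2_c10_ok) (M (nat_lit 529) (B (L (nat_lit 530) ln18_16_1_c10 ln18_16_1_c10_ok) (L (nat_lit 560) ln13_17_2_c10 ln13_17_2_c10_ok))))))))) (B (M (nat_lit 590) (B (L (nat_lit 525) ln13_14_4 ln13_14_4_ok) (M (nat_lit 527) (B (M (nat_lit 495) (B (L (nat_lit 463) ln15_14_5_c10 ln15_14_5_c10_ok) (M (nat_lit 591) (B (L (nat_lit 494) ln15_18_7 ln15_18_7_ok) (L (nat_lit 622) ln15_15_5_c10 ln15_15_5_c10_ok))))) (M (nat_lit 528) (B (L (nat_lit 556) ln12_17_2_c10 ln12_17_2_c10_ok) (M (nat_lit 529) (B (L (nat_lit 530) ln18_16_1_c10 ln18_16_1_c10_ok) (L (nat_lit 560) ln13_17_2_c10 ln13_17_2_c10_ok)))))))))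 (B (M (nat_lit 590) (B (L (nat_lit 525) ln13_14_4 ln13_14_4_ok) (M (nat_lit 560) (B (M (nat_lit 561) (B (L (nat_lit 589) ln17_17_1_c10 ln17_17_1_c10_ok) (M (nat_lit 593) (B (L (nat_lit 594) ln14_17_0_c10 ln14_17_0_c10_ok) (L (nat_lit 592) ln13_17_0_c10 ln13_17_0_c10_ok))))) (B (M (nat_lit 556) (B (M (nat_lit 528) (B (L (nat_lit 529) ln13_17_2_c10 ln13_17_2_c10_ok) (L (nat_lit 527) ln12_17_2_c10 ln12_17_2_c10_ok))) (M (nat_lit 592) (B (L (nat_lit 593) ln13_17_0_c10 ln13_17_0_c10_ok) (L (nat_lit 591) ln12_17_0_c10 ln12_17_0_c10_ok))))) (M (nat_lit 529) (B (L (nat_lit 528) ln13_17_2_c10 ln13_17_2_c10_ok) (M (nat_lit 561) (B (L (nat_lit 530) ln14_17_2_c10 ln14_17_2_c10_ok) (L (nat_lit 589) ln17_17_1_c10 ln17_17_1_c10_ok)))))))))) (B (M (nat_lit 463) (B (L (nat_lit 464) ln16_14_3 ln16_14_3_ok) (M (nat_lit 590) (B (L (nat_lit 525) ln13_14_4 ln13_14_4_ok) (M (nat_lit 556) (B (M (nat_lit 527) (B (L (nat_lit 495) ln15_14_5_c10 ln15_14_5_c10_ok) (L (nat_lit 528) ln12_17_2_c10 ln12_17_2_c10_ok))) (M (nat_lit 591)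 (B (L (nat_lit 592) ln12_17_0_c10 ln12_17_0_c10_ok) (L (nat_lit 555) ln11_17_0 ln11_17_0_ok))))))))) c10_d349)))))))
noncomputable def c10_d351 : Cert := (B (M (nat_lit 557) (B (M (nat_lit 525) (B (L (nat_lit 590) ln13_14_4 ln13_14_4_ok) (M (nat_lit 588) (B (L (nat_lit 556) ln13_14_5 ln13_14_5_ok) (M (nat_lit 589) (B (L (nat_lit 494) ln13_18_6 ln13_18_6_ok) (L (nat_lit 620) ln13_15_5_c10 ln13_15_5_c10_ok))))))) (B (K (nat_lit 1415235909308078007116156332012652230943691839375361572065109288651202907422722889801558332792474808618212021577351258544776705647767764706538688658167589698094216773632) (nat_lit 64582914438671808551623015933085854783175153392981045286211865118968395920793095709387597915220560784120505296797464440506173804052835363329892892710219652573639568790111928713216) (nat_lit 64582914438671808551623015933085854783175153392981045286211865118968395920793095709387597915220560784120505296797464440506173804052835363329892892710219652573639568790111928713216) c10_s529) (B (M (nat_lit 559) c10_d348)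 (B (M (nat_lit 559) (B (M (nat_lit 525) (B (L (nat_lit 590) ln13_14_4 ln13_14_4_ok) (M (nat_lit 589) (B (L (nat_lit 494) ln13_18_6 ln13_18_6_ok) (M (nat_lit 588) (B (L (nat_lit 620) ln13_15_5_c10 ln13_15_5_c10_ok) (L (nat_lit 560) ln16_17_1_c10 ln16_17_1_c10_ok))))))) (B (M (nat_lit 560) (B (M (nat_lit 561) (B (M (nat_lit 529) (B (L (nat_lit 530) ln14_17_2_c10 ln14_17_2_c10_ok) (L (nat_lit 528) ln13_17_2_c10 ln13_17_2_c10_ok))) (M (nat_lit 593) (B (L (nat_lit 594) ln14_17_0_c10 ln14_17_0_c10_ok) (L (nat_lit 592) ln13_17_0_c10 ln13_17_0_c10_ok))))) (B (M (nat_lit 590) (B (L (nat_lit 525) ln13_14_4 ln13_14_4_ok) (M (nat_lit 561) (B (L (nat_lit 589) ln17_17_1_c10 ln17_17_1_c10_ok) (M (nat_lit 593) (B (L (nat_lit 594) ln14_17_0_c10 ln14_17_0_c10_ok) (L (nat_lit 592) ln13_17_0_c10 ln13_17_0_c10_ok))))))) (B (M (nat_lit 592) (B (L (nat_lit 593) ln13_17_0_c10 ln13_17_0_c10_ok) (M (nat_lit 528) (B (L (nat_lit 529) ln13_17_2_c10 ln13_17_2_c10_ok) (M (nat_lit 463) (B (L (nat_lit 464) ln16_14_3 ln16_14_3_ok) (M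 (nat_lit 495) (B (L (nat_lit 496) ln16_18_7_c10 ln16_18_7_c10_ok) (L (nat_lit 527) ln15_14_4_c10 ln15_14_4_c10_ok))))))))) (M (nat_lit 529) (B (L (nat_lit 528) ln13_17_2_c10 ln13_17_2_c10_ok) (M (nat_lit 561) (B (L (nat_lit 530) ln14_17_2_c10 ln14_17_2_c10_ok) (M (nat_lit 590) (B (L (nat_lit 525) ln13_14_4 ln13_14_4_ok) (L (nat_lit 589) ln17_17_1_c10 ln17_17_1_c10_ok))))))))))) (B (K (nat_lit 3302217121718848683236933622506786676402152449583581786253212438774014988618797315844621695381304192388946209092733180994661997962730161022819405783883937719918914437120) (nat_lit 120554773618948391690961210616237441394593008598444872881946398374421461733643383915953934163552384102533480758912898239824707143899328719558476659062893964449708235675475053117440) (nat_lit 120554773618948391690961210616237441394593008598444872881946398374421461733643383915953934163552384102533480758912898239824707143899328719558476659062893964449708235675475053117440) c10_s530) (B (M (nat_lit 494) (B (M (nat_lit 525) (B (L (nat_lit 589)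 ln13_18_6 ln13_18_6_ok) (L (nat_lit 590) ln13_14_4 ln13_14_4_ok))) (M (nat_lit 495) (B (M (nat_lit 464) (B (L (nat_lit 463) ln16_14_3 ln16_14_3_ok) (M (nat_lit 496) (B (L (nat_lit 465) ln13_15_2 ln13_15_2_ok) (L (nat_lit 497) ln17_15_3 ln17_15_3_ok))))) (B (M (nat_lit 492) (B (M (nat_lit 463) (B (L (nat_lit 464) ln16_14_1 ln16_14_1_ok) (L (nat_lit 491) ln11_15_2 ln11_15_2_ok))) (M (nat_lit 527) (B (L (nat_lit 591) ln15_18_7 ln15_18_7_ok) (L (nat_lit 528) ln12_15_0 ln12_15_0_ok))))) (B (M (nat_lit 492) (B (M (nat_lit 491) (B (L (nat_lit 463) ln11_15_2 ln11_15_2_ok) (L (nat_lit 490) ln10_15_2 ln10_15_2_ok))) (M (nat_lit 527) (B (L (nat_lit 591) ln15_18_7 ln15_18_7_ok) (L (nat_lit 528) ln12_15_0 ln12_15_0_ok))))) (M (nat_lit 528) (B (M (nat_lit 496) (B (L (nat_lit 497) ln17_15_3 ln17_15_3_ok) (L (nat_lit 529) ln13_15_0 ln13_15_0_ok))) (M (nat_lit 527) (B (L (nat_lit 591) ln15_18_7 ln15_18_7_ok) (L (nat_lit 492) ln12_15_0 ln12_15_0_ok))))))))))) (B (K (nat_lit 3302217121718848683236933622506786676402152449583581786253212438774014988618797315844621695381304192388946209092733180994661997962730161022819405783883937719918914437120)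 (nat_lit 4351082561761990989148842965196143678748958109411961161765363459566735727340365533898472710776099739469366618098062050147127427611090507478220847462663093171920043722981574661037048725504) (nat_lit 4351082561761990989148842965196143678748958109411961161765363459566735727340365533898472710776099739469366618098062050147127427611090507478220847462663093171920043722981574661037048725504) c10_s533) (K (nat_lit 3302217121718848683236933622506786676402152449583581786253212438774014988618797315844621695381304192388946209092733180994661997962730161022819405783883937719918914437120) (nat_lit 255292461783744452208458602963849322449395126198300080541199956660525385886466846961106330346624256694565298120775922052558721425741836504575711033673368639158346528984191280873472) (nat_lit 255292461783744452208458602963849322449395126198300080541199956660525385886466846961106330346624256694565298120775922052558721425741836504575711033673368639158346528984191280873472) c10_s534))))))) c10_d350))))) (M (nat_lit 494)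 (B (L (nat_lit 526) ln14_17_7 ln14_17_7_ok) (M (nat_lit 495) (B (M (nat_lit 464) (B (L (nat_lit 463) ln16_14_3 ln16_14_3_ok) (M (nat_lit 496) (B (L (nat_lit 465) ln13_15_2 ln13_15_2_ok) (L (nat_lit 497) ln17_15_3 ln17_15_3_ok))))) (B (M (nat_lit 463) (B (L (nat_lit 464) ln16_14_3 ln16_14_3_ok) (M (nat_lit 527) (B (M (nat_lit 559) (B (L (nat_lit 590) ln15_14_5_c10 ln15_14_5_c10_ok) (L (nat_lit 591) ln15_18_7 ln15_18_7_ok))) (M (nat_lit 492) (B (L (nat_lit 491) ln11_15_2 ln11_15_2_ok) (L (nat_lit 528) ln12_15_0 ln12_15_0_ok))))))) (B (M (nat_lit 496) (B (L (nat_lit 497) ln17_15_3 ln17_15_3_ok) (M (nat_lit 528) (B (L (nat_lit 529) ln13_15_0 ln13_15_0_ok) (M (nat_lit 527) (B (L (nat_lit 492) ln12_15_0 ln12_15_0_ok) (M (nat_lit 463) (B (M (nat_lit 560) (B (L (nat_lit 431) ln15_13_4_c10 ln15_13_4_c10_ok) (L (nat_lit 592) ln16_18_7_c10 ln16_18_7_c10_ok))) (M (nat_lit 559) (B (L (nat_lit 590) ln15_14_5_c10 ln15_14_5_c10_ok) (L (nat_lit 591) ln15_18_7 ln15_18_7_ok))))))))))) (M (nat_lit 496) (B (L (nat_lit 497)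 ln17_15_3 ln17_15_3_ok) (M (nat_lit 528) (B (L (nat_lit 529) ln13_15_0 ln13_15_0_ok) (M (nat_lit 527) (B (L (nat_lit 492) ln12_15_0 ln12_15_0_ok) (M (nat_lit 464) (B (L (nat_lit 465) ln13_15_2 ln13_15_2_ok) (M (nat_lit 559) (B (L (nat_lit 432) ln16_13_5_c10 ln16_13_5_c10_ok) (L (nat_lit 591) ln15_18_6_c10 ln15_18_6_c10_ok))))))))))))))))))
noncomputable def c10_d352 : Cert := (B (M (nat_lit 427) (B (L (nat_lit 426) ln10_13_0 ln10_13_0_ok) (M (nat_lit 558) (B (M (nat_lit 526) (B (L (nat_lit 494) ln14_17_7 ln14_17_7_ok) (L (nat_lit 525) ln13_13_4 ln13_13_4_ok))) (B (M (nat_lit 557) (B (M (nat_lit 525) (B (L (nat_lit 460) ln13_17_7 ln13_17_7_ok) (L (nat_lit 590) ln13_14_4 ln13_14_4_ok))) (B (M (nat_lit 525) (B (L (nat_lit 590) ln13_14_4 ln13_14_4_ok) (M (nat_lit 588) (B (L (nat_lit 556) ln13_14_5 ln13_14_5_ok) (M (nat_lit 589) (B (L (nat_lit 494) ln13_18_6 ln13_18_6_ok) (L (nat_lit 620) ln13_15_5_c10 ln13_15_5_c10_ok))))))) (B (M (nat_lit 559) (B (M (nat_lit 560) (B (M (nat_lit 592) (B (L (nat_lit 593) ln13_17_0_c10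 ln13_17_0_c10_ok) (M (nat_lit 556) (B (L (nat_lit 591) ln12_17_0_c10 ln12_17_0_c10_ok) (M (nat_lit 528) (B (L (nat_lit 529) ln13_17_2_c10 ln13_17_2_c10_ok) (L (nat_lit 527) ln12_17_2_c10 ln12_17_2_c10_ok))))))) (B (M (nat_lit 556) (B (M (nat_lit 592) (B (L (nat_lit 593) ln13_17_0_c10 ln13_17_0_c10_ok) (L (nat_lit 591) ln12_17_0_c10 ln12_17_0_c10_ok))) (M (nat_lit 588) (B (L (nat_lit 589) ln16_17_1_c10 ln16_17_1_c10_ok) (L (nat_lit 587) ln15_17_1_c10 ln15_17_1_c10_ok))))) (M (nat_lit 561) (B (M (nat_lit 529) (B (L (nat_lit 530) ln14_17_2_c10 ln14_17_2_c10_ok) (L (nat_lit 528) ln13_17_2_c10 ln13_17_2_c10_ok))) (M (nat_lit 589) (B (L (nat_lit 590) ln17_17_1_c10 ln17_17_1_c10_ok) (L (nat_lit 588) ln16_17_1_c10 ln16_17_1_c10_ok)))))))) (B (M (nat_lit 556) (B (M (nat_lit 560) (B (M (nat_lit 528) (B (L (nat_lit 529) ln13_17_2_c10 ln13_17_2_c10_ok) (L (nat_lit 527) ln12_17_2_c10 ln12_17_2_c10_ok))) (M (nat_lit 588) (B (L (nat_lit 589) ln16_17_1_c10 ln16_17_1_c10_ok) (L (nat_lit 587) ln15_17_1_c10 ln15_17_1_c10_ok)))))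 (B (M (nat_lit 560) (B (M (nat_lit 592) (B (L (nat_lit 593) ln13_17_0_c10 ln13_17_0_c10_ok) (L (nat_lit 591) ln12_17_0_c10 ln12_17_0_c10_ok))) (M (nat_lit 588) (B (L (nat_lit 589) ln16_17_1_c10 ln16_17_1_c10_ok) (L (nat_lit 587) ln15_17_1_c10 ln15_17_1_c10_ok))))) (B (M (nat_lit 555) (B (M (nat_lit 591) (B (L (nat_lit 592) ln12_17_0_c10 ln12_17_0_c10_ok) (L (nat_lit 590) ln11_17_0 ln11_17_0_ok))) (M (nat_lit 587) (B (L (nat_lit 588) ln15_17_1_c10 ln15_17_1_c10_ok) (L (nat_lit 586) ln14_17_1 ln14_17_1_ok))))) (M (nat_lit 560) (B (M (nat_lit 528) (B (L (nat_lit 529) ln13_17_2_c10 ln13_17_2_c10_ok) (L (nat_lit 527) ln12_17_2_c10 ln12_17_2_c10_ok))) (M (nat_lit 592) (B (L (nat_lit 593) ln13_17_0_c10 ln13_17_0_c10_ok) (L (nat_lit 591) ln12_17_0_c10 ln12_17_0_c10_ok))))))))) (B (M (nat_lit 556) (B (M (nat_lit 555) (B (M (nat_lit 591) (B (L (nat_lit 592) ln12_17_0_c10 ln12_17_0_c10_ok) (L (nat_lit 590) ln11_17_0 ln11_17_0_ok))) (M (nat_lit 587) (B (L (nat_lit 588) ln15_17_1_c10 ln15_17_1_c10_ok) (L (nat_lit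 586) ln14_17_1 ln14_17_1_ok))))) (B (M (nat_lit 560) (B (M (nat_lit 592) (B (L (nat_lit 593) ln13_17_0_c10 ln13_17_0_c10_ok) (L (nat_lit 591) ln12_17_0_c10 ln12_17_0_c10_ok))) (M (nat_lit 588) (B (L (nat_lit 589) ln16_17_1_c10 ln16_17_1_c10_ok) (L (nat_lit 587) ln15_17_1_c10 ln15_17_1_c10_ok))))) (B (M (nat_lit 555) (B (M (nat_lit 587) (B (L (nat_lit 588) ln15_17_1_c10 ln15_17_1_c10_ok) (L (nat_lit 586) ln14_17_1 ln14_17_1_ok))) (M (nat_lit 554) (B (M (nat_lit 522) (B (L (nat_lit 523) ln14_17_3 ln14_17_3_ok) (L (nat_lit 521) ln13_17_3 ln13_17_3_ok))) (M (nat_lit 590) (B (L (nat_lit 591) ln11_17_0 ln11_17_0_ok) (L (nat_lit 589) ln10_17_0 ln10_17_0_ok))))))) (B (K (nat_lit 3538089773270195017752030783818553482084806609571374414884172634312384384231236173734426592776804175307864810195631624503777656302863478009616669325968656669125623414784) (nat_lit 7977889433896810845632592296572918626914134948091199210446868498736526113192359885432994127349826032010132388393599199205217447394065721511846827424619320218064007849002716364800)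 (nat_lit 7977889433896810845632592296572918626914134948091199210446868498736526113192359885432994127349826032010132388393599199205217447394065721511846827424619320218064007849002716364800) c10_s508) (B (M (nat_lit 555) (B (M (nat_lit 591) (B (L (nat_lit 592) ln12_17_0_c10 ln12_17_0_c10_ok) (L (nat_lit 590) ln11_17_0 ln11_17_0_ok))) (M (nat_lit 554) (B (M (nat_lit 522) (B (L (nat_lit 523) ln14_17_3 ln14_17_3_ok) (L (nat_lit 521) ln13_17_3 ln13_17_3_ok))) (M (nat_lit 586) (B (L (nat_lit 587) ln14_17_1 ln14_17_1_ok) (L (nat_lit 585) ln13_17_1 ln13_17_1_ok))))))) (M (nat_lit 591) (B (L (nat_lit 592) ln12_17_0_c10 ln12_17_0_c10_ok) (M (nat_lit 590) (B (L (nat_lit 555) ln11_17_0 ln11_17_0_ok) (M (nat_lit 527) (B (L (nat_lit 528) ln12_17_2_c10 ln12_17_2_c10_ok) (M (nat_lit 495) (B (L (nat_lit 494) ln15_18_7 ln15_18_7_ok) (L (nat_lit 622) ln15_15_5_c10 ln15_15_5_c10_ok))))))))))))))) c10_d344)))) (M (nat_lit 525) (B (L (nat_lit 460) ln13_17_7 ln13_17_7_ok) (M (nat_lit 588) (B (L (nat_lit 556) ln13_14_5 ln13_14_5_ok)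 (M (nat_lit 589) (B (L (nat_lit 494) ln13_18_6 ln13_18_6_ok) (L (nat_lit 620) ln13_15_5_c10 ln13_15_5_c10_ok))))))))))) (B (M (nat_lit 525) (B (L (nat_lit 526) ln13_13_4 ln13_13_4_ok) (M (nat_lit 557) (B (L (nat_lit 460) ln13_17_7 ln13_17_7_ok) (L (nat_lit 590) ln13_14_4 ln13_14_4_ok))))) (K (nat_lit 943490606205385338085962009389118619579423270535071620375530802893517772586633837925214469217163772623105302361981481135185379369790183074730683278108678139116664127488) (nat_lit 20683696007019331629715133982810853095772490748088736561480268972533577081682744472750020084850008780265038603948486614594231355820580173003898733033840740199519621950246706522620104939870341125238376761526980496588800) (nat_lit 20683696007019331629715133982810853095772490748088736561480268972533577081682744472750020084850008780265038603948486614594231355820580173003898733033840740199519621950246706522620104939870341125238376761526980496588800) c10_s528))))))) (B (M (nat_lit 427) (B (L (nat_lit 426) ln10_13_0 ln10_13_0_ok) (M (nat_lit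 491) (B (M (nat_lit 463) (B (L (nat_lit 460) ln15_14_3 ln15_14_3_ok) (M (nat_lit 492) (B (L (nat_lit 494) ln11_15_2 ln11_15_2_ok) (L (nat_lit 490) ln10_15_2 ln10_15_2_ok))))) (B (M (nat_lit 490) (B (L (nat_lit 492) ln10_15_2 ln10_15_2_ok) (M (nat_lit 459) (B (L (nat_lit 460) ln14_14_1 ln14_14_1_ok) (M (nat_lit 522) (B (L (nat_lit 395) ln11_12_5 ln11_12_5_ok) (M (nat_lit 554) (B (L (nat_lit 458) ln10_17_6 ln10_17_6_ok) (L (nat_lit 523) ln11_13_5 ln11_13_5_ok))))))))) (B (M (nat_lit 492) (B (L (nat_lit 490) ln10_15_2 ln10_15_2_ok) (M (nat_lit 494) (B (L (nat_lit 463) ln11_15_2 ln11_15_2_ok) (M (nat_lit 526) (B (L (nat_lit 558) ln14_17_7 ln14_17_7_ok) (L (nat_lit 527) ln11_15_0 ln11_15_0_ok))))))) (B (M (nat_lit 460) (B (L (nat_lit 463) ln15_14_3 ln15_14_3_ok) (M (nat_lit 459) (B (L (nat_lit 490) ln14_14_1 ln14_14_1_ok) (M (nat_lit 494) (B (L (nat_lit 495) ln11_14_0 ln11_14_0_ok) (L (nat_lit 458) ln10_14_0 ln10_14_0_ok))))))) (M (nat_lit 494) (B (M (nat_lit 463) (B (L (nat_lit 460) ln15_14_3 ln15_14_3_ok)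 (L (nat_lit 492) ln11_15_2 ln11_15_2_ok))) (B (M (nat_lit 459) (B (M (nat_lit 460) (B (L (nat_lit 495) ln11_14_0 ln11_14_0_ok) (L (nat_lit 458) ln10_14_0 ln10_14_0_ok))) (B (M (nat_lit 492) (B (L (nat_lit 458) ln14_15_3 ln14_15_3_ok) (M (nat_lit 526) (B (L (nat_lit 558) ln14_17_7 ln14_17_7_ok) (L (nat_lit 527) ln11_15_0 ln11_15_0_ok))))) (M (nat_lit 523) (B (M (nat_lit 460) (B (L (nat_lit 555) ln11_17_6 ln11_17_6_ok) (L (nat_lit 495) ln11_14_0 ln11_14_0_ok))) (M (nat_lit 522) (B (L (nat_lit 554) ln11_13_5 ln11_13_5_ok) (L (nat_lit 492) ln14_15_1 ln14_15_1_ok)))))))) (B (M (nat_lit 492) (B (L (nat_lit 463) ln11_15_2 ln11_15_2_ok) (M (nat_lit 526) (B (L (nat_lit 558) ln14_17_7 ln14_17_7_ok) (L (nat_lit 527) ln11_15_0 ln11_15_0_ok))))) (M (nat_lit 460) (B (L (nat_lit 463) ln15_14_3 ln15_14_3_ok) (M (nat_lit 459) (B (L (nat_lit 495) ln11_14_0 ln11_14_0_ok) (L (nat_lit 458) ln10_14_0 ln10_14_0_ok)))))))))))))))) (M (nat_lit 558) (B (M (nat_lit 526) (B (L (nat_lit 494) ln14_17_7 ln14_17_7_ok) (L (nat_lit 525)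 ln13_13_4 ln13_13_4_ok))) (B (M (nat_lit 557) (B (M (nat_lit 525) (B (L (nat_lit 526) ln13_13_4 ln13_13_4_ok) (L (nat_lit 590) ln13_14_4 ln13_14_4_ok))) (B (K (nat_lit 1415235909308078007116156332012652230943691839375361572065109288651202907422722889801558332792474808618212021577351258544776705647767764706538688658167589698094216773632) (nat_lit 64582914438671808551623015933085854783175153392981045286211865118968395920793095709387597915220560784120505296797464440506173804052835363329892892710219652573639568790111928713216) (nat_lit 64582914438671808551623015933085854783175153392981045286211865118968395920793095709387597915220560784120505296797464440506173804052835363329892892710219652573639568790111928713216) c10_s529) c10_d346))) c10_d351)))))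
theorem c10_s535 : Sem (nat_lit 25573364130142871190987158424436290155594859768243786472166051169608875427477176693711469365038502532468434153398434315331085754617297768642471002112) (nat_lit 20683696007019331629715133982810853095772680697838040880450186578862157036270578299830764118822245957147924323735273905297530942651666924283135457340104863151589613325292965054571125017806434507219906923396860926230528) (nat_lit 20683696007019331629715133982810853095772680697838040880450186578862157036270578299830764118822245957147924323735273905297530942651666924283135457340104863151589613325292965054571125017806434507219906923396860926230528) :=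
  sem_of_chk (M (nat_lit 462) (B (M (nat_lit 463) (B (L (nat_lit 464) ln16_14_3 ln16_14_3_ok) (M (nat_lit 427) (B (L (nat_lit 426) ln10_13_0 ln10_13_0_ok) (L (nat_lit 460) ln15_14_3 ln15_14_3_ok))))) c10_d352)) (nat_lit 25573364130142871190987158424436290155594859768243786472166051169608875427477176693711469365038502532468434153398434315331085754617297768642471002112) (nat_lit 20683696007019331629715133982810853095772680697838040880450186578862157036270578299830764118822245957147924323735273905297530942651666924283135457340104863151589613325292965054571125017806434507219906923396860926230528) (nat_lit 20683696007019331629715133982810853095772680697838040880450186578862157036270578299830764118822245957147924323735273905297530942651666924283135457340104863151589613325292965054571125017806434507219906923396860926230528) (by decide +kernel)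

end Vale.Agent.Lib.P062.Data
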