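import Vale.Agent.Lib.P062.Data.c10_lines
import Vale.Agent.Lib.P062.Data.c10_l0_0
import Vale.Agent.Lib.P062.Data.c10_l0_1
import Vale.Agent.Lib.P062.Data.c10_l0_2
import Vale.Agent.Lib.P062.Data.c10_l0_3
import Vale.Agent.Lib.P062.Data.c10_l1_1
import Vale.Agent.Lib.P062.Data.c10_l1_2
import Vale.Agent.Lib.P062.Data.c10_l1_3
import Vale.Agent.Lib.P062.Data.c10_l1_4

namespace Vale.Agent.Lib.P062.Data
theorem c10_s405 : Sem (nat_lit 5954262830815946494763249298843757173852324438261567950902348008252711619201165097221184162808274170258209505398083731990017737449713696768) (nat_lit 13208868489950824085351155109865655222757235114741041868884393176626271551614361781148658982440678202729920725844000926332076330680344727043530249685936271001263544467456) (nat_lit 13208868489950824085351155109865655222757235114741041868884393176626271551614361781148658982440678202729920725844000926332076330680344727043530249685936271001263544467456)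 :=
  sem_of_chk (M (nat_lit 333) (B (M (nat_lit 302) (B (M (nat_lit 270) (B (L (nat_lit 301) ln13_12_6 ln13_12_6_ok) (L (nat_lit 334) ln13_13_6 ln13_13_6_ok))) (B (M (nat_lit 332) (B (L (nat_lit 334) ln13_13_6 ln13_13_6_ok) (L (nat_lit 300) ln13_13_7 ln13_13_7_ok))) (M (nat_lit 301) (B (L (nat_lit 270) ln13_12_6 ln13_12_6_ok) (M (nat_lit 300) (B (L (nat_lit 268) ln13_12_7 ln13_12_7_ok) (L (nat_lit 332) ln13_13_7 ln13_13_7_ok)))))))) (B (K (nat_lit 5954262830815946494763249298843757173869822444059832046297328026069652590123990452668329862299680335109489129391678739375805842865898127360) (nat_lit 645562469672033872746501131196467169404565446980275092665241541267244085583696678758287844804294836398608444953823543296) (nat_lit 645562469672033872746501131196467169404565446980275092665241541267244085583696678758287844804294836398608444953823543296) c10_s402) (B (M (nat_lit 334) (B (L (nat_lit 302) ln13_13_6 ln13_13_6_ok)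 (L (nat_lit 366) ln13_14_6 ln13_14_6_ok))) (B (M (nat_lit 300) (B (L (nat_lit 332) ln13_13_7 ln13_13_7_ok) (M (nat_lit 301) (B (L (nat_lit 268) ln13_12_7 ln13_12_7_ok) (M (nat_lit 366) (B (L (nat_lit 334) ln13_14_6 ln13_14_6_ok) (M (nat_lit 396) (B (L (nat_lit 428) ln13_9_5 ln13_9_5_ok) (M (nat_lit 398) (B (L (nat_lit 269) ln13_8_4 ln13_8_4_ok) (M (nat_lit 367) (B (L (nat_lit 368) ln16_11_1 ln16_11_1_ok) (L (nat_lit 395) ln11_12_2 ln11_12_2_ok))))))))))))) (K (nat_lit 5954262830815946494763249298843757173869822444059832046297328026069652590123990452668329862299680335109489129391678739375805842865898127360) (nat_lit 13208868489950824085351155109865655222757235114740961173575702960732792310122841894741401239081201356154434743023746995039320289466051472536515905630361652110503262027776) (nat_lit 13208868489950824085351155109865655222757235114740961173575702960732792310122841894741401239081201356154434743023746995039320289466051472536515905630361652110503262027776)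 c10_s404)))))) (nat_lit 5954262830815946494763249298843757173852324438261567950902348008252711619201165097221184162808274170258209505398083731990017737449713696768) (nat_lit 13208868489950824085351155109865655222757235114741041868884393176626271551614361781148658982440678202729920725844000926332076330680344727043530249685936271001263544467456) (nat_lit 13208868489950824085351155109865655222757235114741041868884393176626271551614361781148658982440678202729920725844000926332076330680344727043530249685936271001263544467456) (by decide +kernel)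
noncomputable def c10_d353 : Cert := (B (M (nat_lit 303) (B (K (nat_lit 383600461868783388222986614096266462235883586976421838006897082937082378022292168646313495504118652032479925772076346627612894864867166214612093763584) (nat_lit 8818994923302881348195200955421754801986153761310491674633687882605350337330600013800791662914512617472) (nat_lit 8818994923302881348195200955421754801986153761310491674633687882605350337330600013800791662914512617472) c10_s415) (B (K (nat_lit 383600461868783388222986614096266462235883586976421838006897082937082378022292168646313495504118652032479925772076346627612894864867166214612093763584) (nat_lit 5545339388241629719457441819421468989071261238407964100493933234300421108696501212606743336484119113782672306046944549844478328832) (nat_lit 5545339388241629719457441819421468989071261238407964100493933234300421108696501212606743336484119113782672306046944549844478328832) c10_s417) (B (K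 (nat_lit 383600461868783388222986614096266462235883586976421838006897082937082378022292168646313495504118652032479925772076346627612894864867166214612093763584) (nat_lit 300613454774886788693614988598367868538921702901094339757992322401383521549918614185244430057935191406777729024) (nat_lit 300613454774886788693614988598367868538921702901094339757992322401383521549918614185244430057935191406777729024) c10_s418) (B (K (nat_lit 383600461868783388222986614096266462235883586976421838006897082937082378022292168646313495504118652032479925772076346627612894864867166214612093763584) (nat_lit 8364046772554125975851641101842989235682247984815320839493576269945832044411935045382312585802496868352) (nat_lit 8364046772554125975851641101842989235682247984815320839493576269945832044411935045382312585802496868352) c10_s419) (B (K (nat_lit 383600461868783388222986614096266462235883586976421838006897082937082378022292168646313495504118652032479925772076346627612894864867166214612093763584)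 (nat_lit 2204748731041646150638669776481160886035154598115746158358196519784185081138562360632454216916083408896) (nat_lit 2204748731041646150638669776481160886035154598115746158358196519784185081138562360632454216916083408896) c10_s420) (B (M (nat_lit 273) (B (M (nat_lit 274) (B (L (nat_lit 305) ln14_9_2_c10 ln14_9_2_c10_ok) (M (nat_lit 272) (B (L (nat_lit 271) ln18_8_1_c10 ln18_8_1_c10_ok) (L (nat_lit 301) ln13_9_2 ln13_9_2_ok))))) (B (M (nat_lit 336) (B (M (nat_lit 301) (B (L (nat_lit 272) ln13_9_2 ln13_9_2_ok) (L (nat_lit 337) ln13_9_0 ln13_9_0_ok))) (B (M (nat_lit 337) (B (L (nat_lit 301) ln13_9_0 ln13_9_0_ok) (M (nat_lit 338) (B (L (nat_lit 305) ln14_9_0_c10 ln14_9_0_c10_ok) (L (nat_lit 339) ln19_10_3_c10 ln19_10_3_c10_ok))))) (M (nat_lit 368) (B (L (nat_lit 305) ln16_12_6_c10 ln16_12_6_c10_ok) (M (nat_lit 272) (B (L (nat_lit 241) ln16_11_6_c10 ln16_11_6_c10_ok) (L (nat_lit 271) ln16_12_7_c10 ln16_12_7_c10_ok))))))))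 (B (M (nat_lit 305) (B (L (nat_lit 274) ln14_9_2_c10 ln14_9_2_c10_ok) (M (nat_lit 337) (B (L (nat_lit 338) ln14_9_0_c10 ln14_9_0_c10_ok) (M (nat_lit 336) (B (L (nat_lit 301) ln13_9_0 ln13_9_0_ok) (L (nat_lit 368) ln16_12_6_c10 ln16_12_6_c10_ok))))))) (B (M (nat_lit 272) (B (L (nat_lit 301) ln13_9_2 ln13_9_2_ok) (M (nat_lit 274) (B (L (nat_lit 275) ln19_8_1_c10 ln19_8_1_c10_ok) (L (nat_lit 271) ln18_8_1_c10 ln18_8_1_c10_ok))))) (M (nat_lit 274) (B (L (nat_lit 305) ln14_9_2_c10 ln14_9_2_c10_ok) (M (nat_lit 272) (B (L (nat_lit 275) ln19_8_1_c10 ln19_8_1_c10_ok) (L (nat_lit 271) ln18_8_1_c10 ln18_8_1_c10_ok)))))))))) (K (nat_lit 383600461868783388222986614096266462235883586976421838006897082937082378022292168646313495504118652032479925772076346627612894864867166214612093763584) (nat_lit 1959776649605208210039484153318288440616570292285236591611335649489227907647302851929659909464949522432) (nat_lit 1959776649605208210039484153318288440616570292285236591611335649489227907647302851929659909464949522432)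 c10_s421)))))))) (B (M (nat_lit 369) (B (L (nat_lit 368) ln13_12_2 ln13_12_2_ok) (M (nat_lit 401) (B (L (nat_lit 370) ln14_12_2 ln14_12_2_ok) (M (nat_lit 434) (B (L (nat_lit 433) ln14_12_0 ln14_12_0_ok) (M (nat_lit 402) (B (L (nat_lit 435) ln15_12_0 ln15_12_0_ok) (M (nat_lit 305) (B (L (nat_lit 337) ln17_9_4_c10 ln17_9_4_c10_ok) (M (nat_lit 466) (B (L (nat_lit 498) ln18_15_7_c10 ln18_15_7_c10_ok) (M (nat_lit 303) (B (M (nat_lit 306) (B (M (nat_lit 307) (B (M (nat_lit 271) (B (L (nat_lit 270) ln18_9_3_c10 ln18_9_3_c10_ok) (L (nat_lit 272) ln19_9_3_c10 ln19_9_3_c10_ok))) (M (nat_lit 339) (B (L (nat_lit 338) ln15_9_0_c10 ln15_9_0_c10_ok) (L (nat_lit 340) ln16_9_0_c10 ln16_9_0_c10_ok))))) (B (M (nat_lit 275) (B (L (nat_lit 274) ln15_9_2_c10 ln15_9_2_c10_ok) (M (nat_lit 307) (B (L (nat_lit 276) ln16_9_2_c10 ln16_9_2_c10_ok) (M (nat_lit 339) (B (L (nat_lit 338) ln15_9_0_c10 ln15_9_0_c10_ok) (L (nat_lit 340) ln16_9_0_c10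 ln16_9_0_c10_ok))))))) (B (M (nat_lit 307) (B (M (nat_lit 271) (B (L (nat_lit 270) ln18_9_3_c10 ln18_9_3_c10_ok) (L (nat_lit 272) ln19_9_3_c10 ln19_9_3_c10_ok))) (M (nat_lit 275) (B (L (nat_lit 274) ln15_9_2_c10 ln15_9_2_c10_ok) (L (nat_lit 276) ln16_9_2_c10 ln16_9_2_c10_ok))))) (M (nat_lit 270) (B (L (nat_lit 269) ln17_9_3_c10 ln17_9_3_c10_ok) (L (nat_lit 271) ln18_9_3_c10 ln18_9_3_c10_ok))))))) (B (M (nat_lit 306) (B (M (nat_lit 307) (B (M (nat_lit 275) (B (L (nat_lit 276) ln16_9_2_c10 ln16_9_2_c10_ok) (L (nat_lit 274) ln15_9_2_c10 ln15_9_2_c10_ok))) (M (nat_lit 271) (B (L (nat_lit 272) ln19_9_3_c10 ln19_9_3_c10_ok) (L (nat_lit 270) ln18_9_3_c10 ln18_9_3_c10_ok))))) (B (M (nat_lit 274) (B (L (nat_lit 275) ln15_9_2_c10 ln15_9_2_c10_ok) (L (nat_lit 273) ln14_9_2_c10 ln14_9_2_c10_ok))) (M (nat_lit 270) (B (L (nat_lit 271) ln18_9_3_c10 ln18_9_3_c10_ok) (L (nat_lit 269) ln17_9_3_c10 ln17_9_3_c10_ok)))))) (B (M (nat_lit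 301) (B (M (nat_lit 273) (B (L (nat_lit 274) ln14_9_2_c10 ln14_9_2_c10_ok) (L (nat_lit 272) ln13_9_2 ln13_9_2_ok))) (M (nat_lit 269) (B (L (nat_lit 270) ln17_9_3_c10 ln17_9_3_c10_ok) (L (nat_lit 268) ln16_9_3_c10 ln16_9_3_c10_ok))))) (B (M (nat_lit 306) (B (M (nat_lit 270) (B (L (nat_lit 269) ln17_9_3_c10 ln17_9_3_c10_ok) (L (nat_lit 271) ln18_9_3_c10 ln18_9_3_c10_ok))) (M (nat_lit 274) (B (L (nat_lit 273) ln14_9_2_c10 ln14_9_2_c10_ok) (L (nat_lit 275) ln15_9_2_c10 ln15_9_2_c10_ok))))) (B (M (nat_lit 306) (B (M (nat_lit 274) (B (L (nat_lit 275) ln15_9_2_c10 ln15_9_2_c10_ok) (L (nat_lit 273) ln14_9_2_c10 ln14_9_2_c10_ok))) (M (nat_lit 307) (B (M (nat_lit 339) (B (L (nat_lit 340) ln16_9_0_c10 ln16_9_0_c10_ok) (L (nat_lit 338) ln15_9_0_c10 ln15_9_0_c10_ok))) (M (nat_lit 271) (B (L (nat_lit 272) ln19_9_3_c10 ln19_9_3_c10_ok) (L (nat_lit 270) ln18_9_3_c10 ln18_9_3_c10_ok))))))) (B (M (nat_lit 270) (B (L (nat_lit 269)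 ln17_9_3_c10 ln17_9_3_c10_ok) (M (nat_lit 335) (B (M (nat_lit 306) (B (L (nat_lit 334) ln18_9_1_c10 ln18_9_1_c10_ok) (L (nat_lit 271) ln18_9_3_c10 ln18_9_3_c10_ok))) (M (nat_lit 238) (B (L (nat_lit 206) ln14_6_4_c10 ln14_6_4_c10_ok) (L (nat_lit 367) ln15_12_7 ln15_12_7_ok))))))) (M (nat_lit 306) (B (M (nat_lit 274) (B (L (nat_lit 275) ln15_9_2_c10 ln15_9_2_c10_ok) (L (nat_lit 273) ln14_9_2_c10 ln14_9_2_c10_ok))) (B (M (nat_lit 273) (B (L (nat_lit 274) ln14_9_2_c10 ln14_9_2_c10_ok) (M (nat_lit 272) (B (L (nat_lit 301) ln13_9_2 ln13_9_2_ok) (M (nat_lit 307) (B (L (nat_lit 308) ln20_9_3_c10 ln20_9_3_c10_ok) (L (nat_lit 271) ln19_9_3_c10 ln19_9_3_c10_ok))))))) (B (M (nat_lit 307) (B (M (nat_lit 339) (B (L (nat_lit 340) ln16_9_0_c10 ln16_9_0_c10_ok) (L (nat_lit 338) ln15_9_0_c10 ln15_9_0_c10_ok))) (M (nat_lit 272) (B (L (nat_lit 271) ln19_9_3_c10 ln19_9_3_c10_ok) (M (nat_lit 273) (B (L (nat_lit 308) ln20_9_3_c10 ln20_9_3_c10_ok)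 (L (nat_lit 301) ln13_9_2 ln13_9_2_ok))))))) (M (nat_lit 307) (B (M (nat_lit 275) (B (L (nat_lit 276) ln16_9_2_c10 ln16_9_2_c10_ok) (L (nat_lit 274) ln15_9_2_c10 ln15_9_2_c10_ok))) (M (nat_lit 339) (B (L (nat_lit 340) ln16_9_0_c10 ln16_9_0_c10_ok) (L (nat_lit 338) ln15_9_0_c10 ln15_9_0_c10_ok)))))))))))))))))))))))))))) (B (M (nat_lit 368) (B (L (nat_lit 369) ln13_12_2 ln13_12_2_ok) (M (nat_lit 336) (B (L (nat_lit 431) ln16_9_5 ln16_9_5_ok) (M (nat_lit 303) (B (L (nat_lit 271) ln16_12_7_c10 ln16_12_7_c10_ok) (M (nat_lit 272) (B (L (nat_lit 367) ln16_8_5 ln16_8_5_ok) (M (nat_lit 273) (B (L (nat_lit 241) ln16_11_6_c10 ln16_11_6_c10_ok) (L (nat_lit 301) ln13_9_2 ln13_9_2_ok))))))))))) (B (M (nat_lit 368) (B (L (nat_lit 369) ln13_12_2 ln13_12_2_ok) (M (nat_lit 336) (B (L (nat_lit 431) ln16_9_5 ln16_9_5_ok) (M (nat_lit 303) (B (L (nat_lit 271) ln16_12_7_c10 ln16_12_7_c10_ok) (M (nat_lit 337) (B (L (nat_lit 301) ln13_9_0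 ln13_9_0_ok) (M (nat_lit 338) (B (L (nat_lit 305) ln14_9_0_c10 ln14_9_0_c10_ok) (L (nat_lit 339) ln19_10_3_c10 ln19_10_3_c10_ok))))))))))) (M (nat_lit 368) (B (L (nat_lit 369) ln13_12_2 ln13_12_2_ok) (M (nat_lit 336) (B (L (nat_lit 431) ln16_9_5 ln16_9_5_ok) (M (nat_lit 272) (B (L (nat_lit 367) ln16_8_5 ln16_8_5_ok) (M (nat_lit 273) (B (L (nat_lit 305) ln16_12_6_c10 ln16_12_6_c10_ok) (L (nat_lit 241) ln16_11_6_c10 ln16_11_6_c10_ok)))))))))))))
noncomputable def c10_d354 : Cert := (B (M (nat_lit 303) (B (M (nat_lit 304) (B (M (nat_lit 269) (B (L (nat_lit 268) ln16_9_3_c10 ln16_9_3_c10_ok) (M (nat_lit 273) (B (L (nat_lit 272) ln13_9_2 ln13_9_2_ok) (M (nat_lit 305) (B (L (nat_lit 274) ln14_9_2_c10 ln14_9_2_c10_ok) (L (nat_lit 270) ln17_9_3_c10 ln17_9_3_c10_ok))))))) (B (M (nat_lit 305) (B (M (nat_lit 337) (B (L (nat_lit 338) ln14_9_0_c10 ln14_9_0_c10_ok) (L (nat_lit 336) ln13_9_0 ln13_9_0_ok))) (M (nat_lit 269) (B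 (L (nat_lit 270) ln17_9_3_c10 ln17_9_3_c10_ok) (L (nat_lit 268) ln16_9_3_c10 ln16_9_3_c10_ok))))) (M (nat_lit 272) (B (L (nat_lit 273) ln13_9_2 ln13_9_2_ok) (M (nat_lit 336) (B (L (nat_lit 337) ln13_9_0 ln13_9_0_ok) (M (nat_lit 240) (B (M (nat_lit 335) (B (L (nat_lit 208) ln16_6_5_c10 ln16_6_5_c10_ok) (L (nat_lit 367) ln16_7_5_c10 ln16_7_5_c10_ok))) (B (M (nat_lit 368) (B (M (nat_lit 239) (B (L (nat_lit 207) ln16_10_7_c10 ln16_10_7_c10_ok) (L (nat_lit 271) ln16_11_7_c10 ln16_11_7_c10_ok))) (L (nat_lit 367) ln16_8_5 ln16_8_5_ok))) (M (nat_lit 208) (B (M (nat_lit 209) (B (L (nat_lit 177) ln16_9_6_c10 ln16_9_6_c10_ok) (L (nat_lit 241) ln16_10_6_c10 ln16_10_6_c10_ok))) (M (nat_lit 207) (B (L (nat_lit 175) ln16_9_7_c10 ln16_9_7_c10_ok) (L (nat_lit 239) ln16_10_7_c10 ln16_10_7_c10_ok))))))))))))))) (B (M (nat_lit 335) (B (M (nat_lit 300) (B (L (nat_lit 336) ln12_9_0 ln12_9_0_ok) (M (nat_lit 267) (B (L (nat_lit 268) ln15_9_3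 ln15_9_3_ok) (M (nat_lit 331) (B (L (nat_lit 332) ln15_9_1_c10 ln15_9_1_c10_ok) (M (nat_lit 299) (B (L (nat_lit 266) ln14_9_3 ln14_9_3_ok) (L (nat_lit 330) ln14_9_1_c10 ln14_9_1_c10_ok))))))))) (M (nat_lit 367) (B (M (nat_lit 368) (B (L (nat_lit 271) ln15_8_4 ln15_8_4_ok) (L (nat_lit 369) ln13_12_2 ln13_12_2_ok))) (L (nat_lit 270) ln15_12_7 ln15_12_7_ok))))) (B (M (nat_lit 300) (B (M (nat_lit 272) (B (L (nat_lit 271) ln12_9_2 ln12_9_2_ok) (M (nat_lit 304) (B (L (nat_lit 273) ln13_9_2 ln13_9_2_ok) (M (nat_lit 336) (B (L (nat_lit 337) ln13_9_0 ln13_9_0_ok) (L (nat_lit 335) ln12_9_0 ln12_9_0_ok))))))) (M (nat_lit 267) (B (L (nat_lit 268) ln15_9_3 ln15_9_3_ok) (M (nat_lit 299) (B (L (nat_lit 266) ln14_9_3 ln14_9_3_ok) (M (nat_lit 331) (B (L (nat_lit 332) ln15_9_1_c10 ln15_9_1_c10_ok) (L (nat_lit 330) ln14_9_1_c10 ln14_9_1_c10_ok))))))))) (B (K (nat_lit 383600461868783388222986614096266462235883586976421838006868564433413695217084410406675764209863931474968602664567440661321933526670479500725526200320)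 (nat_lit 300613451644931001100328851744333737280865890317937480916586097183863719359706696952850680742590159362205941760) (nat_lit 300613451644931001100328851744333737280865890317937480916586097183863719359706696952850680742590159362205941760) c10_s422) (B (M (nat_lit 304) (B (M (nat_lit 337) (B (L (nat_lit 336) ln13_9_0 ln13_9_0_ok) (M (nat_lit 305) (B (L (nat_lit 338) ln14_9_0_c10 ln14_9_0_c10_ok) (M (nat_lit 273) (B (L (nat_lit 272) ln13_9_2 ln13_9_2_ok) (L (nat_lit 274) ln14_9_2_c10 ln14_9_2_c10_ok))))))) (B (M (nat_lit 305) (B (M (nat_lit 269) (B (L (nat_lit 268) ln16_9_3_c10 ln16_9_3_c10_ok) (L (nat_lit 270) ln17_9_3_c10 ln17_9_3_c10_ok))) (M (nat_lit 273) (B (L (nat_lit 272) ln13_9_2 ln13_9_2_ok) (L (nat_lit 274) ln14_9_2_c10 ln14_9_2_c10_ok))))) (B (M (nat_lit 305) (B (M (nat_lit 269) (B (L (nat_lit 268) ln16_9_3_c10 ln16_9_3_c10_ok) (L (nat_lit 270) ln17_9_3_c10 ln17_9_3_c10_ok))) (M (nat_lit 337) (B (L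 (nat_lit 336) ln13_9_0 ln13_9_0_ok) (L (nat_lit 338) ln14_9_0_c10 ln14_9_0_c10_ok))))) (M (nat_lit 300) (B (M (nat_lit 268) (B (L (nat_lit 267) ln15_9_3 ln15_9_3_ok) (L (nat_lit 269) ln16_9_3_c10 ln16_9_3_c10_ok))) (M (nat_lit 336) (B (L (nat_lit 335) ln12_9_0 ln12_9_0_ok) (L (nat_lit 337) ln13_9_0 ln13_9_0_ok))))))))) (M (nat_lit 300) (B (M (nat_lit 299) (B (M (nat_lit 271) (B (L (nat_lit 272) ln12_9_2 ln12_9_2_ok) (L (nat_lit 270) ln11_9_2 ln11_9_2_ok))) (M (nat_lit 331) (B (L (nat_lit 332) ln15_9_1_c10 ln15_9_1_c10_ok) (L (nat_lit 330) ln14_9_1_c10 ln14_9_1_c10_ok))))) (B (M (nat_lit 267) (B (L (nat_lit 268) ln15_9_3 ln15_9_3_ok) (M (nat_lit 299) (B (L (nat_lit 266) ln14_9_3 ln14_9_3_ok) (M (nat_lit 331) (B (L (nat_lit 332) ln15_9_1_c10 ln15_9_1_c10_ok) (L (nat_lit 330) ln14_9_1_c10 ln14_9_1_c10_ok))))))) (B (M (nat_lit 299) (B (M (nat_lit 271) (B (L (nat_lit 272) ln12_9_2 ln12_9_2_ok) (L (nat_lit 270) ln11_9_2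 ln11_9_2_ok))) (M (nat_lit 267) (B (L (nat_lit 268) ln15_9_3 ln15_9_3_ok) (L (nat_lit 266) ln14_9_3 ln14_9_3_ok))))) (M (nat_lit 304) (B (M (nat_lit 272) (B (L (nat_lit 273) ln13_9_2 ln13_9_2_ok) (L (nat_lit 271) ln12_9_2 ln12_9_2_ok))) (M (nat_lit 268) (B (L (nat_lit 269) ln16_9_3_c10 ln16_9_3_c10_ok) (L (nat_lit 267) ln15_9_3 ln15_9_3_ok))))))))))))))) (B (M (nat_lit 300) (B (M (nat_lit 332) (B (L (nat_lit 333) ln13_13_7 ln13_13_7_ok) (M (nat_lit 331) (B (L (nat_lit 303) ln15_9_1_c10 ln15_9_1_c10_ok) (M (nat_lit 330) (B (L (nat_lit 329) ln9_10_2 ln9_10_2_ok) (L (nat_lit 299) ln14_9_1_c10 ln14_9_1_c10_ok))))))) (B (M (nat_lit 333) (B (L (nat_lit 268) ln13_12_7 ln13_12_7_ok) (L (nat_lit 332) ln13_13_7 ln13_13_7_ok))) (B (M (nat_lit 268) (B (L (nat_lit 333) ln13_12_7 ln13_12_7_ok) (M (nat_lit 267) (B (L (nat_lit 303) ln15_9_3 ln15_9_3_ok) (M (nat_lit 266) (B (L (nat_lit 299) ln14_9_3 ln14_9_3_ok) (L (nat_lit 269)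 ln10_8_0_c10 ln10_8_0_c10_ok))))))) (M (nat_lit 303) (B (M (nat_lit 331) (B (L (nat_lit 332) ln15_9_1_c10 ln15_9_1_c10_ok) (M (nat_lit 299) (B (L (nat_lit 330) ln14_9_1_c10 ln14_9_1_c10_ok) (M (nat_lit 267) (B (L (nat_lit 266) ln14_9_3 ln14_9_3_ok) (L (nat_lit 268) ln15_9_3 ln15_9_3_ok))))))) (M (nat_lit 336) (B (L (nat_lit 335) ln12_9_0 ln12_9_0_ok) (M (nat_lit 304) (B (L (nat_lit 337) ln13_9_0 ln13_9_0_ok) (M (nat_lit 272) (B (L (nat_lit 271) ln12_9_2 ln12_9_2_ok) (L (nat_lit 273) ln13_9_2 ln13_9_2_ok))))))))))))) (B (M (nat_lit 300) (B (M (nat_lit 333) (B (L (nat_lit 270) ln13_12_6 ln13_12_6_ok) (L (nat_lit 268) ln13_12_7 ln13_12_7_ok))) (B (M (nat_lit 303) (B (M (nat_lit 304) (B (M (nat_lit 336) (B (L (nat_lit 337) ln13_9_0 ln13_9_0_ok) (L (nat_lit 335) ln12_9_0 ln12_9_0_ok))) (M (nat_lit 268) (B (L (nat_lit 269) ln16_9_3_c10 ln16_9_3_c10_ok) (L (nat_lit 267) ln15_9_3 ln15_9_3_ok))))) (B (M (nat_lit 304) (B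 (M (nat_lit 272) (B (L (nat_lit 273) ln13_9_2 ln13_9_2_ok) (L (nat_lit 271) ln12_9_2 ln12_9_2_ok))) (M (nat_lit 268) (B (L (nat_lit 269) ln16_9_3_c10 ln16_9_3_c10_ok) (L (nat_lit 267) ln15_9_3 ln15_9_3_ok))))) (B (M (nat_lit 299) (B (M (nat_lit 271) (B (L (nat_lit 272) ln12_9_2 ln12_9_2_ok) (L (nat_lit 270) ln11_9_2 ln11_9_2_ok))) (M (nat_lit 267) (B (L (nat_lit 268) ln15_9_3 ln15_9_3_ok) (L (nat_lit 266) ln14_9_3 ln14_9_3_ok))))) (M (nat_lit 304) (B (M (nat_lit 336) (B (L (nat_lit 337) ln13_9_0 ln13_9_0_ok) (L (nat_lit 335) ln12_9_0 ln12_9_0_ok))) (M (nat_lit 272) (B (L (nat_lit 273) ln13_9_2 ln13_9_2_ok) (L (nat_lit 271) ln12_9_2 ln12_9_2_ok))))))))) (B (M (nat_lit 268) (B (L (nat_lit 333) ln13_12_7 ln13_12_7_ok) (M (nat_lit 267) (B (L (nat_lit 303) ln15_9_3 ln15_9_3_ok) (M (nat_lit 266) (B (L (nat_lit 299) ln14_9_3 ln14_9_3_ok) (L (nat_lit 269) ln10_8_0_c10 ln10_8_0_c10_ok))))))) (M (nat_lit 270) (B (L (nat_lit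 333) ln13_12_6 ln13_12_6_ok) (M (nat_lit 271) (B (L (nat_lit 299) ln11_9_2 ln11_9_2_ok) (M (nat_lit 272) (B (L (nat_lit 303) ln12_9_2 ln12_9_2_ok) (L (nat_lit 273) ln17_8_1_c10 ln17_8_1_c10_ok))))))))))) (M (nat_lit 333) (B (M (nat_lit 300) (B (L (nat_lit 332) ln13_13_7 ln13_13_7_ok) (L (nat_lit 268) ln13_12_7 ln13_12_7_ok))) (L (nat_lit 270) ln13_12_6 ln13_12_6_ok))))))
noncomputable def c10_d355 : Cert := (B (M (nat_lit 303) (B (M (nat_lit 304) (B (M (nat_lit 305) (B (M (nat_lit 337) (B (L (nat_lit 338) ln14_9_0_c10 ln14_9_0_c10_ok) (L (nat_lit 336) ln13_9_0 ln13_9_0_ok))) (M (nat_lit 273) (B (L (nat_lit 274) ln14_9_2_c10 ln14_9_2_c10_ok) (L (nat_lit 272) ln13_9_2 ln13_9_2_ok))))) (B (M (nat_lit 271) (B (M (nat_lit 272) (B (L (nat_lit 273) ln13_9_2 ln13_9_2_ok) (M (nat_lit 336) (B (L (nat_lit 337) ln13_9_0 ln13_9_0_ok) (L (nat_lit 368) ln16_12_7_c10 ln16_12_7_c10_ok))))) (B (M (nat_lit 305) (B (M (nat_lit 273)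 (B (L (nat_lit 274) ln14_9_2_c10 ln14_9_2_c10_ok) (L (nat_lit 272) ln13_9_2 ln13_9_2_ok))) (M (nat_lit 270) (B (L (nat_lit 306) ln18_9_3_c10 ln18_9_3_c10_ok) (L (nat_lit 269) ln17_9_3_c10 ln17_9_3_c10_ok))))) (M (nat_lit 336) (B (L (nat_lit 337) ln13_9_0 ln13_9_0_ok) (L (nat_lit 368) ln16_12_7_c10 ln16_12_7_c10_ok)))))) (B (M (nat_lit 272) (B (L (nat_lit 273) ln13_9_2 ln13_9_2_ok) (M (nat_lit 336) (B (L (nat_lit 337) ln13_9_0 ln13_9_0_ok) (M (nat_lit 240) (B (M (nat_lit 335) (B (L (nat_lit 367) ln16_7_5_c10 ln16_7_5_c10_ok) (L (nat_lit 208) ln16_6_5_c10 ln16_6_5_c10_ok))) (B (M (nat_lit 368) (B (L (nat_lit 367) ln16_8_5 ln16_8_5_ok) (M (nat_lit 239) (B (L (nat_lit 271) ln16_11_7_c10 ln16_11_7_c10_ok) (L (nat_lit 207) ln16_10_7_c10 ln16_10_7_c10_ok))))) (M (nat_lit 208) (B (L (nat_lit 335) ln16_6_5_c10 ln16_6_5_c10_ok) (M (nat_lit 209) (B (L (nat_lit 241) ln16_10_6_c10 ln16_10_6_c10_ok) (L (nat_lit 177) ln16_9_6_c10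 ln16_9_6_c10_ok)))))))))))) (B (M (nat_lit 335) (B (M (nat_lit 272) (B (L (nat_lit 273) ln13_9_2 ln13_9_2_ok) (L (nat_lit 367) ln15_12_6 ln15_12_6_ok))) (B (M (nat_lit 367) (B (L (nat_lit 272) ln15_12_6 ln15_12_6_ok) (L (nat_lit 270) ln15_12_7 ln15_12_7_ok))) (B (M (nat_lit 270) (B (M (nat_lit 238) (B (L (nat_lit 206) ln14_6_4_c10 ln14_6_4_c10_ok) (L (nat_lit 367) ln15_12_7 ln15_12_7_ok))) (M (nat_lit 305) (B (L (nat_lit 269) ln17_9_3_c10 ln17_9_3_c10_ok) (M (nat_lit 306) (B (L (nat_lit 271) ln18_9_3_c10 ln18_9_3_c10_ok) (M (nat_lit 274) (B (L (nat_lit 275) ln15_9_2_c10 ln15_9_2_c10_ok) (L (nat_lit 273) ln14_9_2_c10 ln14_9_2_c10_ok))))))))) (M (nat_lit 305) (B (M (nat_lit 273) (B (L (nat_lit 274) ln14_9_2_c10 ln14_9_2_c10_ok) (L (nat_lit 272) ln13_9_2 ln13_9_2_ok))) (M (nat_lit 306) (B (M (nat_lit 270) (B (L (nat_lit 271) ln18_9_3_c10 ln18_9_3_c10_ok) (L (nat_lit 269) ln17_9_3_c10 ln17_9_3_c10_ok))) (M (nat_lit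 307) (B (L (nat_lit 336) ln19_9_1_c10 ln19_9_1_c10_ok) (M (nat_lit 339) (B (L (nat_lit 340) ln16_9_0_c10 ln16_9_0_c10_ok) (L (nat_lit 338) ln15_9_0_c10 ln15_9_0_c10_ok))))))))))))) (B (M (nat_lit 305) (B (M (nat_lit 337) (B (L (nat_lit 338) ln14_9_0_c10 ln14_9_0_c10_ok) (L (nat_lit 336) ln13_9_0 ln13_9_0_ok))) (B (M (nat_lit 306) (B (M (nat_lit 270) (B (L (nat_lit 271) ln18_9_3_c10 ln18_9_3_c10_ok) (L (nat_lit 269) ln17_9_3_c10 ln17_9_3_c10_ok))) (M (nat_lit 307) (B (M (nat_lit 275) (B (L (nat_lit 276) ln16_9_2_c10 ln16_9_2_c10_ok) (L (nat_lit 274) ln15_9_2_c10 ln15_9_2_c10_ok))) (M (nat_lit 336) (B (L (nat_lit 335) ln19_9_1_c10 ln19_9_1_c10_ok) (L (nat_lit 337) ln13_9_0 ln13_9_0_ok))))))) (M (nat_lit 306) (B (M (nat_lit 270) (B (L (nat_lit 271) ln18_9_3_c10 ln18_9_3_c10_ok) (L (nat_lit 269) ln17_9_3_c10 ln17_9_3_c10_ok))) (M (nat_lit 307) (B (M (nat_lit 339) (B (L (nat_lit 340) ln16_9_0_c10 ln16_9_0_c10_ok) (L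 (nat_lit 338) ln15_9_0_c10 ln15_9_0_c10_ok))) (M (nat_lit 275) (B (L (nat_lit 276) ln16_9_2_c10 ln16_9_2_c10_ok) (L (nat_lit 274) ln15_9_2_c10 ln15_9_2_c10_ok)))))))))) (M (nat_lit 305) (B (M (nat_lit 273) (B (L (nat_lit 274) ln14_9_2_c10 ln14_9_2_c10_ok) (L (nat_lit 272) ln13_9_2 ln13_9_2_ok))) (M (nat_lit 306) (B (M (nat_lit 338) (B (L (nat_lit 339) ln15_9_0_c10 ln15_9_0_c10_ok) (L (nat_lit 337) ln14_9_0_c10 ln14_9_0_c10_ok))) (M (nat_lit 270) (B (L (nat_lit 271) ln18_9_3_c10 ln18_9_3_c10_ok) (L (nat_lit 269) ln17_9_3_c10 ln17_9_3_c10_ok))))))))))))) (B (K (nat_lit 383600461868783388222986614096266462235883586976421838006868564433413695217084410406675764209863931474968602664567440661321933526670479500725526200320) (nat_lit 300613451644931001100328851744333737280865890317937480916586097183863719359706696952850680742590159362205941760) (nat_lit 300613451644931001100328851744333737280865890317937480916586097183863719359706696952850680742590159362205941760)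 c10_s422) (B (M (nat_lit 304) (B (M (nat_lit 272) (B (L (nat_lit 273) ln13_9_2 ln13_9_2_ok) (M (nat_lit 300) (B (L (nat_lit 271) ln12_9_2 ln12_9_2_ok) (M (nat_lit 336) (B (L (nat_lit 337) ln13_9_0 ln13_9_0_ok) (L (nat_lit 335) ln12_9_0 ln12_9_0_ok))))))) (B (M (nat_lit 300) (B (M (nat_lit 272) (B (L (nat_lit 273) ln13_9_2 ln13_9_2_ok) (L (nat_lit 271) ln12_9_2 ln12_9_2_ok))) (M (nat_lit 332) (B (L (nat_lit 333) ln16_9_1 ln16_9_1_ok) (L (nat_lit 331) ln15_9_1_c10 ln15_9_1_c10_ok))))) (B (M (nat_lit 300) (B (M (nat_lit 336) (B (L (nat_lit 337) ln13_9_0 ln13_9_0_ok) (L (nat_lit 335) ln12_9_0 ln12_9_0_ok))) (M (nat_lit 332) (B (L (nat_lit 333) ln16_9_1 ln16_9_1_ok) (L (nat_lit 331) ln15_9_1_c10 ln15_9_1_c10_ok))))) (M (nat_lit 305) (B (M (nat_lit 337) (B (L (nat_lit 338) ln14_9_0_c10 ln14_9_0_c10_ok) (L (nat_lit 336) ln13_9_0 ln13_9_0_ok))) (M (nat_lit 273) (B (L (nat_lit 274) ln14_9_2_c10 ln14_9_2_c10_ok) (L (nat_lit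 272) ln13_9_2 ln13_9_2_ok))))))))) (B (M (nat_lit 333) (B (L (nat_lit 270) ln13_12_6 ln13_12_6_ok) (M (nat_lit 332) (B (L (nat_lit 304) ln16_9_1 ln16_9_1_ok) (M (nat_lit 331) (B (L (nat_lit 330) ln10_10_2 ln10_10_2_ok) (L (nat_lit 300) ln15_9_1_c10 ln15_9_1_c10_ok))))))) (M (nat_lit 270) (B (L (nat_lit 333) ln13_12_6 ln13_12_6_ok) (M (nat_lit 300) (B (M (nat_lit 335) (B (L (nat_lit 367) ln15_12_7 ln15_12_7_ok) (L (nat_lit 336) ln12_9_0 ln12_9_0_ok))) (M (nat_lit 271) (B (L (nat_lit 272) ln12_9_2 ln12_9_2_ok) (L (nat_lit 299) ln11_9_2 ln11_9_2_ok)))))))))))) (B (M (nat_lit 304) (B (M (nat_lit 303) (B (M (nat_lit 305) (B (M (nat_lit 269) (B (L (nat_lit 268) ln16_9_3_c10 ln16_9_3_c10_ok) (L (nat_lit 270) ln17_9_3_c10 ln17_9_3_c10_ok))) (M (nat_lit 273) (B (L (nat_lit 272) ln13_9_2 ln13_9_2_ok) (L (nat_lit 274) ln14_9_2_c10 ln14_9_2_c10_ok))))) (B (M (nat_lit 305) (B (M (nat_lit 273) (B (L (nat_lit 272) ln13_9_2 ln13_9_2_ok)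 (L (nat_lit 274) ln14_9_2_c10 ln14_9_2_c10_ok))) (M (nat_lit 337) (B (L (nat_lit 336) ln13_9_0 ln13_9_0_ok) (L (nat_lit 338) ln14_9_0_c10 ln14_9_0_c10_ok))))) (B (M (nat_lit 305) (B (M (nat_lit 269) (B (L (nat_lit 268) ln16_9_3_c10 ln16_9_3_c10_ok) (L (nat_lit 270) ln17_9_3_c10 ln17_9_3_c10_ok))) (M (nat_lit 337) (B (L (nat_lit 336) ln13_9_0 ln13_9_0_ok) (L (nat_lit 338) ln14_9_0_c10 ln14_9_0_c10_ok))))) (M (nat_lit 272) (B (L (nat_lit 273) ln13_9_2 ln13_9_2_ok) (M (nat_lit 336) (B (L (nat_lit 337) ln13_9_0 ln13_9_0_ok) (M (nat_lit 240) (B (M (nat_lit 335) (B (L (nat_lit 208) ln16_6_5_c10 ln16_6_5_c10_ok) (L (nat_lit 367) ln16_7_5_c10 ln16_7_5_c10_ok))) (B (M (nat_lit 208) (B (M (nat_lit 207) (B (L (nat_lit 175) ln16_9_7_c10 ln16_9_7_c10_ok) (L (nat_lit 239) ln16_10_7_c10 ln16_10_7_c10_ok))) (M (nat_lit 209) (B (L (nat_lit 177) ln16_9_6_c10 ln16_9_6_c10_ok) (L (nat_lit 241) ln16_10_6_c10 ln16_10_6_c10_ok))))) (M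 (nat_lit 368) (B (M (nat_lit 239) (B (L (nat_lit 207) ln16_10_7_c10 ln16_10_7_c10_ok) (L (nat_lit 271) ln16_11_7_c10 ln16_11_7_c10_ok))) (L (nat_lit 367) ln16_8_5 ln16_8_5_ok)))))))))))))) (B (M (nat_lit 303) (B (M (nat_lit 337) (B (M (nat_lit 338) (B (L (nat_lit 305) ln14_9_0_c10 ln14_9_0_c10_ok) (L (nat_lit 336) ln13_9_0 ln13_9_0_ok))) (B (M (nat_lit 272) (B (L (nat_lit 336) ln13_9_0 ln13_9_0_ok) (L (nat_lit 273) ln13_9_2 ln13_9_2_ok))) (M (nat_lit 305) (B (L (nat_lit 338) ln14_9_0_c10 ln14_9_0_c10_ok) (M (nat_lit 273) (B (L (nat_lit 274) ln14_9_2_c10 ln14_9_2_c10_ok) (L (nat_lit 272) ln13_9_2 ln13_9_2_ok)))))))) (M (nat_lit 333) (B (L (nat_lit 270) ln13_12_6 ln13_12_6_ok) (L (nat_lit 332) ln16_9_1 ln16_9_1_ok))))) (B (M (nat_lit 305) (B (M (nat_lit 369) (B (L (nat_lit 368) ln13_12_2 ln13_12_2_ok) (M (nat_lit 401) (B (L (nat_lit 370) ln14_12_2 ln14_12_2_ok) (M (nat_lit 434) (B (L (nat_lit 433) ln14_12_0 ln14_12_0_ok)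 (M (nat_lit 402) (B (L (nat_lit 435) ln15_12_0 ln15_12_0_ok) (L (nat_lit 337) ln17_9_4_c10 ln17_9_4_c10_ok))))))))) (M (nat_lit 303) (B (M (nat_lit 273) (B (L (nat_lit 272) ln13_9_2 ln13_9_2_ok) (L (nat_lit 274) ln14_9_2_c10 ln14_9_2_c10_ok))) (M (nat_lit 333) (B (L (nat_lit 270) ln13_12_6 ln13_12_6_ok) (L (nat_lit 332) ln16_9_1 ln16_9_1_ok))))))) (B (M (nat_lit 368) (B (L (nat_lit 369) ln13_12_2 ln13_12_2_ok) (M (nat_lit 336) (B (L (nat_lit 431) ln16_9_5 ln16_9_5_ok) (M (nat_lit 303) (B (L (nat_lit 271) ln16_12_7_c10 ln16_12_7_c10_ok) (L (nat_lit 337) ln13_9_0 ln13_9_0_ok))))))) (B (M (nat_lit 368) (B (L (nat_lit 369) ln13_12_2 ln13_12_2_ok) (M (nat_lit 336) (B (L (nat_lit 431) ln16_9_5 ln16_9_5_ok) (M (nat_lit 303) (B (L (nat_lit 271) ln16_12_7_c10 ln16_12_7_c10_ok) (M (nat_lit 272) (B (L (nat_lit 367) ln16_8_5 ln16_8_5_ok) (L (nat_lit 273) ln13_9_2 ln13_9_2_ok))))))))) (M (nat_lit 368) (B (L (nat_lit 369) ln13_12_2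 ln13_12_2_ok) (M (nat_lit 336) (B (L (nat_lit 431) ln16_9_5 ln16_9_5_ok) (M (nat_lit 272) (B (L (nat_lit 367) ln16_8_5 ln16_8_5_ok) (M (nat_lit 273) (B (L (nat_lit 305) ln16_12_6_c10 ln16_12_6_c10_ok) (L (nat_lit 241) ln16_11_6_c10 ln16_11_6_c10_ok))))))))))))))) c10_d354))
noncomputable def c10_d356 : Cert := (B (M (nat_lit 304) (B (M (nat_lit 303) (B (M (nat_lit 305) (B (M (nat_lit 306) (B (M (nat_lit 307) (B (M (nat_lit 339) (B (L (nat_lit 340) ln16_9_0_c10 ln16_9_0_c10_ok) (L (nat_lit 338) ln15_9_0_c10 ln15_9_0_c10_ok))) (M (nat_lit 275) (B (L (nat_lit 276) ln16_9_2_c10 ln16_9_2_c10_ok) (L (nat_lit 274) ln15_9_2_c10 ln15_9_2_c10_ok))))) (B (M (nat_lit 274) (B (L (nat_lit 275) ln15_9_2_c10 ln15_9_2_c10_ok) (L (nat_lit 273) ln14_9_2_c10 ln14_9_2_c10_ok))) (B (M (nat_lit 307) (B (M (nat_lit 339) (B (L (nat_lit 340) ln16_9_0_c10 ln16_9_0_c10_ok) (L (nat_lit 338) ln15_9_0_c10 ln15_9_0_c10_ok))) (M (nat_lit 272) (B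 (L (nat_lit 271) ln19_9_3_c10 ln19_9_3_c10_ok) (M (nat_lit 273) (B (L (nat_lit 308) ln20_9_3_c10 ln20_9_3_c10_ok) (L (nat_lit 274) ln14_9_2_c10 ln14_9_2_c10_ok))))))) (M (nat_lit 307) (B (M (nat_lit 339) (B (L (nat_lit 340) ln16_9_0_c10 ln16_9_0_c10_ok) (L (nat_lit 338) ln15_9_0_c10 ln15_9_0_c10_ok))) (M (nat_lit 308) (B (M (nat_lit 276) (B (L (nat_lit 277) ln17_9_2_c10 ln17_9_2_c10_ok) (L (nat_lit 275) ln16_9_2_c10 ln16_9_2_c10_ok))) (M (nat_lit 272) (B (L (nat_lit 273) ln20_9_3_c10 ln20_9_3_c10_ok) (L (nat_lit 271) ln19_9_3_c10 ln19_9_3_c10_ok))))))))))) (M (nat_lit 369) (B (L (nat_lit 368) ln13_12_2 ln13_12_2_ok) (M (nat_lit 401) (B (L (nat_lit 370) ln14_12_2 ln14_12_2_ok) (M (nat_lit 434) (B (L (nat_lit 433) ln14_12_0 ln14_12_0_ok) (M (nat_lit 402) (B (L (nat_lit 435) ln15_12_0 ln15_12_0_ok) (L (nat_lit 337) ln17_9_4_c10 ln17_9_4_c10_ok))))))))))) (B (M (nat_lit 305) (B (M (nat_lit 334) (B (L (nat_lit 333) ln17_9_1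 ln17_9_1_ok) (M (nat_lit 335) (B (L (nat_lit 306) ln18_9_1_c10 ln18_9_1_c10_ok) (M (nat_lit 367) (B (L (nat_lit 431) ln15_13_7 ln15_13_7_ok) (L (nat_lit 272) ln15_12_6 ln15_12_6_ok))))))) (M (nat_lit 369) (B (L (nat_lit 368) ln13_12_2 ln13_12_2_ok) (M (nat_lit 401) (B (L (nat_lit 370) ln14_12_2 ln14_12_2_ok) (M (nat_lit 434) (B (L (nat_lit 433) ln14_12_0 ln14_12_0_ok) (M (nat_lit 402) (B (L (nat_lit 435) ln15_12_0 ln15_12_0_ok) (L (nat_lit 337) ln17_9_4_c10 ln17_9_4_c10_ok))))))))))) (M (nat_lit 333) (B (M (nat_lit 332) (B (L (nat_lit 301) ln16_9_1 ln16_9_1_ok) (L (nat_lit 300) ln13_13_7 ln13_13_7_ok))) (L (nat_lit 334) ln13_13_6 ln13_13_6_ok)))))) (B (M (nat_lit 333) (B (L (nat_lit 334) ln13_13_6 ln13_13_6_ok) (M (nat_lit 300) (B (L (nat_lit 332) ln13_13_7 ln13_13_7_ok) (M (nat_lit 301) (B (L (nat_lit 268) ln13_12_7 ln13_12_7_ok) (M (nat_lit 303) (B (M (nat_lit 272) (B (L (nat_lit 273) ln13_9_2 ln13_9_2_ok) (M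 (nat_lit 335) (B (L (nat_lit 367) ln15_12_6 ln15_12_6_ok) (L (nat_lit 336) ln12_9_0 ln12_9_0_ok))))) (B (M (nat_lit 272) (B (L (nat_lit 273) ln13_9_2 ln13_9_2_ok) (M (nat_lit 335) (B (L (nat_lit 367) ln15_12_6 ln15_12_6_ok) (L (nat_lit 271) ln12_9_2 ln12_9_2_ok))))) (B (M (nat_lit 335) (B (L (nat_lit 336) ln12_9_0 ln12_9_0_ok) (M (nat_lit 272) (B (L (nat_lit 367) ln15_12_6 ln15_12_6_ok) (L (nat_lit 271) ln12_9_2 ln12_9_2_ok))))) (B (M (nat_lit 337) (B (L (nat_lit 336) ln13_9_0 ln13_9_0_ok) (M (nat_lit 305) (B (L (nat_lit 338) ln14_9_0_c10 ln14_9_0_c10_ok) (M (nat_lit 273) (B (L (nat_lit 274) ln14_9_2_c10 ln14_9_2_c10_ok) (L (nat_lit 272) ln13_9_2 ln13_9_2_ok))))))) (M (nat_lit 336) (B (L (nat_lit 337) ln13_9_0 ln13_9_0_ok) (L (nat_lit 335) ln12_9_0 ln12_9_0_ok)))))))))))))) (B (M (nat_lit 368) (B (L (nat_lit 369) ln13_12_2 ln13_12_2_ok) (M (nat_lit 336) (B (L (nat_lit 431) ln16_9_5 ln16_9_5_ok) (M (nat_lit 303)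 (B (L (nat_lit 271) ln16_12_7_c10 ln16_12_7_c10_ok) (M (nat_lit 337) (B (L (nat_lit 301) ln13_9_0 ln13_9_0_ok) (M (nat_lit 338) (B (L (nat_lit 305) ln14_9_0_c10 ln14_9_0_c10_ok) (L (nat_lit 339) ln19_10_3_c10 ln19_10_3_c10_ok))))))))))) (B (M (nat_lit 368) (B (L (nat_lit 369) ln13_12_2 ln13_12_2_ok) (M (nat_lit 336) (B (L (nat_lit 431) ln16_9_5 ln16_9_5_ok) (M (nat_lit 303) (B (L (nat_lit 271) ln16_12_7_c10 ln16_12_7_c10_ok) (M (nat_lit 272) (B (L (nat_lit 367) ln16_8_5 ln16_8_5_ok) (M (nat_lit 273) (B (L (nat_lit 241) ln16_11_6_c10 ln16_11_6_c10_ok) (L (nat_lit 301) ln13_9_2 ln13_9_2_ok))))))))))) (M (nat_lit 368) (B (L (nat_lit 369) ln13_12_2 ln13_12_2_ok) (M (nat_lit 336) (B (L (nat_lit 431) ln16_9_5 ln16_9_5_ok) (M (nat_lit 272) (B (L (nat_lit 367) ln16_8_5 ln16_8_5_ok) (M (nat_lit 273) (B (L (nat_lit 305) ln16_12_6_c10 ln16_12_6_c10_ok) (L (nat_lit 241) ln16_11_6_c10 ln16_11_6_c10_ok)))))))))))))) (B (M (nat_lit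 334) (B (L (nat_lit 333) ln13_13_6 ln13_13_6_ok) (M (nat_lit 401) (B (M (nat_lit 370) (B (M (nat_lit 371) (B (L (nat_lit 402) ln15_12_2 ln15_12_2_ok) (L (nat_lit 369) ln14_12_2 ln14_12_2_ok))) (B (M (nat_lit 433) (B (L (nat_lit 369) ln14_12_2 ln14_12_2_ok) (L (nat_lit 434) ln14_12_0 ln14_12_0_ok))) (M (nat_lit 402) (B (L (nat_lit 371) ln15_12_2 ln15_12_2_ok) (M (nat_lit 434) (B (L (nat_lit 435) ln15_12_0 ln15_12_0_ok) (L (nat_lit 433) ln14_12_0 ln14_12_0_ok)))))))) (B (M (nat_lit 402) (B (M (nat_lit 403) (B (M (nat_lit 435) (B (L (nat_lit 436) ln16_12_0_c10 ln16_12_0_c10_ok) (L (nat_lit 434) ln15_12_0 ln15_12_0_ok))) (M (nat_lit 371) (B (L (nat_lit 372) ln16_12_2_c10 ln16_12_2_c10_ok) (L (nat_lit 370) ln15_12_2 ln15_12_2_ok))))) (B (M (nat_lit 370) (B (L (nat_lit 371) ln15_12_2 ln15_12_2_ok) (L (nat_lit 369) ln14_12_2 ln14_12_2_ok))) (M (nat_lit 403) (B (M (nat_lit 435) (B (L (nat_lit 436) ln16_12_0_c10 ln16_12_0_c10_ok)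 (L (nat_lit 434) ln15_12_0 ln15_12_0_ok))) (M (nat_lit 368) (B (L (nat_lit 367) ln19_12_3_c10 ln19_12_3_c10_ok) (L (nat_lit 369) ln13_12_2 ln13_12_2_ok)))))))) (B (M (nat_lit 369) (B (L (nat_lit 370) ln14_12_2 ln14_12_2_ok) (L (nat_lit 368) ln13_12_2 ln13_12_2_ok))) (B (M (nat_lit 434) (B (L (nat_lit 433) ln14_12_0 ln14_12_0_ok) (M (nat_lit 402) (B (L (nat_lit 435) ln15_12_0 ln15_12_0_ok) (M (nat_lit 371) (B (L (nat_lit 370) ln15_12_2 ln15_12_2_ok) (M (nat_lit 403) (B (L (nat_lit 372) ln16_12_2_c10 ln16_12_2_c10_ok) (M (nat_lit 367) (B (L (nat_lit 368) ln19_12_3_c10 ln19_12_3_c10_ok) (M (nat_lit 335) (B (L (nat_lit 431) ln15_13_7 ln15_13_7_ok) (M (nat_lit 270) (B (L (nat_lit 238) ln14_7_4 ln14_7_4_ok) (L (nat_lit 303) ln15_12_7 ln15_12_7_ok))))))))))))))) (M (nat_lit 434) (B (L (nat_lit 433) ln14_12_0 ln14_12_0_ok) (M (nat_lit 402) (B (L (nat_lit 435) ln15_12_0 ln15_12_0_ok) (M (nat_lit 368) (B (L (nat_lit 369)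 ln13_12_2 ln13_12_2_ok) (M (nat_lit 367) (B (L (nat_lit 403) ln19_12_3_c10 ln19_12_3_c10_ok) (M (nat_lit 335) (B (L (nat_lit 431) ln15_13_7 ln15_13_7_ok) (M (nat_lit 270) (B (L (nat_lit 238) ln14_7_4 ln14_7_4_ok) (L (nat_lit 303) ln15_12_7 ln15_12_7_ok)))))))))))))))))))) (M (nat_lit 333) (B (M (nat_lit 301) (B (M (nat_lit 300) (B (L (nat_lit 332) ln13_13_7 ln13_13_7_ok) (L (nat_lit 268) ln13_12_7 ln13_12_7_ok))) (L (nat_lit 270) ln13_12_6 ln13_12_6_ok))) (L (nat_lit 334) ln13_13_6 ln13_13_6_ok)))))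
noncomputable def c10_d357 : Cert := (B (K (nat_lit 28365829084147412802440749893646987148057637966728072401632767829403167910297527393961759160585358035538695489813749239076101700210179363573662284439241317016392607367230662901760) (nat_lit 27578261324499426562008880484513837692540930562499840383568216673448215313360330708940171584615074966506368238970324053670681823704201235714201799238639181134302817319784452281652749048155513228726464119058444249464832) (nat_lit 27578261324499426562008880484513837692540930562499840383568216673448215313360330708940171584615074966506368238970324053670681823704201235714201799238639181134302817319784452281652749048155513228726464119058444249464832) c10_s423) (B (K (nat_lit 28365829084147412802440749893646987148057637966728072401632767829403167910297527393961759160585358035538695489813749239076101700210179363573662284439241317016392607367230662901760) (nat_lit 4494745034182619721732524966383749716776087176665420452372638763837606846742847620168701647200372486765929994052094116918497290999387995797314387274855342574006163792326565648920306020401723657133950408589312)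 (nat_lit 4494745034182619721732524966383749716776087176665420452372638763837606846742847620168701647200372486765929994052094116918497290999387995797314387274855342574006163792326565648920306020401723657133950408589312) c10_s425) (B (K (nat_lit 28365829084147412802440749893646987148057637966728072401632767829403167910297527393961759160585358035538695489813749239076101700210179363573662284439241317016392607367230662901760) (nat_lit 1284212866887962485184638384900223224195549989539123972827694813165906641298406518665912389064382565962208232268897248422349570439217023651956741030506222381232049628318901451687436832299323679208613498322944) (nat_lit 1284212866887962485184638384900223224195549989539123972827694813165906641298406518665912389064382565962208232268897248422349570439217023651956741030506222381232049628318901451687436832299323679208613498322944) c10_s426) (B (K (nat_lit 28365829084147412802440749893646987148057637966728072401632767829403167910297527393961759160585358035538695489813749239076101700210179363573662284439241317016392607367230662901760)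 (nat_lit 4418524215420168443515352865916324598808859494405824923420971307256827820548864370772502397137323473623509630911522449414991258152630788932626722084278830494296453569477081234898018518433792) (nat_lit 4418524215420168443515352865916324598808859494405824923420971307256827820548864370772502397137323473623509630911522449414991258152630788932626722084278830494296453569477081234898018518433792) c10_s427) (B (K (nat_lit 28365829084147412802440749893646987148057637966728072401632767829403167910297527393961759160585358035538695489813749239076101700210179363573662284439241317016392607367230662901760) (nat_lit 2014551168631697424932831233232642264719512227731714657745015778586405312101882866997483202061548652313532599947305140352259542412080334441496419765367307190394394539254275784131005661577216) (nat_lit 2014551168631697424932831233232642264719512227731714657745015778586405312101882866997483202061548652313532599947305140352259542412080334441496419765367307190394394539254275784131005661577216)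 c10_s428) (B (M (nat_lit 561) (B (M (nat_lit 562) (B (L (nat_lit 593) ln14_18_2_c10 ln14_18_2_c10_ok) (M (nat_lit 560) (B (L (nat_lit 559) ln18_17_1_c10 ln18_17_1_c10_ok) (L (nat_lit 589) ln13_18_2_c10 ln13_18_2_c10_ok))))) (B (M (nat_lit 624) (B (M (nat_lit 589) (B (L (nat_lit 560) ln13_18_2_c10 ln13_18_2_c10_ok) (L (nat_lit 625) ln13_18_0_c10 ln13_18_0_c10_ok))) (B (M (nat_lit 625) (B (L (nat_lit 589) ln13_18_0_c10 ln13_18_0_c10_ok) (M (nat_lit 626) (B (L (nat_lit 593) ln14_18_0_c10 ln14_18_0_c10_ok) (L (nat_lit 627) ln19_19_3_c10 ln19_19_3_c10_ok))))) (B (M (nat_lit 656) (B (M (nat_lit 688) (B (L (nat_lit 593) ln16_21_6_c10 ln16_21_6_c10_ok) (L (nat_lit 559) ln16_21_7_c10 ln16_21_7_c10_ok))) (B (M (nat_lit 529) (B (L (nat_lit 560) ln16_20_6_c10 ln16_20_6_c10_ok) (M (nat_lit 593) (B (L (nat_lit 497) ln17_15_5_c10 ln17_15_5_c10_ok) (L (nat_lit 688) ln16_21_6_c10 ln16_21_6_c10_ok))))) (B (M (nat_lit 560) (B (L (nat_lit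 529) ln16_20_6_c10 ln16_20_6_c10_ok) (M (nat_lit 559) (B (L (nat_lit 527) ln15_15_4_c10 ln15_15_4_c10_ok) (L (nat_lit 688) ln16_21_7_c10 ln16_21_7_c10_ok))))) (M (nat_lit 529) (B (L (nat_lit 560) ln16_20_6_c10 ln16_20_6_c10_ok) (M (nat_lit 593) (B (L (nat_lit 497) ln17_15_5_c10 ln17_15_5_c10_ok) (L (nat_lit 625) ln17_16_5_c10 ln17_16_5_c10_ok))))))))) (M (nat_lit 656) (B (M (nat_lit 560) (B (L (nat_lit 529) ln16_20_6_c10 ln16_20_6_c10_ok) (L (nat_lit 589) ln13_18_2_c10 ln13_18_2_c10_ok))) (M (nat_lit 688) (B (L (nat_lit 593) ln16_21_6_c10 ln16_21_6_c10_ok) (L (nat_lit 559) ln16_21_7_c10 ln16_21_7_c10_ok))))))))) (B (M (nat_lit 593) (B (L (nat_lit 562) ln14_18_2_c10 ln14_18_2_c10_ok) (M (nat_lit 625) (B (L (nat_lit 626) ln14_18_0_c10 ln14_18_0_c10_ok) (M (nat_lit 624) (B (L (nat_lit 589) ln13_18_0_c10 ln13_18_0_c10_ok) (M (nat_lit 656) (B (L (nat_lit 529) ln17_16_5_c10 ln17_16_5_c10_ok) (L (nat_lit 688) ln16_21_6_c10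 ln16_21_6_c10_ok))))))))) (B (M (nat_lit 560) (B (L (nat_lit 589) ln13_18_2_c10 ln13_18_2_c10_ok) (M (nat_lit 562) (B (L (nat_lit 563) ln19_17_1_c10 ln19_17_1_c10_ok) (L (nat_lit 559) ln18_17_1_c10 ln18_17_1_c10_ok))))) (M (nat_lit 562) (B (L (nat_lit 593) ln14_18_2_c10 ln14_18_2_c10_ok) (M (nat_lit 560) (B (L (nat_lit 563) ln19_17_1_c10 ln19_17_1_c10_ok) (L (nat_lit 559) ln18_17_1_c10 ln18_17_1_c10_ok)))))))))) (K (nat_lit 28365829084147412802440749893646987148057637966728072401632767829403167910297527393961759160585358035538695489813749239076101700210179363573662284439241317016392607367230662901760) (nat_lit 1109526021573794200325953598715504638635263142598518375339566966257169409624330478531402382742565818437280276079261135598373234083544045879124703429353850178599586583791430054634275347628032) (nat_lit 1109526021573794200325953598715504638635263142598518375339566966257169409624330478531402382742565818437280276079261135598373234083544045879124703429353850178599586583791430054634275347628032)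 c10_s429)))))))
noncomputable def c10_d358 : Cert := (B (M (nat_lit 591) (B (K (nat_lit 28365829084147412802440749893646987148057637966728072401632767829403167910297527393961759160585358035538695489813749239076101700210179363573662284439241317016392607367230662901760) (nat_lit 27578261324499426562008880484513837692540930562499840383568216673448215313360330708940171584615074966506368238970324053670681823704201235714201799238639181134302817319784452281652749048155513228726464119058444249464832) (nat_lit 27578261324499426562008880484513837692540930562499840383568216673448215313360330708940171584615074966506368238970324053670681823704201235714201799238639181134302817319784452281652749048155513228726464119058444249464832) c10_s423) (B (K (nat_lit 28365829084147412802440749893646987148057637966728072401632767829403167910297527393961759160585358035538695489813749239076101700210179363573662284439241317016392607367230662901760)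 (nat_lit 4494745034182619721732524966383749716776087176665420452372638763837606846742847620168701647200372486765929994052094116918497290999387995797314387274855342574006163792326565648920306020401723657133950408589312) (nat_lit 4494745034182619721732524966383749716776087176665420452372638763837606846742847620168701647200372486765929994052094116918497290999387995797314387274855342574006163792326565648920306020401723657133950408589312) c10_s425) (B (K (nat_lit 28365829084147412802440749893646987148057637966728072401632767829403167910297527393961759160585358035538695489813749239076101700210179363573662284439241317016392607367230662901760) (nat_lit 1284212866887962485184638384900223224195549989539123972827694813165906641298406518665912389064382565962208232268897248422349570439217023651956741030506222381232049628318901451687436832299323679208613498322944) (nat_lit 1284212866887962485184638384900223224195549989539123972827694813165906641298406518665912389064382565962208232268897248422349570439217023651956741030506222381232049628318901451687436832299323679208613498322944)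 c10_s426) (B (K (nat_lit 28365829084147412802440749893646987148057637966728072401632767829403167910297527393961759160585358035538695489813749239076101700210179363573662284439241317016392607367230662901760) (nat_lit 4418524215420168443515352865916324598808859494405824923420971307256827820548864370772502397137323473623509630911522449414991258152630788932626722084278830494296453569477081234898018518433792) (nat_lit 4418524215420168443515352865916324598808859494405824923420971307256827820548864370772502397137323473623509630911522449414991258152630788932626722084278830494296453569477081234898018518433792) c10_s427) (B (K (nat_lit 28365829084147412802440749893646987148057637966728072401632767829403167910297527393961759160585358035538695489813749239076101700210179363573662284439241317016392607367230662901760) (nat_lit 2014551168631697424932831233232642264719512227731714657745015778586405312101882866997483202061548652313532599947305140352259542412080334441496419765367307190394394539254275784131005661577216)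 (nat_lit 2014551168631697424932831233232642264719512227731714657745015778586405312101882866997483202061548652313532599947305140352259542412080334441496419765367307190394394539254275784131005661577216) c10_s428) (B (M (nat_lit 625) (B (M (nat_lit 626) (B (L (nat_lit 593) ln14_18_0_c10 ln14_18_0_c10_ok) (M (nat_lit 624) (B (L (nat_lit 623) ln18_19_3_c10 ln18_19_3_c10_ok) (L (nat_lit 589) ln13_18_0_c10 ln13_18_0_c10_ok))))) (B (M (nat_lit 560) (B (M (nat_lit 589) (B (L (nat_lit 624) ln13_18_0_c10 ln13_18_0_c10_ok) (L (nat_lit 561) ln13_18_2_c10 ln13_18_2_c10_ok))) (B (M (nat_lit 561) (B (L (nat_lit 589) ln13_18_2_c10 ln13_18_2_c10_ok) (M (nat_lit 562) (B (L (nat_lit 593) ln14_18_2_c10 ln14_18_2_c10_ok) (L (nat_lit 563) ln19_17_1_c10 ln19_17_1_c10_ok))))) (M (nat_lit 528) (B (L (nat_lit 593) ln16_15_4_c10 ln16_15_4_c10_ok) (M (nat_lit 624) (B (L (nat_lit 657) ln16_16_4_c10 ln16_16_4_c10_ok) (L (nat_lit 623) ln16_15_5_c10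 ln16_15_5_c10_ok)))))))) (B (M (nat_lit 593) (B (L (nat_lit 626) ln14_18_0_c10 ln14_18_0_c10_ok) (M (nat_lit 561) (B (L (nat_lit 562) ln14_18_2_c10 ln14_18_2_c10_ok) (M (nat_lit 560) (B (L (nat_lit 589) ln13_18_2_c10 ln13_18_2_c10_ok) (L (nat_lit 528) ln16_15_4_c10 ln16_15_4_c10_ok))))))) (B (M (nat_lit 624) (B (L (nat_lit 589) ln13_18_0_c10 ln13_18_0_c10_ok) (M (nat_lit 626) (B (L (nat_lit 627) ln19_19_3_c10 ln19_19_3_c10_ok) (L (nat_lit 623) ln18_19_3_c10 ln18_19_3_c10_ok))))) (M (nat_lit 626) (B (L (nat_lit 593) ln14_18_0_c10 ln14_18_0_c10_ok) (M (nat_lit 624) (B (L (nat_lit 627) ln19_19_3_c10 ln19_19_3_c10_ok) (L (nat_lit 623) ln18_19_3_c10 ln18_19_3_c10_ok)))))))))) (K (nat_lit 28365829084147412802440749893646987148057637966728072401632767829403167910297527393961759160585358035538695489813749239076101700210179363573662284439241317016392607367230662901760) (nat_lit 1109526021573794200325953598715504638635263142598518375339566966257169409624330478531402382742565818437280276079261135598373234083544045879124703429353850178599586583791430054634275347628032)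 (nat_lit 1109526021573794200325953598715504638635263142598518375339566966257169409624330478531402382742565818437280276079261135598373234083544045879124703429353850178599586583791430054634275347628032) c10_s429)))))))) (B (M (nat_lit 529) (B (L (nat_lit 528) ln13_15_0 ln13_15_0_ok) (M (nat_lit 497) (B (L (nat_lit 530) ln14_15_0 ln14_15_0_ok) (M (nat_lit 466) (B (L (nat_lit 465) ln14_15_2_c10 ln14_15_2_c10_ok) (M (nat_lit 498) (B (L (nat_lit 467) ln15_15_2_c10 ln15_15_2_c10_ok) (M (nat_lit 593) (B (L (nat_lit 561) ln17_18_6_c10 ln17_18_6_c10_ok) (M (nat_lit 434) (B (L (nat_lit 402) ln18_12_5_c10 ln18_12_5_c10_ok) (M (nat_lit 591) (B (M (nat_lit 594) (B (M (nat_lit 595) (B (M (nat_lit 623) (B (L (nat_lit 622) ln18_18_1_c10 ln18_18_1_c10_ok) (L (nat_lit 624) ln19_18_1_c10 ln19_18_1_c10_ok))) (M (nat_lit 563) (B (L (nat_lit 562) ln15_18_2_c10 ln15_18_2_c10_ok) (L (nat_lit 564) ln16_18_2_c10 ln16_18_2_c10_ok))))) (B (M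 (nat_lit 627) (B (L (nat_lit 626) ln15_18_0_c10 ln15_18_0_c10_ok) (M (nat_lit 595) (B (L (nat_lit 628) ln16_18_0_c10 ln16_18_0_c10_ok) (M (nat_lit 563) (B (L (nat_lit 562) ln15_18_2_c10 ln15_18_2_c10_ok) (L (nat_lit 564) ln16_18_2_c10 ln16_18_2_c10_ok))))))) (B (M (nat_lit 595) (B (M (nat_lit 623) (B (L (nat_lit 622) ln18_18_1_c10 ln18_18_1_c10_ok) (L (nat_lit 624) ln19_18_1_c10 ln19_18_1_c10_ok))) (M (nat_lit 627) (B (L (nat_lit 626) ln15_18_0_c10 ln15_18_0_c10_ok) (L (nat_lit 628) ln16_18_0_c10 ln16_18_0_c10_ok))))) (M (nat_lit 622) (B (L (nat_lit 621) ln17_18_1_c10 ln17_18_1_c10_ok) (L (nat_lit 623) ln18_18_1_c10 ln18_18_1_c10_ok))))))) (B (M (nat_lit 594) (B (M (nat_lit 595) (B (M (nat_lit 627) (B (L (nat_lit 628) ln16_18_0_c10 ln16_18_0_c10_ok) (L (nat_lit 626) ln15_18_0_c10 ln15_18_0_c10_ok))) (M (nat_lit 623) (B (L (nat_lit 624) ln19_18_1_c10 ln19_18_1_c10_ok) (L (nat_lit 622) ln18_18_1_c10 ln18_18_1_c10_ok)))))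 (B (M (nat_lit 626) (B (L (nat_lit 627) ln15_18_0_c10 ln15_18_0_c10_ok) (L (nat_lit 625) ln14_18_0_c10 ln14_18_0_c10_ok))) (M (nat_lit 622) (B (L (nat_lit 623) ln18_18_1_c10 ln18_18_1_c10_ok) (L (nat_lit 621) ln17_18_1_c10 ln17_18_1_c10_ok)))))) (B (M (nat_lit 589) (B (M (nat_lit 625) (B (L (nat_lit 626) ln14_18_0_c10 ln14_18_0_c10_ok) (L (nat_lit 624) ln13_18_0_c10 ln13_18_0_c10_ok))) (M (nat_lit 621) (B (L (nat_lit 622) ln17_18_1_c10 ln17_18_1_c10_ok) (L (nat_lit 620) ln16_18_1_c10 ln16_18_1_c10_ok))))) (B (M (nat_lit 594) (B (M (nat_lit 622) (B (L (nat_lit 621) ln17_18_1_c10 ln17_18_1_c10_ok) (L (nat_lit 623) ln18_18_1_c10 ln18_18_1_c10_ok))) (M (nat_lit 626) (B (L (nat_lit 625) ln14_18_0_c10 ln14_18_0_c10_ok) (L (nat_lit 627) ln15_18_0_c10 ln15_18_0_c10_ok))))) (B (M (nat_lit 594) (B (M (nat_lit 626) (B (L (nat_lit 627) ln15_18_0_c10 ln15_18_0_c10_ok) (L (nat_lit 625) ln14_18_0_c10 ln14_18_0_c10_ok))) (M (nat_lit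 595) (B (M (nat_lit 563) (B (L (nat_lit 564) ln16_18_2_c10 ln16_18_2_c10_ok) (L (nat_lit 562) ln15_18_2_c10 ln15_18_2_c10_ok))) (M (nat_lit 623) (B (L (nat_lit 624) ln19_18_1_c10 ln19_18_1_c10_ok) (L (nat_lit 622) ln18_18_1_c10 ln18_18_1_c10_ok))))))) (B (M (nat_lit 622) (B (L (nat_lit 621) ln17_18_1_c10 ln17_18_1_c10_ok) (M (nat_lit 559) (B (M (nat_lit 594) (B (L (nat_lit 558) ln18_18_3_c10 ln18_18_3_c10_ok) (L (nat_lit 623) ln18_18_1_c10 ln18_18_1_c10_ok))) (M (nat_lit 654) (B (L (nat_lit 686) ln14_21_6_c10 ln14_21_6_c10_ok) (L (nat_lit 527) ln15_15_5_c10 ln15_15_5_c10_ok))))))) (M (nat_lit 594) (B (M (nat_lit 626) (B (L (nat_lit 627) ln15_18_0_c10 ln15_18_0_c10_ok) (L (nat_lit 625) ln14_18_0_c10 ln14_18_0_c10_ok))) (B (M (nat_lit 625) (B (L (nat_lit 626) ln14_18_0_c10 ln14_18_0_c10_ok) (M (nat_lit 624) (B (L (nat_lit 589) ln13_18_0_c10 ln13_18_0_c10_ok) (M (nat_lit 595) (B (L (nat_lit 596) ln20_18_1_c10 ln20_18_1_c10_ok)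 (L (nat_lit 623) ln19_18_1_c10 ln19_18_1_c10_ok))))))) (B (M (nat_lit 595) (B (M (nat_lit 563) (B (L (nat_lit 564) ln16_18_2_c10 ln16_18_2_c10_ok) (L (nat_lit 562) ln15_18_2_c10 ln15_18_2_c10_ok))) (M (nat_lit 624) (B (L (nat_lit 623) ln19_18_1_c10 ln19_18_1_c10_ok) (M (nat_lit 625) (B (L (nat_lit 596) ln20_18_1_c10 ln20_18_1_c10_ok) (L (nat_lit 589) ln13_18_0_c10 ln13_18_0_c10_ok))))))) (M (nat_lit 595) (B (M (nat_lit 627) (B (L (nat_lit 628) ln16_18_0_c10 ln16_18_0_c10_ok) (L (nat_lit 626) ln15_18_0_c10 ln15_18_0_c10_ok))) (M (nat_lit 563) (B (L (nat_lit 564) ln16_18_2_c10 ln16_18_2_c10_ok) (L (nat_lit 562) ln15_18_2_c10 ln15_18_2_c10_ok)))))))))))))))))))))))))))) (B (M (nat_lit 528) (B (L (nat_lit 529) ln13_15_0 ln13_15_0_ok) (M (nat_lit 560) (B (L (nat_lit 463) ln16_18_7_c10 ln16_18_7_c10_ok) (M (nat_lit 591) (B (L (nat_lit 623) ln16_15_5_c10 ln16_15_5_c10_ok) (M (nat_lit 624) (B (L (nat_lit 527) ln16_19_7_c10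 ln16_19_7_c10_ok) (M (nat_lit 625) (B (L (nat_lit 657) ln16_16_4_c10 ln16_16_4_c10_ok) (L (nat_lit 589) ln13_18_0_c10 ln13_18_0_c10_ok))))))))))) (B (M (nat_lit 528) (B (L (nat_lit 529) ln13_15_0 ln13_15_0_ok) (M (nat_lit 560) (B (L (nat_lit 463) ln16_18_7_c10 ln16_18_7_c10_ok) (M (nat_lit 591) (B (L (nat_lit 623) ln16_15_5_c10 ln16_15_5_c10_ok) (M (nat_lit 561) (B (L (nat_lit 589) ln13_18_2_c10 ln13_18_2_c10_ok) (M (nat_lit 562) (B (L (nat_lit 593) ln14_18_2_c10 ln14_18_2_c10_ok) (L (nat_lit 563) ln19_17_1_c10 ln19_17_1_c10_ok))))))))))) (M (nat_lit 528) (B (L (nat_lit 529) ln13_15_0 ln13_15_0_ok) (M (nat_lit 560) (B (L (nat_lit 463) ln16_18_7_c10 ln16_18_7_c10_ok) (M (nat_lit 624) (B (L (nat_lit 527) ln16_19_7_c10 ln16_19_7_c10_ok) (M (nat_lit 625) (B (L (nat_lit 593) ln16_15_4_c10 ln16_15_4_c10_ok) (L (nat_lit 657) ln16_16_4_c10 ln16_16_4_c10_ok)))))))))))))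
noncomputable def c10_d359 : Cert := (B (M (nat_lit 592) (B (M (nat_lit 593) (B (M (nat_lit 561) (B (L (nat_lit 562) ln14_18_2_c10 ln14_18_2_c10_ok) (L (nat_lit 560) ln13_18_2_c10 ln13_18_2_c10_ok))) (M (nat_lit 625) (B (L (nat_lit 626) ln14_18_0_c10 ln14_18_0_c10_ok) (L (nat_lit 624) ln13_18_0_c10 ln13_18_0_c10_ok))))) (B (M (nat_lit 623) (B (M (nat_lit 624) (B (L (nat_lit 625) ln13_18_0_c10 ln13_18_0_c10_ok) (M (nat_lit 560) (B (L (nat_lit 561) ln13_18_2_c10 ln13_18_2_c10_ok) (L (nat_lit 528) ln16_15_5_c10 ln16_15_5_c10_ok))))) (B (M (nat_lit 593) (B (M (nat_lit 625) (B (L (nat_lit 626) ln14_18_0_c10 ln14_18_0_c10_ok) (L (nat_lit 624) ln13_18_0_c10 ln13_18_0_c10_ok))) (M (nat_lit 622) (B (L (nat_lit 594) ln18_18_1_c10 ln18_18_1_c10_ok) (L (nat_lit 621) ln17_18_1_c10 ln17_18_1_c10_ok))))) (M (nat_lit 560) (B (L (nat_lit 561) ln13_18_2_c10 ln13_18_2_c10_ok) (L (nat_lit 528) ln16_15_5_c10 ln16_15_5_c10_ok)))))) (B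 (M (nat_lit 624) (B (L (nat_lit 625) ln13_18_0_c10 ln13_18_0_c10_ok) (M (nat_lit 560) (B (L (nat_lit 561) ln13_18_2_c10 ln13_18_2_c10_ok) (M (nat_lit 656) (B (M (nat_lit 559) (B (L (nat_lit 527) ln15_15_4_c10 ln15_15_4_c10_ok) (L (nat_lit 688) ln16_21_7_c10 ln16_21_7_c10_ok))) (B (M (nat_lit 528) (B (L (nat_lit 527) ln16_19_7_c10 ln16_19_7_c10_ok) (M (nat_lit 655) (B (L (nat_lit 623) ln16_15_5_c10 ln16_15_5_c10_ok) (L (nat_lit 687) ln16_17_5_c10 ln16_17_5_c10_ok))))) (M (nat_lit 688) (B (L (nat_lit 559) ln16_21_7_c10 ln16_21_7_c10_ok) (M (nat_lit 689) (B (L (nat_lit 657) ln16_17_4_c10 ln16_17_4_c10_ok) (L (nat_lit 721) ln16_18_4_c10 ln16_18_4_c10_ok)))))))))))) (B (M (nat_lit 559) (B (M (nat_lit 624) (B (L (nat_lit 625) ln13_18_0_c10 ln13_18_0_c10_ok) (L (nat_lit 527) ln15_15_4_c10 ln15_15_4_c10_ok))) (B (M (nat_lit 527) (B (L (nat_lit 624) ln15_15_4_c10 ln15_15_4_c10_ok) (L (nat_lit 622) ln15_15_5_c10 ln15_15_5_c10_ok)))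 (B (M (nat_lit 622) (B (M (nat_lit 654) (B (L (nat_lit 686) ln14_21_6_c10 ln14_21_6_c10_ok) (L (nat_lit 527) ln15_15_5_c10 ln15_15_5_c10_ok))) (M (nat_lit 593) (B (L (nat_lit 621) ln17_18_1_c10 ln17_18_1_c10_ok) (M (nat_lit 594) (B (L (nat_lit 623) ln18_18_1_c10 ln18_18_1_c10_ok) (M (nat_lit 626) (B (L (nat_lit 627) ln15_18_0_c10 ln15_18_0_c10_ok) (L (nat_lit 625) ln14_18_0_c10 ln14_18_0_c10_ok))))))))) (M (nat_lit 593) (B (M (nat_lit 625) (B (L (nat_lit 626) ln14_18_0_c10 ln14_18_0_c10_ok) (L (nat_lit 624) ln13_18_0_c10 ln13_18_0_c10_ok))) (M (nat_lit 594) (B (M (nat_lit 622) (B (L (nat_lit 623) ln18_18_1_c10 ln18_18_1_c10_ok) (L (nat_lit 621) ln17_18_1_c10 ln17_18_1_c10_ok))) (M (nat_lit 595) (B (L (nat_lit 560) ln19_18_3_c10 ln19_18_3_c10_ok) (M (nat_lit 563) (B (L (nat_lit 564) ln16_18_2_c10 ln16_18_2_c10_ok) (L (nat_lit 562) ln15_18_2_c10 ln15_18_2_c10_ok))))))))))))) (B (M (nat_lit 593) (B (M (nat_lit 561)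 (B (L (nat_lit 562) ln14_18_2_c10 ln14_18_2_c10_ok) (L (nat_lit 560) ln13_18_2_c10 ln13_18_2_c10_ok))) (B (M (nat_lit 594) (B (M (nat_lit 622) (B (L (nat_lit 623) ln18_18_1_c10 ln18_18_1_c10_ok) (L (nat_lit 621) ln17_18_1_c10 ln17_18_1_c10_ok))) (M (nat_lit 595) (B (M (nat_lit 627) (B (L (nat_lit 628) ln16_18_0_c10 ln16_18_0_c10_ok) (L (nat_lit 626) ln15_18_0_c10 ln15_18_0_c10_ok))) (M (nat_lit 560) (B (L (nat_lit 559) ln19_18_3_c10 ln19_18_3_c10_ok) (L (nat_lit 561) ln13_18_2_c10 ln13_18_2_c10_ok))))))) (M (nat_lit 594) (B (M (nat_lit 622) (B (L (nat_lit 623) ln18_18_1_c10 ln18_18_1_c10_ok) (L (nat_lit 621) ln17_18_1_c10 ln17_18_1_c10_ok))) (M (nat_lit 595) (B (M (nat_lit 563) (B (L (nat_lit 564) ln16_18_2_c10 ln16_18_2_c10_ok) (L (nat_lit 562) ln15_18_2_c10 ln15_18_2_c10_ok))) (M (nat_lit 627) (B (L (nat_lit 628) ln16_18_0_c10 ln16_18_0_c10_ok) (L (nat_lit 626) ln15_18_0_c10 ln15_18_0_c10_ok)))))))))) (M (nat_lit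 593) (B (M (nat_lit 625) (B (L (nat_lit 626) ln14_18_0_c10 ln14_18_0_c10_ok) (L (nat_lit 624) ln13_18_0_c10 ln13_18_0_c10_ok))) (M (nat_lit 594) (B (M (nat_lit 562) (B (L (nat_lit 563) ln15_18_2_c10 ln15_18_2_c10_ok) (L (nat_lit 561) ln14_18_2_c10 ln14_18_2_c10_ok))) (M (nat_lit 622) (B (L (nat_lit 623) ln18_18_1_c10 ln18_18_1_c10_ok) (L (nat_lit 621) ln17_18_1_c10 ln17_18_1_c10_ok))))))))))))) (B (K (nat_lit 14182914542073706401275293328296338682683065883868180653600735940812069433788564002947135458129436863655206619560279744800337023682893022189283317721078355195382708625135659646976) (nat_lit 299004108856022408073304485880527442292154493577161040858195929128061549651188006331075435371539889011063595410038091219162330286316940487202797698445602559523484213630481326491509478997515158159360) (nat_lit 299004108856022408073304485880527442292154493577161040858195929128061549651188006331075435371539889011063595410038091219162330286316940487202797698445602559523484213630481326491509478997515158159360)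 c10_s430) (B (M (nat_lit 592) (B (M (nat_lit 624) (B (L (nat_lit 625) ln13_18_0_c10 ln13_18_0_c10_ok) (M (nat_lit 588) (B (L (nat_lit 623) ln12_18_0_c10 ln12_18_0_c10_ok) (M (nat_lit 560) (B (L (nat_lit 561) ln13_18_2_c10 ln13_18_2_c10_ok) (L (nat_lit 559) ln12_18_2_c10 ln12_18_2_c10_ok))))))) (B (M (nat_lit 588) (B (M (nat_lit 624) (B (L (nat_lit 625) ln13_18_0_c10 ln13_18_0_c10_ok) (L (nat_lit 623) ln12_18_0_c10 ln12_18_0_c10_ok))) (M (nat_lit 556) (B (L (nat_lit 557) ln13_14_5 ln13_14_5_ok) (L (nat_lit 555) ln15_18_3_c10 ln15_18_3_c10_ok))))) (B (M (nat_lit 588) (B (M (nat_lit 560) (B (L (nat_lit 561) ln13_18_2_c10 ln13_18_2_c10_ok) (L (nat_lit 559) ln12_18_2_c10 ln12_18_2_c10_ok))) (M (nat_lit 556) (B (L (nat_lit 557) ln13_14_5 ln13_14_5_ok) (L (nat_lit 555) ln15_18_3_c10 ln15_18_3_c10_ok))))) (M (nat_lit 593) (B (M (nat_lit 561) (B (L (nat_lit 562) ln14_18_2_c10 ln14_18_2_c10_ok) (L (nat_lit 560) ln13_18_2_c10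 ln13_18_2_c10_ok))) (M (nat_lit 625) (B (L (nat_lit 626) ln14_18_0_c10 ln14_18_0_c10_ok) (L (nat_lit 624) ln13_18_0_c10 ln13_18_0_c10_ok))))))))) (B (M (nat_lit 557) (B (L (nat_lit 622) ln13_15_4_c10 ln13_15_4_c10_ok) (M (nat_lit 556) (B (L (nat_lit 592) ln16_18_3_c10 ln16_18_3_c10_ok) (M (nat_lit 555) (B (L (nat_lit 554) ln10_17_0 ln10_17_0_ok) (L (nat_lit 588) ln13_14_5 ln13_14_5_ok))))))) (M (nat_lit 622) (B (L (nat_lit 557) ln13_15_4_c10 ln13_15_4_c10_ok) (M (nat_lit 588) (B (M (nat_lit 559) (B (L (nat_lit 527) ln15_15_5_c10 ln15_15_5_c10_ok) (L (nat_lit 560) ln12_18_2_c10 ln12_18_2_c10_ok))) (M (nat_lit 623) (B (L (nat_lit 624) ln12_18_0_c10 ln12_18_0_c10_ok) (L (nat_lit 587) ln11_18_0_c10 ln11_18_0_c10_ok)))))))))))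
noncomputable def c10_d360 : Cert := (B (M (nat_lit 591) (B (M (nat_lit 592) (B (M (nat_lit 621) (B (L (nat_lit 620) ln16_18_1_c10 ln16_18_1_c10_ok) (M (nat_lit 625) (B (L (nat_lit 624) ln13_18_0_c10 ln13_18_0_c10_ok) (M (nat_lit 593) (B (L (nat_lit 626) ln14_18_0_c10 ln14_18_0_c10_ok) (L (nat_lit 622) ln17_18_1_c10 ln17_18_1_c10_ok))))))) (B (M (nat_lit 593) (B (M (nat_lit 561) (B (L (nat_lit 562) ln14_18_2_c10 ln14_18_2_c10_ok) (L (nat_lit 560) ln13_18_2_c10 ln13_18_2_c10_ok))) (M (nat_lit 621) (B (L (nat_lit 622) ln17_18_1_c10 ln17_18_1_c10_ok) (L (nat_lit 620) ln16_18_1_c10 ln16_18_1_c10_ok))))) (M (nat_lit 624) (B (L (nat_lit 625) ln13_18_0_c10 ln13_18_0_c10_ok) (M (nat_lit 560) (B (L (nat_lit 561) ln13_18_2_c10 ln13_18_2_c10_ok) (M (nat_lit 656) (B (M (nat_lit 559) (B (L (nat_lit 688) ln16_21_7_c10 ln16_21_7_c10_ok) (L (nat_lit 527) ln15_15_4_c10 ln15_15_4_c10_ok))) (B (M (nat_lit 528) (B (M (nat_lit 655)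 (B (L (nat_lit 687) ln16_17_5_c10 ln16_17_5_c10_ok) (L (nat_lit 623) ln16_15_5_c10 ln16_15_5_c10_ok))) (L (nat_lit 527) ln16_19_7_c10 ln16_19_7_c10_ok))) (M (nat_lit 688) (B (M (nat_lit 689) (B (L (nat_lit 721) ln16_18_4_c10 ln16_18_4_c10_ok) (L (nat_lit 657) ln16_17_4_c10 ln16_17_4_c10_ok))) (M (nat_lit 687) (B (L (nat_lit 719) ln16_18_5_c10 ln16_18_5_c10_ok) (L (nat_lit 655) ln16_17_5_c10 ln16_17_5_c10_ok))))))))))))))) (B (M (nat_lit 559) (B (M (nat_lit 588) (B (L (nat_lit 560) ln12_18_2_c10 ln12_18_2_c10_ok) (M (nat_lit 619) (B (L (nat_lit 620) ln15_18_1_c10 ln15_18_1_c10_ok) (M (nat_lit 555) (B (L (nat_lit 556) ln15_18_3_c10 ln15_18_3_c10_ok) (M (nat_lit 587) (B (L (nat_lit 618) ln14_18_1_c10 ln14_18_1_c10_ok) (L (nat_lit 554) ln14_18_3_c10 ln14_18_3_c10_ok))))))))) (M (nat_lit 527) (B (M (nat_lit 528) (B (L (nat_lit 623) ln15_19_6_c10 ln15_19_6_c10_ok) (L (nat_lit 529) ln13_15_0 ln13_15_0_ok))) (L (nat_lit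 622) ln15_15_5_c10 ln15_15_5_c10_ok))))) (B (M (nat_lit 588) (B (M (nat_lit 624) (B (L (nat_lit 623) ln12_18_0_c10 ln12_18_0_c10_ok) (M (nat_lit 592) (B (L (nat_lit 625) ln13_18_0_c10 ln13_18_0_c10_ok) (M (nat_lit 560) (B (L (nat_lit 561) ln13_18_2_c10 ln13_18_2_c10_ok) (L (nat_lit 559) ln12_18_2_c10 ln12_18_2_c10_ok))))))) (M (nat_lit 619) (B (L (nat_lit 620) ln15_18_1_c10 ln15_18_1_c10_ok) (M (nat_lit 587) (B (L (nat_lit 618) ln14_18_1_c10 ln14_18_1_c10_ok) (M (nat_lit 555) (B (L (nat_lit 556) ln15_18_3_c10 ln15_18_3_c10_ok) (L (nat_lit 554) ln14_18_3_c10 ln14_18_3_c10_ok))))))))) (B (K (nat_lit 14182914542073706401275293328296338682683065883868180653600735940812069433788564002947135458129436863655206619560279744800337023682893022189283317721078355195382708625135659646976) (nat_lit 299004108856022408073304485880527442292154493577161040858195929128061549651188006331075435371539889011063595410038091219162330286316940487202797698445602559523484213630481326491509478997515158159360)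 (nat_lit 299004108856022408073304485880527442292154493577161040858195929128061549651188006331075435371539889011063595410038091219162330286316940487202797698445602559523484213630481326491509478997515158159360) c10_s430) (B (M (nat_lit 592) (B (M (nat_lit 561) (B (L (nat_lit 560) ln13_18_2_c10 ln13_18_2_c10_ok) (M (nat_lit 593) (B (L (nat_lit 562) ln14_18_2_c10 ln14_18_2_c10_ok) (M (nat_lit 625) (B (L (nat_lit 624) ln13_18_0_c10 ln13_18_0_c10_ok) (L (nat_lit 626) ln14_18_0_c10 ln14_18_0_c10_ok))))))) (B (M (nat_lit 593) (B (M (nat_lit 621) (B (L (nat_lit 620) ln16_18_1_c10 ln16_18_1_c10_ok) (L (nat_lit 622) ln17_18_1_c10 ln17_18_1_c10_ok))) (M (nat_lit 625) (B (L (nat_lit 624) ln13_18_0_c10 ln13_18_0_c10_ok) (L (nat_lit 626) ln14_18_0_c10 ln14_18_0_c10_ok))))) (B (M (nat_lit 593) (B (M (nat_lit 621) (B (L (nat_lit 620) ln16_18_1_c10 ln16_18_1_c10_ok) (L (nat_lit 622) ln17_18_1_c10 ln17_18_1_c10_ok))) (M (nat_lit 561)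 (B (L (nat_lit 560) ln13_18_2_c10 ln13_18_2_c10_ok) (L (nat_lit 562) ln14_18_2_c10 ln14_18_2_c10_ok))))) (M (nat_lit 588) (B (M (nat_lit 620) (B (L (nat_lit 619) ln15_18_1_c10 ln15_18_1_c10_ok) (L (nat_lit 621) ln16_18_1_c10 ln16_18_1_c10_ok))) (M (nat_lit 560) (B (L (nat_lit 559) ln12_18_2_c10 ln12_18_2_c10_ok) (L (nat_lit 561) ln13_18_2_c10 ln13_18_2_c10_ok))))))))) (M (nat_lit 588) (B (M (nat_lit 587) (B (M (nat_lit 623) (B (L (nat_lit 624) ln12_18_0_c10 ln12_18_0_c10_ok) (L (nat_lit 622) ln11_18_0_c10 ln11_18_0_c10_ok))) (M (nat_lit 555) (B (L (nat_lit 556) ln15_18_3_c10 ln15_18_3_c10_ok) (L (nat_lit 554) ln14_18_3_c10 ln14_18_3_c10_ok))))) (B (M (nat_lit 619) (B (L (nat_lit 620) ln15_18_1_c10 ln15_18_1_c10_ok) (M (nat_lit 587) (B (L (nat_lit 618) ln14_18_1_c10 ln14_18_1_c10_ok) (M (nat_lit 555) (B (L (nat_lit 556) ln15_18_3_c10 ln15_18_3_c10_ok) (L (nat_lit 554) ln14_18_3_c10 ln14_18_3_c10_ok))))))) (B (M (nat_lit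 587) (B (M (nat_lit 623) (B (L (nat_lit 624) ln12_18_0_c10 ln12_18_0_c10_ok) (L (nat_lit 622) ln11_18_0_c10 ln11_18_0_c10_ok))) (M (nat_lit 619) (B (L (nat_lit 620) ln15_18_1_c10 ln15_18_1_c10_ok) (L (nat_lit 618) ln14_18_1_c10 ln14_18_1_c10_ok))))) (M (nat_lit 592) (B (M (nat_lit 624) (B (L (nat_lit 625) ln13_18_0_c10 ln13_18_0_c10_ok) (L (nat_lit 623) ln12_18_0_c10 ln12_18_0_c10_ok))) (M (nat_lit 620) (B (L (nat_lit 621) ln16_18_1_c10 ln16_18_1_c10_ok) (L (nat_lit 619) ln15_18_1_c10 ln15_18_1_c10_ok))))))))))))))) (B (M (nat_lit 588) (B (M (nat_lit 556) (B (L (nat_lit 557) ln13_14_5 ln13_14_5_ok) (M (nat_lit 555) (B (L (nat_lit 591) ln15_18_3_c10 ln15_18_3_c10_ok) (M (nat_lit 554) (B (L (nat_lit 553) ln9_17_0 ln9_17_0_ok) (L (nat_lit 587) ln14_18_3_c10 ln14_18_3_c10_ok))))))) (B (M (nat_lit 557) (B (L (nat_lit 620) ln13_15_5_c10 ln13_15_5_c10_ok) (L (nat_lit 556) ln13_14_5 ln13_14_5_ok))) (B (M (nat_lit 620) (B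 (L (nat_lit 557) ln13_15_5_c10 ln13_15_5_c10_ok) (M (nat_lit 619) (B (L (nat_lit 591) ln15_18_1_c10 ln15_18_1_c10_ok) (M (nat_lit 618) (B (L (nat_lit 587) ln14_18_1_c10 ln14_18_1_c10_ok) (L (nat_lit 621) ln10_19_2_c10 ln10_19_2_c10_ok))))))) (M (nat_lit 591) (B (M (nat_lit 555) (B (L (nat_lit 556) ln15_18_3_c10 ln15_18_3_c10_ok) (M (nat_lit 587) (B (L (nat_lit 554) ln14_18_3_c10 ln14_18_3_c10_ok) (M (nat_lit 619) (B (L (nat_lit 618) ln14_18_1_c10 ln14_18_1_c10_ok) (L (nat_lit 620) ln15_18_1_c10 ln15_18_1_c10_ok))))))) (M (nat_lit 560) (B (L (nat_lit 559) ln12_18_2_c10 ln12_18_2_c10_ok) (M (nat_lit 592) (B (L (nat_lit 561) ln13_18_2_c10 ln13_18_2_c10_ok) (M (nat_lit 624) (B (L (nat_lit 623) ln12_18_0_c10 ln12_18_0_c10_ok) (L (nat_lit 625) ln13_18_0_c10 ln13_18_0_c10_ok))))))))))))) (B (M (nat_lit 588) (B (M (nat_lit 557) (B (L (nat_lit 622) ln13_15_4_c10 ln13_15_4_c10_ok) (L (nat_lit 620) ln13_15_5_c10 ln13_15_5_c10_ok)))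 (B (M (nat_lit 591) (B (M (nat_lit 592) (B (M (nat_lit 560) (B (L (nat_lit 561) ln13_18_2_c10 ln13_18_2_c10_ok) (L (nat_lit 559) ln12_18_2_c10 ln12_18_2_c10_ok))) (M (nat_lit 620) (B (L (nat_lit 621) ln16_18_1_c10 ln16_18_1_c10_ok) (L (nat_lit 619) ln15_18_1_c10 ln15_18_1_c10_ok))))) (B (M (nat_lit 592) (B (M (nat_lit 624) (B (L (nat_lit 625) ln13_18_0_c10 ln13_18_0_c10_ok) (L (nat_lit 623) ln12_18_0_c10 ln12_18_0_c10_ok))) (M (nat_lit 620) (B (L (nat_lit 621) ln16_18_1_c10 ln16_18_1_c10_ok) (L (nat_lit 619) ln15_18_1_c10 ln15_18_1_c10_ok))))) (B (M (nat_lit 587) (B (M (nat_lit 623) (B (L (nat_lit 624) ln12_18_0_c10 ln12_18_0_c10_ok) (L (nat_lit 622) ln11_18_0_c10 ln11_18_0_c10_ok))) (M (nat_lit 619) (B (L (nat_lit 620) ln15_18_1_c10 ln15_18_1_c10_ok) (L (nat_lit 618) ln14_18_1_c10 ln14_18_1_c10_ok))))) (M (nat_lit 592) (B (M (nat_lit 560) (B (L (nat_lit 561) ln13_18_2_c10 ln13_18_2_c10_ok) (L (nat_lit 559) ln12_18_2_c10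 ln12_18_2_c10_ok))) (M (nat_lit 624) (B (L (nat_lit 625) ln13_18_0_c10 ln13_18_0_c10_ok) (L (nat_lit 623) ln12_18_0_c10 ln12_18_0_c10_ok))))))))) (B (M (nat_lit 620) (B (L (nat_lit 557) ln13_15_5_c10 ln13_15_5_c10_ok) (M (nat_lit 619) (B (L (nat_lit 591) ln15_18_1_c10 ln15_18_1_c10_ok) (M (nat_lit 618) (B (L (nat_lit 587) ln14_18_1_c10 ln14_18_1_c10_ok) (L (nat_lit 621) ln10_19_2_c10 ln10_19_2_c10_ok))))))) (M (nat_lit 622) (B (L (nat_lit 557) ln13_15_4_c10 ln13_15_4_c10_ok) (M (nat_lit 623) (B (L (nat_lit 587) ln11_18_0_c10 ln11_18_0_c10_ok) (M (nat_lit 624) (B (L (nat_lit 591) ln12_18_0_c10 ln12_18_0_c10_ok) (L (nat_lit 625) ln17_19_3_c10 ln17_19_3_c10_ok))))))))))) (M (nat_lit 557) (B (M (nat_lit 588) (B (L (nat_lit 556) ln13_14_5 ln13_14_5_ok) (L (nat_lit 620) ln13_15_5_c10 ln13_15_5_c10_ok))) (L (nat_lit 622) ln13_15_4_c10 ln13_15_4_c10_ok))))))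
noncomputable def c10_d361 : Cert := (B (M (nat_lit 592) (B (M (nat_lit 591) (B (M (nat_lit 593) (B (M (nat_lit 594) (B (M (nat_lit 595) (B (M (nat_lit 563) (B (L (nat_lit 564) ln16_18_2_c10 ln16_18_2_c10_ok) (L (nat_lit 562) ln15_18_2_c10 ln15_18_2_c10_ok))) (M (nat_lit 627) (B (L (nat_lit 628) ln16_18_0_c10 ln16_18_0_c10_ok) (L (nat_lit 626) ln15_18_0_c10 ln15_18_0_c10_ok))))) (B (M (nat_lit 626) (B (L (nat_lit 627) ln15_18_0_c10 ln15_18_0_c10_ok) (L (nat_lit 625) ln14_18_0_c10 ln14_18_0_c10_ok))) (B (M (nat_lit 595) (B (M (nat_lit 563) (B (L (nat_lit 564) ln16_18_2_c10 ln16_18_2_c10_ok) (L (nat_lit 562) ln15_18_2_c10 ln15_18_2_c10_ok))) (M (nat_lit 624) (B (L (nat_lit 623) ln19_18_1_c10 ln19_18_1_c10_ok) (M (nat_lit 625) (B (L (nat_lit 596) ln20_18_1_c10 ln20_18_1_c10_ok) (L (nat_lit 626) ln14_18_0_c10 ln14_18_0_c10_ok))))))) (M (nat_lit 595) (B (M (nat_lit 563) (B (L (nat_lit 564) ln16_18_2_c10 ln16_18_2_c10_ok)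 (L (nat_lit 562) ln15_18_2_c10 ln15_18_2_c10_ok))) (M (nat_lit 596) (B (M (nat_lit 628) (B (L (nat_lit 629) ln17_18_0_c10 ln17_18_0_c10_ok) (L (nat_lit 627) ln16_18_0_c10 ln16_18_0_c10_ok))) (M (nat_lit 624) (B (L (nat_lit 625) ln20_18_1_c10 ln20_18_1_c10_ok) (L (nat_lit 623) ln19_18_1_c10 ln19_18_1_c10_ok))))))))))) (M (nat_lit 529) (B (L (nat_lit 528) ln13_15_0 ln13_15_0_ok) (M (nat_lit 497) (B (L (nat_lit 530) ln14_15_0 ln14_15_0_ok) (M (nat_lit 466) (B (L (nat_lit 465) ln14_15_2_c10 ln14_15_2_c10_ok) (M (nat_lit 498) (B (L (nat_lit 467) ln15_15_2_c10 ln15_15_2_c10_ok) (L (nat_lit 561) ln17_18_6_c10 ln17_18_6_c10_ok))))))))))) (B (M (nat_lit 593) (B (M (nat_lit 558) (B (L (nat_lit 557) ln13_14_4 ln13_14_4_ok) (M (nat_lit 559) (B (L (nat_lit 594) ln18_18_3_c10 ln18_18_3_c10_ok) (M (nat_lit 527) (B (L (nat_lit 463) ln15_14_5_c10 ln15_14_5_c10_ok) (L (nat_lit 624) ln15_15_4_c10 ln15_15_4_c10_ok))))))) (M (nat_lit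 529) (B (L (nat_lit 528) ln13_15_0 ln13_15_0_ok) (M (nat_lit 497) (B (L (nat_lit 530) ln14_15_0 ln14_15_0_ok) (M (nat_lit 466) (B (L (nat_lit 465) ln14_15_2_c10 ln14_15_2_c10_ok) (M (nat_lit 498) (B (L (nat_lit 467) ln15_15_2_c10 ln15_15_2_c10_ok) (L (nat_lit 561) ln17_18_6_c10 ln17_18_6_c10_ok))))))))))) (M (nat_lit 557) (B (M (nat_lit 556) (B (L (nat_lit 589) ln16_18_3_c10 ln16_18_3_c10_ok) (L (nat_lit 588) ln13_14_5 ln13_14_5_ok))) (L (nat_lit 558) ln13_14_4 ln13_14_4_ok)))))) (B (M (nat_lit 557) (B (L (nat_lit 558) ln13_14_4 ln13_14_4_ok) (M (nat_lit 588) (B (L (nat_lit 556) ln13_14_5 ln13_14_5_ok) (M (nat_lit 589) (B (L (nat_lit 620) ln13_15_5_c10 ln13_15_5_c10_ok) (M (nat_lit 591) (B (M (nat_lit 624) (B (L (nat_lit 625) ln13_18_0_c10 ln13_18_0_c10_ok) (M (nat_lit 559) (B (L (nat_lit 527) ln15_15_4_c10 ln15_15_4_c10_ok) (L (nat_lit 560) ln12_18_2_c10 ln12_18_2_c10_ok))))) (B (M (nat_lit 624) (B (L (nat_lit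 625) ln13_18_0_c10 ln13_18_0_c10_ok) (M (nat_lit 559) (B (L (nat_lit 527) ln15_15_4_c10 ln15_15_4_c10_ok) (L (nat_lit 623) ln12_18_0_c10 ln12_18_0_c10_ok))))) (B (M (nat_lit 559) (B (L (nat_lit 560) ln12_18_2_c10 ln12_18_2_c10_ok) (M (nat_lit 624) (B (L (nat_lit 527) ln15_15_4_c10 ln15_15_4_c10_ok) (L (nat_lit 623) ln12_18_0_c10 ln12_18_0_c10_ok))))) (B (M (nat_lit 561) (B (L (nat_lit 560) ln13_18_2_c10 ln13_18_2_c10_ok) (M (nat_lit 593) (B (L (nat_lit 562) ln14_18_2_c10 ln14_18_2_c10_ok) (M (nat_lit 625) (B (L (nat_lit 626) ln14_18_0_c10 ln14_18_0_c10_ok) (L (nat_lit 624) ln13_18_0_c10 ln13_18_0_c10_ok))))))) (M (nat_lit 560) (B (L (nat_lit 561) ln13_18_2_c10 ln13_18_2_c10_ok) (L (nat_lit 559) ln12_18_2_c10 ln12_18_2_c10_ok)))))))))))))) (B (M (nat_lit 528) (B (L (nat_lit 529) ln13_15_0 ln13_15_0_ok) (M (nat_lit 560) (B (L (nat_lit 463) ln16_18_7_c10 ln16_18_7_c10_ok) (M (nat_lit 591) (B (L (nat_lit 623) ln16_15_5_c10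 ln16_15_5_c10_ok) (M (nat_lit 561) (B (L (nat_lit 589) ln13_18_2_c10 ln13_18_2_c10_ok) (M (nat_lit 562) (B (L (nat_lit 593) ln14_18_2_c10 ln14_18_2_c10_ok) (L (nat_lit 563) ln19_17_1_c10 ln19_17_1_c10_ok))))))))))) (B (M (nat_lit 528) (B (L (nat_lit 529) ln13_15_0 ln13_15_0_ok) (M (nat_lit 560) (B (L (nat_lit 463) ln16_18_7_c10 ln16_18_7_c10_ok) (M (nat_lit 591) (B (L (nat_lit 623) ln16_15_5_c10 ln16_15_5_c10_ok) (M (nat_lit 624) (B (L (nat_lit 527) ln16_19_7_c10 ln16_19_7_c10_ok) (M (nat_lit 625) (B (L (nat_lit 657) ln16_16_4_c10 ln16_16_4_c10_ok) (L (nat_lit 589) ln13_18_0_c10 ln13_18_0_c10_ok))))))))))) (M (nat_lit 528) (B (L (nat_lit 529) ln13_15_0 ln13_15_0_ok) (M (nat_lit 560) (B (L (nat_lit 463) ln16_18_7_c10 ln16_18_7_c10_ok) (M (nat_lit 624) (B (L (nat_lit 527) ln16_19_7_c10 ln16_19_7_c10_ok) (M (nat_lit 625) (B (L (nat_lit 593) ln16_15_4_c10 ln16_15_4_c10_ok) (L (nat_lit 657) ln16_16_4_c10 ln16_16_4_c10_ok))))))))))))))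 (B (M (nat_lit 558) (B (L (nat_lit 557) ln13_14_4 ln13_14_4_ok) (M (nat_lit 497) (B (M (nat_lit 530) (B (M (nat_lit 531) (B (L (nat_lit 498) ln15_15_0_c10 ln15_15_0_c10_ok) (L (nat_lit 529) ln14_15_0 ln14_15_0_ok))) (B (M (nat_lit 465) (B (L (nat_lit 529) ln14_15_0 ln14_15_0_ok) (L (nat_lit 466) ln14_15_2_c10 ln14_15_2_c10_ok))) (M (nat_lit 498) (B (L (nat_lit 531) ln15_15_0_c10 ln15_15_0_c10_ok) (M (nat_lit 466) (B (L (nat_lit 467) ln15_15_2_c10 ln15_15_2_c10_ok) (L (nat_lit 465) ln14_15_2_c10 ln14_15_2_c10_ok)))))))) (B (M (nat_lit 498) (B (M (nat_lit 499) (B (M (nat_lit 467) (B (L (nat_lit 468) ln16_15_2_c10 ln16_15_2_c10_ok) (L (nat_lit 466) ln15_15_2_c10 ln15_15_2_c10_ok))) (M (nat_lit 531) (B (L (nat_lit 532) ln16_15_0_c10 ln16_15_0_c10_ok) (L (nat_lit 530) ln15_15_0_c10 ln15_15_0_c10_ok))))) (B (M (nat_lit 530) (B (L (nat_lit 531) ln15_15_0_c10 ln15_15_0_c10_ok) (L (nat_lit 529) ln14_15_0 ln14_15_0_ok)))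 (M (nat_lit 499) (B (M (nat_lit 467) (B (L (nat_lit 468) ln16_15_2_c10 ln16_15_2_c10_ok) (L (nat_lit 466) ln15_15_2_c10 ln15_15_2_c10_ok))) (M (nat_lit 528) (B (L (nat_lit 527) ln19_15_1_c10 ln19_15_1_c10_ok) (L (nat_lit 529) ln13_15_0 ln13_15_0_ok)))))))) (B (M (nat_lit 529) (B (L (nat_lit 530) ln14_15_0 ln14_15_0_ok) (L (nat_lit 528) ln13_15_0 ln13_15_0_ok))) (B (M (nat_lit 466) (B (L (nat_lit 465) ln14_15_2_c10 ln14_15_2_c10_ok) (M (nat_lit 498) (B (L (nat_lit 467) ln15_15_2_c10 ln15_15_2_c10_ok) (M (nat_lit 531) (B (L (nat_lit 530) ln15_15_0_c10 ln15_15_0_c10_ok) (M (nat_lit 499) (B (L (nat_lit 532) ln16_15_0_c10 ln16_15_0_c10_ok) (M (nat_lit 527) (B (L (nat_lit 528) ln19_15_1_c10 ln19_15_1_c10_ok) (M (nat_lit 559) (B (L (nat_lit 463) ln15_14_5_c10 ln15_14_5_c10_ok) (M (nat_lit 622) (B (L (nat_lit 654) ln14_20_6_c10 ln14_20_6_c10_ok) (L (nat_lit 591) ln15_15_5_c10 ln15_15_5_c10_ok))))))))))))))) (M (nat_lit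 466) (B (L (nat_lit 465) ln14_15_2_c10 ln14_15_2_c10_ok) (M (nat_lit 498) (B (L (nat_lit 467) ln15_15_2_c10 ln15_15_2_c10_ok) (M (nat_lit 528) (B (L (nat_lit 529) ln13_15_0 ln13_15_0_ok) (M (nat_lit 527) (B (L (nat_lit 499) ln19_15_1_c10 ln19_15_1_c10_ok) (M (nat_lit 559) (B (L (nat_lit 463) ln15_14_5_c10 ln15_14_5_c10_ok) (M (nat_lit 622) (B (L (nat_lit 654) ln14_20_6_c10 ln14_20_6_c10_ok) (L (nat_lit 591) ln15_15_5_c10 ln15_15_5_c10_ok)))))))))))))))))))) (M (nat_lit 557) (B (M (nat_lit 589) (B (M (nat_lit 588) (B (L (nat_lit 556) ln13_14_5 ln13_14_5_ok) (L (nat_lit 620) ln13_15_5_c10 ln13_15_5_c10_ok))) (L (nat_lit 622) ln13_15_4_c10 ln13_15_4_c10_ok))) (L (nat_lit 558) ln13_14_4 ln13_14_4_ok)))))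
noncomputable def c10_d362 : Cert := (B (M (nat_lit 400) (B (M (nat_lit 399) (B (M (nat_lit 365) (B (M (nat_lit 302) (B (M (nat_lit 304) (B (M (nat_lit 303) (B (K (nat_lit 383600461868783388222986614096266462235883586976421838006897082937082378022292168646313495504118652032479925772076346627612894864867166214612093763584) (nat_lit 8818994923302881348195200955421754801986153761310491674633687882605350337330600013800791662914512617472) (nat_lit 8818994923302881348195200955421754801986153761310491674633687882605350337330600013800791662914512617472) c10_s415) (B (K (nat_lit 383600461868783388222986614096266462235883586976421838006897082937082378022292168646313495504118652032479925772076346627612894864867166214612093763584) (nat_lit 5545339388241629719457441819421468989071261238407964100493933234300421108696501212606743336484119113782672306046944549844478328832) (nat_lit 5545339388241629719457441819421468989071261238407964100493933234300421108696501212606743336484119113782672306046944549844478328832)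 c10_s417) (B (K (nat_lit 383600461868783388222986614096266462235883586976421838006897082937082378022292168646313495504118652032479925772076346627612894864867166214612093763584) (nat_lit 300613454774886788693614988598367868538921702901094339757992322401383521549918614185244430057935191406777729024) (nat_lit 300613454774886788693614988598367868538921702901094339757992322401383521549918614185244430057935191406777729024) c10_s418) (B (K (nat_lit 383600461868783388222986614096266462235883586976421838006897082937082378022292168646313495504118652032479925772076346627612894864867166214612093763584) (nat_lit 8364046772554125975851641101842989235682247984815320839493576269945832044411935045382312585802496868352) (nat_lit 8364046772554125975851641101842989235682247984815320839493576269945832044411935045382312585802496868352) c10_s419) (B (K (nat_lit 383600461868783388222986614096266462235883586976421838006897082937082378022292168646313495504118652032479925772076346627612894864867166214612093763584)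 (nat_lit 2204748731041646150638669776481160886035154598115746158358196519784185081138562360632454216916083408896) (nat_lit 2204748731041646150638669776481160886035154598115746158358196519784185081138562360632454216916083408896) c10_s420) (B (M (nat_lit 337) (B (M (nat_lit 338) (B (L (nat_lit 305) ln14_9_0_c10 ln14_9_0_c10_ok) (M (nat_lit 336) (B (L (nat_lit 335) ln18_10_3_c10 ln18_10_3_c10_ok) (L (nat_lit 301) ln13_9_0 ln13_9_0_ok))))) (B (M (nat_lit 272) (B (M (nat_lit 301) (B (L (nat_lit 336) ln13_9_0 ln13_9_0_ok) (L (nat_lit 273) ln13_9_2 ln13_9_2_ok))) (B (M (nat_lit 273) (B (L (nat_lit 301) ln13_9_2 ln13_9_2_ok) (M (nat_lit 274) (B (L (nat_lit 305) ln14_9_2_c10 ln14_9_2_c10_ok) (L (nat_lit 275) ln19_8_1_c10 ln19_8_1_c10_ok))))) (B (M (nat_lit 240) (B (M (nat_lit 208) (B (L (nat_lit 305) ln16_6_4_c10 ln16_6_4_c10_ok) (L (nat_lit 335) ln16_6_5_c10 ln16_6_5_c10_ok))) (B (M (nat_lit 369) (B (L (nat_lit 336) ln16_7_4_c10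 ln16_7_4_c10_ok) (M (nat_lit 305) (B (L (nat_lit 401) ln17_12_7_c10 ln17_12_7_c10_ok) (L (nat_lit 208) ln16_6_4_c10 ln16_6_4_c10_ok))))) (B (M (nat_lit 336) (B (L (nat_lit 369) ln16_7_4_c10 ln16_7_4_c10_ok) (M (nat_lit 335) (B (L (nat_lit 367) ln16_7_5_c10 ln16_7_5_c10_ok) (L (nat_lit 208) ln16_6_5_c10 ln16_6_5_c10_ok))))) (M (nat_lit 369) (B (L (nat_lit 336) ln16_7_4_c10 ln16_7_4_c10_ok) (M (nat_lit 305) (B (L (nat_lit 401) ln17_12_7_c10 ln17_12_7_c10_ok) (L (nat_lit 273) ln17_11_7_c10 ln17_11_7_c10_ok))))))))) (M (nat_lit 240) (B (M (nat_lit 336) (B (L (nat_lit 369) ln16_7_4_c10 ln16_7_4_c10_ok) (L (nat_lit 301) ln13_9_0 ln13_9_0_ok))) (M (nat_lit 208) (B (L (nat_lit 305) ln16_6_4_c10 ln16_6_4_c10_ok) (L (nat_lit 335) ln16_6_5_c10 ln16_6_5_c10_ok))))))))) (B (M (nat_lit 305) (B (L (nat_lit 338) ln14_9_0_c10 ln14_9_0_c10_ok) (M (nat_lit 273) (B (L (nat_lit 274) ln14_9_2_c10 ln14_9_2_c10_ok) (M (nat_lit 272) (B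 (L (nat_lit 301) ln13_9_2 ln13_9_2_ok) (M (nat_lit 240) (B (L (nat_lit 369) ln17_11_7_c10 ln17_11_7_c10_ok) (L (nat_lit 208) ln16_6_4_c10 ln16_6_4_c10_ok))))))))) (B (M (nat_lit 336) (B (L (nat_lit 301) ln13_9_0 ln13_9_0_ok) (M (nat_lit 338) (B (L (nat_lit 339) ln19_10_3_c10 ln19_10_3_c10_ok) (L (nat_lit 335) ln18_10_3_c10 ln18_10_3_c10_ok))))) (M (nat_lit 338) (B (L (nat_lit 305) ln14_9_0_c10 ln14_9_0_c10_ok) (M (nat_lit 336) (B (L (nat_lit 339) ln19_10_3_c10 ln19_10_3_c10_ok) (L (nat_lit 335) ln18_10_3_c10 ln18_10_3_c10_ok)))))))))) (K (nat_lit 383600461868783388222986614096266462235883586976421838006897082937082378022292168646313495504118652032479925772076346627612894864867166214612093763584) (nat_lit 1959776649605208210039484153318288440616570292285236591611335649489227907647302851929659909464949522432) (nat_lit 1959776649605208210039484153318288440616570292285236591611335649489227907647302851929659909464949522432)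 c10_s421)))))))) c10_d353)) (B (M (nat_lit 301) c10_d355) c10_d356))) (L (nat_lit 364) ln16_12_3 ln16_12_3_ok))) (L (nat_lit 428) ln16_12_1 ln16_12_1_ok))) (B (M (nat_lit 464) (B (L (nat_lit 465) ln13_15_2 ln13_15_2_ok) (M (nat_lit 432) (B (L (nat_lit 527) ln16_12_5_c10 ln16_12_5_c10_ok) (M (nat_lit 368) (B (L (nat_lit 463) ln16_11_5_c10 ln16_11_5_c10_ok) (M (nat_lit 369) (B (L (nat_lit 401) ln16_15_6_c10 ln16_15_6_c10_ok) (L (nat_lit 337) ln16_14_6_c10 ln16_14_6_c10_ok))))))))) (B (M (nat_lit 399) (B (L (nat_lit 428) ln16_12_1 ln16_12_1_ok) (M (nat_lit 401) (B (M (nat_lit 433) (B (L (nat_lit 434) ln14_12_0 ln14_12_0_ok) (L (nat_lit 432) ln13_12_0 ln13_12_0_ok))) (M (nat_lit 369) (B (L (nat_lit 370) ln14_12_2 ln14_12_2_ok) (L (nat_lit 368) ln13_12_2 ln13_12_2_ok))))))) (M (nat_lit 432) (B (M (nat_lit 399) (B (L (nat_lit 428) ln16_12_1 ln16_12_1_ok) (L (nat_lit 433) ln13_12_0 ln13_12_0_ok))) (M (nat_lit 464) (B (L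 (nat_lit 465) ln13_15_2 ln13_15_2_ok) (L (nat_lit 527) ln16_12_5_c10 ln16_12_5_c10_ok))))))))) (B (M (nat_lit 525) (B (M (nat_lit 590) (B (M (nat_lit 592) (B (M (nat_lit 591) c10_d357) c10_d358)) (B (M (nat_lit 589) (B (M (nat_lit 591) c10_d359) (B (M (nat_lit 592) (B (M (nat_lit 591) (B (M (nat_lit 593) (B (M (nat_lit 621) (B (L (nat_lit 620) ln16_18_1_c10 ln16_18_1_c10_ok) (L (nat_lit 622) ln17_18_1_c10 ln17_18_1_c10_ok))) (M (nat_lit 625) (B (L (nat_lit 624) ln13_18_0_c10 ln13_18_0_c10_ok) (L (nat_lit 626) ln14_18_0_c10 ln14_18_0_c10_ok))))) (B (M (nat_lit 593) (B (M (nat_lit 625) (B (L (nat_lit 624) ln13_18_0_c10 ln13_18_0_c10_ok) (L (nat_lit 626) ln14_18_0_c10 ln14_18_0_c10_ok))) (M (nat_lit 561) (B (L (nat_lit 560) ln13_18_2_c10 ln13_18_2_c10_ok) (L (nat_lit 562) ln14_18_2_c10 ln14_18_2_c10_ok))))) (B (M (nat_lit 593) (B (M (nat_lit 621) (B (L (nat_lit 620) ln16_18_1_c10 ln16_18_1_c10_ok) (L (nat_lit 622)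 ln17_18_1_c10 ln17_18_1_c10_ok))) (M (nat_lit 561) (B (L (nat_lit 560) ln13_18_2_c10 ln13_18_2_c10_ok) (L (nat_lit 562) ln14_18_2_c10 ln14_18_2_c10_ok))))) (M (nat_lit 624) (B (L (nat_lit 625) ln13_18_0_c10 ln13_18_0_c10_ok) (M (nat_lit 560) (B (L (nat_lit 561) ln13_18_2_c10 ln13_18_2_c10_ok) (M (nat_lit 656) (B (M (nat_lit 559) (B (L (nat_lit 688) ln16_21_7_c10 ln16_21_7_c10_ok) (L (nat_lit 527) ln15_15_4_c10 ln15_15_4_c10_ok))) (B (M (nat_lit 688) (B (M (nat_lit 687) (B (L (nat_lit 719) ln16_18_5_c10 ln16_18_5_c10_ok) (L (nat_lit 655) ln16_17_5_c10 ln16_17_5_c10_ok))) (M (nat_lit 689) (B (L (nat_lit 721) ln16_18_4_c10 ln16_18_4_c10_ok) (L (nat_lit 657) ln16_17_4_c10 ln16_17_4_c10_ok))))) (M (nat_lit 528) (B (M (nat_lit 655) (B (L (nat_lit 687) ln16_17_5_c10 ln16_17_5_c10_ok) (L (nat_lit 623) ln16_15_5_c10 ln16_15_5_c10_ok))) (L (nat_lit 527) ln16_19_7_c10 ln16_19_7_c10_ok)))))))))))))) (B (M (nat_lit 591) (B (M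 (nat_lit 561) (B (M (nat_lit 562) (B (L (nat_lit 593) ln14_18_2_c10 ln14_18_2_c10_ok) (L (nat_lit 560) ln13_18_2_c10 ln13_18_2_c10_ok))) (B (M (nat_lit 624) (B (L (nat_lit 560) ln13_18_2_c10 ln13_18_2_c10_ok) (L (nat_lit 625) ln13_18_0_c10 ln13_18_0_c10_ok))) (M (nat_lit 593) (B (L (nat_lit 562) ln14_18_2_c10 ln14_18_2_c10_ok) (M (nat_lit 625) (B (L (nat_lit 626) ln14_18_0_c10 ln14_18_0_c10_ok) (L (nat_lit 624) ln13_18_0_c10 ln13_18_0_c10_ok)))))))) (M (nat_lit 557) (B (L (nat_lit 622) ln13_15_4_c10 ln13_15_4_c10_ok) (L (nat_lit 556) ln16_18_3_c10 ln16_18_3_c10_ok))))) (B (M (nat_lit 593) (B (M (nat_lit 529) (B (L (nat_lit 528) ln13_15_0 ln13_15_0_ok) (M (nat_lit 497) (B (L (nat_lit 530) ln14_15_0 ln14_15_0_ok) (M (nat_lit 466) (B (L (nat_lit 465) ln14_15_2_c10 ln14_15_2_c10_ok) (M (nat_lit 498) (B (L (nat_lit 467) ln15_15_2_c10 ln15_15_2_c10_ok) (L (nat_lit 561) ln17_18_6_c10 ln17_18_6_c10_ok))))))))) (M (nat_lit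 591) (B (M (nat_lit 625) (B (L (nat_lit 624) ln13_18_0_c10 ln13_18_0_c10_ok) (L (nat_lit 626) ln14_18_0_c10 ln14_18_0_c10_ok))) (M (nat_lit 557) (B (L (nat_lit 622) ln13_15_4_c10 ln13_15_4_c10_ok) (L (nat_lit 556) ln16_18_3_c10 ln16_18_3_c10_ok))))))) (B (M (nat_lit 528) (B (L (nat_lit 529) ln13_15_0 ln13_15_0_ok) (M (nat_lit 560) (B (L (nat_lit 463) ln16_18_7_c10 ln16_18_7_c10_ok) (M (nat_lit 591) (B (L (nat_lit 623) ln16_15_5_c10 ln16_15_5_c10_ok) (L (nat_lit 561) ln13_18_2_c10 ln13_18_2_c10_ok))))))) (B (M (nat_lit 528) (B (L (nat_lit 529) ln13_15_0 ln13_15_0_ok) (M (nat_lit 560) (B (L (nat_lit 463) ln16_18_7_c10 ln16_18_7_c10_ok) (M (nat_lit 591) (B (L (nat_lit 623) ln16_15_5_c10 ln16_15_5_c10_ok) (M (nat_lit 624) (B (L (nat_lit 527) ln16_19_7_c10 ln16_19_7_c10_ok) (L (nat_lit 625) ln13_18_0_c10 ln13_18_0_c10_ok))))))))) (M (nat_lit 528) (B (L (nat_lit 529) ln13_15_0 ln13_15_0_ok) (M (nat_lit 560) (B (L (nat_lit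 463) ln16_18_7_c10 ln16_18_7_c10_ok) (M (nat_lit 624) (B (L (nat_lit 527) ln16_19_7_c10 ln16_19_7_c10_ok) (M (nat_lit 625) (B (L (nat_lit 593) ln16_15_4_c10 ln16_15_4_c10_ok) (L (nat_lit 657) ln16_16_4_c10 ln16_16_4_c10_ok))))))))))))))) c10_d360))) c10_d361))) (L (nat_lit 524) ln16_15_1 ln16_15_1_ok))) (M (nat_lit 497) (B (M (nat_lit 529) (B (L (nat_lit 530) ln14_15_0 ln14_15_0_ok) (L (nat_lit 528) ln13_15_0 ln13_15_0_ok))) (M (nat_lit 465) (B (L (nat_lit 466) ln14_15_2_c10 ln14_15_2_c10_ok) (L (nat_lit 464) ln13_15_2 ln13_15_2_ok)))))))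
theorem c10_s431 : Sem (nat_lit 179013548875274521347162258040668140405137942851597647242837354233144832662464635376022596874566596351412569318337894756843848539253788364549782503424) (nat_lit 28501485178915904328808422503396128077794773480598581637530888742881284230444834231450908116699043155039567098002624343824099114813909977252884597592966911439427914758497251360686530915740272919779824497985836124167730932744192) (nat_lit 28501485178915904328808422503396128077794773480598581637530888742881284230444834231450908116699043155039567098002624343824099114813909977252884597592966911439427914758497251360686530915740272919779824497985836124167730932744192) :=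
  sem_of_chk (M (nat_lit 496) (B (M (nat_lit 528) (B (L (nat_lit 529) ln13_15_0 ln13_15_0_ok) (M (nat_lit 525) (B (L (nat_lit 524) ln16_15_1 ln16_15_1_ok) (K (nat_lit 988530863442408260826177103290707237379191770639314049682091934708261283148415666443405383311476433561666275013716230633655965466879123782382285504303383707648) (nat_lit 28501485145821990750196498711023758829867659394825879634603269479574523298532157133349778695413215819443692653729311079293670876917343709922981162138040522206556357185403781610397427269551245525270767510652408693635117580550144) (nat_lit 28501485145821990750196498711023758829867659394825879634603269479574523298532157133349778695413215819443692653729311079293670876917343709922981162138040522206556357185403781610397427269551245525270767510652408693635117580550144) c10_s414))))) c10_d362)) (nat_lit 179013548875274521347162258040668140405137942851597647242837354233144832662464635376022596874566596351412569318337894756843848539253788364549782503424)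 (nat_lit 28501485178915904328808422503396128077794773480598581637530888742881284230444834231450908116699043155039567098002624343824099114813909977252884597592966911439427914758497251360686530915740272919779824497985836124167730932744192) (nat_lit 28501485178915904328808422503396128077794773480598581637530888742881284230444834231450908116699043155039567098002624343824099114813909977252884597592966911439427914758497251360686530915740272919779824497985836124167730932744192) (by decide +kernel)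
noncomputable def c10_d363 : Cert := (B (M (nat_lit 370) (B (K (nat_lit 179013548899091572664880704632125070353884004832785184145640603834274570101060341069321343139366404085287401632017748727938770516514056120212129841152) (nat_lit 37739624260517130932233815201706256714613446702072597672288340036229398792218596391886514670824146817508355338798496917150009870202615704739709986039142140662862663647232) (nat_lit 37739624260517130932233815201706256714613446702072597672288340036229398792218596391886514670824146817508355338798496917150009870202615704739709986039142140662862663647232) c10_s439) (B (K (nat_lit 179013548899091572664880704632125070353884004832785184145640603834274570101060341069321343139366404085287401632017748727938770516514056120212129841152) (nat_lit 1757388203857652869611368178410116237029805069532196940512806096772878311208892931933391799972834751370713409530485524259658700146076002880932631080386934341632)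 (nat_lit 1757388203857652869611368178410116237029805069532196940512806096772878311208892931933391799972834751370713409530485524259658700146076002880932631080386934341632) c10_s432) (B (M (nat_lit 337) (B (L (nat_lit 339) ln19_10_1_c10 ln19_10_1_c10_ok) (M (nat_lit 306) (B (M (nat_lit 335) (B (L (nat_lit 307) ln15_10_2_c10 ln15_10_2_c10_ok) (M (nat_lit 303) (B (L (nat_lit 302) ln18_10_3_c10 ln18_10_3_c10_ok) (L (nat_lit 271) ln15_8_4 ln15_8_4_ok))))) (M (nat_lit 402) (B (M (nat_lit 403) (B (L (nat_lit 435) ln18_9_4_c10 ln18_9_4_c10_ok) (L (nat_lit 401) ln19_12_3_c10 ln19_12_3_c10_ok))) (M (nat_lit 305) (B (L (nat_lit 434) ln18_13_7_c10 ln18_13_7_c10_ok) (L (nat_lit 273) ln18_12_7_c10 ln18_12_7_c10_ok))))))))) (M (nat_lit 337) (B (L (nat_lit 339) ln19_10_1_c10 ln19_10_1_c10_ok) (M (nat_lit 335) (B (L (nat_lit 371) ln15_10_0_c10 ln15_10_0_c10_ok) (M (nat_lit 303) (B (L (nat_lit 302) ln18_10_3_c10 ln18_10_3_c10_ok)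 (L (nat_lit 271) ln15_8_4 ln15_8_4_ok))))))))))) (B (M (nat_lit 370) (B (K (nat_lit 179013548899091572664880704632125070353884004832785184145640603834274570101060341069321343139366404085287401632017748727938770516514056120212129841152) (nat_lit 37739624260517130932233815201706256714613446702072597672288340036229398792218596391886514670824146817508355338798496917150009870202615704739709986039142140662862663647232) (nat_lit 37739624260517130932233815201706256714613446702072597672288340036229398792218596391886514670824146817508355338798496917150009870202615704739709986039142140662862663647232) c10_s439) (B (K (nat_lit 179013548899091572664880704632125070353884004832785184145640603834274570101060341069321343139366404085287401632017748727938770516514056120212129841152) (nat_lit 2045869130601966105809629567930733391603497174643895393380222409015159163434649049620674777356413562776240006773859058102829451759772763599747680305152)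 (nat_lit 2045869130601966105809629567930733391603497174643895393380222409015159163434649049620674777356413562776240006773859058102829451759772763599747680305152) c10_s434) (M (nat_lit 339) (B (L (nat_lit 369) ln15_11_2_c10 ln15_11_2_c10_ok) (L (nat_lit 337) ln19_10_1_c10 ln19_10_1_c10_ok)))))) (B (M (nat_lit 370) (B (K (nat_lit 179013548899091572664880704632125070353884004832785184145640603834274570101060341069321343139366404085287401632017748727938770516514056120212129841152) (nat_lit 37739624260517130932233815201706256714613446702072597672288340036229398792218596391886514670824146817508355338798496917150009870202615704739709986039142140662862663647232) (nat_lit 37739624260517130932233815201706256714613446702072597672288340036229398792218596391886514670824146817508355338798496917150009870202615704739709986039142140662862663647232) c10_s439) (B (K (nat_lit 179013548899091572664880704632125070353884004832785184145640603834274570101060341069321343139366404085287401632017748727938770516514056120212129841152)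 (nat_lit 1757388203857652869611368177877763655758608616494343870959469256244561665035042761701023546641596412957606000785266715814739508543125276638405182051443422527488) (nat_lit 1757388203857652869611368177877763655758608616494343870959469256244561665035042761701023546641596412957606000785266715814739508543125276638405182051443422527488) c10_s435) (B (M (nat_lit 402) (B (M (nat_lit 369) (B (L (nat_lit 339) ln15_11_2_c10 ln15_11_2_c10_ok) (L (nat_lit 403) ln15_11_0_c10 ln15_11_0_c10_ok))) (B (M (nat_lit 403) (B (L (nat_lit 369) ln15_11_0_c10 ln15_11_0_c10_ok) (L (nat_lit 401) ln19_12_3_c10 ln19_12_3_c10_ok))) (B (M (nat_lit 339) (B (L (nat_lit 369) ln15_11_2_c10 ln15_11_2_c10_ok) (M (nat_lit 307) (B (L (nat_lit 434) ln18_13_6_c10 ln18_13_6_c10_ok) (M (nat_lit 275) (B (L (nat_lit 243) ln19_7_5_c10 ln19_7_5_c10_ok) (L (nat_lit 306) ln18_12_6_c10 ln18_12_6_c10_ok))))))) (M (nat_lit 401) (B (L (nat_lit 403) ln19_12_3_c10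 ln19_12_3_c10_ok) (M (nat_lit 433) (B (L (nat_lit 306) ln18_9_5_c10 ln18_9_5_c10_ok) (M (nat_lit 465) (B (L (nat_lit 434) ln18_10_5_c10 ln18_10_5_c10_ok) (L (nat_lit 497) ln17_15_6_c10 ln17_15_6_c10_ok))))))))))) (M (nat_lit 369) (B (M (nat_lit 335) (B (L (nat_lit 334) ln18_11_3 ln18_11_3_ok) (L (nat_lit 371) ln19_11_3_c10 ln19_11_3_c10_ok))) (L (nat_lit 339) ln15_11_2_c10 ln15_11_2_c10_ok))))))) (B (M (nat_lit 370) (B (K (nat_lit 179013548899091572664880704632125070353884004832785184145640603834274570101060341069321343139366404085287401632017748727938770516514056120212129841152) (nat_lit 325363484673821642581734860763304498978469046073135094112526871513366923763134735688622511485244387045093474932996618321920) (nat_lit 325363484673821642581734860763304498978469046073135094112526871513366923763134735688622511485244387045093474932996618321920) c10_s437) (B (M (nat_lit 337) (B (L (nat_lit 339) ln19_10_1_c10 ln19_10_1_c10_ok)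 (M (nat_lit 335) (B (L (nat_lit 371) ln15_10_0_c10 ln15_10_0_c10_ok) (M (nat_lit 303) (B (L (nat_lit 302) ln18_10_3_c10 ln18_10_3_c10_ok) (L (nat_lit 271) ln15_8_4 ln15_8_4_ok))))))) (B (M (nat_lit 369) (B (M (nat_lit 335) (B (L (nat_lit 334) ln18_11_3 ln18_11_3_ok) (L (nat_lit 371) ln19_11_3_c10 ln19_11_3_c10_ok))) (L (nat_lit 339) ln15_11_2_c10 ln15_11_2_c10_ok))) (M (nat_lit 339) (B (L (nat_lit 369) ln15_11_2_c10 ln15_11_2_c10_ok) (L (nat_lit 337) ln19_10_1_c10 ln19_10_1_c10_ok))))))) (B (M (nat_lit 370) (B (K (nat_lit 179013548899091572664880704632125070353884004832785184145640603834274570101060341069321343139366404085287401632017748727938770516514056120212129841152) (nat_lit 44362715431296522427076269528024200017961566428253416401332235195589640099023306857326660908693557487308663152230226594737525096448) (nat_lit 44362715431296522427076269528024200017961566428253416401332235195589640099023306857326660908693557487308663152230226594737525096448)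 c10_s438) (B (M (nat_lit 337) (B (L (nat_lit 339) ln19_10_1_c10 ln19_10_1_c10_ok) (M (nat_lit 335) (B (L (nat_lit 371) ln15_10_0_c10 ln15_10_0_c10_ok) (M (nat_lit 303) (B (L (nat_lit 302) ln18_10_3_c10 ln18_10_3_c10_ok) (L (nat_lit 271) ln15_8_4 ln15_8_4_ok))))))) (B (M (nat_lit 369) (B (M (nat_lit 335) (B (L (nat_lit 334) ln18_11_3 ln18_11_3_ok) (L (nat_lit 371) ln19_11_3_c10 ln19_11_3_c10_ok))) (L (nat_lit 339) ln15_11_2_c10 ln15_11_2_c10_ok))) (M (nat_lit 339) (B (L (nat_lit 369) ln15_11_2_c10 ln15_11_2_c10_ok) (L (nat_lit 337) ln19_10_1_c10 ln19_10_1_c10_ok))))))) (M (nat_lit 337) (B (L (nat_lit 339) ln19_10_1_c10 ln19_10_1_c10_ok) (M (nat_lit 335) (B (M (nat_lit 303) (B (L (nat_lit 302) ln18_10_3_c10 ln18_10_3_c10_ok) (L (nat_lit 271) ln15_8_4 ln15_8_4_ok))) (M (nat_lit 334) (B (M (nat_lit 306) (B (L (nat_lit 307) ln15_10_2_c10 ln15_10_2_c10_ok) (L (nat_lit 305) ln14_10_2_c10 ln14_10_2_c10_ok))) (M (nat_lit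 333) (B (L (nat_lit 369) ln13_10_0 ln13_10_0_ok) (L (nat_lit 332) ln12_10_0 ln12_10_0_ok))))))))))))))
noncomputable def c10_d364 : Cert := (B (M (nat_lit 306) (B (M (nat_lit 274) (B (M (nat_lit 273) (B (L (nat_lit 241) ln18_11_7_c10 ln18_11_7_c10_ok) (L (nat_lit 305) ln18_12_7_c10 ln18_12_7_c10_ok))) (M (nat_lit 275) (B (L (nat_lit 243) ln18_11_6_c10 ln18_11_6_c10_ok) (L (nat_lit 307) ln18_12_6_c10 ln18_12_6_c10_ok))))) (B (M (nat_lit 434) (B (M (nat_lit 307) (B (L (nat_lit 275) ln18_12_6_c10 ln18_12_6_c10_ok) (L (nat_lit 339) ln18_13_6_c10 ln18_13_6_c10_ok))) (M (nat_lit 433) (B (L (nat_lit 401) ln18_9_5_c10 ln18_9_5_c10_ok) (L (nat_lit 465) ln18_10_5_c10 ln18_10_5_c10_ok))))) (B (M (nat_lit 339) (B (M (nat_lit 433) (B (L (nat_lit 401) ln18_9_5_c10 ln18_9_5_c10_ok) (M (nat_lit 434) (B (L (nat_lit 307) ln18_13_6_c10 ln18_13_6_c10_ok) (L (nat_lit 465) ln18_10_5_c10 ln18_10_5_c10_ok))))) (M (nat_lit 274) (B (M (nat_lit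 273) (B (L (nat_lit 241) ln18_11_7_c10 ln18_11_7_c10_ok) (L (nat_lit 305) ln18_12_7_c10 ln18_12_7_c10_ok))) (M (nat_lit 371) (B (L (nat_lit 242) ln18_7_4_c10 ln18_7_4_c10_ok) (L (nat_lit 403) ln18_8_4_c10 ln18_8_4_c10_ok))))))) (M (nat_lit 274) (B (M (nat_lit 273) (B (L (nat_lit 241) ln18_11_7_c10 ln18_11_7_c10_ok) (L (nat_lit 305) ln18_12_7_c10 ln18_12_7_c10_ok))) (M (nat_lit 242) (B (M (nat_lit 243) (B (L (nat_lit 211) ln18_10_6_c10 ln18_10_6_c10_ok) (L (nat_lit 275) ln18_11_6_c10 ln18_11_6_c10_ok))) (M (nat_lit 371) (B (L (nat_lit 339) ln18_7_4_c10 ln18_7_4_c10_ok) (L (nat_lit 403) ln18_8_4_c10 ln18_8_4_c10_ok))))))))))) (B (M (nat_lit 434) (B (M (nat_lit 466) (B (M (nat_lit 339) (B (L (nat_lit 307) ln18_13_6_c10 ln18_13_6_c10_ok) (L (nat_lit 371) ln18_14_6_c10 ln18_14_6_c10_ok))) (M (nat_lit 467) (B (L (nat_lit 435) ln18_10_4_c10 ln18_10_4_c10_ok) (L (nat_lit 499) ln18_11_4_c10 ln18_11_4_c10_ok))))) (B (M (nat_lit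 466) (B (M (nat_lit 467) (B (L (nat_lit 435) ln18_10_4_c10 ln18_10_4_c10_ok) (L (nat_lit 499) ln18_11_4_c10 ln18_11_4_c10_ok))) (M (nat_lit 465) (B (L (nat_lit 433) ln18_10_5_c10 ln18_10_5_c10_ok) (L (nat_lit 497) ln18_11_5_c10 ln18_11_5_c10_ok))))) (B (M (nat_lit 466) (B (M (nat_lit 339) (B (L (nat_lit 307) ln18_13_6_c10 ln18_13_6_c10_ok) (L (nat_lit 371) ln18_14_6_c10 ln18_14_6_c10_ok))) (M (nat_lit 465) (B (L (nat_lit 433) ln18_10_5_c10 ln18_10_5_c10_ok) (L (nat_lit 497) ln18_11_5_c10 ln18_11_5_c10_ok))))) (M (nat_lit 306) (B (M (nat_lit 435) (B (L (nat_lit 403) ln18_9_4_c10 ln18_9_4_c10_ok) (L (nat_lit 467) ln18_10_4_c10 ln18_10_4_c10_ok))) (M (nat_lit 433) (B (L (nat_lit 401) ln18_9_5_c10 ln18_9_5_c10_ok) (L (nat_lit 465) ln18_10_5_c10 ln18_10_5_c10_ok))))))))) (B (M (nat_lit 306) (B (M (nat_lit 401) (B (L (nat_lit 433) ln18_9_5_c10 ln18_9_5_c10_ok) (L (nat_lit 403) ln19_12_3_c10 ln19_12_3_c10_ok))) (M (nat_lit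 274) (B (M (nat_lit 275) (B (L (nat_lit 307) ln18_12_6_c10 ln18_12_6_c10_ok) (L (nat_lit 243) ln18_11_6_c10 ln18_11_6_c10_ok))) (M (nat_lit 273) (B (L (nat_lit 305) ln18_12_7_c10 ln18_12_7_c10_ok) (L (nat_lit 241) ln18_11_7_c10 ln18_11_7_c10_ok))))))) (B (M (nat_lit 434) (B (M (nat_lit 467) (B (L (nat_lit 435) ln18_10_4_c10 ln18_10_4_c10_ok) (M (nat_lit 466) (B (L (nat_lit 499) ln18_11_4_c10 ln18_11_4_c10_ok) (M (nat_lit 465) (B (L (nat_lit 497) ln18_11_5_c10 ln18_11_5_c10_ok) (L (nat_lit 433) ln18_10_5_c10 ln18_10_5_c10_ok))))))) (B (M (nat_lit 466) (B (M (nat_lit 465) (B (L (nat_lit 497) ln18_11_5_c10 ln18_11_5_c10_ok) (L (nat_lit 433) ln18_10_5_c10 ln18_10_5_c10_ok))) (M (nat_lit 339) (B (L (nat_lit 371) ln18_14_6_c10 ln18_14_6_c10_ok) (L (nat_lit 307) ln18_13_6_c10 ln18_13_6_c10_ok))))) (B (M (nat_lit 466) (B (M (nat_lit 339) (B (L (nat_lit 307) ln18_13_6_c10 ln18_13_6_c10_ok) (L (nat_lit 371) ln18_14_6_c10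 ln18_14_6_c10_ok))) (M (nat_lit 467) (B (L (nat_lit 435) ln18_10_4_c10 ln18_10_4_c10_ok) (L (nat_lit 499) ln18_11_4_c10 ln18_11_4_c10_ok))))) (M (nat_lit 401) (B (M (nat_lit 435) (B (L (nat_lit 467) ln18_10_4_c10 ln18_10_4_c10_ok) (L (nat_lit 403) ln19_12_3_c10 ln19_12_3_c10_ok))) (B (M (nat_lit 435) (B (L (nat_lit 467) ln18_10_4_c10 ln18_10_4_c10_ok) (M (nat_lit 433) (B (L (nat_lit 465) ln18_10_5_c10 ln18_10_5_c10_ok) (L (nat_lit 436) ln20_13_3_c10 ln20_13_3_c10_ok))))) (L (nat_lit 403) ln19_12_3_c10 ln19_12_3_c10_ok)))))))) (M (nat_lit 434) (B (M (nat_lit 467) (B (L (nat_lit 435) ln18_10_4_c10 ln18_10_4_c10_ok) (M (nat_lit 466) (B (L (nat_lit 499) ln18_11_4_c10 ln18_11_4_c10_ok) (M (nat_lit 465) (B (L (nat_lit 497) ln18_11_5_c10 ln18_11_5_c10_ok) (L (nat_lit 433) ln18_10_5_c10 ln18_10_5_c10_ok))))))) (B (M (nat_lit 306) (B (M (nat_lit 435) (B (L (nat_lit 467) ln18_10_4_c10 ln18_10_4_c10_ok) (L (nat_lit 403) ln18_9_4_c10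 ln18_9_4_c10_ok))) (M (nat_lit 433) (B (L (nat_lit 465) ln18_10_5_c10 ln18_10_5_c10_ok) (L (nat_lit 401) ln18_9_5_c10 ln18_9_5_c10_ok))))) (B (M (nat_lit 466) (B (M (nat_lit 465) (B (L (nat_lit 433) ln18_10_5_c10 ln18_10_5_c10_ok) (L (nat_lit 497) ln18_11_5_c10 ln18_11_5_c10_ok))) (M (nat_lit 498) (B (M (nat_lit 371) (B (L (nat_lit 339) ln18_14_6_c10 ln18_14_6_c10_ok) (L (nat_lit 403) ln18_15_6_c10 ln18_15_6_c10_ok))) (M (nat_lit 499) (B (L (nat_lit 467) ln18_11_4_c10 ln18_11_4_c10_ok) (L (nat_lit 531) ln18_12_4_c10 ln18_12_4_c10_ok))))))) (B (M (nat_lit 466) (B (M (nat_lit 465) (B (L (nat_lit 497) ln18_11_5_c10 ln18_11_5_c10_ok) (L (nat_lit 433) ln18_10_5_c10 ln18_10_5_c10_ok))) (B (M (nat_lit 498) (B (M (nat_lit 371) (B (L (nat_lit 403) ln18_15_6_c10 ln18_15_6_c10_ok) (L (nat_lit 339) ln18_14_6_c10 ln18_14_6_c10_ok))) (M (nat_lit 530) (B (M (nat_lit 531) (B (L (nat_lit 563) ln18_13_4_c10 ln18_13_4_c10_ok) (L (nat_lit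 499) ln18_12_4_c10 ln18_12_4_c10_ok))) (M (nat_lit 433) (B (L (nat_lit 401) ln18_16_7_c10 ln18_16_7_c10_ok) (L (nat_lit 465) ln18_10_5_c10 ln18_10_5_c10_ok))))))) (M (nat_lit 498) (B (M (nat_lit 371) (B (L (nat_lit 403) ln18_15_6_c10 ln18_15_6_c10_ok) (L (nat_lit 339) ln18_14_6_c10 ln18_14_6_c10_ok))) (M (nat_lit 530) (B (M (nat_lit 529) (B (L (nat_lit 561) ln18_13_5_c10 ln18_13_5_c10_ok) (L (nat_lit 497) ln18_12_5_c10 ln18_12_5_c10_ok))) (M (nat_lit 531) (B (L (nat_lit 563) ln18_13_4_c10 ln18_13_4_c10_ok) (L (nat_lit 499) ln18_12_4_c10 ln18_12_4_c10_ok)))))))))) (B (M (nat_lit 466) (B (M (nat_lit 467) (B (L (nat_lit 499) ln18_11_4_c10 ln18_11_4_c10_ok) (L (nat_lit 435) ln18_10_4_c10 ln18_10_4_c10_ok))) (M (nat_lit 498) (B (M (nat_lit 497) (B (L (nat_lit 529) ln18_12_5_c10 ln18_12_5_c10_ok) (L (nat_lit 465) ln18_11_5_c10 ln18_11_5_c10_ok))) (M (nat_lit 371) (B (L (nat_lit 403) ln18_15_6_c10 ln18_15_6_c10_ok) (L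 (nat_lit 339) ln18_14_6_c10 ln18_14_6_c10_ok))))))) (M (nat_lit 466) (B (M (nat_lit 467) (B (L (nat_lit 435) ln18_10_4_c10 ln18_10_4_c10_ok) (L (nat_lit 499) ln18_11_4_c10 ln18_11_4_c10_ok))) (B (M (nat_lit 498) (B (M (nat_lit 371) (B (L (nat_lit 339) ln18_14_6_c10 ln18_14_6_c10_ok) (L (nat_lit 403) ln18_15_6_c10 ln18_15_6_c10_ok))) (M (nat_lit 499) (B (L (nat_lit 467) ln18_11_4_c10 ln18_11_4_c10_ok) (L (nat_lit 531) ln18_12_4_c10 ln18_12_4_c10_ok))))) (M (nat_lit 371) (B (L (nat_lit 339) ln18_14_6_c10 ln18_14_6_c10_ok) (M (nat_lit 403) (B (L (nat_lit 498) ln18_15_6_c10 ln18_15_6_c10_ok) (M (nat_lit 306) (B (L (nat_lit 274) ln18_8_4_c10 ln18_8_4_c10_ok) (L (nat_lit 435) ln18_9_4_c10 ln18_9_4_c10_ok))))))))))))))))))))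
noncomputable def c10_d365 : Cert := (B (M (nat_lit 402) (B (M (nat_lit 306) (B (M (nat_lit 435) (B (L (nat_lit 403) ln18_9_4_c10 ln18_9_4_c10_ok) (M (nat_lit 434) (B (L (nat_lit 467) ln18_10_4_c10 ln18_10_4_c10_ok) (M (nat_lit 433) (B (L (nat_lit 465) ln18_10_5_c10 ln18_10_5_c10_ok) (L (nat_lit 401) ln18_9_5_c10 ln18_9_5_c10_ok))))))) (M (nat_lit 275) (B (L (nat_lit 307) ln18_12_6_c10 ln18_12_6_c10_ok) (M (nat_lit 274) (B (L (nat_lit 243) ln18_11_6_c10 ln18_11_6_c10_ok) (M (nat_lit 273) (B (L (nat_lit 305) ln18_12_7_c10 ln18_12_7_c10_ok) (L (nat_lit 241) ln18_11_7_c10 ln18_11_7_c10_ok))))))))) (B (M (nat_lit 306) (B (M (nat_lit 434) (B (M (nat_lit 433) (B (L (nat_lit 465) ln18_10_5_c10 ln18_10_5_c10_ok) (L (nat_lit 401) ln18_9_5_c10 ln18_9_5_c10_ok))) (M (nat_lit 307) (B (L (nat_lit 339) ln18_13_6_c10 ln18_13_6_c10_ok) (L (nat_lit 275) ln18_12_6_c10 ln18_12_6_c10_ok))))) (M (nat_lit 274) (B (M (nat_lit 403) (B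 (L (nat_lit 435) ln18_9_4_c10 ln18_9_4_c10_ok) (L (nat_lit 371) ln18_8_4_c10 ln18_8_4_c10_ok))) (M (nat_lit 273) (B (L (nat_lit 305) ln18_12_7_c10 ln18_12_7_c10_ok) (L (nat_lit 241) ln18_11_7_c10 ln18_11_7_c10_ok))))))) (B (M (nat_lit 434) (B (M (nat_lit 465) (B (L (nat_lit 433) ln18_10_5_c10 ln18_10_5_c10_ok) (M (nat_lit 466) (B (L (nat_lit 497) ln18_11_5_c10 ln18_11_5_c10_ok) (M (nat_lit 467) (B (L (nat_lit 435) ln18_10_4_c10 ln18_10_4_c10_ok) (L (nat_lit 499) ln18_11_4_c10 ln18_11_4_c10_ok))))))) (B (M (nat_lit 466) (B (M (nat_lit 339) (B (L (nat_lit 307) ln18_13_6_c10 ln18_13_6_c10_ok) (L (nat_lit 371) ln18_14_6_c10 ln18_14_6_c10_ok))) (M (nat_lit 467) (B (L (nat_lit 435) ln18_10_4_c10 ln18_10_4_c10_ok) (L (nat_lit 499) ln18_11_4_c10 ln18_11_4_c10_ok))))) (B (M (nat_lit 466) (B (M (nat_lit 339) (B (L (nat_lit 307) ln18_13_6_c10 ln18_13_6_c10_ok) (L (nat_lit 371) ln18_14_6_c10 ln18_14_6_c10_ok))) (M (nat_lit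 465) (B (L (nat_lit 433) ln18_10_5_c10 ln18_10_5_c10_ok) (L (nat_lit 497) ln18_11_5_c10 ln18_11_5_c10_ok))))) (M (nat_lit 306) (B (M (nat_lit 307) (B (L (nat_lit 275) ln18_12_6_c10 ln18_12_6_c10_ok) (L (nat_lit 339) ln18_13_6_c10 ln18_13_6_c10_ok))) (M (nat_lit 433) (B (L (nat_lit 401) ln18_9_5_c10 ln18_9_5_c10_ok) (L (nat_lit 465) ln18_10_5_c10 ln18_10_5_c10_ok))))))))) (B (M (nat_lit 434) (B (M (nat_lit 466) (B (M (nat_lit 339) (B (L (nat_lit 307) ln18_13_6_c10 ln18_13_6_c10_ok) (L (nat_lit 371) ln18_14_6_c10 ln18_14_6_c10_ok))) (M (nat_lit 465) (B (L (nat_lit 433) ln18_10_5_c10 ln18_10_5_c10_ok) (L (nat_lit 497) ln18_11_5_c10 ln18_11_5_c10_ok))))) (B (M (nat_lit 467) (B (L (nat_lit 435) ln18_10_4_c10 ln18_10_4_c10_ok) (M (nat_lit 466) (B (L (nat_lit 499) ln18_11_4_c10 ln18_11_4_c10_ok) (M (nat_lit 465) (B (L (nat_lit 433) ln18_10_5_c10 ln18_10_5_c10_ok) (L (nat_lit 497) ln18_11_5_c10 ln18_11_5_c10_ok))))))) (B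 (M (nat_lit 466) (B (M (nat_lit 339) (B (L (nat_lit 307) ln18_13_6_c10 ln18_13_6_c10_ok) (L (nat_lit 371) ln18_14_6_c10 ln18_14_6_c10_ok))) (M (nat_lit 467) (B (L (nat_lit 435) ln18_10_4_c10 ln18_10_4_c10_ok) (L (nat_lit 499) ln18_11_4_c10 ln18_11_4_c10_ok))))) (M (nat_lit 306) (B (M (nat_lit 307) (B (L (nat_lit 275) ln18_12_6_c10 ln18_12_6_c10_ok) (L (nat_lit 339) ln18_13_6_c10 ln18_13_6_c10_ok))) (M (nat_lit 435) (B (L (nat_lit 403) ln18_9_4_c10 ln18_9_4_c10_ok) (L (nat_lit 467) ln18_10_4_c10 ln18_10_4_c10_ok))))))))) (B (M (nat_lit 306) (B (M (nat_lit 274) (B (M (nat_lit 403) (B (L (nat_lit 435) ln18_9_4_c10 ln18_9_4_c10_ok) (L (nat_lit 371) ln18_8_4_c10 ln18_8_4_c10_ok))) (M (nat_lit 273) (B (L (nat_lit 305) ln18_12_7_c10 ln18_12_7_c10_ok) (L (nat_lit 241) ln18_11_7_c10 ln18_11_7_c10_ok))))) (B (M (nat_lit 275) (B (L (nat_lit 307) ln18_12_6_c10 ln18_12_6_c10_ok) (M (nat_lit 274) (B (L (nat_lit 243) ln18_11_6_c10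 ln18_11_6_c10_ok) (M (nat_lit 273) (B (L (nat_lit 305) ln18_12_7_c10 ln18_12_7_c10_ok) (L (nat_lit 241) ln18_11_7_c10 ln18_11_7_c10_ok))))))) (B (M (nat_lit 274) (B (M (nat_lit 403) (B (L (nat_lit 435) ln18_9_4_c10 ln18_9_4_c10_ok) (L (nat_lit 371) ln18_8_4_c10 ln18_8_4_c10_ok))) (M (nat_lit 275) (B (L (nat_lit 307) ln18_12_6_c10 ln18_12_6_c10_ok) (L (nat_lit 243) ln18_11_6_c10 ln18_11_6_c10_ok))))) (M (nat_lit 434) (B (M (nat_lit 435) (B (L (nat_lit 467) ln18_10_4_c10 ln18_10_4_c10_ok) (L (nat_lit 403) ln18_9_4_c10 ln18_9_4_c10_ok))) (M (nat_lit 307) (B (L (nat_lit 339) ln18_13_6_c10 ln18_13_6_c10_ok) (L (nat_lit 275) ln18_12_6_c10 ln18_12_6_c10_ok))))))))) c10_d364)))))) (B (M (nat_lit 402) (B (M (nat_lit 401) (B (L (nat_lit 369) ln14_11_0 ln14_11_0_ok) (M (nat_lit 433) (B (L (nat_lit 306) ln18_9_5_c10 ln18_9_5_c10_ok) (M (nat_lit 465) (B (L (nat_lit 497) ln17_15_6_c10 ln17_15_6_c10_ok) (L (nat_lit 434) ln18_10_5_c10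 ln18_10_5_c10_ok))))))) (B (M (nat_lit 369) (B (L (nat_lit 403) ln15_11_0_c10 ln15_11_0_c10_ok) (L (nat_lit 401) ln14_11_0 ln14_11_0_ok))) (B (M (nat_lit 403) (B (L (nat_lit 369) ln15_11_0_c10 ln15_11_0_c10_ok) (M (nat_lit 435) (B (L (nat_lit 306) ln18_9_4_c10 ln18_9_4_c10_ok) (M (nat_lit 467) (B (L (nat_lit 434) ln18_10_4_c10 ln18_10_4_c10_ok) (L (nat_lit 371) ln19_14_7_c10 ln19_14_7_c10_ok))))))) (M (nat_lit 306) (B (M (nat_lit 433) (B (L (nat_lit 401) ln18_9_5_c10 ln18_9_5_c10_ok) (M (nat_lit 434) (B (L (nat_lit 465) ln18_10_5_c10 ln18_10_5_c10_ok) (M (nat_lit 435) (B (L (nat_lit 467) ln18_10_4_c10 ln18_10_4_c10_ok) (L (nat_lit 403) ln18_9_4_c10 ln18_9_4_c10_ok))))))) (M (nat_lit 273) (B (L (nat_lit 305) ln18_12_7_c10 ln18_12_7_c10_ok) (M (nat_lit 274) (B (L (nat_lit 241) ln18_11_7_c10 ln18_11_7_c10_ok) (M (nat_lit 275) (B (L (nat_lit 307) ln18_12_6_c10 ln18_12_6_c10_ok) (L (nat_lit 243) ln18_11_6_c10 ln18_11_6_c10_ok)))))))))))))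 (B (M (nat_lit 402) (B (M (nat_lit 369) (B (L (nat_lit 339) ln15_11_2_c10 ln15_11_2_c10_ok) (L (nat_lit 403) ln15_11_0_c10 ln15_11_0_c10_ok))) (B (M (nat_lit 306) (B (M (nat_lit 274) (B (M (nat_lit 273) (B (L (nat_lit 241) ln18_11_7_c10 ln18_11_7_c10_ok) (L (nat_lit 305) ln18_12_7_c10 ln18_12_7_c10_ok))) (M (nat_lit 403) (B (L (nat_lit 371) ln18_8_4_c10 ln18_8_4_c10_ok) (L (nat_lit 435) ln18_9_4_c10 ln18_9_4_c10_ok))))) (B (M (nat_lit 274) (B (M (nat_lit 275) (B (L (nat_lit 243) ln18_11_6_c10 ln18_11_6_c10_ok) (L (nat_lit 307) ln18_12_6_c10 ln18_12_6_c10_ok))) (M (nat_lit 403) (B (L (nat_lit 371) ln18_8_4_c10 ln18_8_4_c10_ok) (L (nat_lit 435) ln18_9_4_c10 ln18_9_4_c10_ok))))) (B (M (nat_lit 434) (B (M (nat_lit 307) (B (L (nat_lit 275) ln18_12_6_c10 ln18_12_6_c10_ok) (L (nat_lit 339) ln18_13_6_c10 ln18_13_6_c10_ok))) (M (nat_lit 435) (B (L (nat_lit 403) ln18_9_4_c10 ln18_9_4_c10_ok) (L (nat_lit 467) ln18_10_4_c10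 ln18_10_4_c10_ok))))) (M (nat_lit 274) (B (M (nat_lit 273) (B (L (nat_lit 241) ln18_11_7_c10 ln18_11_7_c10_ok) (L (nat_lit 305) ln18_12_7_c10 ln18_12_7_c10_ok))) (M (nat_lit 275) (B (L (nat_lit 243) ln18_11_6_c10 ln18_11_6_c10_ok) (L (nat_lit 307) ln18_12_6_c10 ln18_12_6_c10_ok))))))))) (B (M (nat_lit 403) (B (L (nat_lit 369) ln15_11_0_c10 ln15_11_0_c10_ok) (M (nat_lit 435) (B (L (nat_lit 306) ln18_9_4_c10 ln18_9_4_c10_ok) (M (nat_lit 467) (B (L (nat_lit 434) ln18_10_4_c10 ln18_10_4_c10_ok) (L (nat_lit 371) ln19_14_7_c10 ln19_14_7_c10_ok))))))) (M (nat_lit 339) (B (L (nat_lit 369) ln15_11_2_c10 ln15_11_2_c10_ok) (M (nat_lit 307) (B (L (nat_lit 434) ln18_13_6_c10 ln18_13_6_c10_ok) (M (nat_lit 275) (B (L (nat_lit 306) ln18_12_6_c10 ln18_12_6_c10_ok) (L (nat_lit 243) ln19_7_5_c10 ln19_7_5_c10_ok))))))))))) (B (M (nat_lit 369) (B (M (nat_lit 371) (B (M (nat_lit 372) (B (L (nat_lit 401) ln20_11_1_c10 ln20_11_1_c10_ok)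 (M (nat_lit 373) (B (M (nat_lit 341) (B (L (nat_lit 340) ln17_11_2_c10 ln17_11_2_c10_ok) (L (nat_lit 342) ln18_11_2_c10 ln18_11_2_c10_ok))) (M (nat_lit 405) (B (L (nat_lit 404) ln17_11_0_c10 ln17_11_0_c10_ok) (L (nat_lit 406) ln18_11_0_c10 ln18_11_0_c10_ok))))))) (L (nat_lit 335) ln19_11_3_c10 ln19_11_3_c10_ok))) (L (nat_lit 339) ln15_11_2_c10 ln15_11_2_c10_ok))) (M (nat_lit 369) (B (M (nat_lit 402) (B (L (nat_lit 401) ln14_11_0 ln14_11_0_ok) (L (nat_lit 403) ln15_11_0_c10 ln15_11_0_c10_ok))) (L (nat_lit 339) ln15_11_2_c10 ln15_11_2_c10_ok)))))))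
noncomputable def c10_d366 : Cert := (B (M (nat_lit 434) (B (M (nat_lit 466) (B (M (nat_lit 465) (B (L (nat_lit 497) ln18_11_5_c10 ln18_11_5_c10_ok) (L (nat_lit 433) ln18_10_5_c10 ln18_10_5_c10_ok))) (M (nat_lit 467) (B (L (nat_lit 499) ln18_11_4_c10 ln18_11_4_c10_ok) (L (nat_lit 435) ln18_10_4_c10 ln18_10_4_c10_ok))))) (B (M (nat_lit 306) (B (M (nat_lit 435) (B (L (nat_lit 467) ln18_10_4_c10 ln18_10_4_c10_ok) (L (nat_lit 403) ln18_9_4_c10 ln18_9_4_c10_ok))) (M (nat_lit 305) (B (L (nat_lit 337) ln18_13_7_c10 ln18_13_7_c10_ok) (L (nat_lit 273) ln18_12_7_c10 ln18_12_7_c10_ok))))) (B (M (nat_lit 403) (B (M (nat_lit 305) (B (L (nat_lit 337) ln18_13_7_c10 ln18_13_7_c10_ok) (M (nat_lit 306) (B (L (nat_lit 435) ln18_9_4_c10 ln18_9_4_c10_ok) (L (nat_lit 273) ln18_12_7_c10 ln18_12_7_c10_ok))))) (M (nat_lit 466) (B (M (nat_lit 465) (B (L (nat_lit 497) ln18_11_5_c10 ln18_11_5_c10_ok) (L (nat_lit 433) ln18_10_5_c10 ln18_10_5_c10_ok)))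 (M (nat_lit 371) (B (L (nat_lit 498) ln18_15_6_c10 ln18_15_6_c10_ok) (L (nat_lit 339) ln18_14_6_c10 ln18_14_6_c10_ok))))))) (M (nat_lit 466) (B (M (nat_lit 465) (B (L (nat_lit 497) ln18_11_5_c10 ln18_11_5_c10_ok) (L (nat_lit 433) ln18_10_5_c10 ln18_10_5_c10_ok))) (M (nat_lit 498) (B (M (nat_lit 499) (B (L (nat_lit 531) ln18_12_4_c10 ln18_12_4_c10_ok) (L (nat_lit 467) ln18_11_4_c10 ln18_11_4_c10_ok))) (M (nat_lit 371) (B (L (nat_lit 403) ln18_15_6_c10 ln18_15_6_c10_ok) (L (nat_lit 339) ln18_14_6_c10 ln18_14_6_c10_ok))))))))))) (B (M (nat_lit 306) (B (M (nat_lit 274) (B (M (nat_lit 403) (B (L (nat_lit 435) ln18_9_4_c10 ln18_9_4_c10_ok) (L (nat_lit 371) ln18_8_4_c10 ln18_8_4_c10_ok))) (M (nat_lit 275) (B (L (nat_lit 307) ln18_12_6_c10 ln18_12_6_c10_ok) (L (nat_lit 243) ln18_11_6_c10 ln18_11_6_c10_ok))))) (B (M (nat_lit 274) (B (M (nat_lit 275) (B (L (nat_lit 307) ln18_12_6_c10 ln18_12_6_c10_ok) (L (nat_lit 243) ln18_11_6_c10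 ln18_11_6_c10_ok))) (M (nat_lit 273) (B (L (nat_lit 305) ln18_12_7_c10 ln18_12_7_c10_ok) (L (nat_lit 241) ln18_11_7_c10 ln18_11_7_c10_ok))))) (B (M (nat_lit 274) (B (M (nat_lit 403) (B (L (nat_lit 435) ln18_9_4_c10 ln18_9_4_c10_ok) (L (nat_lit 371) ln18_8_4_c10 ln18_8_4_c10_ok))) (M (nat_lit 273) (B (L (nat_lit 305) ln18_12_7_c10 ln18_12_7_c10_ok) (L (nat_lit 241) ln18_11_7_c10 ln18_11_7_c10_ok))))) (M (nat_lit 434) (B (M (nat_lit 307) (B (L (nat_lit 339) ln18_13_6_c10 ln18_13_6_c10_ok) (L (nat_lit 275) ln18_12_6_c10 ln18_12_6_c10_ok))) (M (nat_lit 305) (B (L (nat_lit 337) ln18_13_7_c10 ln18_13_7_c10_ok) (L (nat_lit 273) ln18_12_7_c10 ln18_12_7_c10_ok))))))))) (B (M (nat_lit 434) (B (M (nat_lit 337) (B (L (nat_lit 305) ln18_13_7_c10 ln18_13_7_c10_ok) (L (nat_lit 339) ln19_10_1_c10 ln19_10_1_c10_ok))) (M (nat_lit 466) (B (M (nat_lit 467) (B (L (nat_lit 435) ln18_10_4_c10 ln18_10_4_c10_ok) (L (nat_lit 499) ln18_11_4_c10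 ln18_11_4_c10_ok))) (M (nat_lit 465) (B (L (nat_lit 433) ln18_10_5_c10 ln18_10_5_c10_ok) (L (nat_lit 497) ln18_11_5_c10 ln18_11_5_c10_ok))))))) (B (M (nat_lit 306) (B (M (nat_lit 275) (B (L (nat_lit 307) ln18_12_6_c10 ln18_12_6_c10_ok) (M (nat_lit 274) (B (L (nat_lit 243) ln18_11_6_c10 ln18_11_6_c10_ok) (M (nat_lit 273) (B (L (nat_lit 241) ln18_11_7_c10 ln18_11_7_c10_ok) (L (nat_lit 305) ln18_12_7_c10 ln18_12_7_c10_ok))))))) (B (M (nat_lit 274) (B (M (nat_lit 273) (B (L (nat_lit 241) ln18_11_7_c10 ln18_11_7_c10_ok) (L (nat_lit 305) ln18_12_7_c10 ln18_12_7_c10_ok))) (M (nat_lit 403) (B (L (nat_lit 371) ln18_8_4_c10 ln18_8_4_c10_ok) (L (nat_lit 435) ln18_9_4_c10 ln18_9_4_c10_ok))))) (B (M (nat_lit 274) (B (M (nat_lit 403) (B (L (nat_lit 435) ln18_9_4_c10 ln18_9_4_c10_ok) (L (nat_lit 371) ln18_8_4_c10 ln18_8_4_c10_ok))) (M (nat_lit 275) (B (L (nat_lit 307) ln18_12_6_c10 ln18_12_6_c10_ok) (L (nat_lit 243) ln18_11_6_c10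 ln18_11_6_c10_ok))))) (M (nat_lit 337) (B (M (nat_lit 307) (B (L (nat_lit 275) ln18_12_6_c10 ln18_12_6_c10_ok) (L (nat_lit 339) ln19_10_1_c10 ln19_10_1_c10_ok))) (B (M (nat_lit 307) (B (L (nat_lit 275) ln18_12_6_c10 ln18_12_6_c10_ok) (M (nat_lit 305) (B (L (nat_lit 273) ln18_12_7_c10 ln18_12_7_c10_ok) (L (nat_lit 308) ln20_9_1_c10 ln20_9_1_c10_ok))))) (L (nat_lit 339) ln19_10_1_c10 ln19_10_1_c10_ok)))))))) (M (nat_lit 306) (B (M (nat_lit 275) (B (L (nat_lit 307) ln18_12_6_c10 ln18_12_6_c10_ok) (M (nat_lit 274) (B (L (nat_lit 243) ln18_11_6_c10 ln18_11_6_c10_ok) (M (nat_lit 273) (B (L (nat_lit 241) ln18_11_7_c10 ln18_11_7_c10_ok) (L (nat_lit 305) ln18_12_7_c10 ln18_12_7_c10_ok))))))) (B (M (nat_lit 434) (B (M (nat_lit 307) (B (L (nat_lit 275) ln18_12_6_c10 ln18_12_6_c10_ok) (L (nat_lit 339) ln18_13_6_c10 ln18_13_6_c10_ok))) (M (nat_lit 305) (B (L (nat_lit 273) ln18_12_7_c10 ln18_12_7_c10_ok) (L (nat_lit 337) ln18_13_7_c10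 ln18_13_7_c10_ok))))) (B (M (nat_lit 274) (B (M (nat_lit 273) (B (L (nat_lit 305) ln18_12_7_c10 ln18_12_7_c10_ok) (L (nat_lit 241) ln18_11_7_c10 ln18_11_7_c10_ok))) (M (nat_lit 242) (B (M (nat_lit 371) (B (L (nat_lit 403) ln18_8_4_c10 ln18_8_4_c10_ok) (L (nat_lit 339) ln18_7_4_c10 ln18_7_4_c10_ok))) (M (nat_lit 243) (B (L (nat_lit 275) ln18_11_6_c10 ln18_11_6_c10_ok) (L (nat_lit 211) ln18_10_6_c10 ln18_10_6_c10_ok))))))) (B (M (nat_lit 274) (B (M (nat_lit 273) (B (L (nat_lit 241) ln18_11_7_c10 ln18_11_7_c10_ok) (L (nat_lit 305) ln18_12_7_c10 ln18_12_7_c10_ok))) (B (M (nat_lit 242) (B (M (nat_lit 371) (B (L (nat_lit 339) ln18_7_4_c10 ln18_7_4_c10_ok) (L (nat_lit 403) ln18_8_4_c10 ln18_8_4_c10_ok))) (M (nat_lit 210) (B (M (nat_lit 211) (B (L (nat_lit 179) ln18_9_6_c10 ln18_9_6_c10_ok) (L (nat_lit 243) ln18_10_6_c10 ln18_10_6_c10_ok))) (M (nat_lit 305) (B (L (nat_lit 337) ln18_6_5_c10 ln18_6_5_c10_ok) (L (nat_lit 273)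 ln18_12_7_c10 ln18_12_7_c10_ok))))))) (M (nat_lit 242) (B (M (nat_lit 371) (B (L (nat_lit 339) ln18_7_4_c10 ln18_7_4_c10_ok) (L (nat_lit 403) ln18_8_4_c10 ln18_8_4_c10_ok))) (M (nat_lit 210) (B (M (nat_lit 209) (B (L (nat_lit 177) ln18_9_7_c10 ln18_9_7_c10_ok) (L (nat_lit 241) ln18_10_7_c10 ln18_10_7_c10_ok))) (M (nat_lit 211) (B (L (nat_lit 179) ln18_9_6_c10 ln18_9_6_c10_ok) (L (nat_lit 243) ln18_10_6_c10 ln18_10_6_c10_ok)))))))))) (B (M (nat_lit 274) (B (M (nat_lit 275) (B (L (nat_lit 243) ln18_11_6_c10 ln18_11_6_c10_ok) (L (nat_lit 307) ln18_12_6_c10 ln18_12_6_c10_ok))) (M (nat_lit 242) (B (M (nat_lit 241) (B (L (nat_lit 209) ln18_10_7_c10 ln18_10_7_c10_ok) (L (nat_lit 273) ln18_11_7_c10 ln18_11_7_c10_ok))) (M (nat_lit 371) (B (L (nat_lit 339) ln18_7_4_c10 ln18_7_4_c10_ok) (L (nat_lit 403) ln18_8_4_c10 ln18_8_4_c10_ok))))))) (M (nat_lit 274) (B (M (nat_lit 275) (B (L (nat_lit 307) ln18_12_6_c10 ln18_12_6_c10_ok)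 (L (nat_lit 243) ln18_11_6_c10 ln18_11_6_c10_ok))) (B (M (nat_lit 242) (B (M (nat_lit 371) (B (L (nat_lit 403) ln18_8_4_c10 ln18_8_4_c10_ok) (L (nat_lit 339) ln18_7_4_c10 ln18_7_4_c10_ok))) (M (nat_lit 243) (B (L (nat_lit 275) ln18_11_6_c10 ln18_11_6_c10_ok) (L (nat_lit 211) ln18_10_6_c10 ln18_10_6_c10_ok))))) (M (nat_lit 371) (B (L (nat_lit 403) ln18_8_4_c10 ln18_8_4_c10_ok) (M (nat_lit 339) (B (L (nat_lit 242) ln18_7_4_c10 ln18_7_4_c10_ok) (M (nat_lit 434) (B (L (nat_lit 466) ln18_14_6_c10 ln18_14_6_c10_ok) (L (nat_lit 307) ln18_13_6_c10 ln18_13_6_c10_ok))))))))))))))))))))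
noncomputable def c10_d367 : Cert := (B (M (nat_lit 338) (B (M (nat_lit 434) (B (M (nat_lit 307) (B (L (nat_lit 339) ln18_13_6_c10 ln18_13_6_c10_ok) (M (nat_lit 306) (B (L (nat_lit 275) ln18_12_6_c10 ln18_12_6_c10_ok) (M (nat_lit 305) (B (L (nat_lit 273) ln18_12_7_c10 ln18_12_7_c10_ok) (L (nat_lit 337) ln18_13_7_c10 ln18_13_7_c10_ok))))))) (M (nat_lit 467) (B (L (nat_lit 435) ln18_10_4_c10 ln18_10_4_c10_ok) (M (nat_lit 466) (B (L (nat_lit 499) ln18_11_4_c10 ln18_11_4_c10_ok) (M (nat_lit 465) (B (L (nat_lit 433) ln18_10_5_c10 ln18_10_5_c10_ok) (L (nat_lit 497) ln18_11_5_c10 ln18_11_5_c10_ok))))))))) (B (M (nat_lit 434) (B (M (nat_lit 306) (B (M (nat_lit 305) (B (L (nat_lit 273) ln18_12_7_c10 ln18_12_7_c10_ok) (L (nat_lit 337) ln18_13_7_c10 ln18_13_7_c10_ok))) (M (nat_lit 435) (B (L (nat_lit 403) ln18_9_4_c10 ln18_9_4_c10_ok) (L (nat_lit 467) ln18_10_4_c10 ln18_10_4_c10_ok))))) (M (nat_lit 466) (B (M (nat_lit 339)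 (B (L (nat_lit 307) ln18_13_6_c10 ln18_13_6_c10_ok) (L (nat_lit 371) ln18_14_6_c10 ln18_14_6_c10_ok))) (M (nat_lit 465) (B (L (nat_lit 433) ln18_10_5_c10 ln18_10_5_c10_ok) (L (nat_lit 497) ln18_11_5_c10 ln18_11_5_c10_ok))))))) (B (M (nat_lit 306) (B (M (nat_lit 273) (B (L (nat_lit 305) ln18_12_7_c10 ln18_12_7_c10_ok) (M (nat_lit 274) (B (L (nat_lit 241) ln18_11_7_c10 ln18_11_7_c10_ok) (M (nat_lit 275) (B (L (nat_lit 307) ln18_12_6_c10 ln18_12_6_c10_ok) (L (nat_lit 243) ln18_11_6_c10 ln18_11_6_c10_ok))))))) (B (M (nat_lit 274) (B (M (nat_lit 403) (B (L (nat_lit 435) ln18_9_4_c10 ln18_9_4_c10_ok) (L (nat_lit 371) ln18_8_4_c10 ln18_8_4_c10_ok))) (M (nat_lit 275) (B (L (nat_lit 307) ln18_12_6_c10 ln18_12_6_c10_ok) (L (nat_lit 243) ln18_11_6_c10 ln18_11_6_c10_ok))))) (B (M (nat_lit 274) (B (M (nat_lit 403) (B (L (nat_lit 435) ln18_9_4_c10 ln18_9_4_c10_ok) (L (nat_lit 371) ln18_8_4_c10 ln18_8_4_c10_ok))) (M (nat_lit 273)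 (B (L (nat_lit 305) ln18_12_7_c10 ln18_12_7_c10_ok) (L (nat_lit 241) ln18_11_7_c10 ln18_11_7_c10_ok))))) (M (nat_lit 434) (B (M (nat_lit 435) (B (L (nat_lit 467) ln18_10_4_c10 ln18_10_4_c10_ok) (L (nat_lit 403) ln18_9_4_c10 ln18_9_4_c10_ok))) (M (nat_lit 305) (B (L (nat_lit 337) ln18_13_7_c10 ln18_13_7_c10_ok) (L (nat_lit 273) ln18_12_7_c10 ln18_12_7_c10_ok))))))))) (B (M (nat_lit 306) (B (M (nat_lit 274) (B (M (nat_lit 403) (B (L (nat_lit 435) ln18_9_4_c10 ln18_9_4_c10_ok) (L (nat_lit 371) ln18_8_4_c10 ln18_8_4_c10_ok))) (M (nat_lit 273) (B (L (nat_lit 305) ln18_12_7_c10 ln18_12_7_c10_ok) (L (nat_lit 241) ln18_11_7_c10 ln18_11_7_c10_ok))))) (B (M (nat_lit 275) (B (L (nat_lit 307) ln18_12_6_c10 ln18_12_6_c10_ok) (M (nat_lit 274) (B (L (nat_lit 243) ln18_11_6_c10 ln18_11_6_c10_ok) (M (nat_lit 273) (B (L (nat_lit 305) ln18_12_7_c10 ln18_12_7_c10_ok) (L (nat_lit 241) ln18_11_7_c10 ln18_11_7_c10_ok))))))) (B (M (nat_lit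 274) (B (M (nat_lit 403) (B (L (nat_lit 435) ln18_9_4_c10 ln18_9_4_c10_ok) (L (nat_lit 371) ln18_8_4_c10 ln18_8_4_c10_ok))) (M (nat_lit 275) (B (L (nat_lit 307) ln18_12_6_c10 ln18_12_6_c10_ok) (L (nat_lit 243) ln18_11_6_c10 ln18_11_6_c10_ok))))) (M (nat_lit 434) (B (M (nat_lit 435) (B (L (nat_lit 467) ln18_10_4_c10 ln18_10_4_c10_ok) (L (nat_lit 403) ln18_9_4_c10 ln18_9_4_c10_ok))) (M (nat_lit 307) (B (L (nat_lit 339) ln18_13_6_c10 ln18_13_6_c10_ok) (L (nat_lit 275) ln18_12_6_c10 ln18_12_6_c10_ok))))))))) (B (M (nat_lit 434) (B (M (nat_lit 466) (B (M (nat_lit 339) (B (L (nat_lit 307) ln18_13_6_c10 ln18_13_6_c10_ok) (L (nat_lit 371) ln18_14_6_c10 ln18_14_6_c10_ok))) (M (nat_lit 465) (B (L (nat_lit 433) ln18_10_5_c10 ln18_10_5_c10_ok) (L (nat_lit 497) ln18_11_5_c10 ln18_11_5_c10_ok))))) (B (M (nat_lit 467) (B (L (nat_lit 435) ln18_10_4_c10 ln18_10_4_c10_ok) (M (nat_lit 466) (B (L (nat_lit 499) ln18_11_4_c10 ln18_11_4_c10_ok)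 (M (nat_lit 465) (B (L (nat_lit 433) ln18_10_5_c10 ln18_10_5_c10_ok) (L (nat_lit 497) ln18_11_5_c10 ln18_11_5_c10_ok))))))) (B (M (nat_lit 466) (B (M (nat_lit 339) (B (L (nat_lit 307) ln18_13_6_c10 ln18_13_6_c10_ok) (L (nat_lit 371) ln18_14_6_c10 ln18_14_6_c10_ok))) (M (nat_lit 467) (B (L (nat_lit 435) ln18_10_4_c10 ln18_10_4_c10_ok) (L (nat_lit 499) ln18_11_4_c10 ln18_11_4_c10_ok))))) (M (nat_lit 306) (B (M (nat_lit 307) (B (L (nat_lit 275) ln18_12_6_c10 ln18_12_6_c10_ok) (L (nat_lit 339) ln18_13_6_c10 ln18_13_6_c10_ok))) (M (nat_lit 435) (B (L (nat_lit 403) ln18_9_4_c10 ln18_9_4_c10_ok) (L (nat_lit 467) ln18_10_4_c10 ln18_10_4_c10_ok))))))))) c10_d366)))))) (B (M (nat_lit 338) (B (M (nat_lit 337) (B (L (nat_lit 369) ln14_11_2 ln14_11_2_ok) (M (nat_lit 305) (B (L (nat_lit 434) ln18_13_7_c10 ln18_13_7_c10_ok) (M (nat_lit 273) (B (L (nat_lit 241) ln17_7_4_c10 ln17_7_4_c10_ok) (L (nat_lit 306) ln18_12_7_c10 ln18_12_7_c10_ok)))))))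 (B (M (nat_lit 369) (B (L (nat_lit 339) ln15_11_2_c10 ln15_11_2_c10_ok) (L (nat_lit 337) ln14_11_2 ln14_11_2_ok))) (B (M (nat_lit 339) (B (L (nat_lit 369) ln15_11_2_c10 ln15_11_2_c10_ok) (M (nat_lit 307) (B (L (nat_lit 434) ln18_13_6_c10 ln18_13_6_c10_ok) (M (nat_lit 275) (B (L (nat_lit 306) ln18_12_6_c10 ln18_12_6_c10_ok) (L (nat_lit 371) ln19_8_5_c10 ln19_8_5_c10_ok))))))) (M (nat_lit 434) (B (M (nat_lit 305) (B (L (nat_lit 337) ln18_13_7_c10 ln18_13_7_c10_ok) (M (nat_lit 306) (B (L (nat_lit 273) ln18_12_7_c10 ln18_12_7_c10_ok) (M (nat_lit 307) (B (L (nat_lit 275) ln18_12_6_c10 ln18_12_6_c10_ok) (L (nat_lit 339) ln18_13_6_c10 ln18_13_6_c10_ok))))))) (M (nat_lit 465) (B (L (nat_lit 433) ln18_10_5_c10 ln18_10_5_c10_ok) (M (nat_lit 466) (B (L (nat_lit 497) ln18_11_5_c10 ln18_11_5_c10_ok) (M (nat_lit 467) (B (L (nat_lit 435) ln18_10_4_c10 ln18_10_4_c10_ok) (L (nat_lit 499) ln18_11_4_c10 ln18_11_4_c10_ok)))))))))))))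 (B (M (nat_lit 338) (B (M (nat_lit 369) (B (L (nat_lit 403) ln15_11_0_c10 ln15_11_0_c10_ok) (L (nat_lit 339) ln15_11_2_c10 ln15_11_2_c10_ok))) (B (M (nat_lit 434) (B (M (nat_lit 466) (B (M (nat_lit 465) (B (L (nat_lit 497) ln18_11_5_c10 ln18_11_5_c10_ok) (L (nat_lit 433) ln18_10_5_c10 ln18_10_5_c10_ok))) (M (nat_lit 339) (B (L (nat_lit 371) ln18_14_6_c10 ln18_14_6_c10_ok) (L (nat_lit 307) ln18_13_6_c10 ln18_13_6_c10_ok))))) (B (M (nat_lit 466) (B (M (nat_lit 467) (B (L (nat_lit 499) ln18_11_4_c10 ln18_11_4_c10_ok) (L (nat_lit 435) ln18_10_4_c10 ln18_10_4_c10_ok))) (M (nat_lit 339) (B (L (nat_lit 371) ln18_14_6_c10 ln18_14_6_c10_ok) (L (nat_lit 307) ln18_13_6_c10 ln18_13_6_c10_ok))))) (B (M (nat_lit 306) (B (M (nat_lit 435) (B (L (nat_lit 467) ln18_10_4_c10 ln18_10_4_c10_ok) (L (nat_lit 403) ln18_9_4_c10 ln18_9_4_c10_ok))) (M (nat_lit 307) (B (L (nat_lit 339) ln18_13_6_c10 ln18_13_6_c10_ok) (L (nat_lit 275) ln18_12_6_c10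 ln18_12_6_c10_ok))))) (M (nat_lit 466) (B (M (nat_lit 465) (B (L (nat_lit 497) ln18_11_5_c10 ln18_11_5_c10_ok) (L (nat_lit 433) ln18_10_5_c10 ln18_10_5_c10_ok))) (M (nat_lit 467) (B (L (nat_lit 499) ln18_11_4_c10 ln18_11_4_c10_ok) (L (nat_lit 435) ln18_10_4_c10 ln18_10_4_c10_ok))))))))) (B (M (nat_lit 339) (B (L (nat_lit 369) ln15_11_2_c10 ln15_11_2_c10_ok) (M (nat_lit 307) (B (L (nat_lit 434) ln18_13_6_c10 ln18_13_6_c10_ok) (M (nat_lit 275) (B (L (nat_lit 306) ln18_12_6_c10 ln18_12_6_c10_ok) (L (nat_lit 371) ln19_8_5_c10 ln19_8_5_c10_ok))))))) (M (nat_lit 403) (B (L (nat_lit 369) ln15_11_0_c10 ln15_11_0_c10_ok) (M (nat_lit 435) (B (L (nat_lit 306) ln18_9_4_c10 ln18_9_4_c10_ok) (M (nat_lit 467) (B (L (nat_lit 434) ln18_10_4_c10 ln18_10_4_c10_ok) (L (nat_lit 499) ln19_15_7_c10 ln19_15_7_c10_ok))))))))))) (B (M (nat_lit 369) (B (M (nat_lit 371) (B (M (nat_lit 372) (B (L (nat_lit 337) ln20_11_3_c10 ln20_11_3_c10_ok)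 (M (nat_lit 373) (B (M (nat_lit 405) (B (L (nat_lit 404) ln17_11_0_c10 ln17_11_0_c10_ok) (L (nat_lit 406) ln18_11_0_c10 ln18_11_0_c10_ok))) (M (nat_lit 341) (B (L (nat_lit 340) ln17_11_2_c10 ln17_11_2_c10_ok) (L (nat_lit 342) ln18_11_2_c10 ln18_11_2_c10_ok))))))) (L (nat_lit 399) ln19_11_1_c10 ln19_11_1_c10_ok))) (L (nat_lit 403) ln15_11_0_c10 ln15_11_0_c10_ok))) (M (nat_lit 369) (B (M (nat_lit 338) (B (L (nat_lit 337) ln14_11_2 ln14_11_2_ok) (L (nat_lit 339) ln15_11_2_c10 ln15_11_2_c10_ok))) (L (nat_lit 403) ln15_11_0_c10 ln15_11_0_c10_ok)))))))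
noncomputable def c10_d368 : Cert := (B (M (nat_lit 338) (B (M (nat_lit 370) (B (K (nat_lit 179013548899091572664880704632125070353884004832785184145640603834274570101060341069321343139366404085287401632017748727938770516514056120212129841152) (nat_lit 1757388203857652869611368178410116237029805069532196940512806096772878311208892931933391799972834751370713409530485524259658700146076002880932631080386934341632) (nat_lit 1757388203857652869611368178410116237029805069532196940512806096772878311208892931933391799972834751370713409530485524259658700146076002880932631080386934341632) c10_s432) (B (K (nat_lit 179013548899091572664880704632125070353884004832785184145640603834274570101060341069321343139366404085287401632017748727938770516514056120212129841152) (nat_lit 2045869130601966105809629567930733391603497174643895393380222409015159163434649049620674777356413562776240006773859058102829451759772763599747680305152)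 (nat_lit 2045869130601966105809629567930733391603497174643895393380222409015159163434649049620674777356413562776240006773859058102829451759772763599747680305152) c10_s434) (B (K (nat_lit 179013548899091572664880704632125070353884004832785184145640603834274570101060341069321343139366404085287401632017748727938770516514056120212129841152) (nat_lit 1757388203857652869611368177877763655758608616494343870959469256244561665035042761701023546641596412957606000785266715814739508543125276638405182051443422527488) (nat_lit 1757388203857652869611368177877763655758608616494343870959469256244561665035042761701023546641596412957606000785266715814739508543125276638405182051443422527488) c10_s435) (B (K (nat_lit 179013548899091572664880704632125070353884004832785184145640603834274570101060341069321343139366404085287401632017748727938770516514056120212129841152) (nat_lit 325363484673821642581734860763304498978469046073135094112526871513366923763134735688622511485244387045093474932996618321920)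 (nat_lit 325363484673821642581734860763304498978469046073135094112526871513366923763134735688622511485244387045093474932996618321920) c10_s437) (B (K (nat_lit 179013548899091572664880704632125070353884004832785184145640603834274570101060341069321343139366404085287401632017748727938770516514056120212129841152) (nat_lit 44362715431296522427076269528024200017961566428253416401332235195589640099023306857326660908693557487308663152230226594737525096448) (nat_lit 44362715431296522427076269528024200017961566428253416401332235195589640099023306857326660908693557487308663152230226594737525096448) c10_s438) (B (M (nat_lit 402) (B (M (nat_lit 403) (B (L (nat_lit 369) ln15_11_0_c10 ln15_11_0_c10_ok) (L (nat_lit 401) ln19_12_3_c10 ln19_12_3_c10_ok))) (B (M (nat_lit 306) (B (M (nat_lit 274) (B (M (nat_lit 275) (B (L (nat_lit 243) ln18_11_6_c10 ln18_11_6_c10_ok) (L (nat_lit 307) ln18_12_6_c10 ln18_12_6_c10_ok))) (M (nat_lit 401)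 (B (L (nat_lit 369) ln18_8_5_c10 ln18_8_5_c10_ok) (L (nat_lit 433) ln18_9_5_c10 ln18_9_5_c10_ok))))) (B (M (nat_lit 434) (B (M (nat_lit 305) (B (L (nat_lit 273) ln18_12_7_c10 ln18_12_7_c10_ok) (L (nat_lit 337) ln18_13_7_c10 ln18_13_7_c10_ok))) (M (nat_lit 433) (B (L (nat_lit 401) ln18_9_5_c10 ln18_9_5_c10_ok) (L (nat_lit 465) ln18_10_5_c10 ln18_10_5_c10_ok))))) (M (nat_lit 274) (B (M (nat_lit 275) (B (L (nat_lit 243) ln18_11_6_c10 ln18_11_6_c10_ok) (L (nat_lit 307) ln18_12_6_c10 ln18_12_6_c10_ok))) (M (nat_lit 273) (B (L (nat_lit 241) ln18_11_7_c10 ln18_11_7_c10_ok) (L (nat_lit 305) ln18_12_7_c10 ln18_12_7_c10_ok)))))))) (B (M (nat_lit 401) (B (L (nat_lit 403) ln19_12_3_c10 ln19_12_3_c10_ok) (M (nat_lit 433) (B (L (nat_lit 306) ln18_9_5_c10 ln18_9_5_c10_ok) (M (nat_lit 465) (B (L (nat_lit 434) ln18_10_5_c10 ln18_10_5_c10_ok) (L (nat_lit 497) ln17_15_6_c10 ln17_15_6_c10_ok))))))) (M (nat_lit 337) (B (M (nat_lit 369)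 (B (L (nat_lit 403) ln15_11_0_c10 ln15_11_0_c10_ok) (M (nat_lit 305) (B (L (nat_lit 434) ln18_13_7_c10 ln18_13_7_c10_ok) (L (nat_lit 273) ln17_8_4_c10 ln17_8_4_c10_ok))))) (B (M (nat_lit 305) (B (L (nat_lit 434) ln18_13_7_c10 ln18_13_7_c10_ok) (M (nat_lit 273) (B (L (nat_lit 306) ln18_12_7_c10 ln18_12_7_c10_ok) (L (nat_lit 241) ln17_7_4_c10 ln17_7_4_c10_ok))))) (M (nat_lit 335) (B (M (nat_lit 369) (B (L (nat_lit 403) ln15_11_0_c10 ln15_11_0_c10_ok) (L (nat_lit 334) ln14_10_0 ln14_10_0_ok))) (M (nat_lit 303) (B (L (nat_lit 302) ln18_10_3_c10 ln18_10_3_c10_ok) (L (nat_lit 271) ln15_8_4 ln15_8_4_ok)))))))))))) (M (nat_lit 335) (B (M (nat_lit 371) (B (L (nat_lit 337) ln15_10_0_c10 ln15_10_0_c10_ok) (L (nat_lit 369) ln19_11_3_c10 ln19_11_3_c10_ok))) (B (M (nat_lit 337) (B (M (nat_lit 303) (B (L (nat_lit 302) ln18_10_3_c10 ln18_10_3_c10_ok) (L (nat_lit 271) ln15_8_4 ln15_8_4_ok))) (M (nat_lit 334) (B (L (nat_lit 369)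 ln14_10_0 ln14_10_0_ok) (M (nat_lit 306) (B (L (nat_lit 307) ln15_10_2_c10 ln15_10_2_c10_ok) (L (nat_lit 305) ln14_10_2_c10 ln14_10_2_c10_ok))))))) (B (M (nat_lit 337) (B (L (nat_lit 371) ln15_10_0_c10 ln15_10_0_c10_ok) (M (nat_lit 303) (B (L (nat_lit 302) ln18_10_3_c10 ln18_10_3_c10_ok) (L (nat_lit 271) ln15_8_4 ln15_8_4_ok))))) (M (nat_lit 369) (B (L (nat_lit 371) ln19_11_3_c10 ln19_11_3_c10_ok) (L (nat_lit 334) ln18_11_3 ln18_11_3_ok)))))))))))))) c10_d363)) (B (M (nat_lit 366) (B (M (nat_lit 338) (B (M (nat_lit 370) c10_d365) (B (M (nat_lit 337) (B (L (nat_lit 335) ln18_10_1 ln18_10_1_ok) (L (nat_lit 369) ln14_11_2 ln14_11_2_ok))) (B (M (nat_lit 337) (B (L (nat_lit 335) ln18_10_1 ln18_10_1_ok) (L (nat_lit 339) ln19_10_1_c10 ln19_10_1_c10_ok))) (M (nat_lit 337) (B (L (nat_lit 339) ln19_10_1_c10 ln19_10_1_c10_ok) (L (nat_lit 369) ln14_11_2 ln14_11_2_ok))))))) (B (M (nat_lit 399) (B (M (nat_lit 365) (B (L (nat_lit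 364) ln12_11_0 ln12_11_0_ok) (L (nat_lit 337) ln13_11_2 ln13_11_2_ok))) (L (nat_lit 431) ln15_14_6 ln15_14_6_ok))) (M (nat_lit 399) (B (M (nat_lit 365) (B (L (nat_lit 364) ln12_11_0 ln12_11_0_ok) (L (nat_lit 401) ln13_11_0 ln13_11_0_ok))) (L (nat_lit 431) ln15_14_6 ln15_14_6_ok)))))) (B (M (nat_lit 366) (B (M (nat_lit 402) (B (M (nat_lit 370) c10_d367) (B (M (nat_lit 401) (B (L (nat_lit 399) ln18_12_3 ln18_12_3_ok) (L (nat_lit 369) ln14_11_0 ln14_11_0_ok))) (B (M (nat_lit 401) (B (L (nat_lit 399) ln18_12_3 ln18_12_3_ok) (L (nat_lit 403) ln19_12_3_c10 ln19_12_3_c10_ok))) (M (nat_lit 401) (B (L (nat_lit 403) ln19_12_3_c10 ln19_12_3_c10_ok) (L (nat_lit 369) ln14_11_0 ln14_11_0_ok))))))) (B (M (nat_lit 365) (B (L (nat_lit 334) ln13_14_6 ln13_14_6_ok) (L (nat_lit 401) ln13_11_0 ln13_11_0_ok))) (M (nat_lit 365) (B (L (nat_lit 334) ln13_14_6 ln13_14_6_ok) (L (nat_lit 337) ln13_11_2 ln13_11_2_ok)))))) (B (M (nat_lit 365)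 (B (M (nat_lit 333) (B (M (nat_lit 334) (B (M (nat_lit 332) (B (L (nat_lit 335) ln12_10_0 ln12_10_0_ok) (L (nat_lit 300) ln13_13_7 ln13_13_7_ok))) (L (nat_lit 302) ln13_13_6 ln13_13_6_ok))) (B (M (nat_lit 334) (B (M (nat_lit 335) (B (L (nat_lit 364) ln16_10_1 ln16_10_1_ok) (L (nat_lit 369) ln13_10_0 ln13_10_0_ok))) (L (nat_lit 302) ln13_13_6 ln13_13_6_ok))) (M (nat_lit 332) (B (L (nat_lit 364) ln13_14_7 ln13_14_7_ok) (L (nat_lit 300) ln13_13_7 ln13_13_7_ok)))))) (B (M (nat_lit 332) (B (M (nat_lit 333) (B (L (nat_lit 366) ln16_11_3 ln16_11_3_ok) (L (nat_lit 300) ln13_13_7 ln13_13_7_ok))) (L (nat_lit 364) ln13_14_7 ln13_14_7_ok))) (M (nat_lit 366) (B (L (nat_lit 334) ln13_14_6 ln13_14_6_ok) (L (nat_lit 401) ln13_11_0 ln13_11_0_ok)))))) (K (nat_lit 179013548899091572664880704632125070351479097227464842734737324650522928414885531069708812217453475746713422315059441714036902505822833594989526646784) (nat_lit 263036769681872457793013248504108596195531490606174569332397868827981966071088011764188867883931255550827823104)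 (nat_lit 263036769681872457793013248504108596195531490606174569332397868827981966071088011764188867883931255550827823104) c10_s440)))))
noncomputable def c10_d369 : Cert := (B (M (nat_lit 272) (B (M (nat_lit 241) (B (L (nat_lit 273) ln16_11_6_c10 ln16_11_6_c10_ok) (M (nat_lit 240) (B (L (nat_lit 209) ln16_10_6_c10 ln16_10_6_c10_ok) (M (nat_lit 239) (B (L (nat_lit 271) ln16_11_7_c10 ln16_11_7_c10_ok) (L (nat_lit 207) ln16_10_7_c10 ln16_10_7_c10_ok))))))) (B (M (nat_lit 240) (B (M (nat_lit 367) (B (L (nat_lit 399) ln16_8_5 ln16_8_5_ok) (L (nat_lit 335) ln16_7_5_c10 ln16_7_5_c10_ok))) (M (nat_lit 239) (B (L (nat_lit 271) ln16_11_7_c10 ln16_11_7_c10_ok) (L (nat_lit 207) ln16_10_7_c10 ln16_10_7_c10_ok))))) (B (M (nat_lit 240) (B (M (nat_lit 367) (B (L (nat_lit 399) ln16_8_5 ln16_8_5_ok) (L (nat_lit 335) ln16_7_5_c10 ln16_7_5_c10_ok))) (M (nat_lit 241) (B (L (nat_lit 273) ln16_11_6_c10 ln16_11_6_c10_ok) (L (nat_lit 209)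 ln16_10_6_c10 ln16_10_6_c10_ok))))) (M (nat_lit 399) (B (L (nat_lit 431) ln16_9_5 ln16_9_5_ok) (L (nat_lit 367) ln16_8_5 ln16_8_5_ok))))))) (B (M (nat_lit 273) (B (M (nat_lit 241) (B (L (nat_lit 272) ln16_11_6_c10 ln16_11_6_c10_ok) (L (nat_lit 305) ln16_12_6_c10 ln16_12_6_c10_ok))) (B (M (nat_lit 303) (B (L (nat_lit 305) ln16_12_6_c10 ln16_12_6_c10_ok) (L (nat_lit 271) ln16_12_7_c10 ln16_12_7_c10_ok))) (M (nat_lit 272) (B (L (nat_lit 241) ln16_11_6_c10 ln16_11_6_c10_ok) (M (nat_lit 271) (B (L (nat_lit 239) ln16_11_7_c10 ln16_11_7_c10_ok) (L (nat_lit 303) ln16_12_7_c10 ln16_12_7_c10_ok)))))))) (B (M (nat_lit 272) (B (M (nat_lit 240) (B (M (nat_lit 241) (B (L (nat_lit 209) ln16_10_6_c10 ln16_10_6_c10_ok) (L (nat_lit 273) ln16_11_6_c10 ln16_11_6_c10_ok))) (M (nat_lit 367) (B (L (nat_lit 335) ln16_7_5_c10 ln16_7_5_c10_ok) (L (nat_lit 399) ln16_8_5 ln16_8_5_ok))))) (B (M (nat_lit 273) (B (L (nat_lit 241) ln16_11_6_c10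 ln16_11_6_c10_ok) (L (nat_lit 305) ln16_12_6_c10 ln16_12_6_c10_ok))) (M (nat_lit 240) (B (M (nat_lit 367) (B (L (nat_lit 335) ln16_7_5_c10 ln16_7_5_c10_ok) (L (nat_lit 399) ln16_8_5 ln16_8_5_ok))) (M (nat_lit 208) (B (M (nat_lit 337) (B (L (nat_lit 305) ln16_6_4_c10 ln16_6_4_c10_ok) (L (nat_lit 369) ln16_7_4_c10 ln16_7_4_c10_ok))) (M (nat_lit 207) (B (L (nat_lit 175) ln16_9_7_c10 ln16_9_7_c10_ok) (L (nat_lit 239) ln16_10_7_c10 ln16_10_7_c10_ok)))))))))) (B (M (nat_lit 303) (B (L (nat_lit 271) ln16_12_7_c10 ln16_12_7_c10_ok) (M (nat_lit 305) (B (L (nat_lit 273) ln16_12_6_c10 ln16_12_6_c10_ok) (M (nat_lit 302) (B (M (nat_lit 337) (B (L (nat_lit 338) ln14_9_0_c10 ln14_9_0_c10_ok) (L (nat_lit 301) ln13_9_0 ln13_9_0_ok))) (B (M (nat_lit 301) (B (L (nat_lit 337) ln13_9_0 ln13_9_0_ok) (M (nat_lit 269) (B (L (nat_lit 270) ln17_9_3_c10 ln17_9_3_c10_ok) (L (nat_lit 268) ln16_9_3_c10 ln16_9_3_c10_ok))))) (B (M (nat_lit 301)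 (B (M (nat_lit 269) (B (L (nat_lit 270) ln17_9_3_c10 ln17_9_3_c10_ok) (L (nat_lit 268) ln16_9_3_c10 ln16_9_3_c10_ok))) (M (nat_lit 332) (B (L (nat_lit 333) ln16_9_1 ln16_9_1_ok) (M (nat_lit 300) (B (L (nat_lit 335) ln12_9_0 ln12_9_0_ok) (L (nat_lit 331) ln15_9_1_c10 ln15_9_1_c10_ok))))))) (M (nat_lit 306) (B (M (nat_lit 338) (B (L (nat_lit 339) ln15_9_0_c10 ln15_9_0_c10_ok) (L (nat_lit 337) ln14_9_0_c10 ln14_9_0_c10_ok))) (M (nat_lit 307) (B (L (nat_lit 335) ln19_9_1_c10 ln19_9_1_c10_ok) (M (nat_lit 275) (B (L (nat_lit 276) ln16_9_2_c10 ln16_9_2_c10_ok) (L (nat_lit 274) ln15_9_2_c10 ln15_9_2_c10_ok))))))))))))))) (M (nat_lit 272) (B (M (nat_lit 271) (B (L (nat_lit 239) ln16_11_7_c10 ln16_11_7_c10_ok) (M (nat_lit 399) (B (L (nat_lit 367) ln16_8_5 ln16_8_5_ok) (L (nat_lit 431) ln16_9_5 ln16_9_5_ok))))) (B (M (nat_lit 367) (B (L (nat_lit 399) ln16_8_5 ln16_8_5_ok) (M (nat_lit 240) (B (L (nat_lit 335) ln16_7_5_c10 ln16_7_5_c10_ok)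 (M (nat_lit 239) (B (L (nat_lit 271) ln16_11_7_c10 ln16_11_7_c10_ok) (L (nat_lit 207) ln16_10_7_c10 ln16_10_7_c10_ok))))))) (B (M (nat_lit 240) (B (M (nat_lit 239) (B (L (nat_lit 271) ln16_11_7_c10 ln16_11_7_c10_ok) (L (nat_lit 207) ln16_10_7_c10 ln16_10_7_c10_ok))) (M (nat_lit 208) (B (M (nat_lit 337) (B (L (nat_lit 369) ln16_7_4_c10 ln16_7_4_c10_ok) (L (nat_lit 305) ln16_6_4_c10 ln16_6_4_c10_ok))) (M (nat_lit 335) (B (L (nat_lit 367) ln16_7_5_c10 ln16_7_5_c10_ok) (L (nat_lit 303) ln16_6_5_c10 ln16_6_5_c10_ok))))))) (B (M (nat_lit 303) (B (L (nat_lit 271) ln16_12_7_c10 ln16_12_7_c10_ok) (M (nat_lit 337) (B (M (nat_lit 338) (B (L (nat_lit 339) ln19_10_3_c10 ln19_10_3_c10_ok) (M (nat_lit 302) (B (L (nat_lit 335) ln18_10_3_c10 ln18_10_3_c10_ok) (L (nat_lit 301) ln13_9_0 ln13_9_0_ok))))) (B (M (nat_lit 302) (B (L (nat_lit 301) ln13_9_0 ln13_9_0_ok) (M (nat_lit 338) (B (L (nat_lit 335) ln18_10_3_c10 ln18_10_3_c10_ok)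 (L (nat_lit 305) ln14_9_0_c10 ln14_9_0_c10_ok))))) (B (M (nat_lit 240) (B (L (nat_lit 369) ln16_7_4_c10 ln16_7_4_c10_ok) (M (nat_lit 208) (B (L (nat_lit 305) ln16_6_4_c10 ln16_6_4_c10_ok) (L (nat_lit 335) ln16_6_5_c10 ln16_6_5_c10_ok))))) (M (nat_lit 338) (B (L (nat_lit 339) ln19_10_3_c10 ln19_10_3_c10_ok) (M (nat_lit 302) (B (L (nat_lit 305) ln14_9_0_c10 ln14_9_0_c10_ok) (L (nat_lit 301) ln13_9_0 ln13_9_0_ok))))))))))) (M (nat_lit 337) (B (M (nat_lit 240) (B (L (nat_lit 369) ln16_7_4_c10 ln16_7_4_c10_ok) (M (nat_lit 367) (B (L (nat_lit 399) ln16_8_5 ln16_8_5_ok) (L (nat_lit 335) ln16_7_5_c10 ln16_7_5_c10_ok))))) (B (M (nat_lit 240) (B (L (nat_lit 369) ln16_7_4_c10 ln16_7_4_c10_ok) (M (nat_lit 208) (B (L (nat_lit 305) ln16_6_4_c10 ln16_6_4_c10_ok) (M (nat_lit 335) (B (L (nat_lit 367) ln16_7_5_c10 ln16_7_5_c10_ok) (L (nat_lit 303) ln16_6_5_c10 ln16_6_5_c10_ok))))))) (B (M (nat_lit 367) (B (L (nat_lit 399) ln16_8_5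 ln16_8_5_ok) (M (nat_lit 366) (B (L (nat_lit 365) ln13_11_2 ln13_11_2_ok) (M (nat_lit 338) (B (L (nat_lit 339) ln19_10_1_c10 ln19_10_1_c10_ok) (L (nat_lit 335) ln18_10_1 ln18_10_1_ok))))))) (B (M (nat_lit 303) (B (M (nat_lit 240) (B (L (nat_lit 369) ln16_7_4_c10 ln16_7_4_c10_ok) (M (nat_lit 208) (B (L (nat_lit 305) ln16_6_4_c10 ln16_6_4_c10_ok) (L (nat_lit 335) ln16_6_5_c10 ln16_6_5_c10_ok))))) (B (M (nat_lit 338) (B (L (nat_lit 339) ln19_10_3_c10 ln19_10_3_c10_ok) (M (nat_lit 302) (B (L (nat_lit 305) ln14_9_0_c10 ln14_9_0_c10_ok) (L (nat_lit 301) ln13_9_0 ln13_9_0_ok))))) (M (nat_lit 338) (B (L (nat_lit 339) ln19_10_3_c10 ln19_10_3_c10_ok) (M (nat_lit 302) (B (L (nat_lit 335) ln18_10_3_c10 ln18_10_3_c10_ok) (L (nat_lit 301) ln13_9_0 ln13_9_0_ok)))))))) (M (nat_lit 369) (B (L (nat_lit 240) ln16_7_4_c10 ln16_7_4_c10_ok) (M (nat_lit 367) (B (L (nat_lit 399) ln16_8_5 ln16_8_5_ok) (M (nat_lit 338) (B (L (nat_lit 366)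 ln14_11_2 ln14_11_2_ok) (L (nat_lit 339) ln19_10_1_c10 ln19_10_1_c10_ok)))))))))))))))))))))
noncomputable def c10_d370 : Cert := (B (M (nat_lit 272) (B (M (nat_lit 239) (B (L (nat_lit 271) ln16_11_7_c10 ln16_11_7_c10_ok) (M (nat_lit 240) (B (L (nat_lit 207) ln16_10_7_c10 ln16_10_7_c10_ok) (M (nat_lit 241) (B (L (nat_lit 273) ln16_11_6_c10 ln16_11_6_c10_ok) (L (nat_lit 209) ln16_10_6_c10 ln16_10_6_c10_ok))))))) (B (M (nat_lit 240) (B (M (nat_lit 369) (B (L (nat_lit 401) ln16_8_4_c10 ln16_8_4_c10_ok) (L (nat_lit 337) ln16_7_4_c10 ln16_7_4_c10_ok))) (M (nat_lit 241) (B (L (nat_lit 273) ln16_11_6_c10 ln16_11_6_c10_ok) (L (nat_lit 209) ln16_10_6_c10 ln16_10_6_c10_ok))))) (B (M (nat_lit 240) (B (M (nat_lit 369) (B (L (nat_lit 401) ln16_8_4_c10 ln16_8_4_c10_ok) (L (nat_lit 337) ln16_7_4_c10 ln16_7_4_c10_ok))) (M (nat_lit 239) (B (L (nat_lit 271) ln16_11_7_c10 ln16_11_7_c10_ok) (L (nat_lit 207) ln16_10_7_c10 ln16_10_7_c10_ok)))))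 (M (nat_lit 401) (B (L (nat_lit 433) ln16_9_4_c10 ln16_9_4_c10_ok) (L (nat_lit 369) ln16_8_4_c10 ln16_8_4_c10_ok))))))) (B (M (nat_lit 271) (B (M (nat_lit 239) (B (L (nat_lit 272) ln16_11_7_c10 ln16_11_7_c10_ok) (L (nat_lit 303) ln16_12_7_c10 ln16_12_7_c10_ok))) (B (M (nat_lit 305) (B (L (nat_lit 303) ln16_12_7_c10 ln16_12_7_c10_ok) (L (nat_lit 273) ln16_12_6_c10 ln16_12_6_c10_ok))) (M (nat_lit 272) (B (L (nat_lit 239) ln16_11_7_c10 ln16_11_7_c10_ok) (M (nat_lit 273) (B (L (nat_lit 241) ln16_11_6_c10 ln16_11_6_c10_ok) (L (nat_lit 305) ln16_12_6_c10 ln16_12_6_c10_ok)))))))) (B (M (nat_lit 272) (B (M (nat_lit 240) (B (M (nat_lit 239) (B (L (nat_lit 207) ln16_10_7_c10 ln16_10_7_c10_ok) (L (nat_lit 271) ln16_11_7_c10 ln16_11_7_c10_ok))) (M (nat_lit 369) (B (L (nat_lit 337) ln16_7_4_c10 ln16_7_4_c10_ok) (L (nat_lit 401) ln16_8_4_c10 ln16_8_4_c10_ok))))) (B (M (nat_lit 271) (B (L (nat_lit 239) ln16_11_7_c10 ln16_11_7_c10_ok)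 (L (nat_lit 303) ln16_12_7_c10 ln16_12_7_c10_ok))) (M (nat_lit 240) (B (M (nat_lit 369) (B (L (nat_lit 337) ln16_7_4_c10 ln16_7_4_c10_ok) (L (nat_lit 401) ln16_8_4_c10 ln16_8_4_c10_ok))) (M (nat_lit 208) (B (M (nat_lit 335) (B (L (nat_lit 303) ln16_6_5_c10 ln16_6_5_c10_ok) (L (nat_lit 367) ln16_7_5_c10 ln16_7_5_c10_ok))) (M (nat_lit 209) (B (L (nat_lit 177) ln16_9_6_c10 ln16_9_6_c10_ok) (L (nat_lit 241) ln16_10_6_c10 ln16_10_6_c10_ok)))))))))) (B (M (nat_lit 305) (B (L (nat_lit 273) ln16_12_6_c10 ln16_12_6_c10_ok) (M (nat_lit 303) (B (L (nat_lit 271) ln16_12_7_c10 ln16_12_7_c10_ok) (M (nat_lit 306) (B (M (nat_lit 335) (B (L (nat_lit 334) ln18_9_1_c10 ln18_9_1_c10_ok) (L (nat_lit 307) ln19_9_1_c10 ln19_9_1_c10_ok))) (B (M (nat_lit 307) (B (L (nat_lit 335) ln19_9_1_c10 ln19_9_1_c10_ok) (M (nat_lit 275) (B (L (nat_lit 274) ln15_9_2_c10 ln15_9_2_c10_ok) (L (nat_lit 276) ln16_9_2_c10 ln16_9_2_c10_ok))))) (B (M (nat_lit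 307) (B (M (nat_lit 275) (B (L (nat_lit 274) ln15_9_2_c10 ln15_9_2_c10_ok) (L (nat_lit 276) ln16_9_2_c10 ln16_9_2_c10_ok))) (M (nat_lit 340) (B (L (nat_lit 339) ln16_9_0_c10 ln16_9_0_c10_ok) (M (nat_lit 308) (B (L (nat_lit 337) ln20_9_1_c10 ln20_9_1_c10_ok) (L (nat_lit 341) ln17_9_0_c10 ln17_9_0_c10_ok))))))) (M (nat_lit 302) (B (M (nat_lit 334) (B (L (nat_lit 333) ln17_9_1 ln17_9_1_ok) (L (nat_lit 335) ln18_9_1_c10 ln18_9_1_c10_ok))) (M (nat_lit 301) (B (L (nat_lit 337) ln13_9_0 ln13_9_0_ok) (M (nat_lit 269) (B (L (nat_lit 268) ln16_9_3_c10 ln16_9_3_c10_ok) (L (nat_lit 270) ln17_9_3_c10 ln17_9_3_c10_ok))))))))))))))) (M (nat_lit 272) (B (M (nat_lit 273) (B (L (nat_lit 241) ln16_11_6_c10 ln16_11_6_c10_ok) (M (nat_lit 401) (B (L (nat_lit 369) ln16_8_4_c10 ln16_8_4_c10_ok) (L (nat_lit 433) ln16_9_4_c10 ln16_9_4_c10_ok))))) (B (M (nat_lit 369) (B (L (nat_lit 401) ln16_8_4_c10 ln16_8_4_c10_ok) (M (nat_lit 240) (B (L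 (nat_lit 337) ln16_7_4_c10 ln16_7_4_c10_ok) (M (nat_lit 241) (B (L (nat_lit 273) ln16_11_6_c10 ln16_11_6_c10_ok) (L (nat_lit 209) ln16_10_6_c10 ln16_10_6_c10_ok))))))) (B (M (nat_lit 240) (B (M (nat_lit 241) (B (L (nat_lit 273) ln16_11_6_c10 ln16_11_6_c10_ok) (L (nat_lit 209) ln16_10_6_c10 ln16_10_6_c10_ok))) (M (nat_lit 208) (B (M (nat_lit 335) (B (L (nat_lit 367) ln16_7_5_c10 ln16_7_5_c10_ok) (L (nat_lit 303) ln16_6_5_c10 ln16_6_5_c10_ok))) (M (nat_lit 337) (B (L (nat_lit 369) ln16_7_4_c10 ln16_7_4_c10_ok) (L (nat_lit 305) ln16_6_4_c10 ln16_6_4_c10_ok))))))) (B (M (nat_lit 305) (B (L (nat_lit 273) ln16_12_6_c10 ln16_12_6_c10_ok) (M (nat_lit 335) (B (M (nat_lit 334) (B (L (nat_lit 333) ln13_10_2 ln13_10_2_ok) (M (nat_lit 306) (B (L (nat_lit 337) ln14_10_2_c10 ln14_10_2_c10_ok) (L (nat_lit 307) ln19_9_1_c10 ln19_9_1_c10_ok))))) (B (M (nat_lit 306) (B (L (nat_lit 307) ln19_9_1_c10 ln19_9_1_c10_ok) (M (nat_lit 334)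 (B (L (nat_lit 337) ln14_10_2_c10 ln14_10_2_c10_ok) (L (nat_lit 303) ln18_9_1_c10 ln18_9_1_c10_ok))))) (B (M (nat_lit 240) (B (L (nat_lit 367) ln16_7_5_c10 ln16_7_5_c10_ok) (M (nat_lit 208) (B (L (nat_lit 303) ln16_6_5_c10 ln16_6_5_c10_ok) (L (nat_lit 337) ln16_6_4_c10 ln16_6_4_c10_ok))))) (M (nat_lit 334) (B (L (nat_lit 333) ln13_10_2 ln13_10_2_ok) (M (nat_lit 306) (B (L (nat_lit 303) ln18_9_1_c10 ln18_9_1_c10_ok) (L (nat_lit 307) ln19_9_1_c10 ln19_9_1_c10_ok))))))))))) (M (nat_lit 335) (B (M (nat_lit 240) (B (L (nat_lit 367) ln16_7_5_c10 ln16_7_5_c10_ok) (M (nat_lit 369) (B (L (nat_lit 401) ln16_8_4_c10 ln16_8_4_c10_ok) (L (nat_lit 337) ln16_7_4_c10 ln16_7_4_c10_ok))))) (B (M (nat_lit 240) (B (L (nat_lit 367) ln16_7_5_c10 ln16_7_5_c10_ok) (M (nat_lit 208) (B (L (nat_lit 303) ln16_6_5_c10 ln16_6_5_c10_ok) (M (nat_lit 337) (B (L (nat_lit 369) ln16_7_4_c10 ln16_7_4_c10_ok) (L (nat_lit 305) ln16_6_4_c10 ln16_6_4_c10_ok)))))))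 (B (M (nat_lit 369) (B (L (nat_lit 401) ln16_8_4_c10 ln16_8_4_c10_ok) (M (nat_lit 370) (B (L (nat_lit 371) ln19_11_3_c10 ln19_11_3_c10_ok) (M (nat_lit 334) (B (L (nat_lit 333) ln13_10_0 ln13_10_0_ok) (L (nat_lit 337) ln14_10_0 ln14_10_0_ok))))))) (B (M (nat_lit 305) (B (M (nat_lit 240) (B (L (nat_lit 367) ln16_7_5_c10 ln16_7_5_c10_ok) (M (nat_lit 208) (B (L (nat_lit 303) ln16_6_5_c10 ln16_6_5_c10_ok) (L (nat_lit 337) ln16_6_4_c10 ln16_6_4_c10_ok))))) (B (M (nat_lit 334) (B (L (nat_lit 333) ln13_10_2 ln13_10_2_ok) (M (nat_lit 306) (B (L (nat_lit 303) ln18_9_1_c10 ln18_9_1_c10_ok) (L (nat_lit 307) ln19_9_1_c10 ln19_9_1_c10_ok))))) (M (nat_lit 334) (B (L (nat_lit 333) ln13_10_2 ln13_10_2_ok) (M (nat_lit 306) (B (L (nat_lit 337) ln14_10_2_c10 ln14_10_2_c10_ok) (L (nat_lit 307) ln19_9_1_c10 ln19_9_1_c10_ok)))))))) (M (nat_lit 367) (B (L (nat_lit 240) ln16_7_5_c10 ln16_7_5_c10_ok) (M (nat_lit 369) (B (L (nat_lit 401)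 ln16_8_4_c10 ln16_8_4_c10_ok) (M (nat_lit 334) (B (L (nat_lit 370) ln18_11_3 ln18_11_3_ok) (L (nat_lit 333) ln13_10_0 ln13_10_0_ok)))))))))))))))))))))
noncomputable def c10_d371 : Cert := (B (M (nat_lit 334) (B (M (nat_lit 333) (B (L (nat_lit 332) ln12_10_0 ln12_10_0_ok) (M (nat_lit 304) (B (L (nat_lit 305) ln13_10_2 ln13_10_2_ok) (M (nat_lit 272) (B (L (nat_lit 240) ln16_7_5_c10 ln16_7_5_c10_ok) (L (nat_lit 399) ln16_8_5 ln16_8_5_ok))))))) (B (M (nat_lit 303) (B (L (nat_lit 271) ln15_8_4 ln15_8_4_ok) (M (nat_lit 302) (B (M (nat_lit 301) (B (L (nat_lit 337) ln17_10_3_c10 ln17_10_3_c10_ok) (L (nat_lit 300) ln12_9_0 ln12_9_0_ok))) (M (nat_lit 399) (B (L (nat_lit 270) ln15_12_7 ln15_12_7_ok) (L (nat_lit 431) ln15_13_7 ln15_13_7_ok))))))) (M (nat_lit 333) (B (L (nat_lit 332) ln12_10_0 ln12_10_0_ok) (M (nat_lit 337) (B (M (nat_lit 305) (B (L (nat_lit 306) ln14_10_2_c10 ln14_10_2_c10_ok) (L (nat_lit 304) ln13_10_2 ln13_10_2_ok)))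 (M (nat_lit 301) (B (L (nat_lit 302) ln17_10_3_c10 ln17_10_3_c10_ok) (L (nat_lit 300) ln16_10_3 ln16_10_3_ok)))))))))) (B (M (nat_lit 334) (B (M (nat_lit 369) (B (L (nat_lit 370) ln18_11_3 ln18_11_3_ok) (L (nat_lit 333) ln13_10_0 ln13_10_0_ok))) (B (M (nat_lit 333) (B (L (nat_lit 369) ln13_10_0 ln13_10_0_ok) (L (nat_lit 332) ln12_10_0 ln12_10_0_ok))) (B (M (nat_lit 304) (B (M (nat_lit 333) (B (L (nat_lit 305) ln13_10_2 ln13_10_2_ok) (L (nat_lit 332) ln12_10_0 ln12_10_0_ok))) (M (nat_lit 399) (B (L (nat_lit 272) ln16_8_5 ln16_8_5_ok) (L (nat_lit 431) ln16_9_5 ln16_9_5_ok))))) (M (nat_lit 337) (B (M (nat_lit 302) (B (L (nat_lit 301) ln17_10_3_c10 ln17_10_3_c10_ok) (M (nat_lit 338) (B (L (nat_lit 339) ln19_10_1_c10 ln19_10_1_c10_ok) (L (nat_lit 303) ln18_10_3_c10 ln18_10_3_c10_ok))))) (B (M (nat_lit 338) (B (M (nat_lit 306) (B (L (nat_lit 307) ln15_10_2_c10 ln15_10_2_c10_ok) (L (nat_lit 305) ln14_10_2_c10 ln14_10_2_c10_ok)))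 (M (nat_lit 302) (B (L (nat_lit 303) ln18_10_3_c10 ln18_10_3_c10_ok) (L (nat_lit 301) ln17_10_3_c10 ln17_10_3_c10_ok))))) (B (M (nat_lit 302) (B (L (nat_lit 301) ln17_10_3_c10 ln17_10_3_c10_ok) (M (nat_lit 399) (B (L (nat_lit 431) ln15_13_7 ln15_13_7_ok) (M (nat_lit 270) (B (L (nat_lit 303) ln15_12_7 ln15_12_7_ok) (L (nat_lit 238) ln14_7_4 ln14_7_4_ok))))))) (M (nat_lit 306) (B (L (nat_lit 305) ln14_10_2_c10 ln14_10_2_c10_ok) (M (nat_lit 338) (B (L (nat_lit 307) ln15_10_2_c10 ln15_10_2_c10_ok) (L (nat_lit 339) ln19_10_1_c10 ln19_10_1_c10_ok))))))))))))) (B (M (nat_lit 334) (B (M (nat_lit 369) (B (L (nat_lit 370) ln18_11_3 ln18_11_3_ok) (L (nat_lit 333) ln13_10_0 ln13_10_0_ok))) (B (M (nat_lit 333) (B (L (nat_lit 369) ln13_10_0 ln13_10_0_ok) (L (nat_lit 332) ln12_10_0 ln12_10_0_ok))) (B (M (nat_lit 304) (B (M (nat_lit 333) (B (L (nat_lit 305) ln13_10_2 ln13_10_2_ok) (L (nat_lit 332) ln12_10_0 ln12_10_0_ok))) (M (nat_lit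 399) (B (L (nat_lit 272) ln16_8_5 ln16_8_5_ok) (L (nat_lit 431) ln16_9_5 ln16_9_5_ok))))) (M (nat_lit 337) (B (M (nat_lit 370) (B (L (nat_lit 369) ln14_10_0 ln14_10_0_ok) (M (nat_lit 338) (B (L (nat_lit 339) ln19_10_1_c10 ln19_10_1_c10_ok) (L (nat_lit 371) ln15_10_0_c10 ln15_10_0_c10_ok))))) (B (M (nat_lit 338) (B (M (nat_lit 306) (B (L (nat_lit 307) ln15_10_2_c10 ln15_10_2_c10_ok) (L (nat_lit 305) ln14_10_2_c10 ln14_10_2_c10_ok))) (M (nat_lit 370) (B (L (nat_lit 371) ln15_10_0_c10 ln15_10_0_c10_ok) (L (nat_lit 369) ln14_10_0 ln14_10_0_ok))))) (B (M (nat_lit 306) (B (L (nat_lit 305) ln14_10_2_c10 ln14_10_2_c10_ok) (M (nat_lit 338) (B (L (nat_lit 307) ln15_10_2_c10 ln15_10_2_c10_ok) (L (nat_lit 339) ln19_10_1_c10 ln19_10_1_c10_ok))))) (M (nat_lit 369) (B (L (nat_lit 370) ln14_10_0 ln14_10_0_ok) (M (nat_lit 401) (B (M (nat_lit 304) (B (L (nat_lit 433) ln16_9_4_c10 ln16_9_4_c10_ok) (L (nat_lit 272) ln16_8_4_c10 ln16_8_4_c10_ok)))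 (M (nat_lit 402) (B (L (nat_lit 403) ln19_12_3_c10 ln19_12_3_c10_ok) (M (nat_lit 305) (B (L (nat_lit 306) ln14_10_2_c10 ln14_10_2_c10_ok) (L (nat_lit 434) ln17_9_4_c10 ln17_9_4_c10_ok))))))))))))))))) (B (M (nat_lit 334) (B (M (nat_lit 369) (B (L (nat_lit 370) ln18_11_3 ln18_11_3_ok) (L (nat_lit 333) ln13_10_0 ln13_10_0_ok))) (B (M (nat_lit 333) (B (L (nat_lit 369) ln13_10_0 ln13_10_0_ok) (L (nat_lit 332) ln12_10_0 ln12_10_0_ok))) (B (M (nat_lit 333) (B (L (nat_lit 332) ln12_10_0 ln12_10_0_ok) (M (nat_lit 337) (B (M (nat_lit 305) (B (L (nat_lit 306) ln14_10_2_c10 ln14_10_2_c10_ok) (L (nat_lit 304) ln13_10_2 ln13_10_2_ok))) (M (nat_lit 301) (B (L (nat_lit 302) ln17_10_3_c10 ln17_10_3_c10_ok) (L (nat_lit 300) ln16_10_3 ln16_10_3_ok))))))) (M (nat_lit 337) (B (M (nat_lit 306) (B (L (nat_lit 305) ln14_10_2_c10 ln14_10_2_c10_ok) (M (nat_lit 338) (B (L (nat_lit 307) ln15_10_2_c10 ln15_10_2_c10_ok) (L (nat_lit 339) ln19_10_1_c10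 ln19_10_1_c10_ok))))) (B (M (nat_lit 302) (B (L (nat_lit 301) ln17_10_3_c10 ln17_10_3_c10_ok) (M (nat_lit 338) (B (L (nat_lit 339) ln19_10_1_c10 ln19_10_1_c10_ok) (L (nat_lit 303) ln18_10_3_c10 ln18_10_3_c10_ok))))) (B (M (nat_lit 338) (B (M (nat_lit 306) (B (L (nat_lit 307) ln15_10_2_c10 ln15_10_2_c10_ok) (L (nat_lit 305) ln14_10_2_c10 ln14_10_2_c10_ok))) (M (nat_lit 302) (B (L (nat_lit 303) ln18_10_3_c10 ln18_10_3_c10_ok) (L (nat_lit 301) ln17_10_3_c10 ln17_10_3_c10_ok))))) (M (nat_lit 369) (B (L (nat_lit 370) ln14_10_0 ln14_10_0_ok) (M (nat_lit 401) (B (M (nat_lit 304) (B (L (nat_lit 433) ln16_9_4_c10 ln16_9_4_c10_ok) (L (nat_lit 272) ln16_8_4_c10 ln16_8_4_c10_ok))) (M (nat_lit 402) (B (L (nat_lit 403) ln19_12_3_c10 ln19_12_3_c10_ok) (M (nat_lit 305) (B (L (nat_lit 306) ln14_10_2_c10 ln14_10_2_c10_ok) (L (nat_lit 434) ln17_9_4_c10 ln17_9_4_c10_ok))))))))))))))))) (M (nat_lit 304) (B (M (nat_lit 272) (B (L (nat_lit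 240) ln16_7_5_c10 ln16_7_5_c10_ok) (L (nat_lit 399) ln16_8_5 ln16_8_5_ok))) (B (M (nat_lit 399) (B (L (nat_lit 272) ln16_8_5 ln16_8_5_ok) (L (nat_lit 431) ln16_9_5 ln16_9_5_ok))) (B (M (nat_lit 303) (B (L (nat_lit 271) ln15_8_4 ln15_8_4_ok) (M (nat_lit 302) (B (M (nat_lit 337) (B (L (nat_lit 338) ln18_10_3_c10 ln18_10_3_c10_ok) (L (nat_lit 301) ln13_9_0 ln13_9_0_ok))) (M (nat_lit 399) (B (L (nat_lit 431) ln16_9_5 ln16_9_5_ok) (L (nat_lit 270) ln15_12_7 ln15_12_7_ok))))))) (M (nat_lit 272) (B (L (nat_lit 240) ln16_7_5_c10 ln16_7_5_c10_ok) (M (nat_lit 401) (B (L (nat_lit 369) ln16_8_4_c10 ln16_8_4_c10_ok) (L (nat_lit 433) ln16_9_4_c10 ln16_9_4_c10_ok)))))))))))))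
noncomputable def c10_d372 : Cert := (B (M (nat_lit 304) (B (M (nat_lit 305) (B (L (nat_lit 273) ln16_12_6_c10 ln16_12_6_c10_ok) (M (nat_lit 335) (B (M (nat_lit 334) (B (L (nat_lit 333) ln13_10_2 ln13_10_2_ok) (M (nat_lit 306) (B (L (nat_lit 307) ln19_9_1_c10 ln19_9_1_c10_ok) (L (nat_lit 337) ln14_10_2_c10 ln14_10_2_c10_ok))))) (B (M (nat_lit 334) (B (L (nat_lit 333) ln13_10_2 ln13_10_2_ok) (M (nat_lit 337) (B (L (nat_lit 306) ln14_10_2_c10 ln14_10_2_c10_ok) (M (nat_lit 338) (B (M (nat_lit 370) (B (L (nat_lit 371) ln15_10_0_c10 ln15_10_0_c10_ok) (L (nat_lit 369) ln14_10_0 ln14_10_0_ok))) (M (nat_lit 366) (B (L (nat_lit 367) ln18_10_1 ln18_10_1_ok) (L (nat_lit 365) ln17_10_1 ln17_10_1_ok))))))))) (B (M (nat_lit 369) (B (M (nat_lit 334) (B (L (nat_lit 333) ln13_10_0 ln13_10_0_ok) (M (nat_lit 370) (B (L (nat_lit 337) ln14_10_0 ln14_10_0_ok) (L (nat_lit 371) ln19_11_3_c10 ln19_11_3_c10_ok))))) (B (M (nat_lit 334) (B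 (L (nat_lit 333) ln13_10_0 ln13_10_0_ok) (M (nat_lit 370) (B (L (nat_lit 371) ln19_11_3_c10 ln19_11_3_c10_ok) (L (nat_lit 367) ln18_11_3 ln18_11_3_ok))))) (M (nat_lit 401) (B (L (nat_lit 433) ln16_9_4_c10 ln16_9_4_c10_ok) (M (nat_lit 399) (B (L (nat_lit 431) ln16_9_5 ln16_9_5_ok) (M (nat_lit 402) (B (M (nat_lit 367) (B (L (nat_lit 366) ln14_11_0 ln14_11_0_ok) (L (nat_lit 403) ln19_12_3_c10 ln19_12_3_c10_ok))) (M (nat_lit 434) (B (L (nat_lit 337) ln17_9_4_c10 ln17_9_4_c10_ok) (L (nat_lit 435) ln15_12_0 ln15_12_0_ok)))))))))))) (B (M (nat_lit 401) (B (L (nat_lit 433) ln16_9_4_c10 ln16_9_4_c10_ok) (M (nat_lit 399) (B (L (nat_lit 431) ln16_9_5 ln16_9_5_ok) (M (nat_lit 370) (B (M (nat_lit 371) (B (L (nat_lit 369) ln19_11_1_c10 ln19_11_1_c10_ok) (L (nat_lit 402) ln15_12_2 ln15_12_2_ok))) (B (M (nat_lit 367) (B (M (nat_lit 334) (B (L (nat_lit 333) ln13_10_2 ln13_10_2_ok) (L (nat_lit 369) ln18_11_3 ln18_11_3_ok))) (M (nat_lit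 402) (B (L (nat_lit 403) ln19_12_3_c10 ln19_12_3_c10_ok) (L (nat_lit 366) ln18_12_3 ln18_12_3_ok))))) (B (M (nat_lit 402) (B (L (nat_lit 371) ln15_12_2 ln15_12_2_ok) (M (nat_lit 367) (B (L (nat_lit 403) ln19_12_3_c10 ln19_12_3_c10_ok) (L (nat_lit 366) ln18_12_3 ln18_12_3_ok))))) (M (nat_lit 369) (B (L (nat_lit 371) ln19_11_1_c10 ln19_11_1_c10_ok) (M (nat_lit 334) (B (L (nat_lit 333) ln13_10_0 ln13_10_0_ok) (L (nat_lit 367) ln18_11_3 ln18_11_3_ok))))))))))))) (M (nat_lit 401) (B (L (nat_lit 433) ln16_9_4_c10 ln16_9_4_c10_ok) (M (nat_lit 370) (B (M (nat_lit 399) (B (L (nat_lit 431) ln16_9_5 ln16_9_5_ok) (M (nat_lit 371) (B (L (nat_lit 369) ln19_11_1_c10 ln19_11_1_c10_ok) (L (nat_lit 402) ln15_12_2 ln15_12_2_ok))))) (B (M (nat_lit 402) (B (M (nat_lit 367) (B (L (nat_lit 403) ln19_12_3_c10 ln19_12_3_c10_ok) (M (nat_lit 366) (B (L (nat_lit 365) ln13_11_0 ln13_11_0_ok) (L (nat_lit 399) ln18_12_3 ln18_12_3_ok))))) (B (M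 (nat_lit 434) (B (M (nat_lit 337) (B (L (nat_lit 338) ln18_13_7_c10 ln18_13_7_c10_ok) (L (nat_lit 369) ln17_9_4_c10 ln17_9_4_c10_ok))) (M (nat_lit 399) (B (L (nat_lit 431) ln16_9_5 ln16_9_5_ok) (L (nat_lit 435) ln15_12_0 ln15_12_0_ok))))) (M (nat_lit 367) (B (L (nat_lit 403) ln19_12_3_c10 ln19_12_3_c10_ok) (M (nat_lit 366) (B (L (nat_lit 369) ln14_11_0 ln14_11_0_ok) (L (nat_lit 365) ln13_11_0 ln13_11_0_ok)))))))) (B (M (nat_lit 399) (B (L (nat_lit 431) ln16_9_5 ln16_9_5_ok) (M (nat_lit 402) (B (L (nat_lit 371) ln15_12_2 ln15_12_2_ok) (M (nat_lit 367) (B (L (nat_lit 403) ln19_12_3_c10 ln19_12_3_c10_ok) (L (nat_lit 366) ln18_12_3 ln18_12_3_ok))))))) (M (nat_lit 369) (B (L (nat_lit 371) ln19_11_3_c10 ln19_11_3_c10_ok) (M (nat_lit 306) (B (L (nat_lit 307) ln19_9_1_c10 ln19_9_1_c10_ok) (M (nat_lit 274) (B (L (nat_lit 337) ln17_12_6_c10 ln17_12_6_c10_ok) (L (nat_lit 338) ln18_8_5_c10 ln18_8_5_c10_ok))))))))))))))))))))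 (B (M (nat_lit 272) (B (M (nat_lit 240) (B (M (nat_lit 369) (B (L (nat_lit 401) ln16_8_4_c10 ln16_8_4_c10_ok) (L (nat_lit 337) ln16_7_4_c10 ln16_7_4_c10_ok))) (M (nat_lit 239) (B (L (nat_lit 271) ln16_11_7_c10 ln16_11_7_c10_ok) (L (nat_lit 207) ln16_10_7_c10 ln16_10_7_c10_ok))))) (B (M (nat_lit 241) (B (L (nat_lit 273) ln16_11_6_c10 ln16_11_6_c10_ok) (M (nat_lit 240) (B (L (nat_lit 209) ln16_10_6_c10 ln16_10_6_c10_ok) (M (nat_lit 239) (B (L (nat_lit 271) ln16_11_7_c10 ln16_11_7_c10_ok) (L (nat_lit 207) ln16_10_7_c10 ln16_10_7_c10_ok))))))) (B (M (nat_lit 240) (B (M (nat_lit 369) (B (L (nat_lit 401) ln16_8_4_c10 ln16_8_4_c10_ok) (L (nat_lit 337) ln16_7_4_c10 ln16_7_4_c10_ok))) (M (nat_lit 241) (B (L (nat_lit 273) ln16_11_6_c10 ln16_11_6_c10_ok) (L (nat_lit 209) ln16_10_6_c10 ln16_10_6_c10_ok))))) (M (nat_lit 401) (B (L (nat_lit 433) ln16_9_4_c10 ln16_9_4_c10_ok) (L (nat_lit 369) ln16_8_4_c10 ln16_8_4_c10_ok)))))))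 (B (M (nat_lit 272) (B (M (nat_lit 241) (B (L (nat_lit 273) ln16_11_6_c10 ln16_11_6_c10_ok) (M (nat_lit 240) (B (L (nat_lit 209) ln16_10_6_c10 ln16_10_6_c10_ok) (M (nat_lit 239) (B (L (nat_lit 271) ln16_11_7_c10 ln16_11_7_c10_ok) (L (nat_lit 207) ln16_10_7_c10 ln16_10_7_c10_ok))))))) (B (M (nat_lit 240) (B (M (nat_lit 367) (B (L (nat_lit 399) ln16_8_5 ln16_8_5_ok) (L (nat_lit 335) ln16_7_5_c10 ln16_7_5_c10_ok))) (M (nat_lit 239) (B (L (nat_lit 271) ln16_11_7_c10 ln16_11_7_c10_ok) (L (nat_lit 207) ln16_10_7_c10 ln16_10_7_c10_ok))))) (B (M (nat_lit 240) (B (M (nat_lit 367) (B (L (nat_lit 399) ln16_8_5 ln16_8_5_ok) (L (nat_lit 335) ln16_7_5_c10 ln16_7_5_c10_ok))) (M (nat_lit 241) (B (L (nat_lit 273) ln16_11_6_c10 ln16_11_6_c10_ok) (L (nat_lit 209) ln16_10_6_c10 ln16_10_6_c10_ok))))) (M (nat_lit 399) (B (L (nat_lit 431) ln16_9_5 ln16_9_5_ok) (L (nat_lit 367) ln16_8_5 ln16_8_5_ok))))))) (M (nat_lit 272) (B (M (nat_lit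 401) (B (L (nat_lit 433) ln16_9_4_c10 ln16_9_4_c10_ok) (L (nat_lit 369) ln16_8_4_c10 ln16_8_4_c10_ok))) (M (nat_lit 399) (B (L (nat_lit 431) ln16_9_5 ln16_9_5_ok) (L (nat_lit 367) ln16_8_5 ln16_8_5_ok))))))))) (B (M (nat_lit 304) (B (M (nat_lit 272) (B (M (nat_lit 271) (B (L (nat_lit 239) ln16_11_7_c10 ln16_11_7_c10_ok) (L (nat_lit 303) ln16_12_7_c10 ln16_12_7_c10_ok))) (M (nat_lit 273) (B (L (nat_lit 241) ln16_11_6_c10 ln16_11_6_c10_ok) (L (nat_lit 305) ln16_12_6_c10 ln16_12_6_c10_ok))))) (B (M (nat_lit 273) (B (L (nat_lit 305) ln16_12_6_c10 ln16_12_6_c10_ok) (M (nat_lit 272) (B (L (nat_lit 241) ln16_11_6_c10 ln16_11_6_c10_ok) (M (nat_lit 399) (B (L (nat_lit 367) ln16_8_5 ln16_8_5_ok) (L (nat_lit 431) ln16_9_5 ln16_9_5_ok))))))) (B (M (nat_lit 272) (B (M (nat_lit 271) (B (L (nat_lit 239) ln16_11_7_c10 ln16_11_7_c10_ok) (L (nat_lit 303) ln16_12_7_c10 ln16_12_7_c10_ok))) (M (nat_lit 399) (B (L (nat_lit 367) ln16_8_5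 ln16_8_5_ok) (L (nat_lit 431) ln16_9_5 ln16_9_5_ok))))) (M (nat_lit 305) (B (L (nat_lit 273) ln16_12_6_c10 ln16_12_6_c10_ok) (M (nat_lit 303) (B (L (nat_lit 271) ln16_12_7_c10 ln16_12_7_c10_ok) (M (nat_lit 302) (B (M (nat_lit 337) (B (L (nat_lit 301) ln13_9_0 ln13_9_0_ok) (L (nat_lit 338) ln14_9_0_c10 ln14_9_0_c10_ok))) (B (M (nat_lit 306) (B (M (nat_lit 338) (B (L (nat_lit 337) ln14_9_0_c10 ln14_9_0_c10_ok) (L (nat_lit 339) ln15_9_0_c10 ln15_9_0_c10_ok))) (B (M (nat_lit 307) (B (M (nat_lit 275) (B (L (nat_lit 274) ln15_9_2_c10 ln15_9_2_c10_ok) (L (nat_lit 276) ln16_9_2_c10 ln16_9_2_c10_ok))) (M (nat_lit 339) (B (L (nat_lit 338) ln15_9_0_c10 ln15_9_0_c10_ok) (L (nat_lit 340) ln16_9_0_c10 ln16_9_0_c10_ok))))) (B (M (nat_lit 307) (B (M (nat_lit 275) (B (L (nat_lit 274) ln15_9_2_c10 ln15_9_2_c10_ok) (L (nat_lit 276) ln16_9_2_c10 ln16_9_2_c10_ok))) (M (nat_lit 308) (B (L (nat_lit 337) ln20_9_1_c10 ln20_9_1_c10_ok) (M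 (nat_lit 340) (B (L (nat_lit 339) ln16_9_0_c10 ln16_9_0_c10_ok) (L (nat_lit 341) ln17_9_0_c10 ln17_9_0_c10_ok))))))) (M (nat_lit 307) (B (M (nat_lit 275) (B (L (nat_lit 274) ln15_9_2_c10 ln15_9_2_c10_ok) (L (nat_lit 276) ln16_9_2_c10 ln16_9_2_c10_ok))) (M (nat_lit 337) (B (L (nat_lit 338) ln14_9_0_c10 ln14_9_0_c10_ok) (L (nat_lit 308) ln20_9_1_c10 ln20_9_1_c10_ok))))))))) (M (nat_lit 301) (B (M (nat_lit 269) (B (L (nat_lit 268) ln16_9_3_c10 ln16_9_3_c10_ok) (L (nat_lit 270) ln17_9_3_c10 ln17_9_3_c10_ok))) (M (nat_lit 333) (B (L (nat_lit 332) ln16_9_1 ln16_9_1_ok) (L (nat_lit 334) ln17_9_1 ln17_9_1_ok)))))))))))))))) (M (nat_lit 304) (B (M (nat_lit 272) (B (M (nat_lit 273) (B (L (nat_lit 241) ln16_11_6_c10 ln16_11_6_c10_ok) (L (nat_lit 305) ln16_12_6_c10 ln16_12_6_c10_ok))) (M (nat_lit 271) (B (L (nat_lit 239) ln16_11_7_c10 ln16_11_7_c10_ok) (L (nat_lit 303) ln16_12_7_c10 ln16_12_7_c10_ok))))) (B (M (nat_lit 271)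 (B (L (nat_lit 303) ln16_12_7_c10 ln16_12_7_c10_ok) (M (nat_lit 272) (B (L (nat_lit 239) ln16_11_7_c10 ln16_11_7_c10_ok) (M (nat_lit 401) (B (L (nat_lit 369) ln16_8_4_c10 ln16_8_4_c10_ok) (L (nat_lit 433) ln16_9_4_c10 ln16_9_4_c10_ok))))))) (B (M (nat_lit 272) (B (M (nat_lit 273) (B (L (nat_lit 241) ln16_11_6_c10 ln16_11_6_c10_ok) (L (nat_lit 305) ln16_12_6_c10 ln16_12_6_c10_ok))) (M (nat_lit 401) (B (L (nat_lit 369) ln16_8_4_c10 ln16_8_4_c10_ok) (L (nat_lit 433) ln16_9_4_c10 ln16_9_4_c10_ok))))) (M (nat_lit 303) (B (L (nat_lit 271) ln16_12_7_c10 ln16_12_7_c10_ok) (M (nat_lit 305) (B (L (nat_lit 273) ln16_12_6_c10 ln16_12_6_c10_ok) (M (nat_lit 306) (B (M (nat_lit 335) (B (L (nat_lit 307) ln19_9_1_c10 ln19_9_1_c10_ok) (L (nat_lit 334) ln18_9_1_c10 ln18_9_1_c10_ok))) (B (M (nat_lit 302) (B (M (nat_lit 334) (B (L (nat_lit 335) ln18_9_1_c10 ln18_9_1_c10_ok) (L (nat_lit 333) ln17_9_1 ln17_9_1_ok))) (B (M (nat_lit 301)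 (B (M (nat_lit 269) (B (L (nat_lit 270) ln17_9_3_c10 ln17_9_3_c10_ok) (L (nat_lit 268) ln16_9_3_c10 ln16_9_3_c10_ok))) (M (nat_lit 333) (B (L (nat_lit 334) ln17_9_1 ln17_9_1_ok) (L (nat_lit 332) ln16_9_1 ln16_9_1_ok))))) (B (M (nat_lit 301) (B (M (nat_lit 269) (B (L (nat_lit 270) ln17_9_3_c10 ln17_9_3_c10_ok) (L (nat_lit 268) ln16_9_3_c10 ln16_9_3_c10_ok))) (M (nat_lit 300) (B (L (nat_lit 335) ln12_9_0 ln12_9_0_ok) (M (nat_lit 332) (B (L (nat_lit 333) ln16_9_1 ln16_9_1_ok) (L (nat_lit 331) ln15_9_1_c10 ln15_9_1_c10_ok))))))) (M (nat_lit 301) (B (M (nat_lit 269) (B (L (nat_lit 270) ln17_9_3_c10 ln17_9_3_c10_ok) (L (nat_lit 268) ln16_9_3_c10 ln16_9_3_c10_ok))) (M (nat_lit 335) (B (L (nat_lit 334) ln18_9_1_c10 ln18_9_1_c10_ok) (L (nat_lit 300) ln12_9_0 ln12_9_0_ok))))))))) (M (nat_lit 307) (B (M (nat_lit 275) (B (L (nat_lit 276) ln16_9_2_c10 ln16_9_2_c10_ok) (L (nat_lit 274) ln15_9_2_c10 ln15_9_2_c10_ok))) (M (nat_lit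 339) (B (L (nat_lit 340) ln16_9_0_c10 ln16_9_0_c10_ok) (L (nat_lit 338) ln15_9_0_c10 ln15_9_0_c10_ok))))))))))))))))))
noncomputable def c10_d373 : Cert := (B (M (nat_lit 304) (B (M (nat_lit 272) (B (M (nat_lit 401) (B (L (nat_lit 369) ln16_8_4_c10 ln16_8_4_c10_ok) (L (nat_lit 433) ln16_9_4_c10 ln16_9_4_c10_ok))) (M (nat_lit 241) (B (L (nat_lit 273) ln16_11_6_c10 ln16_11_6_c10_ok) (M (nat_lit 240) (B (L (nat_lit 209) ln16_10_6_c10 ln16_10_6_c10_ok) (M (nat_lit 239) (B (L (nat_lit 271) ln16_11_7_c10 ln16_11_7_c10_ok) (L (nat_lit 207) ln16_10_7_c10 ln16_10_7_c10_ok))))))))) (B (M (nat_lit 272) (B (M (nat_lit 399) (B (L (nat_lit 431) ln16_9_5 ln16_9_5_ok) (L (nat_lit 367) ln16_8_5 ln16_8_5_ok))) (M (nat_lit 240) (B (M (nat_lit 369) (B (L (nat_lit 401) ln16_8_4_c10 ln16_8_4_c10_ok) (L (nat_lit 337) ln16_7_4_c10 ln16_7_4_c10_ok))) (M (nat_lit 239) (B (L (nat_lit 271) ln16_11_7_c10 ln16_11_7_c10_ok) (L (nat_lit 207) ln16_10_7_c10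 ln16_10_7_c10_ok))))))) (B (M (nat_lit 272) (B (M (nat_lit 401) (B (L (nat_lit 433) ln16_9_4_c10 ln16_9_4_c10_ok) (L (nat_lit 369) ln16_8_4_c10 ln16_8_4_c10_ok))) (M (nat_lit 240) (B (M (nat_lit 367) (B (L (nat_lit 399) ln16_8_5 ln16_8_5_ok) (L (nat_lit 335) ln16_7_5_c10 ln16_7_5_c10_ok))) (M (nat_lit 241) (B (L (nat_lit 273) ln16_11_6_c10 ln16_11_6_c10_ok) (L (nat_lit 209) ln16_10_6_c10 ln16_10_6_c10_ok))))))) (B (M (nat_lit 272) (B (M (nat_lit 241) (B (L (nat_lit 273) ln16_11_6_c10 ln16_11_6_c10_ok) (M (nat_lit 240) (B (L (nat_lit 209) ln16_10_6_c10 ln16_10_6_c10_ok) (M (nat_lit 239) (B (L (nat_lit 271) ln16_11_7_c10 ln16_11_7_c10_ok) (L (nat_lit 207) ln16_10_7_c10 ln16_10_7_c10_ok))))))) (B (M (nat_lit 240) (B (M (nat_lit 367) (B (L (nat_lit 399) ln16_8_5 ln16_8_5_ok) (L (nat_lit 335) ln16_7_5_c10 ln16_7_5_c10_ok))) (M (nat_lit 239) (B (L (nat_lit 271) ln16_11_7_c10 ln16_11_7_c10_ok) (L (nat_lit 207) ln16_10_7_c10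 ln16_10_7_c10_ok))))) (B (M (nat_lit 240) (B (M (nat_lit 367) (B (L (nat_lit 399) ln16_8_5 ln16_8_5_ok) (L (nat_lit 335) ln16_7_5_c10 ln16_7_5_c10_ok))) (M (nat_lit 241) (B (L (nat_lit 273) ln16_11_6_c10 ln16_11_6_c10_ok) (L (nat_lit 209) ln16_10_6_c10 ln16_10_6_c10_ok))))) (M (nat_lit 399) (B (L (nat_lit 431) ln16_9_5 ln16_9_5_ok) (L (nat_lit 367) ln16_8_5 ln16_8_5_ok))))))) (B (M (nat_lit 273) (B (M (nat_lit 241) (B (L (nat_lit 272) ln16_11_6_c10 ln16_11_6_c10_ok) (L (nat_lit 305) ln16_12_6_c10 ln16_12_6_c10_ok))) (B (M (nat_lit 303) (B (L (nat_lit 305) ln16_12_6_c10 ln16_12_6_c10_ok) (L (nat_lit 271) ln16_12_7_c10 ln16_12_7_c10_ok))) (M (nat_lit 272) (B (L (nat_lit 241) ln16_11_6_c10 ln16_11_6_c10_ok) (M (nat_lit 271) (B (L (nat_lit 239) ln16_11_7_c10 ln16_11_7_c10_ok) (L (nat_lit 303) ln16_12_7_c10 ln16_12_7_c10_ok)))))))) (M (nat_lit 305) (B (L (nat_lit 273) ln16_12_6_c10 ln16_12_6_c10_ok) (M (nat_lit 303)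 (B (L (nat_lit 271) ln16_12_7_c10 ln16_12_7_c10_ok) (M (nat_lit 302) (B (M (nat_lit 337) (B (L (nat_lit 338) ln14_9_0_c10 ln14_9_0_c10_ok) (L (nat_lit 301) ln13_9_0 ln13_9_0_ok))) (B (M (nat_lit 301) (B (L (nat_lit 337) ln13_9_0 ln13_9_0_ok) (M (nat_lit 269) (B (L (nat_lit 270) ln17_9_3_c10 ln17_9_3_c10_ok) (L (nat_lit 268) ln16_9_3_c10 ln16_9_3_c10_ok))))) (B (M (nat_lit 269) (B (L (nat_lit 270) ln17_9_3_c10 ln17_9_3_c10_ok) (M (nat_lit 335) (B (M (nat_lit 301) (B (L (nat_lit 300) ln12_9_0 ln12_9_0_ok) (L (nat_lit 268) ln16_9_3_c10 ln16_9_3_c10_ok))) (M (nat_lit 306) (B (L (nat_lit 307) ln19_9_1_c10 ln19_9_1_c10_ok) (L (nat_lit 334) ln18_9_1_c10 ln18_9_1_c10_ok))))))) (M (nat_lit 306) (B (M (nat_lit 338) (B (L (nat_lit 339) ln15_9_0_c10 ln15_9_0_c10_ok) (L (nat_lit 337) ln14_9_0_c10 ln14_9_0_c10_ok))) (M (nat_lit 335) (B (L (nat_lit 307) ln19_9_1_c10 ln19_9_1_c10_ok) (L (nat_lit 334) ln18_9_1_c10 ln18_9_1_c10_ok)))))))))))))))))))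 (B (M (nat_lit 367) (B (M (nat_lit 335) (B (M (nat_lit 334) (B (M (nat_lit 333) (B (L (nat_lit 369) ln13_10_0 ln13_10_0_ok) (L (nat_lit 332) ln12_10_0 ln12_10_0_ok))) (M (nat_lit 303) (B (L (nat_lit 271) ln15_8_4 ln15_8_4_ok) (M (nat_lit 302) (B (M (nat_lit 301) (B (L (nat_lit 337) ln17_10_3_c10 ln17_10_3_c10_ok) (L (nat_lit 300) ln12_9_0 ln12_9_0_ok))) (M (nat_lit 399) (B (L (nat_lit 270) ln15_12_7 ln15_12_7_ok) (L (nat_lit 431) ln15_13_7 ln15_13_7_ok))))))))) (B (M (nat_lit 304) (B (M (nat_lit 272) (B (L (nat_lit 240) ln16_7_5_c10 ln16_7_5_c10_ok) (L (nat_lit 399) ln16_8_5 ln16_8_5_ok))) (B (M (nat_lit 399) (B (L (nat_lit 272) ln16_8_5 ln16_8_5_ok) (L (nat_lit 431) ln16_9_5 ln16_9_5_ok))) (B (M (nat_lit 303) (B (L (nat_lit 271) ln15_8_4 ln15_8_4_ok) (M (nat_lit 333) (B (M (nat_lit 334) (B (L (nat_lit 305) ln13_10_2 ln13_10_2_ok) (L (nat_lit 369) ln13_10_0 ln13_10_0_ok))) (B (M (nat_lit 334) (B (L (nat_lit 369)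 ln13_10_0 ln13_10_0_ok) (L (nat_lit 332) ln12_10_0 ln12_10_0_ok))) (B (M (nat_lit 334) (B (L (nat_lit 305) ln13_10_2 ln13_10_2_ok) (L (nat_lit 332) ln12_10_0 ln12_10_0_ok))) (M (nat_lit 302) (B (M (nat_lit 301) (B (L (nat_lit 332) ln16_9_1 ln16_9_1_ok) (L (nat_lit 300) ln12_9_0 ln12_9_0_ok))) (M (nat_lit 399) (B (L (nat_lit 431) ln16_9_5 ln16_9_5_ok) (L (nat_lit 270) ln15_12_7 ln15_12_7_ok))))))))))) (M (nat_lit 369) (B (M (nat_lit 272) (B (L (nat_lit 401) ln16_8_4_c10 ln16_8_4_c10_ok) (L (nat_lit 240) ln16_7_5_c10 ln16_7_5_c10_ok))) (M (nat_lit 334) (B (L (nat_lit 370) ln18_11_3 ln18_11_3_ok) (L (nat_lit 333) ln13_10_0 ln13_10_0_ok))))))))) c10_d371))) (B (K (nat_lit 179013548899091572664880704632125070351479097227464842734737324650522928414885531069708812217453475746713422315059441714036902505822833594989526646784) (nat_lit 409173826082285939050249195419523636979353747646704381368392918524610318583068787646487640722559384592243775376254272286243974540327023126050880094208)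 (nat_lit 409173826082285939050249195419523636979353747646704381368392918524610318583068787646487640722559384592243775376254272286243974540327023126050880094208) c10_s443) (K (nat_lit 179013548899091572664880704632125070351479097227464842734737324650522928414885531069708812217453475746713422315059441714036902505822833594989526646784) (nat_lit 263036769681872457793013248504108596195531490606174569332397868827981966071088011764188867883931255550827823104) (nat_lit 263036769681872457793013248504108596195531490606174569332397868827981966071088011764188867883931255550827823104) c10_s440)))) c10_d372))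
noncomputable def c10_d374 : Cert := (B (M (nat_lit 304) (B (M (nat_lit 272) (B (M (nat_lit 240) (B (M (nat_lit 369) (B (L (nat_lit 401) ln16_8_4_c10 ln16_8_4_c10_ok) (L (nat_lit 337) ln16_7_4_c10 ln16_7_4_c10_ok))) (M (nat_lit 208) (B (M (nat_lit 335) (B (L (nat_lit 367) ln16_7_5_c10 ln16_7_5_c10_ok) (L (nat_lit 303) ln16_6_5_c10 ln16_6_5_c10_ok))) (M (nat_lit 209) (B (L (nat_lit 241) ln16_10_6_c10 ln16_10_6_c10_ok) (L (nat_lit 177) ln16_9_6_c10 ln16_9_6_c10_ok))))))) (B (M (nat_lit 273) (B (L (nat_lit 241) ln16_11_6_c10 ln16_11_6_c10_ok) (L (nat_lit 305) ln16_12_6_c10 ln16_12_6_c10_ok))) (M (nat_lit 271) (B (L (nat_lit 239) ln16_11_7_c10 ln16_11_7_c10_ok) (L (nat_lit 303) ln16_12_7_c10 ln16_12_7_c10_ok)))))) c10_d370)) (B (M (nat_lit 367) (B (M (nat_lit 304) (B (M (nat_lit 370) (B (M (nat_lit 401) (B (L (nat_lit 433) ln16_9_4_c10 ln16_9_4_c10_ok) (M (nat_lit 399) (B (L (nat_lit 431) ln16_9_5 ln16_9_5_ok) (M (nat_lit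 402) (B (L (nat_lit 371) ln15_12_2 ln15_12_2_ok) (L (nat_lit 403) ln19_12_3_c10 ln19_12_3_c10_ok))))))) (B (M (nat_lit 401) (B (L (nat_lit 433) ln16_9_4_c10 ln16_9_4_c10_ok) (M (nat_lit 371) (B (M (nat_lit 402) (B (L (nat_lit 399) ln15_12_2 ln15_12_2_ok) (L (nat_lit 403) ln19_12_3_c10 ln19_12_3_c10_ok))) (M (nat_lit 369) (B (L (nat_lit 372) ln20_11_1_c10 ln20_11_1_c10_ok) (L (nat_lit 335) ln19_11_3_c10 ln19_11_3_c10_ok))))))) (B (M (nat_lit 399) (B (L (nat_lit 431) ln16_9_5 ln16_9_5_ok) (M (nat_lit 402) (B (M (nat_lit 371) (B (L (nat_lit 401) ln15_12_2 ln15_12_2_ok) (L (nat_lit 369) ln19_11_1_c10 ln19_11_1_c10_ok))) (B (M (nat_lit 369) (B (L (nat_lit 371) ln19_11_1_c10 ln19_11_1_c10_ok) (L (nat_lit 403) ln15_11_0_c10 ln15_11_0_c10_ok))) (B (M (nat_lit 401) (B (L (nat_lit 371) ln15_12_2 ln15_12_2_ok) (L (nat_lit 403) ln19_12_3_c10 ln19_12_3_c10_ok))) (M (nat_lit 403) (B (L (nat_lit 401) ln19_12_3_c10 ln19_12_3_c10_ok)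 (L (nat_lit 369) ln15_11_0_c10 ln15_11_0_c10_ok))))))))) (B (M (nat_lit 369) (B (M (nat_lit 335) (B (L (nat_lit 334) ln18_11_3 ln18_11_3_ok) (L (nat_lit 371) ln19_11_3_c10 ln19_11_3_c10_ok))) (M (nat_lit 402) (B (L (nat_lit 403) ln15_11_0_c10 ln15_11_0_c10_ok) (M (nat_lit 434) (B (M (nat_lit 466) (B (L (nat_lit 337) ln18_14_7_c10 ln18_14_7_c10_ok) (M (nat_lit 401) (B (L (nat_lit 498) ln18_15_7_c10 ln18_15_7_c10_ok) (L (nat_lit 433) ln16_9_4_c10 ln16_9_4_c10_ok))))) (B (M (nat_lit 433) (B (L (nat_lit 401) ln16_9_4_c10 ln16_9_4_c10_ok) (M (nat_lit 338) (B (L (nat_lit 465) ln18_10_5_c10 ln18_10_5_c10_ok) (L (nat_lit 339) ln15_11_2_c10 ln15_11_2_c10_ok))))) (M (nat_lit 467) (B (M (nat_lit 466) (B (L (nat_lit 499) ln18_11_4_c10 ln18_11_4_c10_ok) (L (nat_lit 337) ln18_14_7_c10 ln18_14_7_c10_ok))) (M (nat_lit 338) (B (L (nat_lit 435) ln18_10_4_c10 ln18_10_4_c10_ok) (L (nat_lit 339) ln15_11_2_c10 ln15_11_2_c10_ok))))))))))))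 (B (M (nat_lit 335) (B (M (nat_lit 369) (B (L (nat_lit 334) ln18_11_3 ln18_11_3_ok) (L (nat_lit 371) ln19_11_3_c10 ln19_11_3_c10_ok))) (M (nat_lit 303) (B (L (nat_lit 271) ln15_8_4 ln15_8_4_ok) (M (nat_lit 302) (B (M (nat_lit 399) (B (L (nat_lit 431) ln16_9_5 ln16_9_5_ok) (L (nat_lit 270) ln15_12_7 ln15_12_7_ok))) (M (nat_lit 301) (B (L (nat_lit 300) ln12_9_0 ln12_9_0_ok) (L (nat_lit 337) ln13_9_0 ln13_9_0_ok))))))))) (M (nat_lit 402) (B (M (nat_lit 401) (B (L (nat_lit 433) ln16_9_4_c10 ln16_9_4_c10_ok) (L (nat_lit 403) ln19_12_3_c10 ln19_12_3_c10_ok))) (B (M (nat_lit 403) (B (L (nat_lit 401) ln19_12_3_c10 ln19_12_3_c10_ok) (L (nat_lit 369) ln15_11_0_c10 ln15_11_0_c10_ok))) (B (M (nat_lit 335) (B (M (nat_lit 369) (B (L (nat_lit 403) ln15_11_0_c10 ln15_11_0_c10_ok) (L (nat_lit 334) ln18_11_3 ln18_11_3_ok))) (M (nat_lit 303) (B (L (nat_lit 271) ln15_8_4 ln15_8_4_ok) (M (nat_lit 302) (B (M (nat_lit 399) (B (L (nat_lit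 431) ln16_9_5 ln16_9_5_ok) (L (nat_lit 270) ln15_12_7 ln15_12_7_ok))) (M (nat_lit 301) (B (L (nat_lit 300) ln12_9_0 ln12_9_0_ok) (L (nat_lit 337) ln13_9_0 ln13_9_0_ok))))))))) (M (nat_lit 338) (B (M (nat_lit 339) (B (L (nat_lit 369) ln15_11_2_c10 ln15_11_2_c10_ok) (L (nat_lit 337) ln19_10_1_c10 ln19_10_1_c10_ok))) (M (nat_lit 434) (B (M (nat_lit 433) (B (L (nat_lit 465) ln18_10_5_c10 ln18_10_5_c10_ok) (L (nat_lit 401) ln16_9_4_c10 ln16_9_4_c10_ok))) (B (M (nat_lit 435) (B (L (nat_lit 467) ln18_10_4_c10 ln18_10_4_c10_ok) (M (nat_lit 399) (B (L (nat_lit 431) ln16_9_5 ln16_9_5_ok) (L (nat_lit 401) ln15_12_0 ln15_12_0_ok))))) (M (nat_lit 466) (B (M (nat_lit 465) (B (L (nat_lit 497) ln18_11_5_c10 ln18_11_5_c10_ok) (L (nat_lit 433) ln18_10_5_c10 ln18_10_5_c10_ok))) (M (nat_lit 467) (B (L (nat_lit 499) ln18_11_4_c10 ln18_11_4_c10_ok) (L (nat_lit 435) ln18_10_4_c10 ln18_10_4_c10_ok)))))))))))))))))))) (B (M (nat_lit 272)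 (B (M (nat_lit 240) (B (L (nat_lit 335) ln16_7_5_c10 ln16_7_5_c10_ok) (M (nat_lit 239) (B (L (nat_lit 207) ln16_10_7_c10 ln16_10_7_c10_ok) (L (nat_lit 271) ln16_11_7_c10 ln16_11_7_c10_ok))))) (B (M (nat_lit 271) (B (L (nat_lit 239) ln16_11_7_c10 ln16_11_7_c10_ok) (L (nat_lit 303) ln16_12_7_c10 ln16_12_7_c10_ok))) (M (nat_lit 240) (B (L (nat_lit 335) ln16_7_5_c10 ln16_7_5_c10_ok) (M (nat_lit 241) (B (L (nat_lit 209) ln16_10_6_c10 ln16_10_6_c10_ok) (L (nat_lit 273) ln16_11_6_c10 ln16_11_6_c10_ok)))))))) (M (nat_lit 399) (B (L (nat_lit 431) ln16_9_5 ln16_9_5_ok) (L (nat_lit 272) ln16_8_5 ln16_8_5_ok)))))) (B (K (nat_lit 179013548899091572664880704632125070351479097227464842734737324650522928414885531069708812217453475746713422315059441714036902505822833594989526646784) (nat_lit 409173826082285939050249195419523636979353747646704381368392918524610318583068787646487640722559384592243775376254272286243974540327023126050880094208)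 (nat_lit 409173826082285939050249195419523636979353747646704381368392918524610318583068787646487640722559384592243775376254272286243974540327023126050880094208) c10_s443) (K (nat_lit 179013548899091572664880704632125070351479097227464842734737324650522928414885531069708812217453475746713422315059441714036902505822833594989526646784) (nat_lit 263036769681872457793013248504108596195531490606174569332397868827981966071088011764188867883931255550827823104) (nat_lit 263036769681872457793013248504108596195531490606174569332397868827981966071088011764188867883931255550827823104) c10_s440)))) c10_d373))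
theorem c10_s444 : Sem (nat_lit 179013548899091572664880704632125070351178483776729808035181358370974053132845915936065944430425776906426050241034534841324788974943278357671963525120) (nat_lit 37739624260517130932233815202468402357140884053463454476569810552036447999796936773121328602748583558460775401913685683016638816207427314948315371078197578777679127117824) (nat_lit 37739624260517130932233815202468402357140884053463454476569810552036447999796936773121328602748583558460775401913685683016638816207427314948315371078197578777679127117824) :=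
  sem_of_chk (M (nat_lit 336) (B (M (nat_lit 367) c10_d368) (B (K (nat_lit 179013548899091572664880704632125070351178483776869792081567471134133893275381443703448547274002942502357299559844771833273549034029583201001438969856) (nat_lit 2045869131364111748514517779497426358600440519818490081615295990022531031820367305063258762928339882296461372854094039967494916873046605988043524407296) (nat_lit 2045869131364111748514517779497426358600440519818490081615295990022531031820367305063258762928339882296461372854094039967494916873046605988043524407296) c10_s442) (B (M (nat_lit 304) (B (M (nat_lit 272) (B (M (nat_lit 240) (B (M (nat_lit 367) (B (L (nat_lit 399) ln16_8_5 ln16_8_5_ok) (L (nat_lit 335) ln16_7_5_c10 ln16_7_5_c10_ok))) (M (nat_lit 208) (B (M (nat_lit 337) (B (L (nat_lit 369) ln16_7_4_c10 ln16_7_4_c10_ok) (L (nat_lit 305) ln16_6_4_c10 ln16_6_4_c10_ok))) (M (nat_lit 207) (B (L (nat_lit 239) ln16_10_7_c10 ln16_10_7_c10_ok)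 (L (nat_lit 175) ln16_9_7_c10 ln16_9_7_c10_ok))))))) (B (M (nat_lit 271) (B (L (nat_lit 239) ln16_11_7_c10 ln16_11_7_c10_ok) (L (nat_lit 303) ln16_12_7_c10 ln16_12_7_c10_ok))) (M (nat_lit 273) (B (L (nat_lit 241) ln16_11_6_c10 ln16_11_6_c10_ok) (L (nat_lit 305) ln16_12_6_c10 ln16_12_6_c10_ok)))))) c10_d369)) c10_d374)))) (nat_lit 179013548899091572664880704632125070351178483776729808035181358370974053132845915936065944430425776906426050241034534841324788974943278357671963525120) (nat_lit 37739624260517130932233815202468402357140884053463454476569810552036447999796936773121328602748583558460775401913685683016638816207427314948315371078197578777679127117824) (nat_lit 37739624260517130932233815202468402357140884053463454476569810552036447999796936773121328602748583558460775401913685683016638816207427314948315371078197578777679127117824) (by decide +kernel)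
noncomputable def c10_d375 : Cert := (B (M (nat_lit 464) (B (K (nat_lit 230160277171285840712645919009284512287965328507846604554513794801903537837523796473883739811270398475008332989502064629320701868145729518905124192256) (nat_lit 747510271034881081159578754223156341603024783773260154653346925600456155837699782395101917985228486765554568735286218956043604613216493134078059124364194959079927735704486502171642617488317278584832) (nat_lit 747510271034881081159578754223156341603024783773260154653346925600456155837699782395101917985228486765554568735286218956043604613216493134078059124364194959079927735704486502171642617488317278584832) c10_s461) (B (K (nat_lit 230160277171285840712645919009284512287965328507846604554513794801903537837523796473883739811270398475008332989502064629320701868145729518905124192256) (nat_lit 12741064460168921870117866598154017366271508769902606660506860936427449397533901770263224204594920807727489644331558356337681236305034888961237744349760274300928)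 (nat_lit 12741064460168921870117866598154017366271508769902606660506860936427449397533901770263224204594920807727489644331558356337681236305034888961237744349760274300928) c10_s463) (B (K (nat_lit 230160277171285840712645919009284512287965328507846604554513794801903537837523796473883739811270398475008332989502064629320701868145729518905124192256) (nat_lit 34808659553971306761224546798795887259376913827310647621998574829702026901710750029120897388126996771732576951637623430276888948921741776557139153859272406591166613639723189818660287938560) (nat_lit 34808659553971306761224546798795887259376913827310647621998574829702026901710750029120897388126996771732576951637623430276888948921741776557139153859272406591166613639723189818660287938560) c10_s464) (B (K (nat_lit 230160277171285840712645919009284512287965328507846604554513794801903537837523796473883739811270398475008332989502064629320701868145729518905124192256) (nat_lit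 747510271034881081159578754115598412485066526022686799008888826744922441531563180260674229698086029919887217039421966099462900351467416230338760653087788377455322336232807792052901777224219137933312) (nat_lit 747510271034881081159578754115598412485066526022686799008888826744922441531563180260674229698086029919887217039421966099462900351467416230338760653087788377455322336232807792052901777224219137933312) c10_s465) (B (K (nat_lit 230160277171285840712645919009284512287965328507846604554513794801903537837523796473883739811270398475008332989502064629320701868145729518905124192256) (nat_lit 139234638045690252500387104911345597987784263670284650568321734033630410011894268964374415282780321812414629535565506217197310815220432320347058931925418932693402596788725539036809402515456) (nat_lit 139234638045690252500387104911345597987784263670284650568321734033630410011894268964374415282780321812414629535565506217197310815220432320347058931925418932693402596788725539036809402515456)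 c10_s466) (B (M (nat_lit 529) (B (M (nat_lit 561) (B (L (nat_lit 528) ln16_13_4_c10 ln16_13_4_c10_ok) (M (nat_lit 497) (B (L (nat_lit 465) ln17_17_7_c10 ln17_17_7_c10_ok) (L (nat_lit 400) ln16_12_4 ln16_12_4_ok))))) (B (M (nat_lit 495) (B (M (nat_lit 400) (B (L (nat_lit 497) ln16_12_4 ln16_12_4_ok) (L (nat_lit 527) ln16_12_5_c10 ln16_12_5_c10_ok))) (B (M (nat_lit 527) (B (L (nat_lit 400) ln16_12_5_c10 ln16_12_5_c10_ok) (M (nat_lit 559) (B (L (nat_lit 528) ln16_13_5_c10 ln16_13_5_c10_ok) (L (nat_lit 591) ln15_18_6_c10 ln15_18_6_c10_ok))))) (M (nat_lit 494) (B (L (nat_lit 528) ln13_15_0 ln13_15_0_ok) (M (nat_lit 497) (B (L (nat_lit 530) ln14_15_0 ln14_15_0_ok) (L (nat_lit 465) ln13_15_2 ln13_15_2_ok)))))))) (B (M (nat_lit 528) (B (L (nat_lit 561) ln16_13_4_c10 ln16_13_4_c10_ok) (M (nat_lit 527) (B (L (nat_lit 559) ln16_13_5_c10 ln16_13_5_c10_ok) (M (nat_lit 495) (B (L (nat_lit 400) ln16_12_5_c10 ln16_12_5_c10_ok)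 (L (nat_lit 494) ln13_15_0 ln13_15_0_ok))))))) (B (M (nat_lit 497) (B (L (nat_lit 400) ln16_12_4 ln16_12_4_ok) (M (nat_lit 561) (B (L (nat_lit 593) ln17_18_7_c10 ln17_18_7_c10_ok) (L (nat_lit 465) ln17_17_7_c10 ln17_17_7_c10_ok))))) (M (nat_lit 561) (B (L (nat_lit 528) ln16_13_4_c10 ln16_13_4_c10_ok) (M (nat_lit 497) (B (L (nat_lit 593) ln17_18_7_c10 ln17_18_7_c10_ok) (L (nat_lit 465) ln17_17_7_c10 ln17_17_7_c10_ok)))))))))) (K (nat_lit 230160277171285840712645919009284512287965328507846604554513794801903537837523796473883739811270398475008332989502064629320701868145729518905124192256) (nat_lit 40522612990562315350423557128852123627209038851984940140336583756727871514849261524141882998438437939043851820630413285049647465744208652281156193205533887551016315478869528281088) (nat_lit 40522612990562315350423557128852123627209038851984940140336583756727871514849261524141882998438437939043851820630413285049647465744208652281156193205533887551016315478869528281088)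 c10_s467)))))))) (B (M (nat_lit 526) (B (L (nat_lit 494) ln13_12_4 ln13_12_4_ok) (M (nat_lit 525) (B (L (nat_lit 558) ln13_13_4 ln13_13_4_ok) (M (nat_lit 556) (B (L (nat_lit 524) ln13_13_5 ln13_13_5_ok) (M (nat_lit 557) (B (L (nat_lit 588) ln13_14_5 ln13_14_5_ok) (M (nat_lit 528) (B (L (nat_lit 527) ln16_16_1 ln16_16_1_ok) (M (nat_lit 555) (B (L (nat_lit 554) ln10_17_2 ln10_17_2_ok) (M (nat_lit 464) (B (M (nat_lit 560) (B (M (nat_lit 592) (B (M (nat_lit 465) (B (L (nat_lit 433) ln16_17_6_c10 ln16_17_6_c10_ok) (L (nat_lit 497) ln16_18_6_c10 ln16_18_6_c10_ok))) (M (nat_lit 591) (B (L (nat_lit 559) ln16_14_5_c10 ln16_14_5_c10_ok) (L (nat_lit 623) ln16_15_5_c10 ln16_15_5_c10_ok))))) (B (M (nat_lit 593) (B (L (nat_lit 561) ln16_14_4_c10 ln16_14_4_c10_ok) (M (nat_lit 592) (B (L (nat_lit 625) ln16_15_4_c10 ln16_15_4_c10_ok) (M (nat_lit 591) (B (L (nat_lit 559) ln16_14_5_c10 ln16_14_5_c10_ok) (L (nat_lit 623) ln16_15_5_c10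 ln16_15_5_c10_ok))))))) (B (M (nat_lit 592) (B (M (nat_lit 465) (B (L (nat_lit 433) ln16_17_6_c10 ln16_17_6_c10_ok) (L (nat_lit 497) ln16_18_6_c10 ln16_18_6_c10_ok))) (M (nat_lit 593) (B (L (nat_lit 561) ln16_14_4_c10 ln16_14_4_c10_ok) (L (nat_lit 625) ln16_15_4_c10 ln16_15_4_c10_ok))))) (M (nat_lit 433) (B (L (nat_lit 401) ln16_16_6_c10 ln16_16_6_c10_ok) (L (nat_lit 465) ln16_17_6_c10 ln16_17_6_c10_ok))))))) (B (M (nat_lit 560) (B (M (nat_lit 592) (B (M (nat_lit 593) (B (L (nat_lit 625) ln16_15_4_c10 ln16_15_4_c10_ok) (L (nat_lit 561) ln16_14_4_c10 ln16_14_4_c10_ok))) (M (nat_lit 465) (B (L (nat_lit 497) ln16_18_6_c10 ln16_18_6_c10_ok) (L (nat_lit 433) ln16_17_6_c10 ln16_17_6_c10_ok))))) (B (M (nat_lit 561) (B (L (nat_lit 593) ln16_14_4_c10 ln16_14_4_c10_ok) (L (nat_lit 529) ln16_13_4_c10 ln16_13_4_c10_ok))) (M (nat_lit 433) (B (L (nat_lit 465) ln16_17_6_c10 ln16_17_6_c10_ok) (L (nat_lit 401) ln16_16_6_c10 ln16_16_6_c10_ok))))))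 (B (M (nat_lit 400) (B (M (nat_lit 529) (B (L (nat_lit 561) ln16_13_4_c10 ln16_13_4_c10_ok) (L (nat_lit 497) ln16_12_4 ln16_12_4_ok))) (M (nat_lit 401) (B (L (nat_lit 433) ln16_16_6_c10 ln16_16_6_c10_ok) (L (nat_lit 369) ln16_15_6_c10 ln16_15_6_c10_ok))))) (B (M (nat_lit 560) (B (M (nat_lit 433) (B (L (nat_lit 401) ln16_16_6_c10 ln16_16_6_c10_ok) (L (nat_lit 465) ln16_17_6_c10 ln16_17_6_c10_ok))) (M (nat_lit 561) (B (L (nat_lit 529) ln16_13_4_c10 ln16_13_4_c10_ok) (L (nat_lit 593) ln16_14_4_c10 ln16_14_4_c10_ok))))) (B (M (nat_lit 560) (B (M (nat_lit 561) (B (L (nat_lit 593) ln16_14_4_c10 ln16_14_4_c10_ok) (L (nat_lit 529) ln16_13_4_c10 ln16_13_4_c10_ok))) (M (nat_lit 592) (B (M (nat_lit 591) (B (L (nat_lit 623) ln16_15_5_c10 ln16_15_5_c10_ok) (L (nat_lit 559) ln16_14_5_c10 ln16_14_5_c10_ok))) (M (nat_lit 465) (B (L (nat_lit 497) ln16_18_6_c10 ln16_18_6_c10_ok) (L (nat_lit 433) ln16_17_6_c10 ln16_17_6_c10_ok)))))))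 (B (M (nat_lit 433) (B (L (nat_lit 401) ln16_16_6_c10 ln16_16_6_c10_ok) (M (nat_lit 463) (B (M (nat_lit 560) (B (L (nat_lit 431) ln16_17_7_c10 ln16_17_7_c10_ok) (L (nat_lit 465) ln16_17_6_c10 ln16_17_6_c10_ok))) (M (nat_lit 434) (B (L (nat_lit 435) ln19_13_1_c10 ln19_13_1_c10_ok) (L (nat_lit 462) ln13_14_2 ln13_14_2_ok))))))) (M (nat_lit 560) (B (M (nat_lit 561) (B (L (nat_lit 593) ln16_14_4_c10 ln16_14_4_c10_ok) (L (nat_lit 529) ln16_13_4_c10 ln16_13_4_c10_ok))) (B (M (nat_lit 529) (B (L (nat_lit 561) ln16_13_4_c10 ln16_13_4_c10_ok) (M (nat_lit 497) (B (L (nat_lit 400) ln16_12_4 ln16_12_4_ok) (M (nat_lit 592) (B (L (nat_lit 624) ln16_19_6_c10 ln16_19_6_c10_ok) (L (nat_lit 465) ln16_18_6_c10 ln16_18_6_c10_ok))))))) (B (M (nat_lit 592) (B (M (nat_lit 591) (B (L (nat_lit 623) ln16_15_5_c10 ln16_15_5_c10_ok) (L (nat_lit 559) ln16_14_5_c10 ln16_14_5_c10_ok))) (M (nat_lit 497) (B (L (nat_lit 465) ln16_18_6_c10 ln16_18_6_c10_ok)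 (M (nat_lit 529) (B (L (nat_lit 624) ln16_19_6_c10 ln16_19_6_c10_ok) (L (nat_lit 400) ln16_12_4 ln16_12_4_ok))))))) (M (nat_lit 592) (B (M (nat_lit 593) (B (L (nat_lit 625) ln16_15_4_c10 ln16_15_4_c10_ok) (L (nat_lit 561) ln16_14_4_c10 ln16_14_4_c10_ok))) (M (nat_lit 591) (B (L (nat_lit 623) ln16_15_5_c10 ln16_15_5_c10_ok) (L (nat_lit 559) ln16_14_5_c10 ln16_14_5_c10_ok)))))))))))))))))))))))))))) (B (M (nat_lit 494) (B (L (nat_lit 526) ln13_12_4 ln13_12_4_ok) (M (nat_lit 495) (B (L (nat_lit 460) ln16_15_3 ln16_15_3_ok) (M (nat_lit 464) (B (L (nat_lit 465) ln13_15_2 ln13_15_2_ok) (M (nat_lit 497) (B (L (nat_lit 462) ln17_15_3 ln17_15_3_ok) (M (nat_lit 529) (B (L (nat_lit 530) ln14_15_0 ln14_15_0_ok) (L (nat_lit 400) ln16_12_4 ln16_12_4_ok))))))))))) (B (M (nat_lit 494) (B (L (nat_lit 526) ln13_12_4 ln13_12_4_ok) (M (nat_lit 495) (B (L (nat_lit 460) ln16_15_3 ln16_15_3_ok) (M (nat_lit 464) (B (L (nat_lit 465) ln13_15_2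 ln13_15_2_ok) (M (nat_lit 527) (B (L (nat_lit 400) ln16_12_5_c10 ln16_12_5_c10_ok) (M (nat_lit 559) (B (L (nat_lit 528) ln16_13_5_c10 ln16_13_5_c10_ok) (L (nat_lit 591) ln15_18_6_c10 ln15_18_6_c10_ok))))))))))) (M (nat_lit 494) (B (L (nat_lit 526) ln13_12_4 ln13_12_4_ok) (M (nat_lit 495) (B (L (nat_lit 460) ln16_15_3 ln16_15_3_ok) (M (nat_lit 497) (B (L (nat_lit 462) ln17_15_3 ln17_15_3_ok) (M (nat_lit 529) (B (L (nat_lit 528) ln13_15_0 ln13_15_0_ok) (L (nat_lit 530) ln14_15_0 ln14_15_0_ok)))))))))))))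
noncomputable def c10_d376 : Cert := (B (M (nat_lit 496) (B (M (nat_lit 528) (B (M (nat_lit 527) (B (L (nat_lit 559) ln16_13_5_c10 ln16_13_5_c10_ok) (L (nat_lit 495) ln16_12_5_c10 ln16_12_5_c10_ok))) (M (nat_lit 529) (B (L (nat_lit 561) ln16_13_4_c10 ln16_13_4_c10_ok) (L (nat_lit 497) ln16_12_4 ln16_12_4_ok))))) (B (M (nat_lit 465) (B (M (nat_lit 497) (B (L (nat_lit 529) ln16_12_4 ln16_12_4_ok) (M (nat_lit 495) (B (L (nat_lit 527) ln16_12_5_c10 ln16_12_5_c10_ok) (L (nat_lit 494) ln13_15_2 ln13_15_2_ok))))) (B (M (nat_lit 528) (B (M (nat_lit 529) (B (L (nat_lit 561) ln16_13_4_c10 ln16_13_4_c10_ok) (L (nat_lit 497) ln16_12_4 ln16_12_4_ok))) (M (nat_lit 433) (B (L (nat_lit 560) ln16_17_6_c10 ln16_17_6_c10_ok) (L (nat_lit 401) ln16_16_6_c10 ln16_16_6_c10_ok))))) (M (nat_lit 495) (B (L (nat_lit 527) ln16_12_5_c10 ln16_12_5_c10_ok) (L (nat_lit 494) ln13_15_2 ln13_15_2_ok)))))) (B (M (nat_lit 497) (B (L (nat_lit 529) ln16_12_4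 ln16_12_4_ok) (M (nat_lit 495) (B (L (nat_lit 527) ln16_12_5_c10 ln16_12_5_c10_ok) (M (nat_lit 498) (B (M (nat_lit 463) (B (L (nat_lit 462) ln13_14_0 ln13_14_0_ok) (L (nat_lit 499) ln19_15_3_c10 ln19_15_3_c10_ok))) (B (M (nat_lit 494) (B (L (nat_lit 462) ln17_15_3 ln17_15_3_ok) (M (nat_lit 466) (B (L (nat_lit 465) ln13_15_2 ln13_15_2_ok) (L (nat_lit 467) ln15_15_2_c10 ln15_15_2_c10_ok))))) (M (nat_lit 499) (B (L (nat_lit 463) ln19_15_3_c10 ln19_15_3_c10_ok) (M (nat_lit 531) (B (L (nat_lit 530) ln15_15_0_c10 ln15_15_0_c10_ok) (L (nat_lit 532) ln16_15_0_c10 ln16_15_0_c10_ok)))))))))))) (B (M (nat_lit 463) (B (M (nat_lit 497) (B (L (nat_lit 529) ln16_12_4 ln16_12_4_ok) (L (nat_lit 462) ln13_14_0 ln13_14_0_ok))) (B (M (nat_lit 462) (B (L (nat_lit 497) ln13_14_0 ln13_14_0_ok) (L (nat_lit 433) ln13_14_2 ln13_14_2_ok))) (B (M (nat_lit 433) (B (M (nat_lit 434) (B (L (nat_lit 435) ln19_13_1_c10 ln19_13_1_c10_ok) (L (nat_lit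 462) ln13_14_2 ln13_14_2_ok))) (M (nat_lit 528) (B (L (nat_lit 401) ln16_16_6_c10 ln16_16_6_c10_ok) (M (nat_lit 560) (B (L (nat_lit 465) ln16_17_6_c10 ln16_17_6_c10_ok) (M (nat_lit 561) (B (L (nat_lit 593) ln16_14_4_c10 ln16_14_4_c10_ok) (L (nat_lit 529) ln16_13_4_c10 ln16_13_4_c10_ok))))))))) (M (nat_lit 528) (B (M (nat_lit 529) (B (L (nat_lit 561) ln16_13_4_c10 ln16_13_4_c10_ok) (L (nat_lit 497) ln16_12_4 ln16_12_4_ok))) (M (nat_lit 560) (B (M (nat_lit 433) (B (L (nat_lit 465) ln16_17_6_c10 ln16_17_6_c10_ok) (L (nat_lit 401) ln16_16_6_c10 ln16_16_6_c10_ok))) (M (nat_lit 592) (B (L (nat_lit 495) ln16_18_7_c10 ln16_18_7_c10_ok) (M (nat_lit 591) (B (L (nat_lit 623) ln16_15_5_c10 ln16_15_5_c10_ok) (L (nat_lit 559) ln16_14_5_c10 ln16_14_5_c10_ok))))))))))))) (B (M (nat_lit 528) (B (M (nat_lit 527) (B (L (nat_lit 559) ln16_13_5_c10 ln16_13_5_c10_ok) (L (nat_lit 495) ln16_12_5_c10 ln16_12_5_c10_ok))) (B (M (nat_lit 560)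 (B (M (nat_lit 433) (B (L (nat_lit 465) ln16_17_6_c10 ln16_17_6_c10_ok) (L (nat_lit 401) ln16_16_6_c10 ln16_16_6_c10_ok))) (M (nat_lit 592) (B (M (nat_lit 593) (B (L (nat_lit 625) ln16_15_4_c10 ln16_15_4_c10_ok) (L (nat_lit 561) ln16_14_4_c10 ln16_14_4_c10_ok))) (M (nat_lit 495) (B (L (nat_lit 463) ln16_18_7_c10 ln16_18_7_c10_ok) (L (nat_lit 527) ln16_12_5_c10 ln16_12_5_c10_ok))))))) (M (nat_lit 560) (B (M (nat_lit 433) (B (L (nat_lit 465) ln16_17_6_c10 ln16_17_6_c10_ok) (L (nat_lit 401) ln16_16_6_c10 ln16_16_6_c10_ok))) (M (nat_lit 592) (B (M (nat_lit 591) (B (L (nat_lit 623) ln16_15_5_c10 ln16_15_5_c10_ok) (L (nat_lit 559) ln16_14_5_c10 ln16_14_5_c10_ok))) (M (nat_lit 593) (B (L (nat_lit 625) ln16_15_4_c10 ln16_15_4_c10_ok) (L (nat_lit 561) ln16_14_4_c10 ln16_14_4_c10_ok)))))))))) (M (nat_lit 528) (B (M (nat_lit 529) (B (L (nat_lit 561) ln16_13_4_c10 ln16_13_4_c10_ok) (L (nat_lit 497) ln16_12_4 ln16_12_4_ok)))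 (M (nat_lit 560) (B (M (nat_lit 559) (B (L (nat_lit 591) ln16_14_5_c10 ln16_14_5_c10_ok) (L (nat_lit 527) ln16_13_5_c10 ln16_13_5_c10_ok))) (M (nat_lit 433) (B (L (nat_lit 465) ln16_17_6_c10 ln16_17_6_c10_ok) (L (nat_lit 401) ln16_16_6_c10 ln16_16_6_c10_ok))))))))))))) (B (K (nat_lit 25573364177776973836821562960141815152512109219810974383811096170224881355060860306510018397442036275094756426159205544524761165463795625044838711296) (nat_lit 9434906064250588633380083408847190766836664364750585322417960710276660764512381191429585359225560747905255778630297532956047834930370122107157052937660276562551470292992) (nat_lit 9434906064250588633380083408847190766836664364750585322417960710276660764512381191429585359225560747905255778630297532956047834930370122107157052937660276562551470292992) c10_s468) (B (M (nat_lit 496) (B (M (nat_lit 497) (B (L (nat_lit 529) ln16_12_4 ln16_12_4_ok) (M (nat_lit 368) (B (L (nat_lit 465)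 ln16_11_4 ln16_11_4_ok) (M (nat_lit 495) (B (L (nat_lit 527) ln16_12_5_c10 ln16_12_5_c10_ok) (L (nat_lit 463) ln16_11_5_c10 ln16_11_5_c10_ok))))))) (B (M (nat_lit 368) (B (M (nat_lit 497) (B (L (nat_lit 529) ln16_12_4 ln16_12_4_ok) (L (nat_lit 465) ln16_11_4 ln16_11_4_ok))) (M (nat_lit 367) (B (L (nat_lit 399) ln12_12_2 ln12_12_2_ok) (L (nat_lit 335) ln16_14_7 ln16_14_7_ok))))) (B (M (nat_lit 368) (B (M (nat_lit 495) (B (L (nat_lit 527) ln16_12_5_c10 ln16_12_5_c10_ok) (L (nat_lit 463) ln16_11_5_c10 ln16_11_5_c10_ok))) (M (nat_lit 367) (B (L (nat_lit 399) ln12_12_2 ln12_12_2_ok) (L (nat_lit 335) ln16_14_7 ln16_14_7_ok))))) (M (nat_lit 528) (B (M (nat_lit 527) (B (L (nat_lit 559) ln16_13_5_c10 ln16_13_5_c10_ok) (L (nat_lit 495) ln16_12_5_c10 ln16_12_5_c10_ok))) (M (nat_lit 529) (B (L (nat_lit 561) ln16_13_4_c10 ln16_13_4_c10_ok) (L (nat_lit 497) ln16_12_4 ln16_12_4_ok))))))))) (B (M (nat_lit 399) (B (L (nat_lit 433)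 ln13_12_0 ln13_12_0_ok) (M (nat_lit 367) (B (L (nat_lit 496) ln16_15_7 ln16_15_7_ok) (M (nat_lit 335) (B (L (nat_lit 303) ln15_9_4 ln15_9_4_ok) (L (nat_lit 368) ln12_12_2 ln12_12_2_ok))))))) (M (nat_lit 433) (B (L (nat_lit 399) ln13_12_0 ln13_12_0_ok) (M (nat_lit 368) (B (M (nat_lit 463) (B (L (nat_lit 462) ln13_14_2 ln13_14_2_ok) (L (nat_lit 495) ln16_11_5_c10 ln16_11_5_c10_ok))) (M (nat_lit 465) (B (L (nat_lit 497) ln16_11_4 ln16_11_4_ok) (L (nat_lit 336) ln16_10_4_c10 ln16_10_4_c10_ok)))))))))))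
noncomputable def c10_d377 : Cert := (B (M (nat_lit 464) (B (M (nat_lit 496) (B (M (nat_lit 401) (B (L (nat_lit 369) ln16_15_6_c10 ln16_15_6_c10_ok) (M (nat_lit 529) (B (L (nat_lit 497) ln16_12_4 ln16_12_4_ok) (M (nat_lit 528) (B (L (nat_lit 561) ln16_13_4_c10 ln16_13_4_c10_ok) (L (nat_lit 433) ln16_16_6_c10 ln16_16_6_c10_ok))))))) (B (M (nat_lit 528) (B (M (nat_lit 527) (B (L (nat_lit 559) ln16_13_5_c10 ln16_13_5_c10_ok) (L (nat_lit 495) ln16_12_5_c10 ln16_12_5_c10_ok))) (M (nat_lit 401) (B (L (nat_lit 433) ln16_16_6_c10 ln16_16_6_c10_ok) (L (nat_lit 369) ln16_15_6_c10 ln16_15_6_c10_ok))))) (M (nat_lit 497) (B (L (nat_lit 529) ln16_12_4 ln16_12_4_ok) (M (nat_lit 495) (B (L (nat_lit 527) ln16_12_5_c10 ln16_12_5_c10_ok) (M (nat_lit 498) (B (M (nat_lit 463) (B (L (nat_lit 499) ln19_15_3_c10 ln19_15_3_c10_ok) (L (nat_lit 462) ln13_14_0 ln13_14_0_ok))) (B (M (nat_lit 494) (B (M (nat_lit 466) (B (L (nat_lit 467) ln15_15_2_c10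 ln15_15_2_c10_ok) (L (nat_lit 465) ln13_15_2 ln13_15_2_ok))) (L (nat_lit 462) ln17_15_3 ln17_15_3_ok))) (M (nat_lit 499) (B (M (nat_lit 531) (B (L (nat_lit 532) ln16_15_0_c10 ln16_15_0_c10_ok) (L (nat_lit 530) ln15_15_0_c10 ln15_15_0_c10_ok))) (M (nat_lit 467) (B (L (nat_lit 468) ln16_15_2_c10 ln16_15_2_c10_ok) (L (nat_lit 466) ln15_15_2_c10 ln15_15_2_c10_ok))))))))))))))) (B (M (nat_lit 463) (B (M (nat_lit 368) (B (L (nat_lit 495) ln16_11_5_c10 ln16_11_5_c10_ok) (M (nat_lit 337) (B (L (nat_lit 369) ln16_14_6_c10 ln16_14_6_c10_ok) (M (nat_lit 335) (B (L (nat_lit 367) ln16_14_7 ln16_14_7_ok) (M (nat_lit 336) (B (L (nat_lit 305) ln16_13_6_c10 ln16_13_6_c10_ok) (L (nat_lit 303) ln16_13_7 ln16_13_7_ok))))))))) (M (nat_lit 462) (B (M (nat_lit 494) (B (L (nat_lit 465) ln17_14_1 ln17_14_1_ok) (L (nat_lit 526) ln13_12_4 ln13_12_4_ok))) (L (nat_lit 433) ln13_14_2 ln13_14_2_ok))))) (B (M (nat_lit 368) (B (M (nat_lit 497)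 (B (L (nat_lit 465) ln16_11_4 ln16_11_4_ok) (M (nat_lit 496) (B (L (nat_lit 529) ln16_12_4 ln16_12_4_ok) (M (nat_lit 495) (B (L (nat_lit 527) ln16_12_5_c10 ln16_12_5_c10_ok) (L (nat_lit 463) ln16_11_5_c10 ln16_11_5_c10_ok))))))) (M (nat_lit 337) (B (L (nat_lit 369) ln16_14_6_c10 ln16_14_6_c10_ok) (M (nat_lit 336) (B (L (nat_lit 305) ln16_13_6_c10 ln16_13_6_c10_ok) (M (nat_lit 335) (B (L (nat_lit 367) ln16_14_7 ln16_14_7_ok) (L (nat_lit 303) ln16_13_7 ln16_13_7_ok))))))))) (B (K (nat_lit 25573364177776973836821562960141815152512109219810974383811096170224881355060860306510018397442036275094756426159205544524761165463795625044838711296) (nat_lit 9434906064250588633380083408847190766836664364750585322417960710276660764512381191429585359225560747905255778630297532956047834930370122107157052937660276562551470292992) (nat_lit 9434906064250588633380083408847190766836664364750585322417960710276660764512381191429585359225560747905255778630297532956047834930370122107157052937660276562551470292992)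 c10_s468) (B (M (nat_lit 496) (B (M (nat_lit 527) (B (L (nat_lit 495) ln16_12_5_c10 ln16_12_5_c10_ok) (M (nat_lit 528) (B (L (nat_lit 559) ln16_13_5_c10 ln16_13_5_c10_ok) (M (nat_lit 529) (B (L (nat_lit 497) ln16_12_4 ln16_12_4_ok) (L (nat_lit 561) ln16_13_4_c10 ln16_13_4_c10_ok))))))) (B (M (nat_lit 528) (B (M (nat_lit 401) (B (L (nat_lit 369) ln16_15_6_c10 ln16_15_6_c10_ok) (L (nat_lit 433) ln16_16_6_c10 ln16_16_6_c10_ok))) (M (nat_lit 529) (B (L (nat_lit 497) ln16_12_4 ln16_12_4_ok) (L (nat_lit 561) ln16_13_4_c10 ln16_13_4_c10_ok))))) (B (M (nat_lit 528) (B (M (nat_lit 401) (B (L (nat_lit 369) ln16_15_6_c10 ln16_15_6_c10_ok) (L (nat_lit 433) ln16_16_6_c10 ln16_16_6_c10_ok))) (M (nat_lit 527) (B (L (nat_lit 495) ln16_12_5_c10 ln16_12_5_c10_ok) (L (nat_lit 559) ln16_13_5_c10 ln16_13_5_c10_ok))))) (M (nat_lit 368) (B (M (nat_lit 369) (B (L (nat_lit 337) ln16_14_6_c10 ln16_14_6_c10_ok) (L (nat_lit 401) ln16_15_6_c10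 ln16_15_6_c10_ok))) (M (nat_lit 495) (B (L (nat_lit 463) ln16_11_5_c10 ln16_11_5_c10_ok) (L (nat_lit 527) ln16_12_5_c10 ln16_12_5_c10_ok))))))))) (M (nat_lit 368) (B (M (nat_lit 336) (B (M (nat_lit 465) (B (L (nat_lit 497) ln16_11_4 ln16_11_4_ok) (L (nat_lit 433) ln16_10_4_c10 ln16_10_4_c10_ok))) (M (nat_lit 335) (B (L (nat_lit 367) ln16_14_7 ln16_14_7_ok) (L (nat_lit 303) ln16_13_7 ln16_13_7_ok))))) (B (M (nat_lit 337) (B (L (nat_lit 369) ln16_14_6_c10 ln16_14_6_c10_ok) (M (nat_lit 336) (B (L (nat_lit 305) ln16_13_6_c10 ln16_13_6_c10_ok) (M (nat_lit 335) (B (L (nat_lit 367) ln16_14_7 ln16_14_7_ok) (L (nat_lit 303) ln16_13_7 ln16_13_7_ok))))))) (B (M (nat_lit 336) (B (M (nat_lit 465) (B (L (nat_lit 497) ln16_11_4 ln16_11_4_ok) (L (nat_lit 433) ln16_10_4_c10 ln16_10_4_c10_ok))) (M (nat_lit 337) (B (L (nat_lit 369) ln16_14_6_c10 ln16_14_6_c10_ok) (L (nat_lit 305) ln16_13_6_c10 ln16_13_6_c10_ok))))) (M (nat_lit 496)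 (B (M (nat_lit 497) (B (L (nat_lit 529) ln16_12_4 ln16_12_4_ok) (L (nat_lit 465) ln16_11_4 ln16_11_4_ok))) (M (nat_lit 369) (B (L (nat_lit 401) ln16_15_6_c10 ln16_15_6_c10_ok) (L (nat_lit 337) ln16_14_6_c10 ln16_14_6_c10_ok))))))))))))))) (B (M (nat_lit 368) (B (M (nat_lit 367) (B (L (nat_lit 399) ln12_12_2 ln12_12_2_ok) (M (nat_lit 335) (B (L (nat_lit 464) ln16_14_7 ln16_14_7_ok) (M (nat_lit 303) (B (L (nat_lit 271) ln15_8_4 ln15_8_4_ok) (L (nat_lit 336) ln16_13_7 ln16_13_7_ok))))))) (B (M (nat_lit 399) (B (L (nat_lit 369) ln13_12_2 ln13_12_2_ok) (L (nat_lit 367) ln12_12_2 ln12_12_2_ok))) (B (M (nat_lit 369) (B (L (nat_lit 399) ln13_12_2 ln13_12_2_ok) (M (nat_lit 337) (B (L (nat_lit 464) ln16_14_6_c10 ln16_14_6_c10_ok) (M (nat_lit 305) (B (L (nat_lit 336) ln16_13_6_c10 ln16_13_6_c10_ok) (L (nat_lit 401) ln17_9_5_c10 ln17_9_5_c10_ok))))))) (M (nat_lit 464) (B (M (nat_lit 335) (B (L (nat_lit 367) ln16_14_7 ln16_14_7_ok)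 (M (nat_lit 336) (B (L (nat_lit 303) ln16_13_7 ln16_13_7_ok) (M (nat_lit 337) (B (L (nat_lit 305) ln16_13_6_c10 ln16_13_6_c10_ok) (L (nat_lit 369) ln16_14_6_c10 ln16_14_6_c10_ok))))))) (M (nat_lit 495) (B (L (nat_lit 463) ln16_11_5_c10 ln16_11_5_c10_ok) (M (nat_lit 496) (B (L (nat_lit 527) ln16_12_5_c10 ln16_12_5_c10_ok) (M (nat_lit 497) (B (L (nat_lit 465) ln16_11_4 ln16_11_4_ok) (L (nat_lit 529) ln16_12_4 ln16_12_4_ok))))))))))))) (B (M (nat_lit 368) (B (M (nat_lit 399) (B (L (nat_lit 433) ln13_12_0 ln13_12_0_ok) (L (nat_lit 369) ln13_12_2 ln13_12_2_ok))) (B (M (nat_lit 464) (B (M (nat_lit 496) (B (M (nat_lit 495) (B (L (nat_lit 527) ln16_12_5_c10 ln16_12_5_c10_ok) (L (nat_lit 463) ln16_11_5_c10 ln16_11_5_c10_ok))) (M (nat_lit 369) (B (L (nat_lit 401) ln16_15_6_c10 ln16_15_6_c10_ok) (L (nat_lit 337) ln16_14_6_c10 ln16_14_6_c10_ok))))) (B (M (nat_lit 496) (B (M (nat_lit 497) (B (L (nat_lit 529) ln16_12_4 ln16_12_4_ok)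 (L (nat_lit 465) ln16_11_4 ln16_11_4_ok))) (M (nat_lit 369) (B (L (nat_lit 401) ln16_15_6_c10 ln16_15_6_c10_ok) (L (nat_lit 337) ln16_14_6_c10 ln16_14_6_c10_ok))))) (B (M (nat_lit 336) (B (M (nat_lit 465) (B (L (nat_lit 497) ln16_11_4 ln16_11_4_ok) (L (nat_lit 433) ln16_10_4_c10 ln16_10_4_c10_ok))) (M (nat_lit 337) (B (L (nat_lit 369) ln16_14_6_c10 ln16_14_6_c10_ok) (L (nat_lit 305) ln16_13_6_c10 ln16_13_6_c10_ok))))) (M (nat_lit 496) (B (M (nat_lit 495) (B (L (nat_lit 527) ln16_12_5_c10 ln16_12_5_c10_ok) (L (nat_lit 463) ln16_11_5_c10 ln16_11_5_c10_ok))) (M (nat_lit 497) (B (L (nat_lit 529) ln16_12_4 ln16_12_4_ok) (L (nat_lit 465) ln16_11_4 ln16_11_4_ok))))))))) (B (M (nat_lit 369) (B (L (nat_lit 399) ln13_12_2 ln13_12_2_ok) (M (nat_lit 337) (B (L (nat_lit 464) ln16_14_6_c10 ln16_14_6_c10_ok) (M (nat_lit 305) (B (L (nat_lit 336) ln16_13_6_c10 ln16_13_6_c10_ok) (L (nat_lit 401) ln17_9_5_c10 ln17_9_5_c10_ok)))))))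 (M (nat_lit 433) (B (L (nat_lit 399) ln13_12_0 ln13_12_0_ok) (M (nat_lit 465) (B (L (nat_lit 336) ln16_10_4_c10 ln16_10_4_c10_ok) (M (nat_lit 497) (B (L (nat_lit 464) ln16_11_4 ln16_11_4_ok) (L (nat_lit 529) ln17_16_7_c10 ln17_16_7_c10_ok))))))))))) (M (nat_lit 399) (B (M (nat_lit 368) (B (L (nat_lit 367) ln12_12_2 ln12_12_2_ok) (L (nat_lit 369) ln13_12_2 ln13_12_2_ok))) (L (nat_lit 433) ln13_12_0 ln13_12_0_ok))))))
noncomputable def c10_d378 : Cert := (B (M (nat_lit 496) (B (M (nat_lit 464) (B (M (nat_lit 528) (B (M (nat_lit 560) (B (M (nat_lit 592) (B (M (nat_lit 591) (B (L (nat_lit 623) ln16_15_5_c10 ln16_15_5_c10_ok) (L (nat_lit 559) ln16_14_5_c10 ln16_14_5_c10_ok))) (M (nat_lit 593) (B (L (nat_lit 625) ln16_15_4_c10 ln16_15_4_c10_ok) (L (nat_lit 561) ln16_14_4_c10 ln16_14_4_c10_ok))))) (B (M (nat_lit 561) (B (L (nat_lit 593) ln16_14_4_c10 ln16_14_4_c10_ok) (L (nat_lit 529) ln16_13_4_c10 ln16_13_4_c10_ok)))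 (B (M (nat_lit 592) (B (M (nat_lit 591) (B (L (nat_lit 623) ln16_15_5_c10 ln16_15_5_c10_ok) (L (nat_lit 559) ln16_14_5_c10 ln16_14_5_c10_ok))) (M (nat_lit 497) (B (L (nat_lit 465) ln16_18_6_c10 ln16_18_6_c10_ok) (M (nat_lit 529) (B (L (nat_lit 624) ln16_19_6_c10 ln16_19_6_c10_ok) (L (nat_lit 561) ln16_13_4_c10 ln16_13_4_c10_ok))))))) (M (nat_lit 592) (B (M (nat_lit 591) (B (L (nat_lit 623) ln16_15_5_c10 ln16_15_5_c10_ok) (L (nat_lit 559) ln16_14_5_c10 ln16_14_5_c10_ok))) (M (nat_lit 624) (B (M (nat_lit 625) (B (L (nat_lit 657) ln16_16_4_c10 ln16_16_4_c10_ok) (L (nat_lit 593) ln16_15_4_c10 ln16_15_4_c10_ok))) (M (nat_lit 497) (B (L (nat_lit 529) ln16_19_6_c10 ln16_19_6_c10_ok) (L (nat_lit 465) ln16_18_6_c10 ln16_18_6_c10_ok))))))))))) (M (nat_lit 526) (B (L (nat_lit 494) ln13_12_4 ln13_12_4_ok) (M (nat_lit 525) (B (L (nat_lit 558) ln13_13_4 ln13_13_4_ok) (M (nat_lit 556) (B (L (nat_lit 524) ln13_13_5 ln13_13_5_ok)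 (M (nat_lit 557) (B (L (nat_lit 588) ln13_14_5 ln13_14_5_ok) (L (nat_lit 527) ln16_16_1 ln16_16_1_ok))))))))))) (B (M (nat_lit 528) (B (M (nat_lit 431) (B (L (nat_lit 399) ln12_12_0 ln12_12_0_ok) (M (nat_lit 463) (B (L (nat_lit 560) ln16_17_7_c10 ln16_17_7_c10_ok) (M (nat_lit 462) (B (L (nat_lit 460) ln12_14_2 ln12_14_2_ok) (L (nat_lit 497) ln13_14_0 ln13_14_0_ok))))))) (M (nat_lit 526) (B (L (nat_lit 494) ln13_12_4 ln13_12_4_ok) (M (nat_lit 525) (B (L (nat_lit 558) ln13_13_4 ln13_13_4_ok) (M (nat_lit 556) (B (L (nat_lit 524) ln13_13_5 ln13_13_5_ok) (M (nat_lit 557) (B (L (nat_lit 588) ln13_14_5 ln13_14_5_ok) (L (nat_lit 527) ln16_16_1 ln16_16_1_ok))))))))))) (M (nat_lit 399) (B (M (nat_lit 367) (B (L (nat_lit 400) ln16_15_7 ln16_15_7_ok) (L (nat_lit 368) ln12_12_2 ln12_12_2_ok))) (L (nat_lit 431) ln12_12_0 ln12_12_0_ok)))))) (B (M (nat_lit 399) (B (L (nat_lit 431) ln12_12_0 ln12_12_0_ok) (M (nat_lit 368) (B (L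 (nat_lit 367) ln12_12_2 ln12_12_2_ok) (M (nat_lit 400) (B (L (nat_lit 369) ln13_12_2 ln13_12_2_ok) (M (nat_lit 464) (B (M (nat_lit 497) (B (L (nat_lit 529) ln16_12_4 ln16_12_4_ok) (M (nat_lit 463) (B (L (nat_lit 462) ln13_14_0 ln13_14_0_ok) (L (nat_lit 495) ln16_11_5_c10 ln16_11_5_c10_ok))))) (B (M (nat_lit 497) (B (L (nat_lit 529) ln16_12_4 ln16_12_4_ok) (M (nat_lit 463) (B (L (nat_lit 462) ln13_14_0 ln13_14_0_ok) (L (nat_lit 465) ln16_11_4 ln16_11_4_ok))))) (B (M (nat_lit 463) (B (L (nat_lit 495) ln16_11_5_c10 ln16_11_5_c10_ok) (M (nat_lit 497) (B (L (nat_lit 462) ln13_14_0 ln13_14_0_ok) (L (nat_lit 465) ln16_11_4 ln16_11_4_ok))))) (B (M (nat_lit 527) (B (L (nat_lit 495) ln16_12_5_c10 ln16_12_5_c10_ok) (M (nat_lit 528) (B (L (nat_lit 559) ln16_13_5_c10 ln16_13_5_c10_ok) (M (nat_lit 529) (B (L (nat_lit 561) ln16_13_4_c10 ln16_13_4_c10_ok) (L (nat_lit 497) ln16_12_4 ln16_12_4_ok))))))) (M (nat_lit 495) (B (L (nat_lit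 527) ln16_12_5_c10 ln16_12_5_c10_ok) (L (nat_lit 463) ln16_11_5_c10 ln16_11_5_c10_ok)))))))))))))) (B (M (nat_lit 494) (B (L (nat_lit 526) ln13_12_4 ln13_12_4_ok) (M (nat_lit 495) (B (L (nat_lit 460) ln16_15_3 ln16_15_3_ok) (M (nat_lit 464) (B (L (nat_lit 465) ln13_15_2 ln13_15_2_ok) (M (nat_lit 527) (B (L (nat_lit 400) ln16_12_5_c10 ln16_12_5_c10_ok) (M (nat_lit 559) (B (L (nat_lit 528) ln16_13_5_c10 ln16_13_5_c10_ok) (L (nat_lit 591) ln15_18_6_c10 ln15_18_6_c10_ok))))))))))) (B (M (nat_lit 494) (B (L (nat_lit 526) ln13_12_4 ln13_12_4_ok) (M (nat_lit 495) (B (L (nat_lit 460) ln16_15_3 ln16_15_3_ok) (M (nat_lit 464) (B (L (nat_lit 465) ln13_15_2 ln13_15_2_ok) (M (nat_lit 497) (B (L (nat_lit 462) ln17_15_3 ln17_15_3_ok) (M (nat_lit 529) (B (L (nat_lit 530) ln14_15_0 ln14_15_0_ok) (L (nat_lit 400) ln16_12_4 ln16_12_4_ok))))))))))) (M (nat_lit 494) (B (L (nat_lit 526) ln13_12_4 ln13_12_4_ok) (M (nat_lit 495) (B (L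 (nat_lit 460) ln16_15_3 ln16_15_3_ok) (M (nat_lit 497) (B (L (nat_lit 462) ln17_15_3 ln17_15_3_ok) (M (nat_lit 529) (B (L (nat_lit 528) ln13_15_0 ln13_15_0_ok) (L (nat_lit 530) ln14_15_0 ln14_15_0_ok)))))))))))))) (B (M (nat_lit 431) (B (L (nat_lit 399) ln12_12_0 ln12_12_0_ok) (M (nat_lit 525) (B (M (nat_lit 558) (B (M (nat_lit 590) (B (L (nat_lit 557) ln13_14_4 ln13_14_4_ok) (L (nat_lit 526) ln13_13_4 ln13_13_4_ok))) (B (M (nat_lit 524) (B (L (nat_lit 526) ln13_13_4 ln13_13_4_ok) (L (nat_lit 556) ln13_13_5 ln13_13_5_ok))) (M (nat_lit 557) (B (L (nat_lit 590) ln13_14_4 ln13_14_4_ok) (M (nat_lit 556) (B (L (nat_lit 588) ln13_14_5 ln13_14_5_ok) (L (nat_lit 524) ln13_13_5 ln13_13_5_ok)))))))) (B (M (nat_lit 557) (B (M (nat_lit 589) (B (M (nat_lit 588) (B (L (nat_lit 620) ln13_15_5_c10 ln13_15_5_c10_ok) (L (nat_lit 556) ln13_14_5 ln13_14_5_ok))) (M (nat_lit 590) (B (L (nat_lit 622) ln13_15_4_c10 ln13_15_4_c10_ok) (L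 (nat_lit 558) ln13_14_4 ln13_14_4_ok))))) (B (M (nat_lit 558) (B (L (nat_lit 590) ln13_14_4 ln13_14_4_ok) (L (nat_lit 526) ln13_13_4 ln13_13_4_ok))) (M (nat_lit 589) (B (M (nat_lit 588) (B (L (nat_lit 620) ln13_15_5_c10 ln13_15_5_c10_ok) (L (nat_lit 556) ln13_14_5 ln13_14_5_ok))) (M (nat_lit 494) (B (L (nat_lit 462) ln13_18_6 ln13_18_6_ok) (L (nat_lit 526) ln13_12_4 ln13_12_4_ok)))))))) (B (M (nat_lit 526) (B (L (nat_lit 558) ln13_13_4 ln13_13_4_ok) (L (nat_lit 494) ln13_12_4 ln13_12_4_ok))) (B (M (nat_lit 556) (B (L (nat_lit 524) ln13_13_5 ln13_13_5_ok) (M (nat_lit 557) (B (L (nat_lit 588) ln13_14_5 ln13_14_5_ok) (M (nat_lit 590) (B (L (nat_lit 558) ln13_14_4 ln13_14_4_ok) (M (nat_lit 589) (B (L (nat_lit 622) ln13_15_4_c10 ln13_15_4_c10_ok) (M (nat_lit 462) (B (L (nat_lit 494) ln13_18_6 ln13_18_6_ok) (M (nat_lit 463) (B (L (nat_lit 460) ln12_14_2 ln12_14_2_ok) (M (nat_lit 433) (B (L (nat_lit 434) ln18_13_1_c10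 ln18_13_1_c10_ok) (L (nat_lit 464) ln13_14_2 ln13_14_2_ok))))))))))))))) (M (nat_lit 556) (B (L (nat_lit 524) ln13_13_5 ln13_13_5_ok) (M (nat_lit 557) (B (L (nat_lit 588) ln13_14_5 ln13_14_5_ok) (M (nat_lit 494) (B (L (nat_lit 526) ln13_12_4 ln13_12_4_ok) (M (nat_lit 462) (B (L (nat_lit 589) ln13_18_6 ln13_18_6_ok) (M (nat_lit 463) (B (L (nat_lit 460) ln12_14_2 ln12_14_2_ok) (M (nat_lit 433) (B (L (nat_lit 434) ln18_13_1_c10 ln18_13_1_c10_ok) (L (nat_lit 464) ln13_14_2 ln13_14_2_ok)))))))))))))))))))) (M (nat_lit 399) (B (M (nat_lit 400) (B (M (nat_lit 368) (B (L (nat_lit 367) ln12_12_2 ln12_12_2_ok) (L (nat_lit 369) ln13_12_2 ln13_12_2_ok))) (L (nat_lit 433) ln13_12_0 ln13_12_0_ok))) (L (nat_lit 431) ln12_12_0 ln12_12_0_ok)))))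
noncomputable def c10_d379 : Cert := (B (M (nat_lit 496) (B (M (nat_lit 464) (B (K (nat_lit 230160277171285840712645919009284512287965328507846604554513794801903537837523796473883739811270398475008332989502064629320701868145729518905124192256) (nat_lit 747510271034881081159578754223156341603024783773260154653346925600456155837699782395101917985228486765554568735286218956043604613216493134078059124364194959079927735704486502171642617488317278584832) (nat_lit 747510271034881081159578754223156341603024783773260154653346925600456155837699782395101917985228486765554568735286218956043604613216493134078059124364194959079927735704486502171642617488317278584832) c10_s461) (B (K (nat_lit 230160277171285840712645919009284512287965328507846604554513794801903537837523796473883739811270398475008332989502064629320701868145729518905124192256) (nat_lit 12741064460168921870117866598154017366271508769902606660506860936427449397533901770263224204594920807727489644331558356337681236305034888961237744349760274300928)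 (nat_lit 12741064460168921870117866598154017366271508769902606660506860936427449397533901770263224204594920807727489644331558356337681236305034888961237744349760274300928) c10_s463) (B (K (nat_lit 230160277171285840712645919009284512287965328507846604554513794801903537837523796473883739811270398475008332989502064629320701868145729518905124192256) (nat_lit 34808659553971306761224546798795887259376913827310647621998574829702026901710750029120897388126996771732576951637623430276888948921741776557139153859272406591166613639723189818660287938560) (nat_lit 34808659553971306761224546798795887259376913827310647621998574829702026901710750029120897388126996771732576951637623430276888948921741776557139153859272406591166613639723189818660287938560) c10_s464) (B (K (nat_lit 230160277171285840712645919009284512287965328507846604554513794801903537837523796473883739811270398475008332989502064629320701868145729518905124192256) (nat_lit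 747510271034881081159578754115598412485066526022686799008888826744922441531563180260674229698086029919887217039421966099462900351467416230338760653087788377455322336232807792052901777224219137933312) (nat_lit 747510271034881081159578754115598412485066526022686799008888826744922441531563180260674229698086029919887217039421966099462900351467416230338760653087788377455322336232807792052901777224219137933312) c10_s465) (B (K (nat_lit 230160277171285840712645919009284512287965328507846604554513794801903537837523796473883739811270398475008332989502064629320701868145729518905124192256) (nat_lit 139234638045690252500387104911345597987784263670284650568321734033630410011894268964374415282780321812414629535565506217197310815220432320347058931925418932693402596788725539036809402515456) (nat_lit 139234638045690252500387104911345597987784263670284650568321734033630410011894268964374415282780321812414629535565506217197310815220432320347058931925418932693402596788725539036809402515456)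 c10_s466) (B (M (nat_lit 527) (B (M (nat_lit 559) (B (L (nat_lit 528) ln16_13_5_c10 ln16_13_5_c10_ok) (M (nat_lit 495) (B (L (nat_lit 463) ln15_17_6 ln15_17_6_ok) (L (nat_lit 400) ln16_12_5_c10 ln16_12_5_c10_ok))))) (B (M (nat_lit 497) (B (M (nat_lit 400) (B (L (nat_lit 495) ln16_12_5_c10 ln16_12_5_c10_ok) (L (nat_lit 529) ln16_12_4 ln16_12_4_ok))) (B (M (nat_lit 529) (B (L (nat_lit 400) ln16_12_4 ln16_12_4_ok) (M (nat_lit 561) (B (L (nat_lit 528) ln16_13_4_c10 ln16_13_4_c10_ok) (L (nat_lit 593) ln17_18_7_c10 ln17_18_7_c10_ok))))) (B (M (nat_lit 498) (B (M (nat_lit 499) (B (L (nat_lit 528) ln19_15_1_c10 ln19_15_1_c10_ok) (L (nat_lit 463) ln19_15_3_c10 ln19_15_3_c10_ok))) (B (M (nat_lit 526) (B (L (nat_lit 495) ln18_15_1_c10 ln18_15_1_c10_ok) (M (nat_lit 528) (B (L (nat_lit 525) ln13_16_2 ln13_16_2_ok) (L (nat_lit 499) ln19_15_1_c10 ln19_15_1_c10_ok))))) (B (M (nat_lit 495) (B (L (nat_lit 526) ln18_15_1_c10 ln18_15_1_c10_ok)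 (M (nat_lit 463) (B (L (nat_lit 462) ln13_14_0 ln13_14_0_ok) (L (nat_lit 499) ln19_15_3_c10 ln19_15_3_c10_ok))))) (M (nat_lit 526) (B (L (nat_lit 495) ln18_15_1_c10 ln18_15_1_c10_ok) (M (nat_lit 528) (B (L (nat_lit 525) ln13_16_2 ln13_16_2_ok) (L (nat_lit 529) ln14_16_2 ln14_16_2_ok))))))))) (M (nat_lit 498) (B (M (nat_lit 495) (B (L (nat_lit 526) ln18_15_1_c10 ln18_15_1_c10_ok) (L (nat_lit 400) ln16_12_5_c10 ln16_12_5_c10_ok))) (M (nat_lit 499) (B (L (nat_lit 528) ln19_15_1_c10 ln19_15_1_c10_ok) (L (nat_lit 463) ln19_15_3_c10 ln19_15_3_c10_ok))))))))) (B (M (nat_lit 528) (B (L (nat_lit 559) ln16_13_5_c10 ln16_13_5_c10_ok) (M (nat_lit 529) (B (L (nat_lit 561) ln16_13_4_c10 ln16_13_4_c10_ok) (M (nat_lit 497) (B (L (nat_lit 400) ln16_12_4 ln16_12_4_ok) (M (nat_lit 498) (B (L (nat_lit 526) ln14_16_2 ln14_16_2_ok) (L (nat_lit 499) ln19_15_1_c10 ln19_15_1_c10_ok))))))))) (B (M (nat_lit 495) (B (L (nat_lit 400) ln16_12_5_c10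 ln16_12_5_c10_ok) (M (nat_lit 559) (B (L (nat_lit 591) ln15_18_6_c10 ln15_18_6_c10_ok) (L (nat_lit 463) ln15_17_6 ln15_17_6_ok))))) (M (nat_lit 559) (B (L (nat_lit 528) ln16_13_5_c10 ln16_13_5_c10_ok) (M (nat_lit 495) (B (L (nat_lit 591) ln15_18_6_c10 ln15_18_6_c10_ok) (L (nat_lit 463) ln15_17_6 ln15_17_6_ok)))))))))) (K (nat_lit 230160277171285840712645919009284512287965328507846604554513794801903537837523796473883739811270398475008332989502064629320701868145729518905124192256) (nat_lit 40522612990562315350423557128852123627209038851984940140336583756727871514849261524141882998438437939043851820630413285049647465744208652281156193205533887551016315478869528281088) (nat_lit 40522612990562315350423557128852123627209038851984940140336583756727871514849261524141882998438437939043851820630413285049647465744208652281156193205533887551016315478869528281088) c10_s467)))))))) c10_d375)) (B (M (nat_lit 400) (B (M (nat_lit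 464) c10_d376) (B (M (nat_lit 496) (B (M (nat_lit 464) (B (M (nat_lit 528) (B (M (nat_lit 401) (B (L (nat_lit 369) ln16_15_6_c10 ln16_15_6_c10_ok) (L (nat_lit 433) ln16_16_6_c10 ln16_16_6_c10_ok))) (M (nat_lit 529) (B (L (nat_lit 497) ln16_12_4 ln16_12_4_ok) (L (nat_lit 561) ln16_13_4_c10 ln16_13_4_c10_ok))))) (B (M (nat_lit 528) (B (M (nat_lit 529) (B (L (nat_lit 497) ln16_12_4 ln16_12_4_ok) (L (nat_lit 561) ln16_13_4_c10 ln16_13_4_c10_ok))) (M (nat_lit 527) (B (L (nat_lit 495) ln16_12_5_c10 ln16_12_5_c10_ok) (L (nat_lit 559) ln16_13_5_c10 ln16_13_5_c10_ok))))) (B (M (nat_lit 528) (B (M (nat_lit 401) (B (L (nat_lit 369) ln16_15_6_c10 ln16_15_6_c10_ok) (L (nat_lit 433) ln16_16_6_c10 ln16_16_6_c10_ok))) (M (nat_lit 527) (B (L (nat_lit 495) ln16_12_5_c10 ln16_12_5_c10_ok) (L (nat_lit 559) ln16_13_5_c10 ln16_13_5_c10_ok))))) (M (nat_lit 497) (B (L (nat_lit 529) ln16_12_4 ln16_12_4_ok) (M (nat_lit 495) (B (L (nat_lit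 527) ln16_12_5_c10 ln16_12_5_c10_ok) (M (nat_lit 498) (B (M (nat_lit 463) (B (L (nat_lit 499) ln19_15_3_c10 ln19_15_3_c10_ok) (L (nat_lit 462) ln13_14_0 ln13_14_0_ok))) (B (M (nat_lit 499) (B (M (nat_lit 467) (B (L (nat_lit 468) ln16_15_2_c10 ln16_15_2_c10_ok) (L (nat_lit 466) ln15_15_2_c10 ln15_15_2_c10_ok))) (M (nat_lit 531) (B (L (nat_lit 532) ln16_15_0_c10 ln16_15_0_c10_ok) (L (nat_lit 530) ln15_15_0_c10 ln15_15_0_c10_ok))))) (M (nat_lit 494) (B (M (nat_lit 466) (B (L (nat_lit 467) ln15_15_2_c10 ln15_15_2_c10_ok) (L (nat_lit 465) ln13_15_2 ln13_15_2_ok))) (L (nat_lit 462) ln17_15_3 ln17_15_3_ok)))))))))))))) (B (M (nat_lit 464) (B (M (nat_lit 527) (B (M (nat_lit 559) (B (L (nat_lit 528) ln16_13_5_c10 ln16_13_5_c10_ok) (L (nat_lit 495) ln16_12_5_c10 ln16_12_5_c10_ok))) (B (M (nat_lit 497) (B (L (nat_lit 495) ln16_12_5_c10 ln16_12_5_c10_ok) (L (nat_lit 529) ln16_12_4 ln16_12_4_ok))) (M (nat_lit 528) (B (L (nat_lit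 559) ln16_13_5_c10 ln16_13_5_c10_ok) (M (nat_lit 529) (B (L (nat_lit 561) ln16_13_4_c10 ln16_13_4_c10_ok) (L (nat_lit 497) ln16_12_4 ln16_12_4_ok)))))))) (M (nat_lit 399) (B (L (nat_lit 433) ln13_12_0 ln13_12_0_ok) (L (nat_lit 367) ln16_15_7 ln16_15_7_ok))))) (B (M (nat_lit 528) (B (M (nat_lit 526) (B (L (nat_lit 494) ln13_12_4 ln13_12_4_ok) (M (nat_lit 525) (B (L (nat_lit 558) ln13_13_4 ln13_13_4_ok) (M (nat_lit 556) (B (L (nat_lit 524) ln13_13_5 ln13_13_5_ok) (M (nat_lit 557) (B (L (nat_lit 588) ln13_14_5 ln13_14_5_ok) (L (nat_lit 527) ln16_16_1 ln16_16_1_ok))))))))) (M (nat_lit 464) (B (M (nat_lit 529) (B (L (nat_lit 497) ln16_12_4 ln16_12_4_ok) (L (nat_lit 561) ln16_13_4_c10 ln16_13_4_c10_ok))) (M (nat_lit 399) (B (L (nat_lit 433) ln13_12_0 ln13_12_0_ok) (L (nat_lit 367) ln16_15_7 ln16_15_7_ok))))))) (B (M (nat_lit 494) (B (L (nat_lit 526) ln13_12_4 ln13_12_4_ok) (M (nat_lit 495) (B (L (nat_lit 460) ln16_15_3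 ln16_15_3_ok) (M (nat_lit 464) (B (L (nat_lit 465) ln13_15_2 ln13_15_2_ok) (L (nat_lit 527) ln16_12_5_c10 ln16_12_5_c10_ok))))))) (B (M (nat_lit 494) (B (L (nat_lit 526) ln13_12_4 ln13_12_4_ok) (M (nat_lit 495) (B (L (nat_lit 460) ln16_15_3 ln16_15_3_ok) (M (nat_lit 464) (B (L (nat_lit 465) ln13_15_2 ln13_15_2_ok) (M (nat_lit 497) (B (L (nat_lit 462) ln17_15_3 ln17_15_3_ok) (L (nat_lit 529) ln16_12_4 ln16_12_4_ok))))))))) (M (nat_lit 494) (B (L (nat_lit 526) ln13_12_4 ln13_12_4_ok) (M (nat_lit 495) (B (L (nat_lit 460) ln16_15_3 ln16_15_3_ok) (M (nat_lit 497) (B (L (nat_lit 462) ln17_15_3 ln17_15_3_ok) (M (nat_lit 529) (B (L (nat_lit 528) ln13_15_0 ln13_15_0_ok) (L (nat_lit 530) ln14_15_0 ln14_15_0_ok))))))))))))))) c10_d377))) c10_d378))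
noncomputable def c10_d380 : Cert := (B (M (nat_lit 458) (B (K (nat_lit 28770034646410730089080739877149081567450810757958482127346627333379782728507911685240954261334516477179363643506919190467640497114772872883957923840) (nat_lit 11679847984920016893118418033111507847791659864502953632333297323803247079244382714042140849543803784242068860243567864070814402306039243195783915342230345443040679145609668277646093268708562567168) (nat_lit 11679847984920016893118418033111507847791659864502953632333297323803247079244382714042140849543803784242068860243567864070814402306039243195783915342230345443040679145609668277646093268708562567168) c10_s469) (B (K (nat_lit 28770034646410730089080739877149081567450810757958482127346627333379782728507911685240954261334516477179363643506919190467640497114772872883957923840) (nat_lit 39472586554941433610301681002282281651775231991457078702859677351036139638920585796995569161513541690757640709441532586777812561791107631404060828980635238400)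 (nat_lit 39472586554941433610301681002282281651775231991457078702859677351036139638920585796995569161513541690757640709441532586777812561791107631404060828980635238400) c10_s471) (B (K (nat_lit 28770034646410730089080739877149081567450810757958482127346627333379782728507911685240954261334516477179363643506919190467640497114772872883957923840) (nat_lit 2175541219463910195318548514239774968566721212325171148224622593834000391937395580837869137040346621325335955979366980907273406210314710499954120230691012851068157003336847265649752276992) (nat_lit 2175541219463910195318548514239774968566721212325171148224622593834000391937395580837869137040346621325335955979366980907273406210314710499954120230691012851068157003336847265649752276992) c10_s472) (B (K (nat_lit 28770034646410730089080739877149081567450810757958482127346627333379782728507911685240954261334516477179363643506919190467640497114772872883957923840) (nat_lit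 11679847984920016893118418032967772950747409593661319799023091790039065860010987608920351725659784609841139166068520096873673537120543944517449132050429809531617445516372103496565122741130105978880) (nat_lit 11679847984920016893118418032967772950747409593661319799023091790039065860010987608920351725659784609841139166068520096873673537120543944517449132050429809531617445516372103496565122741130105978880) c10_s473) (B (K (nat_lit 28770034646410730089080739877149081567450810757958482127346627333379782728507911685240954261334516477179363643506919190467640497114772872883957923840) (nat_lit 543885305530801668144133543731185738387805897108986663525981014720545508407837872673393114294973299909942766956972933417677025103894385793362474207227741051301238508484029876877182107648) (nat_lit 543885305530801668144133543731185738387805897108986663525981014720545508407837872673393114294973299909942766956972933417677025103894385793362474207227741051301238508484029876877182107648)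 c10_s474) (B (M (nat_lit 521) (B (M (nat_lit 553) (B (L (nat_lit 522) ln10_13_5 ln10_13_5_ok) (M (nat_lit 489) (B (L (nat_lit 457) ln9_17_6 ln9_17_6_ok) (L (nat_lit 394) ln10_12_5 ln10_12_5_ok))))) (B (M (nat_lit 491) (B (M (nat_lit 394) (B (L (nat_lit 489) ln10_12_5 ln10_12_5_ok) (L (nat_lit 523) ln10_12_4 ln10_12_4_ok))) (B (M (nat_lit 523) (B (L (nat_lit 394) ln10_12_4 ln10_12_4_ok) (M (nat_lit 555) (B (L (nat_lit 522) ln10_13_4 ln10_13_4_ok) (L (nat_lit 587) ln11_18_7 ln11_18_7_ok))))) (M (nat_lit 492) (B (L (nat_lit 522) ln13_15_1 ln13_15_1_ok) (M (nat_lit 489) (B (L (nat_lit 520) ln12_15_1 ln12_15_1_ok) (L (nat_lit 457) ln13_15_3 ln13_15_3_ok)))))))) (B (M (nat_lit 522) (B (L (nat_lit 553) ln10_13_5 ln10_13_5_ok) (M (nat_lit 523) (B (L (nat_lit 555) ln10_13_4 ln10_13_4_ok) (M (nat_lit 491) (B (L (nat_lit 394) ln10_12_4 ln10_12_4_ok) (L (nat_lit 492) ln13_15_1 ln13_15_1_ok))))))) (B (M (nat_lit 489) (B (L (nat_lit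 394) ln10_12_5 ln10_12_5_ok) (M (nat_lit 553) (B (L (nat_lit 585) ln9_18_6 ln9_18_6_ok) (L (nat_lit 457) ln9_17_6 ln9_17_6_ok))))) (M (nat_lit 553) (B (L (nat_lit 522) ln10_13_5 ln10_13_5_ok) (M (nat_lit 489) (B (L (nat_lit 585) ln9_18_6 ln9_18_6_ok) (L (nat_lit 457) ln9_17_6 ln9_17_6_ok)))))))))) (K (nat_lit 28770034646410730089080739877149081567450810757958482127346627333379782728507911685240954261334516477179363643506919190467640497114772872883957923840) (nat_lit 633165827977536177350368080133519425900739443714084566380028708509709941202289004794823212769821831555185641276245198948866245954025214618767170663806918202593114797355053350912) (nat_lit 633165827977536177350368080133519425900739443714084566380028708509709941202289004794823212769821831555185641276245198948866245954025214618767170663806918202593114797355053350912) c10_s475)))))))) (B (M (nat_lit 524) (B (L (nat_lit 492) ln13_12_5 ln13_12_5_ok) (M (nat_lit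 525) (B (L (nat_lit 556) ln13_13_5 ln13_13_5_ok) (M (nat_lit 558) (B (L (nat_lit 526) ln13_13_4 ln13_13_4_ok) (M (nat_lit 557) (B (L (nat_lit 590) ln13_14_4 ln13_14_4_ok) (M (nat_lit 522) (B (L (nat_lit 523) ln10_16_0 ln10_16_0_ok) (M (nat_lit 559) (B (L (nat_lit 560) ln16_17_3 ln16_17_3_ok) (M (nat_lit 458) (B (M (nat_lit 554) (B (M (nat_lit 586) (B (M (nat_lit 457) (B (L (nat_lit 425) ln10_17_7 ln10_17_7_ok) (L (nat_lit 489) ln10_18_7_c10 ln10_18_7_c10_ok))) (M (nat_lit 587) (B (L (nat_lit 555) ln10_14_4 ln10_14_4_ok) (L (nat_lit 619) ln10_15_4 ln10_15_4_ok))))) (B (M (nat_lit 585) (B (L (nat_lit 553) ln10_14_5 ln10_14_5_ok) (M (nat_lit 586) (B (L (nat_lit 617) ln10_15_5 ln10_15_5_ok) (M (nat_lit 587) (B (L (nat_lit 555) ln10_14_4 ln10_14_4_ok) (L (nat_lit 619) ln10_15_4 ln10_15_4_ok))))))) (B (M (nat_lit 586) (B (M (nat_lit 457) (B (L (nat_lit 425) ln10_17_7 ln10_17_7_ok) (L (nat_lit 489) ln10_18_7_c10 ln10_18_7_c10_ok)))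 (M (nat_lit 585) (B (L (nat_lit 553) ln10_14_5 ln10_14_5_ok) (L (nat_lit 617) ln10_15_5 ln10_15_5_ok))))) (M (nat_lit 425) (B (L (nat_lit 393) ln10_16_7 ln10_16_7_ok) (L (nat_lit 457) ln10_17_7 ln10_17_7_ok))))))) (B (M (nat_lit 554) (B (M (nat_lit 586) (B (M (nat_lit 585) (B (L (nat_lit 617) ln10_15_5 ln10_15_5_ok) (L (nat_lit 553) ln10_14_5 ln10_14_5_ok))) (M (nat_lit 457) (B (L (nat_lit 489) ln10_18_7_c10 ln10_18_7_c10_ok) (L (nat_lit 425) ln10_17_7 ln10_17_7_ok))))) (B (M (nat_lit 553) (B (L (nat_lit 585) ln10_14_5 ln10_14_5_ok) (L (nat_lit 521) ln10_13_5 ln10_13_5_ok))) (M (nat_lit 425) (B (L (nat_lit 457) ln10_17_7 ln10_17_7_ok) (L (nat_lit 393) ln10_16_7 ln10_16_7_ok)))))) (B (M (nat_lit 394) (B (M (nat_lit 521) (B (L (nat_lit 553) ln10_13_5 ln10_13_5_ok) (L (nat_lit 489) ln10_12_5 ln10_12_5_ok))) (M (nat_lit 393) (B (L (nat_lit 425) ln10_16_7 ln10_16_7_ok) (L (nat_lit 361) ln10_15_7 ln10_15_7_ok))))) (B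 (M (nat_lit 554) (B (M (nat_lit 425) (B (L (nat_lit 393) ln10_16_7 ln10_16_7_ok) (L (nat_lit 457) ln10_17_7 ln10_17_7_ok))) (M (nat_lit 553) (B (L (nat_lit 521) ln10_13_5 ln10_13_5_ok) (L (nat_lit 585) ln10_14_5 ln10_14_5_ok))))) (B (M (nat_lit 554) (B (M (nat_lit 553) (B (L (nat_lit 585) ln10_14_5 ln10_14_5_ok) (L (nat_lit 521) ln10_13_5 ln10_13_5_ok))) (M (nat_lit 586) (B (M (nat_lit 587) (B (L (nat_lit 619) ln10_15_4 ln10_15_4_ok) (L (nat_lit 555) ln10_14_4 ln10_14_4_ok))) (M (nat_lit 457) (B (L (nat_lit 489) ln10_18_7_c10 ln10_18_7_c10_ok) (L (nat_lit 425) ln10_17_7 ln10_17_7_ok))))))) (B (M (nat_lit 425) (B (L (nat_lit 393) ln10_16_7 ln10_16_7_ok) (M (nat_lit 459) (B (M (nat_lit 554) (B (L (nat_lit 427) ln10_17_6 ln10_17_6_ok) (L (nat_lit 457) ln10_17_7 ln10_17_7_ok))) (M (nat_lit 424) (B (L (nat_lit 423) ln7_13_0 ln7_13_0_ok) (L (nat_lit 460) ln13_14_3 ln13_14_3_ok))))))) (M (nat_lit 554) (B (M (nat_lit 553)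 (B (L (nat_lit 585) ln10_14_5 ln10_14_5_ok) (L (nat_lit 521) ln10_13_5 ln10_13_5_ok))) (B (M (nat_lit 521) (B (L (nat_lit 553) ln10_13_5 ln10_13_5_ok) (M (nat_lit 489) (B (L (nat_lit 394) ln10_12_5 ln10_12_5_ok) (M (nat_lit 586) (B (L (nat_lit 618) ln10_19_7_c10 ln10_19_7_c10_ok) (L (nat_lit 457) ln10_18_7_c10 ln10_18_7_c10_ok))))))) (B (M (nat_lit 586) (B (M (nat_lit 587) (B (L (nat_lit 619) ln10_15_4 ln10_15_4_ok) (L (nat_lit 555) ln10_14_4 ln10_14_4_ok))) (M (nat_lit 489) (B (L (nat_lit 457) ln10_18_7_c10 ln10_18_7_c10_ok) (M (nat_lit 521) (B (L (nat_lit 618) ln10_19_7_c10 ln10_19_7_c10_ok) (L (nat_lit 394) ln10_12_5 ln10_12_5_ok))))))) (M (nat_lit 586) (B (M (nat_lit 585) (B (L (nat_lit 617) ln10_15_5 ln10_15_5_ok) (L (nat_lit 553) ln10_14_5 ln10_14_5_ok))) (M (nat_lit 587) (B (L (nat_lit 619) ln10_15_4 ln10_15_4_ok) (L (nat_lit 555) ln10_14_4 ln10_14_4_ok)))))))))))))))))))))))))))) (B (M (nat_lit 492) (B (L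 (nat_lit 524) ln13_12_5 ln13_12_5_ok) (M (nat_lit 491) (B (L (nat_lit 462) ln10_15_2 ln10_15_2_ok) (M (nat_lit 458) (B (L (nat_lit 457) ln13_15_3 ln13_15_3_ok) (M (nat_lit 489) (B (L (nat_lit 460) ln9_15_2 ln9_15_2_ok) (M (nat_lit 521) (B (L (nat_lit 520) ln12_15_1 ln12_15_1_ok) (L (nat_lit 394) ln10_12_5 ln10_12_5_ok))))))))))) (B (M (nat_lit 492) (B (L (nat_lit 524) ln13_12_5 ln13_12_5_ok) (M (nat_lit 491) (B (L (nat_lit 462) ln10_15_2 ln10_15_2_ok) (M (nat_lit 458) (B (L (nat_lit 457) ln13_15_3 ln13_15_3_ok) (M (nat_lit 523) (B (L (nat_lit 394) ln10_12_4 ln10_12_4_ok) (M (nat_lit 555) (B (L (nat_lit 522) ln10_13_4 ln10_13_4_ok) (L (nat_lit 587) ln11_18_7 ln11_18_7_ok))))))))))) (M (nat_lit 492) (B (L (nat_lit 524) ln13_12_5 ln13_12_5_ok) (M (nat_lit 491) (B (L (nat_lit 462) ln10_15_2 ln10_15_2_ok) (M (nat_lit 489) (B (L (nat_lit 460) ln9_15_2 ln9_15_2_ok) (M (nat_lit 521) (B (L (nat_lit 522) ln13_15_1 ln13_15_1_ok)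 (L (nat_lit 520) ln12_15_1 ln12_15_1_ok)))))))))))))
noncomputable def c10_d381 : Cert := (B (M (nat_lit 458) (B (M (nat_lit 490) (B (M (nat_lit 393) (B (L (nat_lit 361) ln10_15_7 ln10_15_7_ok) (M (nat_lit 521) (B (L (nat_lit 489) ln10_12_5 ln10_12_5_ok) (M (nat_lit 522) (B (L (nat_lit 553) ln10_13_5 ln10_13_5_ok) (L (nat_lit 425) ln10_16_7 ln10_16_7_ok))))))) (B (M (nat_lit 522) (B (M (nat_lit 523) (B (L (nat_lit 555) ln10_13_4 ln10_13_4_ok) (L (nat_lit 491) ln10_12_4 ln10_12_4_ok))) (M (nat_lit 393) (B (L (nat_lit 425) ln10_16_7 ln10_16_7_ok) (L (nat_lit 361) ln10_15_7 ln10_15_7_ok))))) (M (nat_lit 489) (B (L (nat_lit 521) ln10_12_5 ln10_12_5_ok) (M (nat_lit 491) (B (L (nat_lit 523) ln10_12_4 ln10_12_4_ok) (M (nat_lit 488) (B (M (nat_lit 459) (B (L (nat_lit 487) ln7_15_2 ln7_15_2_ok) (L (nat_lit 460) ln13_14_1 ln13_14_1_ok))) (B (M (nat_lit 492) (B (M (nat_lit 456) (B (L (nat_lit 455) ln11_15_3 ln11_15_3_ok) (L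 (nat_lit 457) ln12_15_3 ln12_15_3_ok))) (L (nat_lit 460) ln9_15_2 ln9_15_2_ok))) (M (nat_lit 487) (B (M (nat_lit 519) (B (L (nat_lit 518) ln10_15_1 ln10_15_1_ok) (L (nat_lit 520) ln11_15_1 ln11_15_1_ok))) (M (nat_lit 455) (B (L (nat_lit 454) ln10_15_3 ln10_15_3_ok) (L (nat_lit 456) ln11_15_3 ln11_15_3_ok))))))))))))))) (B (M (nat_lit 459) (B (M (nat_lit 362) (B (L (nat_lit 491) ln10_11_4 ln10_11_4_ok) (M (nat_lit 329) (B (L (nat_lit 361) ln10_14_7 ln10_14_7_ok) (M (nat_lit 331) (B (L (nat_lit 363) ln10_14_6 ln10_14_6_ok) (M (nat_lit 330) (B (L (nat_lit 297) ln10_13_7_c10 ln10_13_7_c10_ok) (L (nat_lit 299) ln10_13_6 ln10_13_6_ok))))))))) (M (nat_lit 460) (B (M (nat_lit 492) (B (L (nat_lit 457) ln9_14_0 ln9_14_0_ok) (L (nat_lit 524) ln13_12_5 ln13_12_5_ok))) (L (nat_lit 425) ln13_14_3 ln13_14_3_ok))))) (B (M (nat_lit 362) (B (M (nat_lit 489) (B (L (nat_lit 457) ln10_11_5 ln10_11_5_ok) (M (nat_lit 490) (B (L (nat_lit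 521) ln10_12_5 ln10_12_5_ok) (M (nat_lit 491) (B (L (nat_lit 523) ln10_12_4 ln10_12_4_ok) (L (nat_lit 459) ln10_11_4 ln10_11_4_ok))))))) (M (nat_lit 329) (B (L (nat_lit 361) ln10_14_7 ln10_14_7_ok) (M (nat_lit 330) (B (L (nat_lit 297) ln10_13_7_c10 ln10_13_7_c10_ok) (M (nat_lit 331) (B (L (nat_lit 363) ln10_14_6 ln10_14_6_ok) (L (nat_lit 299) ln10_13_6 ln10_13_6_ok))))))))) (B (K (nat_lit 25573364130887154044145984313881226924709354206582925405929397667259803720969428307625739864243448317805714009704687017267703923635367655792390963200) (nat_lit 147420407253915447384576288832815006264352740012707714077910480312393903954048928766790283321762909110430473383300386015765366496461896723527240422779616091108626399232) (nat_lit 147420407253915447384576288832815006264352740012707714077910480312393903954048928766790283321762909110430473383300386015765366496461896723527240422779616091108626399232) c10_s476) (B (M (nat_lit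 490) (B (M (nat_lit 523) (B (L (nat_lit 491) ln10_12_4 ln10_12_4_ok) (M (nat_lit 522) (B (L (nat_lit 555) ln10_13_4 ln10_13_4_ok) (M (nat_lit 521) (B (L (nat_lit 489) ln10_12_5 ln10_12_5_ok) (L (nat_lit 553) ln10_13_5 ln10_13_5_ok))))))) (B (M (nat_lit 522) (B (M (nat_lit 393) (B (L (nat_lit 361) ln10_15_7 ln10_15_7_ok) (L (nat_lit 425) ln10_16_7 ln10_16_7_ok))) (M (nat_lit 521) (B (L (nat_lit 489) ln10_12_5 ln10_12_5_ok) (L (nat_lit 553) ln10_13_5 ln10_13_5_ok))))) (B (M (nat_lit 522) (B (M (nat_lit 393) (B (L (nat_lit 361) ln10_15_7 ln10_15_7_ok) (L (nat_lit 425) ln10_16_7 ln10_16_7_ok))) (M (nat_lit 523) (B (L (nat_lit 491) ln10_12_4 ln10_12_4_ok) (L (nat_lit 555) ln10_13_4 ln10_13_4_ok))))) (M (nat_lit 362) (B (M (nat_lit 361) (B (L (nat_lit 329) ln10_14_7 ln10_14_7_ok) (L (nat_lit 393) ln10_15_7 ln10_15_7_ok))) (M (nat_lit 491) (B (L (nat_lit 459) ln10_11_4 ln10_11_4_ok) (L (nat_lit 523) ln10_12_4 ln10_12_4_ok)))))))))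 (M (nat_lit 362) (B (M (nat_lit 330) (B (M (nat_lit 457) (B (L (nat_lit 489) ln10_11_5 ln10_11_5_ok) (L (nat_lit 425) ln10_10_5 ln10_10_5_ok))) (M (nat_lit 331) (B (L (nat_lit 363) ln10_14_6 ln10_14_6_ok) (L (nat_lit 299) ln10_13_6 ln10_13_6_ok))))) (B (M (nat_lit 329) (B (L (nat_lit 361) ln10_14_7 ln10_14_7_ok) (M (nat_lit 330) (B (L (nat_lit 297) ln10_13_7_c10 ln10_13_7_c10_ok) (M (nat_lit 331) (B (L (nat_lit 363) ln10_14_6 ln10_14_6_ok) (L (nat_lit 299) ln10_13_6 ln10_13_6_ok))))))) (B (M (nat_lit 330) (B (M (nat_lit 457) (B (L (nat_lit 489) ln10_11_5 ln10_11_5_ok) (L (nat_lit 425) ln10_10_5 ln10_10_5_ok))) (M (nat_lit 329) (B (L (nat_lit 361) ln10_14_7 ln10_14_7_ok) (L (nat_lit 297) ln10_13_7_c10 ln10_13_7_c10_ok))))) (M (nat_lit 490) (B (M (nat_lit 489) (B (L (nat_lit 521) ln10_12_5 ln10_12_5_ok) (L (nat_lit 457) ln10_11_5 ln10_11_5_ok))) (M (nat_lit 361) (B (L (nat_lit 393) ln10_15_7 ln10_15_7_ok) (L (nat_lit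 329) ln10_14_7 ln10_14_7_ok))))))))))))))) (B (M (nat_lit 362) (B (M (nat_lit 363) (B (L (nat_lit 395) ln14_12_3 ln14_12_3_ok) (M (nat_lit 331) (B (L (nat_lit 458) ln10_14_6 ln10_14_6_ok) (M (nat_lit 299) (B (L (nat_lit 267) ln11_8_5 ln11_8_5_ok) (L (nat_lit 330) ln10_13_6 ln10_13_6_ok))))))) (B (M (nat_lit 395) (B (L (nat_lit 361) ln13_12_3 ln13_12_3_ok) (L (nat_lit 363) ln14_12_3 ln14_12_3_ok))) (B (M (nat_lit 361) (B (L (nat_lit 395) ln13_12_3 ln13_12_3_ok) (M (nat_lit 329) (B (L (nat_lit 458) ln10_14_7 ln10_14_7_ok) (M (nat_lit 297) (B (L (nat_lit 330) ln10_13_7_c10 ln10_13_7_c10_ok) (L (nat_lit 393) ln9_9_4_c10 ln9_9_4_c10_ok))))))) (M (nat_lit 458) (B (M (nat_lit 331) (B (L (nat_lit 363) ln10_14_6 ln10_14_6_ok) (M (nat_lit 330) (B (L (nat_lit 299) ln10_13_6 ln10_13_6_ok) (M (nat_lit 329) (B (L (nat_lit 297) ln10_13_7_c10 ln10_13_7_c10_ok) (L (nat_lit 361) ln10_14_7 ln10_14_7_ok))))))) (M (nat_lit 491) (B (L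 (nat_lit 459) ln10_11_4 ln10_11_4_ok) (M (nat_lit 490) (B (L (nat_lit 523) ln10_12_4 ln10_12_4_ok) (M (nat_lit 489) (B (L (nat_lit 457) ln10_11_5 ln10_11_5_ok) (L (nat_lit 521) ln10_12_5 ln10_12_5_ok))))))))))))) (B (M (nat_lit 362) (B (M (nat_lit 395) (B (L (nat_lit 425) ln13_12_1 ln13_12_1_ok) (L (nat_lit 361) ln13_12_3 ln13_12_3_ok))) (B (M (nat_lit 458) (B (M (nat_lit 490) (B (M (nat_lit 491) (B (L (nat_lit 523) ln10_12_4 ln10_12_4_ok) (L (nat_lit 459) ln10_11_4 ln10_11_4_ok))) (M (nat_lit 361) (B (L (nat_lit 393) ln10_15_7 ln10_15_7_ok) (L (nat_lit 329) ln10_14_7 ln10_14_7_ok))))) (B (M (nat_lit 490) (B (M (nat_lit 489) (B (L (nat_lit 521) ln10_12_5 ln10_12_5_ok) (L (nat_lit 457) ln10_11_5 ln10_11_5_ok))) (M (nat_lit 361) (B (L (nat_lit 393) ln10_15_7 ln10_15_7_ok) (L (nat_lit 329) ln10_14_7 ln10_14_7_ok))))) (B (M (nat_lit 330) (B (M (nat_lit 457) (B (L (nat_lit 489) ln10_11_5 ln10_11_5_ok) (L (nat_lit 425)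 ln10_10_5 ln10_10_5_ok))) (M (nat_lit 329) (B (L (nat_lit 361) ln10_14_7 ln10_14_7_ok) (L (nat_lit 297) ln10_13_7_c10 ln10_13_7_c10_ok))))) (M (nat_lit 490) (B (M (nat_lit 491) (B (L (nat_lit 523) ln10_12_4 ln10_12_4_ok) (L (nat_lit 459) ln10_11_4 ln10_11_4_ok))) (M (nat_lit 489) (B (L (nat_lit 521) ln10_12_5 ln10_12_5_ok) (L (nat_lit 457) ln10_11_5 ln10_11_5_ok))))))))) (B (M (nat_lit 361) (B (L (nat_lit 395) ln13_12_3 ln13_12_3_ok) (M (nat_lit 329) (B (L (nat_lit 458) ln10_14_7 ln10_14_7_ok) (M (nat_lit 297) (B (L (nat_lit 330) ln10_13_7_c10 ln10_13_7_c10_ok) (L (nat_lit 393) ln9_9_4_c10 ln9_9_4_c10_ok))))))) (M (nat_lit 425) (B (L (nat_lit 395) ln13_12_1 ln13_12_1_ok) (M (nat_lit 457) (B (L (nat_lit 330) ln10_10_5 ln10_10_5_ok) (M (nat_lit 489) (B (L (nat_lit 458) ln10_11_5 ln10_11_5_ok) (L (nat_lit 521) ln9_16_6 ln9_16_6_ok))))))))))) (M (nat_lit 395) (B (M (nat_lit 362) (B (L (nat_lit 363) ln14_12_3 ln14_12_3_ok)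 (L (nat_lit 361) ln13_12_3 ln13_12_3_ok))) (L (nat_lit 425) ln13_12_1 ln13_12_1_ok))))))
noncomputable def c10_d382 : Cert := (B (M (nat_lit 458) (B (M (nat_lit 490) (B (M (nat_lit 522) (B (M (nat_lit 523) (B (L (nat_lit 555) ln10_13_4 ln10_13_4_ok) (L (nat_lit 491) ln10_12_4 ln10_12_4_ok))) (M (nat_lit 521) (B (L (nat_lit 553) ln10_13_5 ln10_13_5_ok) (L (nat_lit 489) ln10_12_5 ln10_12_5_ok))))) (B (M (nat_lit 457) (B (M (nat_lit 489) (B (L (nat_lit 521) ln10_12_5 ln10_12_5_ok) (M (nat_lit 491) (B (L (nat_lit 523) ln10_12_4 ln10_12_4_ok) (L (nat_lit 492) ln13_15_3 ln13_15_3_ok))))) (B (M (nat_lit 522) (B (M (nat_lit 521) (B (L (nat_lit 553) ln10_13_5 ln10_13_5_ok) (L (nat_lit 489) ln10_12_5 ln10_12_5_ok))) (M (nat_lit 425) (B (L (nat_lit 554) ln10_17_7 ln10_17_7_ok) (L (nat_lit 393) ln10_16_7 ln10_16_7_ok))))) (M (nat_lit 491) (B (L (nat_lit 523) ln10_12_4 ln10_12_4_ok) (L (nat_lit 492) ln13_15_3 ln13_15_3_ok))))))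 (B (M (nat_lit 489) (B (L (nat_lit 521) ln10_12_5 ln10_12_5_ok) (M (nat_lit 491) (B (L (nat_lit 523) ln10_12_4 ln10_12_4_ok) (M (nat_lit 488) (B (M (nat_lit 459) (B (L (nat_lit 460) ln13_14_1 ln13_14_1_ok) (L (nat_lit 487) ln7_15_2 ln7_15_2_ok))) (B (M (nat_lit 492) (B (L (nat_lit 460) ln9_15_2 ln9_15_2_ok) (M (nat_lit 456) (B (L (nat_lit 457) ln12_15_3 ln12_15_3_ok) (L (nat_lit 455) ln11_15_3 ln11_15_3_ok))))) (M (nat_lit 487) (B (L (nat_lit 459) ln7_15_2 ln7_15_2_ok) (M (nat_lit 519) (B (L (nat_lit 520) ln11_15_1 ln11_15_1_ok) (L (nat_lit 518) ln10_15_1 ln10_15_1_ok)))))))))))) (B (M (nat_lit 459) (B (M (nat_lit 489) (B (L (nat_lit 521) ln10_12_5 ln10_12_5_ok) (L (nat_lit 460) ln13_14_1 ln13_14_1_ok))) (B (M (nat_lit 460) (B (L (nat_lit 489) ln13_14_1 ln13_14_1_ok) (L (nat_lit 425) ln13_14_3 ln13_14_3_ok))) (B (M (nat_lit 425) (B (M (nat_lit 424) (B (L (nat_lit 423) ln7_13_0 ln7_13_0_ok) (L (nat_lit 460) ln13_14_3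 ln13_14_3_ok))) (M (nat_lit 522) (B (L (nat_lit 393) ln10_16_7 ln10_16_7_ok) (M (nat_lit 554) (B (L (nat_lit 457) ln10_17_7 ln10_17_7_ok) (M (nat_lit 553) (B (L (nat_lit 585) ln10_14_5 ln10_14_5_ok) (L (nat_lit 521) ln10_13_5 ln10_13_5_ok))))))))) (M (nat_lit 522) (B (M (nat_lit 521) (B (L (nat_lit 553) ln10_13_5 ln10_13_5_ok) (L (nat_lit 489) ln10_12_5 ln10_12_5_ok))) (M (nat_lit 554) (B (M (nat_lit 425) (B (L (nat_lit 457) ln10_17_7 ln10_17_7_ok) (L (nat_lit 393) ln10_16_7 ln10_16_7_ok))) (M (nat_lit 586) (B (L (nat_lit 491) ln10_18_6 ln10_18_6_ok) (M (nat_lit 587) (B (L (nat_lit 619) ln10_15_4 ln10_15_4_ok) (L (nat_lit 555) ln10_14_4 ln10_14_4_ok))))))))))))) (B (M (nat_lit 522) (B (M (nat_lit 523) (B (L (nat_lit 555) ln10_13_4 ln10_13_4_ok) (L (nat_lit 491) ln10_12_4 ln10_12_4_ok))) (B (M (nat_lit 554) (B (M (nat_lit 425) (B (L (nat_lit 457) ln10_17_7 ln10_17_7_ok) (L (nat_lit 393) ln10_16_7 ln10_16_7_ok)))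 (M (nat_lit 586) (B (M (nat_lit 585) (B (L (nat_lit 617) ln10_15_5 ln10_15_5_ok) (L (nat_lit 553) ln10_14_5 ln10_14_5_ok))) (M (nat_lit 491) (B (L (nat_lit 459) ln10_18_6 ln10_18_6_ok) (L (nat_lit 523) ln10_12_4 ln10_12_4_ok))))))) (M (nat_lit 554) (B (M (nat_lit 425) (B (L (nat_lit 457) ln10_17_7 ln10_17_7_ok) (L (nat_lit 393) ln10_16_7 ln10_16_7_ok))) (M (nat_lit 586) (B (M (nat_lit 587) (B (L (nat_lit 619) ln10_15_4 ln10_15_4_ok) (L (nat_lit 555) ln10_14_4 ln10_14_4_ok))) (M (nat_lit 585) (B (L (nat_lit 617) ln10_15_5 ln10_15_5_ok) (L (nat_lit 553) ln10_14_5 ln10_14_5_ok)))))))))) (M (nat_lit 522) (B (M (nat_lit 521) (B (L (nat_lit 553) ln10_13_5 ln10_13_5_ok) (L (nat_lit 489) ln10_12_5 ln10_12_5_ok))) (M (nat_lit 554) (B (M (nat_lit 555) (B (L (nat_lit 587) ln10_14_4 ln10_14_4_ok) (L (nat_lit 523) ln10_13_4 ln10_13_4_ok))) (M (nat_lit 425) (B (L (nat_lit 457) ln10_17_7 ln10_17_7_ok) (L (nat_lit 393) ln10_16_7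 ln10_16_7_ok))))))))))))) (B (K (nat_lit 25573364130887154044145984313881226924709354206582925405929397667259803720969428307625739864243448317805714009704687017267703923635367655792390963200) (nat_lit 147420407253915447384576288832815006264352740012707714077910480312393903954048928766790283321762909110430473383300386015765366496461896723527240422779616091108626399232) (nat_lit 147420407253915447384576288832815006264352740012707714077910480312393903954048928766790283321762909110430473383300386015765366496461896723527240422779616091108626399232) c10_s476) (B (M (nat_lit 490) (B (M (nat_lit 489) (B (L (nat_lit 521) ln10_12_5 ln10_12_5_ok) (M (nat_lit 362) (B (L (nat_lit 457) ln10_11_5 ln10_11_5_ok) (M (nat_lit 491) (B (L (nat_lit 523) ln10_12_4 ln10_12_4_ok) (L (nat_lit 459) ln10_11_4 ln10_11_4_ok))))))) (B (M (nat_lit 362) (B (M (nat_lit 489) (B (L (nat_lit 521) ln10_12_5 ln10_12_5_ok) (L (nat_lit 457) ln10_11_5 ln10_11_5_ok)))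 (M (nat_lit 363) (B (L (nat_lit 395) ln14_12_3 ln14_12_3_ok) (L (nat_lit 331) ln10_14_6 ln10_14_6_ok))))) (B (M (nat_lit 362) (B (M (nat_lit 491) (B (L (nat_lit 523) ln10_12_4 ln10_12_4_ok) (L (nat_lit 459) ln10_11_4 ln10_11_4_ok))) (M (nat_lit 363) (B (L (nat_lit 395) ln14_12_3 ln14_12_3_ok) (L (nat_lit 331) ln10_14_6 ln10_14_6_ok))))) (M (nat_lit 522) (B (M (nat_lit 523) (B (L (nat_lit 555) ln10_13_4 ln10_13_4_ok) (L (nat_lit 491) ln10_12_4 ln10_12_4_ok))) (M (nat_lit 521) (B (L (nat_lit 553) ln10_13_5 ln10_13_5_ok) (L (nat_lit 489) ln10_12_5 ln10_12_5_ok))))))))) (B (M (nat_lit 395) (B (L (nat_lit 425) ln13_12_1 ln13_12_1_ok) (M (nat_lit 363) (B (L (nat_lit 490) ln10_15_6 ln10_15_6_ok) (M (nat_lit 331) (B (L (nat_lit 299) ln11_9_5 ln11_9_5_ok) (L (nat_lit 362) ln14_12_3 ln14_12_3_ok))))))) (M (nat_lit 425) (B (L (nat_lit 395) ln13_12_1 ln13_12_1_ok) (M (nat_lit 362) (B (M (nat_lit 459) (B (L (nat_lit 460) ln13_14_3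 ln13_14_3_ok) (L (nat_lit 491) ln10_11_4 ln10_11_4_ok))) (M (nat_lit 457) (B (L (nat_lit 489) ln10_11_5 ln10_11_5_ok) (L (nat_lit 330) ln10_10_5 ln10_10_5_ok)))))))))))) (B (M (nat_lit 490) (B (M (nat_lit 458) (B (M (nat_lit 522) (B (M (nat_lit 393) (B (L (nat_lit 361) ln10_15_7 ln10_15_7_ok) (L (nat_lit 425) ln10_16_7 ln10_16_7_ok))) (M (nat_lit 521) (B (L (nat_lit 489) ln10_12_5 ln10_12_5_ok) (L (nat_lit 553) ln10_13_5 ln10_13_5_ok))))) (B (M (nat_lit 522) (B (M (nat_lit 521) (B (L (nat_lit 489) ln10_12_5 ln10_12_5_ok) (L (nat_lit 553) ln10_13_5 ln10_13_5_ok))) (M (nat_lit 523) (B (L (nat_lit 491) ln10_12_4 ln10_12_4_ok) (L (nat_lit 555) ln10_13_4 ln10_13_4_ok))))) (B (M (nat_lit 522) (B (M (nat_lit 393) (B (L (nat_lit 361) ln10_15_7 ln10_15_7_ok) (L (nat_lit 425) ln10_16_7 ln10_16_7_ok))) (M (nat_lit 523) (B (L (nat_lit 491) ln10_12_4 ln10_12_4_ok) (L (nat_lit 555) ln10_13_4 ln10_13_4_ok))))) (M (nat_lit 489)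 (B (L (nat_lit 521) ln10_12_5 ln10_12_5_ok) (M (nat_lit 491) (B (L (nat_lit 523) ln10_12_4 ln10_12_4_ok) (M (nat_lit 488) (B (M (nat_lit 459) (B (L (nat_lit 487) ln7_15_2 ln7_15_2_ok) (L (nat_lit 460) ln13_14_1 ln13_14_1_ok))) (B (M (nat_lit 487) (B (M (nat_lit 455) (B (L (nat_lit 454) ln10_15_3 ln10_15_3_ok) (L (nat_lit 456) ln11_15_3 ln11_15_3_ok))) (M (nat_lit 519) (B (L (nat_lit 518) ln10_15_1 ln10_15_1_ok) (L (nat_lit 520) ln11_15_1 ln11_15_1_ok))))) (M (nat_lit 492) (B (M (nat_lit 456) (B (L (nat_lit 455) ln11_15_3 ln11_15_3_ok) (L (nat_lit 457) ln12_15_3 ln12_15_3_ok))) (L (nat_lit 460) ln9_15_2 ln9_15_2_ok)))))))))))))) (B (M (nat_lit 458) (B (M (nat_lit 523) (B (M (nat_lit 555) (B (L (nat_lit 522) ln10_13_4 ln10_13_4_ok) (L (nat_lit 491) ln10_12_4 ln10_12_4_ok))) (B (M (nat_lit 489) (B (L (nat_lit 491) ln10_12_4 ln10_12_4_ok) (L (nat_lit 521) ln10_12_5 ln10_12_5_ok))) (M (nat_lit 522) (B (L (nat_lit 555)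 ln10_13_4 ln10_13_4_ok) (M (nat_lit 521) (B (L (nat_lit 553) ln10_13_5 ln10_13_5_ok) (L (nat_lit 489) ln10_12_5 ln10_12_5_ok)))))))) (M (nat_lit 395) (B (L (nat_lit 425) ln13_12_1 ln13_12_1_ok) (L (nat_lit 363) ln10_15_6 ln10_15_6_ok))))) (B (M (nat_lit 522) (B (M (nat_lit 524) (B (L (nat_lit 492) ln13_12_5 ln13_12_5_ok) (M (nat_lit 525) (B (L (nat_lit 556) ln13_13_5 ln13_13_5_ok) (M (nat_lit 558) (B (L (nat_lit 526) ln13_13_4 ln13_13_4_ok) (M (nat_lit 557) (B (L (nat_lit 590) ln13_14_4 ln13_14_4_ok) (L (nat_lit 523) ln10_16_0 ln10_16_0_ok))))))))) (M (nat_lit 458) (B (M (nat_lit 521) (B (L (nat_lit 489) ln10_12_5 ln10_12_5_ok) (L (nat_lit 553) ln10_13_5 ln10_13_5_ok))) (M (nat_lit 395) (B (L (nat_lit 425) ln13_12_1 ln13_12_1_ok) (L (nat_lit 363) ln10_15_6 ln10_15_6_ok))))))) (B (M (nat_lit 492) (B (L (nat_lit 524) ln13_12_5 ln13_12_5_ok) (M (nat_lit 491) (B (L (nat_lit 462) ln10_15_2 ln10_15_2_ok) (M (nat_lit 458)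 (B (L (nat_lit 457) ln13_15_3 ln13_15_3_ok) (L (nat_lit 523) ln10_12_4 ln10_12_4_ok))))))) (B (M (nat_lit 492) (B (L (nat_lit 524) ln13_12_5 ln13_12_5_ok) (M (nat_lit 491) (B (L (nat_lit 462) ln10_15_2 ln10_15_2_ok) (M (nat_lit 458) (B (L (nat_lit 457) ln13_15_3 ln13_15_3_ok) (M (nat_lit 489) (B (L (nat_lit 460) ln9_15_2 ln9_15_2_ok) (L (nat_lit 521) ln10_12_5 ln10_12_5_ok))))))))) (M (nat_lit 492) (B (L (nat_lit 524) ln13_12_5 ln13_12_5_ok) (M (nat_lit 491) (B (L (nat_lit 462) ln10_15_2 ln10_15_2_ok) (M (nat_lit 489) (B (L (nat_lit 460) ln9_15_2 ln9_15_2_ok) (M (nat_lit 521) (B (L (nat_lit 522) ln13_15_1 ln13_15_1_ok) (L (nat_lit 520) ln12_15_1 ln12_15_1_ok))))))))))))))) c10_d381))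
noncomputable def c10_d383 : Cert := (B (M (nat_lit 490) (B (M (nat_lit 458) (B (M (nat_lit 522) (B (M (nat_lit 554) (B (M (nat_lit 586) (B (M (nat_lit 587) (B (L (nat_lit 619) ln10_15_4 ln10_15_4_ok) (L (nat_lit 555) ln10_14_4 ln10_14_4_ok))) (M (nat_lit 585) (B (L (nat_lit 617) ln10_15_5 ln10_15_5_ok) (L (nat_lit 553) ln10_14_5 ln10_14_5_ok))))) (B (M (nat_lit 553) (B (L (nat_lit 585) ln10_14_5 ln10_14_5_ok) (L (nat_lit 521) ln10_13_5 ln10_13_5_ok))) (B (M (nat_lit 586) (B (M (nat_lit 587) (B (L (nat_lit 619) ln10_15_4 ln10_15_4_ok) (L (nat_lit 555) ln10_14_4 ln10_14_4_ok))) (M (nat_lit 489) (B (L (nat_lit 457) ln10_18_7_c10 ln10_18_7_c10_ok) (M (nat_lit 521) (B (L (nat_lit 618) ln10_19_7_c10 ln10_19_7_c10_ok) (L (nat_lit 553) ln10_13_5 ln10_13_5_ok))))))) (M (nat_lit 586) (B (M (nat_lit 587) (B (L (nat_lit 619) ln10_15_4 ln10_15_4_ok) (L (nat_lit 555) ln10_14_4 ln10_14_4_ok))) (M (nat_lit 618) (B (M (nat_lit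 617) (B (L (nat_lit 649) ln10_16_5 ln10_16_5_ok) (L (nat_lit 585) ln10_15_5 ln10_15_5_ok))) (M (nat_lit 489) (B (L (nat_lit 521) ln10_19_7_c10 ln10_19_7_c10_ok) (L (nat_lit 457) ln10_18_7_c10 ln10_18_7_c10_ok))))))))))) (M (nat_lit 524) (B (L (nat_lit 492) ln13_12_5 ln13_12_5_ok) (M (nat_lit 525) (B (L (nat_lit 556) ln13_13_5 ln13_13_5_ok) (M (nat_lit 558) (B (L (nat_lit 526) ln13_13_4 ln13_13_4_ok) (M (nat_lit 557) (B (L (nat_lit 590) ln13_14_4 ln13_14_4_ok) (L (nat_lit 523) ln10_16_0 ln10_16_0_ok))))))))))) (B (M (nat_lit 522) (B (M (nat_lit 427) (B (L (nat_lit 395) ln14_12_1 ln14_12_1_ok) (M (nat_lit 459) (B (L (nat_lit 554) ln10_17_6 ln10_17_6_ok) (M (nat_lit 460) (B (L (nat_lit 462) ln14_14_3 ln14_14_3_ok) (L (nat_lit 489) ln13_14_1 ln13_14_1_ok))))))) (M (nat_lit 524) (B (L (nat_lit 492) ln13_12_5 ln13_12_5_ok) (M (nat_lit 525) (B (L (nat_lit 556) ln13_13_5 ln13_13_5_ok) (M (nat_lit 558) (B (L (nat_lit 526)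 ln13_13_4 ln13_13_4_ok) (M (nat_lit 557) (B (L (nat_lit 590) ln13_14_4 ln13_14_4_ok) (L (nat_lit 523) ln10_16_0 ln10_16_0_ok))))))))))) (M (nat_lit 395) (B (M (nat_lit 363) (B (L (nat_lit 394) ln10_15_6 ln10_15_6_ok) (L (nat_lit 362) ln14_12_3 ln14_12_3_ok))) (L (nat_lit 427) ln14_12_1 ln14_12_1_ok)))))) (B (M (nat_lit 395) (B (L (nat_lit 427) ln14_12_1 ln14_12_1_ok) (M (nat_lit 362) (B (L (nat_lit 363) ln14_12_3 ln14_12_3_ok) (M (nat_lit 394) (B (L (nat_lit 361) ln13_12_3 ln13_12_3_ok) (M (nat_lit 458) (B (M (nat_lit 489) (B (L (nat_lit 521) ln10_12_5 ln10_12_5_ok) (M (nat_lit 459) (B (L (nat_lit 460) ln13_14_1 ln13_14_1_ok) (L (nat_lit 491) ln10_11_4 ln10_11_4_ok))))) (B (M (nat_lit 489) (B (L (nat_lit 521) ln10_12_5 ln10_12_5_ok) (M (nat_lit 459) (B (L (nat_lit 460) ln13_14_1 ln13_14_1_ok) (L (nat_lit 457) ln10_11_5 ln10_11_5_ok))))) (B (M (nat_lit 459) (B (L (nat_lit 491) ln10_11_4 ln10_11_4_ok) (M (nat_lit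 489) (B (L (nat_lit 460) ln13_14_1 ln13_14_1_ok) (L (nat_lit 457) ln10_11_5 ln10_11_5_ok))))) (B (M (nat_lit 523) (B (L (nat_lit 491) ln10_12_4 ln10_12_4_ok) (M (nat_lit 522) (B (L (nat_lit 555) ln10_13_4 ln10_13_4_ok) (M (nat_lit 521) (B (L (nat_lit 553) ln10_13_5 ln10_13_5_ok) (L (nat_lit 489) ln10_12_5 ln10_12_5_ok))))))) (M (nat_lit 491) (B (L (nat_lit 523) ln10_12_4 ln10_12_4_ok) (L (nat_lit 459) ln10_11_4 ln10_11_4_ok)))))))))))))) (B (M (nat_lit 492) (B (L (nat_lit 524) ln13_12_5 ln13_12_5_ok) (M (nat_lit 491) (B (L (nat_lit 462) ln10_15_2 ln10_15_2_ok) (M (nat_lit 458) (B (L (nat_lit 457) ln13_15_3 ln13_15_3_ok) (M (nat_lit 523) (B (L (nat_lit 394) ln10_12_4 ln10_12_4_ok) (M (nat_lit 555) (B (L (nat_lit 522) ln10_13_4 ln10_13_4_ok) (L (nat_lit 587) ln11_18_7 ln11_18_7_ok))))))))))) (B (M (nat_lit 492) (B (L (nat_lit 524) ln13_12_5 ln13_12_5_ok) (M (nat_lit 491) (B (L (nat_lit 462) ln10_15_2 ln10_15_2_ok)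 (M (nat_lit 458) (B (L (nat_lit 457) ln13_15_3 ln13_15_3_ok) (M (nat_lit 489) (B (L (nat_lit 460) ln9_15_2 ln9_15_2_ok) (M (nat_lit 521) (B (L (nat_lit 520) ln12_15_1 ln12_15_1_ok) (L (nat_lit 394) ln10_12_5 ln10_12_5_ok))))))))))) (M (nat_lit 492) (B (L (nat_lit 524) ln13_12_5 ln13_12_5_ok) (M (nat_lit 491) (B (L (nat_lit 462) ln10_15_2 ln10_15_2_ok) (M (nat_lit 489) (B (L (nat_lit 460) ln9_15_2 ln9_15_2_ok) (M (nat_lit 521) (B (L (nat_lit 522) ln13_15_1 ln13_15_1_ok) (L (nat_lit 520) ln12_15_1 ln12_15_1_ok)))))))))))))) (B (M (nat_lit 427) (B (L (nat_lit 395) ln14_12_1 ln14_12_1_ok) (M (nat_lit 525) (B (M (nat_lit 556) (B (M (nat_lit 588) (B (L (nat_lit 557) ln13_14_5 ln13_14_5_ok) (L (nat_lit 524) ln13_13_5 ln13_13_5_ok))) (B (M (nat_lit 526) (B (L (nat_lit 524) ln13_13_5 ln13_13_5_ok) (L (nat_lit 558) ln13_13_4 ln13_13_4_ok))) (M (nat_lit 557) (B (L (nat_lit 588) ln13_14_5 ln13_14_5_ok) (M (nat_lit 558) (B (L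 (nat_lit 590) ln13_14_4 ln13_14_4_ok) (L (nat_lit 526) ln13_13_4 ln13_13_4_ok)))))))) (B (M (nat_lit 557) (B (M (nat_lit 589) (B (M (nat_lit 590) (B (L (nat_lit 622) ln13_15_4_c10 ln13_15_4_c10_ok) (L (nat_lit 558) ln13_14_4 ln13_14_4_ok))) (M (nat_lit 588) (B (L (nat_lit 620) ln13_15_5_c10 ln13_15_5_c10_ok) (L (nat_lit 556) ln13_14_5 ln13_14_5_ok))))) (B (M (nat_lit 556) (B (L (nat_lit 588) ln13_14_5 ln13_14_5_ok) (L (nat_lit 524) ln13_13_5 ln13_13_5_ok))) (M (nat_lit 589) (B (M (nat_lit 590) (B (L (nat_lit 622) ln13_15_4_c10 ln13_15_4_c10_ok) (L (nat_lit 558) ln13_14_4 ln13_14_4_ok))) (M (nat_lit 492) (B (L (nat_lit 460) ln13_18_7 ln13_18_7_ok) (L (nat_lit 524) ln13_12_5 ln13_12_5_ok)))))))) (B (M (nat_lit 524) (B (L (nat_lit 556) ln13_13_5 ln13_13_5_ok) (L (nat_lit 492) ln13_12_5 ln13_12_5_ok))) (B (M (nat_lit 558) (B (L (nat_lit 526) ln13_13_4 ln13_13_4_ok) (M (nat_lit 557) (B (L (nat_lit 590) ln13_14_4 ln13_14_4_ok)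 (M (nat_lit 588) (B (L (nat_lit 556) ln13_14_5 ln13_14_5_ok) (M (nat_lit 589) (B (L (nat_lit 620) ln13_15_5_c10 ln13_15_5_c10_ok) (M (nat_lit 460) (B (L (nat_lit 492) ln13_18_7 ln13_18_7_ok) (M (nat_lit 459) (B (L (nat_lit 462) ln14_14_3 ln14_14_3_ok) (M (nat_lit 425) (B (L (nat_lit 424) ln8_13_0 ln8_13_0_ok) (L (nat_lit 458) ln13_14_3 ln13_14_3_ok))))))))))))))) (M (nat_lit 558) (B (L (nat_lit 526) ln13_13_4 ln13_13_4_ok) (M (nat_lit 557) (B (L (nat_lit 590) ln13_14_4 ln13_14_4_ok) (M (nat_lit 492) (B (L (nat_lit 524) ln13_12_5 ln13_12_5_ok) (M (nat_lit 460) (B (L (nat_lit 589) ln13_18_7 ln13_18_7_ok) (M (nat_lit 459) (B (L (nat_lit 462) ln14_14_3 ln14_14_3_ok) (M (nat_lit 425) (B (L (nat_lit 424) ln8_13_0 ln8_13_0_ok) (L (nat_lit 458) ln13_14_3 ln13_14_3_ok)))))))))))))))))))) (M (nat_lit 395) (B (M (nat_lit 394) (B (M (nat_lit 362) (B (L (nat_lit 363) ln14_12_3 ln14_12_3_ok) (L (nat_lit 361) ln13_12_3 ln13_12_3_ok)))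 (L (nat_lit 425) ln13_12_1 ln13_12_1_ok))) (L (nat_lit 427) ln14_12_1 ln14_12_1_ok)))))
noncomputable def c10_d384 : Cert := (B (M (nat_lit 398) (B (M (nat_lit 396) (B (M (nat_lit 426) (B (M (nat_lit 490) (B (M (nat_lit 458) (B (K (nat_lit 28770034646410730089080739877149081567450810757958482127346627333379782728507911685240954261334516477179363643506919190467640497114772872883957923840) (nat_lit 11679847984920016893118418033111507847791659864502953632333297323803247079244382714042140849543803784242068860243567864070814402306039243195783915342230345443040679145609668277646093268708562567168) (nat_lit 11679847984920016893118418033111507847791659864502953632333297323803247079244382714042140849543803784242068860243567864070814402306039243195783915342230345443040679145609668277646093268708562567168) c10_s469) (B (K (nat_lit 28770034646410730089080739877149081567450810757958482127346627333379782728507911685240954261334516477179363643506919190467640497114772872883957923840)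 (nat_lit 39472586554941433610301681002282281651775231991457078702859677351036139638920585796995569161513541690757640709441532586777812561791107631404060828980635238400) (nat_lit 39472586554941433610301681002282281651775231991457078702859677351036139638920585796995569161513541690757640709441532586777812561791107631404060828980635238400) c10_s471) (B (K (nat_lit 28770034646410730089080739877149081567450810757958482127346627333379782728507911685240954261334516477179363643506919190467640497114772872883957923840) (nat_lit 2175541219463910195318548514239774968566721212325171148224622593834000391937395580837869137040346621325335955979366980907273406210314710499954120230691012851068157003336847265649752276992) (nat_lit 2175541219463910195318548514239774968566721212325171148224622593834000391937395580837869137040346621325335955979366980907273406210314710499954120230691012851068157003336847265649752276992) c10_s472) (B (K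 (nat_lit 28770034646410730089080739877149081567450810757958482127346627333379782728507911685240954261334516477179363643506919190467640497114772872883957923840) (nat_lit 11679847984920016893118418032967772950747409593661319799023091790039065860010987608920351725659784609841139166068520096873673537120543944517449132050429809531617445516372103496565122741130105978880) (nat_lit 11679847984920016893118418032967772950747409593661319799023091790039065860010987608920351725659784609841139166068520096873673537120543944517449132050429809531617445516372103496565122741130105978880) c10_s473) (B (K (nat_lit 28770034646410730089080739877149081567450810757958482127346627333379782728507911685240954261334516477179363643506919190467640497114772872883957923840) (nat_lit 543885305530801668144133543731185738387805897108986663525981014720545508407837872673393114294973299909942766956972933417677025103894385793362474207227741051301238508484029876877182107648)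 (nat_lit 543885305530801668144133543731185738387805897108986663525981014720545508407837872673393114294973299909942766956972933417677025103894385793362474207227741051301238508484029876877182107648) c10_s474) (B (M (nat_lit 523) (B (M (nat_lit 555) (B (L (nat_lit 522) ln10_13_4 ln10_13_4_ok) (M (nat_lit 491) (B (L (nat_lit 459) ln11_17_7 ln11_17_7_ok) (L (nat_lit 394) ln10_12_4 ln10_12_4_ok))))) (B (M (nat_lit 489) (B (M (nat_lit 394) (B (L (nat_lit 491) ln10_12_4 ln10_12_4_ok) (L (nat_lit 521) ln10_12_5 ln10_12_5_ok))) (B (M (nat_lit 521) (B (L (nat_lit 394) ln10_12_5 ln10_12_5_ok) (M (nat_lit 553) (B (L (nat_lit 522) ln10_13_5 ln10_13_5_ok) (L (nat_lit 585) ln9_18_6 ln9_18_6_ok))))) (B (M (nat_lit 488) (B (M (nat_lit 487) (B (L (nat_lit 522) ln7_15_0 ln7_15_0_ok) (L (nat_lit 459) ln7_15_2 ln7_15_2_ok))) (B (M (nat_lit 524) (B (L (nat_lit 491) ln8_15_0 ln8_15_0_ok) (M (nat_lit 522) (B (L (nat_lit 525) ln13_16_3 ln13_16_3_ok)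 (L (nat_lit 487) ln7_15_0 ln7_15_0_ok))))) (B (M (nat_lit 491) (B (L (nat_lit 524) ln8_15_0 ln8_15_0_ok) (M (nat_lit 459) (B (L (nat_lit 460) ln13_14_1 ln13_14_1_ok) (L (nat_lit 487) ln7_15_2 ln7_15_2_ok))))) (M (nat_lit 524) (B (L (nat_lit 491) ln8_15_0 ln8_15_0_ok) (M (nat_lit 522) (B (L (nat_lit 525) ln13_16_3 ln13_16_3_ok) (L (nat_lit 521) ln12_16_3 ln12_16_3_ok))))))))) (M (nat_lit 488) (B (M (nat_lit 491) (B (L (nat_lit 524) ln8_15_0 ln8_15_0_ok) (L (nat_lit 394) ln10_12_4 ln10_12_4_ok))) (M (nat_lit 487) (B (L (nat_lit 522) ln7_15_0 ln7_15_0_ok) (L (nat_lit 459) ln7_15_2 ln7_15_2_ok))))))))) (B (M (nat_lit 522) (B (L (nat_lit 555) ln10_13_4 ln10_13_4_ok) (M (nat_lit 521) (B (L (nat_lit 553) ln10_13_5 ln10_13_5_ok) (M (nat_lit 489) (B (L (nat_lit 394) ln10_12_5 ln10_12_5_ok) (M (nat_lit 488) (B (L (nat_lit 524) ln12_16_3 ln12_16_3_ok) (L (nat_lit 487) ln7_15_0 ln7_15_0_ok))))))))) (B (M (nat_lit 491) (B (L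 (nat_lit 394) ln10_12_4 ln10_12_4_ok) (M (nat_lit 555) (B (L (nat_lit 587) ln11_18_7 ln11_18_7_ok) (L (nat_lit 459) ln11_17_7 ln11_17_7_ok))))) (M (nat_lit 555) (B (L (nat_lit 522) ln10_13_4 ln10_13_4_ok) (M (nat_lit 491) (B (L (nat_lit 587) ln11_18_7 ln11_18_7_ok) (L (nat_lit 459) ln11_17_7 ln11_17_7_ok)))))))))) (K (nat_lit 28770034646410730089080739877149081567450810757958482127346627333379782728507911685240954261334516477179363643506919190467640497114772872883957923840) (nat_lit 633165827977536177350368080133519425900739443714084566380028708509709941202289004794823212769821831555185641276245198948866245954025214618767170663806918202593114797355053350912) (nat_lit 633165827977536177350368080133519425900739443714084566380028708509709941202289004794823212769821831555185641276245198948866245954025214618767170663806918202593114797355053350912) c10_s475)))))))) c10_d380)) (B (M (nat_lit 394) c10_d382) c10_d383)))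 (L (nat_lit 364) ln13_15_7 ln13_15_7_ok))) (L (nat_lit 366) ln13_15_6 ln13_15_6_ok))) (B (K (nat_lit 25573364130142871190293991001228867675461119795915005442807318385056134507788209737661646457654677079460545701201105089966755180806434772181820899328) (nat_lit 3398074842554229426622133464056685643918788976800337271945700547836583667283224627955379529091754463755671379567777229384593819026905479098702917747868168093696) (nat_lit 3398074842554229426622133464056685643918788976800337271945700547836583667283224627955379529091754463755671379567777229384593819026905479098702917747868168093696) c10_s449) (M (nat_lit 492) (B (L (nat_lit 524) ln13_12_5 ln13_12_5_ok) (M (nat_lit 494) (B (L (nat_lit 526) ln13_12_4 ln13_12_4_ok) (M (nat_lit 495) (B (M (nat_lit 460) (B (L (nat_lit 496) ln16_15_3 ln16_15_3_ok) (L (nat_lit 459) ln15_15_3 ln15_15_3_ok))) (B (M (nat_lit 491) (B (M (nat_lit 459) (B (L (nat_lit 460) ln15_15_3 ln15_15_3_ok)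 (L (nat_lit 458) ln14_15_3 ln14_15_3_ok))) (B (M (nat_lit 490) (B (M (nat_lit 522) (B (L (nat_lit 523) ln14_15_1 ln14_15_1_ok) (L (nat_lit 521) ln13_15_1 ln13_15_1_ok))) (M (nat_lit 458) (B (L (nat_lit 459) ln14_15_3 ln14_15_3_ok) (L (nat_lit 457) ln13_15_3 ln13_15_3_ok))))) (B (M (nat_lit 490) (B (M (nat_lit 522) (B (L (nat_lit 523) ln14_15_1 ln14_15_1_ok) (L (nat_lit 521) ln13_15_1 ln13_15_1_ok))) (M (nat_lit 489) (B (L (nat_lit 460) ln9_15_2 ln9_15_2_ok) (M (nat_lit 457) (B (L (nat_lit 458) ln13_15_3 ln13_15_3_ok) (L (nat_lit 456) ln12_15_3 ln12_15_3_ok))))))) (M (nat_lit 490) (B (M (nat_lit 522) (B (L (nat_lit 523) ln14_15_1 ln14_15_1_ok) (L (nat_lit 521) ln13_15_1 ln13_15_1_ok))) (M (nat_lit 460) (B (L (nat_lit 459) ln15_15_3 ln15_15_3_ok) (L (nat_lit 489) ln9_15_2 ln9_15_2_ok))))))))) (M (nat_lit 496) (B (M (nat_lit 528) (B (L (nat_lit 529) ln13_15_0 ln13_15_0_ok) (L (nat_lit 527) ln12_15_0 ln12_15_0_ok)))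 (M (nat_lit 464) (B (L (nat_lit 465) ln13_15_2 ln13_15_2_ok) (L (nat_lit 463) ln12_15_2 ln12_15_2_ok))))))))))))))
theorem c10_s477 : Sem (nat_lit 5954262830815946494763249298768603811203561774969104571805089223376689777636098861358550851719243481454542035207245364041705138952691777536) (nat_lit 759190119877372252352401770101837629892014766161447737896813517241346445600318404069470990417726264189528674825610838517358220276090371802624592039021573736136295529891740777200255441218362369114112) (nat_lit 759190119877372252352401770101837629892014766161447737896813517241346445600318404069470990417726264189528674825610838517358220276090371802624592039021573736136295529891740777200255441218362369114112) :=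
  sem_of_chk (M (nat_lit 493) (B (M (nat_lit 396) (B (L (nat_lit 364) ln13_15_7 ln13_15_7_ok) (M (nat_lit 494) (B (L (nat_lit 526) ln13_12_4 ln13_12_4_ok) (M (nat_lit 398) (B (L (nat_lit 366) ln13_15_6 ln13_15_6_ok) (K (nat_lit 76720092378520087909250080014967057515748310699605367519734687222286258136870382005472322699165881916823413014015995372385817886659613779881562734592) (nat_lit 835407828168782721240446874300085569824594708042994199342552960289644821565928083311802773031707061548401237157231279065836472008788060259520560223634684114104807647023970258091188324139008) (nat_lit 835407828168782721240446874300085569824594708042994199342552960289644821565928083311802773031707061548401237157231279065836472008788060259520560223634684114104807647023970258091188324139008) c10_s455))))))) (B (M (nat_lit 398) (B (L (nat_lit 366) ln13_15_6 ln13_15_6_ok) (M (nat_lit 492) (B (L (nat_lit 524) ln13_12_5 ln13_12_5_ok) (M (nat_lit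 396) (B (L (nat_lit 364) ln13_15_7 ln13_15_7_ok) (K (nat_lit 38360046192237175370033013255268629950709536722538202017977366502409690210253102065434001304721692575211459684396150790246553161512519330037869051904) (nat_lit 407913979211417833958925125225413623616882304710777074746290276095352692147245353211413685035722701256441312327660201759765647596499000073227610317912521025322688081352301267730686803968) (nat_lit 407913979211417833958925125225413623616882304710777074746290276095352692147245353211413685035722701256441312327660201759765647596499000073227610317912521025322688081352301267730686803968) c10_s460))))))) (B (M (nat_lit 396) (B (M (nat_lit 398) (B (M (nat_lit 432) c10_d379) (L (nat_lit 366) ln13_15_6 ln13_15_6_ok))) (L (nat_lit 364) ln13_15_7 ln13_15_7_ok))) c10_d384)))) (nat_lit 5954262830815946494763249298768603811203561774969104571805089223376689777636098861358550851719243481454542035207245364041705138952691777536)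 (nat_lit 759190119877372252352401770101837629892014766161447737896813517241346445600318404069470990417726264189528674825610838517358220276090371802624592039021573736136295529891740777200255441218362369114112) (nat_lit 759190119877372252352401770101837629892014766161447737896813517241346445600318404069470990417726264189528674825610838517358220276090371802624592039021573736136295529891740777200255441218362369114112) (by decide +kernel)
noncomputable def c10_d385 : Cert := (B (M (nat_lit 523) (B (M (nat_lit 428) (B (L (nat_lit 555) ln11_17_6 ln11_17_6_ok) (M (nat_lit 396) (B (L (nat_lit 427) ln11_16_6 ln11_16_6_ok) (L (nat_lit 364) ln12_11_4 ln12_11_4_ok))))) (B (M (nat_lit 427) (B (M (nat_lit 428) (B (L (nat_lit 396) ln11_16_6 ln11_16_6_ok) (M (nat_lit 426) (B (L (nat_lit 394) ln11_16_7 ln11_16_7_ok) (L (nat_lit 425) ln9_13_0 ln9_13_0_ok))))) (B (M (nat_lit 395) (B (M (nat_lit 522) (B (L (nat_lit 554) ln11_13_5 ln11_13_5_ok)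 (L (nat_lit 490) ln11_12_5 ln11_12_5_ok))) (M (nat_lit 396) (B (L (nat_lit 428) ln11_16_6 ln11_16_6_ok) (L (nat_lit 364) ln11_15_6 ln11_15_6_ok))))) (M (nat_lit 395) (B (M (nat_lit 522) (B (L (nat_lit 554) ln11_13_5 ln11_13_5_ok) (L (nat_lit 490) ln11_12_5 ln11_12_5_ok))) (M (nat_lit 394) (B (L (nat_lit 426) ln11_16_7 ln11_16_7_ok) (L (nat_lit 362) ln11_15_7 ln11_15_7_ok)))))))) (B (M (nat_lit 555) (B (L (nat_lit 428) ln11_17_6 ln11_17_6_ok) (M (nat_lit 587) (B (M (nat_lit 586) (B (L (nat_lit 618) ln11_15_5 ln11_15_5_ok) (L (nat_lit 554) ln11_14_5 ln11_14_5_ok))) (M (nat_lit 588) (B (L (nat_lit 620) ln11_15_4 ln11_15_4_ok) (L (nat_lit 556) ln11_14_4 ln11_14_4_ok))))))) (M (nat_lit 556) (B (M (nat_lit 588) (B (L (nat_lit 555) ln11_14_4 ln11_14_4_ok) (M (nat_lit 524) (B (L (nat_lit 620) ln12_19_7 ln12_19_7_ok) (L (nat_lit 427) ln11_13_4 ln11_13_4_ok))))) (B (M (nat_lit 554) (B (M (nat_lit 555) (B (L (nat_lit 586)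 ln11_14_5 ln11_14_5_ok) (L (nat_lit 588) ln11_14_4 ln11_14_4_ok))) (M (nat_lit 427) (B (L (nat_lit 522) ln11_13_5 ln11_13_5_ok) (L (nat_lit 524) ln11_13_4 ln11_13_4_ok))))) (B (M (nat_lit 427) (B (L (nat_lit 524) ln11_13_4 ln11_13_4_ok) (M (nat_lit 395) (B (M (nat_lit 522) (B (L (nat_lit 554) ln11_13_5 ln11_13_5_ok) (L (nat_lit 490) ln11_12_5 ln11_12_5_ok))) (M (nat_lit 394) (B (L (nat_lit 426) ln11_16_7 ln11_16_7_ok) (L (nat_lit 362) ln11_15_7 ln11_15_7_ok))))))) (B (M (nat_lit 555) (B (L (nat_lit 588) ln11_14_4 ln11_14_4_ok) (M (nat_lit 554) (B (L (nat_lit 586) ln11_14_5 ln11_14_5_ok) (M (nat_lit 522) (B (L (nat_lit 427) ln11_13_5 ln11_13_5_ok) (M (nat_lit 521) (B (L (nat_lit 557) ln13_17_3 ln13_17_3_ok) (L (nat_lit 520) ln8_16_0 ln8_16_0_ok))))))))) (M (nat_lit 555) (B (L (nat_lit 588) ln11_14_4 ln11_14_4_ok) (M (nat_lit 522) (B (M (nat_lit 554) (B (L (nat_lit 586) ln11_14_5 ln11_14_5_ok) (M (nat_lit 557) (B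 (L (nat_lit 521) ln13_17_3 ln13_17_3_ok) (L (nat_lit 558) ln14_17_3 ln14_17_3_ok))))) (B (M (nat_lit 557) (B (L (nat_lit 558) ln14_17_3 ln14_17_3_ok) (M (nat_lit 521) (B (L (nat_lit 554) ln13_17_3 ln13_17_3_ok) (L (nat_lit 520) ln8_16_0 ln8_16_0_ok))))) (B (M (nat_lit 557) (B (L (nat_lit 558) ln14_17_3 ln14_17_3_ok) (M (nat_lit 521) (B (L (nat_lit 520) ln8_16_0 ln8_16_0_ok) (L (nat_lit 524) ln9_16_0 ln9_16_0_ok))))) (M (nat_lit 587) (B (M (nat_lit 586) (B (L (nat_lit 618) ln11_15_5 ln11_15_5_ok) (L (nat_lit 554) ln11_14_5 ln11_14_5_ok))) (B (M (nat_lit 619) (B (L (nat_lit 490) ln11_19_7 ln11_19_7_ok) (M (nat_lit 651) (B (L (nat_lit 554) ln11_20_7_c10 ln11_20_7_c10_ok) (L (nat_lit 524) ln11_20_6_c10 ln11_20_6_c10_ok))))) (M (nat_lit 619) (B (L (nat_lit 490) ln11_19_7 ln11_19_7_ok) (M (nat_lit 618) (B (L (nat_lit 650) ln11_16_5 ln11_16_5_ok) (L (nat_lit 586) ln11_15_5 ln11_15_5_ok))))))))))))))))))))))) (B (M (nat_lit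 427) (B (M (nat_lit 426) (B (L (nat_lit 462) ln14_14_3 ln14_14_3_ok) (M (nat_lit 425) (B (L (nat_lit 424) ln8_13_0 ln8_13_0_ok) (L (nat_lit 428) ln9_13_0 ln9_13_0_ok))))) (B (M (nat_lit 523) (B (M (nat_lit 426) (B (L (nat_lit 394) ln11_16_7 ln11_16_7_ok) (L (nat_lit 462) ln14_14_3 ln14_14_3_ok))) (M (nat_lit 428) (B (L (nat_lit 555) ln11_17_6 ln11_17_6_ok) (L (nat_lit 396) ln11_16_6 ln11_16_6_ok))))) (B (M (nat_lit 395) (B (M (nat_lit 364) (B (L (nat_lit 396) ln11_15_6 ln11_15_6_ok) (M (nat_lit 363) (B (L (nat_lit 332) ln11_14_6 ln11_14_6_ok) (M (nat_lit 362) (B (L (nat_lit 394) ln11_15_7 ln11_15_7_ok) (L (nat_lit 330) ln11_14_7 ln11_14_7_ok))))))) (B (M (nat_lit 523) (B (M (nat_lit 428) (B (L (nat_lit 555) ln11_17_6 ln11_17_6_ok) (L (nat_lit 396) ln11_16_6 ln11_16_6_ok))) (B (M (nat_lit 396) (B (L (nat_lit 428) ln11_16_6 ln11_16_6_ok) (L (nat_lit 364) ln11_15_6 ln11_15_6_ok))) (M (nat_lit 555) (B (M (nat_lit 554)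 (B (L (nat_lit 586) ln11_14_5 ln11_14_5_ok) (L (nat_lit 522) ln11_13_5 ln11_13_5_ok))) (M (nat_lit 556) (B (L (nat_lit 588) ln11_14_4 ln11_14_4_ok) (L (nat_lit 524) ln11_13_4 ln11_13_4_ok)))))))) (B (M (nat_lit 363) (B (M (nat_lit 362) (B (L (nat_lit 394) ln11_15_7 ln11_15_7_ok) (L (nat_lit 330) ln11_14_7 ln11_14_7_ok))) (M (nat_lit 331) (B (L (nat_lit 428) ln11_10_4 ln11_10_4_ok) (M (nat_lit 332) (B (L (nat_lit 364) ln11_14_6 ln11_14_6_ok) (L (nat_lit 300) ln11_13_6 ln11_13_6_ok))))))) (M (nat_lit 362) (B (L (nat_lit 394) ln11_15_7 ln11_15_7_ok) (M (nat_lit 428) (B (M (nat_lit 523) (B (L (nat_lit 555) ln11_17_6 ln11_17_6_ok) (L (nat_lit 396) ln11_16_6 ln11_16_6_ok))) (M (nat_lit 363) (B (L (nat_lit 330) ln11_14_7 ln11_14_7_ok) (L (nat_lit 331) ln11_10_4 ln11_10_4_ok))))))))))) (M (nat_lit 426) (B (L (nat_lit 462) ln14_14_3 ln14_14_3_ok) (M (nat_lit 394) (B (L (nat_lit 523) ln11_16_7 ln11_16_7_ok) (M (nat_lit 362)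 (B (L (nat_lit 330) ln10_10_4 ln10_10_4_ok) (L (nat_lit 395) ln11_15_7 ln11_15_7_ok))))))))))) (M (nat_lit 462) (B (L (nat_lit 490) ln14_14_1 ln14_14_1_ok) (M (nat_lit 463) (B (M (nat_lit 495) (B (L (nat_lit 494) ln11_14_0 ln11_14_0_ok) (L (nat_lit 496) ln12_14_0 ln12_14_0_ok))) (B (M (nat_lit 464) (B (M (nat_lit 496) (B (L (nat_lit 495) ln12_14_0 ln12_14_0_ok) (L (nat_lit 497) ln13_14_0 ln13_14_0_ok))) (M (nat_lit 432) (B (L (nat_lit 431) ln12_14_2 ln12_14_2_ok) (L (nat_lit 433) ln13_14_2 ln13_14_2_ok))))) (B (M (nat_lit 464) (B (M (nat_lit 432) (B (L (nat_lit 431) ln12_14_2 ln12_14_2_ok) (L (nat_lit 433) ln13_14_2 ln13_14_2_ok))) (M (nat_lit 497) (B (L (nat_lit 496) ln13_14_0 ln13_14_0_ok) (M (nat_lit 465) (B (L (nat_lit 494) ln17_14_1 ln17_14_1_ok) (L (nat_lit 498) ln14_14_0_c10 ln14_14_0_c10_ok))))))) (M (nat_lit 464) (B (M (nat_lit 494) (B (L (nat_lit 495) ln11_14_0 ln11_14_0_ok) (L (nat_lit 465) ln17_14_1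 ln17_14_1_ok))) (M (nat_lit 432) (B (L (nat_lit 431) ln12_14_2 ln12_14_2_ok) (L (nat_lit 433) ln13_14_2 ln13_14_2_ok)))))))))))))
noncomputable def c10_d386 : Cert := (B (M (nat_lit 458) (B (M (nat_lit 460) (B (L (nat_lit 494) ln10_14_0 ln10_14_0_ok) (M (nat_lit 490) (B (L (nat_lit 489) ln13_14_1 ln13_14_1_ok) (M (nat_lit 426) (B (L (nat_lit 425) ln13_14_3 ln13_14_3_ok) (M (nat_lit 523) (B (L (nat_lit 555) ln11_17_7 ln11_17_7_ok) (L (nat_lit 394) ln10_12_4 ln10_12_4_ok))))))))) (B (M (nat_lit 460) (B (L (nat_lit 494) ln10_14_0 ln10_14_0_ok) (M (nat_lit 457) (B (M (nat_lit 489) (B (L (nat_lit 488) ln12_14_1 ln12_14_1_ok) (L (nat_lit 490) ln13_14_1 ln13_14_1_ok))) (M (nat_lit 425) (B (L (nat_lit 424) ln12_14_3 ln12_14_3_ok) (L (nat_lit 426) ln13_14_3 ln13_14_3_ok))))))) (B (M (nat_lit 426) (B (M (nat_lit 460) (B (L (nat_lit 494) ln10_14_0 ln10_14_0_ok) (L (nat_lit 425) ln13_14_3 ln13_14_3_ok))) (M (nat_lit 523) (B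 (L (nat_lit 555) ln11_17_7 ln11_17_7_ok) (M (nat_lit 394) (B (L (nat_lit 427) ln11_16_7 ln11_16_7_ok) (L (nat_lit 362) ln10_11_4 ln10_11_4_ok))))))) (B (M (nat_lit 460) (B (M (nat_lit 426) (B (L (nat_lit 425) ln13_14_3 ln13_14_3_ok) (M (nat_lit 523) (B (L (nat_lit 555) ln11_17_7 ln11_17_7_ok) (M (nat_lit 394) (B (L (nat_lit 427) ln11_16_7 ln11_16_7_ok) (L (nat_lit 362) ln10_11_4 ln10_11_4_ok))))))) (B (M (nat_lit 457) (B (M (nat_lit 489) (B (L (nat_lit 488) ln12_14_1 ln12_14_1_ok) (L (nat_lit 490) ln13_14_1 ln13_14_1_ok))) (M (nat_lit 425) (B (L (nat_lit 424) ln12_14_3 ln12_14_3_ok) (L (nat_lit 426) ln13_14_3 ln13_14_3_ok))))) (M (nat_lit 428) (B (L (nat_lit 457) ln9_14_2 ln9_14_2_ok) (M (nat_lit 396) (B (L (nat_lit 364) ln12_11_4 ln12_11_4_ok) (M (nat_lit 523) (B (L (nat_lit 555) ln11_17_6 ln11_17_6_ok) (L (nat_lit 427) ln11_16_6 ln11_16_6_ok)))))))))) (B (M (nat_lit 523) (B (M (nat_lit 426) (B (L (nat_lit 555)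 ln11_17_7 ln11_17_7_ok) (M (nat_lit 394) (B (L (nat_lit 490) ln10_12_4 ln10_12_4_ok) (L (nat_lit 427) ln11_16_7 ln11_16_7_ok))))) (B (M (nat_lit 427) (B (M (nat_lit 522) (B (L (nat_lit 554) ln11_13_5 ln11_13_5_ok) (M (nat_lit 395) (B (L (nat_lit 490) ln11_12_5 ln11_12_5_ok) (M (nat_lit 396) (B (L (nat_lit 428) ln11_16_6 ln11_16_6_ok) (L (nat_lit 364) ln11_15_6 ln11_15_6_ok))))))) (B (M (nat_lit 395) (B (M (nat_lit 394) (B (L (nat_lit 426) ln11_16_7 ln11_16_7_ok) (L (nat_lit 362) ln11_15_7 ln11_15_7_ok))) (M (nat_lit 396) (B (L (nat_lit 428) ln11_16_6 ln11_16_6_ok) (L (nat_lit 364) ln11_15_6 ln11_15_6_ok))))) (B (M (nat_lit 395) (B (M (nat_lit 522) (B (L (nat_lit 554) ln11_13_5 ln11_13_5_ok) (L (nat_lit 490) ln11_12_5 ln11_12_5_ok))) (M (nat_lit 394) (B (L (nat_lit 426) ln11_16_7 ln11_16_7_ok) (L (nat_lit 362) ln11_15_7 ln11_15_7_ok))))) (M (nat_lit 426) (B (L (nat_lit 394) ln11_16_7 ln11_16_7_ok) (M (nat_lit 428)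 (B (L (nat_lit 396) ln11_16_6 ln11_16_6_ok) (L (nat_lit 457) ln13_13_1 ln13_13_1_ok))))))))) (B (M (nat_lit 426) (B (L (nat_lit 555) ln11_17_7 ln11_17_7_ok) (M (nat_lit 394) (B (L (nat_lit 427) ln11_16_7 ln11_16_7_ok) (L (nat_lit 362) ln10_11_4 ln10_11_4_ok))))) (B (M (nat_lit 427) (B (M (nat_lit 554) (B (L (nat_lit 522) ln11_13_5 ln11_13_5_ok) (M (nat_lit 555) (B (L (nat_lit 586) ln11_14_5 ln11_14_5_ok) (M (nat_lit 556) (B (L (nat_lit 588) ln11_14_4 ln11_14_4_ok) (L (nat_lit 524) ln11_13_4 ln11_13_4_ok))))))) (B (M (nat_lit 522) (B (L (nat_lit 554) ln11_13_5 ln11_13_5_ok) (M (nat_lit 395) (B (L (nat_lit 490) ln11_12_5 ln11_12_5_ok) (M (nat_lit 396) (B (L (nat_lit 428) ln11_16_6 ln11_16_6_ok) (L (nat_lit 364) ln11_15_6 ln11_15_6_ok))))))) (B (M (nat_lit 395) (B (M (nat_lit 490) (B (L (nat_lit 522) ln11_12_5 ln11_12_5_ok) (L (nat_lit 363) ln11_11_5 ln11_11_5_ok))) (M (nat_lit 396) (B (L (nat_lit 428) ln11_16_6 ln11_16_6_ok)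 (L (nat_lit 364) ln11_15_6 ln11_15_6_ok))))) (M (nat_lit 395) (B (M (nat_lit 396) (B (L (nat_lit 428) ln11_16_6 ln11_16_6_ok) (L (nat_lit 364) ln11_15_6 ln11_15_6_ok))) (M (nat_lit 555) (B (M (nat_lit 490) (B (L (nat_lit 587) ln11_18_7 ln11_18_7_ok) (L (nat_lit 363) ln11_11_5 ln11_11_5_ok))) (M (nat_lit 556) (B (L (nat_lit 588) ln11_14_4 ln11_14_4_ok) (L (nat_lit 524) ln11_13_4 ln11_13_4_ok))))))))))) (M (nat_lit 426) (B (L (nat_lit 555) ln11_17_7 ln11_17_7_ok) (M (nat_lit 394) (B (L (nat_lit 490) ln10_12_4 ln10_12_4_ok) (L (nat_lit 362) ln10_11_4 ln10_11_4_ok)))))))))) (M (nat_lit 460) (B (L (nat_lit 494) ln10_14_0 ln10_14_0_ok) (M (nat_lit 428) (B (L (nat_lit 457) ln9_14_2 ln9_14_2_ok) (M (nat_lit 396) (B (L (nat_lit 364) ln12_11_4 ln12_11_4_ok) (M (nat_lit 523) (B (L (nat_lit 555) ln11_17_6 ln11_17_6_ok) (L (nat_lit 427) ln11_16_6 ln11_16_6_ok))))))))))))))) (B (M (nat_lit 460) (B (M (nat_lit 490) (B (L (nat_lit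 462) ln14_14_1 ln14_14_1_ok) (M (nat_lit 458) (B (L (nat_lit 489) ln13_14_1 ln13_14_1_ok) (L (nat_lit 494) ln10_14_0 ln10_14_0_ok))))) (B (M (nat_lit 494) (B (L (nat_lit 458) ln10_14_0 ln10_14_0_ok) (M (nat_lit 495) (B (L (nat_lit 496) ln16_15_3 ln16_15_3_ok) (L (nat_lit 462) ln11_14_0 ln11_14_0_ok))))) (B (M (nat_lit 490) (B (L (nat_lit 462) ln14_14_1 ln14_14_1_ok) (M (nat_lit 489) (B (L (nat_lit 488) ln8_15_2 ln8_15_2_ok) (L (nat_lit 458) ln13_14_1 ln13_14_1_ok))))) (B (M (nat_lit 462) (B (L (nat_lit 490) ln14_14_1 ln14_14_1_ok) (M (nat_lit 463) (B (M (nat_lit 495) (B (L (nat_lit 494) ln11_14_0 ln11_14_0_ok) (L (nat_lit 496) ln12_14_0 ln12_14_0_ok))) (B (M (nat_lit 464) (B (M (nat_lit 496) (B (L (nat_lit 495) ln12_14_0 ln12_14_0_ok) (L (nat_lit 497) ln13_14_0 ln13_14_0_ok))) (M (nat_lit 432) (B (L (nat_lit 431) ln12_14_2 ln12_14_2_ok) (L (nat_lit 433) ln13_14_2 ln13_14_2_ok))))) (B (M (nat_lit 464) (B (M (nat_lit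 432) (B (L (nat_lit 431) ln12_14_2 ln12_14_2_ok) (L (nat_lit 433) ln13_14_2 ln13_14_2_ok))) (M (nat_lit 497) (B (L (nat_lit 496) ln13_14_0 ln13_14_0_ok) (M (nat_lit 465) (B (L (nat_lit 494) ln17_14_1 ln17_14_1_ok) (L (nat_lit 498) ln14_14_0_c10 ln14_14_0_c10_ok))))))) (M (nat_lit 464) (B (M (nat_lit 494) (B (L (nat_lit 465) ln17_14_1 ln17_14_1_ok) (L (nat_lit 495) ln11_14_0 ln11_14_0_ok))) (M (nat_lit 432) (B (L (nat_lit 431) ln12_14_2 ln12_14_2_ok) (L (nat_lit 433) ln13_14_2 ln13_14_2_ok))))))))))) (M (nat_lit 458) (B (L (nat_lit 494) ln10_14_0 ln10_14_0_ok) (M (nat_lit 457) (B (M (nat_lit 489) (B (L (nat_lit 488) ln12_14_1 ln12_14_1_ok) (L (nat_lit 490) ln13_14_1 ln13_14_1_ok))) (M (nat_lit 425) (B (L (nat_lit 424) ln12_14_3 ln12_14_3_ok) (L (nat_lit 426) ln13_14_3 ln13_14_3_ok)))))))))))) (M (nat_lit 460) (B (M (nat_lit 490) (B (L (nat_lit 462) ln14_14_1 ln14_14_1_ok) (M (nat_lit 458) (B (L (nat_lit 489) ln13_14_1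 ln13_14_1_ok) (L (nat_lit 494) ln10_14_0 ln10_14_0_ok))))) (B (M (nat_lit 494) (B (L (nat_lit 458) ln10_14_0 ln10_14_0_ok) (M (nat_lit 495) (B (L (nat_lit 496) ln16_15_3 ln16_15_3_ok) (L (nat_lit 462) ln11_14_0 ln11_14_0_ok))))) (B (M (nat_lit 490) (B (L (nat_lit 462) ln14_14_1 ln14_14_1_ok) (M (nat_lit 489) (B (L (nat_lit 488) ln8_15_2 ln8_15_2_ok) (L (nat_lit 458) ln13_14_1 ln13_14_1_ok))))) (B (M (nat_lit 462) (B (L (nat_lit 490) ln14_14_1 ln14_14_1_ok) (M (nat_lit 463) (B (M (nat_lit 495) (B (L (nat_lit 494) ln11_14_0 ln11_14_0_ok) (L (nat_lit 496) ln12_14_0 ln12_14_0_ok))) (M (nat_lit 464) (B (L (nat_lit 428) ln16_14_3 ln16_14_3_ok) (M (nat_lit 432) (B (L (nat_lit 431) ln12_14_2 ln12_14_2_ok) (L (nat_lit 433) ln13_14_2 ln13_14_2_ok))))))))) (M (nat_lit 458) (B (L (nat_lit 494) ln10_14_0 ln10_14_0_ok) (M (nat_lit 428) (B (L (nat_lit 457) ln9_14_2 ln9_14_2_ok) (M (nat_lit 396) (B (L (nat_lit 364) ln12_11_4 ln12_11_4_ok)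 (M (nat_lit 523) (B (L (nat_lit 555) ln11_17_6 ln11_17_6_ok) (L (nat_lit 427) ln11_16_6 ln11_16_6_ok))))))))))))))))
noncomputable def c10_d387 : Cert := (B (M (nat_lit 427) (B (M (nat_lit 395) (B (M (nat_lit 362) (B (L (nat_lit 394) ln11_15_7 ln11_15_7_ok) (M (nat_lit 363) (B (L (nat_lit 330) ln11_14_7 ln11_14_7_ok) (M (nat_lit 364) (B (L (nat_lit 332) ln11_14_6 ln11_14_6_ok) (L (nat_lit 396) ln11_15_6 ln11_15_6_ok))))))) (B (M (nat_lit 363) (B (M (nat_lit 362) (B (L (nat_lit 330) ln11_14_7 ln11_14_7_ok) (L (nat_lit 394) ln11_15_7 ln11_15_7_ok))) (M (nat_lit 492) (B (L (nat_lit 460) ln11_11_4 ln11_11_4_ok) (L (nat_lit 524) ln11_12_4 ln11_12_4_ok))))) (B (M (nat_lit 363) (B (M (nat_lit 492) (B (L (nat_lit 524) ln11_12_4 ln11_12_4_ok) (L (nat_lit 460) ln11_11_4 ln11_11_4_ok))) (M (nat_lit 364) (B (L (nat_lit 396) ln11_15_6 ln11_15_6_ok) (L (nat_lit 332) ln11_14_6 ln11_14_6_ok))))) (M (nat_lit 394) (B (L (nat_lit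 362) ln11_15_7 ln11_15_7_ok) (M (nat_lit 396) (B (L (nat_lit 364) ln11_15_6 ln11_15_6_ok) (M (nat_lit 393) (B (L (nat_lit 428) ln9_12_0 ln9_12_0_ok) (M (nat_lit 424) (B (L (nat_lit 425) ln12_12_1 ln12_12_1_ok) (M (nat_lit 392) (B (L (nat_lit 423) ln11_12_1 ln11_12_1_ok) (M (nat_lit 360) (B (L (nat_lit 359) ln11_12_3 ln11_12_3_ok) (L (nat_lit 361) ln12_12_3 ln12_12_3_ok))))))))))))))))) (B (M (nat_lit 395) (B (M (nat_lit 362) (B (L (nat_lit 394) ln11_15_7 ln11_15_7_ok) (M (nat_lit 363) (B (L (nat_lit 330) ln11_14_7 ln11_14_7_ok) (M (nat_lit 364) (B (L (nat_lit 396) ln11_15_6 ln11_15_6_ok) (L (nat_lit 332) ln11_14_6 ln11_14_6_ok))))))) (B (M (nat_lit 363) (B (M (nat_lit 492) (B (L (nat_lit 524) ln11_12_4 ln11_12_4_ok) (L (nat_lit 460) ln11_11_4 ln11_11_4_ok))) (M (nat_lit 364) (B (L (nat_lit 396) ln11_15_6 ln11_15_6_ok) (L (nat_lit 332) ln11_14_6 ln11_14_6_ok))))) (B (M (nat_lit 363) (B (M (nat_lit 492) (B (L (nat_lit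 524) ln11_12_4 ln11_12_4_ok) (L (nat_lit 460) ln11_11_4 ln11_11_4_ok))) (M (nat_lit 362) (B (L (nat_lit 394) ln11_15_7 ln11_15_7_ok) (L (nat_lit 330) ln11_14_7 ln11_14_7_ok))))) (M (nat_lit 523) (B (M (nat_lit 524) (B (L (nat_lit 556) ln11_13_4 ln11_13_4_ok) (L (nat_lit 492) ln11_12_4 ln11_12_4_ok))) (M (nat_lit 394) (B (L (nat_lit 426) ln11_16_7 ln11_16_7_ok) (L (nat_lit 362) ln11_15_7 ln11_15_7_ok))))))))) (B (K (nat_lit 31966705162678588987867488751132608050875320277760019432883677375956151604605695998197267547608870158385550689840499276008422439846183594606534328320) (nat_lit 1266331655955072354700736160263842181297119554189108066459197727435068492823292433498396499686440572010943492422642976702846243148608065879837086155681643485128913663841250836480) (nat_lit 1266331655955072354700736160263842181297119554189108066459197727435068492823292433498396499686440572010943492422642976702846243148608065879837086155681643485128913663841250836480)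 c10_s553) (B (M (nat_lit 428) (B (M (nat_lit 462) (B (L (nat_lit 426) ln10_13_0 ln10_13_0_ok) (M (nat_lit 463) (B (L (nat_lit 460) ln15_14_3 ln15_14_3_ok) (L (nat_lit 464) ln16_14_3 ln16_14_3_ok))))) (M (nat_lit 396) (B (L (nat_lit 523) ln11_16_6 ln11_16_6_ok) (M (nat_lit 364) (B (L (nat_lit 395) ln11_15_6 ln11_15_6_ok) (L (nat_lit 332) ln12_10_4 ln12_10_4_ok))))))) (M (nat_lit 426) (B (M (nat_lit 462) (B (L (nat_lit 460) ln14_14_3 ln14_14_3_ok) (L (nat_lit 428) ln10_13_0 ln10_13_0_ok))) (M (nat_lit 394) (B (L (nat_lit 523) ln11_16_7 ln11_16_7_ok) (M (nat_lit 362) (B (L (nat_lit 395) ln11_15_7 ln11_15_7_ok) (L (nat_lit 330) ln10_10_4 ln10_10_4_ok)))))))))))) (B (K (nat_lit 31966705162678588987520905039367506193428018504742133969954122741534174532709386050620439884133166955505553889077481828746248538476008148127912558592) (nat_lit 1266331655955072354700736160621869279039481485490670749433086632967896314848802606685960216860156501030835595337450651081150203761440336483540113288075090757188290355050057826304)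 (nat_lit 1266331655955072354700736160621869279039481485490670749433086632967896314848802606685960216860156501030835595337450651081150203761440336483540113288075090757188290355050057826304) c10_s552) (B (M (nat_lit 460) (B (M (nat_lit 494) (B (L (nat_lit 458) ln10_14_0 ln10_14_0_ok) (M (nat_lit 495) (B (L (nat_lit 492) ln15_15_3 ln15_15_3_ok) (L (nat_lit 496) ln16_15_3 ln16_15_3_ok))))) (B (M (nat_lit 458) (B (L (nat_lit 494) ln10_14_0 ln10_14_0_ok) (M (nat_lit 457) (B (M (nat_lit 425) (B (L (nat_lit 424) ln12_14_3 ln12_14_3_ok) (L (nat_lit 426) ln13_14_3 ln13_14_3_ok))) (M (nat_lit 456) (B (M (nat_lit 488) (B (L (nat_lit 487) ln11_14_1 ln11_14_1_ok) (L (nat_lit 489) ln12_14_1 ln12_14_1_ok))) (L (nat_lit 428) ln9_14_2 ln9_14_2_ok))))))) (B (M (nat_lit 523) (B (M (nat_lit 428) (B (L (nat_lit 555) ln11_17_6 ln11_17_6_ok) (M (nat_lit 396) (B (L (nat_lit 492) ln12_12_5 ln12_12_5_ok) (L (nat_lit 427) ln11_16_6 ln11_16_6_ok)))))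 (B (M (nat_lit 427) (B (M (nat_lit 426) (B (L (nat_lit 394) ln11_16_7 ln11_16_7_ok) (M (nat_lit 425) (B (L (nat_lit 458) ln13_14_3 ln13_14_3_ok) (L (nat_lit 424) ln8_13_0 ln8_13_0_ok))))) (B (M (nat_lit 426) (B (L (nat_lit 394) ln11_16_7 ln11_16_7_ok) (M (nat_lit 425) (B (L (nat_lit 424) ln8_13_0 ln8_13_0_ok) (L (nat_lit 428) ln9_13_0 ln9_13_0_ok))))) (B (M (nat_lit 426) (B (L (nat_lit 394) ln11_16_7 ln11_16_7_ok) (M (nat_lit 425) (B (L (nat_lit 458) ln13_14_3 ln13_14_3_ok) (L (nat_lit 428) ln9_13_0 ln9_13_0_ok))))) (M (nat_lit 395) (B (M (nat_lit 524) (B (L (nat_lit 556) ln11_13_4 ln11_13_4_ok) (L (nat_lit 492) ln11_12_4 ln11_12_4_ok))) (M (nat_lit 396) (B (L (nat_lit 428) ln11_16_6 ln11_16_6_ok) (L (nat_lit 364) ln11_15_6 ln11_15_6_ok))))))))) (B (M (nat_lit 428) (B (L (nat_lit 555) ln11_17_6 ln11_17_6_ok) (M (nat_lit 396) (B (L (nat_lit 427) ln11_16_6 ln11_16_6_ok) (L (nat_lit 364) ln12_11_4 ln12_11_4_ok)))))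 (B (M (nat_lit 428) (B (L (nat_lit 555) ln11_17_6 ln11_17_6_ok) (M (nat_lit 396) (B (L (nat_lit 492) ln12_12_5 ln12_12_5_ok) (L (nat_lit 364) ln12_11_4 ln12_11_4_ok))))) (M (nat_lit 427) (B (M (nat_lit 426) (B (L (nat_lit 394) ln11_16_7 ln11_16_7_ok) (M (nat_lit 458) (B (L (nat_lit 555) ln11_17_7 ln11_17_7_ok) (L (nat_lit 425) ln13_14_3 ln13_14_3_ok))))) (B (M (nat_lit 426) (B (L (nat_lit 394) ln11_16_7 ln11_16_7_ok) (M (nat_lit 425) (B (L (nat_lit 458) ln13_14_3 ln13_14_3_ok) (L (nat_lit 424) ln8_13_0 ln8_13_0_ok))))) (M (nat_lit 555) (B (M (nat_lit 554) (B (L (nat_lit 586) ln11_14_5 ln11_14_5_ok) (L (nat_lit 522) ln11_13_5 ln11_13_5_ok))) (M (nat_lit 556) (B (L (nat_lit 588) ln11_14_4 ln11_14_4_ok) (L (nat_lit 524) ln11_13_4 ln11_13_4_ok))))))))))))) (M (nat_lit 523) (B (M (nat_lit 428) (B (L (nat_lit 555) ln11_17_6 ln11_17_6_ok) (M (nat_lit 396) (B (L (nat_lit 492) ln12_12_5 ln12_12_5_ok) (L (nat_lit 427) ln11_16_6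 ln11_16_6_ok))))) (B (M (nat_lit 427) (B (M (nat_lit 426) (B (L (nat_lit 394) ln11_16_7 ln11_16_7_ok) (M (nat_lit 425) (B (L (nat_lit 424) ln8_13_0 ln8_13_0_ok) (L (nat_lit 428) ln9_13_0 ln9_13_0_ok))))) (M (nat_lit 492) (B (M (nat_lit 522) (B (L (nat_lit 554) ln11_13_5 ln11_13_5_ok) (L (nat_lit 494) ln14_15_1 ln14_15_1_ok))) (M (nat_lit 524) (B (L (nat_lit 556) ln11_13_4 ln11_13_4_ok) (L (nat_lit 395) ln11_12_4 ln11_12_4_ok))))))) (B (M (nat_lit 428) (B (L (nat_lit 555) ln11_17_6 ln11_17_6_ok) (M (nat_lit 396) (B (L (nat_lit 427) ln11_16_6 ln11_16_6_ok) (L (nat_lit 364) ln12_11_4 ln12_11_4_ok))))) (B (M (nat_lit 428) (B (L (nat_lit 555) ln11_17_6 ln11_17_6_ok) (M (nat_lit 396) (B (L (nat_lit 492) ln12_12_5 ln12_12_5_ok) (L (nat_lit 364) ln12_11_4 ln12_11_4_ok))))) (M (nat_lit 492) (B (M (nat_lit 494) (B (L (nat_lit 522) ln14_15_1 ln14_15_1_ok) (L (nat_lit 495) ln15_15_3 ln15_15_3_ok))) (M (nat_lit 556) (B (M (nat_lit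 555) (B (L (nat_lit 587) ln11_18_6 ln11_18_6_ok) (L (nat_lit 588) ln11_14_4 ln11_14_4_ok))) (B (M (nat_lit 588) (B (L (nat_lit 555) ln11_14_4 ln11_14_4_ok) (L (nat_lit 524) ln12_17_6 ln12_17_6_ok))) (L (nat_lit 524) ln12_17_6 ln12_17_6_ok))))))))))))))) (M (nat_lit 494) (B (M (nat_lit 458) (B (L (nat_lit 492) ln14_15_3 ln14_15_3_ok) (L (nat_lit 460) ln10_14_0 ln10_14_0_ok))) (B (M (nat_lit 460) (B (L (nat_lit 458) ln10_14_0 ln10_14_0_ok) (M (nat_lit 495) (B (L (nat_lit 496) ln16_15_3 ln16_15_3_ok) (L (nat_lit 462) ln11_14_0 ln11_14_0_ok))))) (B (M (nat_lit 495) (B (M (nat_lit 460) (B (L (nat_lit 492) ln15_15_3 ln15_15_3_ok) (L (nat_lit 496) ln16_15_3 ln16_15_3_ok))) (B (M (nat_lit 460) (B (L (nat_lit 496) ln16_15_3 ln16_15_3_ok) (L (nat_lit 462) ln11_14_0 ln11_14_0_ok))) (B (M (nat_lit 460) (B (L (nat_lit 492) ln15_15_3 ln15_15_3_ok) (L (nat_lit 462) ln11_14_0 ln11_14_0_ok))) (M (nat_lit 492) (B (M (nat_lit 527)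 (B (L (nat_lit 526) ln11_15_0 ln11_15_0_ok) (L (nat_lit 528) ln12_15_0 ln12_15_0_ok))) (M (nat_lit 463) (B (L (nat_lit 462) ln11_15_2 ln11_15_2_ok) (L (nat_lit 464) ln12_15_2 ln12_15_2_ok))))))))) (M (nat_lit 492) (B (L (nat_lit 458) ln14_15_3 ln14_15_3_ok) (M (nat_lit 495) (B (M (nat_lit 527) (B (L (nat_lit 526) ln11_15_0 ln11_15_0_ok) (L (nat_lit 528) ln12_15_0 ln12_15_0_ok))) (M (nat_lit 463) (B (L (nat_lit 462) ln11_15_2 ln11_15_2_ok) (L (nat_lit 464) ln12_15_2 ln12_15_2_ok))))))))))))))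
noncomputable def c10_d388 : Cert := (B (M (nat_lit 492) (B (M (nat_lit 524) (B (L (nat_lit 395) ln11_12_4 ln11_12_4_ok) (M (nat_lit 556) (B (L (nat_lit 588) ln12_18_6 ln12_18_6_ok) (L (nat_lit 460) ln12_17_6 ln12_17_6_ok))))) (B (M (nat_lit 395) (B (L (nat_lit 524) ln11_12_4 ln11_12_4_ok) (M (nat_lit 490) (B (L (nat_lit 522) ln11_12_5 ln11_12_5_ok) (M (nat_lit 363) (B (L (nat_lit 458) ln11_11_5 ln11_11_5_ok) (L (nat_lit 460) ln11_11_4 ln11_11_4_ok))))))) (B (M (nat_lit 490) (B (M (nat_lit 522) (B (L (nat_lit 521) ln13_15_1 ln13_15_1_ok) (L (nat_lit 395) ln11_12_5 ln11_12_5_ok))) (M (nat_lit 489) (B (L (nat_lit 460) ln9_15_2 ln9_15_2_ok) (M (nat_lit 457) (B (L (nat_lit 456) ln12_15_3 ln12_15_3_ok) (L (nat_lit 458) ln13_15_3 ln13_15_3_ok))))))) (B (M (nat_lit 395) (B (L (nat_lit 524) ln11_12_4 ln11_12_4_ok) (M (nat_lit 490) (B (L (nat_lit 522) ln11_12_5 ln11_12_5_ok) (M (nat_lit 458) (B (L (nat_lit 457) ln13_15_3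 ln13_15_3_ok) (L (nat_lit 363) ln11_11_5 ln11_11_5_ok))))))) (M (nat_lit 490) (B (M (nat_lit 489) (B (L (nat_lit 460) ln9_15_2 ln9_15_2_ok) (M (nat_lit 457) (B (L (nat_lit 456) ln12_15_3 ln12_15_3_ok) (L (nat_lit 458) ln13_15_3 ln13_15_3_ok))))) (B (M (nat_lit 458) (B (L (nat_lit 457) ln13_15_3 ln13_15_3_ok) (M (nat_lit 522) (B (L (nat_lit 554) ln10_17_6 ln10_17_6_ok) (L (nat_lit 521) ln13_15_1 ln13_15_1_ok))))) (M (nat_lit 489) (B (L (nat_lit 460) ln9_15_2 ln9_15_2_ok) (M (nat_lit 521) (B (L (nat_lit 520) ln12_15_1 ln12_15_1_ok) (L (nat_lit 522) ln13_15_1 ln13_15_1_ok))))))))))))) (B (M (nat_lit 395) (B (M (nat_lit 363) (B (M (nat_lit 362) (B (L (nat_lit 394) ln11_15_7 ln11_15_7_ok) (L (nat_lit 330) ln11_14_7 ln11_14_7_ok))) (M (nat_lit 364) (B (L (nat_lit 396) ln11_15_6 ln11_15_6_ok) (L (nat_lit 332) ln11_14_6 ln11_14_6_ok))))) (B (M (nat_lit 363) (B (M (nat_lit 490) (B (L (nat_lit 522) ln11_12_5 ln11_12_5_ok)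 (L (nat_lit 458) ln11_11_5 ln11_11_5_ok))) (M (nat_lit 364) (B (L (nat_lit 396) ln11_15_6 ln11_15_6_ok) (L (nat_lit 332) ln11_14_6 ln11_14_6_ok))))) (B (M (nat_lit 363) (B (M (nat_lit 490) (B (L (nat_lit 522) ln11_12_5 ln11_12_5_ok) (L (nat_lit 458) ln11_11_5 ln11_11_5_ok))) (M (nat_lit 362) (B (L (nat_lit 394) ln11_15_7 ln11_15_7_ok) (L (nat_lit 330) ln11_14_7 ln11_14_7_ok))))) (M (nat_lit 523) (B (M (nat_lit 522) (B (L (nat_lit 554) ln11_13_5 ln11_13_5_ok) (L (nat_lit 490) ln11_12_5 ln11_12_5_ok))) (M (nat_lit 394) (B (L (nat_lit 426) ln11_16_7 ln11_16_7_ok) (L (nat_lit 362) ln11_15_7 ln11_15_7_ok))))))))) (M (nat_lit 458) (B (M (nat_lit 457) (B (M (nat_lit 492) (B (L (nat_lit 490) ln13_15_3 ln13_15_3_ok) (L (nat_lit 456) ln8_14_0 ln8_14_0_ok))) (B (M (nat_lit 492) (B (L (nat_lit 456) ln8_14_0 ln8_14_0_ok) (L (nat_lit 460) ln9_14_0 ln9_14_0_ok))) (B (M (nat_lit 456) (B (L (nat_lit 428) ln8_14_2 ln8_14_2_ok) (M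 (nat_lit 455) (B (L (nat_lit 490) ln7_14_0 ln7_14_0_ok) (L (nat_lit 426) ln7_14_2 ln7_14_2_ok))))) (M (nat_lit 492) (B (L (nat_lit 490) ln13_15_3 ln13_15_3_ok) (L (nat_lit 460) ln9_14_0 ln9_14_0_ok))))))) (B (M (nat_lit 457) (B (M (nat_lit 492) (B (L (nat_lit 456) ln8_14_0 ln8_14_0_ok) (L (nat_lit 460) ln9_14_0 ln9_14_0_ok))) (B (M (nat_lit 428) (B (L (nat_lit 456) ln8_14_2 ln8_14_2_ok) (L (nat_lit 460) ln9_14_2 ln9_14_2_ok))) (B (M (nat_lit 460) (B (L (nat_lit 492) ln9_14_0 ln9_14_0_ok) (M (nat_lit 425) (B (L (nat_lit 424) ln12_14_3 ln12_14_3_ok) (L (nat_lit 426) ln13_14_3 ln13_14_3_ok))))) (M (nat_lit 456) (B (L (nat_lit 492) ln8_14_0 ln8_14_0_ok) (L (nat_lit 428) ln8_14_2 ln8_14_2_ok))))))) (B (M (nat_lit 457) (B (M (nat_lit 456) (B (L (nat_lit 428) ln8_14_2 ln8_14_2_ok) (M (nat_lit 455) (B (L (nat_lit 490) ln7_14_0 ln7_14_0_ok) (L (nat_lit 426) ln7_14_2 ln7_14_2_ok))))) (B (M (nat_lit 428) (B (L (nat_lit 456)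 ln8_14_2 ln8_14_2_ok) (L (nat_lit 460) ln9_14_2 ln9_14_2_ok))) (M (nat_lit 460) (B (M (nat_lit 489) (B (L (nat_lit 488) ln12_14_1 ln12_14_1_ok) (L (nat_lit 490) ln13_14_1 ln13_14_1_ok))) (M (nat_lit 425) (B (L (nat_lit 424) ln12_14_3 ln12_14_3_ok) (L (nat_lit 426) ln13_14_3 ln13_14_3_ok)))))))) (B (M (nat_lit 460) (B (M (nat_lit 426) (B (L (nat_lit 425) ln13_14_3 ln13_14_3_ok) (M (nat_lit 523) (B (L (nat_lit 555) ln11_17_7 ln11_17_7_ok) (L (nat_lit 394) ln11_16_7 ln11_16_7_ok))))) (M (nat_lit 489) (B (L (nat_lit 490) ln13_14_1 ln13_14_1_ok) (M (nat_lit 457) (B (L (nat_lit 488) ln12_14_1 ln12_14_1_ok) (L (nat_lit 492) ln9_14_0 ln9_14_0_ok))))))) (B (M (nat_lit 490) (B (M (nat_lit 460) (B (L (nat_lit 489) ln13_14_1 ln13_14_1_ok) (M (nat_lit 426) (B (L (nat_lit 425) ln13_14_3 ln13_14_3_ok) (M (nat_lit 523) (B (L (nat_lit 555) ln11_17_7 ln11_17_7_ok) (L (nat_lit 394) ln10_12_4 ln10_12_4_ok))))))) (B (M (nat_lit 522)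 (B (L (nat_lit 554) ln10_17_6 ln10_17_6_ok) (M (nat_lit 426) (B (M (nat_lit 521) (B (L (nat_lit 553) ln10_13_5 ln10_13_5_ok) (L (nat_lit 492) ln13_15_1 ln13_15_1_ok))) (M (nat_lit 460) (B (L (nat_lit 489) ln13_14_1 ln13_14_1_ok) (L (nat_lit 425) ln13_14_3 ln13_14_3_ok))))))) (B (M (nat_lit 522) (B (L (nat_lit 554) ln10_17_6 ln10_17_6_ok) (M (nat_lit 426) (B (M (nat_lit 521) (B (L (nat_lit 553) ln10_13_5 ln10_13_5_ok) (L (nat_lit 492) ln13_15_1 ln13_15_1_ok))) (M (nat_lit 523) (B (L (nat_lit 555) ln10_13_4 ln10_13_4_ok) (L (nat_lit 394) ln10_12_4 ln10_12_4_ok))))))) (M (nat_lit 523) (B (M (nat_lit 554) (B (L (nat_lit 522) ln11_13_5 ln11_13_5_ok) (M (nat_lit 555) (B (L (nat_lit 586) ln11_14_5 ln11_14_5_ok) (L (nat_lit 587) ln11_18_7 ln11_18_7_ok))))) (M (nat_lit 489) (B (L (nat_lit 460) ln13_14_1 ln13_14_1_ok) (M (nat_lit 524) (B (L (nat_lit 556) ln11_13_4 ln11_13_4_ok) (L (nat_lit 488) ln8_15_0 ln8_15_0_ok)))))))))))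 (B (M (nat_lit 523) (B (M (nat_lit 426) (B (L (nat_lit 555) ln11_17_7 ln11_17_7_ok) (L (nat_lit 394) ln11_16_7 ln11_16_7_ok))) (M (nat_lit 522) (B (L (nat_lit 554) ln11_13_5 ln11_13_5_ok) (M (nat_lit 492) (B (M (nat_lit 521) (B (L (nat_lit 520) ln8_16_2 ln8_16_2_ok) (L (nat_lit 524) ln9_16_2 ln9_16_2_ok))) (B (M (nat_lit 521) (B (L (nat_lit 524) ln9_16_2 ln9_16_2_ok) (L (nat_lit 490) ln13_15_1 ln13_15_1_ok))) (M (nat_lit 457) (B (L (nat_lit 490) ln13_15_3 ln13_15_3_ok) (L (nat_lit 456) ln8_14_0 ln8_14_0_ok)))))))))) (M (nat_lit 457) (B (M (nat_lit 492) (B (L (nat_lit 490) ln13_15_3 ln13_15_3_ok) (L (nat_lit 456) ln8_14_0 ln8_14_0_ok))) (B (M (nat_lit 456) (B (L (nat_lit 492) ln8_14_0 ln8_14_0_ok) (L (nat_lit 428) ln8_14_2 ln8_14_2_ok))) (M (nat_lit 460) (B (M (nat_lit 489) (B (L (nat_lit 488) ln12_14_1 ln12_14_1_ok) (L (nat_lit 490) ln13_14_1 ln13_14_1_ok))) (L (nat_lit 428) ln9_14_2 ln9_14_2_ok)))))))))))))))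
noncomputable def c10_d389 : Cert := (B (M (nat_lit 395) (B (M (nat_lit 362) (B (L (nat_lit 394) ln11_15_7 ln11_15_7_ok) (M (nat_lit 363) (B (L (nat_lit 330) ln11_14_7 ln11_14_7_ok) (M (nat_lit 364) (B (L (nat_lit 396) ln11_15_6 ln11_15_6_ok) (L (nat_lit 332) ln11_14_6 ln11_14_6_ok))))))) (B (M (nat_lit 363) (B (M (nat_lit 492) (B (L (nat_lit 524) ln11_12_4 ln11_12_4_ok) (L (nat_lit 460) ln11_11_4 ln11_11_4_ok))) (M (nat_lit 364) (B (L (nat_lit 396) ln11_15_6 ln11_15_6_ok) (L (nat_lit 332) ln11_14_6 ln11_14_6_ok))))) (B (M (nat_lit 363) (B (M (nat_lit 492) (B (L (nat_lit 524) ln11_12_4 ln11_12_4_ok) (L (nat_lit 460) ln11_11_4 ln11_11_4_ok))) (M (nat_lit 362) (B (L (nat_lit 394) ln11_15_7 ln11_15_7_ok) (L (nat_lit 330) ln11_14_7 ln11_14_7_ok))))) (M (nat_lit 523) (B (M (nat_lit 524) (B (L (nat_lit 556) ln11_13_4 ln11_13_4_ok) (L (nat_lit 492) ln11_12_4 ln11_12_4_ok))) (M (nat_lit 394) (B (L (nat_lit 426) ln11_16_7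 ln11_16_7_ok) (L (nat_lit 362) ln11_15_7 ln11_15_7_ok))))))))) (B (M (nat_lit 523) (B (M (nat_lit 556) (B (L (nat_lit 524) ln11_13_4 ln11_13_4_ok) (M (nat_lit 555) (B (L (nat_lit 588) ln11_14_4 ln11_14_4_ok) (M (nat_lit 554) (B (L (nat_lit 522) ln11_13_5 ln11_13_5_ok) (L (nat_lit 586) ln11_14_5 ln11_14_5_ok))))))) (B (M (nat_lit 555) (B (M (nat_lit 426) (B (L (nat_lit 394) ln11_16_7 ln11_16_7_ok) (L (nat_lit 458) ln11_17_7 ln11_17_7_ok))) (M (nat_lit 554) (B (L (nat_lit 522) ln11_13_5 ln11_13_5_ok) (L (nat_lit 586) ln11_14_5 ln11_14_5_ok))))) (B (M (nat_lit 555) (B (M (nat_lit 426) (B (L (nat_lit 394) ln11_16_7 ln11_16_7_ok) (L (nat_lit 458) ln11_17_7 ln11_17_7_ok))) (M (nat_lit 556) (B (L (nat_lit 524) ln11_13_4 ln11_13_4_ok) (L (nat_lit 588) ln11_14_4 ln11_14_4_ok))))) (M (nat_lit 395) (B (M (nat_lit 394) (B (L (nat_lit 362) ln11_15_7 ln11_15_7_ok) (L (nat_lit 426) ln11_16_7 ln11_16_7_ok))) (M (nat_lit 524) (B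 (L (nat_lit 492) ln11_12_4 ln11_12_4_ok) (L (nat_lit 556) ln11_13_4 ln11_13_4_ok))))))))) (B (M (nat_lit 523) (B (M (nat_lit 554) (B (L (nat_lit 522) ln11_13_5 ln11_13_5_ok) (M (nat_lit 555) (B (L (nat_lit 586) ln11_14_5 ln11_14_5_ok) (M (nat_lit 556) (B (L (nat_lit 524) ln11_13_4 ln11_13_4_ok) (L (nat_lit 588) ln11_14_4 ln11_14_4_ok))))))) (B (M (nat_lit 555) (B (M (nat_lit 426) (B (L (nat_lit 394) ln11_16_7 ln11_16_7_ok) (L (nat_lit 458) ln11_17_7 ln11_17_7_ok))) (M (nat_lit 556) (B (L (nat_lit 524) ln11_13_4 ln11_13_4_ok) (L (nat_lit 588) ln11_14_4 ln11_14_4_ok))))) (B (M (nat_lit 555) (B (M (nat_lit 426) (B (L (nat_lit 394) ln11_16_7 ln11_16_7_ok) (L (nat_lit 458) ln11_17_7 ln11_17_7_ok))) (M (nat_lit 554) (B (L (nat_lit 522) ln11_13_5 ln11_13_5_ok) (L (nat_lit 586) ln11_14_5 ln11_14_5_ok))))) (M (nat_lit 426) (B (L (nat_lit 394) ln11_16_7 ln11_16_7_ok) (M (nat_lit 428) (B (L (nat_lit 396) ln11_16_6 ln11_16_6_ok)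 (M (nat_lit 425) (B (L (nat_lit 460) ln9_13_0 ln9_13_0_ok) (M (nat_lit 457) (B (L (nat_lit 456) ln12_13_1 ln12_13_1_ok) (L (nat_lit 458) ln13_13_1 ln13_13_1_ok))))))))))))) (B (M (nat_lit 395) (B (M (nat_lit 363) (B (M (nat_lit 492) (B (L (nat_lit 524) ln11_12_4 ln11_12_4_ok) (L (nat_lit 460) ln11_11_4 ln11_11_4_ok))) (M (nat_lit 362) (B (L (nat_lit 394) ln11_15_7 ln11_15_7_ok) (L (nat_lit 330) ln11_14_7 ln11_14_7_ok))))) (B (M (nat_lit 364) (B (L (nat_lit 396) ln11_15_6 ln11_15_6_ok) (M (nat_lit 363) (B (L (nat_lit 332) ln11_14_6 ln11_14_6_ok) (M (nat_lit 362) (B (L (nat_lit 394) ln11_15_7 ln11_15_7_ok) (L (nat_lit 330) ln11_14_7 ln11_14_7_ok))))))) (B (M (nat_lit 363) (B (M (nat_lit 492) (B (L (nat_lit 524) ln11_12_4 ln11_12_4_ok) (L (nat_lit 460) ln11_11_4 ln11_11_4_ok))) (M (nat_lit 364) (B (L (nat_lit 396) ln11_15_6 ln11_15_6_ok) (L (nat_lit 332) ln11_14_6 ln11_14_6_ok))))) (M (nat_lit 523) (B (M (nat_lit 524)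 (B (L (nat_lit 556) ln11_13_4 ln11_13_4_ok) (L (nat_lit 492) ln11_12_4 ln11_12_4_ok))) (M (nat_lit 396) (B (L (nat_lit 428) ln11_16_6 ln11_16_6_ok) (L (nat_lit 364) ln11_15_6 ln11_15_6_ok))))))))) (B (M (nat_lit 523) (B (M (nat_lit 555) (B (M (nat_lit 428) (B (L (nat_lit 396) ln11_16_6 ln11_16_6_ok) (L (nat_lit 460) ln11_17_6 ln11_17_6_ok))) (M (nat_lit 554) (B (L (nat_lit 522) ln11_13_5 ln11_13_5_ok) (L (nat_lit 586) ln11_14_5 ln11_14_5_ok))))) (B (M (nat_lit 556) (B (L (nat_lit 524) ln11_13_4 ln11_13_4_ok) (M (nat_lit 555) (B (L (nat_lit 588) ln11_14_4 ln11_14_4_ok) (M (nat_lit 554) (B (L (nat_lit 522) ln11_13_5 ln11_13_5_ok) (L (nat_lit 586) ln11_14_5 ln11_14_5_ok))))))) (B (M (nat_lit 555) (B (M (nat_lit 428) (B (L (nat_lit 396) ln11_16_6 ln11_16_6_ok) (L (nat_lit 460) ln11_17_6 ln11_17_6_ok))) (M (nat_lit 556) (B (L (nat_lit 524) ln11_13_4 ln11_13_4_ok) (L (nat_lit 588) ln11_14_4 ln11_14_4_ok))))) (M (nat_lit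 395) (B (M (nat_lit 396) (B (L (nat_lit 364) ln11_15_6 ln11_15_6_ok) (L (nat_lit 428) ln11_16_6 ln11_16_6_ok))) (M (nat_lit 524) (B (L (nat_lit 492) ln11_12_4 ln11_12_4_ok) (L (nat_lit 556) ln11_13_4 ln11_13_4_ok))))))))) (B (M (nat_lit 523) (B (M (nat_lit 555) (B (M (nat_lit 426) (B (L (nat_lit 394) ln11_16_7 ln11_16_7_ok) (L (nat_lit 458) ln11_17_7 ln11_17_7_ok))) (M (nat_lit 554) (B (L (nat_lit 522) ln11_13_5 ln11_13_5_ok) (L (nat_lit 586) ln11_14_5 ln11_14_5_ok))))) (B (M (nat_lit 555) (B (M (nat_lit 428) (B (L (nat_lit 396) ln11_16_6 ln11_16_6_ok) (L (nat_lit 460) ln11_17_6 ln11_17_6_ok))) (M (nat_lit 554) (B (L (nat_lit 522) ln11_13_5 ln11_13_5_ok) (L (nat_lit 586) ln11_14_5 ln11_14_5_ok))))) (B (M (nat_lit 555) (B (M (nat_lit 428) (B (L (nat_lit 396) ln11_16_6 ln11_16_6_ok) (L (nat_lit 460) ln11_17_6 ln11_17_6_ok))) (M (nat_lit 426) (B (L (nat_lit 394) ln11_16_7 ln11_16_7_ok) (L (nat_lit 458) ln11_17_7 ln11_17_7_ok)))))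 (M (nat_lit 396) (B (L (nat_lit 428) ln11_16_6 ln11_16_6_ok) (M (nat_lit 395) (B (L (nat_lit 364) ln11_15_6 ln11_15_6_ok) (M (nat_lit 394) (B (L (nat_lit 362) ln11_15_7 ln11_15_7_ok) (L (nat_lit 426) ln11_16_7 ln11_16_7_ok))))))))))) (M (nat_lit 426) (B (M (nat_lit 462) (B (L (nat_lit 428) ln10_13_0 ln10_13_0_ok) (L (nat_lit 460) ln14_14_3 ln14_14_3_ok))) (B (M (nat_lit 460) (B (L (nat_lit 462) ln14_14_3 ln14_14_3_ok) (M (nat_lit 425) (B (L (nat_lit 424) ln8_13_0 ln8_13_0_ok) (L (nat_lit 458) ln13_14_3 ln13_14_3_ok))))) (B (M (nat_lit 425) (B (M (nat_lit 460) (B (L (nat_lit 428) ln9_13_0 ln9_13_0_ok) (L (nat_lit 424) ln8_13_0 ln8_13_0_ok))) (B (M (nat_lit 460) (B (L (nat_lit 424) ln8_13_0 ln8_13_0_ok) (L (nat_lit 458) ln13_14_3 ln13_14_3_ok))) (B (M (nat_lit 460) (B (L (nat_lit 428) ln9_13_0 ln9_13_0_ok) (L (nat_lit 458) ln13_14_3 ln13_14_3_ok))) (M (nat_lit 428) (B (M (nat_lit 393) (B (L (nat_lit 394) ln13_13_3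 ln13_13_3_ok) (L (nat_lit 392) ln12_13_3 ln12_13_3_ok))) (M (nat_lit 457) (B (L (nat_lit 458) ln13_13_1 ln13_13_1_ok) (L (nat_lit 456) ln12_13_1 ln12_13_1_ok))))))))) (M (nat_lit 428) (B (L (nat_lit 462) ln10_13_0 ln10_13_0_ok) (M (nat_lit 425) (B (M (nat_lit 393) (B (L (nat_lit 394) ln13_13_3 ln13_13_3_ok) (L (nat_lit 392) ln12_13_3 ln12_13_3_ok))) (M (nat_lit 457) (B (L (nat_lit 458) ln13_13_1 ln13_13_1_ok) (L (nat_lit 456) ln12_13_1 ln12_13_1_ok)))))))))))))))))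
noncomputable def c10_d390 : Cert := (B (M (nat_lit 492) (B (M (nat_lit 462) (B (L (nat_lit 490) ln10_15_2 ln10_15_2_ok) (M (nat_lit 463) (B (L (nat_lit 460) ln15_14_1 ln15_14_1_ok) (L (nat_lit 464) ln16_14_1 ln16_14_1_ok))))) (B (M (nat_lit 427) (B (M (nat_lit 524) (B (L (nat_lit 395) ln11_12_4 ln11_12_4_ok) (M (nat_lit 556) (B (L (nat_lit 588) ln12_18_6 ln12_18_6_ok) (L (nat_lit 460) ln12_17_6 ln12_17_6_ok))))) (B (M (nat_lit 524) (B (L (nat_lit 395) ln11_12_4 ln11_12_4_ok) (M (nat_lit 556) (B (L (nat_lit 523) ln11_13_4 ln11_13_4_ok) (L (nat_lit 460) ln12_17_6 ln12_17_6_ok))))) (B (M (nat_lit 460) (B (M (nat_lit 395) (B (L (nat_lit 524) ln11_12_4 ln11_12_4_ok) (L (nat_lit 363) ln11_11_4 ln11_11_4_ok))) (M (nat_lit 462) (B (L (nat_lit 463) ln15_14_1 ln15_14_1_ok) (L (nat_lit 426) ln14_14_3 ln14_14_3_ok))))) (B (M (nat_lit 395) (B (M (nat_lit 363) (B (L (nat_lit 460) ln11_11_4 ln11_11_4_ok) (M (nat_lit 362) (B (L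 (nat_lit 394) ln11_15_7 ln11_15_7_ok) (L (nat_lit 330) ln11_14_7 ln11_14_7_ok))))) (B (M (nat_lit 523) (B (M (nat_lit 394) (B (L (nat_lit 426) ln11_16_7 ln11_16_7_ok) (L (nat_lit 362) ln11_15_7 ln11_15_7_ok))) (M (nat_lit 396) (B (L (nat_lit 428) ln11_16_6 ln11_16_6_ok) (L (nat_lit 364) ln11_15_6 ln11_15_6_ok))))) (M (nat_lit 460) (B (L (nat_lit 363) ln11_11_4 ln11_11_4_ok) (M (nat_lit 462) (B (L (nat_lit 463) ln15_14_1 ln15_14_1_ok) (L (nat_lit 426) ln14_14_3 ln14_14_3_ok)))))))) (B (M (nat_lit 524) (B (L (nat_lit 395) ln11_12_4 ln11_12_4_ok) (M (nat_lit 556) (B (L (nat_lit 588) ln12_18_6 ln12_18_6_ok) (L (nat_lit 523) ln11_13_4 ln11_13_4_ok))))) (M (nat_lit 523) (B (M (nat_lit 524) (B (L (nat_lit 556) ln11_13_4 ln11_13_4_ok) (M (nat_lit 522) (B (L (nat_lit 554) ln11_13_5 ln11_13_5_ok) (L (nat_lit 521) ln9_16_2 ln9_16_2_ok))))) (M (nat_lit 460) (B (M (nat_lit 555) (B (L (nat_lit 587) ln11_18_6 ln11_18_6_ok) (L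 (nat_lit 428) ln11_17_6 ln11_17_6_ok))) (M (nat_lit 426) (B (L (nat_lit 394) ln11_16_7 ln11_16_7_ok) (L (nat_lit 462) ln14_14_3 ln14_14_3_ok))))))))))))) (B (M (nat_lit 490) (B (L (nat_lit 462) ln10_15_2 ln10_15_2_ok) (M (nat_lit 522) (B (L (nat_lit 521) ln13_15_1 ln13_15_1_ok) (M (nat_lit 427) (B (L (nat_lit 395) ln11_12_5 ln11_12_5_ok) (M (nat_lit 554) (B (L (nat_lit 586) ln10_18_6 ln10_18_6_ok) (L (nat_lit 523) ln11_13_5 ln11_13_5_ok))))))))) (M (nat_lit 427) (B (M (nat_lit 524) (B (L (nat_lit 395) ln11_12_4 ln11_12_4_ok) (M (nat_lit 556) (B (L (nat_lit 588) ln12_18_6 ln12_18_6_ok) (L (nat_lit 460) ln12_17_6 ln12_17_6_ok))))) (B (M (nat_lit 524) (B (L (nat_lit 395) ln11_12_4 ln11_12_4_ok) (M (nat_lit 556) (B (L (nat_lit 523) ln11_13_4 ln11_13_4_ok) (L (nat_lit 460) ln12_17_6 ln12_17_6_ok))))) (B (M (nat_lit 523) (B (M (nat_lit 395) (B (L (nat_lit 524) ln11_12_4 ln11_12_4_ok) (M (nat_lit 522) (B (L (nat_lit 554)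 ln11_13_5 ln11_13_5_ok) (L (nat_lit 490) ln11_12_5 ln11_12_5_ok))))) (B (M (nat_lit 395) (B (L (nat_lit 524) ln11_12_4 ln11_12_4_ok) (M (nat_lit 394) (B (L (nat_lit 426) ln11_16_7 ln11_16_7_ok) (L (nat_lit 362) ln11_15_7 ln11_15_7_ok))))) (M (nat_lit 522) (B (L (nat_lit 554) ln11_13_5 ln11_13_5_ok) (M (nat_lit 521) (B (L (nat_lit 520) ln8_16_2 ln8_16_2_ok) (L (nat_lit 490) ln13_15_1 ln13_15_1_ok)))))))) (B (M (nat_lit 523) (B (M (nat_lit 522) (B (L (nat_lit 554) ln11_13_5 ln11_13_5_ok) (M (nat_lit 521) (B (L (nat_lit 520) ln8_16_2 ln8_16_2_ok) (L (nat_lit 490) ln13_15_1 ln13_15_1_ok))))) (M (nat_lit 395) (B (M (nat_lit 394) (B (L (nat_lit 426) ln11_16_7 ln11_16_7_ok) (L (nat_lit 362) ln11_15_7 ln11_15_7_ok))) (M (nat_lit 396) (B (L (nat_lit 428) ln11_16_6 ln11_16_6_ok) (L (nat_lit 364) ln11_15_6 ln11_15_6_ok))))))) (M (nat_lit 523) (B (M (nat_lit 524) (B (L (nat_lit 556) ln11_13_4 ln11_13_4_ok) (M (nat_lit 522)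 (B (L (nat_lit 554) ln11_13_5 ln11_13_5_ok) (L (nat_lit 521) ln9_16_2 ln9_16_2_ok))))) (B (M (nat_lit 555) (B (M (nat_lit 556) (B (L (nat_lit 588) ln11_14_4 ln11_14_4_ok) (L (nat_lit 524) ln11_13_4 ln11_13_4_ok))) (M (nat_lit 428) (B (L (nat_lit 460) ln11_17_6 ln11_17_6_ok) (L (nat_lit 396) ln11_16_6 ln11_16_6_ok))))) (B (M (nat_lit 522) (B (L (nat_lit 554) ln11_13_5 ln11_13_5_ok) (M (nat_lit 521) (B (L (nat_lit 520) ln8_16_2 ln8_16_2_ok) (L (nat_lit 524) ln9_16_2 ln9_16_2_ok))))) (M (nat_lit 522) (B (L (nat_lit 554) ln11_13_5 ln11_13_5_ok) (M (nat_lit 521) (B (L (nat_lit 520) ln8_16_2 ln8_16_2_ok) (L (nat_lit 490) ln13_15_1 ln13_15_1_ok)))))))))))))))))) (B (M (nat_lit 460) (B (M (nat_lit 490) (B (L (nat_lit 462) ln14_14_1 ln14_14_1_ok) (M (nat_lit 489) (B (L (nat_lit 488) ln8_15_2 ln8_15_2_ok) (L (nat_lit 458) ln13_14_1 ln13_14_1_ok))))) (B (M (nat_lit 490) (B (L (nat_lit 462) ln14_14_1 ln14_14_1_ok) (M (nat_lit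 489) (B (L (nat_lit 492) ln9_15_2 ln9_15_2_ok) (L (nat_lit 458) ln13_14_1 ln13_14_1_ok))))) (B (M (nat_lit 462) (B (L (nat_lit 490) ln14_14_1 ln14_14_1_ok) (M (nat_lit 427) (B (L (nat_lit 426) ln14_14_3 ln14_14_3_ok) (M (nat_lit 463) (B (L (nat_lit 492) ln15_14_1 ln15_14_1_ok) (L (nat_lit 428) ln15_14_3 ln15_14_3_ok))))))) (B (M (nat_lit 458) (B (M (nat_lit 457) (B (L (nat_lit 492) ln9_14_0 ln9_14_0_ok) (M (nat_lit 425) (B (L (nat_lit 424) ln12_14_3 ln12_14_3_ok) (L (nat_lit 426) ln13_14_3 ln13_14_3_ok))))) (B (M (nat_lit 426) (B (L (nat_lit 425) ln13_14_3 ln13_14_3_ok) (M (nat_lit 523) (B (L (nat_lit 555) ln11_17_7 ln11_17_7_ok) (M (nat_lit 427) (B (L (nat_lit 394) ln11_16_7 ln11_16_7_ok) (L (nat_lit 462) ln14_14_3 ln14_14_3_ok))))))) (M (nat_lit 428) (B (L (nat_lit 457) ln9_14_2 ln9_14_2_ok) (M (nat_lit 396) (B (L (nat_lit 364) ln12_11_4 ln12_11_4_ok) (M (nat_lit 523) (B (L (nat_lit 555) ln11_17_6 ln11_17_6_ok)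 (L (nat_lit 427) ln11_16_6 ln11_16_6_ok)))))))))) (M (nat_lit 458) (B (M (nat_lit 489) (B (L (nat_lit 490) ln13_14_1 ln13_14_1_ok) (M (nat_lit 457) (B (L (nat_lit 488) ln12_14_1 ln12_14_1_ok) (L (nat_lit 492) ln9_14_0 ln9_14_0_ok))))) (B (M (nat_lit 490) (B (L (nat_lit 489) ln13_14_1 ln13_14_1_ok) (M (nat_lit 426) (B (L (nat_lit 425) ln13_14_3 ln13_14_3_ok) (M (nat_lit 523) (B (L (nat_lit 555) ln11_17_7 ln11_17_7_ok) (L (nat_lit 394) ln10_12_4 ln10_12_4_ok))))))) (B (M (nat_lit 426) (B (L (nat_lit 425) ln13_14_3 ln13_14_3_ok) (M (nat_lit 523) (B (L (nat_lit 555) ln11_17_7 ln11_17_7_ok) (M (nat_lit 394) (B (L (nat_lit 490) ln10_12_4 ln10_12_4_ok) (L (nat_lit 362) ln10_11_4 ln10_11_4_ok))))))) (M (nat_lit 426) (B (L (nat_lit 425) ln13_14_3 ln13_14_3_ok) (M (nat_lit 523) (B (L (nat_lit 555) ln11_17_7 ln11_17_7_ok) (M (nat_lit 394) (B (L (nat_lit 427) ln11_16_7 ln11_16_7_ok) (L (nat_lit 362) ln10_11_4 ln10_11_4_ok))))))))))))))))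 (M (nat_lit 490) (B (M (nat_lit 462) (B (L (nat_lit 492) ln10_15_2 ln10_15_2_ok) (L (nat_lit 460) ln14_14_1 ln14_14_1_ok))) (B (M (nat_lit 460) (B (L (nat_lit 462) ln14_14_1 ln14_14_1_ok) (M (nat_lit 489) (B (L (nat_lit 488) ln8_15_2 ln8_15_2_ok) (L (nat_lit 458) ln13_14_1 ln13_14_1_ok))))) (B (M (nat_lit 489) (B (M (nat_lit 460) (B (L (nat_lit 492) ln9_15_2 ln9_15_2_ok) (L (nat_lit 488) ln8_15_2 ln8_15_2_ok))) (B (M (nat_lit 460) (B (L (nat_lit 488) ln8_15_2 ln8_15_2_ok) (L (nat_lit 458) ln13_14_1 ln13_14_1_ok))) (B (M (nat_lit 460) (B (L (nat_lit 492) ln9_15_2 ln9_15_2_ok) (L (nat_lit 458) ln13_14_1 ln13_14_1_ok))) (M (nat_lit 492) (B (M (nat_lit 521) (B (L (nat_lit 522) ln13_15_1 ln13_15_1_ok) (L (nat_lit 520) ln12_15_1 ln12_15_1_ok))) (M (nat_lit 457) (B (L (nat_lit 458) ln13_15_3 ln13_15_3_ok) (L (nat_lit 456) ln12_15_3 ln12_15_3_ok))))))))) (M (nat_lit 492) (B (L (nat_lit 462) ln10_15_2 ln10_15_2_ok) (M (nat_lit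 489) (B (M (nat_lit 521) (B (L (nat_lit 522) ln13_15_1 ln13_15_1_ok) (L (nat_lit 520) ln12_15_1 ln12_15_1_ok))) (M (nat_lit 457) (B (L (nat_lit 458) ln13_15_3 ln13_15_3_ok) (L (nat_lit 456) ln12_15_3 ln12_15_3_ok)))))))))))))
noncomputable def c10_d391 : Cert := (B (K (nat_lit 44753387223284327459902524380755300223219643210741598297185602260703205246993196768576974735309190797514417216682321711876370314450494100607074304000) (nat_lit 1013065324669708824695270304466658869585677826934333119239666342324684094316239146585326270888070783454188206023794286421608915118379362417157465470570284392629180493432866471936) (nat_lit 1013065324669708824695270304466658869585677826934333119239666342324684094316239146585326270888070783454188206023794286421608915118379362417157465470570284392629180493432866471936) c10_s555) (B (M (nat_lit 494) (B (M (nat_lit 495) (B (M (nat_lit 523) (B (L (nat_lit 522) ln14_15_1 ln14_15_1_ok) (L (nat_lit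 524) ln15_15_1 ln15_15_1_ok))) (M (nat_lit 527) (B (L (nat_lit 526) ln11_15_0 ln11_15_0_ok) (L (nat_lit 528) ln12_15_0 ln12_15_0_ok))))) (B (M (nat_lit 527) (B (L (nat_lit 526) ln11_15_0 ln11_15_0_ok) (M (nat_lit 524) (B (M (nat_lit 495) (B (L (nat_lit 523) ln15_15_1 ln15_15_1_ok) (L (nat_lit 528) ln12_15_0 ln12_15_0_ok))) (M (nat_lit 556) (B (L (nat_lit 588) ln12_18_6 ln12_18_6_ok) (L (nat_lit 460) ln12_17_6 ln12_17_6_ok))))))) (B (M (nat_lit 495) (B (M (nat_lit 527) (B (L (nat_lit 526) ln11_15_0 ln11_15_0_ok) (L (nat_lit 528) ln12_15_0 ln12_15_0_ok))) (M (nat_lit 464) (B (L (nat_lit 463) ln12_15_2 ln12_15_2_ok) (M (nat_lit 496) (B (L (nat_lit 460) ln16_15_3 ln16_15_3_ok) (L (nat_lit 465) ln13_15_2 ln13_15_2_ok))))))) (B (M (nat_lit 524) (B (M (nat_lit 523) (B (L (nat_lit 522) ln14_15_1 ln14_15_1_ok) (L (nat_lit 495) ln15_15_1 ln15_15_1_ok))) (M (nat_lit 556) (B (L (nat_lit 588) ln12_18_6 ln12_18_6_ok) (L (nat_lit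 460) ln12_17_6 ln12_17_6_ok))))) (M (nat_lit 490) (B (M (nat_lit 522) (B (L (nat_lit 521) ln13_15_1 ln13_15_1_ok) (L (nat_lit 523) ln14_15_1 ln14_15_1_ok))) (M (nat_lit 489) (B (L (nat_lit 460) ln9_15_2 ln9_15_2_ok) (M (nat_lit 457) (B (L (nat_lit 456) ln12_15_3 ln12_15_3_ok) (L (nat_lit 458) ln13_15_3 ln13_15_3_ok)))))))))))) (B (M (nat_lit 490) (B (M (nat_lit 489) (B (L (nat_lit 460) ln9_15_2 ln9_15_2_ok) (M (nat_lit 457) (B (L (nat_lit 456) ln12_15_3 ln12_15_3_ok) (L (nat_lit 458) ln13_15_3 ln13_15_3_ok))))) (B (M (nat_lit 458) (B (L (nat_lit 457) ln13_15_3 ln13_15_3_ok) (M (nat_lit 522) (B (L (nat_lit 521) ln13_15_1 ln13_15_1_ok) (M (nat_lit 459) (B (M (nat_lit 427) (B (L (nat_lit 554) ln10_17_6 ln10_17_6_ok) (L (nat_lit 395) ln11_12_5 ln11_12_5_ok))) (M (nat_lit 426) (B (M (nat_lit 523) (B (L (nat_lit 555) ln10_13_4 ln10_13_4_ok) (L (nat_lit 394) ln10_12_4 ln10_12_4_ok))) (M (nat_lit 425) (B (L (nat_lit 393)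 ln10_16_7 ln10_16_7_ok) (L (nat_lit 460) ln13_14_3 ln13_14_3_ok))))))))))) (B (M (nat_lit 489) (B (L (nat_lit 460) ln9_15_2 ln9_15_2_ok) (M (nat_lit 521) (B (L (nat_lit 520) ln12_15_1 ln12_15_1_ok) (L (nat_lit 522) ln13_15_1 ln13_15_1_ok))))) (M (nat_lit 489) (B (M (nat_lit 521) (B (L (nat_lit 520) ln12_15_1 ln12_15_1_ok) (L (nat_lit 522) ln13_15_1 ln13_15_1_ok))) (M (nat_lit 457) (B (L (nat_lit 456) ln12_15_3 ln12_15_3_ok) (L (nat_lit 458) ln13_15_3 ln13_15_3_ok))))))))) (B (K (nat_lit 44753387223284327459902524380755300223219643210741598297185602260703205246993196768576974735309190797514417216682321711876370314450494100607074304000) (nat_lit 1013065324669708823159271828012434945858477523139871386875630193917619508964227947592560983602845241791765486425793829745438865444535520431351420655633685339565741663295872434176) (nat_lit 1013065324669708823159271828012434945858477523139871386875630193917619508964227947592560983602845241791765486425793829745438865444535520431351420655633685339565741663295872434176)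 c10_s556) (B (M (nat_lit 522) (B (M (nat_lit 521) (B (L (nat_lit 490) ln13_15_1 ln13_15_1_ok) (M (nat_lit 523) (B (L (nat_lit 524) ln9_16_2 ln9_16_2_ok) (L (nat_lit 494) ln14_15_1 ln14_15_1_ok))))) (B (M (nat_lit 459) (B (M (nat_lit 494) (B (L (nat_lit 523) ln14_15_1 ln14_15_1_ok) (L (nat_lit 458) ln14_15_3 ln14_15_3_ok))) (B (M (nat_lit 458) (B (L (nat_lit 494) ln14_15_3 ln14_15_3_ok) (M (nat_lit 457) (B (L (nat_lit 490) ln13_15_3 ln13_15_3_ok) (L (nat_lit 456) ln8_14_0 ln8_14_0_ok))))) (B (M (nat_lit 427) (B (M (nat_lit 395) (B (L (nat_lit 490) ln11_12_5 ln11_12_5_ok) (L (nat_lit 524) ln11_12_4 ln11_12_4_ok))) (B (M (nat_lit 554) (B (L (nat_lit 523) ln11_13_5 ln11_13_5_ok) (M (nat_lit 490) (B (L (nat_lit 586) ln10_18_6 ln10_18_6_ok) (L (nat_lit 395) ln11_12_5 ln11_12_5_ok))))) (B (M (nat_lit 523) (B (L (nat_lit 554) ln11_13_5 ln11_13_5_ok) (M (nat_lit 524) (B (L (nat_lit 556) ln11_13_4 ln11_13_4_ok) (L (nat_lit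 395) ln11_12_4 ln11_12_4_ok))))) (M (nat_lit 554) (B (L (nat_lit 523) ln11_13_5 ln11_13_5_ok) (M (nat_lit 490) (B (L (nat_lit 586) ln10_18_6 ln10_18_6_ok) (L (nat_lit 458) ln10_17_6 ln10_17_6_ok))))))))) (M (nat_lit 427) (B (M (nat_lit 523) (B (L (nat_lit 554) ln11_13_5 ln11_13_5_ok) (L (nat_lit 494) ln14_15_1 ln14_15_1_ok))) (M (nat_lit 395) (B (L (nat_lit 490) ln11_12_5 ln11_12_5_ok) (L (nat_lit 524) ln11_12_4 ln11_12_4_ok))))))))) (B (M (nat_lit 490) (B (L (nat_lit 521) ln13_15_1 ln13_15_1_ok) (M (nat_lit 458) (B (L (nat_lit 457) ln13_15_3 ln13_15_3_ok) (M (nat_lit 459) (B (L (nat_lit 494) ln14_15_3 ln14_15_3_ok) (M (nat_lit 427) (B (L (nat_lit 554) ln10_17_6 ln10_17_6_ok) (L (nat_lit 395) ln11_12_5 ln11_12_5_ok))))))))) (B (M (nat_lit 523) (B (L (nat_lit 494) ln14_15_1 ln14_15_1_ok) (M (nat_lit 521) (B (L (nat_lit 520) ln8_16_2 ln8_16_2_ok) (L (nat_lit 524) ln9_16_2 ln9_16_2_ok))))) (M (nat_lit 521) (B (L (nat_lit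 490) ln13_15_1 ln13_15_1_ok) (M (nat_lit 523) (B (L (nat_lit 520) ln8_16_2 ln8_16_2_ok) (L (nat_lit 524) ln9_16_2 ln9_16_2_ok)))))))))) (K (nat_lit 44753387223284327459902524380755300223219643210741598297185602260703205246993196768576974735309190797514417216682321711876370314450494100607074304000) (nat_lit 253266331167427205789817957019291880953783628599717436754508550478867935357511797951670925119752949184921955775991699935662151466087734689728104606723049281092802427073220050944) (nat_lit 253266331167427205789817957019291880953783628599717436754508550478867935357511797951670925119752949184921955775991699935662151466087734689728104606723049281092802427073220050944) c10_s557))))))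
noncomputable def c10_d392 : Cert := (B (M (nat_lit 523) (B (M (nat_lit 522) (B (L (nat_lit 494) ln14_15_1 ln14_15_1_ok) (M (nat_lit 521) (B (L (nat_lit 520) ln8_16_2 ln8_16_2_ok) (L (nat_lit 524) ln9_16_2 ln9_16_2_ok))))) (B (M (nat_lit 494) (B (L (nat_lit 522) ln14_15_1 ln14_15_1_ok) (M (nat_lit 495) (B (L (nat_lit 524) ln15_15_1 ln15_15_1_ok) (M (nat_lit 527) (B (L (nat_lit 526) ln11_15_0 ln11_15_0_ok) (L (nat_lit 528) ln12_15_0 ln12_15_0_ok))))))) (B (M (nat_lit 555) (B (M (nat_lit 460) (B (L (nat_lit 587) ln11_18_6 ln11_18_6_ok) (M (nat_lit 428) (B (L (nat_lit 524) ln12_13_5 ln12_13_5_ok) (L (nat_lit 396) ln12_12_5 ln12_12_5_ok))))) (B (M (nat_lit 459) (B (M (nat_lit 458) (B (L (nat_lit 426) ln11_17_7 ln11_17_7_ok) (L (nat_lit 494) ln14_15_3 ln14_15_3_ok))) (B (M (nat_lit 460) (B (L (nat_lit 428) ln11_17_6 ln11_17_6_ok) (M (nat_lit 458) (B (L (nat_lit 426) ln11_17_7 ln11_17_7_ok) (L (nat_lit 457) ln9_14_0 ln9_14_0_ok)))))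 (M (nat_lit 427) (B (M (nat_lit 556) (B (L (nat_lit 588) ln11_14_4 ln11_14_4_ok) (L (nat_lit 524) ln11_13_4 ln11_13_4_ok))) (M (nat_lit 428) (B (L (nat_lit 460) ln11_17_6 ln11_17_6_ok) (L (nat_lit 396) ln11_16_6 ln11_16_6_ok)))))))) (B (M (nat_lit 460) (B (L (nat_lit 587) ln11_18_6 ln11_18_6_ok) (M (nat_lit 428) (B (L (nat_lit 459) ln11_17_6 ln11_17_6_ok) (L (nat_lit 396) ln12_12_5 ln12_12_5_ok))))) (K (nat_lit 117936325803132357942824406739095333497381885387846804810549311730995207208682426621985289617285271816893679674929746196198171418515959433642781710058061965135578136576) (nat_lit 23359695969840033786236836065994514064341466984974646877505127430771322614779445663482552625744059098547484903283011600099498214869824139546326571576292703918431096937744147794369764988295751663616) (nat_lit 23359695969840033786236836065994514064341466984974646877505127430771322614779445663482552625744059098547484903283011600099498214869824139546326571576292703918431096937744147794369764988295751663616)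 c10_s554))))) (B (M (nat_lit 494) (B (L (nat_lit 522) ln14_15_1 ln14_15_1_ok) (M (nat_lit 495) (B (M (nat_lit 527) (B (L (nat_lit 526) ln11_15_0 ln11_15_0_ok) (L (nat_lit 528) ln12_15_0 ln12_15_0_ok))) (M (nat_lit 459) (B (L (nat_lit 458) ln14_15_3 ln14_15_3_ok) (L (nat_lit 460) ln15_15_3 ln15_15_3_ok))))))) (M (nat_lit 555) (B (M (nat_lit 460) (B (L (nat_lit 587) ln11_18_6 ln11_18_6_ok) (M (nat_lit 428) (B (L (nat_lit 459) ln11_17_6 ln11_17_6_ok) (L (nat_lit 396) ln12_12_5 ln12_12_5_ok))))) (B (M (nat_lit 459) (B (M (nat_lit 460) (B (L (nat_lit 428) ln11_17_6 ln11_17_6_ok) (M (nat_lit 458) (B (L (nat_lit 426) ln11_17_7 ln11_17_7_ok) (L (nat_lit 457) ln9_14_0 ln9_14_0_ok))))) (M (nat_lit 522) (B (M (nat_lit 554) (B (L (nat_lit 586) ln11_14_5 ln11_14_5_ok) (L (nat_lit 427) ln11_13_5 ln11_13_5_ok))) (M (nat_lit 521) (B (L (nat_lit 520) ln8_16_2 ln8_16_2_ok) (L (nat_lit 524) ln9_16_2 ln9_16_2_ok))))))) (B (M (nat_lit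 460) (B (L (nat_lit 587) ln11_18_6 ln11_18_6_ok) (M (nat_lit 428) (B (L (nat_lit 524) ln12_13_5 ln12_13_5_ok) (L (nat_lit 396) ln12_12_5 ln12_12_5_ok))))) (K (nat_lit 117936325803132357942824406739095333497381885387846804810549311730995207208682426621985289617285271816893679674929746196198171418515959433642781710058061965135578136576) (nat_lit 23359695969840033786236836065994514064341466984974646877505127430771322614779445663482552625744059098547484903283011600099498214869824139546326571576292703918431096937744147794369764988295751663616) (nat_lit 23359695969840033786236836065994514064341466984974646877505127430771322614779445663482552625744059098547484903283011600099498214869824139546326571576292703918431096937744147794369764988295751663616) c10_s554)))))))))) (B (M (nat_lit 459) (B (M (nat_lit 494) (B (L (nat_lit 458) ln14_15_3 ln14_15_3_ok) (M (nat_lit 495) (B (L (nat_lit 460) ln15_15_3 ln15_15_3_ok) (M (nat_lit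 527) (B (L (nat_lit 526) ln11_15_0 ln11_15_0_ok) (L (nat_lit 528) ln12_15_0 ln12_15_0_ok))))))) (B (M (nat_lit 494) (B (L (nat_lit 458) ln14_15_3 ln14_15_3_ok) (M (nat_lit 523) (B (L (nat_lit 522) ln14_15_1 ln14_15_1_ok) (M (nat_lit 495) (B (L (nat_lit 524) ln15_15_1 ln15_15_1_ok) (L (nat_lit 460) ln15_15_3 ln15_15_3_ok))))))) (B (M (nat_lit 427) (B (M (nat_lit 524) (B (L (nat_lit 395) ln11_12_4 ln11_12_4_ok) (M (nat_lit 556) (B (L (nat_lit 588) ln12_18_6 ln12_18_6_ok) (L (nat_lit 460) ln12_17_6 ln12_17_6_ok))))) (B (M (nat_lit 524) (B (L (nat_lit 395) ln11_12_4 ln11_12_4_ok) (M (nat_lit 556) (B (L (nat_lit 523) ln11_13_4 ln11_13_4_ok) (L (nat_lit 460) ln12_17_6 ln12_17_6_ok))))) (B (M (nat_lit 523) (B (M (nat_lit 522) (B (L (nat_lit 554) ln11_13_5 ln11_13_5_ok) (M (nat_lit 521) (B (L (nat_lit 520) ln8_16_2 ln8_16_2_ok) (L (nat_lit 524) ln9_16_2 ln9_16_2_ok))))) (M (nat_lit 555) (B (M (nat_lit 426) (B (L (nat_lit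 458) ln11_17_7 ln11_17_7_ok) (L (nat_lit 394) ln11_16_7 ln11_16_7_ok))) (M (nat_lit 428) (B (L (nat_lit 460) ln11_17_6 ln11_17_6_ok) (L (nat_lit 396) ln11_16_6 ln11_16_6_ok))))))) (B (M (nat_lit 523) (B (M (nat_lit 522) (B (L (nat_lit 554) ln11_13_5 ln11_13_5_ok) (M (nat_lit 521) (B (L (nat_lit 520) ln8_16_2 ln8_16_2_ok) (L (nat_lit 490) ln13_15_1 ln13_15_1_ok))))) (M (nat_lit 555) (B (M (nat_lit 426) (B (L (nat_lit 458) ln11_17_7 ln11_17_7_ok) (L (nat_lit 394) ln11_16_7 ln11_16_7_ok))) (M (nat_lit 428) (B (L (nat_lit 460) ln11_17_6 ln11_17_6_ok) (L (nat_lit 396) ln11_16_6 ln11_16_6_ok))))))) (M (nat_lit 524) (B (L (nat_lit 395) ln11_12_4 ln11_12_4_ok) (M (nat_lit 556) (B (L (nat_lit 588) ln12_18_6 ln12_18_6_ok) (L (nat_lit 523) ln11_13_4 ln11_13_4_ok)))))))))) (B (M (nat_lit 523) (B (M (nat_lit 494) (B (L (nat_lit 522) ln14_15_1 ln14_15_1_ok) (M (nat_lit 495) (B (L (nat_lit 524) ln15_15_1 ln15_15_1_ok) (L (nat_lit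 460) ln15_15_3 ln15_15_3_ok))))) (B (M (nat_lit 556) (B (M (nat_lit 588) (B (L (nat_lit 555) ln11_14_4 ln11_14_4_ok) (L (nat_lit 524) ln12_18_6 ln12_18_6_ok))) (B (M (nat_lit 524) (B (L (nat_lit 427) ln11_13_4 ln11_13_4_ok) (L (nat_lit 460) ln12_17_6 ln12_17_6_ok))) (M (nat_lit 555) (B (L (nat_lit 588) ln11_14_4 ln11_14_4_ok) (M (nat_lit 460) (B (L (nat_lit 587) ln11_18_6 ln11_18_6_ok) (L (nat_lit 428) ln11_17_6 ln11_17_6_ok)))))))) (B (M (nat_lit 460) (B (M (nat_lit 555) (B (L (nat_lit 587) ln11_18_6 ln11_18_6_ok) (L (nat_lit 428) ln11_17_6 ln11_17_6_ok))) (M (nat_lit 494) (B (L (nat_lit 522) ln14_15_1 ln14_15_1_ok) (L (nat_lit 495) ln15_15_3 ln15_15_3_ok))))) (M (nat_lit 524) (B (M (nat_lit 556) (B (L (nat_lit 588) ln12_18_6 ln12_18_6_ok) (L (nat_lit 427) ln11_13_4 ln11_13_4_ok))) (M (nat_lit 494) (B (L (nat_lit 522) ln14_15_1 ln14_15_1_ok) (L (nat_lit 495) ln15_15_1 ln15_15_1_ok))))))))) (M (nat_lit 494) (B (L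 (nat_lit 458) ln14_15_3 ln14_15_3_ok) (M (nat_lit 523) (B (L (nat_lit 522) ln14_15_1 ln14_15_1_ok) (M (nat_lit 524) (B (L (nat_lit 495) ln15_15_1 ln15_15_1_ok) (M (nat_lit 556) (B (L (nat_lit 588) ln12_18_6 ln12_18_6_ok) (L (nat_lit 427) ln11_13_4 ln11_13_4_ok)))))))))))))) (B (M (nat_lit 494) (B (M (nat_lit 495) (B (M (nat_lit 523) (B (L (nat_lit 522) ln14_15_1 ln14_15_1_ok) (L (nat_lit 524) ln15_15_1 ln15_15_1_ok))) (M (nat_lit 527) (B (L (nat_lit 526) ln11_15_0 ln11_15_0_ok) (L (nat_lit 528) ln12_15_0 ln12_15_0_ok))))) (B (M (nat_lit 495) (B (M (nat_lit 527) (B (L (nat_lit 526) ln11_15_0 ln11_15_0_ok) (L (nat_lit 528) ln12_15_0 ln12_15_0_ok))) (M (nat_lit 460) (B (L (nat_lit 459) ln15_15_3 ln15_15_3_ok) (L (nat_lit 496) ln16_15_3 ln16_15_3_ok))))) (B (M (nat_lit 524) (B (M (nat_lit 523) (B (L (nat_lit 522) ln14_15_1 ln14_15_1_ok) (L (nat_lit 495) ln15_15_1 ln15_15_1_ok))) (M (nat_lit 556) (B (L (nat_lit 588)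 ln12_18_6 ln12_18_6_ok) (L (nat_lit 460) ln12_17_6 ln12_17_6_ok))))) (M (nat_lit 490) (B (M (nat_lit 522) (B (L (nat_lit 521) ln13_15_1 ln13_15_1_ok) (L (nat_lit 523) ln14_15_1 ln14_15_1_ok))) (B (M (nat_lit 489) (B (L (nat_lit 460) ln9_15_2 ln9_15_2_ok) (M (nat_lit 488) (B (M (nat_lit 456) (B (L (nat_lit 455) ln11_15_3 ln11_15_3_ok) (L (nat_lit 457) ln12_15_3 ln12_15_3_ok))) (M (nat_lit 523) (B (L (nat_lit 524) ln8_15_0 ln8_15_0_ok) (L (nat_lit 522) ln14_15_1 ln14_15_1_ok))))))) (M (nat_lit 489) (B (L (nat_lit 460) ln9_15_2 ln9_15_2_ok) (M (nat_lit 488) (B (M (nat_lit 520) (B (L (nat_lit 519) ln11_15_1 ln11_15_1_ok) (L (nat_lit 521) ln12_15_1 ln12_15_1_ok))) (M (nat_lit 456) (B (L (nat_lit 455) ln11_15_3 ln11_15_3_ok) (L (nat_lit 457) ln12_15_3 ln12_15_3_ok)))))))))))))) c10_d391)))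
noncomputable def c10_d393 : Cert := (B (M (nat_lit 492) (B (M (nat_lit 462) (B (L (nat_lit 490) ln10_15_2 ln10_15_2_ok) (M (nat_lit 463) (B (L (nat_lit 460) ln15_14_1 ln15_14_1_ok) (L (nat_lit 464) ln16_14_1 ln16_14_1_ok))))) (B (K (nat_lit 44753387223284327459902524380755300223219643210741598297185602260703205246993196768576974735309190797514417216682321711876370314450494100607074304000) (nat_lit 943490606960513081441956637707071372439254263084727420606759380244803266531475766065281737379714908358155381618455620078228298505531123847373205564840180239662242070528) (nat_lit 943490606960513081441956637707071372439254263084727420606759380244803266531475766065281737379714908358155381618455620078228298505531123847373205564840180239662242070528) c10_s558) (B (M (nat_lit 462) (B (L (nat_lit 490) ln10_15_2 ln10_15_2_ok) (M (nat_lit 463) (B (L (nat_lit 494) ln11_15_2 ln11_15_2_ok) (L (nat_lit 464) ln16_14_1 ln16_14_1_ok)))))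 (M (nat_lit 494) (B (M (nat_lit 523) (B (L (nat_lit 522) ln14_15_1 ln14_15_1_ok) (M (nat_lit 495) (B (L (nat_lit 524) ln15_15_1 ln15_15_1_ok) (M (nat_lit 527) (B (L (nat_lit 526) ln11_15_0 ln11_15_0_ok) (L (nat_lit 528) ln12_15_0 ln12_15_0_ok))))))) (B (M (nat_lit 495) (B (M (nat_lit 527) (B (L (nat_lit 526) ln11_15_0 ln11_15_0_ok) (L (nat_lit 528) ln12_15_0 ln12_15_0_ok))) (M (nat_lit 460) (B (L (nat_lit 459) ln15_15_3 ln15_15_3_ok) (L (nat_lit 496) ln16_15_3 ln16_15_3_ok))))) (B (M (nat_lit 495) (B (M (nat_lit 523) (B (L (nat_lit 522) ln14_15_1 ln14_15_1_ok) (L (nat_lit 524) ln15_15_1 ln15_15_1_ok))) (M (nat_lit 460) (B (L (nat_lit 459) ln15_15_3 ln15_15_3_ok) (L (nat_lit 496) ln16_15_3 ln16_15_3_ok))))) (M (nat_lit 490) (B (M (nat_lit 522) (B (L (nat_lit 521) ln13_15_1 ln13_15_1_ok) (L (nat_lit 523) ln14_15_1 ln14_15_1_ok))) (B (M (nat_lit 489) (B (L (nat_lit 460) ln9_15_2 ln9_15_2_ok) (M (nat_lit 488) (B (M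 (nat_lit 523) (B (L (nat_lit 522) ln14_15_1 ln14_15_1_ok) (L (nat_lit 524) ln8_15_0 ln8_15_0_ok))) (M (nat_lit 456) (B (L (nat_lit 455) ln11_15_3 ln11_15_3_ok) (L (nat_lit 457) ln12_15_3 ln12_15_3_ok))))))) (M (nat_lit 489) (B (L (nat_lit 460) ln9_15_2 ln9_15_2_ok) (M (nat_lit 488) (B (M (nat_lit 520) (B (L (nat_lit 519) ln11_15_1 ln11_15_1_ok) (L (nat_lit 521) ln12_15_1 ln12_15_1_ok))) (M (nat_lit 456) (B (L (nat_lit 455) ln11_15_3 ln11_15_3_ok) (L (nat_lit 457) ln12_15_3 ln12_15_3_ok)))))))))))))))))) (B (M (nat_lit 492) (B (K (nat_lit 44753387223284327459902524380755300223219643210741598297185602260703205246993196768576974735309190797514417216682321711876370314450494100607074304000) (nat_lit 1013065324669708823159271828012434945858477523139871386875630193917619508964227947592560983602845241791765486425793829745438865444535520431351420655633685339565741663295872434176) (nat_lit 1013065324669708823159271828012434945858477523139871386875630193917619508964227947592560983602845241791765486425793829745438865444535520431351420655633685339565741663295872434176)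 c10_s556) (B (M (nat_lit 494) (B (M (nat_lit 526) (B (L (nat_lit 527) ln11_15_0 ln11_15_0_ok) (M (nat_lit 558) (B (L (nat_lit 590) ln14_18_7 ln14_18_7_ok) (L (nat_lit 462) ln14_17_7 ln14_17_7_ok))))) (M (nat_lit 495) (B (M (nat_lit 523) (B (L (nat_lit 524) ln15_15_1 ln15_15_1_ok) (L (nat_lit 522) ln14_15_1 ln14_15_1_ok))) (M (nat_lit 459) (B (L (nat_lit 460) ln15_15_3 ln15_15_3_ok) (L (nat_lit 458) ln14_15_3 ln14_15_3_ok))))))) (B (M (nat_lit 494) (B (M (nat_lit 526) (B (L (nat_lit 527) ln11_15_0 ln11_15_0_ok) (M (nat_lit 462) (B (L (nat_lit 490) ln10_15_2 ln10_15_2_ok) (L (nat_lit 558) ln14_17_7 ln14_17_7_ok))))) (B (M (nat_lit 526) (B (L (nat_lit 527) ln11_15_0 ln11_15_0_ok) (M (nat_lit 558) (B (L (nat_lit 462) ln14_17_7 ln14_17_7_ok) (L (nat_lit 590) ln14_18_7 ln14_18_7_ok))))) (B (M (nat_lit 495) (B (M (nat_lit 523) (B (L (nat_lit 522) ln14_15_1 ln14_15_1_ok) (L (nat_lit 524) ln15_15_1 ln15_15_1_ok))) (M (nat_lit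 527) (B (L (nat_lit 526) ln11_15_0 ln11_15_0_ok) (L (nat_lit 528) ln12_15_0 ln12_15_0_ok))))) (M (nat_lit 490) (B (L (nat_lit 462) ln10_15_2 ln10_15_2_ok) (M (nat_lit 522) (B (L (nat_lit 521) ln13_15_1 ln13_15_1_ok) (L (nat_lit 523) ln14_15_1 ln14_15_1_ok))))))))) (B (K (nat_lit 44753387223284327459902524380755300223219643210741598297185602260703205246993196768576974735309190797514417216682321711876370314450494100607074304000) (nat_lit 4052261298678835292911679217873170138199522102239344037444693970675035630678972505071009798419404040425352394910574806214922327884192041920015492939631659575163820335692683149312) (nat_lit 4052261298678835292911679217873170138199522102239344037444693970675035630678972505071009798419404040425352394910574806214922327884192041920015492939631659575163820335692683149312) c10_s559) (M (nat_lit 490) (B (L (nat_lit 462) ln10_15_2 ln10_15_2_ok) (M (nat_lit 521) (B (L (nat_lit 522) ln13_15_1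 ln13_15_1_ok) (M (nat_lit 457) (B (L (nat_lit 458) ln13_15_3 ln13_15_3_ok) (M (nat_lit 489) (B (L (nat_lit 520) ln12_15_1 ln12_15_1_ok) (L (nat_lit 456) ln12_15_3 ln12_15_3_ok)))))))))))))) (M (nat_lit 492) (B (M (nat_lit 462) (B (L (nat_lit 490) ln10_15_2 ln10_15_2_ok) (M (nat_lit 463) (B (L (nat_lit 494) ln11_15_2 ln11_15_2_ok) (L (nat_lit 464) ln16_14_1 ln16_14_1_ok))))) (B (M (nat_lit 494) (B (M (nat_lit 462) (B (L (nat_lit 463) ln11_15_2 ln11_15_2_ok) (M (nat_lit 526) (B (L (nat_lit 527) ln11_15_0 ln11_15_0_ok) (L (nat_lit 558) ln14_17_7 ln14_17_7_ok))))) (B (M (nat_lit 495) (B (M (nat_lit 527) (B (L (nat_lit 526) ln11_15_0 ln11_15_0_ok) (L (nat_lit 528) ln12_15_0 ln12_15_0_ok))) (M (nat_lit 463) (B (L (nat_lit 462) ln11_15_2 ln11_15_2_ok) (L (nat_lit 464) ln12_15_2 ln12_15_2_ok))))) (B (M (nat_lit 495) (B (M (nat_lit 459) (B (L (nat_lit 458) ln14_15_3 ln14_15_3_ok) (L (nat_lit 460) ln15_15_3 ln15_15_3_ok)))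 (M (nat_lit 463) (B (L (nat_lit 462) ln11_15_2 ln11_15_2_ok) (L (nat_lit 464) ln12_15_2 ln12_15_2_ok))))) (M (nat_lit 495) (B (M (nat_lit 527) (B (L (nat_lit 526) ln11_15_0 ln11_15_0_ok) (L (nat_lit 528) ln12_15_0 ln12_15_0_ok))) (M (nat_lit 459) (B (L (nat_lit 458) ln14_15_3 ln14_15_3_ok) (L (nat_lit 460) ln15_15_3 ln15_15_3_ok))))))))) (B (M (nat_lit 462) (B (L (nat_lit 490) ln10_15_2 ln10_15_2_ok) (M (nat_lit 463) (B (L (nat_lit 460) ln15_14_1 ln15_14_1_ok) (L (nat_lit 464) ln16_14_1 ln16_14_1_ok))))) (K (nat_lit 44753387223284327459902524380755300223219643210741598297185602260703205246993196768576974735309190797514417216682321711876370314450494100607074304000) (nat_lit 253266331167427205789817957019291880953783628599717436754508550478867935357511797951670925119752949184921955775991699935662151466087734689728104606723049281092802427073220050944) (nat_lit 253266331167427205789817957019291880953783628599717436754508550478867935357511797951670925119752949184921955775991699935662151466087734689728104606723049281092802427073220050944)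 c10_s557)))))))
noncomputable def c10_d394 : Cert := (B (M (nat_lit 492) (B (M (nat_lit 462) (B (L (nat_lit 490) ln10_15_2 ln10_15_2_ok) (M (nat_lit 463) (B (L (nat_lit 494) ln11_15_2 ln11_15_2_ok) (L (nat_lit 464) ln16_14_1 ln16_14_1_ok))))) (B (K (nat_lit 44753387223284327459902524380755300223219643210741598297185602260703205246993196768576974735309190797514417216682321711876370314450494100607074304000) (nat_lit 943490606960513081441956637707071372439254263084727420606759380244803266531475766065281737379714908358155381618455620078228298505531123847373205564840180239662242070528) (nat_lit 943490606960513081441956637707071372439254263084727420606759380244803266531475766065281737379714908358155381618455620078228298505531123847373205564840180239662242070528) c10_s558) (B (M (nat_lit 462) (B (L (nat_lit 490) ln10_15_2 ln10_15_2_ok) (M (nat_lit 463) (B (L (nat_lit 460) ln15_14_1 ln15_14_1_ok) (L (nat_lit 464) ln16_14_1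 ln16_14_1_ok))))) (M (nat_lit 459) (B (M (nat_lit 494) (B (L (nat_lit 458) ln14_15_3 ln14_15_3_ok) (M (nat_lit 495) (B (L (nat_lit 460) ln15_15_3 ln15_15_3_ok) (M (nat_lit 527) (B (L (nat_lit 526) ln11_15_0 ln11_15_0_ok) (L (nat_lit 528) ln12_15_0 ln12_15_0_ok))))))) (B (M (nat_lit 494) (B (L (nat_lit 458) ln14_15_3 ln14_15_3_ok) (M (nat_lit 495) (B (L (nat_lit 460) ln15_15_3 ln15_15_3_ok) (M (nat_lit 523) (B (L (nat_lit 522) ln14_15_1 ln14_15_1_ok) (L (nat_lit 524) ln15_15_1 ln15_15_1_ok))))))) (B (M (nat_lit 427) (B (M (nat_lit 524) (B (L (nat_lit 395) ln11_12_4 ln11_12_4_ok) (M (nat_lit 556) (B (L (nat_lit 588) ln12_18_6 ln12_18_6_ok) (L (nat_lit 460) ln12_17_6 ln12_17_6_ok))))) (B (M (nat_lit 524) (B (L (nat_lit 395) ln11_12_4 ln11_12_4_ok) (M (nat_lit 556) (B (L (nat_lit 523) ln11_13_4 ln11_13_4_ok) (L (nat_lit 460) ln12_17_6 ln12_17_6_ok))))) (B (M (nat_lit 523) (B (M (nat_lit 522) (B (L (nat_lit 554) ln11_13_5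 ln11_13_5_ok) (M (nat_lit 521) (B (L (nat_lit 520) ln8_16_2 ln8_16_2_ok) (L (nat_lit 524) ln9_16_2 ln9_16_2_ok))))) (M (nat_lit 555) (B (M (nat_lit 426) (B (L (nat_lit 458) ln11_17_7 ln11_17_7_ok) (L (nat_lit 394) ln11_16_7 ln11_16_7_ok))) (M (nat_lit 428) (B (L (nat_lit 460) ln11_17_6 ln11_17_6_ok) (L (nat_lit 396) ln11_16_6 ln11_16_6_ok))))))) (B (M (nat_lit 523) (B (M (nat_lit 522) (B (L (nat_lit 554) ln11_13_5 ln11_13_5_ok) (M (nat_lit 521) (B (L (nat_lit 520) ln8_16_2 ln8_16_2_ok) (L (nat_lit 490) ln13_15_1 ln13_15_1_ok))))) (M (nat_lit 555) (B (M (nat_lit 426) (B (L (nat_lit 458) ln11_17_7 ln11_17_7_ok) (L (nat_lit 394) ln11_16_7 ln11_16_7_ok))) (M (nat_lit 428) (B (L (nat_lit 460) ln11_17_6 ln11_17_6_ok) (L (nat_lit 396) ln11_16_6 ln11_16_6_ok))))))) (M (nat_lit 524) (B (L (nat_lit 395) ln11_12_4 ln11_12_4_ok) (M (nat_lit 556) (B (L (nat_lit 588) ln12_18_6 ln12_18_6_ok) (L (nat_lit 523) ln11_13_4 ln11_13_4_ok))))))))))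 (B (M (nat_lit 523) (B (M (nat_lit 522) (B (L (nat_lit 494) ln14_15_1 ln14_15_1_ok) (M (nat_lit 521) (B (L (nat_lit 520) ln8_16_2 ln8_16_2_ok) (L (nat_lit 490) ln13_15_1 ln13_15_1_ok))))) (B (M (nat_lit 522) (B (L (nat_lit 494) ln14_15_1 ln14_15_1_ok) (M (nat_lit 521) (B (L (nat_lit 524) ln9_16_2 ln9_16_2_ok) (L (nat_lit 490) ln13_15_1 ln13_15_1_ok))))) (M (nat_lit 556) (B (M (nat_lit 588) (B (L (nat_lit 555) ln11_14_4 ln11_14_4_ok) (L (nat_lit 524) ln12_18_6 ln12_18_6_ok))) (B (M (nat_lit 460) (B (M (nat_lit 555) (B (L (nat_lit 587) ln11_18_6 ln11_18_6_ok) (L (nat_lit 428) ln11_17_6 ln11_17_6_ok))) (L (nat_lit 524) ln12_17_6 ln12_17_6_ok))) (B (M (nat_lit 524) (B (L (nat_lit 588) ln12_18_6 ln12_18_6_ok) (L (nat_lit 427) ln11_13_4 ln11_13_4_ok))) (M (nat_lit 555) (B (L (nat_lit 588) ln11_14_4 ln11_14_4_ok) (M (nat_lit 460) (B (L (nat_lit 587) ln11_18_6 ln11_18_6_ok) (L (nat_lit 428) ln11_17_6 ln11_17_6_ok))))))))))))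 (M (nat_lit 494) (B (L (nat_lit 458) ln14_15_3 ln14_15_3_ok) (M (nat_lit 495) (B (M (nat_lit 523) (B (L (nat_lit 522) ln14_15_1 ln14_15_1_ok) (L (nat_lit 524) ln15_15_1 ln15_15_1_ok))) (M (nat_lit 527) (B (L (nat_lit 526) ln11_15_0 ln11_15_0_ok) (L (nat_lit 528) ln12_15_0 ln12_15_0_ok)))))))))))))))) (B (M (nat_lit 492) (B (K (nat_lit 44753387223284327459902524380755300223219643210741598297185602260703205246993196768576974735309190797514417216682321711876370314450494100607074304000) (nat_lit 1013065324669708824695270304466658869585677826934333119239666342324684094316239146585326270888070783454188206023794286421608915118379362417157465470570284392629180493432866471936) (nat_lit 1013065324669708824695270304466658869585677826934333119239666342324684094316239146585326270888070783454188206023794286421608915118379362417157465470570284392629180493432866471936) c10_s555) (B (M (nat_lit 494) (B (M (nat_lit 462) (B (L (nat_lit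 463) ln11_15_2 ln11_15_2_ok) (M (nat_lit 526) (B (L (nat_lit 558) ln14_17_7 ln14_17_7_ok) (L (nat_lit 527) ln11_15_0 ln11_15_0_ok))))) (B (M (nat_lit 495) (B (M (nat_lit 460) (B (L (nat_lit 496) ln16_15_3 ln16_15_3_ok) (L (nat_lit 459) ln15_15_3 ln15_15_3_ok))) (M (nat_lit 527) (B (L (nat_lit 528) ln12_15_0 ln12_15_0_ok) (L (nat_lit 526) ln11_15_0 ln11_15_0_ok))))) (M (nat_lit 495) (B (M (nat_lit 463) (B (L (nat_lit 464) ln12_15_2 ln12_15_2_ok) (L (nat_lit 462) ln11_15_2 ln11_15_2_ok))) (M (nat_lit 460) (B (L (nat_lit 496) ln16_15_3 ln16_15_3_ok) (L (nat_lit 459) ln15_15_3 ln15_15_3_ok)))))))) (B (K (nat_lit 44753387223284327459902524380755300223219643210741598297185602260703205246993196768576974735309190797514417216682321711876370314450494100607074304000) (nat_lit 4052261298678835292911679217873170138199522102239344037444693970675035630678972505071009798419404040425352394910574806214922327884192041920015492939631659575163820335692683149312)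 (nat_lit 4052261298678835292911679217873170138199522102239344037444693970675035630678972505071009798419404040425352394910574806214922327884192041920015492939631659575163820335692683149312) c10_s559) (M (nat_lit 462) (B (M (nat_lit 463) (B (L (nat_lit 464) ln16_14_1 ln16_14_1_ok) (L (nat_lit 460) ln15_14_1 ln15_14_1_ok))) (L (nat_lit 490) ln10_15_2 ln10_15_2_ok))))))) (B (M (nat_lit 492) (B (M (nat_lit 458) (B (M (nat_lit 457) (B (L (nat_lit 490) ln13_15_3 ln13_15_3_ok) (M (nat_lit 459) (B (L (nat_lit 456) ln8_14_0 ln8_14_0_ok) (L (nat_lit 494) ln14_15_3 ln14_15_3_ok))))) (B (M (nat_lit 522) (B (M (nat_lit 490) (B (L (nat_lit 521) ln13_15_1 ln13_15_1_ok) (L (nat_lit 457) ln13_15_3 ln13_15_3_ok))) (M (nat_lit 494) (B (L (nat_lit 523) ln14_15_1 ln14_15_1_ok) (L (nat_lit 459) ln14_15_3 ln14_15_3_ok))))) (B (M (nat_lit 494) (B (L (nat_lit 459) ln14_15_3 ln14_15_3_ok) (M (nat_lit 495) (B (M (nat_lit 523) (B (L (nat_lit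 522) ln14_15_1 ln14_15_1_ok) (L (nat_lit 524) ln15_15_1 ln15_15_1_ok))) (M (nat_lit 527) (B (L (nat_lit 526) ln11_15_0 ln11_15_0_ok) (L (nat_lit 528) ln12_15_0 ln12_15_0_ok))))))) (B (M (nat_lit 490) (B (L (nat_lit 457) ln13_15_3 ln13_15_3_ok) (M (nat_lit 522) (B (L (nat_lit 521) ln13_15_1 ln13_15_1_ok) (M (nat_lit 523) (B (L (nat_lit 494) ln14_15_1 ln14_15_1_ok) (M (nat_lit 555) (B (L (nat_lit 426) ln10_13_4 ln10_13_4_ok) (L (nat_lit 587) ln11_18_7 ln11_18_7_ok))))))))) (M (nat_lit 490) (B (L (nat_lit 457) ln13_15_3 ln13_15_3_ok) (M (nat_lit 523) (B (M (nat_lit 522) (B (L (nat_lit 521) ln13_15_1 ln13_15_1_ok) (M (nat_lit 426) (B (L (nat_lit 555) ln10_13_4 ln10_13_4_ok) (L (nat_lit 394) ln10_12_4 ln10_12_4_ok))))) (B (M (nat_lit 426) (B (L (nat_lit 394) ln10_12_4 ln10_12_4_ok) (M (nat_lit 555) (B (L (nat_lit 522) ln10_13_4 ln10_13_4_ok) (L (nat_lit 587) ln11_18_7 ln11_18_7_ok))))) (B (M (nat_lit 426) (B (L (nat_lit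 394) ln10_12_4 ln10_12_4_ok) (M (nat_lit 555) (B (L (nat_lit 587) ln11_18_7 ln11_18_7_ok) (L (nat_lit 459) ln11_17_7 ln11_17_7_ok))))) (M (nat_lit 489) (B (M (nat_lit 521) (B (L (nat_lit 520) ln12_15_1 ln12_15_1_ok) (L (nat_lit 522) ln13_15_1 ln13_15_1_ok))) (B (M (nat_lit 488) (B (L (nat_lit 524) ln8_15_0 ln8_15_0_ok) (M (nat_lit 487) (B (L (nat_lit 522) ln7_15_0 ln7_15_0_ok) (L (nat_lit 459) ln7_15_2 ln7_15_2_ok))))) (M (nat_lit 488) (B (L (nat_lit 524) ln8_15_0 ln8_15_0_ok) (M (nat_lit 520) (B (L (nat_lit 519) ln11_15_1 ln11_15_1_ok) (L (nat_lit 521) ln12_15_1 ln12_15_1_ok))))))))))))))))))) (B (M (nat_lit 494) (B (M (nat_lit 463) (B (L (nat_lit 462) ln11_15_2 ln11_15_2_ok) (M (nat_lit 495) (B (L (nat_lit 464) ln12_15_2 ln12_15_2_ok) (M (nat_lit 527) (B (L (nat_lit 528) ln12_15_0 ln12_15_0_ok) (L (nat_lit 526) ln11_15_0 ln11_15_0_ok))))))) (B (M (nat_lit 495) (B (M (nat_lit 527) (B (L (nat_lit 528) ln12_15_0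 ln12_15_0_ok) (L (nat_lit 526) ln11_15_0 ln11_15_0_ok))) (M (nat_lit 523) (B (L (nat_lit 524) ln15_15_1 ln15_15_1_ok) (L (nat_lit 522) ln14_15_1 ln14_15_1_ok))))) (B (M (nat_lit 495) (B (M (nat_lit 463) (B (L (nat_lit 464) ln12_15_2 ln12_15_2_ok) (L (nat_lit 462) ln11_15_2 ln11_15_2_ok))) (M (nat_lit 523) (B (L (nat_lit 524) ln15_15_1 ln15_15_1_ok) (L (nat_lit 522) ln14_15_1 ln14_15_1_ok))))) (M (nat_lit 462) (B (L (nat_lit 463) ln11_15_2 ln11_15_2_ok) (M (nat_lit 526) (B (L (nat_lit 527) ln11_15_0 ln11_15_0_ok) (L (nat_lit 558) ln14_17_7 ln14_17_7_ok))))))))) (B (M (nat_lit 490) (B (L (nat_lit 462) ln10_15_2 ln10_15_2_ok) (M (nat_lit 521) (B (L (nat_lit 522) ln13_15_1 ln13_15_1_ok) (M (nat_lit 457) (B (L (nat_lit 458) ln13_15_3 ln13_15_3_ok) (M (nat_lit 489) (B (L (nat_lit 520) ln12_15_1 ln12_15_1_ok) (L (nat_lit 456) ln12_15_3 ln12_15_3_ok))))))))) (M (nat_lit 462) (B (M (nat_lit 463) (B (L (nat_lit 464) ln16_14_1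 ln16_14_1_ok) (L (nat_lit 494) ln11_15_2 ln11_15_2_ok))) (L (nat_lit 490) ln10_15_2 ln10_15_2_ok))))))) c10_d393)))
noncomputable def c10_d395 : Cert := (B (M (nat_lit 459) (B (K (nat_lit 31966705162678588987520905039367506193428018504742133969954122741534174532709386050620439884133166955505553889077481828746248538476008148127912558592) (nat_lit 1087770611061603336288267087476101072086283002110856006900200545352575831659087840591941162818867973427243595799849528203046502987503235444255751199240347943158280745591995532997807833088) (nat_lit 1087770611061603336288267087476101072086283002110856006900200545352575831659087840591941162818867973427243595799849528203046502987503235444255751199240347943158280745591995532997807833088) c10_s550) (B (M (nat_lit 427) (B (M (nat_lit 523) (B (M (nat_lit 555) (B (M (nat_lit 556) (B (L (nat_lit 588) ln11_14_4 ln11_14_4_ok) (L (nat_lit 524) ln11_13_4 ln11_13_4_ok))) (M (nat_lit 426)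 (B (L (nat_lit 458) ln11_17_7 ln11_17_7_ok) (L (nat_lit 394) ln11_16_7 ln11_16_7_ok))))) (B (M (nat_lit 395) (B (M (nat_lit 522) (B (L (nat_lit 554) ln11_13_5 ln11_13_5_ok) (L (nat_lit 490) ln11_12_5 ln11_12_5_ok))) (M (nat_lit 394) (B (L (nat_lit 426) ln11_16_7 ln11_16_7_ok) (L (nat_lit 362) ln11_15_7 ln11_15_7_ok))))) (M (nat_lit 395) (B (M (nat_lit 522) (B (L (nat_lit 554) ln11_13_5 ln11_13_5_ok) (L (nat_lit 490) ln11_12_5 ln11_12_5_ok))) (M (nat_lit 524) (B (L (nat_lit 556) ln11_13_4 ln11_13_4_ok) (L (nat_lit 492) ln11_12_4 ln11_12_4_ok)))))))) (B (M (nat_lit 395) (B (M (nat_lit 363) (B (M (nat_lit 490) (B (L (nat_lit 522) ln11_12_5 ln11_12_5_ok) (L (nat_lit 458) ln11_11_5 ln11_11_5_ok))) (M (nat_lit 364) (B (L (nat_lit 396) ln11_15_6 ln11_15_6_ok) (L (nat_lit 332) ln11_14_6 ln11_14_6_ok))))) (B (M (nat_lit 492) (B (L (nat_lit 524) ln11_12_4 ln11_12_4_ok) (M (nat_lit 363) (B (L (nat_lit 460) ln11_11_4 ln11_11_4_ok)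 (M (nat_lit 362) (B (L (nat_lit 394) ln11_15_7 ln11_15_7_ok) (L (nat_lit 330) ln11_14_7 ln11_14_7_ok))))))) (M (nat_lit 523) (B (M (nat_lit 522) (B (L (nat_lit 554) ln11_13_5 ln11_13_5_ok) (L (nat_lit 490) ln11_12_5 ln11_12_5_ok))) (M (nat_lit 394) (B (L (nat_lit 426) ln11_16_7 ln11_16_7_ok) (L (nat_lit 362) ln11_15_7 ln11_15_7_ok)))))))) (B (M (nat_lit 395) (B (M (nat_lit 363) (B (M (nat_lit 490) (B (L (nat_lit 522) ln11_12_5 ln11_12_5_ok) (L (nat_lit 458) ln11_11_5 ln11_11_5_ok))) (M (nat_lit 364) (B (L (nat_lit 396) ln11_15_6 ln11_15_6_ok) (L (nat_lit 332) ln11_14_6 ln11_14_6_ok))))) (B (M (nat_lit 492) (B (L (nat_lit 524) ln11_12_4 ln11_12_4_ok) (M (nat_lit 363) (B (L (nat_lit 460) ln11_11_4 ln11_11_4_ok) (M (nat_lit 362) (B (L (nat_lit 394) ln11_15_7 ln11_15_7_ok) (L (nat_lit 330) ln11_14_7 ln11_14_7_ok))))))) (M (nat_lit 523) (B (M (nat_lit 524) (B (L (nat_lit 556) ln11_13_4 ln11_13_4_ok) (L (nat_lit 492)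 ln11_12_4 ln11_12_4_ok))) (M (nat_lit 394) (B (L (nat_lit 426) ln11_16_7 ln11_16_7_ok) (L (nat_lit 362) ln11_15_7 ln11_15_7_ok)))))))) (B (M (nat_lit 395) (B (M (nat_lit 363) (B (M (nat_lit 492) (B (L (nat_lit 524) ln11_12_4 ln11_12_4_ok) (L (nat_lit 460) ln11_11_4 ln11_11_4_ok))) (M (nat_lit 364) (B (L (nat_lit 396) ln11_15_6 ln11_15_6_ok) (L (nat_lit 332) ln11_14_6 ln11_14_6_ok))))) (B (M (nat_lit 363) (B (M (nat_lit 362) (B (L (nat_lit 394) ln11_15_7 ln11_15_7_ok) (L (nat_lit 330) ln11_14_7 ln11_14_7_ok))) (M (nat_lit 364) (B (L (nat_lit 396) ln11_15_6 ln11_15_6_ok) (L (nat_lit 332) ln11_14_6 ln11_14_6_ok))))) (B (M (nat_lit 492) (B (L (nat_lit 524) ln11_12_4 ln11_12_4_ok) (M (nat_lit 363) (B (L (nat_lit 460) ln11_11_4 ln11_11_4_ok) (M (nat_lit 362) (B (L (nat_lit 394) ln11_15_7 ln11_15_7_ok) (L (nat_lit 330) ln11_14_7 ln11_14_7_ok))))))) (M (nat_lit 523) (B (M (nat_lit 524) (B (L (nat_lit 556) ln11_13_4 ln11_13_4_ok)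 (L (nat_lit 492) ln11_12_4 ln11_12_4_ok))) (M (nat_lit 394) (B (L (nat_lit 426) ln11_16_7 ln11_16_7_ok) (L (nat_lit 362) ln11_15_7 ln11_15_7_ok))))))))) c10_d388))))) (B (M (nat_lit 427) (B (K (nat_lit 31966705162678588987867488751132608050875320277760019432883677375956151604605695998197267547608870158385550689840499276008422439846183594606534328320) (nat_lit 1266331655955072354700736160263842181285211028530248843164518301475368613277524597583578364319797226634141325211947189629375970031332434089524021587843856713065950098942815371264) (nat_lit 1266331655955072354700736160263842181285211028530248843164518301475368613277524597583578364319797226634141325211947189629375970031332434089524021587843856713065950098942815371264) c10_s549) (B (M (nat_lit 523) (B (M (nat_lit 395) (B (M (nat_lit 394) (B (L (nat_lit 362) ln11_15_7 ln11_15_7_ok) (L (nat_lit 426) ln11_16_7 ln11_16_7_ok))) (M (nat_lit 524) (B (L (nat_lit 492)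 ln11_12_4 ln11_12_4_ok) (L (nat_lit 556) ln11_13_4 ln11_13_4_ok))))) (M (nat_lit 555) (B (M (nat_lit 428) (B (L (nat_lit 396) ln11_16_6 ln11_16_6_ok) (L (nat_lit 460) ln11_17_6 ln11_17_6_ok))) (M (nat_lit 554) (B (L (nat_lit 522) ln11_13_5 ln11_13_5_ok) (L (nat_lit 586) ln11_14_5 ln11_14_5_ok))))))) (B (M (nat_lit 523) (B (M (nat_lit 555) (B (M (nat_lit 426) (B (L (nat_lit 394) ln11_16_7 ln11_16_7_ok) (L (nat_lit 458) ln11_17_7 ln11_17_7_ok))) (M (nat_lit 554) (B (L (nat_lit 522) ln11_13_5 ln11_13_5_ok) (L (nat_lit 586) ln11_14_5 ln11_14_5_ok))))) (B (M (nat_lit 555) (B (M (nat_lit 428) (B (L (nat_lit 396) ln11_16_6 ln11_16_6_ok) (L (nat_lit 460) ln11_17_6 ln11_17_6_ok))) (M (nat_lit 554) (B (L (nat_lit 522) ln11_13_5 ln11_13_5_ok) (L (nat_lit 586) ln11_14_5 ln11_14_5_ok))))) (B (M (nat_lit 555) (B (M (nat_lit 428) (B (L (nat_lit 396) ln11_16_6 ln11_16_6_ok) (L (nat_lit 460) ln11_17_6 ln11_17_6_ok))) (M (nat_lit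 426) (B (L (nat_lit 394) ln11_16_7 ln11_16_7_ok) (L (nat_lit 458) ln11_17_7 ln11_17_7_ok))))) (M (nat_lit 395) (B (M (nat_lit 396) (B (L (nat_lit 364) ln11_15_6 ln11_15_6_ok) (L (nat_lit 428) ln11_16_6 ln11_16_6_ok))) (M (nat_lit 524) (B (L (nat_lit 492) ln11_12_4 ln11_12_4_ok) (L (nat_lit 556) ln11_13_4 ln11_13_4_ok))))))))) c10_d389)))) c10_d390)))) (B (M (nat_lit 492) c10_d392) (B (M (nat_lit 492) (B (M (nat_lit 494) (B (M (nat_lit 526) (B (L (nat_lit 527) ln11_15_0 ln11_15_0_ok) (M (nat_lit 462) (B (L (nat_lit 463) ln11_15_2 ln11_15_2_ok) (L (nat_lit 558) ln14_17_7 ln14_17_7_ok))))) (B (M (nat_lit 495) (B (M (nat_lit 527) (B (L (nat_lit 528) ln12_15_0 ln12_15_0_ok) (L (nat_lit 526) ln11_15_0 ln11_15_0_ok))) (M (nat_lit 496) (B (L (nat_lit 460) ln16_15_3 ln16_15_3_ok) (M (nat_lit 497) (B (L (nat_lit 462) ln17_15_3 ln17_15_3_ok) (M (nat_lit 465) (B (L (nat_lit 466) ln14_15_2_c10 ln14_15_2_c10_ok) (L (nat_lit 464)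 ln13_15_2 ln13_15_2_ok))))))))) (B (M (nat_lit 495) (B (M (nat_lit 463) (B (L (nat_lit 464) ln12_15_2 ln12_15_2_ok) (L (nat_lit 462) ln11_15_2 ln11_15_2_ok))) (B (M (nat_lit 462) (B (L (nat_lit 463) ln11_15_2 ln11_15_2_ok) (M (nat_lit 496) (B (L (nat_lit 497) ln17_15_3 ln17_15_3_ok) (L (nat_lit 460) ln16_15_3 ln16_15_3_ok))))) (B (M (nat_lit 496) (B (L (nat_lit 460) ln16_15_3 ln16_15_3_ok) (M (nat_lit 497) (B (L (nat_lit 462) ln17_15_3 ln17_15_3_ok) (M (nat_lit 529) (B (L (nat_lit 530) ln14_15_0 ln14_15_0_ok) (L (nat_lit 528) ln13_15_0 ln13_15_0_ok))))))) (M (nat_lit 496) (B (L (nat_lit 460) ln16_15_3 ln16_15_3_ok) (M (nat_lit 464) (B (L (nat_lit 465) ln13_15_2 ln13_15_2_ok) (L (nat_lit 463) ln12_15_2 ln12_15_2_ok))))))))) (M (nat_lit 495) (B (M (nat_lit 527) (B (L (nat_lit 526) ln11_15_0 ln11_15_0_ok) (L (nat_lit 528) ln12_15_0 ln12_15_0_ok))) (M (nat_lit 496) (B (L (nat_lit 460) ln16_15_3 ln16_15_3_ok) (M (nat_lit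 464) (B (L (nat_lit 463) ln12_15_2 ln12_15_2_ok) (L (nat_lit 465) ln13_15_2 ln13_15_2_ok))))))))))) (B (M (nat_lit 490) (B (M (nat_lit 489) (B (L (nat_lit 460) ln9_15_2 ln9_15_2_ok) (M (nat_lit 521) (B (L (nat_lit 522) ln13_15_1 ln13_15_1_ok) (L (nat_lit 520) ln12_15_1 ln12_15_1_ok))))) (B (M (nat_lit 489) (B (L (nat_lit 460) ln9_15_2 ln9_15_2_ok) (M (nat_lit 457) (B (L (nat_lit 458) ln13_15_3 ln13_15_3_ok) (L (nat_lit 456) ln12_15_3 ln12_15_3_ok))))) (M (nat_lit 522) (B (L (nat_lit 521) ln13_15_1 ln13_15_1_ok) (M (nat_lit 523) (B (L (nat_lit 494) ln14_15_1 ln14_15_1_ok) (M (nat_lit 458) (B (L (nat_lit 457) ln13_15_3 ln13_15_3_ok) (M (nat_lit 426) (B (L (nat_lit 555) ln10_13_4 ln10_13_4_ok) (L (nat_lit 394) ln10_12_4 ln10_12_4_ok)))))))))))) (M (nat_lit 490) (B (L (nat_lit 462) ln10_15_2 ln10_15_2_ok) (M (nat_lit 521) (B (L (nat_lit 522) ln13_15_1 ln13_15_1_ok) (M (nat_lit 457) (B (L (nat_lit 458) ln13_15_3 ln13_15_3_ok)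 (M (nat_lit 489) (B (L (nat_lit 520) ln12_15_1 ln12_15_1_ok) (L (nat_lit 456) ln12_15_3 ln12_15_3_ok)))))))))))) c10_d394)))
theorem c10_s560 : Sem (nat_lit 25573364130142871190293991000906086440700256222208015546306941900764921283684556798557814038087096126708440551872399420806737951876946875685227462656) (nat_lit 32703574354730289598066216813825679870048659784323189579821436680922460699973741364672202018903605944284541066126234188635861024162453571626363094594693324976870582650449467006358216902783065391104) (nat_lit 32703574354730289598066216813825679870048659784323189579821436680922460699973741364672202018903605944284541066126234188635861024162453571626363094594693324976870582650449467006358216902783065391104) :=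
  sem_of_chk (M (nat_lit 491) (B (M (nat_lit 459) (B (M (nat_lit 460) c10_d385) (B (K (nat_lit 31966705162678588987520905039367506193428018504742133969954122741534174532709386050620439884133166955505553889077481828746248538476008148127912558592) (nat_lit 1087770611061603336288267087476101072086283002110856006900200545352575831659087840591941162818867973427243595799849528203046502987503235444255751199240347943158280745591995532997807833088) (nat_lit 1087770611061603336288267087476101072086283002110856006900200545352575831659087840591941162818867973427243595799849528203046502987503235444255751199240347943158280745591995532997807833088) c10_s550) (B (K (nat_lit 31966705162678588987520905039367506193428018504742133969954122741534174532709386050620439884133166955505553889077481828746248538476008148127912558592) (nat_lit 1266331655955072354700736160621869279039481485490670749433086632967896314848802606685960216860156501030835595337450651081150203761440336483540113288075090757188290355050057826304)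 (nat_lit 1266331655955072354700736160621869279039481485490670749433086632967896314848802606685960216860156501030835595337450651081150203761440336483540113288075090757188290355050057826304) c10_s552) c10_d386)))) (B (M (nat_lit 459) (B (M (nat_lit 427) (B (M (nat_lit 492) (B (M (nat_lit 494) (B (L (nat_lit 458) ln14_15_3 ln14_15_3_ok) (M (nat_lit 495) (B (M (nat_lit 527) (B (L (nat_lit 526) ln11_15_0 ln11_15_0_ok) (L (nat_lit 528) ln12_15_0 ln12_15_0_ok))) (M (nat_lit 463) (B (L (nat_lit 462) ln11_15_2 ln11_15_2_ok) (L (nat_lit 464) ln12_15_2 ln12_15_2_ok))))))) (M (nat_lit 395) (B (L (nat_lit 524) ln11_12_4 ln11_12_4_ok) (M (nat_lit 363) (B (M (nat_lit 362) (B (L (nat_lit 394) ln11_15_7 ln11_15_7_ok) (L (nat_lit 330) ln11_14_7 ln11_14_7_ok))) (M (nat_lit 364) (B (L (nat_lit 396) ln11_15_6 ln11_15_6_ok) (L (nat_lit 332) ln11_14_6 ln11_14_6_ok))))))))) (B (M (nat_lit 426) (B (M (nat_lit 394) (B (L (nat_lit 523) ln11_16_7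 ln11_16_7_ok) (M (nat_lit 362) (B (L (nat_lit 330) ln10_10_4 ln10_10_4_ok) (L (nat_lit 395) ln11_15_7 ln11_15_7_ok))))) (B (M (nat_lit 394) (B (L (nat_lit 523) ln11_16_7 ln11_16_7_ok) (M (nat_lit 362) (B (L (nat_lit 395) ln11_15_7 ln11_15_7_ok) (L (nat_lit 458) ln10_11_4 ln10_11_4_ok))))) (B (M (nat_lit 394) (B (L (nat_lit 523) ln11_16_7 ln11_16_7_ok) (M (nat_lit 362) (B (L (nat_lit 330) ln10_10_4 ln10_10_4_ok) (L (nat_lit 458) ln10_11_4 ln10_11_4_ok))))) (B (M (nat_lit 523) (B (L (nat_lit 394) ln11_16_7 ln11_16_7_ok) (M (nat_lit 555) (B (L (nat_lit 458) ln11_17_7 ln11_17_7_ok) (M (nat_lit 554) (B (L (nat_lit 586) ln11_14_5 ln11_14_5_ok) (L (nat_lit 522) ln11_13_5 ln11_13_5_ok))))))) (B (M (nat_lit 428) (B (L (nat_lit 462) ln10_13_0 ln10_13_0_ok) (M (nat_lit 458) (B (L (nat_lit 457) ln13_13_1 ln13_13_1_ok) (M (nat_lit 523) (B (L (nat_lit 555) ln11_17_7 ln11_17_7_ok) (L (nat_lit 396) ln11_16_6 ln11_16_6_ok)))))))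 (M (nat_lit 394) (B (M (nat_lit 362) (B (L (nat_lit 458) ln10_11_4 ln10_11_4_ok) (L (nat_lit 395) ln11_15_7 ln11_15_7_ok))) (M (nat_lit 428) (B (L (nat_lit 462) ln10_13_0 ln10_13_0_ok) (L (nat_lit 393) ln13_13_3 ln13_13_3_ok))))))))))) (B (M (nat_lit 523) (B (M (nat_lit 394) (B (L (nat_lit 426) ln11_16_7 ln11_16_7_ok) (M (nat_lit 395) (B (L (nat_lit 362) ln11_15_7 ln11_15_7_ok) (M (nat_lit 396) (B (L (nat_lit 364) ln11_15_6 ln11_15_6_ok) (L (nat_lit 428) ln11_16_6 ln11_16_6_ok))))))) (M (nat_lit 554) (B (L (nat_lit 522) ln11_13_5 ln11_13_5_ok) (M (nat_lit 555) (B (L (nat_lit 586) ln11_14_5 ln11_14_5_ok) (M (nat_lit 556) (B (L (nat_lit 524) ln11_13_4 ln11_13_4_ok) (L (nat_lit 588) ln11_14_4 ln11_14_4_ok))))))))) (B (K (nat_lit 31966705162678588987867488751132608050875320277760019432883677375956151604605695998197267547608870158385550689840499276008422439846183594606534328320) (nat_lit 1266331655955072354700736160263842181297119554189108066459197727435068492823292433498396499686440572010943492422642976702846243148608065879837086155681643485128913663841250836480)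 (nat_lit 1266331655955072354700736160263842181297119554189108066459197727435068492823292433498396499686440572010943492422642976702846243148608065879837086155681643485128913663841250836480) c10_s553) (M (nat_lit 492) (B (M (nat_lit 524) (B (L (nat_lit 395) ln11_12_4 ln11_12_4_ok) (M (nat_lit 556) (B (L (nat_lit 588) ln12_18_6 ln12_18_6_ok) (L (nat_lit 523) ln11_13_4 ln11_13_4_ok))))) (M (nat_lit 494) (B (L (nat_lit 458) ln14_15_3 ln14_15_3_ok) (M (nat_lit 462) (B (L (nat_lit 463) ln11_15_2 ln11_15_2_ok) (M (nat_lit 526) (B (L (nat_lit 558) ln14_17_7 ln14_17_7_ok) (L (nat_lit 527) ln11_15_0 ln11_15_0_ok)))))))))))))) c10_d387)) c10_d395))) (nat_lit 25573364130142871190293991000906086440700256222208015546306941900764921283684556798557814038087096126708440551872399420806737951876946875685227462656) (nat_lit 32703574354730289598066216813825679870048659784323189579821436680922460699973741364672202018903605944284541066126234188635861024162453571626363094594693324976870582650449467006358216902783065391104)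 (nat_lit 32703574354730289598066216813825679870048659784323189579821436680922460699973741364672202018903605944284541066126234188635861024162453571626363094594693324976870582650449467006358216902783065391104) (by decide +kernel)

end Vale.Agent.Lib.P062.Data
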