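import Vale.Agent.Lib.P062.Data.c10_lines
import Vale.Agent.Lib.P062.Data.c10_l0_0
import Vale.Agent.Lib.P062.Data.c10_l0_1
import Vale.Agent.Lib.P062.Data.c10_l0_2
import Vale.Agent.Lib.P062.Data.c10_l0_3
import Vale.Agent.Lib.P062.Data.c10_l1_0
import Vale.Agent.Lib.P062.Data.c10_l1_2
import Vale.Agent.Lib.P062.Data.c10_l1_3
import Vale.Agent.Lib.P062.Data.c10_l1_4

namespace Vale.Agent.Lib.P062.Data
noncomputable def c10_d262 : Cert := (B (M (nat_lit 554) (B (M (nat_lit 586) (B (M (nat_lit 585) (B (L (nat_lit 617) ln10_15_5 ln10_15_5_ok) (L (nat_lit 553) ln10_14_5 ln10_14_5_ok))) (M (nat_lit 587) (B (L (nat_lit 619) ln10_15_4 ln10_15_4_ok) (L (nat_lit 555) ln10_14_4 ln10_14_4_ok))))) (B (M (nat_lit 553) (B (L (nat_lit 585) ln10_14_5 ln10_14_5_ok) (L (nat_lit 521) ln10_13_5 ln10_13_5_ok))) (M (nat_lit 586) (B (M (nat_lit 587) (B (L (nat_lit 619) ln10_15_4 ln10_15_4_ok) (L (nat_lit 555) ln10_14_4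 ln10_14_4_ok))) (B (M (nat_lit 555) (B (L (nat_lit 587) ln10_14_4 ln10_14_4_ok) (M (nat_lit 618) (B (M (nat_lit 489) (B (L (nat_lit 521) ln10_19_7_c10 ln10_19_7_c10_ok) (L (nat_lit 457) ln10_18_7_c10 ln10_18_7_c10_ok))) (L (nat_lit 523) ln10_13_4 ln10_13_4_ok))))) (B (M (nat_lit 618) (B (M (nat_lit 489) (B (L (nat_lit 521) ln10_19_7_c10 ln10_19_7_c10_ok) (L (nat_lit 457) ln10_18_7_c10 ln10_18_7_c10_ok))) (M (nat_lit 650) (B (M (nat_lit 651) (B (L (nat_lit 683) ln10_17_4_c10 ln10_17_4_c10_ok) (L (nat_lit 619) ln10_16_4 ln10_16_4_ok))) (M (nat_lit 523) (B (L (nat_lit 555) ln10_13_4 ln10_13_4_ok) (L (nat_lit 491) ln10_19_6 ln10_19_6_ok))))))) (M (nat_lit 618) (B (M (nat_lit 619) (B (L (nat_lit 651) ln10_16_4 ln10_16_4_ok) (L (nat_lit 587) ln10_15_4 ln10_15_4_ok))) (M (nat_lit 489) (B (L (nat_lit 521) ln10_19_7_c10 ln10_19_7_c10_ok) (L (nat_lit 457) ln10_18_7_c10 ln10_18_7_c10_ok)))))))))))) (B (M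 (nat_lit 554) (B (M (nat_lit 586) (B (M (nat_lit 619) (B (L (nat_lit 587) ln10_15_4 ln10_15_4_ok) (M (nat_lit 618) (B (L (nat_lit 651) ln10_16_4 ln10_16_4_ok) (M (nat_lit 617) (B (L (nat_lit 585) ln10_15_5 ln10_15_5_ok) (L (nat_lit 649) ln10_16_5 ln10_16_5_ok))))))) (B (M (nat_lit 618) (B (M (nat_lit 489) (B (L (nat_lit 457) ln10_18_7_c10 ln10_18_7_c10_ok) (L (nat_lit 521) ln10_19_7_c10 ln10_19_7_c10_ok))) (M (nat_lit 617) (B (L (nat_lit 585) ln10_15_5 ln10_15_5_ok) (L (nat_lit 649) ln10_16_5 ln10_16_5_ok))))) (B (M (nat_lit 618) (B (M (nat_lit 489) (B (L (nat_lit 457) ln10_18_7_c10 ln10_18_7_c10_ok) (L (nat_lit 521) ln10_19_7_c10 ln10_19_7_c10_ok))) (M (nat_lit 619) (B (L (nat_lit 587) ln10_15_4 ln10_15_4_ok) (L (nat_lit 651) ln10_16_4 ln10_16_4_ok))))) (M (nat_lit 457) (B (L (nat_lit 425) ln10_17_7 ln10_17_7_ok) (L (nat_lit 489) ln10_18_7_c10 ln10_18_7_c10_ok))))))) (B (M (nat_lit 553) (B (L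 (nat_lit 585) ln10_14_5 ln10_14_5_ok) (L (nat_lit 521) ln10_13_5 ln10_13_5_ok))) (B (M (nat_lit 587) (B (M (nat_lit 619) (B (L (nat_lit 586) ln10_15_4 ln10_15_4_ok) (L (nat_lit 555) ln10_14_4 ln10_14_4_ok))) (B (M (nat_lit 553) (B (L (nat_lit 555) ln10_14_4 ln10_14_4_ok) (L (nat_lit 585) ln10_14_5 ln10_14_5_ok))) (M (nat_lit 586) (B (L (nat_lit 619) ln10_15_4 ln10_15_4_ok) (M (nat_lit 585) (B (L (nat_lit 617) ln10_15_5 ln10_15_5_ok) (L (nat_lit 553) ln10_14_5 ln10_14_5_ok)))))))) (M (nat_lit 586) (B (M (nat_lit 618) (B (M (nat_lit 619) (B (L (nat_lit 651) ln10_16_4 ln10_16_4_ok) (L (nat_lit 587) ln10_15_4 ln10_15_4_ok))) (M (nat_lit 489) (B (L (nat_lit 521) ln10_19_7_c10 ln10_19_7_c10_ok) (L (nat_lit 457) ln10_18_7_c10 ln10_18_7_c10_ok))))) (B (M (nat_lit 587) (B (L (nat_lit 619) ln10_15_4 ln10_15_4_ok) (L (nat_lit 555) ln10_14_4 ln10_14_4_ok))) (B (M (nat_lit 618) (B (M (nat_lit 489) (B (L (nat_lit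 521) ln10_19_7_c10 ln10_19_7_c10_ok) (L (nat_lit 457) ln10_18_7_c10 ln10_18_7_c10_ok))) (M (nat_lit 650) (B (M (nat_lit 649) (B (L (nat_lit 681) ln10_17_5_c10 ln10_17_5_c10_ok) (L (nat_lit 617) ln10_16_5 ln10_16_5_ok))) (M (nat_lit 555) (B (L (nat_lit 523) ln10_13_4 ln10_13_4_ok) (L (nat_lit 587) ln10_14_4 ln10_14_4_ok))))))) (M (nat_lit 618) (B (M (nat_lit 489) (B (L (nat_lit 521) ln10_19_7_c10 ln10_19_7_c10_ok) (L (nat_lit 457) ln10_18_7_c10 ln10_18_7_c10_ok))) (M (nat_lit 650) (B (M (nat_lit 651) (B (L (nat_lit 683) ln10_17_4_c10 ln10_17_4_c10_ok) (L (nat_lit 619) ln10_16_4 ln10_16_4_ok))) (M (nat_lit 649) (B (L (nat_lit 681) ln10_17_5_c10 ln10_17_5_c10_ok) (L (nat_lit 617) ln10_16_5 ln10_16_5_ok))))))))))))))) (B (M (nat_lit 554) (B (M (nat_lit 587) (B (L (nat_lit 555) ln10_14_4 ln10_14_4_ok) (M (nat_lit 586) (B (L (nat_lit 619) ln10_15_4 ln10_15_4_ok) (M (nat_lit 585) (B (L (nat_lit 553) ln10_14_5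 ln10_14_5_ok) (L (nat_lit 617) ln10_15_5 ln10_15_5_ok))))))) (B (M (nat_lit 586) (B (M (nat_lit 457) (B (L (nat_lit 425) ln10_17_7 ln10_17_7_ok) (L (nat_lit 489) ln10_18_7_c10 ln10_18_7_c10_ok))) (M (nat_lit 585) (B (L (nat_lit 553) ln10_14_5 ln10_14_5_ok) (L (nat_lit 617) ln10_15_5 ln10_15_5_ok))))) (B (M (nat_lit 586) (B (M (nat_lit 457) (B (L (nat_lit 425) ln10_17_7 ln10_17_7_ok) (L (nat_lit 489) ln10_18_7_c10 ln10_18_7_c10_ok))) (M (nat_lit 587) (B (L (nat_lit 555) ln10_14_4 ln10_14_4_ok) (L (nat_lit 619) ln10_15_4 ln10_15_4_ok))))) (M (nat_lit 425) (B (L (nat_lit 393) ln10_16_7 ln10_16_7_ok) (L (nat_lit 457) ln10_17_7 ln10_17_7_ok))))))) (B (M (nat_lit 394) (B (M (nat_lit 521) (B (L (nat_lit 553) ln10_13_5 ln10_13_5_ok) (L (nat_lit 489) ln10_12_5 ln10_12_5_ok))) (M (nat_lit 393) (B (L (nat_lit 425) ln10_16_7 ln10_16_7_ok) (L (nat_lit 361) ln10_15_7 ln10_15_7_ok))))) (B (M (nat_lit 553) (B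 (M (nat_lit 585) (B (L (nat_lit 554) ln10_14_5 ln10_14_5_ok) (L (nat_lit 521) ln10_13_5 ln10_13_5_ok))) (B (M (nat_lit 523) (B (L (nat_lit 521) ln10_13_5 ln10_13_5_ok) (L (nat_lit 555) ln10_13_4 ln10_13_4_ok))) (M (nat_lit 554) (B (L (nat_lit 585) ln10_14_5 ln10_14_5_ok) (M (nat_lit 555) (B (L (nat_lit 587) ln10_14_4 ln10_14_4_ok) (L (nat_lit 523) ln10_13_4 ln10_13_4_ok)))))))) (M (nat_lit 554) (B (M (nat_lit 586) (B (M (nat_lit 587) (B (L (nat_lit 619) ln10_15_4 ln10_15_4_ok) (L (nat_lit 555) ln10_14_4 ln10_14_4_ok))) (M (nat_lit 457) (B (L (nat_lit 489) ln10_18_7_c10 ln10_18_7_c10_ok) (L (nat_lit 425) ln10_17_7 ln10_17_7_ok))))) (B (M (nat_lit 555) (B (L (nat_lit 587) ln10_14_4 ln10_14_4_ok) (L (nat_lit 523) ln10_13_4 ln10_13_4_ok))) (B (M (nat_lit 586) (B (M (nat_lit 457) (B (L (nat_lit 489) ln10_18_7_c10 ln10_18_7_c10_ok) (L (nat_lit 425) ln10_17_7 ln10_17_7_ok))) (M (nat_lit 618) (B (M (nat_lit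 617) (B (L (nat_lit 649) ln10_16_5 ln10_16_5_ok) (L (nat_lit 585) ln10_15_5 ln10_15_5_ok))) (M (nat_lit 523) (B (L (nat_lit 491) ln10_19_6 ln10_19_6_ok) (L (nat_lit 555) ln10_13_4 ln10_13_4_ok))))))) (M (nat_lit 586) (B (M (nat_lit 457) (B (L (nat_lit 489) ln10_18_7_c10 ln10_18_7_c10_ok) (L (nat_lit 425) ln10_17_7 ln10_17_7_ok))) (M (nat_lit 618) (B (M (nat_lit 619) (B (L (nat_lit 651) ln10_16_4 ln10_16_4_ok) (L (nat_lit 587) ln10_15_4 ln10_15_4_ok))) (M (nat_lit 617) (B (L (nat_lit 649) ln10_16_5 ln10_16_5_ok) (L (nat_lit 585) ln10_15_5 ln10_15_5_ok))))))))))))))))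
noncomputable def c10_d263 : Cert := (B (M (nat_lit 489) (B (M (nat_lit 521) (B (L (nat_lit 394) ln10_12_5 ln10_12_5_ok) (M (nat_lit 553) (B (L (nat_lit 585) ln9_18_6 ln9_18_6_ok) (L (nat_lit 457) ln9_17_6 ln9_17_6_ok))))) (B (M (nat_lit 488) (B (M (nat_lit 487) (B (L (nat_lit 459) ln7_15_2 ln7_15_2_ok) (M (nat_lit 486) (B (L (nat_lit 457) ln6_15_2 ln6_15_2_ok) (M (nat_lit 518) (B (L (nat_lit 519) ln10_15_1 ln10_15_1_ok) (L (nat_lit 517) ln9_15_1_c10 ln9_15_1_c10_ok))))))) (B (M (nat_lit 487) (B (M (nat_lit 486) (B (L (nat_lit 457) ln6_15_2 ln6_15_2_ok) (M (nat_lit 518) (B (L (nat_lit 519) ln10_15_1 ln10_15_1_ok) (L (nat_lit 517) ln9_15_1_c10 ln9_15_1_c10_ok))))) (B (M (nat_lit 486) (B (M (nat_lit 518) (B (L (nat_lit 519) ln10_15_1 ln10_15_1_ok) (L (nat_lit 517) ln9_15_1_c10 ln9_15_1_c10_ok))) (M (nat_lit 454) (B (L (nat_lit 455) ln10_15_3 ln10_15_3_ok) (L (nat_lit 453) ln9_15_3_c10 ln9_15_3_c10_ok)))))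 (B (M (nat_lit 486) (B (L (nat_lit 457) ln6_15_2 ln6_15_2_ok) (M (nat_lit 454) (B (L (nat_lit 455) ln10_15_3 ln10_15_3_ok) (L (nat_lit 453) ln9_15_3_c10 ln9_15_3_c10_ok))))) (M (nat_lit 491) (B (M (nat_lit 519) (B (L (nat_lit 520) ln11_15_1 ln11_15_1_ok) (L (nat_lit 518) ln10_15_1 ln10_15_1_ok))) (M (nat_lit 455) (B (L (nat_lit 456) ln11_15_3 ln11_15_3_ok) (L (nat_lit 454) ln10_15_3 ln10_15_3_ok))))))))) (B (M (nat_lit 487) (B (L (nat_lit 459) ln7_15_2 ln7_15_2_ok) (M (nat_lit 491) (B (M (nat_lit 519) (B (L (nat_lit 520) ln11_15_1 ln11_15_1_ok) (L (nat_lit 518) ln10_15_1 ln10_15_1_ok))) (M (nat_lit 455) (B (L (nat_lit 456) ln11_15_3 ln11_15_3_ok) (L (nat_lit 454) ln10_15_3 ln10_15_3_ok))))))) (B (M (nat_lit 487) (B (L (nat_lit 459) ln7_15_2 ln7_15_2_ok) (M (nat_lit 486) (B (L (nat_lit 457) ln6_15_2 ln6_15_2_ok) (M (nat_lit 454) (B (L (nat_lit 455) ln10_15_3 ln10_15_3_ok) (L (nat_lit 453) ln9_15_3_c10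 ln9_15_3_c10_ok))))))) (M (nat_lit 491) (B (M (nat_lit 523) (B (L (nat_lit 524) ln8_15_0 ln8_15_0_ok) (M (nat_lit 555) (B (L (nat_lit 587) ln11_18_7 ln11_18_7_ok) (L (nat_lit 459) ln11_17_7 ln11_17_7_ok))))) (M (nat_lit 492) (B (M (nat_lit 520) (B (L (nat_lit 521) ln12_15_1 ln12_15_1_ok) (L (nat_lit 519) ln11_15_1 ln11_15_1_ok))) (M (nat_lit 456) (B (L (nat_lit 457) ln12_15_3 ln12_15_3_ok) (L (nat_lit 455) ln11_15_3 ln11_15_3_ok)))))))))))) (B (M (nat_lit 491) (B (M (nat_lit 523) (B (L (nat_lit 394) ln10_12_4 ln10_12_4_ok) (M (nat_lit 555) (B (L (nat_lit 587) ln11_18_7 ln11_18_7_ok) (L (nat_lit 459) ln11_17_7 ln11_17_7_ok))))) (B (M (nat_lit 394) (B (L (nat_lit 523) ln10_12_4 ln10_12_4_ok) (M (nat_lit 362) (B (L (nat_lit 459) ln10_11_4 ln10_11_4_ok) (L (nat_lit 457) ln10_11_5 ln10_11_5_ok))))) (B (M (nat_lit 457) (B (M (nat_lit 456) (B (L (nat_lit 492) ln12_15_3 ln12_15_3_ok) (L (nat_lit 455) ln7_14_0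 ln7_14_0_ok))) (M (nat_lit 488) (B (M (nat_lit 487) (B (L (nat_lit 459) ln7_15_2 ln7_15_2_ok) (L (nat_lit 486) ln6_15_2 ln6_15_2_ok))) (M (nat_lit 393) (B (M (nat_lit 394) (B (L (nat_lit 361) ln10_15_7 ln10_15_7_ok) (L (nat_lit 362) ln10_11_5 ln10_11_5_ok))) (B (M (nat_lit 425) (B (L (nat_lit 361) ln9_11_4 ln9_11_4_ok) (L (nat_lit 520) ln9_12_5_c10 ln9_12_5_c10_ok))) (M (nat_lit 520) (B (L (nat_lit 519) ln11_15_1 ln11_15_1_ok) (L (nat_lit 425) ln9_12_5_c10 ln9_12_5_c10_ok)))))))))) (B (M (nat_lit 457) (B (M (nat_lit 456) (B (L (nat_lit 492) ln12_15_3 ln12_15_3_ok) (L (nat_lit 455) ln7_14_0 ln7_14_0_ok))) (M (nat_lit 394) (B (L (nat_lit 523) ln10_12_4 ln10_12_4_ok) (L (nat_lit 362) ln10_11_5 ln10_11_5_ok))))) (M (nat_lit 457) (B (M (nat_lit 456) (B (L (nat_lit 492) ln12_15_3 ln12_15_3_ok) (L (nat_lit 455) ln7_14_0 ln7_14_0_ok))) (M (nat_lit 488) (B (M (nat_lit 487) (B (L (nat_lit 459) ln7_15_2 ln7_15_2_ok)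 (L (nat_lit 486) ln6_15_2 ln6_15_2_ok))) (B (M (nat_lit 519) (B (L (nat_lit 520) ln11_15_1 ln11_15_1_ok) (M (nat_lit 487) (B (L (nat_lit 518) ln10_15_1 ln10_15_1_ok) (L (nat_lit 486) ln6_15_2 ln6_15_2_ok))))) (M (nat_lit 523) (B (L (nat_lit 524) ln8_15_0 ln8_15_0_ok) (M (nat_lit 555) (B (L (nat_lit 587) ln11_18_7 ln11_18_7_ok) (L (nat_lit 459) ln11_17_7 ln11_17_7_ok))))))))))))))) (M (nat_lit 491) (B (M (nat_lit 394) (B (L (nat_lit 523) ln10_12_4 ln10_12_4_ok) (L (nat_lit 521) ln10_12_5 ln10_12_5_ok))) (B (M (nat_lit 521) (B (L (nat_lit 394) ln10_12_5 ln10_12_5_ok) (M (nat_lit 520) (B (L (nat_lit 492) ln12_15_1 ln12_15_1_ok) (M (nat_lit 519) (B (L (nat_lit 488) ln11_15_1 ln11_15_1_ok) (L (nat_lit 518) ln6_16_2_c10 ln6_16_2_c10_ok))))))) (M (nat_lit 488) (B (M (nat_lit 487) (B (L (nat_lit 459) ln7_15_2 ln7_15_2_ok) (M (nat_lit 519) (B (L (nat_lit 520) ln11_15_1 ln11_15_1_ok) (L (nat_lit 518) ln10_15_1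 ln10_15_1_ok))))) (B (M (nat_lit 487) (B (M (nat_lit 519) (B (L (nat_lit 520) ln11_15_1 ln11_15_1_ok) (L (nat_lit 518) ln10_15_1 ln10_15_1_ok))) (M (nat_lit 455) (B (L (nat_lit 456) ln11_15_3 ln11_15_3_ok) (L (nat_lit 454) ln10_15_3 ln10_15_3_ok))))) (B (M (nat_lit 487) (B (L (nat_lit 459) ln7_15_2 ln7_15_2_ok) (M (nat_lit 455) (B (L (nat_lit 456) ln11_15_3 ln11_15_3_ok) (L (nat_lit 454) ln10_15_3 ln10_15_3_ok))))) (M (nat_lit 523) (B (L (nat_lit 524) ln8_15_0 ln8_15_0_ok) (M (nat_lit 555) (B (L (nat_lit 587) ln11_18_7 ln11_18_7_ok) (L (nat_lit 459) ln11_17_7 ln11_17_7_ok)))))))))))))))) (M (nat_lit 394) (B (M (nat_lit 362) (B (M (nat_lit 361) (B (L (nat_lit 329) ln10_14_7 ln10_14_7_ok) (L (nat_lit 393) ln10_15_7 ln10_15_7_ok))) (M (nat_lit 491) (B (L (nat_lit 459) ln10_11_4 ln10_11_4_ok) (L (nat_lit 523) ln10_12_4 ln10_12_4_ok))))) (B (M (nat_lit 522) (B (M (nat_lit 393) (B (L (nat_lit 361) ln10_15_7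 ln10_15_7_ok) (L (nat_lit 425) ln10_16_7 ln10_16_7_ok))) (M (nat_lit 523) (B (L (nat_lit 491) ln10_12_4 ln10_12_4_ok) (L (nat_lit 555) ln10_13_4 ln10_13_4_ok))))) (B (M (nat_lit 362) (B (M (nat_lit 491) (B (L (nat_lit 459) ln10_11_4 ln10_11_4_ok) (L (nat_lit 523) ln10_12_4 ln10_12_4_ok))) (M (nat_lit 330) (B (M (nat_lit 457) (B (L (nat_lit 425) ln10_10_5 ln10_10_5_ok) (L (nat_lit 489) ln10_11_5 ln10_11_5_ok))) (L (nat_lit 331) ln10_14_6 ln10_14_6_ok))))) (M (nat_lit 362) (B (M (nat_lit 361) (B (L (nat_lit 329) ln10_14_7 ln10_14_7_ok) (L (nat_lit 393) ln10_15_7 ln10_15_7_ok))) (M (nat_lit 330) (B (M (nat_lit 457) (B (L (nat_lit 425) ln10_10_5 ln10_10_5_ok) (L (nat_lit 489) ln10_11_5 ln10_11_5_ok))) (L (nat_lit 331) ln10_14_6 ln10_14_6_ok))))))))))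
noncomputable def c10_d264 : Cert := (B (M (nat_lit 522) (B (M (nat_lit 554) (B (M (nat_lit 553) (B (L (nat_lit 585) ln10_14_5 ln10_14_5_ok) (L (nat_lit 521) ln10_13_5 ln10_13_5_ok))) (M (nat_lit 425) (B (L (nat_lit 457) ln10_17_7 ln10_17_7_ok) (L (nat_lit 393) ln10_16_7 ln10_16_7_ok))))) (B (M (nat_lit 394) (B (M (nat_lit 521) (B (L (nat_lit 553) ln10_13_5 ln10_13_5_ok) (L (nat_lit 489) ln10_12_5 ln10_12_5_ok))) (M (nat_lit 393) (B (L (nat_lit 425) ln10_16_7 ln10_16_7_ok) (L (nat_lit 361) ln10_15_7 ln10_15_7_ok))))) (B (M (nat_lit 394) (B (M (nat_lit 393) (B (L (nat_lit 425) ln10_16_7 ln10_16_7_ok) (L (nat_lit 361) ln10_15_7 ln10_15_7_ok))) (B (M (nat_lit 362) (B (M (nat_lit 489) (B (L (nat_lit 521) ln10_12_5 ln10_12_5_ok) (L (nat_lit 457) ln10_11_5 ln10_11_5_ok))) (M (nat_lit 361) (B (L (nat_lit 393) ln10_15_7 ln10_15_7_ok) (L (nat_lit 329) ln10_14_7 ln10_14_7_ok))))) (M (nat_lit 489) (B (L (nat_lit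 521) ln10_12_5 ln10_12_5_ok) (M (nat_lit 457) (B (L (nat_lit 362) ln10_11_5 ln10_11_5_ok) (M (nat_lit 554) (B (L (nat_lit 586) ln10_18_7_c10 ln10_18_7_c10_ok) (L (nat_lit 425) ln10_17_7 ln10_17_7_ok)))))))))) (B (M (nat_lit 554) (B (M (nat_lit 425) (B (L (nat_lit 457) ln10_17_7 ln10_17_7_ok) (L (nat_lit 393) ln10_16_7 ln10_16_7_ok))) (M (nat_lit 586) (B (M (nat_lit 585) (B (L (nat_lit 617) ln10_15_5 ln10_15_5_ok) (L (nat_lit 553) ln10_14_5 ln10_14_5_ok))) (M (nat_lit 587) (B (L (nat_lit 619) ln10_15_4 ln10_15_4_ok) (L (nat_lit 555) ln10_14_4 ln10_14_4_ok))))))) (M (nat_lit 554) (B (M (nat_lit 553) (B (L (nat_lit 585) ln10_14_5 ln10_14_5_ok) (L (nat_lit 521) ln10_13_5 ln10_13_5_ok))) (B (M (nat_lit 521) (B (L (nat_lit 553) ln10_13_5 ln10_13_5_ok) (M (nat_lit 489) (B (L (nat_lit 394) ln10_12_5 ln10_12_5_ok) (M (nat_lit 586) (B (L (nat_lit 618) ln10_19_7_c10 ln10_19_7_c10_ok) (L (nat_lit 457) ln10_18_7_c10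 ln10_18_7_c10_ok))))))) (B (M (nat_lit 586) (B (M (nat_lit 587) (B (L (nat_lit 619) ln10_15_4 ln10_15_4_ok) (L (nat_lit 555) ln10_14_4 ln10_14_4_ok))) (M (nat_lit 489) (B (L (nat_lit 457) ln10_18_7_c10 ln10_18_7_c10_ok) (M (nat_lit 521) (B (L (nat_lit 618) ln10_19_7_c10 ln10_19_7_c10_ok) (L (nat_lit 394) ln10_12_5 ln10_12_5_ok))))))) (M (nat_lit 586) (B (M (nat_lit 585) (B (L (nat_lit 617) ln10_15_5 ln10_15_5_ok) (L (nat_lit 553) ln10_14_5 ln10_14_5_ok))) (M (nat_lit 587) (B (L (nat_lit 619) ln10_15_4 ln10_15_4_ok) (L (nat_lit 555) ln10_14_4 ln10_14_4_ok)))))))))))))) (B (M (nat_lit 394) (B (M (nat_lit 362) (B (M (nat_lit 361) (B (L (nat_lit 329) ln10_14_7 ln10_14_7_ok) (L (nat_lit 393) ln10_15_7 ln10_15_7_ok))) (M (nat_lit 489) (B (L (nat_lit 457) ln10_11_5 ln10_11_5_ok) (L (nat_lit 521) ln10_12_5 ln10_12_5_ok))))) (B (M (nat_lit 522) (B (M (nat_lit 393) (B (L (nat_lit 361) ln10_15_7 ln10_15_7_ok)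 (L (nat_lit 425) ln10_16_7 ln10_16_7_ok))) (M (nat_lit 521) (B (L (nat_lit 489) ln10_12_5 ln10_12_5_ok) (L (nat_lit 553) ln10_13_5 ln10_13_5_ok))))) (B (M (nat_lit 522) (B (M (nat_lit 521) (B (L (nat_lit 489) ln10_12_5 ln10_12_5_ok) (L (nat_lit 553) ln10_13_5 ln10_13_5_ok))) (B (M (nat_lit 554) (B (M (nat_lit 425) (B (L (nat_lit 393) ln10_16_7 ln10_16_7_ok) (L (nat_lit 457) ln10_17_7 ln10_17_7_ok))) (M (nat_lit 553) (B (L (nat_lit 521) ln10_13_5 ln10_13_5_ok) (L (nat_lit 585) ln10_14_5 ln10_14_5_ok))))) (M (nat_lit 425) (B (L (nat_lit 393) ln10_16_7 ln10_16_7_ok) (M (nat_lit 457) (B (L (nat_lit 554) ln10_17_7 ln10_17_7_ok) (M (nat_lit 362) (B (L (nat_lit 330) ln10_10_5 ln10_10_5_ok) (L (nat_lit 489) ln10_11_5 ln10_11_5_ok)))))))))) (B (M (nat_lit 362) (B (M (nat_lit 489) (B (L (nat_lit 457) ln10_11_5 ln10_11_5_ok) (L (nat_lit 521) ln10_12_5 ln10_12_5_ok))) (M (nat_lit 330) (B (M (nat_lit 329) (B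 (L (nat_lit 297) ln10_13_7_c10 ln10_13_7_c10_ok) (L (nat_lit 361) ln10_14_7 ln10_14_7_ok))) (L (nat_lit 331) ln10_14_6 ln10_14_6_ok))))) (M (nat_lit 362) (B (M (nat_lit 361) (B (L (nat_lit 329) ln10_14_7 ln10_14_7_ok) (L (nat_lit 393) ln10_15_7 ln10_15_7_ok))) (B (M (nat_lit 393) (B (L (nat_lit 361) ln10_15_7 ln10_15_7_ok) (M (nat_lit 425) (B (L (nat_lit 522) ln10_16_7 ln10_16_7_ok) (M (nat_lit 330) (B (L (nat_lit 298) ln10_9_5_c10 ln10_9_5_c10_ok) (L (nat_lit 457) ln10_10_5 ln10_10_5_ok))))))) (B (M (nat_lit 330) (B (L (nat_lit 331) ln10_14_6 ln10_14_6_ok) (M (nat_lit 425) (B (L (nat_lit 457) ln10_10_5 ln10_10_5_ok) (M (nat_lit 393) (B (L (nat_lit 298) ln10_9_5_c10 ln10_9_5_c10_ok) (L (nat_lit 522) ln10_16_7 ln10_16_7_ok))))))) (M (nat_lit 330) (B (M (nat_lit 329) (B (L (nat_lit 297) ln10_13_7_c10 ln10_13_7_c10_ok) (L (nat_lit 361) ln10_14_7 ln10_14_7_ok))) (L (nat_lit 331) ln10_14_6 ln10_14_6_ok))))))))))))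 (B (M (nat_lit 522) (B (M (nat_lit 553) (B (L (nat_lit 521) ln10_13_5 ln10_13_5_ok) (M (nat_lit 554) (B (L (nat_lit 585) ln10_14_5 ln10_14_5_ok) (M (nat_lit 555) (B (L (nat_lit 587) ln10_14_4 ln10_14_4_ok) (L (nat_lit 523) ln10_13_4 ln10_13_4_ok))))))) (B (M (nat_lit 554) (B (M (nat_lit 553) (B (L (nat_lit 585) ln10_14_5 ln10_14_5_ok) (L (nat_lit 521) ln10_13_5 ln10_13_5_ok))) (M (nat_lit 425) (B (L (nat_lit 457) ln10_17_7 ln10_17_7_ok) (L (nat_lit 393) ln10_16_7 ln10_16_7_ok))))) (B (M (nat_lit 521) (B (L (nat_lit 553) ln10_13_5 ln10_13_5_ok) (M (nat_lit 520) (B (M (nat_lit 519) (B (L (nat_lit 491) ln7_16_2 ln7_16_2_ok) (M (nat_lit 518) (B (L (nat_lit 489) ln6_16_2_c10 ln6_16_2_c10_ok) (M (nat_lit 550) (B (L (nat_lit 551) ln10_16_1_c10 ln10_16_1_c10_ok) (L (nat_lit 549) ln9_16_1_c10 ln9_16_1_c10_ok))))))) (B (M (nat_lit 519) (B (M (nat_lit 523) (B (L (nat_lit 555) ln10_13_4 ln10_13_4_ok) (M (nat_lit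 551) (B (L (nat_lit 552) ln11_16_1 ln11_16_1_ok) (L (nat_lit 550) ln10_16_1_c10 ln10_16_1_c10_ok))))) (B (M (nat_lit 518) (B (L (nat_lit 489) ln6_16_2_c10 ln6_16_2_c10_ok) (M (nat_lit 550) (B (L (nat_lit 551) ln10_16_1_c10 ln10_16_1_c10_ok) (L (nat_lit 549) ln9_16_1_c10 ln9_16_1_c10_ok))))) (M (nat_lit 523) (B (L (nat_lit 555) ln10_13_4 ln10_13_4_ok) (M (nat_lit 487) (B (L (nat_lit 488) ln11_16_3_c10 ln11_16_3_c10_ok) (L (nat_lit 486) ln10_16_3_c10 ln10_16_3_c10_ok)))))))) (B (M (nat_lit 519) (B (L (nat_lit 491) ln7_16_2 ln7_16_2_ok) (M (nat_lit 523) (B (L (nat_lit 555) ln10_13_4 ln10_13_4_ok) (M (nat_lit 487) (B (L (nat_lit 488) ln11_16_3_c10 ln11_16_3_c10_ok) (L (nat_lit 486) ln10_16_3_c10 ln10_16_3_c10_ok))))))) (M (nat_lit 523) (B (L (nat_lit 555) ln10_13_4 ln10_13_4_ok) (M (nat_lit 489) (B (M (nat_lit 488) (B (L (nat_lit 524) ln12_16_3 ln12_16_3_ok) (L (nat_lit 487) ln7_15_0 ln7_15_0_ok)))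 (M (nat_lit 425) (B (L (nat_lit 393) ln10_16_7 ln10_16_7_ok) (M (nat_lit 552) (B (L (nat_lit 551) ln11_16_1 ln11_16_1_ok) (L (nat_lit 457) ln9_13_5_c10 ln9_13_5_c10_ok))))))))))))))) (M (nat_lit 554) (B (M (nat_lit 555) (B (L (nat_lit 587) ln10_14_4 ln10_14_4_ok) (L (nat_lit 523) ln10_13_4 ln10_13_4_ok))) (M (nat_lit 425) (B (L (nat_lit 457) ln10_17_7 ln10_17_7_ok) (L (nat_lit 393) ln10_16_7 ln10_16_7_ok))))))))) c10_d263)))
noncomputable def c10_d265 : Cert := (B (M (nat_lit 522) (B (M (nat_lit 554) (B (M (nat_lit 586) (B (M (nat_lit 618) (B (M (nat_lit 619) (B (L (nat_lit 651) ln10_16_4 ln10_16_4_ok) (L (nat_lit 587) ln10_15_4 ln10_15_4_ok))) (M (nat_lit 617) (B (L (nat_lit 649) ln10_16_5 ln10_16_5_ok) (L (nat_lit 585) ln10_15_5 ln10_15_5_ok))))) (B (M (nat_lit 618) (B (M (nat_lit 617) (B (L (nat_lit 649) ln10_16_5 ln10_16_5_ok) (L (nat_lit 585) ln10_15_5 ln10_15_5_ok))) (M (nat_lit 489) (B (L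 (nat_lit 521) ln10_19_7_c10 ln10_19_7_c10_ok) (L (nat_lit 457) ln10_18_7_c10 ln10_18_7_c10_ok))))) (B (M (nat_lit 585) (B (L (nat_lit 617) ln10_15_5 ln10_15_5_ok) (M (nat_lit 587) (B (L (nat_lit 619) ln10_15_4 ln10_15_4_ok) (L (nat_lit 555) ln10_14_4 ln10_14_4_ok))))) (M (nat_lit 618) (B (M (nat_lit 619) (B (L (nat_lit 651) ln10_16_4 ln10_16_4_ok) (L (nat_lit 587) ln10_15_4 ln10_15_4_ok))) (M (nat_lit 489) (B (L (nat_lit 521) ln10_19_7_c10 ln10_19_7_c10_ok) (L (nat_lit 457) ln10_18_7_c10 ln10_18_7_c10_ok))))))))) (B (M (nat_lit 586) (B (M (nat_lit 585) (B (L (nat_lit 617) ln10_15_5 ln10_15_5_ok) (M (nat_lit 587) (B (L (nat_lit 619) ln10_15_4 ln10_15_4_ok) (L (nat_lit 555) ln10_14_4 ln10_14_4_ok))))) (B (M (nat_lit 585) (B (L (nat_lit 617) ln10_15_5 ln10_15_5_ok) (L (nat_lit 553) ln10_14_5 ln10_14_5_ok))) (M (nat_lit 587) (B (L (nat_lit 619) ln10_15_4 ln10_15_4_ok) (L (nat_lit 555) ln10_14_4 ln10_14_4_ok))))))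 (B (M (nat_lit 553) (B (L (nat_lit 585) ln10_14_5 ln10_14_5_ok) (L (nat_lit 521) ln10_13_5 ln10_13_5_ok))) (M (nat_lit 586) (B (M (nat_lit 618) (B (M (nat_lit 619) (B (L (nat_lit 651) ln10_16_4 ln10_16_4_ok) (L (nat_lit 587) ln10_15_4 ln10_15_4_ok))) (M (nat_lit 489) (B (L (nat_lit 521) ln10_19_7_c10 ln10_19_7_c10_ok) (L (nat_lit 457) ln10_18_7_c10 ln10_18_7_c10_ok))))) (B (M (nat_lit 587) (B (L (nat_lit 619) ln10_15_4 ln10_15_4_ok) (L (nat_lit 555) ln10_14_4 ln10_14_4_ok))) (M (nat_lit 618) (B (M (nat_lit 489) (B (L (nat_lit 521) ln10_19_7_c10 ln10_19_7_c10_ok) (L (nat_lit 457) ln10_18_7_c10 ln10_18_7_c10_ok))) (M (nat_lit 650) (B (M (nat_lit 523) (B (L (nat_lit 555) ln10_13_4 ln10_13_4_ok) (L (nat_lit 491) ln10_19_6 ln10_19_6_ok))) (M (nat_lit 649) (B (L (nat_lit 681) ln10_17_5_c10 ln10_17_5_c10_ok) (L (nat_lit 617) ln10_16_5 ln10_16_5_ok)))))))))))))) c10_d262)) (B (M (nat_lit 522) (B (M (nat_lit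 555) (B (L (nat_lit 523) ln10_13_4 ln10_13_4_ok) (M (nat_lit 554) (B (L (nat_lit 587) ln10_14_4 ln10_14_4_ok) (M (nat_lit 553) (B (L (nat_lit 521) ln10_13_5 ln10_13_5_ok) (L (nat_lit 585) ln10_14_5 ln10_14_5_ok))))))) (B (M (nat_lit 554) (B (M (nat_lit 425) (B (L (nat_lit 393) ln10_16_7 ln10_16_7_ok) (L (nat_lit 457) ln10_17_7 ln10_17_7_ok))) (M (nat_lit 553) (B (L (nat_lit 521) ln10_13_5 ln10_13_5_ok) (L (nat_lit 585) ln10_14_5 ln10_14_5_ok))))) (B (M (nat_lit 554) (B (M (nat_lit 425) (B (L (nat_lit 393) ln10_16_7 ln10_16_7_ok) (L (nat_lit 457) ln10_17_7 ln10_17_7_ok))) (M (nat_lit 555) (B (L (nat_lit 523) ln10_13_4 ln10_13_4_ok) (L (nat_lit 587) ln10_14_4 ln10_14_4_ok))))) (M (nat_lit 394) (B (M (nat_lit 393) (B (L (nat_lit 361) ln10_15_7 ln10_15_7_ok) (L (nat_lit 425) ln10_16_7 ln10_16_7_ok))) (M (nat_lit 523) (B (L (nat_lit 491) ln10_12_4 ln10_12_4_ok) (L (nat_lit 555) ln10_13_4 ln10_13_4_ok)))))))))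 (B (M (nat_lit 522) (B (M (nat_lit 554) (B (M (nat_lit 425) (B (L (nat_lit 393) ln10_16_7 ln10_16_7_ok) (L (nat_lit 457) ln10_17_7 ln10_17_7_ok))) (M (nat_lit 555) (B (L (nat_lit 523) ln10_13_4 ln10_13_4_ok) (L (nat_lit 587) ln10_14_4 ln10_14_4_ok))))) (B (M (nat_lit 553) (B (L (nat_lit 521) ln10_13_5 ln10_13_5_ok) (M (nat_lit 554) (B (L (nat_lit 585) ln10_14_5 ln10_14_5_ok) (M (nat_lit 555) (B (L (nat_lit 523) ln10_13_4 ln10_13_4_ok) (L (nat_lit 587) ln10_14_4 ln10_14_4_ok))))))) (B (M (nat_lit 554) (B (M (nat_lit 425) (B (L (nat_lit 393) ln10_16_7 ln10_16_7_ok) (L (nat_lit 457) ln10_17_7 ln10_17_7_ok))) (M (nat_lit 553) (B (L (nat_lit 521) ln10_13_5 ln10_13_5_ok) (L (nat_lit 585) ln10_14_5 ln10_14_5_ok))))) (M (nat_lit 394) (B (M (nat_lit 393) (B (L (nat_lit 361) ln10_15_7 ln10_15_7_ok) (L (nat_lit 425) ln10_16_7 ln10_16_7_ok))) (M (nat_lit 521) (B (L (nat_lit 489) ln10_12_5 ln10_12_5_ok) (L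 (nat_lit 553) ln10_13_5 ln10_13_5_ok))))))))) (B (M (nat_lit 394) (B (M (nat_lit 362) (B (M (nat_lit 489) (B (L (nat_lit 521) ln10_12_5 ln10_12_5_ok) (L (nat_lit 457) ln10_11_5 ln10_11_5_ok))) (M (nat_lit 361) (B (L (nat_lit 393) ln10_15_7 ln10_15_7_ok) (L (nat_lit 329) ln10_14_7 ln10_14_7_ok))))) (B (M (nat_lit 362) (B (M (nat_lit 491) (B (L (nat_lit 523) ln10_12_4 ln10_12_4_ok) (L (nat_lit 459) ln10_11_4 ln10_11_4_ok))) (M (nat_lit 361) (B (L (nat_lit 393) ln10_15_7 ln10_15_7_ok) (L (nat_lit 329) ln10_14_7 ln10_14_7_ok))))) (B (M (nat_lit 362) (B (M (nat_lit 491) (B (L (nat_lit 523) ln10_12_4 ln10_12_4_ok) (L (nat_lit 459) ln10_11_4 ln10_11_4_ok))) (M (nat_lit 489) (B (L (nat_lit 521) ln10_12_5 ln10_12_5_ok) (L (nat_lit 457) ln10_11_5 ln10_11_5_ok))))) (M (nat_lit 523) (B (L (nat_lit 491) ln10_12_4 ln10_12_4_ok) (M (nat_lit 522) (B (L (nat_lit 555) ln10_13_4 ln10_13_4_ok) (M (nat_lit 521) (B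 (L (nat_lit 553) ln10_13_5 ln10_13_5_ok) (L (nat_lit 489) ln10_12_5 ln10_12_5_ok))))))))))) (B (M (nat_lit 522) (B (M (nat_lit 523) (B (L (nat_lit 555) ln10_13_4 ln10_13_4_ok) (M (nat_lit 394) (B (L (nat_lit 491) ln10_12_4 ln10_12_4_ok) (M (nat_lit 521) (B (L (nat_lit 553) ln10_13_5 ln10_13_5_ok) (L (nat_lit 489) ln10_12_5 ln10_12_5_ok))))))) (B (M (nat_lit 394) (B (M (nat_lit 523) (B (L (nat_lit 555) ln10_13_4 ln10_13_4_ok) (L (nat_lit 491) ln10_12_4 ln10_12_4_ok))) (M (nat_lit 393) (B (L (nat_lit 425) ln10_16_7 ln10_16_7_ok) (L (nat_lit 361) ln10_15_7 ln10_15_7_ok))))) (B (M (nat_lit 394) (B (M (nat_lit 521) (B (L (nat_lit 553) ln10_13_5 ln10_13_5_ok) (L (nat_lit 489) ln10_12_5 ln10_12_5_ok))) (M (nat_lit 393) (B (L (nat_lit 425) ln10_16_7 ln10_16_7_ok) (L (nat_lit 361) ln10_15_7 ln10_15_7_ok))))) (M (nat_lit 554) (B (M (nat_lit 553) (B (L (nat_lit 585) ln10_14_5 ln10_14_5_ok) (L (nat_lit 521)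 ln10_13_5 ln10_13_5_ok))) (M (nat_lit 555) (B (L (nat_lit 587) ln10_14_4 ln10_14_4_ok) (L (nat_lit 523) ln10_13_4 ln10_13_4_ok))))))))) (B (M (nat_lit 394) (B (M (nat_lit 522) (B (M (nat_lit 523) (B (L (nat_lit 555) ln10_13_4 ln10_13_4_ok) (L (nat_lit 491) ln10_12_4 ln10_12_4_ok))) (M (nat_lit 393) (B (L (nat_lit 425) ln10_16_7 ln10_16_7_ok) (L (nat_lit 361) ln10_15_7 ln10_15_7_ok))))) (B (M (nat_lit 362) (B (M (nat_lit 489) (B (L (nat_lit 521) ln10_12_5 ln10_12_5_ok) (L (nat_lit 457) ln10_11_5 ln10_11_5_ok))) (M (nat_lit 361) (B (L (nat_lit 393) ln10_15_7 ln10_15_7_ok) (L (nat_lit 329) ln10_14_7 ln10_14_7_ok))))) (B (M (nat_lit 362) (B (M (nat_lit 489) (B (L (nat_lit 521) ln10_12_5 ln10_12_5_ok) (L (nat_lit 457) ln10_11_5 ln10_11_5_ok))) (M (nat_lit 330) (B (M (nat_lit 329) (B (L (nat_lit 361) ln10_14_7 ln10_14_7_ok) (L (nat_lit 297) ln10_13_7_c10 ln10_13_7_c10_ok))) (L (nat_lit 331) ln10_14_6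 ln10_14_6_ok))))) (M (nat_lit 522) (B (M (nat_lit 523) (B (L (nat_lit 555) ln10_13_4 ln10_13_4_ok) (L (nat_lit 491) ln10_12_4 ln10_12_4_ok))) (M (nat_lit 457) (B (M (nat_lit 425) (B (L (nat_lit 554) ln10_17_7 ln10_17_7_ok) (L (nat_lit 393) ln10_16_7 ln10_16_7_ok))) (M (nat_lit 489) (B (L (nat_lit 521) ln10_12_5 ln10_12_5_ok) (L (nat_lit 362) ln10_11_5 ln10_11_5_ok))))))))))) c10_d264))))))
noncomputable def c10_d266 : Cert := (B (M (nat_lit 362) (B (M (nat_lit 360) (B (M (nat_lit 359) (B (M (nat_lit 390) (B (L (nat_lit 391) ln10_11_1 ln10_11_1_ok) (M (nat_lit 358) (B (L (nat_lit 389) ln9_11_1_c10 ln9_11_1_c10_ok) (M (nat_lit 326) (B (L (nat_lit 327) ln10_11_3 ln10_11_3_ok) (L (nat_lit 325) ln9_11_3_c10 ln9_11_3_c10_ok))))))) (B (M (nat_lit 358) (B (M (nat_lit 330) (B (L (nat_lit 331) ln7_11_2 ln7_11_2_ok) (L (nat_lit 329) ln6_11_2_c10 ln6_11_2_c10_ok))) (M (nat_lit 326) (B (L (nat_lit 327) ln10_11_3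 ln10_11_3_ok) (L (nat_lit 325) ln9_11_3_c10 ln9_11_3_c10_ok))))) (B (M (nat_lit 358) (B (M (nat_lit 330) (B (L (nat_lit 331) ln7_11_2 ln7_11_2_ok) (L (nat_lit 329) ln6_11_2_c10 ln6_11_2_c10_ok))) (M (nat_lit 390) (B (L (nat_lit 391) ln10_11_1 ln10_11_1_ok) (L (nat_lit 389) ln9_11_1_c10 ln9_11_1_c10_ok))))) (M (nat_lit 331) (B (L (nat_lit 332) ln8_11_2 ln8_11_2_ok) (L (nat_lit 330) ln7_11_2 ln7_11_2_ok))))))) (B (M (nat_lit 359) (B (M (nat_lit 330) (B (L (nat_lit 331) ln7_11_2 ln7_11_2_ok) (M (nat_lit 326) (B (L (nat_lit 327) ln10_11_3 ln10_11_3_ok) (M (nat_lit 358) (B (L (nat_lit 325) ln9_11_3_c10 ln9_11_3_c10_ok) (L (nat_lit 329) ln6_11_2_c10 ln6_11_2_c10_ok))))))) (B (M (nat_lit 358) (B (M (nat_lit 390) (B (L (nat_lit 389) ln9_11_1_c10 ln9_11_1_c10_ok) (L (nat_lit 391) ln10_11_1 ln10_11_1_ok))) (M (nat_lit 330) (B (L (nat_lit 329) ln6_11_2_c10 ln6_11_2_c10_ok) (L (nat_lit 331) ln7_11_2 ln7_11_2_ok)))))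 (M (nat_lit 327) (B (L (nat_lit 326) ln10_11_3 ln10_11_3_ok) (M (nat_lit 391) (B (L (nat_lit 390) ln10_11_1 ln10_11_1_ok) (M (nat_lit 295) (B (L (nat_lit 392) ln11_11_1 ln11_11_1_ok) (M (nat_lit 263) (B (M (nat_lit 262) (B (L (nat_lit 230) ln7_11_7_c10 ln7_11_7_c10_ok) (L (nat_lit 294) ln7_12_7_c10 ln7_12_7_c10_ok))) (M (nat_lit 264) (B (L (nat_lit 232) ln7_11_6_c10 ln7_11_6_c10_ok) (L (nat_lit 296) ln7_12_6_c10 ln7_12_6_c10_ok)))))))))))))) (B (M (nat_lit 327) (B (M (nat_lit 326) (B (L (nat_lit 359) ln10_11_3 ln10_11_3_ok) (L (nat_lit 328) ln11_11_3 ln11_11_3_ok))) (B (M (nat_lit 392) (B (L (nat_lit 328) ln11_11_3 ln11_11_3_ok) (L (nat_lit 391) ln11_11_1 ln11_11_1_ok))) (M (nat_lit 359) (B (L (nat_lit 326) ln10_11_3 ln10_11_3_ok) (M (nat_lit 391) (B (L (nat_lit 390) ln10_11_1 ln10_11_1_ok) (L (nat_lit 392) ln11_11_1 ln11_11_1_ok)))))))) (B (M (nat_lit 359) (B (M (nat_lit 391) (B (L (nat_lit 390)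 ln10_11_1 ln10_11_1_ok) (L (nat_lit 392) ln11_11_1 ln11_11_1_ok))) (M (nat_lit 331) (B (L (nat_lit 330) ln7_11_2 ln7_11_2_ok) (L (nat_lit 332) ln8_11_2 ln8_11_2_ok))))) (B (M (nat_lit 359) (B (M (nat_lit 331) (B (L (nat_lit 332) ln8_11_2 ln8_11_2_ok) (L (nat_lit 330) ln7_11_2 ln7_11_2_ok))) (M (nat_lit 327) (B (L (nat_lit 328) ln11_11_3 ln11_11_3_ok) (L (nat_lit 326) ln10_11_3 ln10_11_3_ok))))) (M (nat_lit 328) (B (L (nat_lit 327) ln11_11_3 ln11_11_3_ok) (M (nat_lit 392) (B (L (nat_lit 391) ln11_11_1 ln11_11_1_ok) (M (nat_lit 296) (B (M (nat_lit 265) (B (L (nat_lit 297) ln8_12_6_c10 ln8_12_6_c10_ok) (M (nat_lit 264) (B (L (nat_lit 233) ln8_11_6_c10 ln8_11_6_c10_ok) (M (nat_lit 263) (B (L (nat_lit 231) ln8_11_7_c10 ln8_11_7_c10_ok) (L (nat_lit 295) ln8_12_7_c10 ln8_12_7_c10_ok))))))) (B (M (nat_lit 329) (B (M (nat_lit 297) (B (L (nat_lit 265) ln9_8_5_c10 ln9_8_5_c10_ok) (L (nat_lit 424) ln8_13_6_c10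 ln8_13_6_c10_ok))) (B (M (nat_lit 424) (B (L (nat_lit 297) ln8_13_6_c10 ln8_13_6_c10_ok) (L (nat_lit 456) ln8_14_6_c10 ln8_14_6_c10_ok))) (M (nat_lit 331) (B (L (nat_lit 332) ln8_11_2 ln8_11_2_ok) (M (nat_lit 295) (B (L (nat_lit 263) ln8_12_7_c10 ln8_12_7_c10_ok) (L (nat_lit 330) ln11_10_3_c10 ln11_10_3_c10_ok)))))))) (B (M (nat_lit 264) (B (M (nat_lit 265) (B (L (nat_lit 233) ln8_11_6_c10 ln8_11_6_c10_ok) (L (nat_lit 297) ln8_12_6_c10 ln8_12_6_c10_ok))) (B (M (nat_lit 329) (B (L (nat_lit 232) ln8_7_4_c10 ln8_7_4_c10_ok) (M (nat_lit 297) (B (L (nat_lit 265) ln9_8_5_c10 ln9_8_5_c10_ok) (L (nat_lit 424) ln8_13_6_c10 ln8_13_6_c10_ok))))) (B (M (nat_lit 329) (B (L (nat_lit 232) ln8_7_4_c10 ln8_7_4_c10_ok) (M (nat_lit 424) (B (L (nat_lit 297) ln8_13_6_c10 ln8_13_6_c10_ok) (L (nat_lit 456) ln8_14_6_c10 ln8_14_6_c10_ok))))) (M (nat_lit 232) (B (L (nat_lit 329) ln8_7_4_c10 ln8_7_4_c10_ok) (M (nat_lit 233)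 (B (L (nat_lit 201) ln8_10_6_c10 ln8_10_6_c10_ok) (L (nat_lit 265) ln8_11_6_c10 ln8_11_6_c10_ok))))))))) (B (M (nat_lit 329) (B (M (nat_lit 424) (B (L (nat_lit 297) ln8_13_6_c10 ln8_13_6_c10_ok) (L (nat_lit 456) ln8_14_6_c10 ln8_14_6_c10_ok))) (M (nat_lit 331) (B (L (nat_lit 332) ln8_11_2 ln8_11_2_ok) (M (nat_lit 295) (B (L (nat_lit 263) ln8_12_7_c10 ln8_12_7_c10_ok) (L (nat_lit 330) ln11_10_3_c10 ln11_10_3_c10_ok))))))) (M (nat_lit 264) (B (M (nat_lit 263) (B (L (nat_lit 231) ln8_11_7_c10 ln8_11_7_c10_ok) (L (nat_lit 295) ln8_12_7_c10 ln8_12_7_c10_ok))) (M (nat_lit 232) (B (L (nat_lit 329) ln8_7_4_c10 ln8_7_4_c10_ok) (M (nat_lit 233) (B (L (nat_lit 201) ln8_10_6_c10 ln8_10_6_c10_ok) (L (nat_lit 265) ln8_11_6_c10 ln8_11_6_c10_ok)))))))))))))))))))))) (B (M (nat_lit 360) (B (M (nat_lit 359) (B (M (nat_lit 331) (B (L (nat_lit 332) ln8_11_2 ln8_11_2_ok) (L (nat_lit 330) ln7_11_2 ln7_11_2_ok))) (M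 (nat_lit 327) (B (L (nat_lit 328) ln11_11_3 ln11_11_3_ok) (L (nat_lit 326) ln10_11_3 ln10_11_3_ok))))) (B (M (nat_lit 359) (B (M (nat_lit 327) (B (L (nat_lit 328) ln11_11_3 ln11_11_3_ok) (L (nat_lit 326) ln10_11_3 ln10_11_3_ok))) (M (nat_lit 391) (B (L (nat_lit 392) ln11_11_1 ln11_11_1_ok) (L (nat_lit 390) ln10_11_1 ln10_11_1_ok))))) (B (M (nat_lit 359) (B (M (nat_lit 331) (B (L (nat_lit 332) ln8_11_2 ln8_11_2_ok) (L (nat_lit 330) ln7_11_2 ln7_11_2_ok))) (M (nat_lit 391) (B (L (nat_lit 392) ln11_11_1 ln11_11_1_ok) (L (nat_lit 390) ln10_11_1 ln10_11_1_ok))))) (M (nat_lit 331) (B (L (nat_lit 332) ln8_11_2 ln8_11_2_ok) (L (nat_lit 394) ln10_14_6 ln10_14_6_ok))))))) (B (M (nat_lit 394) (B (M (nat_lit 459) (B (L (nat_lit 330) ln10_10_4 ln10_10_4_ok) (L (nat_lit 491) ln10_11_4 ln10_11_4_ok))) (L (nat_lit 329) ln10_14_7 ln10_14_7_ok))) (M (nat_lit 394) (B (L (nat_lit 329) ln10_14_7 ln10_14_7_ok) (L (nat_lit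 331) ln10_14_6 ln10_14_6_ok))))))) (B (M (nat_lit 425) (B (M (nat_lit 424) (B (M (nat_lit 459) (B (L (nat_lit 423) ln7_13_0 ln7_13_0_ok) (L (nat_lit 460) ln8_13_0 ln8_13_0_ok))) (B (M (nat_lit 423) (B (L (nat_lit 459) ln7_13_0 ln7_13_0_ok) (M (nat_lit 391) (B (L (nat_lit 392) ln11_13_3 ln11_13_3_ok) (L (nat_lit 390) ln10_13_3_c10 ln10_13_3_c10_ok))))) (B (M (nat_lit 423) (B (M (nat_lit 391) (B (L (nat_lit 392) ln11_13_3 ln11_13_3_ok) (L (nat_lit 390) ln10_13_3_c10 ln10_13_3_c10_ok))) (M (nat_lit 454) (B (L (nat_lit 455) ln10_13_1_c10 ln10_13_1_c10_ok) (M (nat_lit 422) (B (L (nat_lit 457) ln6_13_0_c10 ln6_13_0_c10_ok) (L (nat_lit 453) ln9_13_1_c10 ln9_13_1_c10_ok))))))) (M (nat_lit 392) (B (L (nat_lit 391) ln11_13_3 ln11_13_3_ok) (M (nat_lit 459) (B (L (nat_lit 460) ln8_13_0 ln8_13_0_ok) (M (nat_lit 456) (B (L (nat_lit 455) ln11_13_1_c10 ln11_13_1_c10_ok) (M (nat_lit 488) (B (L (nat_lit 393) ln8_15_6_c10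 ln8_15_6_c10_ok) (M (nat_lit 487) (B (L (nat_lit 457) ln11_14_1 ln11_14_1_ok) (L (nat_lit 519) ln8_12_5_c10 ln8_12_5_c10_ok))))))))))))))) (B (M (nat_lit 424) (B (M (nat_lit 456) (B (L (nat_lit 455) ln11_13_1_c10 ln11_13_1_c10_ok) (M (nat_lit 392) (B (L (nat_lit 391) ln11_13_3 ln11_13_3_ok) (M (nat_lit 360) (B (L (nat_lit 329) ln8_14_6_c10 ln8_14_6_c10_ok) (M (nat_lit 328) (B (L (nat_lit 457) ln8_10_4_c10 ln8_10_4_c10_ok) (M (nat_lit 327) (B (L (nat_lit 359) ln8_14_7_c10 ln8_14_7_c10_ok) (L (nat_lit 295) ln8_13_7_c10 ln8_13_7_c10_ok))))))))))) (M (nat_lit 459) (B (L (nat_lit 460) ln8_13_0 ln8_13_0_ok) (L (nat_lit 423) ln7_13_0 ln7_13_0_ok))))) (B (M (nat_lit 424) (B (M (nat_lit 423) (B (M (nat_lit 455) (B (L (nat_lit 454) ln10_13_1_c10 ln10_13_1_c10_ok) (L (nat_lit 456) ln11_13_1_c10 ln11_13_1_c10_ok))) (L (nat_lit 459) ln7_13_0 ln7_13_0_ok))) (B (M (nat_lit 423) (B (M (nat_lit 391) (B (L (nat_lit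 390) ln10_13_3_c10 ln10_13_3_c10_ok) (L (nat_lit 392) ln11_13_3 ln11_13_3_ok))) (L (nat_lit 459) ln7_13_0 ln7_13_0_ok))) (M (nat_lit 392) (B (L (nat_lit 391) ln11_13_3 ln11_13_3_ok) (M (nat_lit 456) (B (L (nat_lit 455) ln11_13_1_c10 ln11_13_1_c10_ok) (M (nat_lit 393) (B (L (nat_lit 488) ln8_15_6_c10 ln8_15_6_c10_ok) (L (nat_lit 329) ln9_10_4_c10 ln9_10_4_c10_ok)))))))))) (M (nat_lit 393) (B (L (nat_lit 329) ln9_10_4_c10 ln9_10_4_c10_ok) (L (nat_lit 457) ln9_11_4 ln9_11_4_ok))))))) (B (M (nat_lit 394) (B (M (nat_lit 362) (B (M (nat_lit 459) (B (L (nat_lit 330) ln10_10_4 ln10_10_4_ok) (L (nat_lit 491) ln10_11_4 ln10_11_4_ok))) (L (nat_lit 331) ln10_14_6 ln10_14_6_ok))) (L (nat_lit 393) ln10_15_7 ln10_15_7_ok))) (M (nat_lit 393) (B (M (nat_lit 425) (B (L (nat_lit 329) ln9_10_4_c10 ln9_10_4_c10_ok) (L (nat_lit 457) ln9_11_4 ln9_11_4_ok))) (L (nat_lit 394) ln10_15_7 ln10_15_7_ok))))))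
noncomputable def c10_d267 : Cert := (B (M (nat_lit 425) (B (M (nat_lit 424) (B (M (nat_lit 459) (B (L (nat_lit 460) ln8_13_0 ln8_13_0_ok) (M (nat_lit 456) (B (L (nat_lit 455) ln11_13_1_c10 ln11_13_1_c10_ok) (M (nat_lit 392) (B (L (nat_lit 391) ln11_13_3 ln11_13_3_ok) (M (nat_lit 488) (B (M (nat_lit 522) (B (L (nat_lit 554) ln10_17_6 ln10_17_6_ok) (M (nat_lit 521) (B (L (nat_lit 553) ln10_13_5 ln10_13_5_ok) (M (nat_lit 523) (B (L (nat_lit 555) ln10_13_4 ln10_13_4_ok) (M (nat_lit 520) (B (L (nat_lit 487) ln11_16_3_c10 ln11_16_3_c10_ok) (M (nat_lit 551) (B (L (nat_lit 552) ln11_16_1 ln11_16_1_ok) (L (nat_lit 519) ln8_13_5_c10 ln8_13_5_c10_ok))))))))))) (B (M (nat_lit 522) (B (M (nat_lit 457) (B (L (nat_lit 554) ln10_17_6 ln10_17_6_ok) (L (nat_lit 487) ln11_14_1 ln11_14_1_ok))) (B (M (nat_lit 521) (B (L (nat_lit 553) ln10_13_5 ln10_13_5_ok) (M (nat_lit 487) (B (L (nat_lit 457) ln11_14_1 ln11_14_1_ok)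 (M (nat_lit 523) (B (L (nat_lit 555) ln10_13_4 ln10_13_4_ok) (L (nat_lit 520) ln11_16_3_c10 ln11_16_3_c10_ok))))))) (M (nat_lit 553) (B (L (nat_lit 521) ln10_13_5 ln10_13_5_ok) (L (nat_lit 554) ln10_17_6 ln10_17_6_ok)))))) (B (M (nat_lit 553) (B (M (nat_lit 521) (B (L (nat_lit 520) ln8_13_4_c10 ln8_13_4_c10_ok) (L (nat_lit 522) ln10_13_5 ln10_13_5_ok))) (B (M (nat_lit 522) (B (L (nat_lit 521) ln10_13_5 ln10_13_5_ok) (L (nat_lit 554) ln10_17_6 ln10_17_6_ok))) (B (M (nat_lit 552) (B (M (nat_lit 520) (B (L (nat_lit 585) ln8_14_4_c10 ln8_14_4_c10_ok) (L (nat_lit 457) ln8_17_6_c10 ln8_17_6_c10_ok))) (B (M (nat_lit 520) (B (L (nat_lit 457) ln8_17_6_c10 ln8_17_6_c10_ok) (M (nat_lit 551) (B (L (nat_lit 583) ln8_14_5_c10 ln8_14_5_c10_ok) (L (nat_lit 519) ln8_13_5_c10 ln8_13_5_c10_ok))))) (M (nat_lit 554) (B (L (nat_lit 522) ln10_17_6 ln10_17_6_ok) (M (nat_lit 551) (B (M (nat_lit 550) (B (M (nat_lit 582)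 (B (L (nat_lit 581) ln9_17_1_c10 ln9_17_1_c10_ok) (L (nat_lit 583) ln10_17_1_c10 ln10_17_1_c10_ok))) (M (nat_lit 518) (B (L (nat_lit 517) ln9_17_3_c10 ln9_17_3_c10_ok) (L (nat_lit 519) ln10_17_3_c10 ln10_17_3_c10_ok))))) (B (M (nat_lit 550) (B (M (nat_lit 586) (B (L (nat_lit 585) ln6_17_0_c10 ln6_17_0_c10_ok) (L (nat_lit 587) ln7_17_0_c10 ln7_17_0_c10_ok))) (M (nat_lit 518) (B (L (nat_lit 517) ln9_17_3_c10 ln9_17_3_c10_ok) (L (nat_lit 519) ln10_17_3_c10 ln10_17_3_c10_ok))))) (M (nat_lit 555) (B (M (nat_lit 583) (B (L (nat_lit 582) ln10_17_1_c10 ln10_17_1_c10_ok) (L (nat_lit 584) ln11_17_1_c10 ln11_17_1_c10_ok))) (M (nat_lit 587) (B (L (nat_lit 586) ln7_17_0_c10 ln7_17_0_c10_ok) (L (nat_lit 588) ln8_17_0 ln8_17_0_ok))))))))))))) (M (nat_lit 520) (B (L (nat_lit 521) ln8_13_4_c10 ln8_13_4_c10_ok) (M (nat_lit 552) (B (L (nat_lit 585) ln8_14_4_c10 ln8_14_4_c10_ok) (L (nat_lit 457) ln8_17_6_c10 ln8_17_6_c10_ok)))))))))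 (M (nat_lit 487) (B (L (nat_lit 457) ln11_14_1 ln11_14_1_ok) (L (nat_lit 519) ln8_12_5_c10 ln8_12_5_c10_ok))))))))))))) (B (M (nat_lit 423) (B (M (nat_lit 422) (B (M (nat_lit 390) (B (L (nat_lit 389) ln9_13_3_c10 ln9_13_3_c10_ok) (L (nat_lit 391) ln10_13_3_c10 ln10_13_3_c10_ok))) (M (nat_lit 454) (B (L (nat_lit 453) ln9_13_1_c10 ln9_13_1_c10_ok) (L (nat_lit 455) ln10_13_1_c10 ln10_13_1_c10_ok))))) (B (M (nat_lit 455) (B (L (nat_lit 454) ln10_13_1_c10 ln10_13_1_c10_ok) (L (nat_lit 456) ln11_13_1_c10 ln11_13_1_c10_ok))) (B (M (nat_lit 391) (B (L (nat_lit 390) ln10_13_3_c10 ln10_13_3_c10_ok) (M (nat_lit 456) (B (L (nat_lit 392) ln11_13_3 ln11_13_3_ok) (M (nat_lit 359) (B (L (nat_lit 327) ln7_10_4_c10 ln7_10_4_c10_ok) (L (nat_lit 455) ln11_13_1_c10 ln11_13_1_c10_ok))))))) (M (nat_lit 422) (B (M (nat_lit 390) (B (L (nat_lit 389) ln9_13_3_c10 ln9_13_3_c10_ok) (L (nat_lit 391) ln10_13_3_c10 ln10_13_3_c10_ok)))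 (M (nat_lit 421) (B (M (nat_lit 453) (B (L (nat_lit 452) ln8_13_1_c10 ln8_13_1_c10_ok) (L (nat_lit 454) ln9_13_1_c10 ln9_13_1_c10_ok))) (L (nat_lit 457) ln6_13_0_c10 ln6_13_0_c10_ok))))))))) (M (nat_lit 459) (B (L (nat_lit 460) ln8_13_0 ln8_13_0_ok) (L (nat_lit 423) ln7_13_0 ln7_13_0_ok)))))) (B (M (nat_lit 424) (B (M (nat_lit 459) (B (L (nat_lit 423) ln7_13_0 ln7_13_0_ok) (L (nat_lit 460) ln8_13_0 ln8_13_0_ok))) (B (M (nat_lit 423) (B (L (nat_lit 459) ln7_13_0 ln7_13_0_ok) (M (nat_lit 391) (B (L (nat_lit 392) ln11_13_3 ln11_13_3_ok) (L (nat_lit 390) ln10_13_3_c10 ln10_13_3_c10_ok))))) (B (M (nat_lit 423) (B (M (nat_lit 391) (B (L (nat_lit 392) ln11_13_3 ln11_13_3_ok) (L (nat_lit 390) ln10_13_3_c10 ln10_13_3_c10_ok))) (M (nat_lit 454) (B (L (nat_lit 455) ln10_13_1_c10 ln10_13_1_c10_ok) (M (nat_lit 422) (B (L (nat_lit 457) ln6_13_0_c10 ln6_13_0_c10_ok) (L (nat_lit 453) ln9_13_1_c10 ln9_13_1_c10_ok)))))))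 (M (nat_lit 392) (B (L (nat_lit 391) ln11_13_3 ln11_13_3_ok) (M (nat_lit 459) (B (L (nat_lit 460) ln8_13_0 ln8_13_0_ok) (M (nat_lit 456) (B (L (nat_lit 455) ln11_13_1_c10 ln11_13_1_c10_ok) (M (nat_lit 488) (B (M (nat_lit 393) (B (L (nat_lit 361) ln8_15_6_c10 ln8_15_6_c10_ok) (L (nat_lit 520) ln8_16_6_c10 ln8_16_6_c10_ok))) (M (nat_lit 487) (B (L (nat_lit 457) ln11_14_1 ln11_14_1_ok) (L (nat_lit 519) ln8_12_5_c10 ln8_12_5_c10_ok))))))))))))))) (M (nat_lit 393) (B (M (nat_lit 361) (B (L (nat_lit 394) ln10_15_7 ln10_15_7_ok) (L (nat_lit 329) ln9_10_4_c10 ln9_10_4_c10_ok))) (L (nat_lit 522) ln10_16_7 ln10_16_7_ok)))))) (B (M (nat_lit 522) (B (M (nat_lit 425) (B (M (nat_lit 521) (B (M (nat_lit 523) (B (M (nat_lit 520) (B (M (nat_lit 552) (B (L (nat_lit 551) ln11_16_1 ln11_16_1_ok) (M (nat_lit 488) (B (L (nat_lit 487) ln11_16_3_c10 ln11_16_3_c10_ok) (M (nat_lit 456) (B (L (nat_lit 457) ln8_17_6_c10 ln8_17_6_c10_ok)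 (M (nat_lit 455) (B (L (nat_lit 424) ln11_13_1_c10 ln11_13_1_c10_ok) (L (nat_lit 423) ln8_17_7_c10 ln8_17_7_c10_ok))))))))) (M (nat_lit 491) (B (L (nat_lit 519) ln7_16_2 ln7_16_2_ok) (L (nat_lit 492) ln8_16_2 ln8_16_2_ok))))) (L (nat_lit 555) ln10_13_4 ln10_13_4_ok))) (L (nat_lit 553) ln10_13_5 ln10_13_5_ok))) (L (nat_lit 393) ln10_16_7 ln10_16_7_ok))) (B (M (nat_lit 554) (B (M (nat_lit 553) (B (L (nat_lit 521) ln10_13_5 ln10_13_5_ok) (L (nat_lit 585) ln10_14_5 ln10_14_5_ok))) (M (nat_lit 586) (B (L (nat_lit 459) ln10_17_6 ln10_17_6_ok) (M (nat_lit 587) (B (L (nat_lit 555) ln10_14_4 ln10_14_4_ok) (L (nat_lit 619) ln10_15_4 ln10_15_4_ok))))))) (M (nat_lit 459) (B (M (nat_lit 425) (B (L (nat_lit 460) ln13_14_3 ln13_14_3_ok) (L (nat_lit 393) ln10_16_7 ln10_16_7_ok))) (L (nat_lit 554) ln10_17_6 ln10_17_6_ok)))))) (B (K (nat_lit 3196670522222121729949279081318830726636515741601412613802229683403041712724943687885153654855851756546978562877488078648792240402401796516650942464)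 (nat_lit 633165827977536177350368080138314431674024807781486699724991011955339787949422400482542877859806402546012801268749989123171769621726708784969651236574326293236501603585515061248) (nat_lit 633165827977536177350368080138314431674024807781486699724991011955339787949422400482542877859806402546012801268749989123171769621726708784969651236574326293236501603585515061248) c10_s35) (M (nat_lit 522) (B (M (nat_lit 554) (B (L (nat_lit 459) ln10_17_6 ln10_17_6_ok) (M (nat_lit 555) (B (L (nat_lit 587) ln10_14_4 ln10_14_4_ok) (L (nat_lit 523) ln10_13_4 ln10_13_4_ok))))) (B (M (nat_lit 523) (B (L (nat_lit 555) ln10_13_4 ln10_13_4_ok) (M (nat_lit 491) (B (L (nat_lit 394) ln10_12_4 ln10_12_4_ok) (M (nat_lit 521) (B (L (nat_lit 553) ln10_13_5 ln10_13_5_ok) (M (nat_lit 520) (B (L (nat_lit 519) ln7_16_2 ln7_16_2_ok) (L (nat_lit 492) ln8_16_2 ln8_16_2_ok))))))))) (M (nat_lit 554) (B (L (nat_lit 459) ln10_17_6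 ln10_17_6_ok) (M (nat_lit 553) (B (L (nat_lit 585) ln10_14_5 ln10_14_5_ok) (L (nat_lit 521) ln10_13_5 ln10_13_5_ok)))))))))))
noncomputable def c10_d268 : Cert := (B (M (nat_lit 424) (B (M (nat_lit 455) (B (L (nat_lit 456) ln11_13_1_c10 ln11_13_1_c10_ok) (M (nat_lit 423) (B (L (nat_lit 454) ln10_13_1_c10 ln10_13_1_c10_ok) (M (nat_lit 391) (B (L (nat_lit 390) ln10_13_3_c10 ln10_13_3_c10_ok) (L (nat_lit 392) ln11_13_3 ln11_13_3_ok))))))) (B (M (nat_lit 393) (B (M (nat_lit 456) (B (L (nat_lit 455) ln11_13_1_c10 ln11_13_1_c10_ok) (M (nat_lit 361) (B (L (nat_lit 329) ln9_10_4_c10 ln9_10_4_c10_ok) (L (nat_lit 488) ln9_11_5_c10 ln9_11_5_c10_ok))))) (B (M (nat_lit 490) (B (L (nat_lit 361) ln9_11_4 ln9_11_4_ok) (L (nat_lit 522) ln10_16_7 ln10_16_7_ok))) (M (nat_lit 455) (B (L (nat_lit 456) ln11_13_1_c10 ln11_13_1_c10_ok) (M (nat_lit 423) (B (L (nat_lit 422) ln6_13_0_c10 ln6_13_0_c10_ok) (L (nat_lit 454)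 ln10_13_1_c10 ln10_13_1_c10_ok)))))))) (B (M (nat_lit 456) (B (L (nat_lit 455) ln11_13_1_c10 ln11_13_1_c10_ok) (M (nat_lit 423) (B (M (nat_lit 391) (B (L (nat_lit 390) ln10_13_3_c10 ln10_13_3_c10_ok) (L (nat_lit 392) ln11_13_3 ln11_13_3_ok))) (L (nat_lit 422) ln6_13_0_c10 ln6_13_0_c10_ok))))) (B (M (nat_lit 456) (B (L (nat_lit 455) ln11_13_1_c10 ln11_13_1_c10_ok) (M (nat_lit 489) (B (M (nat_lit 392) (B (L (nat_lit 391) ln11_13_3 ln11_13_3_ok) (L (nat_lit 521) ln9_16_7 ln9_16_7_ok))) (B (M (nat_lit 521) (B (L (nat_lit 392) ln9_16_7 ln9_16_7_ok) (L (nat_lit 553) ln9_17_6 ln9_17_6_ok))) (B (M (nat_lit 521) (B (L (nat_lit 553) ln9_17_6 ln9_17_6_ok) (M (nat_lit 393) (B (M (nat_lit 520) (B (L (nat_lit 488) ln9_12_5_c10 ln9_12_5_c10_ok) (L (nat_lit 552) ln9_13_5_c10 ln9_13_5_c10_ok))) (M (nat_lit 522) (B (L (nat_lit 490) ln9_12_4 ln9_12_4_ok) (L (nat_lit 554) ln9_13_4 ln9_13_4_ok))))))) (M (nat_lit 488)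 (B (M (nat_lit 393) (B (L (nat_lit 520) ln9_12_5_c10 ln9_12_5_c10_ok) (L (nat_lit 361) ln9_11_5_c10 ln9_11_5_c10_ok))) (M (nat_lit 487) (B (L (nat_lit 486) ln6_15_2 ln6_15_2_ok) (M (nat_lit 392) (B (L (nat_lit 391) ln11_13_3 ln11_13_3_ok) (L (nat_lit 519) ln8_12_5_c10 ln8_12_5_c10_ok))))))))))))) (M (nat_lit 423) (B (M (nat_lit 391) (B (L (nat_lit 390) ln10_13_3_c10 ln10_13_3_c10_ok) (L (nat_lit 392) ln11_13_3 ln11_13_3_ok))) (L (nat_lit 422) ln6_13_0_c10 ln6_13_0_c10_ok)))))))) (B (M (nat_lit 489) (B (M (nat_lit 394) (B (L (nat_lit 521) ln9_16_6 ln9_16_6_ok) (L (nat_lit 362) ln10_11_5 ln10_11_5_ok))) (B (M (nat_lit 393) (B (M (nat_lit 394) (B (L (nat_lit 362) ln10_11_5 ln10_11_5_ok) (M (nat_lit 392) (B (L (nat_lit 360) ln9_15_7 ln9_15_7_ok) (L (nat_lit 391) ln7_12_0_c10 ln7_12_0_c10_ok))))) (B (M (nat_lit 361) (B (M (nat_lit 488) (B (L (nat_lit 520) ln9_12_5_c10 ln9_12_5_c10_ok) (L (nat_lit 456)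 ln9_11_5_c10 ln9_11_5_c10_ok))) (M (nat_lit 362) (B (L (nat_lit 394) ln10_11_5 ln10_11_5_ok) (L (nat_lit 330) ln9_14_6_c10 ln9_14_6_c10_ok))))) (M (nat_lit 361) (B (M (nat_lit 488) (B (L (nat_lit 520) ln9_12_5_c10 ln9_12_5_c10_ok) (L (nat_lit 456) ln9_11_5_c10 ln9_11_5_c10_ok))) (M (nat_lit 360) (B (L (nat_lit 392) ln9_15_7 ln9_15_7_ok) (L (nat_lit 328) ln9_14_7_c10 ln9_14_7_c10_ok)))))))) (B (M (nat_lit 521) (B (L (nat_lit 394) ln9_16_6 ln9_16_6_ok) (L (nat_lit 553) ln9_17_6 ln9_17_6_ok))) (M (nat_lit 522) (B (M (nat_lit 554) (B (L (nat_lit 521) ln9_13_4 ln9_13_4_ok) (L (nat_lit 490) ln10_17_7 ln10_17_7_ok))) (B (M (nat_lit 393) (B (L (nat_lit 490) ln9_12_4 ln9_12_4_ok) (M (nat_lit 361) (B (M (nat_lit 488) (B (L (nat_lit 520) ln9_12_5_c10 ln9_12_5_c10_ok) (L (nat_lit 456) ln9_11_5_c10 ln9_11_5_c10_ok))) (M (nat_lit 360) (B (L (nat_lit 392) ln9_15_7 ln9_15_7_ok) (L (nat_lit 328) ln9_14_7_c10 ln9_14_7_c10_ok)))))))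 (M (nat_lit 521) (B (L (nat_lit 554) ln9_13_4 ln9_13_4_ok) (M (nat_lit 520) (B (L (nat_lit 552) ln9_13_5_c10 ln9_13_5_c10_ok) (M (nat_lit 488) (B (L (nat_lit 393) ln9_12_5_c10 ln9_12_5_c10_ok) (M (nat_lit 487) (B (L (nat_lit 523) ln11_16_3_c10 ln11_16_3_c10_ok) (L (nat_lit 486) ln6_15_0 ln6_15_0_ok)))))))))))))))) (B (M (nat_lit 424) (B (M (nat_lit 455) (B (L (nat_lit 456) ln11_13_1_c10 ln11_13_1_c10_ok) (M (nat_lit 423) (B (L (nat_lit 454) ln10_13_1_c10 ln10_13_1_c10_ok) (M (nat_lit 391) (B (L (nat_lit 390) ln10_13_3_c10 ln10_13_3_c10_ok) (L (nat_lit 392) ln11_13_3 ln11_13_3_ok))))))) (B (M (nat_lit 423) (B (M (nat_lit 455) (B (L (nat_lit 454) ln10_13_1_c10 ln10_13_1_c10_ok) (L (nat_lit 456) ln11_13_1_c10 ln11_13_1_c10_ok))) (B (M (nat_lit 456) (B (L (nat_lit 455) ln11_13_1_c10 ln11_13_1_c10_ok) (L (nat_lit 422) ln6_13_0_c10 ln6_13_0_c10_ok))) (L (nat_lit 422) ln6_13_0_c10 ln6_13_0_c10_ok))))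 (B (M (nat_lit 456) (B (L (nat_lit 455) ln11_13_1_c10 ln11_13_1_c10_ok) (M (nat_lit 423) (B (M (nat_lit 391) (B (L (nat_lit 390) ln10_13_3_c10 ln10_13_3_c10_ok) (L (nat_lit 392) ln11_13_3 ln11_13_3_ok))) (L (nat_lit 422) ln6_13_0_c10 ln6_13_0_c10_ok))))) (B (M (nat_lit 456) (B (L (nat_lit 455) ln11_13_1_c10 ln11_13_1_c10_ok) (M (nat_lit 392) (B (L (nat_lit 391) ln11_13_3 ln11_13_3_ok) (M (nat_lit 488) (B (M (nat_lit 393) (B (L (nat_lit 361) ln9_11_5_c10 ln9_11_5_c10_ok) (L (nat_lit 520) ln8_16_6_c10 ln8_16_6_c10_ok))) (B (M (nat_lit 361) (B (L (nat_lit 393) ln9_11_5_c10 ln9_11_5_c10_ok) (M (nat_lit 360) (B (L (nat_lit 328) ln8_10_4_c10 ln8_10_4_c10_ok) (L (nat_lit 329) ln8_14_6_c10 ln8_14_6_c10_ok))))) (B (M (nat_lit 520) (B (L (nat_lit 393) ln8_16_6_c10 ln8_16_6_c10_ok) (L (nat_lit 552) ln8_17_6_c10 ln8_17_6_c10_ok))) (M (nat_lit 519) (B (L (nat_lit 487) ln8_12_5_c10 ln8_12_5_c10_ok) (M (nat_lit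 520) (B (L (nat_lit 551) ln8_13_5_c10 ln8_13_5_c10_ok) (L (nat_lit 552) ln8_17_6_c10 ln8_17_6_c10_ok))))))))))))) (M (nat_lit 423) (B (M (nat_lit 391) (B (L (nat_lit 390) ln10_13_3_c10 ln10_13_3_c10_ok) (L (nat_lit 392) ln11_13_3 ln11_13_3_ok))) (L (nat_lit 422) ln6_13_0_c10 ln6_13_0_c10_ok)))))))) (B (M (nat_lit 489) (B (M (nat_lit 394) (B (L (nat_lit 521) ln9_16_6 ln9_16_6_ok) (L (nat_lit 362) ln10_11_5 ln10_11_5_ok))) (B (M (nat_lit 393) (B (M (nat_lit 392) (B (L (nat_lit 360) ln9_15_7 ln9_15_7_ok) (M (nat_lit 391) (B (L (nat_lit 424) ln11_13_3 ln11_13_3_ok) (L (nat_lit 390) ln6_12_0_c10 ln6_12_0_c10_ok))))) (B (M (nat_lit 392) (B (L (nat_lit 360) ln9_15_7 ln9_15_7_ok) (M (nat_lit 391) (B (L (nat_lit 390) ln6_12_0_c10 ln6_12_0_c10_ok) (L (nat_lit 394) ln7_12_0_c10 ln7_12_0_c10_ok))))) (B (M (nat_lit 392) (B (L (nat_lit 360) ln9_15_7 ln9_15_7_ok) (M (nat_lit 391) (B (L (nat_lit 424) ln11_13_3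 ln11_13_3_ok) (L (nat_lit 394) ln7_12_0_c10 ln7_12_0_c10_ok))))) (M (nat_lit 361) (B (L (nat_lit 490) ln9_11_4 ln9_11_4_ok) (M (nat_lit 362) (B (L (nat_lit 394) ln10_11_5 ln10_11_5_ok) (L (nat_lit 330) ln9_14_6_c10 ln9_14_6_c10_ok))))))))) (M (nat_lit 393) (B (M (nat_lit 392) (B (L (nat_lit 360) ln9_15_7 ln9_15_7_ok) (M (nat_lit 424) (B (L (nat_lit 521) ln9_16_7 ln9_16_7_ok) (L (nat_lit 391) ln11_13_3 ln11_13_3_ok))))) (B (M (nat_lit 392) (B (L (nat_lit 360) ln9_15_7 ln9_15_7_ok) (M (nat_lit 391) (B (L (nat_lit 424) ln11_13_3 ln11_13_3_ok) (L (nat_lit 390) ln6_12_0_c10 ln6_12_0_c10_ok))))) (M (nat_lit 521) (B (M (nat_lit 520) (B (L (nat_lit 552) ln9_13_5_c10 ln9_13_5_c10_ok) (L (nat_lit 488) ln9_12_5_c10 ln9_12_5_c10_ok))) (M (nat_lit 522) (B (L (nat_lit 554) ln9_13_4 ln9_13_4_ok) (L (nat_lit 490) ln9_12_4 ln9_12_4_ok))))))))))) (M (nat_lit 424) (B (M (nat_lit 455) (B (L (nat_lit 456) ln11_13_1_c10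 ln11_13_1_c10_ok) (M (nat_lit 423) (B (L (nat_lit 454) ln10_13_1_c10 ln10_13_1_c10_ok) (M (nat_lit 391) (B (L (nat_lit 390) ln10_13_3_c10 ln10_13_3_c10_ok) (L (nat_lit 392) ln11_13_3 ln11_13_3_ok))))))) (B (M (nat_lit 456) (B (L (nat_lit 455) ln11_13_1_c10 ln11_13_1_c10_ok) (M (nat_lit 392) (B (L (nat_lit 391) ln11_13_3 ln11_13_3_ok) (M (nat_lit 489) (B (L (nat_lit 360) ln8_11_4_c10 ln8_11_4_c10_ok) (L (nat_lit 521) ln9_16_7 ln9_16_7_ok))))))) (B (M (nat_lit 423) (B (M (nat_lit 455) (B (L (nat_lit 454) ln10_13_1_c10 ln10_13_1_c10_ok) (L (nat_lit 456) ln11_13_1_c10 ln11_13_1_c10_ok))) (B (M (nat_lit 456) (B (L (nat_lit 455) ln11_13_1_c10 ln11_13_1_c10_ok) (L (nat_lit 422) ln6_13_0_c10 ln6_13_0_c10_ok))) (L (nat_lit 422) ln6_13_0_c10 ln6_13_0_c10_ok)))) (M (nat_lit 423) (B (M (nat_lit 391) (B (L (nat_lit 390) ln10_13_3_c10 ln10_13_3_c10_ok) (L (nat_lit 392) ln11_13_3 ln11_13_3_ok))) (L (nat_lit 422)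 ln6_13_0_c10 ln6_13_0_c10_ok)))))))))))
noncomputable def c10_d269 : Cert := (B (M (nat_lit 424) (B (M (nat_lit 423) (B (M (nat_lit 390) (B (L (nat_lit 391) ln10_13_3_c10 ln10_13_3_c10_ok) (M (nat_lit 422) (B (L (nat_lit 389) ln9_13_3_c10 ln9_13_3_c10_ok) (M (nat_lit 454) (B (L (nat_lit 455) ln10_13_1_c10 ln10_13_1_c10_ok) (L (nat_lit 453) ln9_13_1_c10 ln9_13_1_c10_ok))))))) (B (M (nat_lit 422) (B (L (nat_lit 459) ln7_13_0 ln7_13_0_ok) (M (nat_lit 454) (B (L (nat_lit 455) ln10_13_1_c10 ln10_13_1_c10_ok) (L (nat_lit 453) ln9_13_1_c10 ln9_13_1_c10_ok))))) (B (M (nat_lit 422) (B (L (nat_lit 459) ln7_13_0 ln7_13_0_ok) (M (nat_lit 390) (B (L (nat_lit 391) ln10_13_3_c10 ln10_13_3_c10_ok) (L (nat_lit 389) ln9_13_3_c10 ln9_13_3_c10_ok))))) (L (nat_lit 459) ln7_13_0 ln7_13_0_ok))))) (B (M (nat_lit 423) (B (L (nat_lit 459) ln7_13_0 ln7_13_0_ok) (M (nat_lit 422) (B (M (nat_lit 390) (B (L (nat_lit 389) ln9_13_3_c10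 ln9_13_3_c10_ok) (L (nat_lit 391) ln10_13_3_c10 ln10_13_3_c10_ok))) (L (nat_lit 457) ln6_13_0_c10 ln6_13_0_c10_ok))))) (B (M (nat_lit 455) (B (M (nat_lit 454) (B (L (nat_lit 423) ln10_13_1_c10 ln10_13_1_c10_ok) (L (nat_lit 456) ln11_13_1_c10 ln11_13_1_c10_ok))) (B (M (nat_lit 392) (B (L (nat_lit 456) ln11_13_1_c10 ln11_13_1_c10_ok) (L (nat_lit 391) ln11_13_3 ln11_13_3_ok))) (M (nat_lit 423) (B (L (nat_lit 454) ln10_13_1_c10 ln10_13_1_c10_ok) (M (nat_lit 391) (B (L (nat_lit 390) ln10_13_3_c10 ln10_13_3_c10_ok) (L (nat_lit 392) ln11_13_3 ln11_13_3_ok)))))))) (B (M (nat_lit 423) (B (L (nat_lit 459) ln7_13_0 ln7_13_0_ok) (M (nat_lit 455) (B (L (nat_lit 456) ln11_13_1_c10 ln11_13_1_c10_ok) (L (nat_lit 454) ln10_13_1_c10 ln10_13_1_c10_ok))))) (M (nat_lit 456) (B (L (nat_lit 455) ln11_13_1_c10 ln11_13_1_c10_ok) (M (nat_lit 392) (B (L (nat_lit 391) ln11_13_3 ln11_13_3_ok) (M (nat_lit 488) (B (M (nat_lit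 521) (B (L (nat_lit 489) ln8_12_4_c10 ln8_12_4_c10_ok) (M (nat_lit 520) (B (L (nat_lit 553) ln8_13_4_c10 ln8_13_4_c10_ok) (M (nat_lit 519) (B (L (nat_lit 551) ln8_13_5_c10 ln8_13_5_c10_ok) (L (nat_lit 487) ln8_12_5_c10 ln8_12_5_c10_ok))))))) (B (M (nat_lit 457) (B (M (nat_lit 489) (B (L (nat_lit 521) ln8_12_4_c10 ln8_12_4_c10_ok) (L (nat_lit 360) ln8_11_4_c10 ln8_11_4_c10_ok))) (B (M (nat_lit 360) (B (L (nat_lit 489) ln8_11_4_c10 ln8_11_4_c10_ok) (L (nat_lit 328) ln8_10_4_c10 ln8_10_4_c10_ok))) (M (nat_lit 459) (B (L (nat_lit 460) ln8_13_0 ln8_13_0_ok) (L (nat_lit 487) ln11_14_1 ln11_14_1_ok)))))) (B (M (nat_lit 520) (B (M (nat_lit 521) (B (L (nat_lit 553) ln8_13_4_c10 ln8_13_4_c10_ok) (L (nat_lit 489) ln8_12_4_c10 ln8_12_4_c10_ok))) (B (M (nat_lit 457) (B (L (nat_lit 552) ln8_17_6_c10 ln8_17_6_c10_ok) (M (nat_lit 489) (B (L (nat_lit 521) ln8_12_4_c10 ln8_12_4_c10_ok) (L (nat_lit 360) ln8_11_4_c10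 ln8_11_4_c10_ok))))) (B (M (nat_lit 457) (B (L (nat_lit 552) ln8_17_6_c10 ln8_17_6_c10_ok) (M (nat_lit 360) (B (L (nat_lit 489) ln8_11_4_c10 ln8_11_4_c10_ok) (L (nat_lit 328) ln8_10_4_c10 ln8_10_4_c10_ok))))) (M (nat_lit 552) (B (L (nat_lit 457) ln8_17_6_c10 ln8_17_6_c10_ok) (M (nat_lit 553) (B (L (nat_lit 585) ln8_14_4_c10 ln8_14_4_c10_ok) (L (nat_lit 521) ln8_13_4_c10 ln8_13_4_c10_ok))))))))) (B (M (nat_lit 457) (B (M (nat_lit 360) (B (L (nat_lit 489) ln8_11_4_c10 ln8_11_4_c10_ok) (L (nat_lit 328) ln8_10_4_c10 ln8_10_4_c10_ok))) (M (nat_lit 459) (B (L (nat_lit 460) ln8_13_0 ln8_13_0_ok) (L (nat_lit 487) ln11_14_1 ln11_14_1_ok))))) (M (nat_lit 520) (B (M (nat_lit 519) (B (L (nat_lit 551) ln8_13_5_c10 ln8_13_5_c10_ok) (L (nat_lit 487) ln8_12_5_c10 ln8_12_5_c10_ok))) (M (nat_lit 552) (B (L (nat_lit 457) ln8_17_6_c10 ln8_17_6_c10_ok) (M (nat_lit 553) (B (L (nat_lit 585) ln8_14_4_c10 ln8_14_4_c10_ok)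 (L (nat_lit 521) ln8_13_4_c10 ln8_13_4_c10_ok))))))))))))))))))))) (B (M (nat_lit 424) (B (M (nat_lit 423) (B (M (nat_lit 455) (B (L (nat_lit 454) ln10_13_1_c10 ln10_13_1_c10_ok) (L (nat_lit 456) ln11_13_1_c10 ln11_13_1_c10_ok))) (M (nat_lit 391) (B (L (nat_lit 390) ln10_13_3_c10 ln10_13_3_c10_ok) (L (nat_lit 392) ln11_13_3 ln11_13_3_ok))))) (B (M (nat_lit 391) (B (L (nat_lit 392) ln11_13_3 ln11_13_3_ok) (M (nat_lit 423) (B (L (nat_lit 390) ln10_13_3_c10 ln10_13_3_c10_ok) (L (nat_lit 459) ln7_13_0 ln7_13_0_ok))))) (B (M (nat_lit 423) (B (M (nat_lit 455) (B (L (nat_lit 454) ln10_13_1_c10 ln10_13_1_c10_ok) (L (nat_lit 456) ln11_13_1_c10 ln11_13_1_c10_ok))) (L (nat_lit 459) ln7_13_0 ln7_13_0_ok))) (M (nat_lit 392) (B (L (nat_lit 391) ln11_13_3 ln11_13_3_ok) (M (nat_lit 456) (B (L (nat_lit 455) ln11_13_1_c10 ln11_13_1_c10_ok) (M (nat_lit 488) (B (M (nat_lit 393) (B (L (nat_lit 520) ln8_16_6_c10 ln8_16_6_c10_ok)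 (L (nat_lit 361) ln8_15_6_c10 ln8_15_6_c10_ok))) (B (M (nat_lit 360) (B (M (nat_lit 361) (B (L (nat_lit 393) ln8_15_6_c10 ln8_15_6_c10_ok) (L (nat_lit 329) ln8_14_6_c10 ln8_14_6_c10_ok))) (B (M (nat_lit 328) (B (M (nat_lit 327) (B (L (nat_lit 359) ln8_14_7_c10 ln8_14_7_c10_ok) (L (nat_lit 295) ln8_13_7_c10 ln8_13_7_c10_ok))) (M (nat_lit 329) (B (L (nat_lit 361) ln8_14_6_c10 ln8_14_6_c10_ok) (L (nat_lit 297) ln8_13_6_c10 ln8_13_6_c10_ok))))) (B (M (nat_lit 328) (B (M (nat_lit 327) (B (L (nat_lit 359) ln8_14_7_c10 ln8_14_7_c10_ok) (L (nat_lit 295) ln8_13_7_c10 ln8_13_7_c10_ok))) (M (nat_lit 296) (B (L (nat_lit 393) ln8_9_4_c10 ln8_9_4_c10_ok) (M (nat_lit 297) (B (L (nat_lit 329) ln8_13_6_c10 ln8_13_6_c10_ok) (L (nat_lit 265) ln8_12_6_c10 ln8_12_6_c10_ok))))))) (M (nat_lit 328) (B (M (nat_lit 327) (B (L (nat_lit 359) ln8_14_7_c10 ln8_14_7_c10_ok) (L (nat_lit 295) ln8_13_7_c10 ln8_13_7_c10_ok))) (M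 (nat_lit 393) (B (L (nat_lit 361) ln8_15_6_c10 ln8_15_6_c10_ok) (L (nat_lit 296) ln8_9_4_c10 ln8_9_4_c10_ok))))))))) (M (nat_lit 520) (B (M (nat_lit 519) (B (L (nat_lit 551) ln8_13_5_c10 ln8_13_5_c10_ok) (L (nat_lit 487) ln8_12_5_c10 ln8_12_5_c10_ok))) (M (nat_lit 521) (B (L (nat_lit 553) ln8_13_4_c10 ln8_13_4_c10_ok) (L (nat_lit 489) ln8_12_4_c10 ln8_12_4_c10_ok)))))))))))))))) (M (nat_lit 424) (B (M (nat_lit 459) (B (L (nat_lit 460) ln8_13_0 ln8_13_0_ok) (L (nat_lit 423) ln7_13_0 ln7_13_0_ok))) (B (M (nat_lit 391) (B (L (nat_lit 392) ln11_13_3 ln11_13_3_ok) (M (nat_lit 423) (B (L (nat_lit 390) ln10_13_3_c10 ln10_13_3_c10_ok) (M (nat_lit 455) (B (L (nat_lit 456) ln11_13_1_c10 ln11_13_1_c10_ok) (L (nat_lit 454) ln10_13_1_c10 ln10_13_1_c10_ok))))))) (M (nat_lit 392) (B (L (nat_lit 391) ln11_13_3 ln11_13_3_ok) (M (nat_lit 456) (B (L (nat_lit 455) ln11_13_1_c10 ln11_13_1_c10_ok) (M (nat_lit 459) (B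 (L (nat_lit 460) ln8_13_0 ln8_13_0_ok) (M (nat_lit 457) (B (M (nat_lit 360) (B (L (nat_lit 328) ln8_10_4_c10 ln8_10_4_c10_ok) (L (nat_lit 489) ln8_11_4_c10 ln8_11_4_c10_ok))) (M (nat_lit 488) (B (M (nat_lit 393) (B (L (nat_lit 361) ln9_11_5_c10 ln9_11_5_c10_ok) (L (nat_lit 520) ln8_16_6_c10 ln8_16_6_c10_ok))) (L (nat_lit 487) ln11_14_1 ln11_14_1_ok))))))))))))))))
noncomputable def c10_d270 : Cert := (B (M (nat_lit 490) (B (M (nat_lit 393) (B (L (nat_lit 522) ln10_16_7 ln10_16_7_ok) (M (nat_lit 361) (B (L (nat_lit 457) ln9_11_4 ln9_11_4_ok) (L (nat_lit 329) ln9_10_4_c10 ln9_10_4_c10_ok))))) (B (M (nat_lit 393) (B (L (nat_lit 522) ln10_16_7 ln10_16_7_ok) (M (nat_lit 361) (B (L (nat_lit 329) ln9_10_4_c10 ln9_10_4_c10_ok) (L (nat_lit 394) ln10_15_7 ln10_15_7_ok))))) (B (M (nat_lit 522) (B (M (nat_lit 553) (B (L (nat_lit 521) ln10_13_5 ln10_13_5_ok) (M (nat_lit 554) (B (L (nat_lit 585) ln10_14_5 ln10_14_5_ok)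 (L (nat_lit 457) ln10_17_7 ln10_17_7_ok))))) (B (M (nat_lit 554) (B (L (nat_lit 457) ln10_17_7 ln10_17_7_ok) (M (nat_lit 555) (B (L (nat_lit 587) ln10_14_4 ln10_14_4_ok) (L (nat_lit 523) ln10_13_4 ln10_13_4_ok))))) (B (M (nat_lit 554) (B (M (nat_lit 553) (B (L (nat_lit 585) ln10_14_5 ln10_14_5_ok) (L (nat_lit 521) ln10_13_5 ln10_13_5_ok))) (M (nat_lit 555) (B (L (nat_lit 587) ln10_14_4 ln10_14_4_ok) (L (nat_lit 523) ln10_13_4 ln10_13_4_ok))))) (M (nat_lit 521) (B (L (nat_lit 553) ln10_13_5 ln10_13_5_ok) (M (nat_lit 489) (B (L (nat_lit 394) ln10_12_5 ln10_12_5_ok) (M (nat_lit 523) (B (L (nat_lit 555) ln10_13_4 ln10_13_4_ok) (M (nat_lit 488) (B (L (nat_lit 487) ln7_15_0 ln7_15_0_ok) (L (nat_lit 524) ln12_16_3 ln12_16_3_ok))))))))))))) (M (nat_lit 394) (B (M (nat_lit 362) (B (M (nat_lit 489) (B (L (nat_lit 521) ln10_12_5 ln10_12_5_ok) (L (nat_lit 457) ln10_11_5 ln10_11_5_ok))) (M (nat_lit 361) (B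 (L (nat_lit 393) ln10_15_7 ln10_15_7_ok) (L (nat_lit 329) ln10_14_7 ln10_14_7_ok))))) (B (M (nat_lit 362) (B (M (nat_lit 457) (B (L (nat_lit 489) ln10_11_5 ln10_11_5_ok) (L (nat_lit 330) ln10_10_5 ln10_10_5_ok))) (M (nat_lit 361) (B (L (nat_lit 393) ln10_15_7 ln10_15_7_ok) (L (nat_lit 329) ln10_14_7 ln10_14_7_ok))))) (B (M (nat_lit 362) (B (M (nat_lit 361) (B (L (nat_lit 393) ln10_15_7 ln10_15_7_ok) (L (nat_lit 329) ln10_14_7 ln10_14_7_ok))) (M (nat_lit 330) (B (L (nat_lit 457) ln10_10_5 ln10_10_5_ok) (L (nat_lit 331) ln10_14_6 ln10_14_6_ok))))) (B (M (nat_lit 362) (B (M (nat_lit 361) (B (L (nat_lit 393) ln10_15_7 ln10_15_7_ok) (L (nat_lit 329) ln10_14_7 ln10_14_7_ok))) (B (M (nat_lit 330) (B (M (nat_lit 329) (B (L (nat_lit 361) ln10_14_7 ln10_14_7_ok) (L (nat_lit 297) ln10_13_7_c10 ln10_13_7_c10_ok))) (L (nat_lit 331) ln10_14_6 ln10_14_6_ok))) (B (M (nat_lit 330) (B (L (nat_lit 331) ln10_14_6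 ln10_14_6_ok) (M (nat_lit 297) (B (L (nat_lit 329) ln10_13_7_c10 ln10_13_7_c10_ok) (M (nat_lit 298) (B (L (nat_lit 393) ln10_9_5_c10 ln10_9_5_c10_ok) (L (nat_lit 265) ln10_12_7_c10 ln10_12_7_c10_ok))))))) (M (nat_lit 330) (B (M (nat_lit 393) (B (L (nat_lit 298) ln10_9_5_c10 ln10_9_5_c10_ok) (L (nat_lit 361) ln10_15_7 ln10_15_7_ok))) (L (nat_lit 331) ln10_14_6 ln10_14_6_ok))))))) (B (M (nat_lit 362) (B (M (nat_lit 489) (B (L (nat_lit 521) ln10_12_5 ln10_12_5_ok) (L (nat_lit 457) ln10_11_5 ln10_11_5_ok))) (B (M (nat_lit 457) (B (L (nat_lit 489) ln10_11_5 ln10_11_5_ok) (L (nat_lit 330) ln10_10_5 ln10_10_5_ok))) (B (M (nat_lit 330) (B (L (nat_lit 457) ln10_10_5 ln10_10_5_ok) (M (nat_lit 329) (B (L (nat_lit 361) ln10_14_7 ln10_14_7_ok) (L (nat_lit 297) ln10_13_7_c10 ln10_13_7_c10_ok))))) (M (nat_lit 330) (B (M (nat_lit 329) (B (L (nat_lit 361) ln10_14_7 ln10_14_7_ok) (L (nat_lit 297) ln10_13_7_c10 ln10_13_7_c10_ok)))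 (L (nat_lit 331) ln10_14_6 ln10_14_6_ok))))))) (B (M (nat_lit 362) (B (M (nat_lit 489) (B (L (nat_lit 521) ln10_12_5 ln10_12_5_ok) (L (nat_lit 457) ln10_11_5 ln10_11_5_ok))) (B (M (nat_lit 457) (B (L (nat_lit 489) ln10_11_5 ln10_11_5_ok) (L (nat_lit 330) ln10_10_5 ln10_10_5_ok))) (B (M (nat_lit 330) (B (L (nat_lit 457) ln10_10_5 ln10_10_5_ok) (L (nat_lit 331) ln10_14_6 ln10_14_6_ok))) (M (nat_lit 330) (B (L (nat_lit 331) ln10_14_6 ln10_14_6_ok) (M (nat_lit 297) (B (L (nat_lit 329) ln10_13_7_c10 ln10_13_7_c10_ok) (M (nat_lit 298) (B (L (nat_lit 393) ln10_9_5_c10 ln10_9_5_c10_ok) (L (nat_lit 265) ln10_12_7_c10 ln10_12_7_c10_ok))))))))))) (B (M (nat_lit 362) (B (M (nat_lit 489) (B (L (nat_lit 521) ln10_12_5 ln10_12_5_ok) (L (nat_lit 457) ln10_11_5 ln10_11_5_ok))) (B (M (nat_lit 457) (B (L (nat_lit 489) ln10_11_5 ln10_11_5_ok) (L (nat_lit 330) ln10_10_5 ln10_10_5_ok))) (B (M (nat_lit 393) (B (L (nat_lit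 361) ln10_15_7 ln10_15_7_ok) (M (nat_lit 330) (B (L (nat_lit 457) ln10_10_5 ln10_10_5_ok) (L (nat_lit 298) ln10_9_5_c10 ln10_9_5_c10_ok))))) (M (nat_lit 330) (B (M (nat_lit 393) (B (L (nat_lit 298) ln10_9_5_c10 ln10_9_5_c10_ok) (L (nat_lit 361) ln10_15_7 ln10_15_7_ok))) (L (nat_lit 331) ln10_14_6 ln10_14_6_ok))))))) (M (nat_lit 393) (B (L (nat_lit 361) ln10_15_7 ln10_15_7_ok) (M (nat_lit 489) (B (L (nat_lit 521) ln10_12_5 ln10_12_5_ok) (M (nat_lit 457) (B (M (nat_lit 392) (B (L (nat_lit 360) ln9_15_7 ln9_15_7_ok) (L (nat_lit 391) ln7_12_0_c10 ln7_12_0_c10_ok))) (M (nat_lit 488) (B (L (nat_lit 520) ln9_12_5_c10 ln9_12_5_c10_ok) (M (nat_lit 459) (B (L (nat_lit 487) ln7_15_2 ln7_15_2_ok) (L (nat_lit 460) ln12_14_1 ln12_14_1_ok))))))))))))))))))))))) (B (M (nat_lit 490) (B (M (nat_lit 393) (B (L (nat_lit 522) ln10_16_7 ln10_16_7_ok) (M (nat_lit 361) (B (L (nat_lit 457) ln9_11_4 ln9_11_4_ok) (L (nat_lit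 329) ln9_10_4_c10 ln9_10_4_c10_ok))))) (B (M (nat_lit 459) (B (L (nat_lit 460) ln13_14_3 ln13_14_3_ok) (M (nat_lit 424) (B (L (nat_lit 423) ln7_13_0 ln7_13_0_ok) (M (nat_lit 394) (B (M (nat_lit 489) (B (L (nat_lit 521) ln10_12_5 ln10_12_5_ok) (M (nat_lit 362) (B (L (nat_lit 457) ln10_11_5 ln10_11_5_ok) (M (nat_lit 361) (B (L (nat_lit 393) ln10_15_7 ln10_15_7_ok) (L (nat_lit 329) ln10_14_7 ln10_14_7_ok))))))) (B (M (nat_lit 456) (B (L (nat_lit 455) ln11_13_1_c10 ln11_13_1_c10_ok) (M (nat_lit 488) (B (M (nat_lit 489) (B (L (nat_lit 487) ln7_15_2 ln7_15_2_ok) (L (nat_lit 521) ln10_12_5 ln10_12_5_ok))) (M (nat_lit 393) (B (L (nat_lit 361) ln10_15_7 ln10_15_7_ok) (L (nat_lit 520) ln8_16_6_c10 ln8_16_6_c10_ok))))))) (B (M (nat_lit 362) (B (M (nat_lit 361) (B (L (nat_lit 393) ln10_15_7 ln10_15_7_ok) (L (nat_lit 329) ln10_14_7 ln10_14_7_ok))) (L (nat_lit 330) ln10_10_4 ln10_10_4_ok))) (M (nat_lit 362)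 (B (M (nat_lit 489) (B (L (nat_lit 521) ln10_12_5 ln10_12_5_ok) (L (nat_lit 457) ln10_11_5 ln10_11_5_ok))) (L (nat_lit 330) ln10_10_4 ln10_10_4_ok))))))))))) (B (M (nat_lit 393) (B (L (nat_lit 522) ln10_16_7 ln10_16_7_ok) (M (nat_lit 361) (B (L (nat_lit 394) ln10_15_7 ln10_15_7_ok) (L (nat_lit 329) ln9_10_4_c10 ln9_10_4_c10_ok))))) (M (nat_lit 522) (B (M (nat_lit 554) (B (L (nat_lit 457) ln10_17_7 ln10_17_7_ok) (M (nat_lit 553) (B (L (nat_lit 585) ln10_14_5 ln10_14_5_ok) (L (nat_lit 521) ln10_13_5 ln10_13_5_ok))))) (B (M (nat_lit 521) (B (L (nat_lit 553) ln10_13_5 ln10_13_5_ok) (M (nat_lit 489) (B (L (nat_lit 394) ln10_12_5 ln10_12_5_ok) (M (nat_lit 523) (B (L (nat_lit 555) ln10_13_4 ln10_13_4_ok) (M (nat_lit 524) (B (L (nat_lit 525) ln13_16_3 ln13_16_3_ok) (L (nat_lit 488) ln12_16_3 ln12_16_3_ok))))))))) (M (nat_lit 554) (B (L (nat_lit 457) ln10_17_7 ln10_17_7_ok) (M (nat_lit 555) (B (L (nat_lit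 587) ln10_14_4 ln10_14_4_ok) (L (nat_lit 523) ln10_13_4 ln10_13_4_ok)))))))))))) c10_d269))
noncomputable def c10_d271 : Cert := (B (M (nat_lit 424) (B (M (nat_lit 423) (B (M (nat_lit 422) (B (L (nat_lit 459) ln7_13_0 ln7_13_0_ok) (M (nat_lit 421) (B (M (nat_lit 393) (B (L (nat_lit 394) ln6_13_2_c10 ln6_13_2_c10_ok) (L (nat_lit 392) ln5_13_2_c10 ln5_13_2_c10_ok))) (M (nat_lit 453) (B (L (nat_lit 454) ln9_13_1_c10 ln9_13_1_c10_ok) (L (nat_lit 452) ln8_13_1_c10 ln8_13_1_c10_ok))))))) (B (M (nat_lit 455) (B (L (nat_lit 454) ln10_13_1_c10 ln10_13_1_c10_ok) (L (nat_lit 456) ln11_13_1_c10 ln11_13_1_c10_ok))) (M (nat_lit 391) (B (L (nat_lit 390) ln10_13_3_c10 ln10_13_3_c10_ok) (L (nat_lit 392) ln11_13_3 ln11_13_3_ok)))))) (B (M (nat_lit 423) (B (M (nat_lit 390) (B (L (nat_lit 391) ln10_13_3_c10 ln10_13_3_c10_ok) (M (nat_lit 422) (B (L (nat_lit 389) ln9_13_3_c10 ln9_13_3_c10_ok) (M (nat_lit 454) (B (L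 (nat_lit 455) ln10_13_1_c10 ln10_13_1_c10_ok) (L (nat_lit 453) ln9_13_1_c10 ln9_13_1_c10_ok))))))) (B (M (nat_lit 422) (B (L (nat_lit 459) ln7_13_0 ln7_13_0_ok) (M (nat_lit 454) (B (L (nat_lit 455) ln10_13_1_c10 ln10_13_1_c10_ok) (L (nat_lit 453) ln9_13_1_c10 ln9_13_1_c10_ok))))) (B (M (nat_lit 422) (B (L (nat_lit 459) ln7_13_0 ln7_13_0_ok) (M (nat_lit 390) (B (L (nat_lit 391) ln10_13_3_c10 ln10_13_3_c10_ok) (L (nat_lit 389) ln9_13_3_c10 ln9_13_3_c10_ok))))) (L (nat_lit 459) ln7_13_0 ln7_13_0_ok))))) (B (M (nat_lit 423) (B (L (nat_lit 459) ln7_13_0 ln7_13_0_ok) (M (nat_lit 422) (B (M (nat_lit 390) (B (L (nat_lit 389) ln9_13_3_c10 ln9_13_3_c10_ok) (L (nat_lit 391) ln10_13_3_c10 ln10_13_3_c10_ok))) (L (nat_lit 457) ln6_13_0_c10 ln6_13_0_c10_ok))))) (B (M (nat_lit 391) (B (M (nat_lit 390) (B (L (nat_lit 423) ln10_13_3_c10 ln10_13_3_c10_ok) (L (nat_lit 392) ln11_13_3 ln11_13_3_ok))) (B (M (nat_lit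 456) (B (L (nat_lit 392) ln11_13_3 ln11_13_3_ok) (L (nat_lit 455) ln11_13_1_c10 ln11_13_1_c10_ok))) (M (nat_lit 423) (B (L (nat_lit 390) ln10_13_3_c10 ln10_13_3_c10_ok) (M (nat_lit 455) (B (L (nat_lit 454) ln10_13_1_c10 ln10_13_1_c10_ok) (L (nat_lit 456) ln11_13_1_c10 ln11_13_1_c10_ok)))))))) (B (M (nat_lit 456) (B (L (nat_lit 455) ln11_13_1_c10 ln11_13_1_c10_ok) (M (nat_lit 392) (B (L (nat_lit 391) ln11_13_3 ln11_13_3_ok) (M (nat_lit 488) (B (M (nat_lit 393) (B (L (nat_lit 361) ln8_15_6_c10 ln8_15_6_c10_ok) (L (nat_lit 520) ln8_16_6_c10 ln8_16_6_c10_ok))) (B (M (nat_lit 520) (B (L (nat_lit 393) ln8_16_6_c10 ln8_16_6_c10_ok) (M (nat_lit 519) (B (L (nat_lit 487) ln8_12_5_c10 ln8_12_5_c10_ok) (L (nat_lit 551) ln8_13_5_c10 ln8_13_5_c10_ok))))) (B (M (nat_lit 520) (B (M (nat_lit 519) (B (L (nat_lit 487) ln8_12_5_c10 ln8_12_5_c10_ok) (L (nat_lit 551) ln8_13_5_c10 ln8_13_5_c10_ok))) (M (nat_lit 553)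 (B (L (nat_lit 521) ln8_13_4_c10 ln8_13_4_c10_ok) (M (nat_lit 552) (B (L (nat_lit 457) ln8_17_6_c10 ln8_17_6_c10_ok) (L (nat_lit 585) ln8_14_4_c10 ln8_14_4_c10_ok))))))) (M (nat_lit 360) (B (M (nat_lit 361) (B (L (nat_lit 329) ln8_14_6_c10 ln8_14_6_c10_ok) (L (nat_lit 393) ln8_15_6_c10 ln8_15_6_c10_ok))) (M (nat_lit 328) (B (L (nat_lit 457) ln8_10_4_c10 ln8_10_4_c10_ok) (M (nat_lit 327) (B (L (nat_lit 295) ln8_13_7_c10 ln8_13_7_c10_ok) (L (nat_lit 359) ln8_14_7_c10 ln8_14_7_c10_ok))))))))))))))) (M (nat_lit 423) (B (M (nat_lit 455) (B (L (nat_lit 454) ln10_13_1_c10 ln10_13_1_c10_ok) (L (nat_lit 459) ln7_13_0 ln7_13_0_ok))) (B (L (nat_lit 459) ln7_13_0 ln7_13_0_ok) (M (nat_lit 422) (B (M (nat_lit 454) (B (L (nat_lit 455) ln10_13_1_c10 ln10_13_1_c10_ok) (L (nat_lit 453) ln9_13_1_c10 ln9_13_1_c10_ok))) (M (nat_lit 421) (B (M (nat_lit 393) (B (L (nat_lit 394) ln6_13_2_c10 ln6_13_2_c10_ok) (L (nat_lit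 392) ln5_13_2_c10 ln5_13_2_c10_ok))) (L (nat_lit 457) ln6_13_0_c10 ln6_13_0_c10_ok)))))))))))))) (B (M (nat_lit 393) (B (M (nat_lit 424) (B (M (nat_lit 392) (B (M (nat_lit 360) (B (M (nat_lit 328) (B (M (nat_lit 297) (B (L (nat_lit 329) ln8_13_6_c10 ln8_13_6_c10_ok) (L (nat_lit 296) ln8_9_4_c10 ln8_9_4_c10_ok))) (B (L (nat_lit 296) ln8_9_4_c10 ln8_9_4_c10_ok) (M (nat_lit 327) (B (L (nat_lit 295) ln8_13_7_c10 ln8_13_7_c10_ok) (M (nat_lit 359) (B (L (nat_lit 456) ln8_14_7_c10 ln8_14_7_c10_ok) (M (nat_lit 329) (B (L (nat_lit 297) ln8_13_6_c10 ln8_13_6_c10_ok) (M (nat_lit 330) (B (L (nat_lit 331) ln11_10_1_c10 ln11_10_1_c10_ok) (L (nat_lit 358) ln10_10_1_c10 ln10_10_1_c10_ok)))))))))))) (B (M (nat_lit 394) (B (M (nat_lit 489) (B (M (nat_lit 490) (B (L (nat_lit 522) ln10_16_7 ln10_16_7_ok) (L (nat_lit 521) ln10_12_5 ln10_12_5_ok))) (L (nat_lit 457) ln9_15_7 ln9_15_7_ok))) (M (nat_lit 362) (B (M (nat_lit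 459) (B (L (nat_lit 460) ln8_13_0 ln8_13_0_ok) (L (nat_lit 330) ln10_10_4 ln10_10_4_ok))) (L (nat_lit 331) ln10_14_6 ln10_14_6_ok))))) (M (nat_lit 457) (B (L (nat_lit 489) ln9_15_7 ln9_15_7_ok) (L (nat_lit 328) ln8_10_4_c10 ln8_10_4_c10_ok)))))) (L (nat_lit 391) ln11_13_3 ln11_13_3_ok))) (B (M (nat_lit 423) (B (M (nat_lit 422) (B (L (nat_lit 394) ln6_13_2_c10 ln6_13_2_c10_ok) (M (nat_lit 390) (B (L (nat_lit 389) ln9_13_3_c10 ln9_13_3_c10_ok) (L (nat_lit 391) ln10_13_3_c10 ln10_13_3_c10_ok))))) (M (nat_lit 455) (B (L (nat_lit 454) ln10_13_1_c10 ln10_13_1_c10_ok) (L (nat_lit 456) ln11_13_1_c10 ln11_13_1_c10_ok))))) (M (nat_lit 459) (B (L (nat_lit 460) ln8_13_0 ln8_13_0_ok) (L (nat_lit 423) ln7_13_0 ln7_13_0_ok)))))) (B (M (nat_lit 424) (B (M (nat_lit 392) (B (L (nat_lit 391) ln11_13_3 ln11_13_3_ok) (M (nat_lit 360) (B (M (nat_lit 328) (B (L (nat_lit 457) ln8_10_4_c10 ln8_10_4_c10_ok) (L (nat_lit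 296) ln8_9_4_c10 ln8_9_4_c10_ok))) (B (M (nat_lit 456) (B (M (nat_lit 361) (B (L (nat_lit 329) ln9_10_4_c10 ln9_10_4_c10_ok) (M (nat_lit 359) (B (L (nat_lit 327) ln8_14_7_c10 ln8_14_7_c10_ok) (M (nat_lit 358) (B (L (nat_lit 357) ln5_11_0_c10 ln5_11_0_c10_ok) (L (nat_lit 394) ln6_11_0_c10 ln6_11_0_c10_ok))))))) (M (nat_lit 457) (B (L (nat_lit 489) ln8_11_4_c10 ln8_11_4_c10_ok) (L (nat_lit 455) ln11_13_1_c10 ln11_13_1_c10_ok))))) (M (nat_lit 328) (B (L (nat_lit 296) ln8_9_4_c10 ln8_9_4_c10_ok) (M (nat_lit 456) (B (M (nat_lit 327) (B (L (nat_lit 359) ln8_14_7_c10 ln8_14_7_c10_ok) (L (nat_lit 295) ln8_13_7_c10 ln8_13_7_c10_ok))) (M (nat_lit 329) (B (L (nat_lit 361) ln9_10_4_c10 ln9_10_4_c10_ok) (L (nat_lit 297) ln8_13_6_c10 ln8_13_6_c10_ok)))))))))))) (M (nat_lit 459) (B (L (nat_lit 460) ln8_13_0 ln8_13_0_ok) (L (nat_lit 423) ln7_13_0 ln7_13_0_ok))))) (B (M (nat_lit 424) (B (M (nat_lit 459) (B (L (nat_lit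 423) ln7_13_0 ln7_13_0_ok) (L (nat_lit 460) ln8_13_0 ln8_13_0_ok))) (M (nat_lit 392) (B (L (nat_lit 391) ln11_13_3 ln11_13_3_ok) (M (nat_lit 457) (B (M (nat_lit 490) (B (L (nat_lit 522) ln10_16_7 ln10_16_7_ok) (L (nat_lit 361) ln9_11_4 ln9_11_4_ok))) (M (nat_lit 360) (B (L (nat_lit 489) ln9_15_7 ln9_15_7_ok) (L (nat_lit 328) ln8_10_4_c10 ln8_10_4_c10_ok))))))))) (M (nat_lit 361) (B (M (nat_lit 490) (B (L (nat_lit 394) ln10_15_7 ln10_15_7_ok) (L (nat_lit 522) ln10_16_7 ln10_16_7_ok))) (L (nat_lit 329) ln9_10_4_c10 ln9_10_4_c10_ok))))))) c10_d270))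
noncomputable def c10_d272 : Cert := (B (M (nat_lit 520) (B (M (nat_lit 552) (B (M (nat_lit 423) (B (L (nat_lit 391) ln8_16_7_c10 ln8_16_7_c10_ok) (L (nat_lit 455) ln8_17_7_c10 ln8_17_7_c10_ok))) (M (nat_lit 551) (B (L (nat_lit 519) ln8_13_5_c10 ln8_13_5_c10_ok) (L (nat_lit 583) ln8_14_5_c10 ln8_14_5_c10_ok))))) (B (M (nat_lit 552) (B (M (nat_lit 551) (B (L (nat_lit 519) ln8_13_5_c10 ln8_13_5_c10_ok) (L (nat_lit 583) ln8_14_5_c10 ln8_14_5_c10_ok))) (M (nat_lit 553) (B (L (nat_lit 521) ln8_13_4_c10 ln8_13_4_c10_ok) (L (nat_lit 585) ln8_14_4_c10 ln8_14_4_c10_ok))))) (B (M (nat_lit 552) (B (M (nat_lit 423) (B (L (nat_lit 391) ln8_16_7_c10 ln8_16_7_c10_ok) (L (nat_lit 455) ln8_17_7_c10 ln8_17_7_c10_ok))) (M (nat_lit 553) (B (L (nat_lit 521) ln8_13_4_c10 ln8_13_4_c10_ok) (L (nat_lit 585) ln8_14_4_c10 ln8_14_4_c10_ok))))) (M (nat_lit 521) (B (L (nat_lit 553) ln8_13_4_c10 ln8_13_4_c10_ok) (M (nat_lit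 519) (B (L (nat_lit 551) ln8_13_5_c10 ln8_13_5_c10_ok) (M (nat_lit 522) (B (M (nat_lit 487) (B (L (nat_lit 486) ln10_16_3_c10 ln10_16_3_c10_ok) (L (nat_lit 523) ln11_16_3_c10 ln11_16_3_c10_ok))) (B (M (nat_lit 523) (B (L (nat_lit 487) ln11_16_3_c10 ln11_16_3_c10_ok) (M (nat_lit 555) (B (L (nat_lit 490) ln10_13_4 ln10_13_4_ok) (L (nat_lit 554) ln7_16_0_c10 ln7_16_0_c10_ok))))) (B (M (nat_lit 555) (B (L (nat_lit 554) ln7_16_0_c10 ln7_16_0_c10_ok) (M (nat_lit 523) (B (L (nat_lit 490) ln10_13_4 ln10_13_4_ok) (L (nat_lit 556) ln8_16_0 ln8_16_0_ok))))) (M (nat_lit 518) (B (M (nat_lit 486) (B (L (nat_lit 485) ln9_16_3_c10 ln9_16_3_c10_ok) (L (nat_lit 487) ln10_16_3_c10 ln10_16_3_c10_ok))) (M (nat_lit 489) (B (L (nat_lit 517) ln5_16_2_c10 ln5_16_2_c10_ok) (L (nat_lit 490) ln6_16_2_c10 ln6_16_2_c10_ok))))))))))))))))) (B (M (nat_lit 520) (B (M (nat_lit 552) (B (M (nat_lit 553) (B (L (nat_lit 585) ln8_14_4_c10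 ln8_14_4_c10_ok) (L (nat_lit 521) ln8_13_4_c10 ln8_13_4_c10_ok))) (M (nat_lit 551) (B (L (nat_lit 583) ln8_14_5_c10 ln8_14_5_c10_ok) (L (nat_lit 519) ln8_13_5_c10 ln8_13_5_c10_ok))))) (B (M (nat_lit 552) (B (M (nat_lit 553) (B (L (nat_lit 585) ln8_14_4_c10 ln8_14_4_c10_ok) (L (nat_lit 521) ln8_13_4_c10 ln8_13_4_c10_ok))) (M (nat_lit 423) (B (L (nat_lit 455) ln8_17_7_c10 ln8_17_7_c10_ok) (L (nat_lit 391) ln8_16_7_c10 ln8_16_7_c10_ok))))) (B (M (nat_lit 552) (B (M (nat_lit 423) (B (L (nat_lit 391) ln8_16_7_c10 ln8_16_7_c10_ok) (L (nat_lit 455) ln8_17_7_c10 ln8_17_7_c10_ok))) (M (nat_lit 551) (B (L (nat_lit 519) ln8_13_5_c10 ln8_13_5_c10_ok) (L (nat_lit 583) ln8_14_5_c10 ln8_14_5_c10_ok))))) (M (nat_lit 391) (B (L (nat_lit 423) ln8_16_7_c10 ln8_16_7_c10_ok) (M (nat_lit 392) (B (L (nat_lit 359) ln8_15_7_c10 ln8_15_7_c10_ok) (M (nat_lit 361) (B (L (nat_lit 393) ln8_15_6_c10 ln8_15_6_c10_ok) (M (nat_lit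 360) (B (L (nat_lit 329) ln8_14_6_c10 ln8_14_6_c10_ok) (L (nat_lit 362) ln11_11_1 ln11_11_1_ok))))))))))))) (B (M (nat_lit 392) (B (M (nat_lit 520) (B (M (nat_lit 521) (B (L (nat_lit 489) ln8_12_4_c10 ln8_12_4_c10_ok) (L (nat_lit 553) ln8_13_4_c10 ln8_13_4_c10_ok))) (M (nat_lit 391) (B (L (nat_lit 359) ln8_15_7_c10 ln8_15_7_c10_ok) (L (nat_lit 423) ln8_16_7_c10 ln8_16_7_c10_ok))))) (B (M (nat_lit 360) (B (M (nat_lit 359) (B (L (nat_lit 327) ln8_14_7_c10 ln8_14_7_c10_ok) (L (nat_lit 391) ln8_15_7_c10 ln8_15_7_c10_ok))) (M (nat_lit 328) (B (M (nat_lit 329) (B (L (nat_lit 297) ln8_13_6_c10 ln8_13_6_c10_ok) (L (nat_lit 361) ln8_14_6_c10 ln8_14_6_c10_ok))) (M (nat_lit 455) (B (L (nat_lit 423) ln8_10_5_c10 ln8_10_5_c10_ok) (L (nat_lit 487) ln8_11_5_c10 ln8_11_5_c10_ok))))))) (B (M (nat_lit 455) (B (M (nat_lit 487) (B (L (nat_lit 360) ln8_11_5_c10 ln8_11_5_c10_ok) (M (nat_lit 489) (B (L (nat_lit 490)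 ln7_15_2 ln7_15_2_ok) (L (nat_lit 521) ln8_12_4_c10 ln8_12_4_c10_ok))))) (B (M (nat_lit 423) (B (M (nat_lit 360) (B (L (nat_lit 328) ln8_10_5_c10 ln8_10_5_c10_ok) (L (nat_lit 487) ln8_11_5_c10 ln8_11_5_c10_ok))) (M (nat_lit 520) (B (L (nat_lit 391) ln8_16_7_c10 ln8_16_7_c10_ok) (L (nat_lit 552) ln8_17_7_c10 ln8_17_7_c10_ok))))) (M (nat_lit 520) (B (M (nat_lit 521) (B (L (nat_lit 489) ln8_12_4_c10 ln8_12_4_c10_ok) (L (nat_lit 553) ln8_13_4_c10 ln8_13_4_c10_ok))) (M (nat_lit 423) (B (L (nat_lit 391) ln8_16_7_c10 ln8_16_7_c10_ok) (L (nat_lit 552) ln8_17_7_c10 ln8_17_7_c10_ok)))))))) (M (nat_lit 360) (B (M (nat_lit 489) (B (L (nat_lit 521) ln8_12_4_c10 ln8_12_4_c10_ok) (M (nat_lit 487) (B (L (nat_lit 490) ln7_15_2 ln7_15_2_ok) (L (nat_lit 455) ln8_11_5_c10 ln8_11_5_c10_ok))))) (M (nat_lit 328) (B (M (nat_lit 329) (B (L (nat_lit 297) ln8_13_6_c10 ln8_13_6_c10_ok) (L (nat_lit 361) ln8_14_6_c10 ln8_14_6_c10_ok)))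 (M (nat_lit 327) (B (L (nat_lit 295) ln8_13_7_c10 ln8_13_7_c10_ok) (L (nat_lit 359) ln8_14_7_c10 ln8_14_7_c10_ok))))))))))) (B (M (nat_lit 489) (B (M (nat_lit 521) (B (L (nat_lit 392) ln8_12_4_c10 ln8_12_4_c10_ok) (M (nat_lit 553) (B (L (nat_lit 585) ln9_18_7_c10 ln9_18_7_c10_ok) (L (nat_lit 520) ln8_13_4_c10 ln8_13_4_c10_ok))))) (B (M (nat_lit 490) (B (M (nat_lit 521) (B (L (nat_lit 392) ln8_12_4_c10 ln8_12_4_c10_ok) (M (nat_lit 553) (B (L (nat_lit 520) ln8_13_4_c10 ln8_13_4_c10_ok) (L (nat_lit 522) ln10_13_5 ln10_13_5_ok))))) (L (nat_lit 487) ln7_15_2 ln7_15_2_ok))) (B (M (nat_lit 487) (B (M (nat_lit 392) (B (L (nat_lit 519) ln8_12_5_c10 ln8_12_5_c10_ok) (L (nat_lit 521) ln8_12_4_c10 ln8_12_4_c10_ok))) (L (nat_lit 490) ln7_15_2 ln7_15_2_ok))) (B (M (nat_lit 487) (B (M (nat_lit 519) (B (L (nat_lit 392) ln8_12_5_c10 ln8_12_5_c10_ok) (L (nat_lit 490) ln7_15_2 ln7_15_2_ok))) (B (M (nat_lit 519) (B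 (L (nat_lit 392) ln8_12_5_c10 ln8_12_5_c10_ok) (M (nat_lit 551) (B (L (nat_lit 520) ln8_13_5_c10 ln8_13_5_c10_ok) (L (nat_lit 455) ln7_17_6_c10 ln7_17_6_c10_ok))))) (L (nat_lit 490) ln7_15_2 ln7_15_2_ok)))) (M (nat_lit 490) (B (L (nat_lit 487) ln7_15_2 ln7_15_2_ok) (M (nat_lit 491) (B (L (nat_lit 455) ln11_15_3 ln11_15_3_ok) (M (nat_lit 520) (B (L (nat_lit 519) ln11_15_1 ln11_15_1_ok) (M (nat_lit 521) (B (L (nat_lit 553) ln8_13_4_c10 ln8_13_4_c10_ok) (L (nat_lit 492) ln12_15_1 ln12_15_1_ok)))))))))))))) (B (M (nat_lit 392) (B (M (nat_lit 360) (B (M (nat_lit 487) (B (L (nat_lit 519) ln8_12_5_c10 ln8_12_5_c10_ok) (L (nat_lit 455) ln8_11_5_c10 ln8_11_5_c10_ok))) (M (nat_lit 361) (B (L (nat_lit 393) ln8_15_6_c10 ln8_15_6_c10_ok) (L (nat_lit 329) ln8_14_6_c10 ln8_14_6_c10_ok))))) (B (M (nat_lit 359) (B (L (nat_lit 391) ln8_15_7_c10 ln8_15_7_c10_ok) (M (nat_lit 360) (B (L (nat_lit 327) ln8_14_7_c10 ln8_14_7_c10_ok)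 (M (nat_lit 361) (B (L (nat_lit 393) ln8_15_6_c10 ln8_15_6_c10_ok) (L (nat_lit 329) ln8_14_6_c10 ln8_14_6_c10_ok))))))) (B (M (nat_lit 360) (B (M (nat_lit 487) (B (L (nat_lit 519) ln8_12_5_c10 ln8_12_5_c10_ok) (L (nat_lit 455) ln8_11_5_c10 ln8_11_5_c10_ok))) (M (nat_lit 359) (B (L (nat_lit 391) ln8_15_7_c10 ln8_15_7_c10_ok) (L (nat_lit 327) ln8_14_7_c10 ln8_14_7_c10_ok))))) (M (nat_lit 520) (B (M (nat_lit 519) (B (L (nat_lit 551) ln8_13_5_c10 ln8_13_5_c10_ok) (L (nat_lit 487) ln8_12_5_c10 ln8_12_5_c10_ok))) (M (nat_lit 391) (B (L (nat_lit 423) ln8_16_7_c10 ln8_16_7_c10_ok) (L (nat_lit 359) ln8_15_7_c10 ln8_15_7_c10_ok))))))))) (M (nat_lit 392) (B (M (nat_lit 487) (B (L (nat_lit 519) ln8_12_5_c10 ln8_12_5_c10_ok) (M (nat_lit 489) (B (L (nat_lit 521) ln8_12_4_c10 ln8_12_4_c10_ok) (L (nat_lit 490) ln7_15_2 ln7_15_2_ok))))) (M (nat_lit 360) (B (M (nat_lit 359) (B (L (nat_lit 391) ln8_15_7_c10 ln8_15_7_c10_ok)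 (L (nat_lit 327) ln8_14_7_c10 ln8_14_7_c10_ok))) (M (nat_lit 361) (B (L (nat_lit 393) ln8_15_6_c10 ln8_15_6_c10_ok) (L (nat_lit 329) ln8_14_6_c10 ln8_14_6_c10_ok))))))))))))
noncomputable def c10_d273 : Cert := (B (M (nat_lit 424) (B (M (nat_lit 488) (B (M (nat_lit 520) (B (M (nat_lit 425) (B (L (nat_lit 393) ln8_16_6_c10 ln8_16_6_c10_ok) (M (nat_lit 552) (B (L (nat_lit 457) ln8_17_6_c10 ln8_17_6_c10_ok) (M (nat_lit 551) (B (L (nat_lit 519) ln8_13_5_c10 ln8_13_5_c10_ok) (L (nat_lit 583) ln8_14_5_c10 ln8_14_5_c10_ok))))))) (B (M (nat_lit 552) (B (M (nat_lit 551) (B (L (nat_lit 519) ln8_13_5_c10 ln8_13_5_c10_ok) (L (nat_lit 583) ln8_14_5_c10 ln8_14_5_c10_ok))) (M (nat_lit 553) (B (L (nat_lit 521) ln8_13_4_c10 ln8_13_4_c10_ok) (L (nat_lit 585) ln8_14_4_c10 ln8_14_4_c10_ok))))) (B (M (nat_lit 552) (B (M (nat_lit 425) (B (L (nat_lit 393) ln8_16_6_c10 ln8_16_6_c10_ok) (L (nat_lit 457) ln8_17_6_c10 ln8_17_6_c10_ok)))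 (M (nat_lit 553) (B (L (nat_lit 521) ln8_13_4_c10 ln8_13_4_c10_ok) (L (nat_lit 585) ln8_14_4_c10 ln8_14_4_c10_ok))))) (M (nat_lit 521) (B (L (nat_lit 553) ln8_13_4_c10 ln8_13_4_c10_ok) (M (nat_lit 519) (B (L (nat_lit 551) ln8_13_5_c10 ln8_13_5_c10_ok) (M (nat_lit 489) (B (M (nat_lit 518) (B (L (nat_lit 517) ln5_16_2_c10 ln5_16_2_c10_ok) (L (nat_lit 490) ln6_16_2_c10 ln6_16_2_c10_ok))) (B (M (nat_lit 486) (B (M (nat_lit 487) (B (L (nat_lit 457) ln11_14_1 ln11_14_1_ok) (L (nat_lit 485) ln5_15_0_c10 ln5_15_0_c10_ok))) (B (M (nat_lit 487) (B (L (nat_lit 485) ln5_15_0_c10 ln5_15_0_c10_ok) (L (nat_lit 522) ln6_15_0 ln6_15_0_ok))) (B (M (nat_lit 487) (B (L (nat_lit 457) ln11_14_1 ln11_14_1_ok) (L (nat_lit 522) ln6_15_0 ln6_15_0_ok))) (M (nat_lit 518) (B (L (nat_lit 485) ln9_16_3_c10 ln9_16_3_c10_ok) (L (nat_lit 517) ln5_16_2_c10 ln5_16_2_c10_ok))))))) (B (M (nat_lit 486) (B (M (nat_lit 487) (B (L (nat_lit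 457) ln11_14_1 ln11_14_1_ok) (L (nat_lit 485) ln5_15_0_c10 ln5_15_0_c10_ok))) (B (M (nat_lit 487) (B (L (nat_lit 485) ln5_15_0_c10 ln5_15_0_c10_ok) (L (nat_lit 522) ln6_15_0 ln6_15_0_ok))) (B (M (nat_lit 487) (B (L (nat_lit 457) ln11_14_1 ln11_14_1_ok) (L (nat_lit 522) ln6_15_0 ln6_15_0_ok))) (M (nat_lit 518) (B (L (nat_lit 485) ln9_16_3_c10 ln9_16_3_c10_ok) (L (nat_lit 490) ln6_16_2_c10 ln6_16_2_c10_ok))))))) (M (nat_lit 487) (B (L (nat_lit 457) ln11_14_1 ln11_14_1_ok) (M (nat_lit 486) (B (L (nat_lit 485) ln5_15_0_c10 ln5_15_0_c10_ok) (L (nat_lit 522) ln6_15_0 ln6_15_0_ok))))))))))))))))) (B (M (nat_lit 392) (B (M (nat_lit 391) (B (L (nat_lit 359) ln8_15_7_c10 ln8_15_7_c10_ok) (L (nat_lit 425) ln11_13_3 ln11_13_3_ok))) (M (nat_lit 360) (B (M (nat_lit 361) (B (L (nat_lit 329) ln8_14_6_c10 ln8_14_6_c10_ok) (L (nat_lit 393) ln8_15_6_c10 ln8_15_6_c10_ok))) (M (nat_lit 489) (B (L (nat_lit 457) ln8_11_4_c10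 ln8_11_4_c10_ok) (L (nat_lit 521) ln8_12_4_c10 ln8_12_4_c10_ok))))))) (B (M (nat_lit 392) (B (M (nat_lit 487) (B (L (nat_lit 519) ln8_12_5_c10 ln8_12_5_c10_ok) (L (nat_lit 457) ln11_14_1 ln11_14_1_ok))) (M (nat_lit 360) (B (M (nat_lit 359) (B (L (nat_lit 327) ln8_14_7_c10 ln8_14_7_c10_ok) (L (nat_lit 391) ln8_15_7_c10 ln8_15_7_c10_ok))) (M (nat_lit 361) (B (L (nat_lit 329) ln8_14_6_c10 ln8_14_6_c10_ok) (L (nat_lit 393) ln8_15_6_c10 ln8_15_6_c10_ok))))))) (M (nat_lit 392) (B (M (nat_lit 391) (B (L (nat_lit 425) ln11_13_3 ln11_13_3_ok) (L (nat_lit 359) ln8_15_7_c10 ln8_15_7_c10_ok))) (M (nat_lit 489) (B (L (nat_lit 521) ln8_12_4_c10 ln8_12_4_c10_ok) (M (nat_lit 487) (B (L (nat_lit 490) ln7_15_2 ln7_15_2_ok) (L (nat_lit 519) ln8_12_5_c10 ln8_12_5_c10_ok))))))))))) (B (K (nat_lit 8373182105834924757806908215104826412290507533212228096937961605072735356142332478596843059283826640556541727492462524936946245325165690880)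 (nat_lit 158291456994384044337592020038974029877258083650533772076767666991460733636191460172527755765504889218720939838026640472318916387287720284597724243507705511387876734594600402944) (nat_lit 158291456994384044337592020038974029877258083650533772076767666991460733636191460172527755765504889218720939838026640472318916387287720284597724243507705511387876734594600402944) c10_s37) (B (M (nat_lit 488) (B (M (nat_lit 457) (B (L (nat_lit 423) ln11_14_3 ln11_14_3_ok) (L (nat_lit 487) ln11_14_1 ln11_14_1_ok))) (B (K (nat_lit 799167637254076117068613648633958789376467536812740147832172278602056770210595354893130840981097003900742334923621822953697206710844046363575975936) (nat_lit 36855101816911260678407088043907700859293636195727090802848887538793516418910663438067016820560709209328384960187537810620386463912622375467380840504885773465089474560) (nat_lit 36855101816911260678407088043907700859293636195727090802848887538793516418910663438067016820560709209328384960187537810620386463912622375467380840504885773465089474560)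 c10_s36) (B (M (nat_lit 487) (B (L (nat_lit 457) ln11_14_1 ln11_14_1_ok) (M (nat_lit 392) (B (L (nat_lit 519) ln8_12_5_c10 ln8_12_5_c10_ok) (M (nat_lit 489) (B (L (nat_lit 490) ln7_15_2 ln7_15_2_ok) (L (nat_lit 521) ln8_12_4_c10 ln8_12_4_c10_ok))))))) (M (nat_lit 423) (B (L (nat_lit 457) ln11_14_3 ln11_14_3_ok) (M (nat_lit 391) (B (L (nat_lit 520) ln8_16_7_c10 ln8_16_7_c10_ok) (M (nat_lit 359) (B (L (nat_lit 392) ln8_15_7_c10 ln8_15_7_c10_ok) (L (nat_lit 327) ln7_10_4_c10 ln7_10_4_c10_ok))))))))))) (M (nat_lit 423) (B (L (nat_lit 425) ln7_13_0 ln7_13_0_ok) (L (nat_lit 457) ln11_14_3 ln11_14_3_ok))))))) (B (M (nat_lit 457) (B (M (nat_lit 491) (B (M (nat_lit 523) (B (L (nat_lit 555) ln11_17_7 ln11_17_7_ok) (M (nat_lit 522) (B (L (nat_lit 554) ln11_13_5 ln11_13_5_ok) (M (nat_lit 524) (B (L (nat_lit 556) ln11_13_4 ln11_13_4_ok) (M (nat_lit 488) (B (L (nat_lit 487) ln11_14_1 ln11_14_1_ok) (M (nat_lit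 489) (B (L (nat_lit 490) ln8_15_0 ln8_15_0_ok) (L (nat_lit 521) ln12_16_3 ln12_16_3_ok))))))))))) (L (nat_lit 492) ln8_14_0 ln8_14_0_ok))) (L (nat_lit 455) ln7_14_2 ln7_14_2_ok))) (M (nat_lit 424) (B (M (nat_lit 425) (B (L (nat_lit 455) ln11_13_1_c10 ln11_13_1_c10_ok) (L (nat_lit 423) ln7_13_0 ln7_13_0_ok))) (B (M (nat_lit 457) (B (L (nat_lit 423) ln11_14_3 ln11_14_3_ok) (L (nat_lit 455) ln7_14_2 ln7_14_2_ok))) (B (M (nat_lit 423) (B (L (nat_lit 425) ln7_13_0 ln7_13_0_ok) (L (nat_lit 457) ln11_14_3 ln11_14_3_ok))) (M (nat_lit 455) (B (L (nat_lit 425) ln11_13_1_c10 ln11_13_1_c10_ok) (L (nat_lit 457) ln7_14_2 ln7_14_2_ok)))))))))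
noncomputable def c10_d274 : Cert := (B (M (nat_lit 424) (B (K (nat_lit 6884616398477521846002240710895301072647623763587147770017871330163742711474072584070751406516052001954188291887831546145253368251837054976) (nat_lit 31658291440154522898614729273717998063840292222401746231508217957859216156347248722270183473352823379373504853037363119160994870844559564759642809002427897353315727338840784896) (nat_lit 31658291440154522898614729273717998063840292222401746231508217957859216156347248722270183473352823379373504853037363119160994870844559564759642809002427897353315727338840784896) c10_s46) (B (K (nat_lit 6884616398477521846002240710895301072647623763587147770017871330163742711474072584070751406516052001954188291887831546145253368251837054976) (nat_lit 36855101844370451335712047112194785425723429411999336838500344703859039446091229485260327639652104207688903022736801917346509829965734467849792136569681731965937516544)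 (nat_lit 36855101844370451335712047112194785425723429411999336838500344703859039446091229485260327639652104207688903022736801917346509829965734467849792136569681731965937516544) c10_s39) (B (M (nat_lit 457) (B (L (nat_lit 455) ln7_14_2 ln7_14_2_ok) (M (nat_lit 488) (B (M (nat_lit 459) (B (L (nat_lit 487) ln11_14_1 ln11_14_1_ok) (M (nat_lit 491) (B (L (nat_lit 492) ln8_14_0 ln8_14_0_ok) (L (nat_lit 523) ln11_16_7 ln11_16_7_ok))))) (M (nat_lit 392) (B (M (nat_lit 391) (B (L (nat_lit 359) ln8_15_7_c10 ln8_15_7_c10_ok) (L (nat_lit 393) ln7_12_0_c10 ln7_12_0_c10_ok))) (M (nat_lit 489) (B (L (nat_lit 360) ln8_11_4_c10 ln8_11_4_c10_ok) (L (nat_lit 521) ln8_12_4_c10 ln8_12_4_c10_ok))))))))) (M (nat_lit 457) (B (L (nat_lit 455) ln7_14_2 ln7_14_2_ok) (M (nat_lit 459) (B (L (nat_lit 423) ln11_14_3 ln11_14_3_ok) (M (nat_lit 491) (B (L (nat_lit 492) ln8_14_0 ln8_14_0_ok) (L (nat_lit 523) ln11_16_7 ln11_16_7_ok)))))))))))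 (B (M (nat_lit 424) (B (K (nat_lit 6884616398477521846002240710895301072647623763587147770017871330163742711474072584070751406516052001954188291887831546145253368251837054976) (nat_lit 31658291440154522898614729273717998063840292222401746231508217957859216156347248722270183473352823379373504853037363119160994870844559564759642809002427897353315727338840784896) (nat_lit 31658291440154522898614729273717998063840292222401746231508217957859216156347248722270183473352823379373504853037363119160994870844559564759642809002427897353315727338840784896) c10_s46) (B (K (nat_lit 6884616398477521846002240710895301072647623763587147770017871330163742711474072584070751406516052001954188291887831546145253368251837054976) (nat_lit 36855101816911260676009585157637160252518566179168642161214047531177276530054571792908045615590006735158469000071503130735071577297405397434031803441861843033733988352) (nat_lit 36855101816911260676009585157637160252518566179168642161214047531177276530054571792908045615590006735158469000071503130735071577297405397434031803441861843033733988352)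 c10_s41) (M (nat_lit 455) (B (L (nat_lit 425) ln11_13_1_c10 ln11_13_1_c10_ok) (L (nat_lit 457) ln7_14_2 ln7_14_2_ok)))))) (B (M (nat_lit 424) (B (K (nat_lit 6884616398477521846002240710895301072647623763587147770017871330163742711474072584070751406516052001954188291887831546145253368251837054976) (nat_lit 31658291440154522898614729273717998063840292222401746231508217957859216156347248722270183473352823379373504853037363119160994870844559564759642809002427897353315727338840784896) (nat_lit 31658291440154522898614729273717998063840292222401746231508217957859216156347248722270183473352823379373504853037363119160994870844559564759642809002427897353315727338840784896) c10_s46) (B (K (nat_lit 6884616398477521846002240710895301072647623763587147770017871330163742711474072584070751406516052001954188291887831546145253368251837054976) (nat_lit 36855101816911260676009585161730715947751424186742433847239289068656984673445674423161978608305448489560708558724001293338412973783433485867395768677775979472603840512)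 (nat_lit 36855101816911260676009585161730715947751424186742433847239289068656984673445674423161978608305448489560708558724001293338412973783433485867395768677775979472603840512) c10_s42) (B (M (nat_lit 392) (B (M (nat_lit 425) (B (L (nat_lit 455) ln11_13_1_c10 ln11_13_1_c10_ok) (L (nat_lit 391) ln11_13_3 ln11_13_3_ok))) (B (M (nat_lit 391) (B (L (nat_lit 425) ln11_13_3 ln11_13_3_ok) (L (nat_lit 393) ln7_12_0_c10 ln7_12_0_c10_ok))) (B (M (nat_lit 455) (B (L (nat_lit 425) ln11_13_1_c10 ln11_13_1_c10_ok) (M (nat_lit 487) (B (L (nat_lit 360) ln8_11_5_c10 ln8_11_5_c10_ok) (M (nat_lit 519) (B (L (nat_lit 551) ln7_17_6_c10 ln7_17_6_c10_ok) (L (nat_lit 488) ln8_12_5_c10 ln8_12_5_c10_ok))))))) (M (nat_lit 393) (B (L (nat_lit 391) ln7_12_0_c10 ln7_12_0_c10_ok) (M (nat_lit 361) (B (L (nat_lit 488) ln8_15_6_c10 ln8_15_6_c10_ok) (M (nat_lit 329) (B (L (nat_lit 360) ln8_14_6_c10 ln8_14_6_c10_ok) (L (nat_lit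 297) ln9_9_4_c10 ln9_9_4_c10_ok))))))))))) (M (nat_lit 425) (B (M (nat_lit 459) (B (L (nat_lit 460) ln8_13_0 ln8_13_0_ok) (L (nat_lit 423) ln7_13_0 ln7_13_0_ok))) (L (nat_lit 455) ln11_13_1_c10 ln11_13_1_c10_ok))))))) (B (M (nat_lit 424) (B (K (nat_lit 6884616398477521846002240710895301072647623763587147770017871330163742711474072584070751406516052001954188291887831546145253368251837054976) (nat_lit 14742040752850735398160090840786020723626780667747093151968383276156211213280874502631355521244110171433956044544951815444162764023990823207129617960638088624933437440) (nat_lit 14742040752850735398160090840786020723626780667747093151968383276156211213280874502631355521244110171433956044544951815444162764023990823207129617960638088624933437440) c10_s44) (B (M (nat_lit 457) (B (L (nat_lit 455) ln7_14_2 ln7_14_2_ok) (M (nat_lit 459) (B (L (nat_lit 423) ln11_14_3 ln11_14_3_ok) (M (nat_lit 491) (B (L (nat_lit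 492) ln8_14_0 ln8_14_0_ok) (L (nat_lit 523) ln11_16_7 ln11_16_7_ok))))))) (B (M (nat_lit 425) (B (M (nat_lit 459) (B (L (nat_lit 460) ln8_13_0 ln8_13_0_ok) (L (nat_lit 423) ln7_13_0 ln7_13_0_ok))) (L (nat_lit 455) ln11_13_1_c10 ln11_13_1_c10_ok))) (M (nat_lit 455) (B (L (nat_lit 425) ln11_13_1_c10 ln11_13_1_c10_ok) (L (nat_lit 457) ln7_14_2 ln7_14_2_ok))))))) (B (M (nat_lit 424) (B (K (nat_lit 6884616398477521846002240710895301072647623763587147770017871330163742711474072584070751406516052001954188291887831546145253368251837054976) (nat_lit 34323988321431406930731992773640098204543615665833649225362863699067176212297587946676466112980129983132512965280164403040562752160125877207599803072222593024) (nat_lit 34323988321431406930731992773640098204543615665833649225362863699067176212297587946676466112980129983132512965280164403040562752160125877207599803072222593024) c10_s45) (B (M (nat_lit 457) (B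 (L (nat_lit 455) ln7_14_2 ln7_14_2_ok) (M (nat_lit 459) (B (L (nat_lit 423) ln11_14_3 ln11_14_3_ok) (M (nat_lit 491) (B (L (nat_lit 492) ln8_14_0 ln8_14_0_ok) (L (nat_lit 523) ln11_16_7 ln11_16_7_ok))))))) (B (M (nat_lit 425) (B (M (nat_lit 459) (B (L (nat_lit 460) ln8_13_0 ln8_13_0_ok) (L (nat_lit 423) ln7_13_0 ln7_13_0_ok))) (L (nat_lit 455) ln11_13_1_c10 ln11_13_1_c10_ok))) (M (nat_lit 455) (B (L (nat_lit 425) ln11_13_1_c10 ln11_13_1_c10_ok) (L (nat_lit 457) ln7_14_2 ln7_14_2_ok))))))) (M (nat_lit 457) (B (L (nat_lit 455) ln7_14_2 ln7_14_2_ok) (M (nat_lit 459) (B (M (nat_lit 491) (B (L (nat_lit 492) ln8_14_0 ln8_14_0_ok) (L (nat_lit 523) ln11_16_7 ln11_16_7_ok))) (M (nat_lit 460) (B (M (nat_lit 488) (B (L (nat_lit 487) ln11_14_1 ln11_14_1_ok) (L (nat_lit 489) ln12_14_1 ln12_14_1_ok))) (L (nat_lit 425) ln13_14_3 ln13_14_3_ok))))))))))))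
noncomputable def c10_d275 : Cert := (B (M (nat_lit 488) (B (M (nat_lit 424) (B (M (nat_lit 392) (B (M (nat_lit 360) (B (M (nat_lit 359) (B (L (nat_lit 327) ln8_14_7_c10 ln8_14_7_c10_ok) (L (nat_lit 391) ln8_15_7_c10 ln8_15_7_c10_ok))) (M (nat_lit 361) (B (L (nat_lit 329) ln8_14_6_c10 ln8_14_6_c10_ok) (L (nat_lit 393) ln8_15_6_c10 ln8_15_6_c10_ok))))) (B (M (nat_lit 393) (B (L (nat_lit 361) ln8_15_6_c10 ln8_15_6_c10_ok) (M (nat_lit 425) (B (L (nat_lit 520) ln8_16_6_c10 ln8_16_6_c10_ok) (L (nat_lit 391) ln7_12_0_c10 ln7_12_0_c10_ok))))) (B (M (nat_lit 360) (B (M (nat_lit 361) (B (L (nat_lit 329) ln8_14_6_c10 ln8_14_6_c10_ok) (L (nat_lit 393) ln8_15_6_c10 ln8_15_6_c10_ok))) (B (M (nat_lit 425) (B (M (nat_lit 457) (B (L (nat_lit 328) ln8_10_4_c10 ln8_10_4_c10_ok) (L (nat_lit 489) ln8_11_4_c10 ln8_11_4_c10_ok))) (M (nat_lit 393) (B (L (nat_lit 361) ln8_15_6_c10 ln8_15_6_c10_ok) (L (nat_lit 520) ln8_16_6_c10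 ln8_16_6_c10_ok))))) (M (nat_lit 328) (B (M (nat_lit 457) (B (L (nat_lit 425) ln8_10_4_c10 ln8_10_4_c10_ok) (L (nat_lit 489) ln8_11_4_c10 ln8_11_4_c10_ok))) (M (nat_lit 296) (B (M (nat_lit 295) (B (L (nat_lit 263) ln8_12_7_c10 ln8_12_7_c10_ok) (L (nat_lit 327) ln8_13_7_c10 ln8_13_7_c10_ok))) (M (nat_lit 297) (B (L (nat_lit 265) ln8_12_6_c10 ln8_12_6_c10_ok) (L (nat_lit 329) ln8_13_6_c10 ln8_13_6_c10_ok)))))))))) (B (M (nat_lit 360) (B (M (nat_lit 359) (B (L (nat_lit 327) ln8_14_7_c10 ln8_14_7_c10_ok) (L (nat_lit 391) ln8_15_7_c10 ln8_15_7_c10_ok))) (M (nat_lit 457) (B (L (nat_lit 489) ln8_11_4_c10 ln8_11_4_c10_ok) (M (nat_lit 425) (B (L (nat_lit 328) ln8_10_4_c10 ln8_10_4_c10_ok) (M (nat_lit 520) (B (L (nat_lit 393) ln8_16_6_c10 ln8_16_6_c10_ok) (L (nat_lit 552) ln8_17_6_c10 ln8_17_6_c10_ok))))))))) (M (nat_lit 360) (B (M (nat_lit 359) (B (L (nat_lit 327) ln8_14_7_c10 ln8_14_7_c10_ok) (L (nat_lit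 391) ln8_15_7_c10 ln8_15_7_c10_ok))) (M (nat_lit 328) (B (M (nat_lit 329) (B (L (nat_lit 297) ln8_13_6_c10 ln8_13_6_c10_ok) (L (nat_lit 361) ln8_14_6_c10 ln8_14_6_c10_ok))) (M (nat_lit 457) (B (L (nat_lit 425) ln8_10_4_c10 ln8_10_4_c10_ok) (L (nat_lit 489) ln8_11_4_c10 ln8_11_4_c10_ok)))))))))))) (B (M (nat_lit 520) (B (M (nat_lit 393) (B (L (nat_lit 361) ln10_15_7 ln10_15_7_ok) (M (nat_lit 391) (B (L (nat_lit 392) ln7_12_0_c10 ln7_12_0_c10_ok) (L (nat_lit 423) ln8_16_7_c10 ln8_16_7_c10_ok))))) (M (nat_lit 491) (B (L (nat_lit 523) ln10_12_4 ln10_12_4_ok) (M (nat_lit 519) (B (L (nat_lit 489) ln11_15_1 ln11_15_1_ok) (L (nat_lit 551) ln8_13_5_c10 ln8_13_5_c10_ok))))))) (M (nat_lit 423) (B (L (nat_lit 425) ln7_13_0 ln7_13_0_ok) (L (nat_lit 457) ln11_14_3 ln11_14_3_ok)))))) (B (K (nat_lit 3995838152777652161960046248011871008627227259987808660508301736492091949787953223837199885029597501102418655962653232535866349751349306769463574528)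 (nat_lit 5148598247095876358438660627546897513952239170979965746462031488901029236778941860765305771926955446296215189226288818704096395571074710004150906524325117952) (nat_lit 5148598247095876358438660627546897513952239170979965746462031488901029236778941860765305771926955446296215189226288818704096395571074710004150906524325117952) c10_s48) (B (M (nat_lit 424) (B (M (nat_lit 457) (B (L (nat_lit 487) ln11_14_1 ln11_14_1_ok) (L (nat_lit 423) ln11_14_3 ln11_14_3_ok))) (B (M (nat_lit 423) (B (L (nat_lit 457) ln11_14_3 ln11_14_3_ok) (L (nat_lit 425) ln7_13_0 ln7_13_0_ok))) (B (M (nat_lit 487) (B (L (nat_lit 457) ln11_14_1 ln11_14_1_ok) (M (nat_lit 519) (B (L (nat_lit 392) ln8_12_5_c10 ln8_12_5_c10_ok) (M (nat_lit 551) (B (L (nat_lit 583) ln7_18_6_c10 ln7_18_6_c10_ok) (L (nat_lit 520) ln8_13_5_c10 ln8_13_5_c10_ok))))))) (M (nat_lit 425) (B (L (nat_lit 423) ln7_13_0 ln7_13_0_ok) (M (nat_lit 393) (B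 (L (nat_lit 520) ln8_16_6_c10 ln8_16_6_c10_ok) (L (nat_lit 361) ln10_15_7 ln10_15_7_ok))))))))) (M (nat_lit 487) (B (L (nat_lit 457) ln11_14_1 ln11_14_1_ok) (L (nat_lit 489) ln7_15_2 ln7_15_2_ok))))))) (B (M (nat_lit 488) (B (M (nat_lit 424) (B (M (nat_lit 393) (B (L (nat_lit 361) ln10_15_7 ln10_15_7_ok) (M (nat_lit 425) (B (L (nat_lit 520) ln8_16_6_c10 ln8_16_6_c10_ok) (L (nat_lit 423) ln7_13_0 ln7_13_0_ok))))) (B (M (nat_lit 423) (B (L (nat_lit 425) ln7_13_0 ln7_13_0_ok) (M (nat_lit 391) (B (L (nat_lit 520) ln8_16_7_c10 ln8_16_7_c10_ok) (M (nat_lit 359) (B (L (nat_lit 327) ln7_10_4_c10 ln7_10_4_c10_ok) (L (nat_lit 455) ln7_11_4_c10 ln7_11_4_c10_ok))))))) (M (nat_lit 392) (B (M (nat_lit 393) (B (L (nat_lit 361) ln8_15_6_c10 ln8_15_6_c10_ok) (L (nat_lit 391) ln7_12_0_c10 ln7_12_0_c10_ok))) (B (M (nat_lit 360) (B (M (nat_lit 361) (B (L (nat_lit 329) ln8_14_6_c10 ln8_14_6_c10_ok) (L (nat_lit 393)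 ln8_15_6_c10 ln8_15_6_c10_ok))) (M (nat_lit 487) (B (L (nat_lit 455) ln8_11_5_c10 ln8_11_5_c10_ok) (L (nat_lit 519) ln8_12_5_c10 ln8_12_5_c10_ok))))) (M (nat_lit 360) (B (M (nat_lit 359) (B (L (nat_lit 327) ln8_14_7_c10 ln8_14_7_c10_ok) (L (nat_lit 391) ln8_15_7_c10 ln8_15_7_c10_ok))) (M (nat_lit 487) (B (L (nat_lit 455) ln8_11_5_c10 ln8_11_5_c10_ok) (L (nat_lit 519) ln8_12_5_c10 ln8_12_5_c10_ok))))))))))) (B (M (nat_lit 424) (B (M (nat_lit 520) (B (M (nat_lit 393) (B (L (nat_lit 361) ln10_15_7 ln10_15_7_ok) (M (nat_lit 391) (B (L (nat_lit 392) ln7_12_0_c10 ln7_12_0_c10_ok) (L (nat_lit 423) ln8_16_7_c10 ln8_16_7_c10_ok))))) (M (nat_lit 491) (B (L (nat_lit 523) ln10_12_4 ln10_12_4_ok) (M (nat_lit 519) (B (L (nat_lit 489) ln11_15_1 ln11_15_1_ok) (L (nat_lit 551) ln8_13_5_c10 ln8_13_5_c10_ok))))))) (B (M (nat_lit 391) (B (M (nat_lit 393) (B (L (nat_lit 361) ln10_15_7 ln10_15_7_ok) (L (nat_lit 392)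 ln7_12_0_c10 ln7_12_0_c10_ok))) (B (M (nat_lit 425) (B (L (nat_lit 423) ln7_13_0 ln7_13_0_ok) (L (nat_lit 392) ln11_13_3 ln11_13_3_ok))) (M (nat_lit 423) (B (M (nat_lit 359) (B (L (nat_lit 327) ln7_10_4_c10 ln7_10_4_c10_ok) (L (nat_lit 455) ln7_11_4_c10 ln7_11_4_c10_ok))) (L (nat_lit 425) ln7_13_0 ln7_13_0_ok)))))) (B (K (nat_lit 3995838152777652162003369211982508740808139981615044343374496065794839083774991967284303342964060401462418256058030413443638087422621237579291295744) (nat_lit 3432398830065304857490950399649004018576442350904524260074496411111255179445787712200812954414101373106251060796313683970145572857795245180131909817048498176) (nat_lit 3432398830065304857490950399649004018576442350904524260074496411111255179445787712200812954414101373106251060796313683970145572857795245180131909817048498176) c10_s47) (M (nat_lit 393) (B (M (nat_lit 425) (B (L (nat_lit 455) ln11_13_1_c10 ln11_13_1_c10_ok)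 (L (nat_lit 520) ln8_16_6_c10 ln8_16_6_c10_ok))) (L (nat_lit 361) ln10_15_7 ln10_15_7_ok))))))) (B (K (nat_lit 3995838152777652161960046248011871008627227259987808660508301736492091949787953223837199885029597501102418655962653232535866349751349306769463574528) (nat_lit 5148598247095876358438660627546897513952239170979965746462031488901029236778941860765305771926955446296215189226288818704096395571074710004150906524325117952) (nat_lit 5148598247095876358438660627546897513952239170979965746462031488901029236778941860765305771926955446296215189226288818704096395571074710004150906524325117952) c10_s48) (M (nat_lit 491) (B (M (nat_lit 489) (B (L (nat_lit 487) ln7_15_2 ln7_15_2_ok) (L (nat_lit 455) ln11_15_3 ln11_15_3_ok))) (L (nat_lit 523) ln10_12_4 ln10_12_4_ok))))))) (B (M (nat_lit 491) (B (M (nat_lit 457) (B (L (nat_lit 455) ln7_14_0 ln7_14_0_ok) (L (nat_lit 492) ln8_14_0 ln8_14_0_ok))) (L (nat_lit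 523) ln10_12_4 ln10_12_4_ok))) (M (nat_lit 424) (B (M (nat_lit 455) (B (L (nat_lit 425) ln11_13_1_c10 ln11_13_1_c10_ok) (L (nat_lit 457) ln7_14_2 ln7_14_2_ok))) (B (M (nat_lit 423) (B (L (nat_lit 425) ln7_13_0 ln7_13_0_ok) (L (nat_lit 457) ln11_14_3 ln11_14_3_ok))) (B (M (nat_lit 457) (B (L (nat_lit 455) ln7_14_2 ln7_14_2_ok) (L (nat_lit 423) ln11_14_3 ln11_14_3_ok))) (M (nat_lit 425) (B (L (nat_lit 455) ln11_13_1_c10 ln11_13_1_c10_ok) (L (nat_lit 423) ln7_13_0 ln7_13_0_ok))))))))))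
noncomputable def c10_d276 : Cert := (B (M (nat_lit 489) (B (M (nat_lit 488) (B (M (nat_lit 459) (B (L (nat_lit 487) ln7_15_2 ln7_15_2_ok) (L (nat_lit 460) ln13_14_1 ln13_14_1_ok))) (B (M (nat_lit 456) (B (M (nat_lit 455) (B (L (nat_lit 491) ln11_15_3 ln11_15_3_ok) (M (nat_lit 454) (B (L (nat_lit 453) ln5_14_0_c10 ln5_14_0_c10_ok) (L (nat_lit 457) ln6_14_0_c10 ln6_14_0_c10_ok))))) (B (M (nat_lit 425) (B (M (nat_lit 393) (B (M (nat_lit 520) (B (L (nat_lit 457) ln9_12_5_c10 ln9_12_5_c10_ok) (L (nat_lit 424) ln8_16_6_c10 ln8_16_6_c10_ok))) (L (nat_lit 361) ln10_15_7 ln10_15_7_ok))) (B (M (nat_lit 455) (B (M (nat_lit 454) (B (L (nat_lit 453) ln5_14_0_c10 ln5_14_0_c10_ok) (L (nat_lit 457) ln6_14_0_c10 ln6_14_0_c10_ok))) (B (L (nat_lit 457) ln7_14_2 ln7_14_2_ok) (M (nat_lit 454) (B (L (nat_lit 453) ln5_14_0_c10 ln5_14_0_c10_ok) (L (nat_lit 424) ln11_13_1_c10 ln11_13_1_c10_ok)))))) (B (M (nat_lit 424)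 (B (M (nat_lit 459) (B (L (nat_lit 423) ln7_13_0 ln7_13_0_ok) (L (nat_lit 460) ln8_13_0 ln8_13_0_ok))) (M (nat_lit 393) (B (L (nat_lit 520) ln8_16_6_c10 ln8_16_6_c10_ok) (L (nat_lit 361) ln10_15_7 ln10_15_7_ok))))) (M (nat_lit 457) (B (M (nat_lit 393) (B (L (nat_lit 520) ln9_12_5_c10 ln9_12_5_c10_ok) (L (nat_lit 361) ln9_11_4 ln9_11_4_ok))) (L (nat_lit 455) ln7_14_2 ln7_14_2_ok))))))) (B (M (nat_lit 455) (B (L (nat_lit 491) ln11_15_3 ln11_15_3_ok) (L (nat_lit 457) ln7_14_2 ln7_14_2_ok))) (B (M (nat_lit 424) (B (M (nat_lit 459) (B (L (nat_lit 460) ln13_14_1 ln13_14_1_ok) (M (nat_lit 423) (B (L (nat_lit 457) ln11_14_3 ln11_14_3_ok) (L (nat_lit 425) ln7_13_0 ln7_13_0_ok))))) (B (M (nat_lit 459) (B (L (nat_lit 460) ln13_14_1 ln13_14_1_ok) (M (nat_lit 520) (B (M (nat_lit 519) (B (L (nat_lit 551) ln8_13_5_c10 ln8_13_5_c10_ok) (L (nat_lit 491) ln11_15_1 ln11_15_1_ok))) (M (nat_lit 425) (B (L (nat_lit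 393) ln8_16_6_c10 ln8_16_6_c10_ok) (L (nat_lit 423) ln7_13_0 ln7_13_0_ok))))))) (B (M (nat_lit 520) (B (M (nat_lit 519) (B (L (nat_lit 551) ln8_13_5_c10 ln8_13_5_c10_ok) (L (nat_lit 491) ln11_15_1 ln11_15_1_ok))) (M (nat_lit 393) (B (L (nat_lit 425) ln8_16_6_c10 ln8_16_6_c10_ok) (L (nat_lit 361) ln10_15_7 ln10_15_7_ok))))) (M (nat_lit 459) (B (L (nat_lit 460) ln13_14_1 ln13_14_1_ok) (M (nat_lit 520) (B (M (nat_lit 519) (B (L (nat_lit 551) ln8_13_5_c10 ln8_13_5_c10_ok) (L (nat_lit 491) ln11_15_1 ln11_15_1_ok))) (M (nat_lit 423) (B (L (nat_lit 391) ln8_16_7_c10 ln8_16_7_c10_ok) (L (nat_lit 457) ln11_14_3 ln11_14_3_ok))))))))))) (M (nat_lit 424) (B (M (nat_lit 455) (B (L (nat_lit 491) ln11_15_3 ln11_15_3_ok) (L (nat_lit 425) ln11_13_1_c10 ln11_13_1_c10_ok))) (B (M (nat_lit 425) (B (M (nat_lit 393) (B (L (nat_lit 520) ln8_16_6_c10 ln8_16_6_c10_ok) (L (nat_lit 361) ln10_15_7 ln10_15_7_ok))) (M (nat_lit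 423) (B (L (nat_lit 459) ln7_13_0 ln7_13_0_ok) (L (nat_lit 455) ln11_13_1_c10 ln11_13_1_c10_ok))))) (B (M (nat_lit 520) (B (M (nat_lit 519) (B (L (nat_lit 551) ln8_13_5_c10 ln8_13_5_c10_ok) (L (nat_lit 491) ln11_15_1 ln11_15_1_ok))) (B (M (nat_lit 491) (B (L (nat_lit 519) ln11_15_1 ln11_15_1_ok) (L (nat_lit 455) ln11_15_3 ln11_15_3_ok))) (B (M (nat_lit 455) (B (L (nat_lit 491) ln11_15_3 ln11_15_3_ok) (M (nat_lit 423) (B (L (nat_lit 552) ln8_17_7_c10 ln8_17_7_c10_ok) (L (nat_lit 391) ln8_16_7_c10 ln8_16_7_c10_ok))))) (M (nat_lit 552) (B (M (nat_lit 551) (B (L (nat_lit 583) ln8_14_5_c10 ln8_14_5_c10_ok) (L (nat_lit 519) ln8_13_5_c10 ln8_13_5_c10_ok))) (M (nat_lit 423) (B (L (nat_lit 455) ln8_17_7_c10 ln8_17_7_c10_ok) (L (nat_lit 391) ln8_16_7_c10 ln8_16_7_c10_ok))))))))) (M (nat_lit 520) (B (M (nat_lit 519) (B (L (nat_lit 551) ln8_13_5_c10 ln8_13_5_c10_ok) (L (nat_lit 491) ln11_15_1 ln11_15_1_ok)))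 (M (nat_lit 393) (B (L (nat_lit 425) ln8_16_6_c10 ln8_16_6_c10_ok) (L (nat_lit 361) ln10_15_7 ln10_15_7_ok)))))))))))))) (M (nat_lit 487) (B (M (nat_lit 486) (B (L (nat_lit 457) ln6_15_2 ln6_15_2_ok) (M (nat_lit 454) (B (L (nat_lit 453) ln9_15_3_c10 ln9_15_3_c10_ok) (L (nat_lit 455) ln10_15_3 ln10_15_3_ok))))) (B (M (nat_lit 491) (B (M (nat_lit 519) (B (L (nat_lit 518) ln10_15_1 ln10_15_1_ok) (L (nat_lit 520) ln11_15_1 ln11_15_1_ok))) (M (nat_lit 455) (B (L (nat_lit 454) ln10_15_3 ln10_15_3_ok) (L (nat_lit 456) ln11_15_3 ln11_15_3_ok))))) (M (nat_lit 486) (B (L (nat_lit 457) ln6_15_2 ln6_15_2_ok) (M (nat_lit 518) (B (L (nat_lit 517) ln9_15_1_c10 ln9_15_1_c10_ok) (L (nat_lit 519) ln10_15_1 ln10_15_1_ok))))))))))) (L (nat_lit 521) ln10_12_5 ln10_12_5_ok))) (B (M (nat_lit 459) (B (M (nat_lit 522) (B (M (nat_lit 393) (B (L (nat_lit 361) ln10_15_7 ln10_15_7_ok) (L (nat_lit 425) ln10_16_7 ln10_16_7_ok)))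 (L (nat_lit 554) ln10_17_6 ln10_17_6_ok))) (B (M (nat_lit 425) (B (M (nat_lit 393) (B (L (nat_lit 522) ln10_16_7 ln10_16_7_ok) (L (nat_lit 361) ln10_15_7 ln10_15_7_ok))) (M (nat_lit 424) (B (L (nat_lit 423) ln7_13_0 ln7_13_0_ok) (L (nat_lit 460) ln8_13_0 ln8_13_0_ok))))) (M (nat_lit 460) (B (L (nat_lit 462) ln14_14_3 ln14_14_3_ok) (L (nat_lit 489) ln13_14_1 ln13_14_1_ok)))))) (B (K (nat_lit 3196670522222121729949279081359178380981623688314786350864776743939443365737900305273132707301799375640991706543576287293794394018587783578725122048) (nat_lit 2719426524108279704376686837749502842944632472400678354485824662152860981448497409736177972407364616524510268891999188936396640433927497029923851165438702969164465366610923784829881286656) (nat_lit 2719426524108279704376686837749502842944632472400678354485824662152860981448497409736177972407364616524510268891999188936396640433927497029923851165438702969164465366610923784829881286656)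 c10_s50) (B (M (nat_lit 522) (B (M (nat_lit 393) (B (L (nat_lit 361) ln10_15_7 ln10_15_7_ok) (L (nat_lit 425) ln10_16_7 ln10_16_7_ok))) (B (M (nat_lit 554) (B (L (nat_lit 459) ln10_17_6 ln10_17_6_ok) (M (nat_lit 425) (B (L (nat_lit 393) ln10_16_7 ln10_16_7_ok) (L (nat_lit 457) ln10_17_7 ln10_17_7_ok))))) (M (nat_lit 554) (B (L (nat_lit 459) ln10_17_6 ln10_17_6_ok) (M (nat_lit 553) (B (L (nat_lit 521) ln10_13_5 ln10_13_5_ok) (L (nat_lit 585) ln10_14_5 ln10_14_5_ok)))))))) (M (nat_lit 522) (B (M (nat_lit 393) (B (L (nat_lit 361) ln10_15_7 ln10_15_7_ok) (L (nat_lit 425) ln10_16_7 ln10_16_7_ok))) (M (nat_lit 521) (B (L (nat_lit 489) ln10_12_5 ln10_12_5_ok) (L (nat_lit 553) ln10_13_5 ln10_13_5_ok)))))))))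
noncomputable def c10_d277 : Cert := (B (M (nat_lit 522) (B (M (nat_lit 553) (B (L (nat_lit 521) ln10_13_5 ln10_13_5_ok) (M (nat_lit 554) (B (L (nat_lit 585) ln10_14_5 ln10_14_5_ok) (M (nat_lit 555) (B (L (nat_lit 587) ln10_14_4 ln10_14_4_ok) (L (nat_lit 523) ln10_13_4 ln10_13_4_ok))))))) (B (M (nat_lit 554) (B (M (nat_lit 553) (B (L (nat_lit 585) ln10_14_5 ln10_14_5_ok) (L (nat_lit 521) ln10_13_5 ln10_13_5_ok))) (M (nat_lit 425) (B (L (nat_lit 457) ln10_17_7 ln10_17_7_ok) (L (nat_lit 393) ln10_16_7 ln10_16_7_ok))))) (B (M (nat_lit 521) (B (L (nat_lit 553) ln10_13_5 ln10_13_5_ok) (M (nat_lit 520) (B (M (nat_lit 519) (B (L (nat_lit 491) ln7_16_2 ln7_16_2_ok) (M (nat_lit 518) (B (L (nat_lit 489) ln6_16_2_c10 ln6_16_2_c10_ok) (M (nat_lit 550) (B (L (nat_lit 551) ln10_16_1_c10 ln10_16_1_c10_ok) (L (nat_lit 549) ln9_16_1_c10 ln9_16_1_c10_ok))))))) (B (M (nat_lit 519) (B (M (nat_lit 523) (B (L (nat_lit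 555) ln10_13_4 ln10_13_4_ok) (M (nat_lit 551) (B (L (nat_lit 552) ln11_16_1 ln11_16_1_ok) (L (nat_lit 550) ln10_16_1_c10 ln10_16_1_c10_ok))))) (B (M (nat_lit 518) (B (L (nat_lit 489) ln6_16_2_c10 ln6_16_2_c10_ok) (M (nat_lit 550) (B (L (nat_lit 551) ln10_16_1_c10 ln10_16_1_c10_ok) (L (nat_lit 549) ln9_16_1_c10 ln9_16_1_c10_ok))))) (M (nat_lit 523) (B (L (nat_lit 555) ln10_13_4 ln10_13_4_ok) (M (nat_lit 487) (B (L (nat_lit 488) ln11_16_3_c10 ln11_16_3_c10_ok) (L (nat_lit 486) ln10_16_3_c10 ln10_16_3_c10_ok)))))))) (B (M (nat_lit 519) (B (L (nat_lit 491) ln7_16_2 ln7_16_2_ok) (M (nat_lit 523) (B (L (nat_lit 555) ln10_13_4 ln10_13_4_ok) (M (nat_lit 487) (B (L (nat_lit 488) ln11_16_3_c10 ln11_16_3_c10_ok) (L (nat_lit 486) ln10_16_3_c10 ln10_16_3_c10_ok))))))) (M (nat_lit 523) (B (L (nat_lit 555) ln10_13_4 ln10_13_4_ok) (M (nat_lit 489) (B (M (nat_lit 488) (B (L (nat_lit 524) ln12_16_3 ln12_16_3_ok)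 (L (nat_lit 487) ln7_15_0 ln7_15_0_ok))) (M (nat_lit 425) (B (L (nat_lit 393) ln10_16_7 ln10_16_7_ok) (M (nat_lit 552) (B (L (nat_lit 551) ln11_16_1 ln11_16_1_ok) (L (nat_lit 457) ln9_13_5_c10 ln9_13_5_c10_ok))))))))))))))) (M (nat_lit 554) (B (M (nat_lit 555) (B (L (nat_lit 587) ln10_14_4 ln10_14_4_ok) (L (nat_lit 523) ln10_13_4 ln10_13_4_ok))) (M (nat_lit 425) (B (L (nat_lit 457) ln10_17_7 ln10_17_7_ok) (L (nat_lit 393) ln10_16_7 ln10_16_7_ok))))))))) (B (M (nat_lit 394) (B (K (nat_lit 3196670522222121729949279081359178380981623688314786350864776743939443365737900305273132707301799375640991706543576287293794394018587783578725122048) (nat_lit 40330686275444233780661631435554099731023545358914127556475755121595591534352092272226745552141668700538322858575989581227724038480280014950360448112577740800) (nat_lit 40330686275444233780661631435554099731023545358914127556475755121595591534352092272226745552141668700538322858575989581227724038480280014950360448112577740800)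 c10_s51) (M (nat_lit 362) (B (M (nat_lit 361) (B (L (nat_lit 393) ln10_15_7 ln10_15_7_ok) (L (nat_lit 329) ln10_14_7 ln10_14_7_ok))) (L (nat_lit 331) ln10_14_6 ln10_14_6_ok))))) (B (M (nat_lit 394) (B (M (nat_lit 362) (B (M (nat_lit 361) (B (L (nat_lit 329) ln10_14_7 ln10_14_7_ok) (L (nat_lit 393) ln10_15_7 ln10_15_7_ok))) (M (nat_lit 489) (B (L (nat_lit 457) ln10_11_5 ln10_11_5_ok) (L (nat_lit 521) ln10_12_5 ln10_12_5_ok))))) (B (M (nat_lit 522) (B (M (nat_lit 393) (B (L (nat_lit 361) ln10_15_7 ln10_15_7_ok) (L (nat_lit 425) ln10_16_7 ln10_16_7_ok))) (M (nat_lit 521) (B (L (nat_lit 489) ln10_12_5 ln10_12_5_ok) (L (nat_lit 553) ln10_13_5 ln10_13_5_ok))))) (B (M (nat_lit 522) (B (M (nat_lit 521) (B (L (nat_lit 489) ln10_12_5 ln10_12_5_ok) (L (nat_lit 553) ln10_13_5 ln10_13_5_ok))) (B (M (nat_lit 554) (B (M (nat_lit 425) (B (L (nat_lit 393) ln10_16_7 ln10_16_7_ok) (L (nat_lit 457) ln10_17_7 ln10_17_7_ok)))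 (M (nat_lit 553) (B (L (nat_lit 521) ln10_13_5 ln10_13_5_ok) (L (nat_lit 585) ln10_14_5 ln10_14_5_ok))))) (M (nat_lit 425) (B (L (nat_lit 393) ln10_16_7 ln10_16_7_ok) (M (nat_lit 457) (B (L (nat_lit 554) ln10_17_7 ln10_17_7_ok) (M (nat_lit 362) (B (L (nat_lit 330) ln10_10_5 ln10_10_5_ok) (L (nat_lit 489) ln10_11_5 ln10_11_5_ok)))))))))) (B (M (nat_lit 362) (B (M (nat_lit 489) (B (L (nat_lit 457) ln10_11_5 ln10_11_5_ok) (L (nat_lit 521) ln10_12_5 ln10_12_5_ok))) (M (nat_lit 330) (B (M (nat_lit 329) (B (L (nat_lit 297) ln10_13_7_c10 ln10_13_7_c10_ok) (L (nat_lit 361) ln10_14_7 ln10_14_7_ok))) (L (nat_lit 331) ln10_14_6 ln10_14_6_ok))))) (M (nat_lit 362) (B (M (nat_lit 361) (B (L (nat_lit 329) ln10_14_7 ln10_14_7_ok) (L (nat_lit 393) ln10_15_7 ln10_15_7_ok))) (B (M (nat_lit 393) (B (L (nat_lit 361) ln10_15_7 ln10_15_7_ok) (M (nat_lit 425) (B (L (nat_lit 522) ln10_16_7 ln10_16_7_ok) (M (nat_lit 330)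 (B (L (nat_lit 298) ln10_9_5_c10 ln10_9_5_c10_ok) (L (nat_lit 457) ln10_10_5 ln10_10_5_ok))))))) (B (M (nat_lit 330) (B (L (nat_lit 331) ln10_14_6 ln10_14_6_ok) (M (nat_lit 425) (B (L (nat_lit 457) ln10_10_5 ln10_10_5_ok) (M (nat_lit 393) (B (L (nat_lit 298) ln10_9_5_c10 ln10_9_5_c10_ok) (L (nat_lit 522) ln10_16_7 ln10_16_7_ok))))))) (M (nat_lit 330) (B (M (nat_lit 329) (B (L (nat_lit 297) ln10_13_7_c10 ln10_13_7_c10_ok) (L (nat_lit 361) ln10_14_7 ln10_14_7_ok))) (L (nat_lit 331) ln10_14_6 ln10_14_6_ok)))))))))))) (B (M (nat_lit 394) (B (M (nat_lit 362) (B (L (nat_lit 331) ln10_14_6 ln10_14_6_ok) (M (nat_lit 330) (B (M (nat_lit 457) (B (L (nat_lit 489) ln10_11_5 ln10_11_5_ok) (L (nat_lit 425) ln10_10_5 ln10_10_5_ok))) (M (nat_lit 329) (B (L (nat_lit 361) ln10_14_7 ln10_14_7_ok) (L (nat_lit 297) ln10_13_7_c10 ln10_13_7_c10_ok))))))) (B (M (nat_lit 362) (B (L (nat_lit 331) ln10_14_6 ln10_14_6_ok)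 (M (nat_lit 457) (B (L (nat_lit 489) ln10_11_5 ln10_11_5_ok) (M (nat_lit 425) (B (L (nat_lit 330) ln10_10_5 ln10_10_5_ok) (M (nat_lit 522) (B (L (nat_lit 393) ln10_16_7 ln10_16_7_ok) (L (nat_lit 554) ln10_17_7 ln10_17_7_ok))))))))) (B (M (nat_lit 522) (B (M (nat_lit 393) (B (L (nat_lit 361) ln10_15_7 ln10_15_7_ok) (L (nat_lit 425) ln10_16_7 ln10_16_7_ok))) (M (nat_lit 523) (B (L (nat_lit 491) ln10_12_4 ln10_12_4_ok) (L (nat_lit 555) ln10_13_4 ln10_13_4_ok))))) (M (nat_lit 362) (B (M (nat_lit 361) (B (L (nat_lit 393) ln10_15_7 ln10_15_7_ok) (L (nat_lit 329) ln10_14_7 ln10_14_7_ok))) (L (nat_lit 331) ln10_14_6 ln10_14_6_ok))))))) (B (K (nat_lit 3196670522222121729949279081318830726636515741601412613802229683403041712724943687885153654855851756546978562877488078648792240402401796516650942464) (nat_lit 633165827977536177350368080138314431674024807781486699724991011955339787949422400482542877859806402546012801268749989123171769621726708784969651236574326293236501603585515061248)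 (nat_lit 633165827977536177350368080138314431674024807781486699724991011955339787949422400482542877859806402546012801268749989123171769621726708784969651236574326293236501603585515061248) c10_s35) (M (nat_lit 522) (B (M (nat_lit 523) (B (L (nat_lit 555) ln10_13_4 ln10_13_4_ok) (M (nat_lit 394) (B (L (nat_lit 491) ln10_12_4 ln10_12_4_ok) (M (nat_lit 521) (B (L (nat_lit 553) ln10_13_5 ln10_13_5_ok) (L (nat_lit 489) ln10_12_5 ln10_12_5_ok))))))) (B (M (nat_lit 394) (B (M (nat_lit 523) (B (L (nat_lit 555) ln10_13_4 ln10_13_4_ok) (L (nat_lit 491) ln10_12_4 ln10_12_4_ok))) (M (nat_lit 393) (B (L (nat_lit 425) ln10_16_7 ln10_16_7_ok) (L (nat_lit 361) ln10_15_7 ln10_15_7_ok))))) (B (M (nat_lit 394) (B (M (nat_lit 521) (B (L (nat_lit 553) ln10_13_5 ln10_13_5_ok) (L (nat_lit 489) ln10_12_5 ln10_12_5_ok))) (M (nat_lit 393) (B (L (nat_lit 425) ln10_16_7 ln10_16_7_ok) (L (nat_lit 361) ln10_15_7 ln10_15_7_ok)))))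 (M (nat_lit 554) (B (M (nat_lit 553) (B (L (nat_lit 585) ln10_14_5 ln10_14_5_ok) (L (nat_lit 521) ln10_13_5 ln10_13_5_ok))) (M (nat_lit 555) (B (L (nat_lit 587) ln10_14_4 ln10_14_4_ok) (L (nat_lit 523) ln10_13_4 ln10_13_4_ok))))))))))))))
noncomputable def c10_d278 : Cert := (B (M (nat_lit 394) (B (M (nat_lit 490) (B (K (nat_lit 3196670522222121729949279081359178380981623688314786350864776743939443365737900305273132707301799375640991706543576287293794394018587783578725122048) (nat_lit 40330686275444233780661631435554099731023545358914127556475755121595591534352092272226745552141668700538322858575989581227724038480280014950360448112577740800) (nat_lit 40330686275444233780661631435554099731023545358914127556475755121595591534352092272226745552141668700538322858575989581227724038480280014950360448112577740800) c10_s51) (B (M (nat_lit 459) (B (M (nat_lit 522) (B (M (nat_lit 523) (B (L (nat_lit 555)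 ln10_13_4 ln10_13_4_ok) (L (nat_lit 491) ln10_12_4 ln10_12_4_ok))) (B (M (nat_lit 491) (B (L (nat_lit 523) ln10_12_4 ln10_12_4_ok) (L (nat_lit 554) ln10_17_6 ln10_17_6_ok))) (L (nat_lit 554) ln10_17_6 ln10_17_6_ok)))) (M (nat_lit 460) (B (L (nat_lit 462) ln14_14_3 ln14_14_3_ok) (L (nat_lit 489) ln13_14_1 ln13_14_1_ok))))) (B (K (nat_lit 3196670522222121729949279081359178380981623688314786350864776743939443365737900305273132707301799375640991706543576287293794394018587783578725122048) (nat_lit 2719426524108279704376686837749502842944632472400678354485824662152860981448497409736177972407364616524510268891999188936396640433927497029923851165438702969164465366610923784829881286656) (nat_lit 2719426524108279704376686837749502842944632472400678354485824662152860981448497409736177972407364616524510268891999188936396640433927497029923851165438702969164465366610923784829881286656) c10_s50) (M (nat_lit 522)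 (B (M (nat_lit 523) (B (L (nat_lit 491) ln10_12_4 ln10_12_4_ok) (L (nat_lit 555) ln10_13_4 ln10_13_4_ok))) (M (nat_lit 553) (B (L (nat_lit 521) ln10_13_5 ln10_13_5_ok) (M (nat_lit 554) (B (L (nat_lit 585) ln10_14_5 ln10_14_5_ok) (L (nat_lit 459) ln10_17_6 ln10_17_6_ok))))))))))) (B (M (nat_lit 362) (B (L (nat_lit 331) ln10_14_6 ln10_14_6_ok) (M (nat_lit 490) (B (M (nat_lit 361) (B (L (nat_lit 329) ln10_14_7 ln10_14_7_ok) (L (nat_lit 393) ln10_15_7 ln10_15_7_ok))) (M (nat_lit 489) (B (L (nat_lit 457) ln10_11_5 ln10_11_5_ok) (L (nat_lit 521) ln10_12_5 ln10_12_5_ok))))))) (M (nat_lit 362) (B (M (nat_lit 459) (B (L (nat_lit 330) ln10_10_4 ln10_10_4_ok) (L (nat_lit 491) ln10_11_4 ln10_11_4_ok))) (L (nat_lit 331) ln10_14_6 ln10_14_6_ok)))))) (B (K (nat_lit 6698545685014523518010628429549951243512482155322452956746661052173503692881960205318835978079315785409167696803853513306810592363009802240) (nat_lit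 886432159085995220399084503476962510213666421772890594079476702491163345396389443606466886303635252257621947685705302404608403581441023823773810562762271180719933708297270460416) (nat_lit 886432159085995220399084503476962510213666421772890594079476702491163345396389443606466886303635252257621947685705302404608403581441023823773810562762271180719933708297270460416) c10_s54) (B (M (nat_lit 459) (B (M (nat_lit 394) (B (M (nat_lit 362) (B (L (nat_lit 330) ln10_10_4 ln10_10_4_ok) (L (nat_lit 491) ln10_11_4 ln10_11_4_ok))) (B (M (nat_lit 491) (B (L (nat_lit 362) ln10_11_4 ln10_11_4_ok) (L (nat_lit 523) ln11_16_7 ln11_16_7_ok))) (B (M (nat_lit 490) (B (M (nat_lit 522) (B (L (nat_lit 554) ln10_17_6 ln10_17_6_ok) (M (nat_lit 521) (B (L (nat_lit 489) ln10_12_5 ln10_12_5_ok) (L (nat_lit 553) ln10_13_5 ln10_13_5_ok))))) (B (M (nat_lit 522) (B (L (nat_lit 554) ln10_17_6 ln10_17_6_ok) (M (nat_lit 393) (B (L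 (nat_lit 361) ln10_15_7 ln10_15_7_ok) (L (nat_lit 425) ln10_16_7 ln10_16_7_ok))))) (M (nat_lit 489) (B (L (nat_lit 521) ln10_12_5 ln10_12_5_ok) (M (nat_lit 393) (B (L (nat_lit 361) ln10_15_7 ln10_15_7_ok) (M (nat_lit 457) (B (M (nat_lit 491) (B (L (nat_lit 523) ln10_12_4 ln10_12_4_ok) (M (nat_lit 456) (B (L (nat_lit 455) ln7_14_0 ln7_14_0_ok) (L (nat_lit 492) ln8_14_0 ln8_14_0_ok))))) (M (nat_lit 425) (B (M (nat_lit 392) (B (L (nat_lit 360) ln9_15_7 ln9_15_7_ok) (L (nat_lit 391) ln7_12_0_c10 ln7_12_0_c10_ok))) (M (nat_lit 488) (B (L (nat_lit 520) ln9_12_5_c10 ln9_12_5_c10_ok) (L (nat_lit 487) ln7_15_2 ln7_15_2_ok)))))))))))))) (M (nat_lit 362) (B (L (nat_lit 330) ln10_10_4 ln10_10_4_ok) (M (nat_lit 490) (B (M (nat_lit 361) (B (L (nat_lit 329) ln10_14_7 ln10_14_7_ok) (L (nat_lit 393) ln10_15_7 ln10_15_7_ok))) (M (nat_lit 489) (B (L (nat_lit 457) ln10_11_5 ln10_11_5_ok) (L (nat_lit 521) ln10_12_5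 ln10_12_5_ok))))))))))) (B (M (nat_lit 394) (B (M (nat_lit 460) (B (M (nat_lit 457) (B (M (nat_lit 491) (B (L (nat_lit 523) ln11_16_7 ln11_16_7_ok) (M (nat_lit 456) (B (L (nat_lit 455) ln7_14_2 ln7_14_2_ok) (L (nat_lit 492) ln8_14_0 ln8_14_0_ok))))) (M (nat_lit 489) (B (L (nat_lit 488) ln12_14_1 ln12_14_1_ok) (M (nat_lit 521) (B (L (nat_lit 553) ln9_17_6 ln9_17_6_ok) (L (nat_lit 490) ln10_12_5 ln10_12_5_ok))))))) (L (nat_lit 462) ln14_14_3 ln14_14_3_ok))) (M (nat_lit 362) (B (L (nat_lit 331) ln10_14_6 ln10_14_6_ok) (L (nat_lit 330) ln10_10_4 ln10_10_4_ok))))) (M (nat_lit 460) (B (L (nat_lit 462) ln14_14_3 ln14_14_3_ok) (L (nat_lit 425) ln13_14_3 ln13_14_3_ok)))))) (M (nat_lit 394) (B (M (nat_lit 490) (B (M (nat_lit 522) (B (M (nat_lit 393) (B (L (nat_lit 425) ln10_16_7 ln10_16_7_ok) (L (nat_lit 361) ln10_15_7 ln10_15_7_ok))) (M (nat_lit 554) (B (L (nat_lit 459) ln10_17_6 ln10_17_6_ok) (M (nat_lit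 555) (B (L (nat_lit 587) ln10_14_4 ln10_14_4_ok) (L (nat_lit 523) ln10_13_4 ln10_13_4_ok))))))) (B (M (nat_lit 522) (B (M (nat_lit 393) (B (L (nat_lit 361) ln10_15_7 ln10_15_7_ok) (L (nat_lit 425) ln10_16_7 ln10_16_7_ok))) (M (nat_lit 521) (B (L (nat_lit 489) ln10_12_5 ln10_12_5_ok) (L (nat_lit 553) ln10_13_5 ln10_13_5_ok))))) (M (nat_lit 489) (B (M (nat_lit 460) (B (M (nat_lit 491) (B (L (nat_lit 523) ln10_12_4 ln10_12_4_ok) (L (nat_lit 492) ln9_15_2 ln9_15_2_ok))) (L (nat_lit 459) ln13_14_1 ln13_14_1_ok))) (L (nat_lit 521) ln10_12_5 ln10_12_5_ok)))))) (B (M (nat_lit 490) (B (M (nat_lit 362) (B (L (nat_lit 331) ln10_14_6 ln10_14_6_ok) (M (nat_lit 361) (B (L (nat_lit 329) ln10_14_7 ln10_14_7_ok) (L (nat_lit 393) ln10_15_7 ln10_15_7_ok))))) (M (nat_lit 522) (B (M (nat_lit 521) (B (L (nat_lit 489) ln10_12_5 ln10_12_5_ok) (L (nat_lit 553) ln10_13_5 ln10_13_5_ok))) (M (nat_lit 523) (B (L (nat_lit 491)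 ln10_12_4 ln10_12_4_ok) (L (nat_lit 555) ln10_13_4 ln10_13_4_ok))))))) (M (nat_lit 459) (B (M (nat_lit 460) (B (L (nat_lit 425) ln13_14_3 ln13_14_3_ok) (L (nat_lit 462) ln14_14_3 ln14_14_3_ok))) (M (nat_lit 362) (B (L (nat_lit 331) ln10_14_6 ln10_14_6_ok) (L (nat_lit 330) ln10_10_4 ln10_10_4_ok)))))))))))
noncomputable def c10_d279 : Cert := (B (M (nat_lit 459) (B (M (nat_lit 394) (B (M (nat_lit 490) (B (M (nat_lit 456) c10_d275) (B (M (nat_lit 522) (B (M (nat_lit 393) (B (L (nat_lit 361) ln10_15_7 ln10_15_7_ok) (L (nat_lit 425) ln10_16_7 ln10_16_7_ok))) (L (nat_lit 554) ln10_17_6 ln10_17_6_ok))) (M (nat_lit 522) (B (M (nat_lit 523) (B (L (nat_lit 555) ln10_13_4 ln10_13_4_ok) (L (nat_lit 491) ln10_12_4 ln10_12_4_ok))) (B (M (nat_lit 491) (B (L (nat_lit 523) ln10_12_4 ln10_12_4_ok) (L (nat_lit 554) ln10_17_6 ln10_17_6_ok))) (L (nat_lit 554) ln10_17_6 ln10_17_6_ok))))))) (M (nat_lit 362) (B (L (nat_lit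 331) ln10_14_6 ln10_14_6_ok) (L (nat_lit 330) ln10_10_4 ln10_10_4_ok))))) (B (M (nat_lit 394) (B (M (nat_lit 490) (B (M (nat_lit 522) (B (M (nat_lit 523) (B (L (nat_lit 555) ln10_13_4 ln10_13_4_ok) (L (nat_lit 491) ln10_12_4 ln10_12_4_ok))) (B (M (nat_lit 491) (B (L (nat_lit 523) ln10_12_4 ln10_12_4_ok) (L (nat_lit 554) ln10_17_6 ln10_17_6_ok))) (L (nat_lit 554) ln10_17_6 ln10_17_6_ok)))) (M (nat_lit 460) (B (L (nat_lit 462) ln14_14_3 ln14_14_3_ok) (L (nat_lit 489) ln13_14_1 ln13_14_1_ok))))) (M (nat_lit 362) (B (L (nat_lit 331) ln10_14_6 ln10_14_6_ok) (L (nat_lit 330) ln10_10_4 ln10_10_4_ok))))) (M (nat_lit 460) (B (L (nat_lit 462) ln14_14_3 ln14_14_3_ok) (L (nat_lit 425) ln13_14_3 ln13_14_3_ok)))))) (B (K (nat_lit 6698545685014523518010628429549951243512482155322452956746661052173503692881960205318835978079315785409167696803853513306810592363009802240) (nat_lit 339928315513534963489347076483866596341084467418454578269320664770567070482755564416848752595021558499956494026184618144422360856285425570702412354471880872233238240750619328606355062784)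 (nat_lit 339928315513534963489347076483866596341084467418454578269320664770567070482755564416848752595021558499956494026184618144422360856285425570702412354471880872233238240750619328606355062784) c10_s49) (B (M (nat_lit 394) (B (M (nat_lit 490) c10_d276) (B (M (nat_lit 362) (B (L (nat_lit 331) ln10_14_6 ln10_14_6_ok) (M (nat_lit 330) (B (M (nat_lit 457) (B (L (nat_lit 489) ln10_11_5 ln10_11_5_ok) (L (nat_lit 425) ln10_10_5 ln10_10_5_ok))) (M (nat_lit 329) (B (L (nat_lit 361) ln10_14_7 ln10_14_7_ok) (L (nat_lit 297) ln10_13_7_c10 ln10_13_7_c10_ok))))))) (M (nat_lit 362) (B (M (nat_lit 459) (B (L (nat_lit 330) ln10_10_4 ln10_10_4_ok) (L (nat_lit 491) ln10_11_4 ln10_11_4_ok))) (L (nat_lit 331) ln10_14_6 ln10_14_6_ok)))))) (B (M (nat_lit 490) (B (M (nat_lit 489) (B (M (nat_lit 521) (B (L (nat_lit 394) ln10_12_5 ln10_12_5_ok) (M (nat_lit 553) (B (L (nat_lit 522) ln10_13_5 ln10_13_5_ok) (L (nat_lit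 585) ln9_18_6 ln9_18_6_ok))))) (B (M (nat_lit 521) (B (L (nat_lit 394) ln10_12_5 ln10_12_5_ok) (M (nat_lit 553) (B (L (nat_lit 585) ln9_18_6 ln9_18_6_ok) (L (nat_lit 457) ln9_17_6 ln9_17_6_ok))))) (B (M (nat_lit 491) (B (M (nat_lit 492) (B (L (nat_lit 460) ln9_15_2 ln9_15_2_ok) (M (nat_lit 521) (B (L (nat_lit 520) ln12_15_1 ln12_15_1_ok) (M (nat_lit 553) (B (L (nat_lit 522) ln10_13_5 ln10_13_5_ok) (L (nat_lit 585) ln9_18_6 ln9_18_6_ok))))))) (B (M (nat_lit 488) (B (M (nat_lit 523) (B (L (nat_lit 524) ln8_15_0 ln8_15_0_ok) (M (nat_lit 555) (B (L (nat_lit 587) ln11_18_7 ln11_18_7_ok) (L (nat_lit 522) ln10_13_4 ln10_13_4_ok))))) (M (nat_lit 487) (B (M (nat_lit 519) (B (L (nat_lit 520) ln11_15_1 ln11_15_1_ok) (L (nat_lit 518) ln10_15_1 ln10_15_1_ok))) (M (nat_lit 455) (B (L (nat_lit 456) ln11_15_3 ln11_15_3_ok) (L (nat_lit 454) ln10_15_3 ln10_15_3_ok))))))) (B (M (nat_lit 521) (B (M (nat_lit 492) (B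 (L (nat_lit 460) ln9_15_2 ln9_15_2_ok) (L (nat_lit 520) ln12_15_1 ln12_15_1_ok))) (M (nat_lit 553) (B (L (nat_lit 585) ln9_18_6 ln9_18_6_ok) (L (nat_lit 457) ln9_17_6 ln9_17_6_ok))))) (M (nat_lit 492) (B (L (nat_lit 460) ln9_15_2 ln9_15_2_ok) (M (nat_lit 523) (B (M (nat_lit 524) (B (L (nat_lit 525) ln9_15_0 ln9_15_0_ok) (L (nat_lit 488) ln8_15_0 ln8_15_0_ok))) (M (nat_lit 555) (B (L (nat_lit 587) ln11_18_7 ln11_18_7_ok) (L (nat_lit 522) ln10_13_4 ln10_13_4_ok))))))))))) (B (M (nat_lit 521) (B (L (nat_lit 394) ln10_12_5 ln10_12_5_ok) (M (nat_lit 553) (B (L (nat_lit 522) ln10_13_5 ln10_13_5_ok) (L (nat_lit 457) ln9_17_6 ln9_17_6_ok))))) (B (M (nat_lit 394) (B (L (nat_lit 521) ln10_12_5 ln10_12_5_ok) (M (nat_lit 457) (B (L (nat_lit 362) ln10_11_5 ln10_11_5_ok) (M (nat_lit 491) (B (L (nat_lit 523) ln10_12_4 ln10_12_4_ok) (M (nat_lit 492) (B (L (nat_lit 460) ln9_15_2 ln9_15_2_ok) (L (nat_lit 456) ln12_15_3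 ln12_15_3_ok))))))))) (M (nat_lit 491) (B (M (nat_lit 523) (B (L (nat_lit 394) ln10_12_4 ln10_12_4_ok) (M (nat_lit 555) (B (L (nat_lit 587) ln11_18_7 ln11_18_7_ok) (L (nat_lit 522) ln10_13_4 ln10_13_4_ok))))) (B (M (nat_lit 488) (B (M (nat_lit 456) (B (L (nat_lit 455) ln11_15_3 ln11_15_3_ok) (M (nat_lit 492) (B (L (nat_lit 460) ln9_15_2 ln9_15_2_ok) (L (nat_lit 457) ln12_15_3 ln12_15_3_ok))))) (M (nat_lit 523) (B (L (nat_lit 394) ln10_12_4 ln10_12_4_ok) (M (nat_lit 522) (B (L (nat_lit 555) ln10_13_4 ln10_13_4_ok) (L (nat_lit 487) ln7_15_0 ln7_15_0_ok))))))) (B (M (nat_lit 488) (B (M (nat_lit 456) (B (L (nat_lit 455) ln11_15_3 ln11_15_3_ok) (M (nat_lit 492) (B (L (nat_lit 460) ln9_15_2 ln9_15_2_ok) (L (nat_lit 457) ln12_15_3 ln12_15_3_ok))))) (M (nat_lit 487) (B (M (nat_lit 523) (B (L (nat_lit 394) ln10_12_4 ln10_12_4_ok) (L (nat_lit 522) ln7_15_0 ln7_15_0_ok))) (M (nat_lit 519) (B (L (nat_lit 520)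 ln11_15_1 ln11_15_1_ok) (L (nat_lit 518) ln10_15_1 ln10_15_1_ok))))))) (M (nat_lit 488) (B (M (nat_lit 456) (B (L (nat_lit 455) ln11_15_3 ln11_15_3_ok) (M (nat_lit 492) (B (L (nat_lit 460) ln9_15_2 ln9_15_2_ok) (L (nat_lit 457) ln12_15_3 ln12_15_3_ok))))) (B (M (nat_lit 487) (B (M (nat_lit 519) (B (L (nat_lit 520) ln11_15_1 ln11_15_1_ok) (L (nat_lit 518) ln10_15_1 ln10_15_1_ok))) (M (nat_lit 455) (B (L (nat_lit 456) ln11_15_3 ln11_15_3_ok) (L (nat_lit 454) ln10_15_3 ln10_15_3_ok))))) (B (M (nat_lit 487) (B (M (nat_lit 519) (B (L (nat_lit 520) ln11_15_1 ln11_15_1_ok) (L (nat_lit 518) ln10_15_1 ln10_15_1_ok))) (M (nat_lit 486) (B (L (nat_lit 457) ln6_15_2 ln6_15_2_ok) (M (nat_lit 454) (B (L (nat_lit 455) ln10_15_3 ln10_15_3_ok) (L (nat_lit 453) ln9_15_3_c10 ln9_15_3_c10_ok))))))) (M (nat_lit 487) (B (M (nat_lit 519) (B (L (nat_lit 520) ln11_15_1 ln11_15_1_ok) (L (nat_lit 518) ln10_15_1 ln10_15_1_ok)))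 (M (nat_lit 492) (B (L (nat_lit 460) ln9_15_2 ln9_15_2_ok) (M (nat_lit 457) (B (L (nat_lit 456) ln12_15_3 ln12_15_3_ok) (L (nat_lit 486) ln6_15_2 ln6_15_2_ok))))))))))))))))))))) c10_d277)) c10_d278))))
noncomputable def c10_d280 : Cert := (B (M (nat_lit 459) (B (M (nat_lit 456) (B (M (nat_lit 424) (B (M (nat_lit 488) c10_d272) (B (K (nat_lit 8373182105834924757806908215104826412290507533212228096937961605072735356142332478596843059283826640556541727492462524936946245325165690880) (nat_lit 158291456994384044337592020038974029877258083650533772076767666991460733636191460172527755765504889218720939838026640472318916387287720284597724243507705511387876734594600402944) (nat_lit 158291456994384044337592020038974029877258083650533772076767666991460733636191460172527755765504889218720939838026640472318916387287720284597724243507705511387876734594600402944) c10_s37) (B (M (nat_lit 392) (B (M (nat_lit 425)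 (B (L (nat_lit 391) ln11_13_3 ln11_13_3_ok) (L (nat_lit 455) ln11_13_1_c10 ln11_13_1_c10_ok))) (B (M (nat_lit 360) (B (M (nat_lit 455) (B (L (nat_lit 487) ln8_11_5_c10 ln8_11_5_c10_ok) (L (nat_lit 425) ln11_13_1_c10 ln11_13_1_c10_ok))) (M (nat_lit 328) (B (M (nat_lit 327) (B (L (nat_lit 295) ln8_13_7_c10 ln8_13_7_c10_ok) (L (nat_lit 359) ln8_14_7_c10 ln8_14_7_c10_ok))) (M (nat_lit 329) (B (L (nat_lit 297) ln8_13_6_c10 ln8_13_6_c10_ok) (L (nat_lit 361) ln8_14_6_c10 ln8_14_6_c10_ok))))))) (B (M (nat_lit 391) (B (L (nat_lit 425) ln11_13_3 ln11_13_3_ok) (M (nat_lit 359) (B (L (nat_lit 488) ln8_15_7_c10 ln8_15_7_c10_ok) (M (nat_lit 327) (B (L (nat_lit 295) ln7_9_4_c10 ln7_9_4_c10_ok) (L (nat_lit 360) ln8_14_7_c10 ln8_14_7_c10_ok))))))) (M (nat_lit 360) (B (M (nat_lit 328) (B (M (nat_lit 327) (B (L (nat_lit 295) ln8_13_7_c10 ln8_13_7_c10_ok) (L (nat_lit 359) ln8_14_7_c10 ln8_14_7_c10_ok))) (M (nat_lit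 329) (B (L (nat_lit 297) ln8_13_6_c10 ln8_13_6_c10_ok) (L (nat_lit 361) ln8_14_6_c10 ln8_14_6_c10_ok))))) (M (nat_lit 487) (B (L (nat_lit 455) ln8_11_5_c10 ln8_11_5_c10_ok) (M (nat_lit 488) (B (L (nat_lit 519) ln8_12_5_c10 ln8_12_5_c10_ok) (M (nat_lit 489) (B (L (nat_lit 490) ln7_15_2 ln7_15_2_ok) (L (nat_lit 521) ln8_12_4_c10 ln8_12_4_c10_ok))))))))))))) (M (nat_lit 425) (B (L (nat_lit 455) ln11_13_1_c10 ln11_13_1_c10_ok) (L (nat_lit 423) ln7_13_0 ln7_13_0_ok))))))) c10_d273)) (B (K (nat_lit 8187111392371926429855643588104584529868739662010080344203152980095452954938199152290875249941103567677609341053486645714689456498412617728) (nat_lit 339928315513534963489347076483866596341084467416966012561876615930740432205484603570186992900453088435197831322484779183792243153223004077831206080426908364751606555620801001446025723904) (nat_lit 339928315513534963489347076483866596341084467416966012561876615930740432205484603570186992900453088435197831322484779183792243153223004077831206080426908364751606555620801001446025723904)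 c10_s38) (M (nat_lit 460) (B (L (nat_lit 462) ln14_14_3 ln14_14_3_ok) (L (nat_lit 425) ln13_14_3 ln13_14_3_ok)))))) (B (M (nat_lit 394) (B (M (nat_lit 456) (B (M (nat_lit 424) (B (K (nat_lit 6884616398477521846002240710895301072647623763587147770017871330163742711474072584070751406516052001954188291887831546145253368251837054976) (nat_lit 36855101844370451335712047112194785425723429411999336838500344703859039446091229485260327639652104207688903022736801917346509829965734467849792136569681731965937516544) (nat_lit 36855101844370451335712047112194785425723429411999336838500344703859039446091229485260327639652104207688903022736801917346509829965734467849792136569681731965937516544) c10_s39) (B (K (nat_lit 6884616398477521846002240710895301072647623763587147770017871330163742711474072584070751406516052001954188291887831546145253368251837054976) (nat_lit 36855101816911260676009585157637160252518566179168642161214047531177276530054571792908045615590006735158469000071503130735071577297405397434031803441861843033733988352)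 (nat_lit 36855101816911260676009585157637160252518566179168642161214047531177276530054571792908045615590006735158469000071503130735071577297405397434031803441861843033733988352) c10_s41) (B (K (nat_lit 6884616398477521846002240710895301072647623763587147770017871330163742711474072584070751406516052001954188291887831546145253368251837054976) (nat_lit 36855101816911260676009585161730715947751424186742433847239289068656984673445674423161978608305448489560708558724001293338412973783433485867395768677775979472603840512) (nat_lit 36855101816911260676009585161730715947751424186742433847239289068656984673445674423161978608305448489560708558724001293338412973783433485867395768677775979472603840512) c10_s42) (B (K (nat_lit 6884616398477521846002240710895301072647623763587147770017871330163742711474072584070751406516052001954188291887831546145253368251837054976) (nat_lit 14742040752850735398160090840786020723626780667747093151968383276156211213280874502631355521244110171433956044544951815444162764023990823207129617960638088624933437440)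 (nat_lit 14742040752850735398160090840786020723626780667747093151968383276156211213280874502631355521244110171433956044544951815444162764023990823207129617960638088624933437440) c10_s44) (B (K (nat_lit 6884616398477521846002240710895301072647623763587147770017871330163742711474072584070751406516052001954188291887831546145253368251837054976) (nat_lit 34323988321431406930731992773640098204543615665833649225362863699067176212297587946676466112980129983132512965280164403040562752160125877207599803072222593024) (nat_lit 34323988321431406930731992773640098204543615665833649225362863699067176212297587946676466112980129983132512965280164403040562752160125877207599803072222593024) c10_s45) (B (M (nat_lit 392) (B (M (nat_lit 391) (B (L (nat_lit 425) ln11_13_3 ln11_13_3_ok) (L (nat_lit 393) ln7_12_0_c10 ln7_12_0_c10_ok))) (B (M (nat_lit 488) (B (M (nat_lit 520) (B (M (nat_lit 519) (B (L (nat_lit 551) ln8_13_5_c10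 ln8_13_5_c10_ok) (L (nat_lit 487) ln8_12_5_c10 ln8_12_5_c10_ok))) (M (nat_lit 393) (B (L (nat_lit 425) ln8_16_6_c10 ln8_16_6_c10_ok) (L (nat_lit 361) ln8_15_6_c10 ln8_15_6_c10_ok))))) (B (M (nat_lit 360) (B (M (nat_lit 489) (B (L (nat_lit 521) ln8_12_4_c10 ln8_12_4_c10_ok) (L (nat_lit 457) ln8_11_4_c10 ln8_11_4_c10_ok))) (M (nat_lit 361) (B (L (nat_lit 393) ln8_15_6_c10 ln8_15_6_c10_ok) (L (nat_lit 329) ln8_14_6_c10 ln8_14_6_c10_ok))))) (M (nat_lit 520) (B (M (nat_lit 519) (B (L (nat_lit 551) ln8_13_5_c10 ln8_13_5_c10_ok) (L (nat_lit 487) ln8_12_5_c10 ln8_12_5_c10_ok))) (M (nat_lit 521) (B (L (nat_lit 553) ln8_13_4_c10 ln8_13_4_c10_ok) (L (nat_lit 489) ln8_12_4_c10 ln8_12_4_c10_ok)))))))) (B (M (nat_lit 393) (B (L (nat_lit 391) ln7_12_0_c10 ln7_12_0_c10_ok) (M (nat_lit 361) (B (L (nat_lit 488) ln8_15_6_c10 ln8_15_6_c10_ok) (M (nat_lit 329) (B (L (nat_lit 360) ln8_14_6_c10 ln8_14_6_c10_ok) (L (nat_lit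 297) ln9_9_4_c10 ln9_9_4_c10_ok))))))) (M (nat_lit 457) (B (M (nat_lit 425) (B (L (nat_lit 391) ln11_13_3 ln11_13_3_ok) (M (nat_lit 489) (B (L (nat_lit 360) ln8_11_4_c10 ln8_11_4_c10_ok) (L (nat_lit 521) ln9_16_6 ln9_16_6_ok))))) (B (M (nat_lit 489) (B (L (nat_lit 360) ln8_11_4_c10 ln8_11_4_c10_ok) (M (nat_lit 521) (B (L (nat_lit 488) ln8_12_4_c10 ln8_12_4_c10_ok) (L (nat_lit 553) ln9_17_6 ln9_17_6_ok))))) (M (nat_lit 459) (B (M (nat_lit 425) (B (L (nat_lit 391) ln11_13_3 ln11_13_3_ok) (L (nat_lit 460) ln8_13_0 ln8_13_0_ok))) (M (nat_lit 491) (B (L (nat_lit 492) ln8_14_0 ln8_14_0_ok) (L (nat_lit 523) ln11_16_7 ln11_16_7_ok)))))))))))) (M (nat_lit 459) (B (M (nat_lit 423) (B (L (nat_lit 457) ln11_14_3 ln11_14_3_ok) (L (nat_lit 425) ln7_13_0 ln7_13_0_ok))) (B (M (nat_lit 457) (B (M (nat_lit 491) (B (L (nat_lit 492) ln8_14_0 ln8_14_0_ok) (L (nat_lit 523) ln11_16_7 ln11_16_7_ok))) (M (nat_lit 460)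 (B (L (nat_lit 425) ln8_13_0 ln8_13_0_ok) (M (nat_lit 488) (B (L (nat_lit 487) ln11_14_1 ln11_14_1_ok) (L (nat_lit 489) ln12_14_1 ln12_14_1_ok))))))) (B (M (nat_lit 457) (B (L (nat_lit 423) ln11_14_3 ln11_14_3_ok) (M (nat_lit 491) (B (L (nat_lit 492) ln8_14_0 ln8_14_0_ok) (L (nat_lit 523) ln11_16_7 ln11_16_7_ok))))) (M (nat_lit 425) (B (L (nat_lit 423) ln7_13_0 ln7_13_0_ok) (L (nat_lit 460) ln8_13_0 ln8_13_0_ok)))))))))))))) c10_d274)) (B (M (nat_lit 362) (B (L (nat_lit 331) ln10_14_6 ln10_14_6_ok) (M (nat_lit 330) (B (M (nat_lit 457) (B (L (nat_lit 489) ln10_11_5 ln10_11_5_ok) (L (nat_lit 425) ln10_10_5 ln10_10_5_ok))) (M (nat_lit 329) (B (L (nat_lit 361) ln10_14_7 ln10_14_7_ok) (L (nat_lit 297) ln10_13_7_c10 ln10_13_7_c10_ok))))))) (M (nat_lit 362) (B (M (nat_lit 459) (B (L (nat_lit 330) ln10_10_4 ln10_10_4_ok) (L (nat_lit 491) ln10_11_4 ln10_11_4_ok))) (L (nat_lit 331) ln10_14_6 ln10_14_6_ok))))))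 c10_d279))
theorem c10_s55 : Sem (nat_lit 5954262831335822062088120850272634600334353401978639263018415088212529061853840731832816342148421894274946874679036947102871160295308394496) (nat_lit 50164565117482973732051061223894282168196237825392306277806488105417733145882451094736393302809604103019256617023293913842521919648606487331123061617042174299192287415485976417811613682758872380509515677696) (nat_lit 50164565117482973732051061223894282168196237825392306277806488105417733145882451094736393302809604103019256617023293913842521919648606487331123061617042174299192287415485976417811613682758872380509515677696) :=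
  sem_of_chk (M (nat_lit 458) (B (M (nat_lit 490) (B (M (nat_lit 522) (B (M (nat_lit 554) (B (M (nat_lit 586) (B (M (nat_lit 587) (B (L (nat_lit 619) ln10_15_4 ln10_15_4_ok) (L (nat_lit 555) ln10_14_4 ln10_14_4_ok))) (M (nat_lit 585) (B (L (nat_lit 617) ln10_15_5 ln10_15_5_ok) (L (nat_lit 553) ln10_14_5 ln10_14_5_ok))))) (B (M (nat_lit 586) (B (M (nat_lit 585) (B (L (nat_lit 617) ln10_15_5 ln10_15_5_ok) (L (nat_lit 553) ln10_14_5 ln10_14_5_ok))) (M (nat_lit 457) (B (L (nat_lit 489) ln10_18_7_c10 ln10_18_7_c10_ok) (L (nat_lit 425) ln10_17_7 ln10_17_7_ok))))) (B (M (nat_lit 553) (B (L (nat_lit 585) ln10_14_5 ln10_14_5_ok) (M (nat_lit 555) (B (L (nat_lit 587) ln10_14_4 ln10_14_4_ok) (L (nat_lit 523) ln10_13_4 ln10_13_4_ok))))) (M (nat_lit 586) (B (M (nat_lit 587) (B (L (nat_lit 619) ln10_15_4 ln10_15_4_ok) (L (nat_lit 555) ln10_14_4 ln10_14_4_ok))) (M (nat_lit 457) (B (L (nat_lit 489) ln10_18_7_c10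 ln10_18_7_c10_ok) (L (nat_lit 425) ln10_17_7 ln10_17_7_ok))))))))) (B (M (nat_lit 554) (B (M (nat_lit 553) (B (L (nat_lit 585) ln10_14_5 ln10_14_5_ok) (M (nat_lit 555) (B (L (nat_lit 587) ln10_14_4 ln10_14_4_ok) (L (nat_lit 523) ln10_13_4 ln10_13_4_ok))))) (B (M (nat_lit 553) (B (L (nat_lit 585) ln10_14_5 ln10_14_5_ok) (L (nat_lit 521) ln10_13_5 ln10_13_5_ok))) (M (nat_lit 555) (B (L (nat_lit 587) ln10_14_4 ln10_14_4_ok) (L (nat_lit 523) ln10_13_4 ln10_13_4_ok)))))) (B (M (nat_lit 521) (B (L (nat_lit 553) ln10_13_5 ln10_13_5_ok) (M (nat_lit 394) (B (L (nat_lit 489) ln10_12_5 ln10_12_5_ok) (M (nat_lit 523) (B (L (nat_lit 555) ln10_13_4 ln10_13_4_ok) (L (nat_lit 491) ln10_12_4 ln10_12_4_ok))))))) (B (M (nat_lit 554) (B (M (nat_lit 586) (B (M (nat_lit 585) (B (L (nat_lit 617) ln10_15_5 ln10_15_5_ok) (L (nat_lit 553) ln10_14_5 ln10_14_5_ok))) (M (nat_lit 457) (B (L (nat_lit 489) ln10_18_7_c10 ln10_18_7_c10_ok)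 (L (nat_lit 425) ln10_17_7 ln10_17_7_ok))))) (B (M (nat_lit 553) (B (L (nat_lit 585) ln10_14_5 ln10_14_5_ok) (L (nat_lit 521) ln10_13_5 ln10_13_5_ok))) (M (nat_lit 586) (B (M (nat_lit 457) (B (L (nat_lit 489) ln10_18_7_c10 ln10_18_7_c10_ok) (L (nat_lit 425) ln10_17_7 ln10_17_7_ok))) (M (nat_lit 618) (B (M (nat_lit 619) (B (L (nat_lit 651) ln10_16_4 ln10_16_4_ok) (L (nat_lit 587) ln10_15_4 ln10_15_4_ok))) (M (nat_lit 491) (B (L (nat_lit 523) ln10_19_6 ln10_19_6_ok) (L (nat_lit 459) ln10_17_6 ln10_17_6_ok)))))))))) (B (M (nat_lit 554) (B (M (nat_lit 586) (B (M (nat_lit 587) (B (L (nat_lit 619) ln10_15_4 ln10_15_4_ok) (L (nat_lit 555) ln10_14_4 ln10_14_4_ok))) (M (nat_lit 457) (B (L (nat_lit 489) ln10_18_7_c10 ln10_18_7_c10_ok) (L (nat_lit 425) ln10_17_7 ln10_17_7_ok))))) (B (M (nat_lit 586) (B (M (nat_lit 585) (B (L (nat_lit 617) ln10_15_5 ln10_15_5_ok) (L (nat_lit 553) ln10_14_5 ln10_14_5_ok)))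 (M (nat_lit 457) (B (L (nat_lit 489) ln10_18_7_c10 ln10_18_7_c10_ok) (L (nat_lit 425) ln10_17_7 ln10_17_7_ok))))) (M (nat_lit 553) (B (L (nat_lit 585) ln10_14_5 ln10_14_5_ok) (L (nat_lit 521) ln10_13_5 ln10_13_5_ok)))))) (M (nat_lit 554) (B (M (nat_lit 586) (B (M (nat_lit 587) (B (L (nat_lit 619) ln10_15_4 ln10_15_4_ok) (L (nat_lit 555) ln10_14_4 ln10_14_4_ok))) (M (nat_lit 457) (B (L (nat_lit 489) ln10_18_7_c10 ln10_18_7_c10_ok) (L (nat_lit 425) ln10_17_7 ln10_17_7_ok))))) (B (M (nat_lit 555) (B (L (nat_lit 587) ln10_14_4 ln10_14_4_ok) (L (nat_lit 523) ln10_13_4 ln10_13_4_ok))) (M (nat_lit 586) (B (M (nat_lit 457) (B (L (nat_lit 489) ln10_18_7_c10 ln10_18_7_c10_ok) (L (nat_lit 425) ln10_17_7 ln10_17_7_ok))) (M (nat_lit 618) (B (M (nat_lit 491) (B (L (nat_lit 523) ln10_19_6 ln10_19_6_ok) (L (nat_lit 459) ln10_17_6 ln10_17_6_ok))) (M (nat_lit 617) (B (L (nat_lit 649) ln10_16_5 ln10_16_5_ok) (L (nat_lit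 585) ln10_15_5 ln10_15_5_ok)))))))))))))))) c10_d265)) (B (M (nat_lit 490) (B (M (nat_lit 361) c10_d266) c10_d267)) (B (M (nat_lit 425) (B (M (nat_lit 457) (B (M (nat_lit 455) (B (L (nat_lit 456) ln7_14_2 ln7_14_2_ok) (M (nat_lit 489) (B (M (nat_lit 394) (B (L (nat_lit 362) ln10_11_5 ln10_11_5_ok) (L (nat_lit 521) ln9_16_6 ln9_16_6_ok))) (B (M (nat_lit 521) (B (L (nat_lit 553) ln9_17_6 ln9_17_6_ok) (L (nat_lit 394) ln9_16_6 ln9_16_6_ok))) (B (M (nat_lit 521) (B (L (nat_lit 553) ln9_17_6 ln9_17_6_ok) (M (nat_lit 393) (B (M (nat_lit 520) (B (L (nat_lit 552) ln9_13_5_c10 ln9_13_5_c10_ok) (L (nat_lit 488) ln9_12_5_c10 ln9_12_5_c10_ok))) (M (nat_lit 522) (B (L (nat_lit 554) ln9_13_4 ln9_13_4_ok) (L (nat_lit 490) ln9_12_4 ln9_12_4_ok))))))) (M (nat_lit 393) (B (M (nat_lit 361) (B (M (nat_lit 362) (B (L (nat_lit 394) ln10_11_5 ln10_11_5_ok) (L (nat_lit 330) ln9_14_6_c10 ln9_14_6_c10_ok))) (L (nat_lit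 329) ln9_10_4_c10 ln9_10_4_c10_ok))) (B (M (nat_lit 361) (B (L (nat_lit 329) ln9_10_4_c10 ln9_10_4_c10_ok) (L (nat_lit 490) ln9_11_4 ln9_11_4_ok))) (B (M (nat_lit 361) (B (L (nat_lit 490) ln9_11_4 ln9_11_4_ok) (M (nat_lit 362) (B (L (nat_lit 394) ln10_11_5 ln10_11_5_ok) (L (nat_lit 330) ln9_14_6_c10 ln9_14_6_c10_ok))))) (M (nat_lit 394) (B (L (nat_lit 362) ln10_11_5 ln10_11_5_ok) (M (nat_lit 490) (B (L (nat_lit 522) ln9_12_4 ln9_12_4_ok) (M (nat_lit 488) (B (L (nat_lit 520) ln9_12_5_c10 ln9_12_5_c10_ok) (M (nat_lit 487) (B (L (nat_lit 454) ln10_15_3 ln10_15_3_ok) (L (nat_lit 486) ln6_15_2 ln6_15_2_ok))))))))))))))))))) c10_d268)) c10_d271)) c10_d280)))) (nat_lit 5954262831335822062088120850272634600334353401978639263018415088212529061853840731832816342148421894274946874679036947102871160295308394496) (nat_lit 50164565117482973732051061223894282168196237825392306277806488105417733145882451094736393302809604103019256617023293913842521919648606487331123061617042174299192287415485976417811613682758872380509515677696)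 (nat_lit 50164565117482973732051061223894282168196237825392306277806488105417733145882451094736393302809604103019256617023293913842521919648606487331123061617042174299192287415485976417811613682758872380509515677696) (by decide +kernel)
noncomputable def c10_d281 : Cert := (B (M (nat_lit 359) (B (M (nat_lit 360) (B (L (nat_lit 362) ln7_11_0 ln7_11_0_ok) (L (nat_lit 358) ln6_11_0_c10 ln6_11_0_c10_ok))) (B (M (nat_lit 360) (B (L (nat_lit 392) ln11_12_3 ln11_12_3_ok) (L (nat_lit 362) ln7_11_0 ln7_11_0_ok))) (B (M (nat_lit 360) (B (L (nat_lit 358) ln6_11_0_c10 ln6_11_0_c10_ok) (L (nat_lit 392) ln11_12_3 ln11_12_3_ok))) (M (nat_lit 329) (B (M (nat_lit 426) (B (M (nat_lit 458) (B (L (nat_lit 362) ln10_14_7 ln10_14_7_ok) (L (nat_lit 425) ln9_10_4_c10 ln9_10_4_c10_ok))) (L (nat_lit 297) ln9_9_4_c10 ln9_9_4_c10_ok))) (B (M (nat_lit 297) (B (M (nat_lit 362) (B (L (nat_lit 265) ln9_8_4_c10 ln9_8_4_c10_ok)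 (L (nat_lit 426) ln9_9_4_c10 ln9_9_4_c10_ok))) (B (L (nat_lit 426) ln9_9_4_c10 ln9_9_4_c10_ok) (M (nat_lit 265) (B (L (nat_lit 362) ln9_8_4_c10 ln9_8_4_c10_ok) (M (nat_lit 266) (B (L (nat_lit 234) ln9_11_6_c10 ln9_11_6_c10_ok) (L (nat_lit 298) ln9_12_6_c10 ln9_12_6_c10_ok)))))))) (B (M (nat_lit 426) (B (L (nat_lit 297) ln9_9_4_c10 ln9_9_4_c10_ok) (M (nat_lit 458) (B (L (nat_lit 490) ln10_15_6 ln10_15_6_ok) (L (nat_lit 425) ln9_10_4_c10 ln9_10_4_c10_ok))))) (B (M (nat_lit 297) (B (M (nat_lit 265) (B (L (nat_lit 362) ln9_8_4_c10 ln9_8_4_c10_ok) (M (nat_lit 266) (B (L (nat_lit 234) ln9_11_6_c10 ln9_11_6_c10_ok) (L (nat_lit 298) ln9_12_6_c10 ln9_12_6_c10_ok))))) (B (M (nat_lit 425) (B (M (nat_lit 296) (B (L (nat_lit 264) ln9_12_7_c10 ln9_12_7_c10_ok) (L (nat_lit 328) ln9_13_7_c10 ln9_13_7_c10_ok))) (M (nat_lit 298) (B (L (nat_lit 266) ln9_12_6_c10 ln9_12_6_c10_ok) (L (nat_lit 330) ln9_13_6_c10 ln9_13_6_c10_ok)))))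 (M (nat_lit 265) (B (L (nat_lit 362) ln9_8_4_c10 ln9_8_4_c10_ok) (M (nat_lit 264) (B (L (nat_lit 232) ln9_11_7_c10 ln9_11_7_c10_ok) (L (nat_lit 296) ln9_12_7_c10 ln9_12_7_c10_ok)))))))) (M (nat_lit 425) (B (M (nat_lit 457) (B (M (nat_lit 458) (B (L (nat_lit 426) ln9_10_4_c10 ln9_10_4_c10_ok) (L (nat_lit 490) ln9_11_4 ln9_11_4_ok))) (B (M (nat_lit 489) (B (M (nat_lit 490) (B (L (nat_lit 458) ln9_11_4 ln9_11_4_ok) (L (nat_lit 522) ln9_12_4 ln9_12_4_ok))) (M (nat_lit 488) (B (L (nat_lit 456) ln9_11_5_c10 ln9_11_5_c10_ok) (L (nat_lit 520) ln9_12_5_c10 ln9_12_5_c10_ok))))) (B (M (nat_lit 489) (B (M (nat_lit 488) (B (L (nat_lit 456) ln9_11_5_c10 ln9_11_5_c10_ok) (L (nat_lit 520) ln9_12_5_c10 ln9_12_5_c10_ok))) (M (nat_lit 522) (B (L (nat_lit 490) ln9_12_4 ln9_12_4_ok) (M (nat_lit 521) (B (L (nat_lit 426) ln9_16_6 ln9_16_6_ok) (L (nat_lit 554) ln9_13_4 ln9_13_4_ok))))))) (M (nat_lit 489) (B (M (nat_lit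 426) (B (L (nat_lit 458) ln9_10_4_c10 ln9_10_4_c10_ok) (L (nat_lit 521) ln9_16_6 ln9_16_6_ok))) (M (nat_lit 488) (B (L (nat_lit 456) ln9_11_5_c10 ln9_11_5_c10_ok) (L (nat_lit 520) ln9_12_5_c10 ln9_12_5_c10_ok))))))))) (B (M (nat_lit 457) (B (M (nat_lit 362) (B (L (nat_lit 489) ln9_15_6 ln9_15_6_ok) (L (nat_lit 330) ln9_14_6_c10 ln9_14_6_c10_ok))) (B (M (nat_lit 330) (B (L (nat_lit 362) ln9_14_6_c10 ln9_14_6_c10_ok) (L (nat_lit 298) ln9_13_6_c10 ln9_13_6_c10_ok))) (M (nat_lit 489) (B (M (nat_lit 488) (B (L (nat_lit 520) ln9_12_5_c10 ln9_12_5_c10_ok) (L (nat_lit 456) ln9_11_5_c10 ln9_11_5_c10_ok))) (M (nat_lit 490) (B (L (nat_lit 522) ln9_12_4 ln9_12_4_ok) (L (nat_lit 458) ln9_11_4 ln9_11_4_ok)))))))) (B (M (nat_lit 457) (B (M (nat_lit 458) (B (L (nat_lit 490) ln9_11_4 ln9_11_4_ok) (L (nat_lit 426) ln9_10_4_c10 ln9_10_4_c10_ok))) (M (nat_lit 362) (B (L (nat_lit 489) ln9_15_6 ln9_15_6_ok) (L (nat_lit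 330) ln9_14_6_c10 ln9_14_6_c10_ok))))) (B (M (nat_lit 457) (B (M (nat_lit 330) (B (L (nat_lit 298) ln9_13_6_c10 ln9_13_6_c10_ok) (L (nat_lit 362) ln9_14_6_c10 ln9_14_6_c10_ok))) (B (M (nat_lit 362) (B (L (nat_lit 330) ln9_14_6_c10 ln9_14_6_c10_ok) (L (nat_lit 489) ln9_15_6 ln9_15_6_ok))) (B (M (nat_lit 489) (B (L (nat_lit 362) ln9_15_6 ln9_15_6_ok) (M (nat_lit 488) (B (L (nat_lit 456) ln9_11_5_c10 ln9_11_5_c10_ok) (L (nat_lit 520) ln9_12_5_c10 ln9_12_5_c10_ok))))) (M (nat_lit 489) (B (M (nat_lit 488) (B (L (nat_lit 456) ln9_11_5_c10 ln9_11_5_c10_ok) (L (nat_lit 520) ln9_12_5_c10 ln9_12_5_c10_ok))) (M (nat_lit 522) (B (L (nat_lit 490) ln9_12_4 ln9_12_4_ok) (M (nat_lit 521) (B (L (nat_lit 426) ln9_16_6 ln9_16_6_ok) (L (nat_lit 554) ln9_13_4 ln9_13_4_ok))))))))))) (B (M (nat_lit 457) (B (M (nat_lit 330) (B (L (nat_lit 298) ln9_13_6_c10 ln9_13_6_c10_ok) (L (nat_lit 362) ln9_14_6_c10 ln9_14_6_c10_ok)))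 (B (M (nat_lit 362) (B (L (nat_lit 330) ln9_14_6_c10 ln9_14_6_c10_ok) (L (nat_lit 489) ln9_15_6 ln9_15_6_ok))) (B (M (nat_lit 426) (B (L (nat_lit 458) ln9_10_4_c10 ln9_10_4_c10_ok) (M (nat_lit 489) (B (L (nat_lit 362) ln9_15_6 ln9_15_6_ok) (L (nat_lit 521) ln9_16_6 ln9_16_6_ok))))) (M (nat_lit 489) (B (M (nat_lit 426) (B (L (nat_lit 521) ln9_16_6 ln9_16_6_ok) (L (nat_lit 458) ln9_10_4_c10 ln9_10_4_c10_ok))) (M (nat_lit 488) (B (L (nat_lit 456) ln9_11_5_c10 ln9_11_5_c10_ok) (L (nat_lit 520) ln9_12_5_c10 ln9_12_5_c10_ok))))))))) (B (M (nat_lit 457) (B (M (nat_lit 330) (B (L (nat_lit 298) ln9_13_6_c10 ln9_13_6_c10_ok) (L (nat_lit 362) ln9_14_6_c10 ln9_14_6_c10_ok))) (M (nat_lit 458) (B (L (nat_lit 426) ln9_10_4_c10 ln9_10_4_c10_ok) (L (nat_lit 490) ln9_11_4 ln9_11_4_ok))))) (M (nat_lit 426) (B (L (nat_lit 458) ln9_10_4_c10 ln9_10_4_c10_ok) (M (nat_lit 330) (B (L (nat_lit 298) ln9_13_6_c10 ln9_13_6_c10_ok)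 (M (nat_lit 328) (B (L (nat_lit 296) ln9_13_7_c10 ln9_13_7_c10_ok) (M (nat_lit 327) (B (L (nat_lit 358) ln10_10_1_c10 ln10_10_1_c10_ok) (M (nat_lit 326) (B (L (nat_lit 362) ln6_10_0_c10 ln6_10_0_c10_ok) (M (nat_lit 294) (B (L (nat_lit 295) ln10_10_3_c10 ln10_10_3_c10_ok) (L (nat_lit 293) ln9_10_3_c10 ln9_10_3_c10_ok))))))))))))))))))))))))))))) (B (M (nat_lit 329) (B (M (nat_lit 426) (B (L (nat_lit 297) ln9_9_4_c10 ln9_9_4_c10_ok) (M (nat_lit 458) (B (L (nat_lit 425) ln9_10_4_c10 ln9_10_4_c10_ok) (L (nat_lit 362) ln10_14_7 ln10_14_7_ok))))) (B (M (nat_lit 425) (B (M (nat_lit 424) (B (L (nat_lit 456) ln9_10_5_c10 ln9_10_5_c10_ok) (L (nat_lit 396) ln12_12_1 ln12_12_1_ok))) (M (nat_lit 457) (B (M (nat_lit 330) (B (L (nat_lit 298) ln9_13_6_c10 ln9_13_6_c10_ok) (L (nat_lit 362) ln9_14_6_c10 ln9_14_6_c10_ok))) (M (nat_lit 458) (B (L (nat_lit 426) ln9_10_4_c10 ln9_10_4_c10_ok) (L (nat_lit 490) ln9_11_4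 ln9_11_4_ok))))))) (B (M (nat_lit 426) (B (L (nat_lit 297) ln9_9_4_c10 ln9_9_4_c10_ok) (M (nat_lit 458) (B (L (nat_lit 362) ln10_14_7 ln10_14_7_ok) (L (nat_lit 490) ln10_15_6 ln10_15_6_ok))))) (B (M (nat_lit 426) (B (L (nat_lit 297) ln9_9_4_c10 ln9_9_4_c10_ok) (M (nat_lit 458) (B (L (nat_lit 425) ln9_10_4_c10 ln9_10_4_c10_ok) (L (nat_lit 490) ln10_15_6 ln10_15_6_ok))))) (M (nat_lit 425) (B (M (nat_lit 424) (B (L (nat_lit 456) ln9_10_5_c10 ln9_10_5_c10_ok) (L (nat_lit 396) ln12_12_1 ln12_12_1_ok))) (M (nat_lit 297) (B (M (nat_lit 296) (B (L (nat_lit 264) ln9_12_7_c10 ln9_12_7_c10_ok) (L (nat_lit 328) ln9_13_7_c10 ln9_13_7_c10_ok))) (M (nat_lit 298) (B (L (nat_lit 266) ln9_12_6_c10 ln9_12_6_c10_ok) (L (nat_lit 330) ln9_13_6_c10 ln9_13_6_c10_ok)))))))))))) (B (M (nat_lit 425) (B (M (nat_lit 396) (B (L (nat_lit 424) ln12_12_1 ln12_12_1_ok) (L (nat_lit 360) ln12_12_3 ln12_12_3_ok))) (B (M (nat_lit 360)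 (B (L (nat_lit 396) ln12_12_3 ln12_12_3_ok) (M (nat_lit 328) (B (L (nat_lit 457) ln9_14_7_c10 ln9_14_7_c10_ok) (M (nat_lit 296) (B (L (nat_lit 329) ln9_13_7_c10 ln9_13_7_c10_ok) (L (nat_lit 264) ln8_8_4_c10 ln8_8_4_c10_ok))))))) (B (M (nat_lit 329) (B (M (nat_lit 426) (B (L (nat_lit 458) ln9_10_4_c10 ln9_10_4_c10_ok) (L (nat_lit 297) ln9_9_4_c10 ln9_9_4_c10_ok))) (M (nat_lit 457) (B (M (nat_lit 456) (B (L (nat_lit 488) ln9_11_5_c10 ln9_11_5_c10_ok) (L (nat_lit 424) ln9_10_5_c10 ln9_10_5_c10_ok))) (M (nat_lit 328) (B (L (nat_lit 360) ln9_14_7_c10 ln9_14_7_c10_ok) (L (nat_lit 296) ln9_13_7_c10 ln9_13_7_c10_ok))))))) (M (nat_lit 329) (B (M (nat_lit 424) (B (L (nat_lit 456) ln9_10_5_c10 ln9_10_5_c10_ok) (L (nat_lit 396) ln12_12_1 ln12_12_1_ok))) (M (nat_lit 426) (B (L (nat_lit 458) ln9_10_4_c10 ln9_10_4_c10_ok) (L (nat_lit 297) ln9_9_4_c10 ln9_9_4_c10_ok))))))))) (M (nat_lit 360) (B (M (nat_lit 359)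 (B (L (nat_lit 362) ln7_11_0 ln7_11_0_ok) (L (nat_lit 392) ln11_12_3 ln11_12_3_ok))) (L (nat_lit 396) ln12_12_3 ln12_12_3_ok))))))
noncomputable def c10_d282 : Cert := (B (M (nat_lit 425) (B (M (nat_lit 424) (B (L (nat_lit 396) ln12_12_1 ln12_12_1_ok) (M (nat_lit 423) (B (L (nat_lit 426) ln7_13_2 ln7_13_2_ok) (L (nat_lit 422) ln6_13_2_c10 ln6_13_2_c10_ok))))) (B (M (nat_lit 457) (B (M (nat_lit 362) (B (L (nat_lit 489) ln9_15_6 ln9_15_6_ok) (M (nat_lit 330) (B (L (nat_lit 298) ln10_9_4 ln10_9_4_ok) (L (nat_lit 361) ln9_14_6_c10 ln9_14_6_c10_ok))))) (B (M (nat_lit 362) (B (L (nat_lit 489) ln9_15_6 ln9_15_6_ok) (M (nat_lit 330) (B (L (nat_lit 426) ln10_10_5 ln10_10_5_ok) (L (nat_lit 361) ln9_14_6_c10 ln9_14_6_c10_ok))))) (B (M (nat_lit 489) (B (L (nat_lit 362) ln9_15_6 ln9_15_6_ok) (M (nat_lit 521) (B (L (nat_lit 426) ln9_16_6 ln9_16_6_ok) (M (nat_lit 522) (B (L (nat_lit 490) ln9_12_4 ln9_12_4_ok)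 (L (nat_lit 554) ln9_13_4 ln9_13_4_ok))))))) (B (M (nat_lit 361) (B (M (nat_lit 456) (B (L (nat_lit 488) ln9_11_5_c10 ln9_11_5_c10_ok) (M (nat_lit 329) (B (L (nat_lit 424) ln9_10_5_c10 ln9_10_5_c10_ok) (M (nat_lit 328) (B (L (nat_lit 296) ln9_13_7_c10 ln9_13_7_c10_ok) (L (nat_lit 360) ln9_14_7_c10 ln9_14_7_c10_ok))))))) (B (M (nat_lit 489) (B (M (nat_lit 488) (B (L (nat_lit 456) ln9_11_5_c10 ln9_11_5_c10_ok) (L (nat_lit 520) ln9_12_5_c10 ln9_12_5_c10_ok))) (M (nat_lit 522) (B (L (nat_lit 490) ln9_12_4 ln9_12_4_ok) (M (nat_lit 521) (B (L (nat_lit 426) ln9_16_6 ln9_16_6_ok) (L (nat_lit 554) ln9_13_4 ln9_13_4_ok))))))) (M (nat_lit 329) (B (M (nat_lit 328) (B (L (nat_lit 296) ln9_13_7_c10 ln9_13_7_c10_ok) (L (nat_lit 360) ln9_14_7_c10 ln9_14_7_c10_ok))) (M (nat_lit 297) (B (L (nat_lit 426) ln9_9_4_c10 ln9_9_4_c10_ok) (M (nat_lit 298) (B (L (nat_lit 266) ln9_12_6_c10 ln9_12_6_c10_ok) (L (nat_lit 330)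 ln9_13_6_c10 ln9_13_6_c10_ok)))))))))) (M (nat_lit 361) (B (M (nat_lit 360) (B (L (nat_lit 328) ln9_14_7_c10 ln9_14_7_c10_ok) (M (nat_lit 362) (B (L (nat_lit 359) ln7_11_0 ln7_11_0_ok) (L (nat_lit 330) ln9_14_6_c10 ln9_14_6_c10_ok))))) (B (M (nat_lit 456) (B (L (nat_lit 488) ln9_11_5_c10 ln9_11_5_c10_ok) (M (nat_lit 329) (B (L (nat_lit 424) ln9_10_5_c10 ln9_10_5_c10_ok) (M (nat_lit 328) (B (L (nat_lit 296) ln9_13_7_c10 ln9_13_7_c10_ok) (L (nat_lit 360) ln9_14_7_c10 ln9_14_7_c10_ok))))))) (M (nat_lit 329) (B (M (nat_lit 330) (B (L (nat_lit 298) ln9_13_6_c10 ln9_13_6_c10_ok) (L (nat_lit 362) ln9_14_6_c10 ln9_14_6_c10_ok))) (M (nat_lit 456) (B (L (nat_lit 424) ln9_10_5_c10 ln9_10_5_c10_ok) (L (nat_lit 488) ln9_11_5_c10 ln9_11_5_c10_ok))))))))))))) (B (M (nat_lit 361) (B (M (nat_lit 396) (B (L (nat_lit 360) ln12_12_3 ln12_12_3_ok) (L (nat_lit 424) ln12_12_1 ln12_12_1_ok))) (B (M (nat_lit 457) (B (M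 (nat_lit 362) (B (L (nat_lit 330) ln9_14_6_c10 ln9_14_6_c10_ok) (L (nat_lit 489) ln9_15_6 ln9_15_6_ok))) (M (nat_lit 456) (B (L (nat_lit 488) ln9_11_5_c10 ln9_11_5_c10_ok) (M (nat_lit 329) (B (L (nat_lit 424) ln9_10_5_c10 ln9_10_5_c10_ok) (M (nat_lit 328) (B (L (nat_lit 296) ln9_13_7_c10 ln9_13_7_c10_ok) (L (nat_lit 360) ln9_14_7_c10 ln9_14_7_c10_ok))))))))) (B (M (nat_lit 329) (B (M (nat_lit 424) (B (L (nat_lit 396) ln12_12_1 ln12_12_1_ok) (L (nat_lit 456) ln9_10_5_c10 ln9_10_5_c10_ok))) (M (nat_lit 297) (B (M (nat_lit 298) (B (L (nat_lit 266) ln9_12_6_c10 ln9_12_6_c10_ok) (L (nat_lit 330) ln9_13_6_c10 ln9_13_6_c10_ok))) (M (nat_lit 296) (B (L (nat_lit 264) ln9_12_7_c10 ln9_12_7_c10_ok) (L (nat_lit 328) ln9_13_7_c10 ln9_13_7_c10_ok))))))) (M (nat_lit 360) (B (L (nat_lit 396) ln12_12_3 ln12_12_3_ok) (M (nat_lit 359) (B (L (nat_lit 362) ln7_11_0 ln7_11_0_ok) (L (nat_lit 358) ln6_11_0_c10 ln6_11_0_c10_ok)))))))))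 (M (nat_lit 361) (B (M (nat_lit 360) (B (L (nat_lit 396) ln12_12_3 ln12_12_3_ok) (M (nat_lit 359) (B (L (nat_lit 362) ln7_11_0 ln7_11_0_ok) (L (nat_lit 358) ln6_11_0_c10 ln6_11_0_c10_ok))))) (B (M (nat_lit 329) (B (M (nat_lit 297) (B (L (nat_lit 426) ln9_9_4_c10 ln9_9_4_c10_ok) (M (nat_lit 298) (B (L (nat_lit 266) ln9_12_6_c10 ln9_12_6_c10_ok) (L (nat_lit 330) ln9_13_6_c10 ln9_13_6_c10_ok))))) (B (M (nat_lit 297) (B (L (nat_lit 426) ln9_9_4_c10 ln9_9_4_c10_ok) (M (nat_lit 296) (B (L (nat_lit 264) ln9_12_7_c10 ln9_12_7_c10_ok) (L (nat_lit 328) ln9_13_7_c10 ln9_13_7_c10_ok))))) (M (nat_lit 457) (B (M (nat_lit 330) (B (L (nat_lit 298) ln9_13_6_c10 ln9_13_6_c10_ok) (L (nat_lit 362) ln9_14_6_c10 ln9_14_6_c10_ok))) (M (nat_lit 328) (B (L (nat_lit 296) ln9_13_7_c10 ln9_13_7_c10_ok) (L (nat_lit 360) ln9_14_7_c10 ln9_14_7_c10_ok)))))))) (B (M (nat_lit 360) (B (L (nat_lit 396) ln12_12_3 ln12_12_3_ok) (M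 (nat_lit 328) (B (L (nat_lit 457) ln9_14_7_c10 ln9_14_7_c10_ok) (M (nat_lit 296) (B (L (nat_lit 329) ln9_13_7_c10 ln9_13_7_c10_ok) (L (nat_lit 264) ln8_8_4_c10 ln8_8_4_c10_ok))))))) (M (nat_lit 457) (B (M (nat_lit 362) (B (L (nat_lit 330) ln9_14_6_c10 ln9_14_6_c10_ok) (L (nat_lit 489) ln9_15_6 ln9_15_6_ok))) (B (M (nat_lit 489) (B (L (nat_lit 362) ln9_15_6 ln9_15_6_ok) (M (nat_lit 488) (B (L (nat_lit 456) ln9_11_5_c10 ln9_11_5_c10_ok) (L (nat_lit 520) ln9_12_5_c10 ln9_12_5_c10_ok))))) (B (M (nat_lit 489) (B (M (nat_lit 488) (B (L (nat_lit 456) ln9_11_5_c10 ln9_11_5_c10_ok) (L (nat_lit 520) ln9_12_5_c10 ln9_12_5_c10_ok))) (M (nat_lit 522) (B (L (nat_lit 490) ln9_12_4 ln9_12_4_ok) (M (nat_lit 521) (B (L (nat_lit 426) ln9_16_6 ln9_16_6_ok) (L (nat_lit 554) ln9_13_4 ln9_13_4_ok))))))) (M (nat_lit 329) (B (M (nat_lit 330) (B (L (nat_lit 298) ln9_13_6_c10 ln9_13_6_c10_ok) (L (nat_lit 362) ln9_14_6_c10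 ln9_14_6_c10_ok))) (M (nat_lit 297) (B (L (nat_lit 426) ln9_9_4_c10 ln9_9_4_c10_ok) (M (nat_lit 296) (B (L (nat_lit 264) ln9_12_7_c10 ln9_12_7_c10_ok) (L (nat_lit 328) ln9_13_7_c10 ln9_13_7_c10_ok))))))))))))))))))) (B (K (nat_lit 5954262831162530206346786711756861527322218750232776657684832337809722248923353583655781407537469496724746881305457534074434391773257138176) (nat_lit 558212140421487206846902550534026873521656579055318364561403315544245673661282770758724035080785440363186703274071640605919821118778114048) (nat_lit 558212140421487206846902550534026873521656579055318364561403315544245673661282770758724035080785440363186703274071640605919821118778114048) c10_s62) (B (M (nat_lit 424) (B (M (nat_lit 423) (B (L (nat_lit 392) ln11_12_1 ln11_12_1_ok) (M (nat_lit 425) (B (L (nat_lit 426) ln7_13_2 ln7_13_2_ok) (L (nat_lit 396) ln12_12_1 ln12_12_1_ok))))) (B (M (nat_lit 361) (B (M (nat_lit 396)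 (B (L (nat_lit 425) ln12_12_1 ln12_12_1_ok) (L (nat_lit 360) ln12_12_3 ln12_12_3_ok))) (B (M (nat_lit 360) (B (L (nat_lit 396) ln12_12_3 ln12_12_3_ok) (M (nat_lit 359) (B (L (nat_lit 392) ln11_12_3 ln11_12_3_ok) (L (nat_lit 358) ln6_11_0_c10 ln6_11_0_c10_ok))))) (B (M (nat_lit 329) (B (M (nat_lit 297) (B (L (nat_lit 392) ln9_9_5_c10 ln9_9_5_c10_ok) (L (nat_lit 426) ln9_9_4_c10 ln9_9_4_c10_ok))) (B (M (nat_lit 456) (B (L (nat_lit 425) ln9_10_5_c10 ln9_10_5_c10_ok) (M (nat_lit 392) (B (L (nat_lit 488) ln8_15_6_c10 ln8_15_6_c10_ok) (L (nat_lit 297) ln9_9_5_c10 ln9_9_5_c10_ok))))) (B (M (nat_lit 425) (B (L (nat_lit 456) ln9_10_5_c10 ln9_10_5_c10_ok) (M (nat_lit 426) (B (L (nat_lit 458) ln9_10_4_c10 ln9_10_4_c10_ok) (L (nat_lit 297) ln9_9_4_c10 ln9_9_4_c10_ok))))) (M (nat_lit 456) (B (L (nat_lit 425) ln9_10_5_c10 ln9_10_5_c10_ok) (M (nat_lit 392) (B (L (nat_lit 488) ln8_15_6_c10 ln8_15_6_c10_ok) (L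 (nat_lit 360) ln8_14_6_c10 ln8_14_6_c10_ok))))))))) (M (nat_lit 329) (B (M (nat_lit 425) (B (L (nat_lit 456) ln9_10_5_c10 ln9_10_5_c10_ok) (L (nat_lit 396) ln12_12_1 ln12_12_1_ok))) (M (nat_lit 297) (B (L (nat_lit 392) ln9_9_5_c10 ln9_9_5_c10_ok) (L (nat_lit 426) ln9_9_4_c10 ln9_9_4_c10_ok))))))))) (B (M (nat_lit 392) (B (L (nat_lit 423) ln11_12_1 ln11_12_1_ok) (M (nat_lit 360) (B (L (nat_lit 359) ln11_12_3 ln11_12_3_ok) (M (nat_lit 361) (B (L (nat_lit 396) ln12_12_3 ln12_12_3_ok) (M (nat_lit 329) (B (L (nat_lit 456) ln8_14_6_c10 ln8_14_6_c10_ok) (L (nat_lit 297) ln9_9_5_c10 ln9_9_5_c10_ok))))))))) (B (M (nat_lit 425) (B (L (nat_lit 396) ln12_12_1 ln12_12_1_ok) (M (nat_lit 423) (B (L (nat_lit 422) ln6_13_2_c10 ln6_13_2_c10_ok) (L (nat_lit 426) ln7_13_2 ln7_13_2_ok))))) (M (nat_lit 423) (B (L (nat_lit 392) ln11_12_1 ln11_12_1_ok) (M (nat_lit 425) (B (L (nat_lit 422) ln6_13_2_c10 ln6_13_2_c10_ok)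 (L (nat_lit 426) ln7_13_2 ln7_13_2_ok)))))))))) (B (M (nat_lit 392) (B (M (nat_lit 391) (B (L (nat_lit 362) ln7_12_2_c10 ln7_12_2_c10_ok) (M (nat_lit 423) (B (L (nat_lit 424) ln11_12_1 ln11_12_1_ok) (L (nat_lit 422) ln10_12_1_c10 ln10_12_1_c10_ok))))) (B (M (nat_lit 391) (B (L (nat_lit 362) ln7_12_2_c10 ln7_12_2_c10_ok) (M (nat_lit 359) (B (L (nat_lit 360) ln11_12_3 ln11_12_3_ok) (L (nat_lit 358) ln10_12_3_c10 ln10_12_3_c10_ok))))) (M (nat_lit 424) (B (L (nat_lit 423) ln11_12_1 ln11_12_1_ok) (M (nat_lit 425) (B (L (nat_lit 396) ln12_12_1 ln12_12_1_ok) (M (nat_lit 360) (B (L (nat_lit 359) ln11_12_3 ln11_12_3_ok) (M (nat_lit 328) (B (L (nat_lit 457) ln8_10_4_c10 ln8_10_4_c10_ok) (L (nat_lit 296) ln8_9_4_c10 ln8_9_4_c10_ok)))))))))))) (K (nat_lit 5954262831162530206346786711756861527322218750232776657684832337809722248923353583655781407537469496724746881305457534074434391773257138176) (nat_lit 799167629066964724729179441932814488185616020053028180498916051810024985612827009049383700305517874013533476104524472339367141519515945406117707776)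 (nat_lit 799167629066964724729179441932814488185616020053028180498916051810024985612827009049383700305517874013533476104524472339367141519515945406117707776) c10_s63)))))
noncomputable def c10_d283 : Cert := (B (M (nat_lit 361) (B (M (nat_lit 329) (B (M (nat_lit 425) (B (M (nat_lit 328) (B (M (nat_lit 327) (B (M (nat_lit 326) (B (M (nat_lit 325) (B (L (nat_lit 360) ln5_10_0_c10 ln5_10_0_c10_ok) (M (nat_lit 293) (B (L (nat_lit 294) ln9_10_3_c10 ln9_10_3_c10_ok) (L (nat_lit 292) ln8_10_3_c10 ln8_10_3_c10_ok))))) (B (M (nat_lit 325) (B (L (nat_lit 360) ln5_10_0_c10 ln5_10_0_c10_ok) (M (nat_lit 357) (B (L (nat_lit 358) ln9_10_1_c10 ln9_10_1_c10_ok) (L (nat_lit 356) ln8_10_1_c10 ln8_10_1_c10_ok))))) (M (nat_lit 294) (B (L (nat_lit 293) ln9_10_3_c10 ln9_10_3_c10_ok) (M (nat_lit 295) (B (L (nat_lit 330) ln10_10_3_c10 ln10_10_3_c10_ok) (M (nat_lit 358) (B (L (nat_lit 357) ln9_10_1_c10 ln9_10_1_c10_ok)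 (M (nat_lit 390) (B (L (nat_lit 263) ln6_12_6_c10 ln6_12_6_c10_ok) (L (nat_lit 422) ln6_13_6_c10 ln6_13_6_c10_ok)))))))))))) (B (M (nat_lit 326) (B (L (nat_lit 362) ln6_10_0_c10 ln6_10_0_c10_ok) (M (nat_lit 293) (B (L (nat_lit 294) ln9_10_3_c10 ln9_10_3_c10_ok) (M (nat_lit 357) (B (L (nat_lit 358) ln9_10_1_c10 ln9_10_1_c10_ok) (M (nat_lit 325) (B (L (nat_lit 292) ln8_10_3_c10 ln8_10_3_c10_ok) (L (nat_lit 356) ln8_10_1_c10 ln8_10_1_c10_ok))))))))) (M (nat_lit 362) (B (L (nat_lit 330) ln7_10_0_c10 ln7_10_0_c10_ok) (L (nat_lit 360) ln11_11_3 ln11_11_3_ok)))))) (L (nat_lit 296) ln9_13_7_c10 ln9_13_7_c10_ok))) (K (nat_lit 5954262831249176134288062176123384055743331407783335783446091530952109911598053723981568396418746000268935436507528095375359547387487977472) (nat_lit 58968162911863375444825597733847107290108611968986198456240235257944795996682787508621611392174757554493745749304385743066570958408457673460939377481911311327584845824)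 (nat_lit 58968162911863375444825597733847107290108611968986198456240235257944795996682787508621611392174757554493745749304385743066570958408457673460939377481911311327584845824) c10_s57))) (B (K (nat_lit 5954262831162530206346786711761558612488860042050947124840597262978032424703846808112642595698746800078181074691984620032815685767832535040) (nat_lit 86645927941275464371219613588710871564768917838233368701465184785704670275449471797581403731168900613202845634314142919042269184) (nat_lit 86645927941275464371219613588710871564768917838233368701465184785704670275449471797581403731168900613202845634314142919042269184) c10_s58) (B (K (nat_lit 5954262831162530206346786711761558612488860042050947124840597262978032424703846808112642595698746800078181074691984620032815685767832535040) (nat_lit 259937783823826393085476329766148160604035943961802268792819711731924304364926677637943105879711921577841747673625429088634142720)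 (nat_lit 259937783823826393085476329766148160604035943961802268792819711731924304364926677637943105879711921577841747673625429088634142720) c10_s59) (M (nat_lit 426) (B (M (nat_lit 458) (B (L (nat_lit 362) ln10_14_7 ln10_14_7_ok) (L (nat_lit 490) ln10_15_6 ln10_15_6_ok))) (L (nat_lit 297) ln9_9_4_c10 ln9_9_4_c10_ok))))))) (B (M (nat_lit 329) (B (M (nat_lit 425) (B (M (nat_lit 328) (B (L (nat_lit 296) ln9_13_7_c10 ln9_13_7_c10_ok) (M (nat_lit 330) (B (L (nat_lit 298) ln9_13_6_c10 ln9_13_6_c10_ok) (M (nat_lit 327) (B (L (nat_lit 362) ln7_10_0_c10 ln7_10_0_c10_ok) (M (nat_lit 358) (B (L (nat_lit 359) ln10_10_1_c10 ln10_10_1_c10_ok) (M (nat_lit 326) (B (L (nat_lit 357) ln9_10_1_c10 ln9_10_1_c10_ok) (M (nat_lit 294) (B (L (nat_lit 293) ln9_10_3_c10 ln9_10_3_c10_ok) (L (nat_lit 295) ln10_10_3_c10 ln10_10_3_c10_ok))))))))))))) (K (nat_lit 5954262831249176134288062176123384055743331407783335783446091530952109911598053723981568396418746000268935436507528095375359547387487977472)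 (nat_lit 58968162911863375444825597733847107290108611968986198456240235257944795996682787508621611392174757554493745749304385743066570958408457673460939377481911311327584845824) (nat_lit 58968162911863375444825597733847107290108611968986198456240235257944795996682787508621611392174757554493745749304385743066570958408457673460939377481911311327584845824) c10_s57))) (B (K (nat_lit 5954262831162530206346786711761558612488860042050947124840597262978032424703846808112642595698746800078181074691984620032815685767832535040) (nat_lit 86645927941275464371219613588710871564768917838233368701465184785704670275449471797581403731168900613202845634314142919042269184) (nat_lit 86645927941275464371219613588710871564768917838233368701465184785704670275449471797581403731168900613202845634314142919042269184) c10_s58) (B (K (nat_lit 5954262831162530206346786711761558612488860042050947124840597262978032424703846808112642595698746800078181074691984620032815685767832535040)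 (nat_lit 259937783823826393085476329766148160604035943961802268792819711731924304364926677637943105879711921577841747673625429088634142720) (nat_lit 259937783823826393085476329766148160604035943961802268792819711731924304364926677637943105879711921577841747673625429088634142720) c10_s59) (M (nat_lit 426) (B (M (nat_lit 458) (B (L (nat_lit 362) ln10_14_7 ln10_14_7_ok) (L (nat_lit 490) ln10_15_6 ln10_15_6_ok))) (L (nat_lit 297) ln9_9_4_c10 ln9_9_4_c10_ok))))))) (B (M (nat_lit 360) (B (M (nat_lit 359) (B (L (nat_lit 362) ln7_11_0 ln7_11_0_ok) (L (nat_lit 392) ln11_12_3 ln11_12_3_ok))) (L (nat_lit 396) ln12_12_3 ln12_12_3_ok))) (M (nat_lit 360) (B (M (nat_lit 359) (B (L (nat_lit 392) ln11_12_3 ln11_12_3_ok) (L (nat_lit 358) ln6_11_0_c10 ln6_11_0_c10_ok))) (L (nat_lit 396) ln12_12_3 ln12_12_3_ok))))))) (B (M (nat_lit 361) c10_d281) (B (M (nat_lit 425) (B (M (nat_lit 457) (B (M (nat_lit 361) (B (M (nat_lit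 456) (B (M (nat_lit 455) (B (M (nat_lit 454) (B (M (nat_lit 458) (B (L (nat_lit 490) ln9_11_4 ln9_11_4_ok) (M (nat_lit 486) (B (L (nat_lit 485) ln9_14_1_c10 ln9_14_1_c10_ok) (L (nat_lit 487) ln10_14_1_c10 ln10_14_1_c10_ok))))) (M (nat_lit 453) (B (L (nat_lit 424) ln5_14_2_c10 ln5_14_2_c10_ok) (M (nat_lit 421) (B (L (nat_lit 420) ln8_14_3_c10 ln8_14_3_c10_ok) (L (nat_lit 422) ln9_14_3_c10 ln9_14_3_c10_ok))))))) (B (M (nat_lit 454) (B (L (nat_lit 426) ln6_14_2_c10 ln6_14_2_c10_ok) (M (nat_lit 458) (B (M (nat_lit 486) (B (L (nat_lit 485) ln9_14_1_c10 ln9_14_1_c10_ok) (L (nat_lit 487) ln10_14_1_c10 ln10_14_1_c10_ok))) (L (nat_lit 490) ln9_11_4 ln9_11_4_ok))))) (M (nat_lit 424) (B (L (nat_lit 426) ln11_13_1_c10 ln11_13_1_c10_ok) (L (nat_lit 396) ln12_12_1 ln12_12_1_ok)))))) (L (nat_lit 488) ln9_11_5_c10 ln9_11_5_c10_ok))) (K (nat_lit 6326404258088526862249315965762042377331302159092851124348028261819038416429436876009131608165980060532840871070336690515717506832827154432)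 (nat_lit 9394170334923021680819396494663064093641890181266630392637610826424949685659795295693635214589513106083282944) (nat_lit 9394170334923021680819396494663064093641890181266630392637610826424949685659795295693635214589513106083282944) c10_s60))) (B (K (nat_lit 6326404258088526862249315965757345292165754492637072163154449587764287051331620236267717026222915642482611654183409292518947969426763284480) (nat_lit 73710203633822521352019170315274320504993809394296038195131500721061216482475037652980438113484007507029333623895206867201193804318664994975197453370385243603378110464) (nat_lit 73710203633822521352019170315274320504993809394296038195131500721061216482475037652980438113484007507029333623895206867201193804318664994975197453370385243603378110464) c10_s61) (B (M (nat_lit 489) (B (L (nat_lit 362) ln9_15_6 ln9_15_6_ok) (M (nat_lit 520) (B (L (nat_lit 488) ln9_12_5_c10 ln9_12_5_c10_ok) (M (nat_lit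 522) (B (L (nat_lit 490) ln9_12_4 ln9_12_4_ok) (M (nat_lit 521) (B (L (nat_lit 552) ln9_13_5_c10 ln9_13_5_c10_ok) (L (nat_lit 554) ln9_13_4 ln9_13_4_ok))))))))) (M (nat_lit 362) (B (M (nat_lit 330) (B (L (nat_lit 426) ln10_10_5 ln10_10_5_ok) (L (nat_lit 298) ln10_9_4 ln10_9_4_ok))) (L (nat_lit 489) ln9_15_6 ln9_15_6_ok))))))) (B (M (nat_lit 457) (B (M (nat_lit 361) (B (M (nat_lit 456) (B (L (nat_lit 488) ln9_11_5_c10 ln9_11_5_c10_ok) (M (nat_lit 458) (B (L (nat_lit 490) ln9_11_4 ln9_11_4_ok) (M (nat_lit 455) (B (L (nat_lit 426) ln7_14_2 ln7_14_2_ok) (M (nat_lit 422) (B (L (nat_lit 423) ln10_14_3 ln10_14_3_ok) (M (nat_lit 454) (B (L (nat_lit 421) ln9_14_3_c10 ln9_14_3_c10_ok) (M (nat_lit 486) (B (L (nat_lit 485) ln9_14_1_c10 ln9_14_1_c10_ok) (L (nat_lit 487) ln10_14_1_c10 ln10_14_1_c10_ok))))))))))))) (K (nat_lit 6326404258088526862249315965762042377331302159092851124348028261819038416429436876009131608165980060532840871070336690515717506832827154432)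 (nat_lit 9394170334923021680819396494663064093641890181266630392637610826424949685659795295693635214589513106083282944) (nat_lit 9394170334923021680819396494663064093641890181266630392637610826424949685659795295693635214589513106083282944) c10_s60))) (B (K (nat_lit 6326404258088526862249315965757345292165754492637072163154449587764287051331620236267717026222915642482611654183409292518947969426763284480) (nat_lit 73710203633822521352019170315274320504993809394296038195131500721061216482475037652980438113484007507029333623895206867201193804318664994975197453370385243603378110464) (nat_lit 73710203633822521352019170315274320504993809394296038195131500721061216482475037652980438113484007507029333623895206867201193804318664994975197453370385243603378110464) c10_s61) (B (M (nat_lit 489) (B (L (nat_lit 362) ln9_15_6 ln9_15_6_ok) (M (nat_lit 520) (B (L (nat_lit 488) ln9_12_5_c10 ln9_12_5_c10_ok) (M (nat_lit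 522) (B (L (nat_lit 490) ln9_12_4 ln9_12_4_ok) (M (nat_lit 521) (B (L (nat_lit 552) ln9_13_5_c10 ln9_13_5_c10_ok) (L (nat_lit 554) ln9_13_4 ln9_13_4_ok))))))))) (M (nat_lit 362) (B (M (nat_lit 330) (B (L (nat_lit 426) ln10_10_5 ln10_10_5_ok) (L (nat_lit 298) ln10_9_4 ln10_9_4_ok))) (L (nat_lit 489) ln9_15_6 ln9_15_6_ok))))))) (B (M (nat_lit 392) (B (M (nat_lit 391) (B (L (nat_lit 426) ln7_12_0_c10 ln7_12_0_c10_ok) (L (nat_lit 362) ln7_12_2_c10 ln7_12_2_c10_ok))) (M (nat_lit 424) (B (L (nat_lit 423) ln11_12_1 ln11_12_1_ok) (L (nat_lit 396) ln12_12_1 ln12_12_1_ok))))) (M (nat_lit 424) (B (M (nat_lit 423) (B (L (nat_lit 392) ln11_12_1 ln11_12_1_ok) (L (nat_lit 422) ln6_13_2_c10 ln6_13_2_c10_ok))) (L (nat_lit 396) ln12_12_1 ln12_12_1_ok))))))) c10_d282)))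
noncomputable def c10_d284 : Cert := (B (M (nat_lit 425) (B (M (nat_lit 457) (B (M (nat_lit 362) (B (L (nat_lit 489) ln9_15_6 ln9_15_6_ok) (M (nat_lit 330) (B (L (nat_lit 361) ln9_14_6_c10 ln9_14_6_c10_ok) (L (nat_lit 298) ln10_9_4 ln10_9_4_ok))))) (B (M (nat_lit 361) (B (M (nat_lit 362) (B (L (nat_lit 330) ln9_14_6_c10 ln9_14_6_c10_ok) (M (nat_lit 360) (B (L (nat_lit 328) ln9_14_7_c10 ln9_14_7_c10_ok) (L (nat_lit 359) ln7_11_0 ln7_11_0_ok))))) (B (M (nat_lit 329) (B (M (nat_lit 456) (B (L (nat_lit 488) ln9_11_5_c10 ln9_11_5_c10_ok) (L (nat_lit 424) ln9_10_5_c10 ln9_10_5_c10_ok))) (M (nat_lit 330) (B (L (nat_lit 362) ln9_14_6_c10 ln9_14_6_c10_ok) (L (nat_lit 298) ln9_13_6_c10 ln9_13_6_c10_ok))))) (M (nat_lit 329) (B (M (nat_lit 456) (B (L (nat_lit 488) ln9_11_5_c10 ln9_11_5_c10_ok) (L (nat_lit 424) ln9_10_5_c10 ln9_10_5_c10_ok))) (M (nat_lit 328) (B (L (nat_lit 360) ln9_14_7_c10 ln9_14_7_c10_ok)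 (L (nat_lit 296) ln9_13_7_c10 ln9_13_7_c10_ok)))))))) (B (M (nat_lit 489) (B (L (nat_lit 362) ln9_15_6 ln9_15_6_ok) (M (nat_lit 521) (B (M (nat_lit 520) (B (L (nat_lit 552) ln9_13_5_c10 ln9_13_5_c10_ok) (L (nat_lit 488) ln9_12_5_c10 ln9_12_5_c10_ok))) (M (nat_lit 522) (B (L (nat_lit 554) ln9_13_4 ln9_13_4_ok) (L (nat_lit 490) ln9_12_4 ln9_12_4_ok))))))) (M (nat_lit 490) (B (M (nat_lit 522) (B (L (nat_lit 489) ln9_12_4 ln9_12_4_ok) (M (nat_lit 458) (B (L (nat_lit 554) ln10_17_7 ln10_17_7_ok) (L (nat_lit 361) ln9_11_4 ln9_11_4_ok))))) (B (M (nat_lit 488) (B (M (nat_lit 489) (B (L (nat_lit 520) ln9_12_5_c10 ln9_12_5_c10_ok) (L (nat_lit 522) ln9_12_4 ln9_12_4_ok))) (M (nat_lit 361) (B (L (nat_lit 456) ln9_11_5_c10 ln9_11_5_c10_ok) (L (nat_lit 458) ln9_11_4 ln9_11_4_ok))))) (B (M (nat_lit 361) (B (L (nat_lit 458) ln9_11_4 ln9_11_4_ok) (M (nat_lit 329) (B (M (nat_lit 456) (B (L (nat_lit 488) ln9_11_5_c10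 ln9_11_5_c10_ok) (L (nat_lit 424) ln9_10_5_c10 ln9_10_5_c10_ok))) (M (nat_lit 328) (B (L (nat_lit 360) ln9_14_7_c10 ln9_14_7_c10_ok) (L (nat_lit 296) ln9_13_7_c10 ln9_13_7_c10_ok))))))) (B (M (nat_lit 489) (B (L (nat_lit 522) ln9_12_4 ln9_12_4_ok) (M (nat_lit 488) (B (L (nat_lit 520) ln9_12_5_c10 ln9_12_5_c10_ok) (M (nat_lit 456) (B (L (nat_lit 361) ln9_11_5_c10 ln9_11_5_c10_ok) (M (nat_lit 455) (B (L (nat_lit 491) ln11_15_3 ln11_15_3_ok) (L (nat_lit 454) ln6_14_0_c10 ln6_14_0_c10_ok))))))))) (M (nat_lit 489) (B (L (nat_lit 522) ln9_12_4 ln9_12_4_ok) (M (nat_lit 456) (B (M (nat_lit 488) (B (L (nat_lit 520) ln9_12_5_c10 ln9_12_5_c10_ok) (M (nat_lit 491) (B (L (nat_lit 455) ln11_15_3 ln11_15_3_ok) (L (nat_lit 492) ln12_15_3 ln12_15_3_ok))))) (B (M (nat_lit 491) (B (L (nat_lit 492) ln12_15_3 ln12_15_3_ok) (M (nat_lit 455) (B (L (nat_lit 488) ln11_15_3 ln11_15_3_ok) (L (nat_lit 454) ln6_14_0_c10 ln6_14_0_c10_ok)))))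 (B (M (nat_lit 491) (B (L (nat_lit 492) ln12_15_3 ln12_15_3_ok) (M (nat_lit 455) (B (L (nat_lit 454) ln6_14_0_c10 ln6_14_0_c10_ok) (L (nat_lit 458) ln7_14_0 ln7_14_0_ok))))) (M (nat_lit 521) (B (M (nat_lit 520) (B (L (nat_lit 552) ln9_13_5_c10 ln9_13_5_c10_ok) (L (nat_lit 488) ln9_12_5_c10 ln9_12_5_c10_ok))) (B (M (nat_lit 553) (B (L (nat_lit 424) ln9_17_7_c10 ln9_17_7_c10_ok) (M (nat_lit 585) (B (L (nat_lit 488) ln9_18_7_c10 ln9_18_7_c10_ok) (L (nat_lit 458) ln9_18_6 ln9_18_6_ok))))) (M (nat_lit 553) (B (L (nat_lit 424) ln9_17_7_c10 ln9_17_7_c10_ok) (M (nat_lit 552) (B (L (nat_lit 584) ln9_14_5 ln9_14_5_ok) (L (nat_lit 520) ln9_13_5_c10 ln9_13_5_c10_ok))))))))))))))))))))))) (B (M (nat_lit 361) (B (M (nat_lit 360) (B (L (nat_lit 396) ln12_12_3 ln12_12_3_ok) (M (nat_lit 359) (B (L (nat_lit 358) ln6_11_0_c10 ln6_11_0_c10_ok) (L (nat_lit 362) ln7_11_0 ln7_11_0_ok))))) (B (M (nat_lit 457) (B (M (nat_lit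 360) (B (L (nat_lit 328) ln9_14_7_c10 ln9_14_7_c10_ok) (L (nat_lit 396) ln12_12_3 ln12_12_3_ok))) (M (nat_lit 362) (B (L (nat_lit 489) ln9_15_6 ln9_15_6_ok) (L (nat_lit 330) ln9_14_6_c10 ln9_14_6_c10_ok))))) (B (M (nat_lit 329) (B (M (nat_lit 298) (B (L (nat_lit 330) ln9_13_6_c10 ln9_13_6_c10_ok) (M (nat_lit 297) (B (L (nat_lit 266) ln9_12_6_c10 ln9_12_6_c10_ok) (M (nat_lit 296) (B (L (nat_lit 328) ln9_13_7_c10 ln9_13_7_c10_ok) (L (nat_lit 264) ln9_12_7_c10 ln9_12_7_c10_ok))))))) (B (M (nat_lit 457) (B (M (nat_lit 362) (B (L (nat_lit 489) ln9_15_6 ln9_15_6_ok) (L (nat_lit 330) ln9_14_6_c10 ln9_14_6_c10_ok))) (B (M (nat_lit 330) (B (L (nat_lit 362) ln9_14_6_c10 ln9_14_6_c10_ok) (L (nat_lit 298) ln9_13_6_c10 ln9_13_6_c10_ok))) (M (nat_lit 489) (B (M (nat_lit 488) (B (L (nat_lit 520) ln9_12_5_c10 ln9_12_5_c10_ok) (L (nat_lit 456) ln9_11_5_c10 ln9_11_5_c10_ok))) (M (nat_lit 490) (B (L (nat_lit 522)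 ln9_12_4 ln9_12_4_ok) (L (nat_lit 458) ln9_11_4 ln9_11_4_ok)))))))) (B (M (nat_lit 297) (B (M (nat_lit 296) (B (L (nat_lit 328) ln9_13_7_c10 ln9_13_7_c10_ok) (L (nat_lit 264) ln9_12_7_c10 ln9_12_7_c10_ok))) (M (nat_lit 265) (B (L (nat_lit 362) ln9_8_4_c10 ln9_8_4_c10_ok) (M (nat_lit 266) (B (L (nat_lit 298) ln9_12_6_c10 ln9_12_6_c10_ok) (L (nat_lit 234) ln9_11_6_c10 ln9_11_6_c10_ok))))))) (M (nat_lit 296) (B (L (nat_lit 328) ln9_13_7_c10 ln9_13_7_c10_ok) (M (nat_lit 362) (B (M (nat_lit 457) (B (L (nat_lit 489) ln9_15_6 ln9_15_6_ok) (L (nat_lit 330) ln9_14_6_c10 ln9_14_6_c10_ok))) (M (nat_lit 297) (B (L (nat_lit 264) ln9_12_7_c10 ln9_12_7_c10_ok) (L (nat_lit 265) ln9_8_4_c10 ln9_8_4_c10_ok))))))))))) (M (nat_lit 360) (B (L (nat_lit 396) ln12_12_3 ln12_12_3_ok) (M (nat_lit 328) (B (L (nat_lit 457) ln9_14_7_c10 ln9_14_7_c10_ok) (M (nat_lit 296) (B (L (nat_lit 264) ln8_8_4_c10 ln8_8_4_c10_ok) (L (nat_lit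 329) ln9_13_7_c10 ln9_13_7_c10_ok))))))))))) (M (nat_lit 396) (B (L (nat_lit 428) ln9_12_0 ln9_12_0_ok) (L (nat_lit 424) ln12_12_1 ln12_12_1_ok)))))) (B (K (nat_lit 5954262831162530206346786711756861527322218750232776657684832337809722248923353583655781407537469496724746881305457534074434391773257138176) (nat_lit 558212140421487206846902550534026873521656579055318364561403315544245673661282770758724035080785440363186703274071640605919821118778114048) (nat_lit 558212140421487206846902550534026873521656579055318364561403315544245673661282770758724035080785440363186703274071640605919821118778114048) c10_s62) (M (nat_lit 428) (B (L (nat_lit 396) ln9_12_0 ln9_12_0_ok) (L (nat_lit 392) ln8_12_0 ln8_12_0_ok)))))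
theorem c10_s66 : Sem (nat_lit 5954262831162530206286265230239199607252158144638956066880229858290287322841385004986859978896449781225614568337954303650155411180145868800) (nat_lit 189949748434538567236206749329374652210244966943389983390402023942188957950321746598928600557155546082944760903427168424727567665577135175919420507744831566744709702606567505920) (nat_lit 189949748434538567236206749329374652210244966943389983390402023942188957950321746598928600557155546082944760903427168424727567665577135175919420507744831566744709702606567505920) :=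
  sem_of_chk (M (nat_lit 394) (B (M (nat_lit 393) c10_d283) (B (M (nat_lit 393) c10_d284) (B (M (nat_lit 426) (B (M (nat_lit 362) (B (M (nat_lit 458) (B (M (nat_lit 361) (B (M (nat_lit 360) (B (L (nat_lit 359) ln7_11_0 ln7_11_0_ok) (M (nat_lit 392) (B (L (nat_lit 391) ln11_11_1 ln11_11_1_ok) (M (nat_lit 328) (B (L (nat_lit 327) ln11_11_3 ln11_11_3_ok) (M (nat_lit 457) (B (L (nat_lit 489) ln10_11_5 ln10_11_5_ok) (M (nat_lit 425) (B (L (nat_lit 393) ln9_14_7_c10 ln9_14_7_c10_ok) (L (nat_lit 424) ln8_10_4_c10 ln8_10_4_c10_ok))))))))))) (L (nat_lit 329) ln10_14_7 ln10_14_7_ok))) (L (nat_lit 490) ln10_15_6 ln10_15_6_ok))) (B (M (nat_lit 330) (B (M (nat_lit 425) (B (M (nat_lit 424) (B (L (nat_lit 423) ln7_13_2 ln7_13_2_ok) (M (nat_lit 392) (B (L (nat_lit 391) ln11_13_3 ln11_13_3_ok) (M (nat_lit 456) (B (L (nat_lit 455) ln11_13_1_c10 ln11_13_1_c10_ok) (M (nat_lit 329) (B (L (nat_lit 297) ln10_13_7_c10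 ln10_13_7_c10_ok) (M (nat_lit 361) (B (L (nat_lit 393) ln9_10_5_c10 ln9_10_5_c10_ok) (L (nat_lit 360) ln8_14_6_c10 ln8_14_6_c10_ok))))))))))) (L (nat_lit 457) ln10_10_5 ln10_10_5_ok))) (L (nat_lit 298) ln10_9_4 ln10_9_4_ok))) (B (M (nat_lit 330) (B (L (nat_lit 298) ln10_9_4 ln10_9_4_ok) (M (nat_lit 457) (B (L (nat_lit 425) ln10_10_5 ln10_10_5_ok) (M (nat_lit 458) (B (L (nat_lit 489) ln10_11_5 ln10_11_5_ok) (L (nat_lit 490) ln10_15_6 ln10_15_6_ok))))))) (M (nat_lit 329) (B (M (nat_lit 330) (B (L (nat_lit 298) ln10_9_4 ln10_9_4_ok) (L (nat_lit 297) ln10_13_7_c10 ln10_13_7_c10_ok))) (M (nat_lit 458) (B (L (nat_lit 490) ln10_15_6 ln10_15_6_ok) (L (nat_lit 361) ln10_14_7 ln10_14_7_ok))))))))) (B (M (nat_lit 458) (B (L (nat_lit 490) ln10_15_6 ln10_15_6_ok) (M (nat_lit 362) (B (M (nat_lit 457) (B (L (nat_lit 428) ln13_13_1 ln13_13_1_ok) (L (nat_lit 489) ln10_11_5 ln10_11_5_ok))) (M (nat_lit 330) (B (L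 (nat_lit 298) ln10_9_4 ln10_9_4_ok) (M (nat_lit 329) (B (L (nat_lit 361) ln10_14_7 ln10_14_7_ok) (L (nat_lit 297) ln10_13_7_c10 ln10_13_7_c10_ok))))))))) (M (nat_lit 428) (B (L (nat_lit 462) ln10_13_0 ln10_13_0_ok) (L (nat_lit 393) ln13_13_3 ln13_13_3_ok)))))) (B (K (nat_lit 5954262831162530206326612884584307553965531881701503127416631511303243940229364057432807597990462924891702776982956457266341398242220048384) (nat_lit 4795005789287445422512304300767593723741649389930782005514523996755627690063696218466201995485653276640510952185907879856893413127851204268383010816) (nat_lit 4795005789287445422512304300767593723741649389930782005514523996755627690063696218466201995485653276640510952185907879856893413127851204268383010816) c10_s65) (B (M (nat_lit 426) (B (K (nat_lit 5954262831335822062209163813307958440474474613166280444627620047251398914017777889170659199430461325273211500614043407951429121481530933248)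 (nat_lit 4795005774401788348006831456948730896305693011382639757014817412684603219362087058080037007904176766733433485419552530287300431454245633414785925120) (nat_lit 4795005774401788348006831456948730896305693011382639757014817412684603219362087058080037007904176766733433485419552530287300431454245633414785925120) c10_s64) (M (nat_lit 428) (B (L (nat_lit 462) ln10_13_0 ln10_13_0_ok) (L (nat_lit 393) ln13_13_3 ln13_13_3_ok))))) (B (M (nat_lit 393) (B (K (nat_lit 5954262831162530206346786711756861527322218750232776657684832337809722248923353583655781407537469496724746881305457534074434391773257138176) (nat_lit 799167629066964724729179441932814488185616020053028180498916051810024985612827009049383700305517874013533476104524472339367141519515945406117707776) (nat_lit 799167629066964724729179441932814488185616020053028180498916051810024985612827009049383700305517874013533476104524472339367141519515945406117707776)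 c10_s63) (B (M (nat_lit 392) (B (L (nat_lit 428) ln8_12_0 ln8_12_0_ok) (M (nat_lit 359) (B (L (nat_lit 360) ln11_12_3 ln11_12_3_ok) (M (nat_lit 423) (B (L (nat_lit 424) ln11_12_1 ln11_12_1_ok) (M (nat_lit 391) (B (L (nat_lit 358) ln10_12_3_c10 ln10_12_3_c10_ok) (L (nat_lit 422) ln10_12_1_c10 ln10_12_1_c10_ok))))))))) (M (nat_lit 428) (B (L (nat_lit 396) ln9_12_0 ln9_12_0_ok) (L (nat_lit 426) ln13_13_3 ln13_13_3_ok)))))) (M (nat_lit 428) (B (M (nat_lit 426) (B (M (nat_lit 458) (B (L (nat_lit 457) ln13_13_1 ln13_13_1_ok) (L (nat_lit 490) ln10_15_6 ln10_15_6_ok))) (M (nat_lit 425) (B (L (nat_lit 462) ln10_13_0 ln10_13_0_ok) (M (nat_lit 424) (B (L (nat_lit 396) ln8_13_2 ln8_13_2_ok) (L (nat_lit 423) ln7_13_2 ln7_13_2_ok))))))) (B (M (nat_lit 426) (B (M (nat_lit 458) (B (L (nat_lit 457) ln13_13_1 ln13_13_1_ok) (L (nat_lit 490) ln10_15_6 ln10_15_6_ok))) (M (nat_lit 425) (B (L (nat_lit 462) ln10_13_0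 ln10_13_0_ok) (L (nat_lit 393) ln13_13_3 ln13_13_3_ok))))) (M (nat_lit 393) (B (L (nat_lit 396) ln9_12_0 ln9_12_0_ok) (L (nat_lit 392) ln8_12_0 ln8_12_0_ok))))))))))))) (nat_lit 5954262831162530206286265230239199607252158144638956066880229858290287322841385004986859978896449781225614568337954303650155411180145868800) (nat_lit 189949748434538567236206749329374652210244966943389983390402023942188957950321746598928600557155546082944760903427168424727567665577135175919420507744831566744709702606567505920) (nat_lit 189949748434538567236206749329374652210244966943389983390402023942188957950321746598928600557155546082944760903427168424727567665577135175919420507744831566744709702606567505920) (by decide +kernel)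
theorem c10_s78 : Sem (nat_lit 5954262831162530206286265230239199607252158144638956066880229858290287322841385004986859978896449781225614568337954303650155411180145868800) (nat_lit 54918381305819074232979191551847507108488626286461226742647112418523033493016920512800165714062236620462190237564766049698911130333067494708350207905480310784) (nat_lit 54918381305819074232979191551847507108488626286461226742647112418523033493016920512800165714062236620462190237564766049698911130333067494708350207905480310784) :=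
  sem_of_chk (M (nat_lit 459) (B (K (nat_lit 7442828538519933118131280388793832893608415651326583454336721786212236584897623951958899250758237563494056212587587436058034275315548684288) (nat_lit 5594173415516831767515619254948884627131496619889049474097145503527912348745200832582722642505607260041579173786688002516802584410574164248504565760) (nat_lit 5594173415516831767515619254948884627131496619889049474097145503527912348745200832582722642505607260041579173786688002516802584410574164248504565760) c10_s77) (B (M (nat_lit 460) (B (M (nat_lit 426) (B (L (nat_lit 462) ln14_14_3 ln14_14_3_ok) (M (nat_lit 425) (B (L (nat_lit 458) ln13_14_3 ln13_14_3_ok) (L (nat_lit 424) ln8_13_0 ln8_13_0_ok))))) (L (nat_lit 492) ln11_11_4 ln11_11_4_ok))) (M (nat_lit 491) (B (M (nat_lit 362) (B (L (nat_lit 330) ln11_14_7 ln11_14_7_ok) (L (nat_lit 394) ln11_15_7 ln11_15_7_ok))) (M (nat_lit 492) (B (L (nat_lit 460) ln11_11_4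 ln11_11_4_ok) (L (nat_lit 524) ln11_12_4 ln11_12_4_ok)))))))) (nat_lit 5954262831162530206286265230239199607252158144638956066880229858290287322841385004986859978896449781225614568337954303650155411180145868800) (nat_lit 54918381305819074232979191551847507108488626286461226742647112418523033493016920512800165714062236620462190237564766049698911130333067494708350207905480310784) (nat_lit 54918381305819074232979191551847507108488626286461226742647112418523033493016920512800165714062236620462190237564766049698911130333067494708350207905480310784) (by decide +kernel)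
noncomputable def c10_d285 : Cert := (B (K (nat_lit 5954262830815946494440468064101681940811899709034891853222598870064191629631737737938871489733394699397153911884004846675984891374016135168) (nat_lit 14991311641878920136788001759366315514764032762596048764898271725174656960318609279403687936) (nat_lit 14991311641878920136788001759366315514764032762596048764898271725174656960318609279403687936) c10_s137) (B (M (nat_lit 235) (B (K (nat_lit 5954262830815946494440468064101681940811899709034891853222598870064246843602512062449170967780292915600773520755782209768426191567806529536) (nat_lit 37576681333130334547400773222928171830265899068855114835786287125904662031722023062561151709410963418890895360) (nat_lit 37576681333130334547400773222928171830265899068855114835786287125904662031722023062561151709410963418890895360) c10_s134) (B (M (nat_lit 203) (B (M (nat_lit 202) (B (L (nat_lit 170) ln11_9_7_c10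 ln11_9_7_c10_ok) (L (nat_lit 234) ln11_10_7 ln11_10_7_ok))) (B (M (nat_lit 171) (B (M (nat_lit 172) (B (L (nat_lit 140) ln11_8_6_c10 ln11_8_6_c10_ok) (L (nat_lit 204) ln11_9_6_c10 ln11_9_6_c10_ok))) (M (nat_lit 266) (B (L (nat_lit 298) ln11_5_5_c10 ln11_5_5_c10_ok) (L (nat_lit 234) ln11_11_7 ln11_11_7_ok))))) (M (nat_lit 171) (B (M (nat_lit 170) (B (L (nat_lit 138) ln11_8_7_c10 ln11_8_7_c10_ok) (L (nat_lit 202) ln11_9_7_c10 ln11_9_7_c10_ok))) (M (nat_lit 172) (B (L (nat_lit 140) ln11_8_6_c10 ln11_8_6_c10_ok) (L (nat_lit 204) ln11_9_6_c10 ln11_9_6_c10_ok)))))))) (B (M (nat_lit 203) (B (M (nat_lit 332) (B (L (nat_lit 364) ln11_7_4 ln11_7_4_ok) (L (nat_lit 300) ln11_6_4_c10 ln11_6_4_c10_ok))) (B (M (nat_lit 171) (B (M (nat_lit 300) (B (L (nat_lit 332) ln11_6_4_c10 ln11_6_4_c10_ok) (L (nat_lit 268) ln11_5_4_c10 ln11_5_4_c10_ok))) (M (nat_lit 172) (B (L (nat_lit 204) ln11_9_6_c10 ln11_9_6_c10_ok) (L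 (nat_lit 140) ln11_8_6_c10 ln11_8_6_c10_ok))))) (M (nat_lit 171) (B (M (nat_lit 172) (B (L (nat_lit 204) ln11_9_6_c10 ln11_9_6_c10_ok) (L (nat_lit 140) ln11_8_6_c10 ln11_8_6_c10_ok))) (M (nat_lit 234) (B (L (nat_lit 202) ln11_10_7 ln11_10_7_ok) (L (nat_lit 266) ln11_11_7 ln11_11_7_ok)))))))) (B (M (nat_lit 203) (B (M (nat_lit 202) (B (L (nat_lit 170) ln11_9_7_c10 ln11_9_7_c10_ok) (L (nat_lit 234) ln11_10_7 ln11_10_7_ok))) (M (nat_lit 332) (B (L (nat_lit 300) ln11_6_4_c10 ln11_6_4_c10_ok) (L (nat_lit 364) ln11_7_4 ln11_7_4_ok))))) (B (M (nat_lit 203) (B (M (nat_lit 332) (B (L (nat_lit 300) ln11_6_4_c10 ln11_6_4_c10_ok) (L (nat_lit 364) ln11_7_4 ln11_7_4_ok))) (M (nat_lit 171) (B (M (nat_lit 172) (B (L (nat_lit 140) ln11_8_6_c10 ln11_8_6_c10_ok) (L (nat_lit 204) ln11_9_6_c10 ln11_9_6_c10_ok))) (M (nat_lit 266) (B (L (nat_lit 298) ln11_5_5_c10 ln11_5_5_c10_ok) (L (nat_lit 234) ln11_11_7 ln11_11_7_ok)))))))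 (M (nat_lit 234) (B (L (nat_lit 202) ln11_10_7 ln11_10_7_ok) (L (nat_lit 266) ln11_11_7 ln11_11_7_ok))))))))) (M (nat_lit 235) (B (M (nat_lit 203) (B (M (nat_lit 171) (B (M (nat_lit 300) (B (L (nat_lit 332) ln11_6_4_c10 ln11_6_4_c10_ok) (L (nat_lit 268) ln11_5_4_c10 ln11_5_4_c10_ok))) (M (nat_lit 170) (B (L (nat_lit 202) ln11_9_7_c10 ln11_9_7_c10_ok) (L (nat_lit 138) ln11_8_7_c10 ln11_8_7_c10_ok))))) (B (M (nat_lit 172) (B (L (nat_lit 204) ln11_9_6_c10 ln11_9_6_c10_ok) (M (nat_lit 171) (B (L (nat_lit 140) ln11_8_6_c10 ln11_8_6_c10_ok) (M (nat_lit 170) (B (L (nat_lit 202) ln11_9_7_c10 ln11_9_7_c10_ok) (L (nat_lit 138) ln11_8_7_c10 ln11_8_7_c10_ok))))))) (B (M (nat_lit 171) (B (M (nat_lit 300) (B (L (nat_lit 332) ln11_6_4_c10 ln11_6_4_c10_ok) (L (nat_lit 268) ln11_5_4_c10 ln11_5_4_c10_ok))) (M (nat_lit 172) (B (L (nat_lit 204) ln11_9_6_c10 ln11_9_6_c10_ok) (L (nat_lit 140) ln11_8_6_c10 ln11_8_6_c10_ok)))))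 (M (nat_lit 332) (B (L (nat_lit 364) ln11_7_4 ln11_7_4_ok) (L (nat_lit 300) ln11_6_4_c10 ln11_6_4_c10_ok))))))) (B (M (nat_lit 203) (B (M (nat_lit 300) (B (L (nat_lit 332) ln11_6_4_c10 ln11_6_4_c10_ok) (M (nat_lit 172) (B (L (nat_lit 204) ln11_9_6_c10 ln11_9_6_c10_ok) (M (nat_lit 171) (B (L (nat_lit 140) ln11_8_6_c10 ln11_8_6_c10_ok) (L (nat_lit 268) ln11_5_4_c10 ln11_5_4_c10_ok))))))) (B (M (nat_lit 171) (B (M (nat_lit 170) (B (L (nat_lit 138) ln11_8_7_c10 ln11_8_7_c10_ok) (L (nat_lit 202) ln11_9_7_c10 ln11_9_7_c10_ok))) (M (nat_lit 300) (B (L (nat_lit 268) ln11_5_4_c10 ln11_5_4_c10_ok) (L (nat_lit 332) ln11_6_4_c10 ln11_6_4_c10_ok))))) (M (nat_lit 204) (B (L (nat_lit 172) ln11_9_6_c10 ln11_9_6_c10_ok) (L (nat_lit 236) ln11_10_6 ln11_10_6_ok)))))) (B (M (nat_lit 203) (B (M (nat_lit 332) (B (L (nat_lit 364) ln11_7_4 ln11_7_4_ok) (L (nat_lit 300) ln11_6_4_c10 ln11_6_4_c10_ok))) (M (nat_lit 204)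 (B (L (nat_lit 236) ln11_10_6 ln11_10_6_ok) (L (nat_lit 172) ln11_9_6_c10 ln11_9_6_c10_ok))))) (B (M (nat_lit 332) (B (L (nat_lit 364) ln11_7_4 ln11_7_4_ok) (M (nat_lit 300) (B (L (nat_lit 203) ln11_6_4_c10 ln11_6_4_c10_ok) (M (nat_lit 298) (B (M (nat_lit 297) (B (L (nat_lit 333) ln9_9_0 ln9_9_0_ok) (L (nat_lit 296) ln8_9_0 ln8_9_0_ok))) (B (M (nat_lit 301) (B (M (nat_lit 266) (B (L (nat_lit 302) ln14_9_3 ln14_9_3_ok) (L (nat_lit 265) ln13_9_3 ln13_9_3_ok))) (B (M (nat_lit 302) (B (L (nat_lit 303) ln15_9_1_c10 ln15_9_1_c10_ok) (M (nat_lit 270) (B (L (nat_lit 271) ln11_9_2 ln11_9_2_ok) (L (nat_lit 269) ln10_9_2 ln10_9_2_ok))))) (M (nat_lit 269) (B (L (nat_lit 270) ln10_9_2 ln10_9_2_ok) (M (nat_lit 237) (B (L (nat_lit 205) ln13_6_5_c10 ln13_6_5_c10_ok) (M (nat_lit 238) (B (M (nat_lit 333) (B (L (nat_lit 206) ln13_10_6 ln13_10_6_ok) (L (nat_lit 334) ln10_9_0 ln10_9_0_ok))) (M (nat_lit 266) (B (L (nat_lit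 236) ln14_7_1_c10 ln14_7_1_c10_ok) (L (nat_lit 265) ln13_9_3 ln13_9_3_ok)))))))))))) (M (nat_lit 301) (B (M (nat_lit 266) (B (L (nat_lit 302) ln14_9_3 ln14_9_3_ok) (L (nat_lit 265) ln13_9_3 ln13_9_3_ok))) (B (M (nat_lit 302) (B (L (nat_lit 303) ln15_9_1_c10 ln15_9_1_c10_ok) (M (nat_lit 270) (B (L (nat_lit 271) ln11_9_2 ln11_9_2_ok) (L (nat_lit 269) ln10_9_2 ln10_9_2_ok))))) (M (nat_lit 265) (B (L (nat_lit 266) ln13_9_3 ln13_9_3_ok) (M (nat_lit 297) (B (L (nat_lit 264) ln12_9_3 ln12_9_3_ok) (L (nat_lit 296) ln8_9_0 ln8_9_0_ok))))))))))))))) (M (nat_lit 236) (B (L (nat_lit 204) ln11_10_6 ln11_10_6_ok) (L (nat_lit 268) ln11_11_6 ln11_11_6_ok))))))))))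
noncomputable def c10_d286 : Cert := (B (M (nat_lit 364) (B (M (nat_lit 332) (B (M (nat_lit 366) (B (M (nat_lit 334) (B (L (nat_lit 335) ln11_11_2 ln11_11_2_ok) (M (nat_lit 398) (B (L (nat_lit 399) ln11_11_0 ln11_11_0_ok) (M (nat_lit 302) (B (M (nat_lit 303) (B (L (nat_lit 333) ln11_10_2 ln11_10_2_ok) (L (nat_lit 271) ln14_12_6 ln14_12_6_ok))) (B (M (nat_lit 301) (B (L (nat_lit 269) ln14_12_7 ln14_12_7_ok) (M (nat_lit 303) (B (L (nat_lit 271) ln14_12_6 ln14_12_6_ok) (L (nat_lit 300) ln15_9_1_c10 ln15_9_1_c10_ok))))) (B (M (nat_lit 270) (B (M (nat_lit 238) (B (L (nat_lit 333) ln14_7_5_c10 ln14_7_5_c10_ok) (M (nat_lit 237) (B (L (nat_lit 205) ln14_10_7_c10 ln14_10_7_c10_ok) (L (nat_lit 269) ln14_11_7_c10 ln14_11_7_c10_ok))))) (B (M (nat_lit 269) (B (L (nat_lit 237) ln14_11_7_c10 ln14_11_7_c10_ok) (L (nat_lit 301) ln14_12_7 ln14_12_7_ok))) (M (nat_lit 238) (B (L (nat_lit 333) ln14_7_5_c10 ln14_7_5_c10_ok)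 (M (nat_lit 239) (B (L (nat_lit 207) ln14_10_6_c10 ln14_10_6_c10_ok) (L (nat_lit 271) ln14_11_6_c10 ln14_11_6_c10_ok)))))))) (M (nat_lit 270) (B (M (nat_lit 269) (B (L (nat_lit 237) ln14_11_7_c10 ln14_11_7_c10_ok) (L (nat_lit 301) ln14_12_7 ln14_12_7_ok))) (M (nat_lit 333) (B (L (nat_lit 238) ln14_7_5_c10 ln14_7_5_c10_ok) (L (nat_lit 303) ln11_10_2 ln11_10_2_ok))))))))))))) (L (nat_lit 367) ln15_11_3 ln15_11_3_ok))) (B (M (nat_lit 267) (B (L (nat_lit 235) ln11_7_4 ln11_7_4_ok) (M (nat_lit 395) (B (M (nat_lit 266) (B (L (nat_lit 234) ln11_11_7 ln11_11_7_ok) (L (nat_lit 298) ln11_12_7 ln11_12_7_ok))) (M (nat_lit 427) (B (L (nat_lit 300) ln11_13_6 ln11_13_6_ok) (L (nat_lit 459) ln11_14_6 ln11_14_6_ok))))))) (M (nat_lit 334) (B (M (nat_lit 366) (B (L (nat_lit 367) ln15_11_3 ln15_11_3_ok) (L (nat_lit 335) ln11_11_2 ln11_11_2_ok))) (M (nat_lit 333) (B (L (nat_lit 362) ln14_10_1 ln14_10_1_ok) (L (nat_lit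 298) ln14_10_3 ln14_10_3_ok)))))))) (B (M (nat_lit 428) (B (M (nat_lit 427) (B (M (nat_lit 395) (B (M (nat_lit 426) (B (L (nat_lit 462) ln10_13_0 ln10_13_0_ok) (L (nat_lit 458) ln11_10_5 ln11_10_5_ok))) (M (nat_lit 332) (B (L (nat_lit 300) ln11_13_6 ln11_13_6_ok) (L (nat_lit 459) ln11_14_6 ln11_14_6_ok))))) (B (M (nat_lit 395) (B (M (nat_lit 332) (B (L (nat_lit 300) ln11_13_6 ln11_13_6_ok) (L (nat_lit 459) ln11_14_6 ln11_14_6_ok))) (L (nat_lit 460) ln11_10_4 ln11_10_4_ok))) (M (nat_lit 462) (B (M (nat_lit 463) (B (L (nat_lit 464) ln16_14_3 ln16_14_3_ok) (L (nat_lit 460) ln15_14_3 ln15_14_3_ok))) (L (nat_lit 426) ln10_13_0 ln10_13_0_ok)))))) (B (M (nat_lit 396) (B (L (nat_lit 460) ln12_14_7 ln12_14_7_ok) (L (nat_lit 332) ln12_10_4 ln12_10_4_ok))) (B (M (nat_lit 396) (B (L (nat_lit 395) ln11_9_4 ln11_9_4_ok) (L (nat_lit 332) ln12_10_4 ln12_10_4_ok))) (M (nat_lit 396) (B (L (nat_lit 395) ln11_9_4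 ln11_9_4_ok) (L (nat_lit 460) ln12_14_7 ln12_14_7_ok))))))) (B (M (nat_lit 396) (B (M (nat_lit 428) (B (L (nat_lit 395) ln11_9_4 ln11_9_4_ok) (L (nat_lit 460) ln12_14_7 ln12_14_7_ok))) (L (nat_lit 267) ln11_8_4 ln11_8_4_ok))) (M (nat_lit 396) (B (M (nat_lit 428) (B (L (nat_lit 332) ln12_10_4 ln12_10_4_ok) (L (nat_lit 460) ln12_14_7 ln12_14_7_ok))) (L (nat_lit 267) ln11_8_4 ln11_8_4_ok))))))) (B (M (nat_lit 395) (B (M (nat_lit 300) (B (L (nat_lit 268) ln11_12_6 ln11_12_6_ok) (M (nat_lit 298) (B (L (nat_lit 266) ln11_12_7 ln11_12_7_ok) (M (nat_lit 297) (B (M (nat_lit 332) (B (L (nat_lit 296) ln8_9_0 ln8_9_0_ok) (L (nat_lit 333) ln9_9_0 ln9_9_0_ok))) (B (M (nat_lit 301) (B (M (nat_lit 333) (B (L (nat_lit 332) ln9_9_0 ln9_9_0_ok) (L (nat_lit 334) ln10_9_0 ln10_9_0_ok))) (B (M (nat_lit 302) (B (M (nat_lit 270) (B (L (nat_lit 269) ln10_9_2 ln10_9_2_ok) (L (nat_lit 271) ln11_9_2 ln11_9_2_ok))) (M (nat_lit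 334) (B (L (nat_lit 333) ln10_9_0 ln10_9_0_ok) (L (nat_lit 335) ln11_9_0_c10 ln11_9_0_c10_ok))))) (B (M (nat_lit 302) (B (M (nat_lit 270) (B (L (nat_lit 269) ln10_9_2 ln10_9_2_ok) (L (nat_lit 271) ln11_9_2 ln11_9_2_ok))) (M (nat_lit 303) (B (L (nat_lit 332) ln15_9_1_c10 ln15_9_1_c10_ok) (M (nat_lit 335) (B (L (nat_lit 334) ln11_9_0_c10 ln11_9_0_c10_ok) (L (nat_lit 336) ln12_9_0 ln12_9_0_ok))))))) (M (nat_lit 302) (B (M (nat_lit 270) (B (L (nat_lit 269) ln10_9_2 ln10_9_2_ok) (L (nat_lit 271) ln11_9_2 ln11_9_2_ok))) (M (nat_lit 332) (B (L (nat_lit 333) ln9_9_0 ln9_9_0_ok) (L (nat_lit 303) ln15_9_1_c10 ln15_9_1_c10_ok))))))))) (M (nat_lit 296) (B (M (nat_lit 264) (B (L (nat_lit 263) ln11_9_3 ln11_9_3_ok) (L (nat_lit 265) ln12_9_3 ln12_9_3_ok))) (M (nat_lit 328) (B (L (nat_lit 327) ln11_9_1 ln11_9_1_ok) (L (nat_lit 329) ln12_9_1 ln12_9_1_ok)))))))))))) (M (nat_lit 428) (B (M (nat_lit 427) (B (M (nat_lit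 426) (B (L (nat_lit 462) ln10_13_0 ln10_13_0_ok) (L (nat_lit 458) ln11_10_5 ln11_10_5_ok))) (L (nat_lit 460) ln11_10_4 ln11_10_4_ok))) (L (nat_lit 396) ln11_9_4 ln11_9_4_ok))))) (B (M (nat_lit 267) (B (M (nat_lit 235) (B (M (nat_lit 236) (B (L (nat_lit 204) ln11_10_6 ln11_10_6_ok) (L (nat_lit 268) ln11_11_6 ln11_11_6_ok))) (M (nat_lit 364) (B (L (nat_lit 332) ln11_7_4 ln11_7_4_ok) (L (nat_lit 396) ln11_8_4 ln11_8_4_ok))))) (B (M (nat_lit 395) (B (M (nat_lit 268) (B (L (nat_lit 236) ln11_11_6 ln11_11_6_ok) (L (nat_lit 300) ln11_12_6 ln11_12_6_ok))) (M (nat_lit 396) (B (L (nat_lit 364) ln11_8_4 ln11_8_4_ok) (L (nat_lit 428) ln11_9_4 ln11_9_4_ok))))) (B (M (nat_lit 395) (B (M (nat_lit 396) (B (L (nat_lit 364) ln11_8_4 ln11_8_4_ok) (L (nat_lit 428) ln11_9_4 ln11_9_4_ok))) (B (M (nat_lit 427) (B (M (nat_lit 300) (B (L (nat_lit 268) ln11_12_6 ln11_12_6_ok) (L (nat_lit 332) ln11_13_6 ln11_13_6_ok))) (M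 (nat_lit 428) (B (L (nat_lit 396) ln11_9_4 ln11_9_4_ok) (L (nat_lit 460) ln11_10_4 ln11_10_4_ok))))) (M (nat_lit 300) (B (L (nat_lit 268) ln11_12_6 ln11_12_6_ok) (M (nat_lit 332) (B (L (nat_lit 427) ln11_13_6 ln11_13_6_ok) (M (nat_lit 235) (B (L (nat_lit 203) ln11_6_4_c10 ln11_6_4_c10_ok) (L (nat_lit 364) ln11_7_4 ln11_7_4_ok)))))))))) (B (M (nat_lit 235) (B (M (nat_lit 364) (B (L (nat_lit 332) ln11_7_4 ln11_7_4_ok) (L (nat_lit 396) ln11_8_4 ln11_8_4_ok))) (M (nat_lit 203) (B (M (nat_lit 204) (B (L (nat_lit 172) ln11_9_6_c10 ln11_9_6_c10_ok) (L (nat_lit 236) ln11_10_6 ln11_10_6_ok))) (M (nat_lit 202) (B (L (nat_lit 170) ln11_9_7_c10 ln11_9_7_c10_ok) (L (nat_lit 234) ln11_10_7 ln11_10_7_ok))))))) (M (nat_lit 235) (B (M (nat_lit 236) (B (L (nat_lit 204) ln11_10_6 ln11_10_6_ok) (L (nat_lit 268) ln11_11_6 ln11_11_6_ok))) (B (M (nat_lit 268) (B (L (nat_lit 236) ln11_11_6 ln11_11_6_ok) (M (nat_lit 300)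 (B (L (nat_lit 395) ln11_12_6 ln11_12_6_ok) (M (nat_lit 203) (B (L (nat_lit 171) ln11_5_4_c10 ln11_5_4_c10_ok) (L (nat_lit 332) ln11_6_4_c10 ln11_6_4_c10_ok))))))) (B (M (nat_lit 203) (B (M (nat_lit 202) (B (L (nat_lit 170) ln11_9_7_c10 ln11_9_7_c10_ok) (L (nat_lit 234) ln11_10_7 ln11_10_7_ok))) (M (nat_lit 300) (B (L (nat_lit 332) ln11_6_4_c10 ln11_6_4_c10_ok) (M (nat_lit 268) (B (L (nat_lit 171) ln11_5_4_c10 ln11_5_4_c10_ok) (L (nat_lit 395) ln11_12_6 ln11_12_6_ok))))))) (M (nat_lit 203) (B (M (nat_lit 204) (B (L (nat_lit 172) ln11_9_6_c10 ln11_9_6_c10_ok) (L (nat_lit 236) ln11_10_6 ln11_10_6_ok))) (M (nat_lit 202) (B (L (nat_lit 170) ln11_9_7_c10 ln11_9_7_c10_ok) (L (nat_lit 234) ln11_10_7 ln11_10_7_ok)))))))))))))) (B (K (nat_lit 5954262830815946494440468064101681940811899709034891853222361727865433606063510264561573696898111202468558680008852037543936685284513546240) (nat_lit 693167423772289641002827907640394679883169616582241559612052408761112913627198739253817063442291822917778931881916213309160292352)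 (nat_lit 693167423772289641002827907640394679883169616582241559612052408761112913627198739253817063442291822917778931881916213309160292352) c10_s138) (M (nat_lit 267) (B (M (nat_lit 234) (B (L (nat_lit 266) ln11_11_7 ln11_11_7_ok) (M (nat_lit 235) (B (L (nat_lit 202) ln11_10_7 ln11_10_7_ok) (M (nat_lit 236) (B (L (nat_lit 268) ln11_11_6 ln11_11_6_ok) (L (nat_lit 204) ln11_10_6 ln11_10_6_ok))))))) (B (M (nat_lit 235) (B (M (nat_lit 364) (B (L (nat_lit 396) ln11_8_4 ln11_8_4_ok) (L (nat_lit 332) ln11_7_4 ln11_7_4_ok))) (M (nat_lit 236) (B (L (nat_lit 268) ln11_11_6 ln11_11_6_ok) (L (nat_lit 204) ln11_10_6 ln11_10_6_ok))))) (B (M (nat_lit 235) (B (M (nat_lit 364) (B (L (nat_lit 396) ln11_8_4 ln11_8_4_ok) (L (nat_lit 332) ln11_7_4 ln11_7_4_ok))) (M (nat_lit 234) (B (L (nat_lit 266) ln11_11_7 ln11_11_7_ok) (L (nat_lit 202) ln11_10_7 ln11_10_7_ok))))) (M (nat_lit 395) (B (M (nat_lit 396) (B (L (nat_lit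 428) ln11_9_4 ln11_9_4_ok) (L (nat_lit 364) ln11_8_4 ln11_8_4_ok))) (M (nat_lit 266) (B (L (nat_lit 298) ln11_12_7 ln11_12_7_ok) (L (nat_lit 234) ln11_11_7 ln11_11_7_ok)))))))))))))
noncomputable def c10_d287 : Cert := (B (M (nat_lit 267) (B (K (nat_lit 5954262830815946494440468064101681940811899709034891853222598870064191629631737737938871489733394699397153911884004846675984891374016135168) (nat_lit 37576681333130334560132248088506172425545515144102452872601312741972661529982739839314420625357010929543282688) (nat_lit 37576681333130334560132248088506172425545515144102452872601312741972661529982739839314420625357010929543282688) c10_s135) (B (M (nat_lit 235) (B (M (nat_lit 332) (B (L (nat_lit 364) ln11_7_4 ln11_7_4_ok) (M (nat_lit 204) (B (L (nat_lit 236) ln11_10_6 ln11_10_6_ok) (M (nat_lit 203) (B (L (nat_lit 172) ln11_9_6_c10 ln11_9_6_c10_ok) (L (nat_lit 300) ln11_6_4_c10 ln11_6_4_c10_ok)))))))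 (B (M (nat_lit 203) (B (M (nat_lit 202) (B (L (nat_lit 170) ln11_9_7_c10 ln11_9_7_c10_ok) (L (nat_lit 234) ln11_10_7 ln11_10_7_ok))) (M (nat_lit 332) (B (L (nat_lit 300) ln11_6_4_c10 ln11_6_4_c10_ok) (L (nat_lit 364) ln11_7_4 ln11_7_4_ok))))) (M (nat_lit 236) (B (L (nat_lit 204) ln11_10_6 ln11_10_6_ok) (M (nat_lit 234) (B (L (nat_lit 202) ln11_10_7 ln11_10_7_ok) (M (nat_lit 237) (B (L (nat_lit 266) ln11_11_7 ln11_11_7_ok) (M (nat_lit 238) (B (M (nat_lit 206) (B (L (nat_lit 207) ln11_7_2_c10 ln11_7_2_c10_ok) (L (nat_lit 205) ln10_7_2_c10 ln10_7_2_c10_ok))) (M (nat_lit 270) (B (L (nat_lit 271) ln11_7_0_c10 ln11_7_0_c10_ok) (L (nat_lit 269) ln10_7_0_c10 ln10_7_0_c10_ok)))))))))))))) (B (K (nat_lit 5954262830815946494440468064101681940811899709034891853222598870064191629631737737938871489733394699397153911884004846675984891374016135168) (nat_lit 592855497088307818310957990177835057863338276003533991153237713540721758728880128)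 (nat_lit 592855497088307818310957990177835057863338276003533991153237713540721758728880128) c10_s136) (B (M (nat_lit 235) (B (M (nat_lit 332) (B (L (nat_lit 364) ln11_7_4 ln11_7_4_ok) (M (nat_lit 204) (B (L (nat_lit 236) ln11_10_6 ln11_10_6_ok) (M (nat_lit 203) (B (L (nat_lit 172) ln11_9_6_c10 ln11_9_6_c10_ok) (L (nat_lit 300) ln11_6_4_c10 ln11_6_4_c10_ok))))))) (B (M (nat_lit 203) (B (M (nat_lit 202) (B (L (nat_lit 170) ln11_9_7_c10 ln11_9_7_c10_ok) (L (nat_lit 234) ln11_10_7 ln11_10_7_ok))) (M (nat_lit 332) (B (L (nat_lit 300) ln11_6_4_c10 ln11_6_4_c10_ok) (L (nat_lit 364) ln11_7_4 ln11_7_4_ok))))) (M (nat_lit 236) (B (L (nat_lit 204) ln11_10_6 ln11_10_6_ok) (L (nat_lit 268) ln11_11_6 ln11_11_6_ok)))))) c10_d285))))) (B (M (nat_lit 267) (B (K (nat_lit 5954262830815946494440468064101681940811899709034891853222598870064191629631737737938871489733394699397153911884004846675984891374016135168) (nat_lit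 37576681333130334560132248088506172425545515144102452872601312741972661529982739839314420625357010929543282688) (nat_lit 37576681333130334560132248088506172425545515144102452872601312741972661529982739839314420625357010929543282688) c10_s135) (B (M (nat_lit 235) (B (M (nat_lit 202) (B (L (nat_lit 234) ln11_10_7 ln11_10_7_ok) (M (nat_lit 203) (B (L (nat_lit 170) ln11_9_7_c10 ln11_9_7_c10_ok) (M (nat_lit 204) (B (L (nat_lit 236) ln11_10_6 ln11_10_6_ok) (L (nat_lit 172) ln11_9_6_c10 ln11_9_6_c10_ok))))))) (B (M (nat_lit 203) (B (M (nat_lit 332) (B (L (nat_lit 364) ln11_7_4 ln11_7_4_ok) (L (nat_lit 300) ln11_6_4_c10 ln11_6_4_c10_ok))) (M (nat_lit 204) (B (L (nat_lit 236) ln11_10_6 ln11_10_6_ok) (L (nat_lit 172) ln11_9_6_c10 ln11_9_6_c10_ok))))) (B (M (nat_lit 203) (B (M (nat_lit 332) (B (L (nat_lit 364) ln11_7_4 ln11_7_4_ok) (L (nat_lit 300) ln11_6_4_c10 ln11_6_4_c10_ok))) (M (nat_lit 202) (B (L (nat_lit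 234) ln11_10_7 ln11_10_7_ok) (L (nat_lit 170) ln11_9_7_c10 ln11_9_7_c10_ok))))) (M (nat_lit 364) (B (L (nat_lit 396) ln11_8_4 ln11_8_4_ok) (L (nat_lit 332) ln11_7_4 ln11_7_4_ok))))))) (B (K (nat_lit 5954262830815946494440468064101681940811899709034891853222598870064191629631737737938871489733394699397153911884004846675984891374016135168) (nat_lit 592855497088307818310957990177835057863338276003533991153237713540721758728880128) (nat_lit 592855497088307818310957990177835057863338276003533991153237713540721758728880128) c10_s136) (B (M (nat_lit 235) (B (M (nat_lit 203) (B (M (nat_lit 202) (B (L (nat_lit 170) ln11_9_7_c10 ln11_9_7_c10_ok) (L (nat_lit 234) ln11_10_7 ln11_10_7_ok))) (M (nat_lit 332) (B (L (nat_lit 300) ln11_6_4_c10 ln11_6_4_c10_ok) (L (nat_lit 364) ln11_7_4 ln11_7_4_ok))))) (B (M (nat_lit 234) (B (L (nat_lit 202) ln11_10_7 ln11_10_7_ok) (L (nat_lit 266) ln11_11_7 ln11_11_7_ok))) (B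 (M (nat_lit 203) (B (M (nat_lit 332) (B (L (nat_lit 300) ln11_6_4_c10 ln11_6_4_c10_ok) (L (nat_lit 364) ln11_7_4 ln11_7_4_ok))) (M (nat_lit 171) (B (M (nat_lit 172) (B (L (nat_lit 140) ln11_8_6_c10 ln11_8_6_c10_ok) (L (nat_lit 204) ln11_9_6_c10 ln11_9_6_c10_ok))) (M (nat_lit 266) (B (L (nat_lit 298) ln11_5_5_c10 ln11_5_5_c10_ok) (L (nat_lit 234) ln11_11_7 ln11_11_7_ok))))))) (M (nat_lit 203) (B (M (nat_lit 332) (B (L (nat_lit 300) ln11_6_4_c10 ln11_6_4_c10_ok) (L (nat_lit 364) ln11_7_4 ln11_7_4_ok))) (M (nat_lit 171) (B (M (nat_lit 170) (B (L (nat_lit 138) ln11_8_7_c10 ln11_8_7_c10_ok) (L (nat_lit 202) ln11_9_7_c10 ln11_9_7_c10_ok))) (M (nat_lit 172) (B (L (nat_lit 140) ln11_8_6_c10 ln11_8_6_c10_ok) (L (nat_lit 204) ln11_9_6_c10 ln11_9_6_c10_ok))))))))))) (B (K (nat_lit 5954262830815946494440468064101681940811899709034891853222598870064191629631737737938871489733394699397153911884004846675984891374016135168)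 (nat_lit 14991311641878920136788001759366315514764032762596048764898271725174656960318609279403687936) (nat_lit 14991311641878920136788001759366315514764032762596048764898271725174656960318609279403687936) c10_s137) (M (nat_lit 298) (B (M (nat_lit 268) (B (L (nat_lit 236) ln11_11_6 ln11_11_6_ok) (M (nat_lit 297) (B (L (nat_lit 296) ln8_9_2 ln8_9_2_ok) (M (nat_lit 269) (B (L (nat_lit 300) ln9_9_2 ln9_9_2_ok) (L (nat_lit 270) ln14_8_1_c10 ln14_8_1_c10_ok))))))) (B (M (nat_lit 268) (B (L (nat_lit 236) ln11_11_6 ln11_11_6_ok) (M (nat_lit 269) (B (L (nat_lit 270) ln14_8_1_c10 ln14_8_1_c10_ok) (M (nat_lit 297) (B (L (nat_lit 300) ln9_9_2 ln9_9_2_ok) (L (nat_lit 266) ln13_8_1_c10 ln13_8_1_c10_ok))))))) (B (M (nat_lit 235) (B (M (nat_lit 236) (B (L (nat_lit 204) ln11_10_6 ln11_10_6_ok) (M (nat_lit 364) (B (L (nat_lit 332) ln11_7_4 ln11_7_4_ok) (L (nat_lit 396) ln11_8_4 ln11_8_4_ok))))) (B (M (nat_lit 332)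 (B (L (nat_lit 364) ln11_7_4 ln11_7_4_ok) (M (nat_lit 203) (B (L (nat_lit 300) ln11_6_4_c10 ln11_6_4_c10_ok) (M (nat_lit 204) (B (L (nat_lit 236) ln11_10_6 ln11_10_6_ok) (L (nat_lit 172) ln11_9_6_c10 ln11_9_6_c10_ok))))))) (B (M (nat_lit 203) (B (M (nat_lit 204) (B (L (nat_lit 236) ln11_10_6 ln11_10_6_ok) (L (nat_lit 172) ln11_9_6_c10 ln11_9_6_c10_ok))) (M (nat_lit 170) (B (L (nat_lit 202) ln11_9_7_c10 ln11_9_7_c10_ok) (M (nat_lit 171) (B (L (nat_lit 266) ln11_5_5_c10 ln11_5_5_c10_ok) (L (nat_lit 138) ln11_8_7_c10 ln11_8_7_c10_ok))))))) (M (nat_lit 203) (B (M (nat_lit 332) (B (L (nat_lit 364) ln11_7_4 ln11_7_4_ok) (L (nat_lit 300) ln11_6_4_c10 ln11_6_4_c10_ok))) (M (nat_lit 170) (B (L (nat_lit 202) ln11_9_7_c10 ln11_9_7_c10_ok) (M (nat_lit 171) (B (L (nat_lit 266) ln11_5_5_c10 ln11_5_5_c10_ok) (L (nat_lit 138) ln11_8_7_c10 ln11_8_7_c10_ok))))))))))) (B (M (nat_lit 268) (B (L (nat_lit 236) ln11_11_6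 ln11_11_6_ok) (M (nat_lit 297) (B (L (nat_lit 296) ln8_9_2 ln8_9_2_ok) (M (nat_lit 269) (B (L (nat_lit 266) ln13_8_1_c10 ln13_8_1_c10_ok) (L (nat_lit 270) ln14_8_1_c10 ln14_8_1_c10_ok))))))) (M (nat_lit 332) (B (M (nat_lit 364) (B (L (nat_lit 235) ln11_7_4 ln11_7_4_ok) (L (nat_lit 396) ln11_8_4 ln11_8_4_ok))) (M (nat_lit 297) (B (L (nat_lit 296) ln8_9_0 ln8_9_0_ok) (M (nat_lit 333) (B (L (nat_lit 334) ln14_10_3 ln14_10_3_ok) (L (nat_lit 300) ln9_9_0 ln9_9_0_ok)))))))))))))))))) c10_d286))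
noncomputable def c10_d288 : Cert := (B (M (nat_lit 266) (B (M (nat_lit 300) (B (M (nat_lit 301) (B (L (nat_lit 265) ln9_8_0_c10 ln9_8_0_c10_ok) (M (nat_lit 269) (B (L (nat_lit 237) ln12_11_6 ln12_11_6_ok) (L (nat_lit 302) ln10_8_0_c10 ln10_8_0_c10_ok))))) (B (M (nat_lit 301) (B (L (nat_lit 265) ln9_8_0_c10 ln9_8_0_c10_ok) (M (nat_lit 302) (B (L (nat_lit 269) ln10_8_0_c10 ln10_8_0_c10_ok) (L (nat_lit 303) ln15_9_1_c10 ln15_9_1_c10_ok))))) (B (M (nat_lit 269) (B (L (nat_lit 237) ln12_11_6 ln12_11_6_ok) (M (nat_lit 301) (B (L (nat_lit 302) ln10_8_0_c10 ln10_8_0_c10_ok) (L (nat_lit 396) ln12_12_6 ln12_12_6_ok))))) (L (nat_lit 236) ln12_7_5 ln12_7_5_ok))))) (B (M (nat_lit 269) (B (M (nat_lit 237) (B (L (nat_lit 238) ln10_8_2_c10 ln10_8_2_c10_ok) (L (nat_lit 300) ln12_11_6 ln12_11_6_ok))) (M (nat_lit 234) (B (L (nat_lit 233) ln13_8_3_c10 ln13_8_3_c10_ok) (L (nat_lit 298) ln10_7_4 ln10_7_4_ok))))) (B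 (M (nat_lit 269) (B (M (nat_lit 301) (B (L (nat_lit 302) ln10_8_0_c10 ln10_8_0_c10_ok) (M (nat_lit 300) (B (L (nat_lit 265) ln9_8_0_c10 ln9_8_0_c10_ok) (L (nat_lit 396) ln12_12_6 ln12_12_6_ok))))) (M (nat_lit 234) (B (L (nat_lit 233) ln13_8_3_c10 ln13_8_3_c10_ok) (L (nat_lit 298) ln10_7_4 ln10_7_4_ok))))) (B (M (nat_lit 265) (B (M (nat_lit 236) (B (L (nat_lit 237) ln9_8_2_c10 ln9_8_2_c10_ok) (L (nat_lit 300) ln12_7_5 ln12_7_5_ok))) (M (nat_lit 264) (B (M (nat_lit 232) (B (L (nat_lit 231) ln11_8_3_c10 ln11_8_3_c10_ok) (L (nat_lit 233) ln12_8_3_c10 ln12_8_3_c10_ok))) (M (nat_lit 296) (B (L (nat_lit 295) ln11_8_1_c10 ln11_8_1_c10_ok) (L (nat_lit 297) ln12_8_1_c10 ln12_8_1_c10_ok))))))) (K (nat_lit 5954262830815946494440468064139258622147217294304020084405516386091551493317400697387372955351414671027207421438625742446497603378307137536) (nat_lit 891203240654192008285352968913941889680372919794675085024728883680256629915676071973355520)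 (nat_lit 891203240654192008285352968913941889680372919794675085024728883680256629915676071973355520) c10_s148)))))) (B (M (nat_lit 266) (B (M (nat_lit 300) (B (L (nat_lit 235) ln12_11_7 ln12_11_7_ok) (M (nat_lit 301) (B (L (nat_lit 265) ln9_8_0_c10 ln9_8_0_c10_ok) (M (nat_lit 302) (B (L (nat_lit 269) ln10_8_0_c10 ln10_8_0_c10_ok) (L (nat_lit 303) ln15_9_1_c10 ln15_9_1_c10_ok))))))) (B (M (nat_lit 269) (B (M (nat_lit 301) (B (L (nat_lit 302) ln10_8_0_c10 ln10_8_0_c10_ok) (M (nat_lit 300) (B (L (nat_lit 265) ln9_8_0_c10 ln9_8_0_c10_ok) (L (nat_lit 396) ln12_12_6 ln12_12_6_ok))))) (M (nat_lit 234) (B (L (nat_lit 233) ln13_8_3_c10 ln13_8_3_c10_ok) (L (nat_lit 298) ln10_7_4 ln10_7_4_ok))))) (B (M (nat_lit 235) (B (L (nat_lit 300) ln12_11_7 ln12_11_7_ok) (M (nat_lit 298) (B (L (nat_lit 362) ln10_11_6_c10 ln10_11_6_c10_ok) (M (nat_lit 203) (B (L (nat_lit 171) ln11_5_5_c10 ln11_5_5_c10_ok) (L (nat_lit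 234) ln10_7_4 ln10_7_4_ok))))))) (M (nat_lit 298) (B (L (nat_lit 234) ln10_7_4 ln10_7_4_ok) (M (nat_lit 297) (B (L (nat_lit 269) ln13_8_1_c10 ln13_8_1_c10_ok) (M (nat_lit 296) (B (L (nat_lit 265) ln12_8_1_c10 ln12_8_1_c10_ok) (L (nat_lit 295) ln7_9_0_c10 ln7_9_0_c10_ok))))))))))) (B (M (nat_lit 266) (B (M (nat_lit 300) (B (L (nat_lit 235) ln12_11_7 ln12_11_7_ok) (L (nat_lit 236) ln12_7_5 ln12_7_5_ok))) (B (M (nat_lit 265) (B (M (nat_lit 236) (B (L (nat_lit 237) ln9_8_2_c10 ln9_8_2_c10_ok) (L (nat_lit 300) ln12_7_5 ln12_7_5_ok))) (M (nat_lit 264) (B (M (nat_lit 232) (B (L (nat_lit 231) ln11_8_3_c10 ln11_8_3_c10_ok) (L (nat_lit 233) ln12_8_3_c10 ln12_8_3_c10_ok))) (M (nat_lit 296) (B (L (nat_lit 295) ln11_8_1_c10 ln11_8_1_c10_ok) (L (nat_lit 297) ln12_8_1_c10 ln12_8_1_c10_ok))))))) (B (M (nat_lit 235) (B (L (nat_lit 300) ln12_11_7 ln12_11_7_ok) (M (nat_lit 298) (B (L (nat_lit 362) ln10_11_6_c10 ln10_11_6_c10_ok)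 (M (nat_lit 203) (B (L (nat_lit 171) ln11_5_5_c10 ln11_5_5_c10_ok) (L (nat_lit 234) ln10_7_4 ln10_7_4_ok))))))) (K (nat_lit 5954262830815946494440468064139258622147217294304020084405516386091551493317400697387372955351414671027207421438625742446497603378307137536) (nat_lit 9394170331095332912512783001153066787410132970011497407005619608765591593856438753123744411284020788484636672) (nat_lit 9394170331095332912512783001153066787410132970011497407005619608765591593856438753123744411284020788484636672) c10_s149))))) (M (nat_lit 266) (B (M (nat_lit 298) (B (M (nat_lit 297) (B (L (nat_lit 269) ln13_8_1_c10 ln13_8_1_c10_ok) (M (nat_lit 296) (B (L (nat_lit 265) ln12_8_1_c10 ln12_8_1_c10_ok) (L (nat_lit 295) ln7_9_0_c10 ln7_9_0_c10_ok))))) (L (nat_lit 234) ln10_7_4 ln10_7_4_ok))) (B (K (nat_lit 5954262830815946494440468064139258622147217294304020084405516386091551493317400697387372955351414671027207421438625742446497603378307137536)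 (nat_lit 891203240654192008285352968913941889680372919794675085024728883680256629915676071973355520) (nat_lit 891203240654192008285352968913941889680372919794675085024728883680256629915676071973355520) c10_s148) (B (M (nat_lit 265) (B (M (nat_lit 298) (B (M (nat_lit 233) (B (L (nat_lit 232) ln12_8_3_c10 ln12_8_3_c10_ok) (L (nat_lit 362) ln10_11_7_c10 ln10_11_7_c10_ok))) (M (nat_lit 297) (B (L (nat_lit 296) ln12_8_1_c10 ln12_8_1_c10_ok) (L (nat_lit 269) ln13_8_1_c10 ln13_8_1_c10_ok))))) (B (M (nat_lit 298) (B (M (nat_lit 362) (B (L (nat_lit 233) ln10_11_7_c10 ln10_11_7_c10_ok) (L (nat_lit 235) ln10_11_6_c10 ln10_11_6_c10_ok))) (M (nat_lit 297) (B (L (nat_lit 296) ln12_8_1_c10 ln12_8_1_c10_ok) (L (nat_lit 269) ln13_8_1_c10 ln13_8_1_c10_ok))))) (B (M (nat_lit 269) (B (M (nat_lit 237) (B (L (nat_lit 236) ln9_8_2_c10 ln9_8_2_c10_ok) (L (nat_lit 238) ln10_8_2_c10 ln10_8_2_c10_ok))) (M (nat_lit 297) (B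 (L (nat_lit 296) ln12_8_1_c10 ln12_8_1_c10_ok) (L (nat_lit 298) ln13_8_1_c10 ln13_8_1_c10_ok))))) (M (nat_lit 264) (B (M (nat_lit 232) (B (L (nat_lit 231) ln11_8_3_c10 ln11_8_3_c10_ok) (L (nat_lit 233) ln12_8_3_c10 ln12_8_3_c10_ok))) (M (nat_lit 236) (B (L (nat_lit 235) ln8_8_2_c10 ln8_8_2_c10_ok) (L (nat_lit 237) ln9_8_2_c10 ln9_8_2_c10_ok))))))))) (B (M (nat_lit 269) (B (M (nat_lit 234) (B (L (nat_lit 233) ln13_8_3_c10 ln13_8_3_c10_ok) (L (nat_lit 298) ln10_7_4 ln10_7_4_ok))) (M (nat_lit 270) (B (M (nat_lit 238) (B (L (nat_lit 237) ln10_8_2_c10 ln10_8_2_c10_ok) (L (nat_lit 239) ln11_8_2_c10 ln11_8_2_c10_ok))) (M (nat_lit 302) (B (L (nat_lit 301) ln10_8_0_c10 ln10_8_0_c10_ok) (L (nat_lit 303) ln11_8_0_c10 ln11_8_0_c10_ok))))))) (B (K (nat_lit 5954262830815946494440468064139258622147217294304020084405516386091551493317400697387372955351414671027207421438625742446497603378307137536) (nat_lit 9394170331095332912512783001153066787410132970011497407005619608765591593856438753123744411284020788484636672)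 (nat_lit 9394170331095332912512783001153066787410132970011497407005619608765591593856438753123744411284020788484636672) c10_s149) (M (nat_lit 265) (B (M (nat_lit 296) (B (L (nat_lit 297) ln12_8_1_c10 ln12_8_1_c10_ok) (M (nat_lit 236) (B (L (nat_lit 237) ln9_8_2_c10 ln9_8_2_c10_ok) (M (nat_lit 264) (B (L (nat_lit 235) ln8_8_2_c10 ln8_8_2_c10_ok) (L (nat_lit 295) ln11_8_1_c10 ln11_8_1_c10_ok))))))) (B (M (nat_lit 264) (B (M (nat_lit 232) (B (L (nat_lit 231) ln11_8_3_c10 ln11_8_3_c10_ok) (L (nat_lit 233) ln12_8_3_c10 ln12_8_3_c10_ok))) (M (nat_lit 296) (B (L (nat_lit 295) ln11_8_1_c10 ln11_8_1_c10_ok) (L (nat_lit 297) ln12_8_1_c10 ln12_8_1_c10_ok))))) (M (nat_lit 269) (B (M (nat_lit 233) (B (L (nat_lit 232) ln12_8_3_c10 ln12_8_3_c10_ok) (L (nat_lit 234) ln13_8_3_c10 ln13_8_3_c10_ok))) (M (nat_lit 237) (B (L (nat_lit 236) ln9_8_2_c10 ln9_8_2_c10_ok) (L (nat_lit 238) ln10_8_2_c10 ln10_8_2_c10_ok)))))))))))))))))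
noncomputable def c10_d289 : Cert := (B (M (nat_lit 328) (B (M (nat_lit 332) (B (L (nat_lit 364) ln8_10_0 ln8_10_0_ok) (M (nat_lit 296) (B (L (nat_lit 297) ln12_10_3 ln12_10_3_ok) (L (nat_lit 295) ln11_10_3_c10 ln11_10_3_c10_ok))))) (M (nat_lit 327) (B (M (nat_lit 299) (B (L (nat_lit 300) ln8_10_2_c10 ln8_10_2_c10_ok) (L (nat_lit 298) ln7_10_2_c10 ln7_10_2_c10_ok))) (M (nat_lit 359) (B (L (nat_lit 360) ln11_10_1_c10 ln11_10_1_c10_ok) (L (nat_lit 358) ln10_10_1_c10 ln10_10_1_c10_ok))))))) (B (M (nat_lit 332) (B (M (nat_lit 328) (B (M (nat_lit 360) (B (L (nat_lit 359) ln11_10_1_c10 ln11_10_1_c10_ok) (L (nat_lit 361) ln12_10_1 ln12_10_1_ok))) (M (nat_lit 300) (B (L (nat_lit 299) ln8_10_2_c10 ln8_10_2_c10_ok) (L (nat_lit 301) ln9_10_2 ln9_10_2_ok))))) (M (nat_lit 333) (B (M (nat_lit 297) (B (L (nat_lit 296) ln12_10_3 ln12_10_3_ok) (L (nat_lit 298) ln13_10_3 ln13_10_3_ok))) (L (nat_lit 364) ln9_10_0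 ln9_10_0_ok))))) (B (M (nat_lit 328) (B (M (nat_lit 359) (B (L (nat_lit 360) ln11_10_1_c10 ln11_10_1_c10_ok) (M (nat_lit 327) (B (L (nat_lit 358) ln10_10_1_c10 ln10_10_1_c10_ok) (M (nat_lit 295) (B (L (nat_lit 296) ln11_10_3_c10 ln11_10_3_c10_ok) (L (nat_lit 294) ln10_10_3_c10 ln10_10_3_c10_ok))))))) (B (M (nat_lit 327) (B (M (nat_lit 299) (B (L (nat_lit 300) ln8_10_2_c10 ln8_10_2_c10_ok) (L (nat_lit 298) ln7_10_2_c10 ln7_10_2_c10_ok))) (M (nat_lit 295) (B (L (nat_lit 296) ln11_10_3_c10 ln11_10_3_c10_ok) (L (nat_lit 294) ln10_10_3_c10 ln10_10_3_c10_ok))))) (B (M (nat_lit 327) (B (M (nat_lit 299) (B (L (nat_lit 300) ln8_10_2_c10 ln8_10_2_c10_ok) (L (nat_lit 298) ln7_10_2_c10 ln7_10_2_c10_ok))) (M (nat_lit 359) (B (L (nat_lit 360) ln11_10_1_c10 ln11_10_1_c10_ok) (L (nat_lit 358) ln10_10_1_c10 ln10_10_1_c10_ok))))) (M (nat_lit 332) (B (M (nat_lit 300) (B (L (nat_lit 301) ln9_10_2 ln9_10_2_ok) (L (nat_lit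 299) ln8_10_2_c10 ln8_10_2_c10_ok))) (M (nat_lit 360) (B (L (nat_lit 361) ln12_10_1 ln12_10_1_ok) (L (nat_lit 359) ln11_10_1_c10 ln11_10_1_c10_ok))))))))) (B (M (nat_lit 332) (B (L (nat_lit 364) ln9_10_0 ln9_10_0_ok) (M (nat_lit 333) (B (M (nat_lit 297) (B (L (nat_lit 296) ln12_10_3 ln12_10_3_ok) (L (nat_lit 298) ln13_10_3 ln13_10_3_ok))) (M (nat_lit 301) (B (L (nat_lit 300) ln9_10_2 ln9_10_2_ok) (L (nat_lit 302) ln10_10_2 ln10_10_2_ok))))))) (B (M (nat_lit 332) (B (M (nat_lit 300) (B (L (nat_lit 301) ln9_10_2 ln9_10_2_ok) (M (nat_lit 328) (B (L (nat_lit 299) ln8_10_2_c10 ln8_10_2_c10_ok) (L (nat_lit 364) ln8_10_0 ln8_10_0_ok))))) (B (M (nat_lit 328) (B (M (nat_lit 300) (B (L (nat_lit 301) ln9_10_2 ln9_10_2_ok) (L (nat_lit 299) ln8_10_2_c10 ln8_10_2_c10_ok))) (M (nat_lit 360) (B (L (nat_lit 361) ln12_10_1 ln12_10_1_ok) (L (nat_lit 359) ln11_10_1_c10 ln11_10_1_c10_ok))))) (B (M (nat_lit 328) (B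 (L (nat_lit 364) ln8_10_0 ln8_10_0_ok) (M (nat_lit 360) (B (L (nat_lit 361) ln12_10_1 ln12_10_1_ok) (L (nat_lit 359) ln11_10_1_c10 ln11_10_1_c10_ok))))) (M (nat_lit 333) (B (L (nat_lit 366) ln10_10_0 ln10_10_0_ok) (M (nat_lit 301) (B (L (nat_lit 302) ln10_10_2 ln10_10_2_ok) (L (nat_lit 300) ln9_10_2 ln9_10_2_ok))))))))) (B (M (nat_lit 328) (B (M (nat_lit 296) (B (L (nat_lit 295) ln11_10_3_c10 ln11_10_3_c10_ok) (M (nat_lit 332) (B (L (nat_lit 297) ln12_10_3 ln12_10_3_ok) (M (nat_lit 360) (B (L (nat_lit 359) ln11_10_1_c10 ln11_10_1_c10_ok) (L (nat_lit 361) ln12_10_1 ln12_10_1_ok))))))) (B (M (nat_lit 332) (B (M (nat_lit 296) (B (L (nat_lit 295) ln11_10_3_c10 ln11_10_3_c10_ok) (L (nat_lit 297) ln12_10_3 ln12_10_3_ok))) (L (nat_lit 364) ln8_10_0 ln8_10_0_ok))) (B (M (nat_lit 332) (B (M (nat_lit 360) (B (L (nat_lit 359) ln11_10_1_c10 ln11_10_1_c10_ok) (L (nat_lit 361) ln12_10_1 ln12_10_1_ok))) (L (nat_lit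 364) ln8_10_0 ln8_10_0_ok))) (M (nat_lit 327) (B (M (nat_lit 359) (B (L (nat_lit 358) ln10_10_1_c10 ln10_10_1_c10_ok) (L (nat_lit 360) ln11_10_1_c10 ln11_10_1_c10_ok))) (M (nat_lit 295) (B (L (nat_lit 294) ln10_10_3_c10 ln10_10_3_c10_ok) (L (nat_lit 296) ln11_10_3_c10 ln11_10_3_c10_ok))))))))) (M (nat_lit 328) (B (M (nat_lit 295) (B (L (nat_lit 296) ln11_10_3_c10 ln11_10_3_c10_ok) (M (nat_lit 327) (B (L (nat_lit 294) ln10_10_3_c10 ln10_10_3_c10_ok) (M (nat_lit 359) (B (L (nat_lit 358) ln10_10_1_c10 ln10_10_1_c10_ok) (L (nat_lit 360) ln11_10_1_c10 ln11_10_1_c10_ok))))))) (B (M (nat_lit 327) (B (M (nat_lit 295) (B (L (nat_lit 294) ln10_10_3_c10 ln10_10_3_c10_ok) (L (nat_lit 296) ln11_10_3_c10 ln11_10_3_c10_ok))) (M (nat_lit 299) (B (L (nat_lit 298) ln7_10_2_c10 ln7_10_2_c10_ok) (L (nat_lit 300) ln8_10_2_c10 ln8_10_2_c10_ok))))) (B (M (nat_lit 296) (B (L (nat_lit 295) ln11_10_3_c10 ln11_10_3_c10_ok)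 (M (nat_lit 264) (B (M (nat_lit 232) (B (L (nat_lit 361) ln8_7_4_c10 ln8_7_4_c10_ok) (M (nat_lit 200) (B (L (nat_lit 297) ln8_6_4_c10 ln8_6_4_c10_ok) (M (nat_lit 199) (B (L (nat_lit 231) ln8_10_7_c10 ln8_10_7_c10_ok) (L (nat_lit 167) ln8_9_7_c10 ln8_9_7_c10_ok))))))) (B (M (nat_lit 232) (B (M (nat_lit 360) (B (L (nat_lit 359) ln11_10_1_c10 ln11_10_1_c10_ok) (M (nat_lit 231) (B (L (nat_lit 263) ln8_11_7_c10 ln8_11_7_c10_ok) (L (nat_lit 199) ln8_10_7_c10 ln8_10_7_c10_ok))))) (B (M (nat_lit 200) (B (L (nat_lit 297) ln8_6_4_c10 ln8_6_4_c10_ok) (M (nat_lit 199) (B (L (nat_lit 231) ln8_10_7_c10 ln8_10_7_c10_ok) (L (nat_lit 167) ln8_9_7_c10 ln8_9_7_c10_ok))))) (M (nat_lit 360) (B (L (nat_lit 359) ln11_10_1_c10 ln11_10_1_c10_ok) (M (nat_lit 233) (B (L (nat_lit 265) ln8_11_6_c10 ln8_11_6_c10_ok) (L (nat_lit 201) ln8_10_6_c10 ln8_10_6_c10_ok)))))))) (B (M (nat_lit 232) (B (L (nat_lit 361) ln8_7_4_c10 ln8_7_4_c10_ok)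 (M (nat_lit 360) (B (L (nat_lit 359) ln11_10_1_c10 ln11_10_1_c10_ok) (M (nat_lit 233) (B (L (nat_lit 265) ln8_11_6_c10 ln8_11_6_c10_ok) (L (nat_lit 201) ln8_10_6_c10 ln8_10_6_c10_ok))))))) (M (nat_lit 360) (B (L (nat_lit 359) ln11_10_1_c10 ln11_10_1_c10_ok) (M (nat_lit 297) (B (M (nat_lit 265) (B (L (nat_lit 392) ln8_12_6_c10 ln8_12_6_c10_ok) (L (nat_lit 233) ln9_7_5_c10 ln9_7_5_c10_ok))) (M (nat_lit 299) (B (L (nat_lit 300) ln8_10_2_c10 ln8_10_2_c10_ok) (M (nat_lit 263) (B (L (nat_lit 231) ln8_11_7_c10 ln8_11_7_c10_ok) (L (nat_lit 298) ln11_9_3 ln11_9_3_ok))))))))))))))) (M (nat_lit 327) (B (M (nat_lit 359) (B (L (nat_lit 358) ln10_10_1_c10 ln10_10_1_c10_ok) (L (nat_lit 360) ln11_10_1_c10 ln11_10_1_c10_ok))) (M (nat_lit 299) (B (L (nat_lit 298) ln7_10_2_c10 ln7_10_2_c10_ok) (L (nat_lit 300) ln8_10_2_c10 ln8_10_2_c10_ok)))))))))))))))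
noncomputable def c10_d290 : Cert := (B (M (nat_lit 332) (B (M (nat_lit 364) (B (M (nat_lit 267) (B (M (nat_lit 299) (B (L (nat_lit 235) ln11_7_4 ln11_7_4_ok) (L (nat_lit 396) ln11_8_4 ln11_8_4_ok))) (B (M (nat_lit 299) (B (L (nat_lit 396) ln11_8_4 ln11_8_4_ok) (M (nat_lit 268) (B (L (nat_lit 236) ln11_11_6 ln11_11_6_ok) (M (nat_lit 266) (B (L (nat_lit 234) ln11_11_7 ln11_11_7_ok) (M (nat_lit 269) (B (M (nat_lit 237) (B (L (nat_lit 238) ln10_8_2_c10 ln10_8_2_c10_ok) (L (nat_lit 300) ln12_11_6 ln12_11_6_ok))) (M (nat_lit 298) (B (L (nat_lit 297) ln13_8_1_c10 ln13_8_1_c10_ok) (L (nat_lit 270) ln14_8_1_c10 ln14_8_1_c10_ok))))))))))) (B (M (nat_lit 268) (B (M (nat_lit 300) (B (L (nat_lit 235) ln12_11_7 ln12_11_7_ok) (M (nat_lit 237) (B (L (nat_lit 269) ln12_11_6 ln12_11_6_ok) (L (nat_lit 236) ln12_7_5 ln12_7_5_ok))))) (B (M (nat_lit 300) (B (L (nat_lit 235) ln12_11_7 ln12_11_7_ok) (M (nat_lit 269)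 (B (L (nat_lit 237) ln12_11_6 ln12_11_6_ok) (M (nat_lit 301) (B (L (nat_lit 396) ln12_12_6 ln12_12_6_ok) (M (nat_lit 266) (B (L (nat_lit 265) ln9_8_0_c10 ln9_8_0_c10_ok) (L (nat_lit 302) ln10_8_0_c10 ln10_8_0_c10_ok))))))))) c10_d288))) (M (nat_lit 268) (B (M (nat_lit 235) (B (L (nat_lit 300) ln12_11_7 ln12_11_7_ok) (L (nat_lit 299) ln11_7_4 ln11_7_4_ok))) (B (M (nat_lit 269) (B (M (nat_lit 237) (B (L (nat_lit 300) ln12_11_6 ln12_11_6_ok) (M (nat_lit 238) (B (L (nat_lit 266) ln10_8_2_c10 ln10_8_2_c10_ok) (M (nat_lit 239) (B (L (nat_lit 236) ln15_7_1_c10 ln15_7_1_c10_ok) (L (nat_lit 270) ln11_8_2_c10 ln11_8_2_c10_ok))))))) (B (M (nat_lit 266) (B (M (nat_lit 237) (B (L (nat_lit 238) ln10_8_2_c10 ln10_8_2_c10_ok) (L (nat_lit 300) ln12_11_6 ln12_11_6_ok))) (M (nat_lit 234) (B (L (nat_lit 233) ln13_8_3_c10 ln13_8_3_c10_ok) (L (nat_lit 298) ln10_7_4 ln10_7_4_ok))))) (B (M (nat_lit 266) (B (M (nat_lit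 234) (B (L (nat_lit 233) ln13_8_3_c10 ln13_8_3_c10_ok) (L (nat_lit 298) ln10_7_4 ln10_7_4_ok))) (B (M (nat_lit 265) (B (M (nat_lit 297) (B (L (nat_lit 296) ln12_8_1_c10 ln12_8_1_c10_ok) (L (nat_lit 298) ln13_8_1_c10 ln13_8_1_c10_ok))) (M (nat_lit 301) (B (L (nat_lit 300) ln9_8_0_c10 ln9_8_0_c10_ok) (L (nat_lit 302) ln10_8_0_c10 ln10_8_0_c10_ok))))) (M (nat_lit 265) (B (M (nat_lit 233) (B (L (nat_lit 232) ln12_8_3_c10 ln12_8_3_c10_ok) (L (nat_lit 234) ln13_8_3_c10 ln13_8_3_c10_ok))) (M (nat_lit 301) (B (L (nat_lit 300) ln9_8_0_c10 ln9_8_0_c10_ok) (L (nat_lit 302) ln10_8_0_c10 ln10_8_0_c10_ok)))))))) (B (M (nat_lit 300) (B (L (nat_lit 237) ln12_11_6 ln12_11_6_ok) (M (nat_lit 299) (B (L (nat_lit 236) ln12_7_5 ln12_7_5_ok) (M (nat_lit 298) (B (L (nat_lit 270) ln14_8_1_c10 ln14_8_1_c10_ok) (L (nat_lit 297) ln9_9_2 ln9_9_2_ok))))))) (M (nat_lit 266) (B (M (nat_lit 234) (B (L (nat_lit 233) ln13_8_3_c10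 ln13_8_3_c10_ok) (L (nat_lit 298) ln10_7_4 ln10_7_4_ok))) (B (M (nat_lit 265) (B (M (nat_lit 237) (B (L (nat_lit 236) ln9_8_2_c10 ln9_8_2_c10_ok) (L (nat_lit 238) ln10_8_2_c10 ln10_8_2_c10_ok))) (M (nat_lit 297) (B (L (nat_lit 296) ln12_8_1_c10 ln12_8_1_c10_ok) (L (nat_lit 298) ln13_8_1_c10 ln13_8_1_c10_ok))))) (M (nat_lit 265) (B (M (nat_lit 233) (B (L (nat_lit 232) ln12_8_3_c10 ln12_8_3_c10_ok) (L (nat_lit 234) ln13_8_3_c10 ln13_8_3_c10_ok))) (M (nat_lit 237) (B (L (nat_lit 236) ln9_8_2_c10 ln9_8_2_c10_ok) (L (nat_lit 238) ln10_8_2_c10 ln10_8_2_c10_ok))))))))))))) (B (M (nat_lit 300) (B (L (nat_lit 235) ln12_11_7 ln12_11_7_ok) (M (nat_lit 237) (B (L (nat_lit 269) ln12_11_6 ln12_11_6_ok) (L (nat_lit 236) ln12_7_5 ln12_7_5_ok))))) (M (nat_lit 266) (B (M (nat_lit 299) (B (L (nat_lit 235) ln11_7_4 ln11_7_4_ok) (L (nat_lit 234) ln11_11_7 ln11_11_7_ok))) (B (M (nat_lit 298) (B (M (nat_lit 235) (B (L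 (nat_lit 362) ln10_11_6_c10 ln10_11_6_c10_ok) (L (nat_lit 299) ln11_7_4 ln11_7_4_ok))) (M (nat_lit 297) (B (L (nat_lit 269) ln13_8_1_c10 ln13_8_1_c10_ok) (M (nat_lit 296) (B (L (nat_lit 265) ln12_8_1_c10 ln12_8_1_c10_ok) (L (nat_lit 295) ln7_9_0_c10 ln7_9_0_c10_ok))))))) (K (nat_lit 5954262830815946494440468064139258622147217294304020084405516386091551493317400697387372955351414671027207421438625742446497603378307137536) (nat_lit 891203240654192008285352968913941889680372919794675085024728883680256629915676071973355520) (nat_lit 891203240654192008285352968913941889680372919794675085024728883680256629915676071973355520) c10_s148)))))))))))) (L (nat_lit 366) ln14_11_3 ln14_11_3_ok))) (B (M (nat_lit 333) (B (M (nat_lit 334) (B (M (nat_lit 298) (B (L (nat_lit 299) ln14_10_3 ln14_10_3_ok) (L (nat_lit 297) ln13_10_3 ln13_10_3_ok))) (M (nat_lit 302) (B (L (nat_lit 303) ln11_10_2 ln11_10_2_ok) (L (nat_lit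 301) ln10_10_2 ln10_10_2_ok))))) (B (M (nat_lit 362) (B (L (nat_lit 334) ln14_10_1 ln14_10_1_ok) (L (nat_lit 361) ln13_10_1 ln13_10_1_ok))) (M (nat_lit 298) (B (L (nat_lit 297) ln13_10_3 ln13_10_3_ok) (M (nat_lit 362) (B (L (nat_lit 361) ln13_10_1 ln13_10_1_ok) (M (nat_lit 266) (B (L (nat_lit 234) ln10_7_4 ln10_7_4_ok) (M (nat_lit 267) (B (L (nat_lit 235) ln10_11_6_c10 ln10_11_6_c10_ok) (M (nat_lit 265) (B (L (nat_lit 233) ln10_11_7_c10 ln10_11_7_c10_ok) (M (nat_lit 301) (B (L (nat_lit 302) ln10_10_2 ln10_10_2_ok) (M (nat_lit 300) (B (L (nat_lit 299) ln13_9_3 ln13_9_3_ok) (L (nat_lit 268) ln9_8_0_c10 ln9_8_0_c10_ok)))))))))))))))))) (M (nat_lit 366) (B (L (nat_lit 364) ln14_11_3 ln14_11_3_ok) (L (nat_lit 333) ln10_10_0 ln10_10_0_ok)))))) (B (M (nat_lit 329) (B (M (nat_lit 328) (B (M (nat_lit 300) (B (L (nat_lit 299) ln8_10_2_c10 ln8_10_2_c10_ok) (M (nat_lit 332) (B (L (nat_lit 301) ln9_10_2 ln9_10_2_ok)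 (L (nat_lit 364) ln8_10_0 ln8_10_0_ok))))) (M (nat_lit 295) (B (L (nat_lit 296) ln11_10_3_c10 ln11_10_3_c10_ok) (M (nat_lit 327) (B (L (nat_lit 294) ln10_10_3_c10 ln10_10_3_c10_ok) (M (nat_lit 359) (B (L (nat_lit 360) ln11_10_1_c10 ln11_10_1_c10_ok) (L (nat_lit 358) ln10_10_1_c10 ln10_10_1_c10_ok))))))))) (B (M (nat_lit 332) (B (M (nat_lit 296) (B (L (nat_lit 297) ln12_10_3 ln12_10_3_ok) (M (nat_lit 328) (B (L (nat_lit 295) ln11_10_3_c10 ln11_10_3_c10_ok) (M (nat_lit 360) (B (L (nat_lit 359) ln11_10_1_c10 ln11_10_1_c10_ok) (L (nat_lit 361) ln12_10_1 ln12_10_1_ok))))))) (M (nat_lit 301) (B (L (nat_lit 300) ln9_10_2 ln9_10_2_ok) (M (nat_lit 333) (B (L (nat_lit 302) ln10_10_2 ln10_10_2_ok) (L (nat_lit 364) ln9_10_0 ln9_10_0_ok))))))) c10_d289))) (B (K (nat_lit 5954262830815946494440468064101681940814086959758656347158566987049417004584658744911941175137704004949650562783374222817278530108444901376)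 (nat_lit 3196670516826071039175743858997315426865583407943977352629495626797395534962489024196238930878807453328821537229844116478417371452728863309030227968) (nat_lit 3196670516826071039175743858997315426865583407943977352629495626797395534962489024196238930878807453328821537229844116478417371452728863309030227968) c10_s144) (M (nat_lit 364) (B (M (nat_lit 329) (B (L (nat_lit 362) ln13_11_3 ln13_11_3_ok) (L (nat_lit 328) ln8_10_0 ln8_10_0_ok))) (L (nat_lit 366) ln14_11_3 ln14_11_3_ok))))))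
noncomputable def c10_d291 : Cert := (B (M (nat_lit 366) (B (M (nat_lit 460) (B (M (nat_lit 334) (B (M (nat_lit 333) (B (M (nat_lit 269) (B (M (nat_lit 302) (B (M (nat_lit 398) (B (M (nat_lit 303) (B (L (nat_lit 332) ln11_10_2 ln11_10_2_ok) (L (nat_lit 271) ln14_12_6 ln14_12_6_ok))) (L (nat_lit 399) ln11_11_0 ln11_11_0_ok))) (M (nat_lit 270) (B (L (nat_lit 238) ln14_7_5_c10 ln14_7_5_c10_ok) (L (nat_lit 237) ln14_11_7_c10 ln14_11_7_c10_ok))))) (B (M (nat_lit 301) (B (L (nat_lit 396) ln13_8_5 ln13_8_5_ok) (L (nat_lit 237) ln13_7_4 ln13_7_4_ok))) (M (nat_lit 398) (B (L (nat_lit 301) ln13_8_4 ln13_8_4_ok) (L (nat_lit 399) ln11_11_0 ln11_11_0_ok)))))) (L (nat_lit 362) ln10_11_2 ln10_11_2_ok))) (L (nat_lit 335) ln11_11_2 ln11_11_2_ok))) (B (M (nat_lit 427) (B (M (nat_lit 459) (B (M (nat_lit 462) (B (L (nat_lit 426) ln14_14_3 ln14_14_3_ok) (M (nat_lit 463) (B (M (nat_lit 495) (B (L (nat_lit 496) ln12_14_0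 ln12_14_0_ok) (L (nat_lit 494) ln11_14_0 ln11_14_0_ok))) (M (nat_lit 491) (B (L (nat_lit 492) ln15_14_1 ln15_14_1_ok) (L (nat_lit 490) ln14_14_1 ln14_14_1_ok))))))) (B (M (nat_lit 426) (B (L (nat_lit 462) ln14_14_3 ln14_14_3_ok) (M (nat_lit 458) (B (L (nat_lit 425) ln13_14_3 ln13_14_3_ok) (M (nat_lit 490) (B (L (nat_lit 489) ln13_14_1 ln13_14_1_ok) (L (nat_lit 395) ln11_10_5 ln11_10_5_ok))))))) (M (nat_lit 395) (B (L (nat_lit 492) ln11_11_4 ln11_11_4_ok) (L (nat_lit 332) ln11_14_6 ln11_14_6_ok)))))) (B (M (nat_lit 426) (B (M (nat_lit 425) (B (L (nat_lit 428) ln9_13_0 ln9_13_0_ok) (M (nat_lit 459) (B (L (nat_lit 458) ln13_14_3 ln13_14_3_ok) (L (nat_lit 462) ln14_14_3 ln14_14_3_ok))))) (B (M (nat_lit 462) (B (L (nat_lit 459) ln14_14_3 ln14_14_3_ok) (L (nat_lit 428) ln10_13_0 ln10_13_0_ok))) (B (M (nat_lit 428) (B (L (nat_lit 425) ln9_13_0 ln9_13_0_ok) (L (nat_lit 462) ln10_13_0 ln10_13_0_ok))) (B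 (M (nat_lit 459) (B (L (nat_lit 462) ln14_14_3 ln14_14_3_ok) (M (nat_lit 425) (B (L (nat_lit 424) ln8_13_0 ln8_13_0_ok) (L (nat_lit 458) ln13_14_3 ln13_14_3_ok))))) (M (nat_lit 425) (B (L (nat_lit 428) ln9_13_0 ln9_13_0_ok) (M (nat_lit 459) (B (L (nat_lit 424) ln8_13_0 ln8_13_0_ok) (L (nat_lit 458) ln13_14_3 ln13_14_3_ok)))))))))) (B (M (nat_lit 395) (B (M (nat_lit 459) (B (L (nat_lit 492) ln11_11_4 ln11_11_4_ok) (L (nat_lit 332) ln11_14_6 ln11_14_6_ok))) (L (nat_lit 428) ln11_10_4 ln11_10_4_ok))) (M (nat_lit 428) (B (M (nat_lit 462) (B (L (nat_lit 426) ln10_13_0 ln10_13_0_ok) (L (nat_lit 463) ln15_14_3 ln15_14_3_ok))) (L (nat_lit 395) ln11_10_4 ln11_10_4_ok))))))) (M (nat_lit 428) (B (M (nat_lit 427) (B (M (nat_lit 462) (B (L (nat_lit 426) ln10_13_0 ln10_13_0_ok) (L (nat_lit 463) ln15_14_3 ln15_14_3_ok))) (L (nat_lit 395) ln11_10_4 ln11_10_4_ok))) (L (nat_lit 396) ln12_14_7 ln12_14_7_ok))))))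 (B (M (nat_lit 367) (B (M (nat_lit 335) (B (L (nat_lit 334) ln11_11_2 ln11_11_2_ok) (L (nat_lit 336) ln12_11_2 ln12_11_2_ok))) (B (M (nat_lit 368) (B (L (nat_lit 332) ln15_11_3 ln15_11_3_ok) (M (nat_lit 336) (B (L (nat_lit 335) ln12_11_2 ln12_11_2_ok) (L (nat_lit 337) ln13_11_2 ln13_11_2_ok))))) (L (nat_lit 332) ln15_11_3 ln15_11_3_ok)))) (B (M (nat_lit 367) (B (M (nat_lit 335) (B (L (nat_lit 334) ln11_11_2 ln11_11_2_ok) (L (nat_lit 336) ln12_11_2 ln12_11_2_ok))) (M (nat_lit 399) (B (L (nat_lit 398) ln11_11_0 ln11_11_0_ok) (L (nat_lit 400) ln12_11_0 ln12_11_0_ok))))) (M (nat_lit 399) (B (M (nat_lit 367) (B (L (nat_lit 400) ln12_11_0 ln12_11_0_ok) (L (nat_lit 332) ln15_11_3 ln15_11_3_ok))) (L (nat_lit 398) ln11_11_0 ln11_11_0_ok))))))) (B (M (nat_lit 362) (B (M (nat_lit 361) (B (M (nat_lit 333) (B (L (nat_lit 334) ln10_11_2 ln10_11_2_ok) (L (nat_lit 332) ln9_11_2 ln9_11_2_ok))) (M (nat_lit 329)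 (B (L (nat_lit 330) ln13_11_3 ln13_11_3_ok) (L (nat_lit 328) ln12_11_3 ln12_11_3_ok))))) (B (M (nat_lit 361) (B (M (nat_lit 332) (B (L (nat_lit 333) ln9_11_2 ln9_11_2_ok) (L (nat_lit 360) ln8_11_2 ln8_11_2_ok))) (M (nat_lit 329) (B (L (nat_lit 330) ln13_11_3 ln13_11_3_ok) (L (nat_lit 328) ln12_11_3 ln12_11_3_ok))))) (B (M (nat_lit 361) (B (M (nat_lit 329) (B (L (nat_lit 330) ln13_11_3 ln13_11_3_ok) (L (nat_lit 328) ln12_11_3 ln12_11_3_ok))) (M (nat_lit 360) (B (L (nat_lit 332) ln8_11_2 ln8_11_2_ok) (M (nat_lit 392) (B (L (nat_lit 393) ln12_11_1 ln12_11_1_ok) (L (nat_lit 391) ln11_11_1 ln11_11_1_ok))))))) (B (M (nat_lit 361) (B (M (nat_lit 329) (B (L (nat_lit 330) ln13_11_3 ln13_11_3_ok) (L (nat_lit 328) ln12_11_3 ln12_11_3_ok))) (B (M (nat_lit 360) (B (M (nat_lit 328) (B (L (nat_lit 329) ln12_11_3 ln12_11_3_ok) (L (nat_lit 327) ln11_11_3 ln11_11_3_ok))) (M (nat_lit 392) (B (L (nat_lit 393) ln12_11_1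 ln12_11_1_ok) (L (nat_lit 391) ln11_11_1 ln11_11_1_ok))))) (B (M (nat_lit 360) (B (M (nat_lit 392) (B (L (nat_lit 393) ln12_11_1 ln12_11_1_ok) (L (nat_lit 391) ln11_11_1 ln11_11_1_ok))) (M (nat_lit 327) (B (L (nat_lit 328) ln11_11_3 ln11_11_3_ok) (M (nat_lit 359) (B (L (nat_lit 330) ln7_11_2 ln7_11_2_ok) (L (nat_lit 326) ln10_11_3 ln10_11_3_ok))))))) (M (nat_lit 360) (B (M (nat_lit 330) (B (L (nat_lit 359) ln7_11_2 ln7_11_2_ok) (L (nat_lit 329) ln13_11_3 ln13_11_3_ok))) (M (nat_lit 392) (B (L (nat_lit 393) ln12_11_1 ln12_11_1_ok) (L (nat_lit 391) ln11_11_1 ln11_11_1_ok))))))))) (B (M (nat_lit 361) (B (M (nat_lit 333) (B (L (nat_lit 334) ln10_11_2 ln10_11_2_ok) (L (nat_lit 332) ln9_11_2 ln9_11_2_ok))) (B (M (nat_lit 332) (B (L (nat_lit 333) ln9_11_2 ln9_11_2_ok) (L (nat_lit 360) ln8_11_2 ln8_11_2_ok))) (B (M (nat_lit 360) (B (L (nat_lit 332) ln8_11_2 ln8_11_2_ok) (M (nat_lit 328) (B (L (nat_lit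 329) ln12_11_3 ln12_11_3_ok) (L (nat_lit 327) ln11_11_3 ln11_11_3_ok))))) (M (nat_lit 360) (B (M (nat_lit 328) (B (L (nat_lit 329) ln12_11_3 ln12_11_3_ok) (L (nat_lit 327) ln11_11_3 ln11_11_3_ok))) (M (nat_lit 392) (B (L (nat_lit 393) ln12_11_1 ln12_11_1_ok) (L (nat_lit 391) ln11_11_1 ln11_11_1_ok))))))))) (B (M (nat_lit 361) (B (M (nat_lit 333) (B (L (nat_lit 334) ln10_11_2 ln10_11_2_ok) (L (nat_lit 332) ln9_11_2 ln9_11_2_ok))) (B (M (nat_lit 332) (B (L (nat_lit 333) ln9_11_2 ln9_11_2_ok) (L (nat_lit 360) ln8_11_2 ln8_11_2_ok))) (B (M (nat_lit 360) (B (L (nat_lit 332) ln8_11_2 ln8_11_2_ok) (M (nat_lit 392) (B (L (nat_lit 393) ln12_11_1 ln12_11_1_ok) (L (nat_lit 391) ln11_11_1 ln11_11_1_ok))))) (M (nat_lit 360) (B (M (nat_lit 392) (B (L (nat_lit 393) ln12_11_1 ln12_11_1_ok) (L (nat_lit 391) ln11_11_1 ln11_11_1_ok))) (M (nat_lit 327) (B (L (nat_lit 328) ln11_11_3 ln11_11_3_ok) (M (nat_lit 359) (B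 (L (nat_lit 330) ln7_11_2 ln7_11_2_ok) (L (nat_lit 326) ln10_11_3 ln10_11_3_ok))))))))))) (B (M (nat_lit 361) (B (M (nat_lit 333) (B (L (nat_lit 334) ln10_11_2 ln10_11_2_ok) (L (nat_lit 332) ln9_11_2 ln9_11_2_ok))) (B (M (nat_lit 332) (B (L (nat_lit 333) ln9_11_2 ln9_11_2_ok) (L (nat_lit 360) ln8_11_2 ln8_11_2_ok))) (B (M (nat_lit 330) (B (L (nat_lit 329) ln13_11_3 ln13_11_3_ok) (M (nat_lit 360) (B (L (nat_lit 332) ln8_11_2 ln8_11_2_ok) (L (nat_lit 359) ln7_11_2 ln7_11_2_ok))))) (M (nat_lit 360) (B (M (nat_lit 330) (B (L (nat_lit 359) ln7_11_2 ln7_11_2_ok) (L (nat_lit 329) ln13_11_3 ln13_11_3_ok))) (M (nat_lit 392) (B (L (nat_lit 393) ln12_11_1 ln12_11_1_ok) (L (nat_lit 391) ln11_11_1 ln11_11_1_ok))))))))) (M (nat_lit 330) (B (L (nat_lit 329) ln13_11_3 ln13_11_3_ok) (M (nat_lit 333) (B (L (nat_lit 334) ln10_11_2 ln10_11_2_ok) (M (nat_lit 332) (B (M (nat_lit 298) (B (L (nat_lit 297) ln13_10_3 ln13_10_3_ok)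 (M (nat_lit 266) (B (L (nat_lit 234) ln10_7_4 ln10_7_4_ok) (L (nat_lit 395) ln10_8_4 ln10_8_4_ok))))) (M (nat_lit 301) (B (L (nat_lit 302) ln10_10_2 ln10_10_2_ok) (M (nat_lit 396) (B (L (nat_lit 269) ln13_8_5 ln13_8_5_ok) (L (nat_lit 428) ln12_10_4 ln12_10_4_ok))))))))))))))))))) (B (M (nat_lit 366) (B (L (nat_lit 330) ln14_11_3 ln14_11_3_ok) (M (nat_lit 399) (B (L (nat_lit 398) ln11_11_0 ln11_11_0_ok) (M (nat_lit 335) (B (L (nat_lit 334) ln11_11_2 ln11_11_2_ok) (M (nat_lit 367) (B (L (nat_lit 400) ln12_11_0 ln12_11_0_ok) (L (nat_lit 336) ln12_11_2 ln12_11_2_ok))))))))) (M (nat_lit 330) (B (M (nat_lit 329) (B (L (nat_lit 362) ln13_11_3 ln13_11_3_ok) (L (nat_lit 328) ln8_10_0 ln8_10_0_ok))) (L (nat_lit 366) ln14_11_3 ln14_11_3_ok))))))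
noncomputable def c10_d292 : Cert := (B (M (nat_lit 300) (B (M (nat_lit 268) (B (L (nat_lit 395) ln11_12_6 ln11_12_6_ok) (M (nat_lit 236) (B (L (nat_lit 204) ln12_6_5_c10 ln12_6_5_c10_ok) (L (nat_lit 332) ln12_7_5 ln12_7_5_ok))))) (B (M (nat_lit 298) (B (M (nat_lit 266) (B (L (nat_lit 234) ln10_7_4 ln10_7_4_ok) (L (nat_lit 395) ln11_12_7 ln11_12_7_ok))) (B (M (nat_lit 395) (B (L (nat_lit 266) ln11_12_7 ln11_12_7_ok) (L (nat_lit 268) ln11_12_6 ln11_12_6_ok))) (B (M (nat_lit 297) (B (M (nat_lit 268) (B (L (nat_lit 269) ln9_9_2 ln9_9_2_ok) (L (nat_lit 395) ln11_12_6 ln11_12_6_ok))) (M (nat_lit 296) (B (L (nat_lit 295) ln7_9_0_c10 ln7_9_0_c10_ok) (L (nat_lit 332) ln8_9_0 ln8_9_0_ok))))) (M (nat_lit 266) (B (L (nat_lit 234) ln10_7_4 ln10_7_4_ok) (M (nat_lit 301) (B (L (nat_lit 265) ln13_9_3 ln13_9_3_ok) (L (nat_lit 302) ln14_9_1_c10 ln14_9_1_c10_ok))))))))) (B (K (nat_lit 5954262830815946494440468064101681940814086959761711901123068716178819673117272812153518377728202909325604773457405794766923535167719997440)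 (nat_lit 80695308690215893487990494432195531427369396067118895133345432482573292386001775905325469118192427222990270704721592320) (nat_lit 80695308690215893487990494432195531427369396067118895133345432482573292386001775905325469118192427222990270704721592320) c10_s151) (B (M (nat_lit 298) (B (M (nat_lit 266) (B (L (nat_lit 234) ln10_7_4 ln10_7_4_ok) (L (nat_lit 395) ln11_12_7 ln11_12_7_ok))) (B (M (nat_lit 395) (B (L (nat_lit 266) ln11_12_7 ln11_12_7_ok) (L (nat_lit 268) ln11_12_6 ln11_12_6_ok))) (B (M (nat_lit 269) (B (M (nat_lit 268) (B (L (nat_lit 297) ln9_9_2 ln9_9_2_ok) (L (nat_lit 395) ln11_12_6 ln11_12_6_ok))) (M (nat_lit 301) (B (L (nat_lit 270) ln10_9_2 ln10_9_2_ok) (L (nat_lit 302) ln14_9_1_c10 ln14_9_1_c10_ok))))) (M (nat_lit 266) (B (L (nat_lit 234) ln10_7_4 ln10_7_4_ok) (M (nat_lit 301) (B (L (nat_lit 265) ln13_9_3 ln13_9_3_ok) (L (nat_lit 302) ln14_9_1_c10 ln14_9_1_c10_ok)))))))))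 (M (nat_lit 268) (B (M (nat_lit 236) (B (L (nat_lit 204) ln12_6_5_c10 ln12_6_5_c10_ok) (L (nat_lit 332) ln12_7_5 ln12_7_5_ok))) (M (nat_lit 301) (B (L (nat_lit 302) ln14_9_1_c10 ln14_9_1_c10_ok) (M (nat_lit 298) (B (M (nat_lit 266) (B (L (nat_lit 234) ln10_7_4 ln10_7_4_ok) (L (nat_lit 265) ln13_9_3 ln13_9_3_ok))) (M (nat_lit 269) (B (L (nat_lit 297) ln9_9_2 ln9_9_2_ok) (L (nat_lit 270) ln10_9_2 ln10_9_2_ok)))))))))))))) (B (M (nat_lit 266) (B (M (nat_lit 234) (B (L (nat_lit 267) ln11_11_7 ln11_11_7_ok) (L (nat_lit 298) ln10_7_4 ln10_7_4_ok))) (B (M (nat_lit 298) (B (L (nat_lit 395) ln11_12_7 ln11_12_7_ok) (M (nat_lit 297) (B (M (nat_lit 296) (B (L (nat_lit 295) ln7_9_0_c10 ln7_9_0_c10_ok) (L (nat_lit 332) ln8_9_0 ln8_9_0_ok))) (M (nat_lit 265) (B (M (nat_lit 233) (B (L (nat_lit 201) ln9_6_4_c10 ln9_6_4_c10_ok) (L (nat_lit 362) ln10_11_7_c10 ln10_11_7_c10_ok))) (M (nat_lit 264) (B (L (nat_lit 263)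 ln7_8_0_c10 ln7_8_0_c10_ok) (L (nat_lit 300) ln12_9_3 ln12_9_3_ok))))))))) (M (nat_lit 267) (B (L (nat_lit 234) ln11_11_7 ln11_11_7_ok) (M (nat_lit 235) (B (L (nat_lit 362) ln11_7_5 ln11_7_5_ok) (M (nat_lit 203) (B (M (nat_lit 204) (B (L (nat_lit 172) ln11_9_6_c10 ln11_9_6_c10_ok) (L (nat_lit 236) ln11_10_6 ln11_10_6_ok))) (M (nat_lit 332) (B (L (nat_lit 300) ln11_6_4_c10 ln11_6_4_c10_ok) (L (nat_lit 364) ln11_7_4 ln11_7_4_ok)))))))))))) (B (M (nat_lit 267) (B (M (nat_lit 234) (B (L (nat_lit 266) ln11_11_7 ln11_11_7_ok) (M (nat_lit 235) (B (L (nat_lit 202) ln11_10_7 ln11_10_7_ok) (L (nat_lit 362) ln11_7_5 ln11_7_5_ok))))) (B (M (nat_lit 235) (B (L (nat_lit 362) ln11_7_5 ln11_7_5_ok) (M (nat_lit 236) (B (L (nat_lit 204) ln11_10_6 ln11_10_6_ok) (L (nat_lit 268) ln11_11_6 ln11_11_6_ok))))) (M (nat_lit 268) (B (L (nat_lit 236) ln11_11_6 ln11_11_6_ok) (M (nat_lit 300) (B (L (nat_lit 395) ln11_12_6 ln11_12_6_ok)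 (M (nat_lit 266) (B (L (nat_lit 234) ln11_11_7 ln11_11_7_ok) (M (nat_lit 265) (B (L (nat_lit 264) ln8_8_0_c10 ln8_8_0_c10_ok) (L (nat_lit 301) ln9_8_0_c10 ln9_8_0_c10_ok)))))))))))) (B (M (nat_lit 267) (B (M (nat_lit 235) (B (L (nat_lit 362) ln11_7_5 ln11_7_5_ok) (M (nat_lit 236) (B (L (nat_lit 204) ln11_10_6 ln11_10_6_ok) (L (nat_lit 268) ln11_11_6 ln11_11_6_ok))))) (B (M (nat_lit 234) (B (L (nat_lit 266) ln11_11_7 ln11_11_7_ok) (M (nat_lit 235) (B (L (nat_lit 202) ln11_10_7 ln11_10_7_ok) (L (nat_lit 362) ln11_7_5 ln11_7_5_ok))))) (M (nat_lit 266) (B (L (nat_lit 234) ln11_11_7 ln11_11_7_ok) (M (nat_lit 298) (B (L (nat_lit 395) ln11_12_7 ln11_12_7_ok) (M (nat_lit 268) (B (L (nat_lit 236) ln11_11_6 ln11_11_6_ok) (M (nat_lit 297) (B (L (nat_lit 269) ln13_8_1_c10 ln13_8_1_c10_ok) (L (nat_lit 296) ln8_9_2 ln8_9_2_ok)))))))))))) (M (nat_lit 267) (B (M (nat_lit 234) (B (L (nat_lit 266) ln11_11_7 ln11_11_7_ok)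 (M (nat_lit 235) (B (L (nat_lit 202) ln11_10_7 ln11_10_7_ok) (L (nat_lit 362) ln11_7_5 ln11_7_5_ok))))) (B (M (nat_lit 235) (B (L (nat_lit 362) ln11_7_5 ln11_7_5_ok) (M (nat_lit 236) (B (L (nat_lit 204) ln11_10_6 ln11_10_6_ok) (L (nat_lit 268) ln11_11_6 ln11_11_6_ok))))) (B (M (nat_lit 266) (B (L (nat_lit 234) ln11_11_7 ln11_11_7_ok) (M (nat_lit 265) (B (M (nat_lit 268) (B (L (nat_lit 236) ln11_11_6 ln11_11_6_ok) (M (nat_lit 300) (B (L (nat_lit 264) ln8_8_0_c10 ln8_8_0_c10_ok) (L (nat_lit 301) ln9_8_0_c10 ln9_8_0_c10_ok))))) (B (M (nat_lit 300) (B (L (nat_lit 264) ln8_8_0_c10 ln8_8_0_c10_ok) (M (nat_lit 301) (B (L (nat_lit 268) ln9_8_0_c10 ln9_8_0_c10_ok) (L (nat_lit 298) ln13_9_3 ln13_9_3_ok))))) (B (M (nat_lit 297) (B (M (nat_lit 268) (B (L (nat_lit 236) ln11_11_6 ln11_11_6_ok) (L (nat_lit 296) ln12_8_1_c10 ln12_8_1_c10_ok))) (B (M (nat_lit 298) (B (M (nat_lit 233) (B (L (nat_lit 201) ln9_6_4_c10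 ln9_6_4_c10_ok) (L (nat_lit 362) ln10_11_7_c10 ln10_11_7_c10_ok))) (M (nat_lit 296) (B (L (nat_lit 268) ln12_8_1_c10 ln12_8_1_c10_ok) (L (nat_lit 332) ln8_9_0 ln8_9_0_ok))))) (B (M (nat_lit 298) (B (M (nat_lit 233) (B (L (nat_lit 201) ln9_6_4_c10 ln9_6_4_c10_ok) (L (nat_lit 362) ln10_11_7_c10 ln10_11_7_c10_ok))) (M (nat_lit 332) (B (L (nat_lit 296) ln8_9_0 ln8_9_0_ok) (L (nat_lit 333) ln13_10_3 ln13_10_3_ok))))) (M (nat_lit 298) (B (M (nat_lit 233) (B (L (nat_lit 201) ln9_6_4_c10 ln9_6_4_c10_ok) (L (nat_lit 362) ln10_11_7_c10 ln10_11_7_c10_ok))) (M (nat_lit 268) (B (L (nat_lit 236) ln11_11_6 ln11_11_6_ok) (L (nat_lit 269) ln13_8_1_c10 ln13_8_1_c10_ok))))))))) (M (nat_lit 298) (B (M (nat_lit 300) (B (L (nat_lit 264) ln8_8_0_c10 ln8_8_0_c10_ok) (L (nat_lit 301) ln13_9_3 ln13_9_3_ok))) (M (nat_lit 297) (B (M (nat_lit 233) (B (L (nat_lit 201) ln9_6_4_c10 ln9_6_4_c10_ok) (L (nat_lit 362) ln10_11_7_c10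 ln10_11_7_c10_ok))) (M (nat_lit 332) (B (L (nat_lit 296) ln8_9_0 ln8_9_0_ok) (L (nat_lit 333) ln13_10_3 ln13_10_3_ok))))))))))))) (M (nat_lit 235) (B (M (nat_lit 234) (B (L (nat_lit 202) ln11_10_7 ln11_10_7_ok) (L (nat_lit 266) ln11_11_7 ln11_11_7_ok))) (M (nat_lit 236) (B (L (nat_lit 204) ln11_10_6 ln11_10_6_ok) (L (nat_lit 268) ln11_11_6 ln11_11_6_ok)))))))))))))
noncomputable def c10_d293 : Cert := (B (M (nat_lit 267) (B (M (nat_lit 234) (B (L (nat_lit 266) ln11_11_7 ln11_11_7_ok) (M (nat_lit 235) (B (L (nat_lit 202) ln11_10_7 ln11_10_7_ok) (L (nat_lit 362) ln11_7_5 ln11_7_5_ok))))) (B (M (nat_lit 395) (B (M (nat_lit 266) (B (L (nat_lit 234) ln11_11_7 ln11_11_7_ok) (L (nat_lit 298) ln11_12_7 ln11_12_7_ok))) (M (nat_lit 268) (B (L (nat_lit 236) ln11_11_6 ln11_11_6_ok) (L (nat_lit 300) ln11_12_6 ln11_12_6_ok))))) (B (M (nat_lit 395) (B (M (nat_lit 268) (B (L (nat_lit 236) ln11_11_6 ln11_11_6_ok)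 (L (nat_lit 300) ln11_12_6 ln11_12_6_ok))) (M (nat_lit 298) (B (L (nat_lit 266) ln11_12_7 ln11_12_7_ok) (L (nat_lit 427) ln11_13_7 ln11_13_7_ok))))) (M (nat_lit 362) (B (L (nat_lit 235) ln11_7_5 ln11_7_5_ok) (M (nat_lit 395) (B (M (nat_lit 268) (B (L (nat_lit 236) ln11_11_6 ln11_11_6_ok) (L (nat_lit 300) ln11_12_6 ln11_12_6_ok))) (M (nat_lit 427) (B (L (nat_lit 298) ln11_13_7 ln11_13_7_ok) (L (nat_lit 459) ln11_14_7 ln11_14_7_ok))))))))))) (B (M (nat_lit 267) (B (M (nat_lit 235) (B (L (nat_lit 362) ln11_7_5 ln11_7_5_ok) (M (nat_lit 236) (B (L (nat_lit 204) ln11_10_6 ln11_10_6_ok) (L (nat_lit 268) ln11_11_6 ln11_11_6_ok))))) (B (M (nat_lit 298) (B (M (nat_lit 235) (B (L (nat_lit 203) ln11_6_5 ln11_6_5_ok) (L (nat_lit 362) ln11_7_5 ln11_7_5_ok))) (M (nat_lit 395) (B (L (nat_lit 266) ln11_12_7 ln11_12_7_ok) (L (nat_lit 427) ln11_13_7 ln11_13_7_ok))))) (M (nat_lit 395) (B (M (nat_lit 268) (B (L (nat_lit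 236) ln11_11_6 ln11_11_6_ok) (L (nat_lit 300) ln11_12_6 ln11_12_6_ok))) (M (nat_lit 298) (B (L (nat_lit 266) ln11_12_7 ln11_12_7_ok) (L (nat_lit 427) ln11_13_7 ln11_13_7_ok)))))))) (B (M (nat_lit 395) (B (M (nat_lit 298) (B (L (nat_lit 266) ln11_12_7 ln11_12_7_ok) (L (nat_lit 427) ln11_13_7 ln11_13_7_ok))) (B (M (nat_lit 427) (B (L (nat_lit 298) ln11_13_7 ln11_13_7_ok) (M (nat_lit 300) (B (L (nat_lit 268) ln11_12_6 ln11_12_6_ok) (L (nat_lit 332) ln11_13_6 ln11_13_6_ok))))) (B (M (nat_lit 427) (B (M (nat_lit 300) (B (L (nat_lit 268) ln11_12_6 ln11_12_6_ok) (L (nat_lit 332) ln11_13_6 ln11_13_6_ok))) (M (nat_lit 458) (B (L (nat_lit 426) ln11_10_5 ln11_10_5_ok) (M (nat_lit 459) (B (L (nat_lit 362) ln11_14_7 ln11_14_7_ok) (L (nat_lit 490) ln11_11_5 ln11_11_5_ok))))))) (M (nat_lit 267) (B (M (nat_lit 266) (B (L (nat_lit 234) ln11_11_7 ln11_11_7_ok) (L (nat_lit 298) ln11_12_7 ln11_12_7_ok))) (M (nat_lit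 268) (B (L (nat_lit 236) ln11_11_6 ln11_11_6_ok) (L (nat_lit 300) ln11_12_6 ln11_12_6_ok))))))))) (B (M (nat_lit 300) (B (M (nat_lit 395) (B (L (nat_lit 268) ln11_12_6 ln11_12_6_ok) (M (nat_lit 298) (B (L (nat_lit 266) ln11_12_7 ln11_12_7_ok) (L (nat_lit 427) ln11_13_7 ln11_13_7_ok))))) (B (M (nat_lit 395) (B (L (nat_lit 268) ln11_12_6 ln11_12_6_ok) (M (nat_lit 427) (B (L (nat_lit 298) ln11_13_7 ln11_13_7_ok) (L (nat_lit 332) ln11_13_6 ln11_13_6_ok))))) (B (K (nat_lit 5954262830815946494440468064101681940814086959761711901123068716178819673117272812153518377728202909325604773457405794766923535167719997440) (nat_lit 80695308690215893487990494432195531427369396067118895133345432482573292386001775905325469118192427222990270704721592320) (nat_lit 80695308690215893487990494432195531427369396067118895133345432482573292386001775905325469118192427222990270704721592320) c10_s151) (B (M (nat_lit 268) (B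 (L (nat_lit 395) ln11_12_6 ln11_12_6_ok) (M (nat_lit 267) (B (M (nat_lit 235) (B (L (nat_lit 362) ln11_7_5 ln11_7_5_ok) (M (nat_lit 203) (B (L (nat_lit 171) ln11_5_4_c10 ln11_5_4_c10_ok) (L (nat_lit 332) ln11_6_4_c10 ln11_6_4_c10_ok))))) (B (M (nat_lit 235) (B (L (nat_lit 362) ln11_7_5 ln11_7_5_ok) (M (nat_lit 234) (B (L (nat_lit 202) ln11_10_7 ln11_10_7_ok) (L (nat_lit 266) ln11_11_7 ln11_11_7_ok))))) (M (nat_lit 266) (B (L (nat_lit 234) ln11_11_7 ln11_11_7_ok) (M (nat_lit 265) (B (L (nat_lit 264) ln8_8_0_c10 ln8_8_0_c10_ok) (L (nat_lit 301) ln9_8_0_c10 ln9_8_0_c10_ok)))))))))) (M (nat_lit 267) (B (M (nat_lit 235) (B (L (nat_lit 362) ln11_7_5 ln11_7_5_ok) (M (nat_lit 234) (B (L (nat_lit 202) ln11_10_7 ln11_10_7_ok) (L (nat_lit 266) ln11_11_7 ln11_11_7_ok))))) (B (M (nat_lit 235) (B (L (nat_lit 362) ln11_7_5 ln11_7_5_ok) (M (nat_lit 203) (B (L (nat_lit 298) ln11_6_5 ln11_6_5_ok) (L (nat_lit 332)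 ln11_6_4_c10 ln11_6_4_c10_ok))))) (M (nat_lit 266) (B (L (nat_lit 234) ln11_11_7 ln11_11_7_ok) (M (nat_lit 301) (B (L (nat_lit 302) ln14_9_1_c10 ln14_9_1_c10_ok) (M (nat_lit 265) (B (L (nat_lit 268) ln9_8_0_c10 ln9_8_0_c10_ok) (L (nat_lit 298) ln13_9_3 ln13_9_3_ok))))))))))))))) (B (M (nat_lit 267) (B (M (nat_lit 235) (B (L (nat_lit 362) ln11_7_5 ln11_7_5_ok) (M (nat_lit 236) (B (L (nat_lit 204) ln11_10_6 ln11_10_6_ok) (L (nat_lit 268) ln11_11_6 ln11_11_6_ok))))) (B (M (nat_lit 235) (B (L (nat_lit 362) ln11_7_5 ln11_7_5_ok) (M (nat_lit 203) (B (L (nat_lit 298) ln11_6_5 ln11_6_5_ok) (M (nat_lit 332) (B (L (nat_lit 300) ln11_6_4_c10 ln11_6_4_c10_ok) (L (nat_lit 364) ln11_7_4 ln11_7_4_ok))))))) (B (M (nat_lit 395) (B (M (nat_lit 268) (B (L (nat_lit 236) ln11_11_6 ln11_11_6_ok) (L (nat_lit 300) ln11_12_6 ln11_12_6_ok))) (B (M (nat_lit 427) (B (L (nat_lit 298) ln11_13_7 ln11_13_7_ok) (M (nat_lit 300)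 (B (L (nat_lit 268) ln11_12_6 ln11_12_6_ok) (L (nat_lit 332) ln11_13_6 ln11_13_6_ok))))) (B (M (nat_lit 427) (B (L (nat_lit 298) ln11_13_7 ln11_13_7_ok) (M (nat_lit 459) (B (L (nat_lit 362) ln11_14_7 ln11_14_7_ok) (M (nat_lit 332) (B (L (nat_lit 300) ln11_13_6 ln11_13_6_ok) (L (nat_lit 364) ln11_14_6 ln11_14_6_ok))))))) (M (nat_lit 427) (B (L (nat_lit 298) ln11_13_7 ln11_13_7_ok) (M (nat_lit 459) (B (L (nat_lit 362) ln11_14_7 ln11_14_7_ok) (M (nat_lit 458) (B (L (nat_lit 426) ln11_10_5 ln11_10_5_ok) (L (nat_lit 490) ln11_11_5 ln11_11_5_ok))))))))))) (M (nat_lit 298) (B (M (nat_lit 268) (B (L (nat_lit 236) ln11_11_6 ln11_11_6_ok) (M (nat_lit 395) (B (L (nat_lit 300) ln11_12_6 ln11_12_6_ok) (L (nat_lit 427) ln11_13_7 ln11_13_7_ok))))) (M (nat_lit 332) (B (M (nat_lit 235) (B (L (nat_lit 203) ln11_6_5 ln11_6_5_ok) (L (nat_lit 364) ln11_7_4 ln11_7_4_ok))) (M (nat_lit 297) (B (L (nat_lit 296) ln8_9_0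 ln8_9_0_ok) (L (nat_lit 333) ln13_10_3 ln13_10_3_ok))))))))))) c10_d292)))))
noncomputable def c10_d294 : Cert := (B (M (nat_lit 265) (B (M (nat_lit 299) (B (L (nat_lit 234) ln11_11_7 ln11_11_7_ok) (M (nat_lit 300) (B (L (nat_lit 264) ln8_8_0_c10 ln8_8_0_c10_ok) (M (nat_lit 301) (B (L (nat_lit 268) ln9_8_0_c10 ln9_8_0_c10_ok) (L (nat_lit 302) ln14_9_1_c10 ln14_9_1_c10_ok))))))) (B (M (nat_lit 268) (B (M (nat_lit 300) (B (L (nat_lit 301) ln9_8_0_c10 ln9_8_0_c10_ok) (M (nat_lit 299) (B (L (nat_lit 264) ln8_8_0_c10 ln8_8_0_c10_ok) (L (nat_lit 395) ln11_12_6 ln11_12_6_ok))))) (M (nat_lit 233) (B (L (nat_lit 232) ln12_8_3_c10 ln12_8_3_c10_ok) (M (nat_lit 297) (B (L (nat_lit 362) ln9_7_4_c10 ln9_7_4_c10_ok) (L (nat_lit 296) ln12_8_1_c10 ln12_8_1_c10_ok))))))) (B (M (nat_lit 234) (B (L (nat_lit 299) ln11_11_7 ln11_11_7_ok) (M (nat_lit 297) (B (L (nat_lit 361) ln9_11_6_c10 ln9_11_6_c10_ok) (M (nat_lit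 202) (B (L (nat_lit 170) ln10_5_5_c10 ln10_5_5_c10_ok) (L (nat_lit 233) ln9_10_6_c10 ln9_10_6_c10_ok))))))) (M (nat_lit 297) (B (M (nat_lit 233) (B (L (nat_lit 362) ln9_7_4_c10 ln9_7_4_c10_ok) (M (nat_lit 234) (B (L (nat_lit 202) ln9_10_6_c10 ln9_10_6_c10_ok) (L (nat_lit 361) ln9_11_6_c10 ln9_11_6_c10_ok))))) (M (nat_lit 296) (B (L (nat_lit 268) ln12_8_1_c10 ln12_8_1_c10_ok) (M (nat_lit 295) (B (L (nat_lit 264) ln11_8_1_c10 ln11_8_1_c10_ok) (L (nat_lit 294) ln6_9_0_c10 ln6_9_0_c10_ok))))))))))) (B (M (nat_lit 265) (B (M (nat_lit 299) (B (L (nat_lit 234) ln11_11_7 ln11_11_7_ok) (M (nat_lit 235) (B (L (nat_lit 362) ln11_7_5 ln11_7_5_ok) (M (nat_lit 264) (B (L (nat_lit 236) ln8_8_2_c10 ln8_8_2_c10_ok) (L (nat_lit 300) ln8_8_0_c10 ln8_8_0_c10_ok))))))) (B (K (nat_lit 5954262830815946494440468064101681940815180585121047853121168237010802356511733408037658918817663009877897195064491326759974647353585958912)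 (nat_lit 9394170331095332914836277161615125817035859362889630736541151952254241333338194342159042563900168464186212352) (nat_lit 9394170331095332914836277161615125817035859362889630736541151952254241333338194342159042563900168464186212352) c10_s152) (B (M (nat_lit 234) (B (L (nat_lit 299) ln11_11_7 ln11_11_7_ok) (M (nat_lit 297) (B (L (nat_lit 361) ln9_11_6_c10 ln9_11_6_c10_ok) (M (nat_lit 202) (B (L (nat_lit 170) ln10_5_5_c10 ln10_5_5_c10_ok) (L (nat_lit 233) ln9_10_6_c10 ln9_10_6_c10_ok))))))) (K (nat_lit 5954262830815946494440468064101681940815180585121047853121168237010802356511733408037658918817663009877897195064491326759974647353585958912) (nat_lit 14091255496642999367814313887733881503207796680639028186331973690511631897386653150416668199181085206370058240) (nat_lit 14091255496642999367814313887733881503207796680639028186331973690511631897386653150416668199181085206370058240) c10_s154)))))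 (M (nat_lit 265) (B (M (nat_lit 297) (B (M (nat_lit 296) (B (L (nat_lit 268) ln12_8_1_c10 ln12_8_1_c10_ok) (M (nat_lit 295) (B (L (nat_lit 264) ln11_8_1_c10 ln11_8_1_c10_ok) (L (nat_lit 294) ln6_9_0_c10 ln6_9_0_c10_ok))))) (B (M (nat_lit 233) (B (L (nat_lit 362) ln9_7_4_c10 ln9_7_4_c10_ok) (M (nat_lit 268) (B (L (nat_lit 232) ln12_8_3_c10 ln12_8_3_c10_ok) (L (nat_lit 296) ln12_8_1_c10 ln12_8_1_c10_ok))))) (M (nat_lit 233) (B (L (nat_lit 362) ln9_7_4_c10 ln9_7_4_c10_ok) (M (nat_lit 234) (B (L (nat_lit 202) ln9_10_6_c10 ln9_10_6_c10_ok) (L (nat_lit 361) ln9_11_6_c10 ln9_11_6_c10_ok)))))))) (B (K (nat_lit 5954262830815946494440468064101681940815180585121047853121168237010802356511733408037658918817663009877897195064491326759974647353585958912) (nat_lit 9394170331095332912003524007484444113645406680090250427669350346026173642970798215694924308496912848114417664) (nat_lit 9394170331095332912003524007484444113645406680090250427669350346026173642970798215694924308496912848114417664)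 c10_s153) (B (M (nat_lit 297) (B (M (nat_lit 233) (B (L (nat_lit 362) ln9_7_4_c10 ln9_7_4_c10_ok) (M (nat_lit 234) (B (L (nat_lit 202) ln9_10_6_c10 ln9_10_6_c10_ok) (L (nat_lit 361) ln9_11_6_c10 ln9_11_6_c10_ok))))) (M (nat_lit 296) (B (L (nat_lit 268) ln12_8_1_c10 ln12_8_1_c10_ok) (M (nat_lit 295) (B (L (nat_lit 264) ln11_8_1_c10 ln11_8_1_c10_ok) (L (nat_lit 294) ln6_9_0_c10 ln6_9_0_c10_ok))))))) (B (M (nat_lit 264) (B (M (nat_lit 297) (B (M (nat_lit 232) (B (L (nat_lit 231) ln11_8_3_c10 ln11_8_3_c10_ok) (L (nat_lit 361) ln9_11_7_c10 ln9_11_7_c10_ok))) (M (nat_lit 296) (B (L (nat_lit 295) ln11_8_1_c10 ln11_8_1_c10_ok) (L (nat_lit 268) ln12_8_1_c10 ln12_8_1_c10_ok))))) (B (M (nat_lit 297) (B (M (nat_lit 361) (B (L (nat_lit 232) ln9_11_7_c10 ln9_11_7_c10_ok) (L (nat_lit 234) ln9_11_6_c10 ln9_11_6_c10_ok))) (M (nat_lit 296) (B (L (nat_lit 295) ln11_8_1_c10 ln11_8_1_c10_ok) (L (nat_lit 268) ln12_8_1_c10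 ln12_8_1_c10_ok))))) (B (M (nat_lit 268) (B (M (nat_lit 236) (B (L (nat_lit 235) ln8_8_2_c10 ln8_8_2_c10_ok) (L (nat_lit 237) ln9_8_2_c10 ln9_8_2_c10_ok))) (M (nat_lit 296) (B (L (nat_lit 295) ln11_8_1_c10 ln11_8_1_c10_ok) (L (nat_lit 297) ln12_8_1_c10 ln12_8_1_c10_ok))))) (M (nat_lit 263) (B (M (nat_lit 231) (B (L (nat_lit 230) ln10_8_3_c10 ln10_8_3_c10_ok) (L (nat_lit 232) ln11_8_3_c10 ln11_8_3_c10_ok))) (M (nat_lit 235) (B (L (nat_lit 234) ln7_8_2_c10 ln7_8_2_c10_ok) (L (nat_lit 236) ln8_8_2_c10 ln8_8_2_c10_ok))))))))) (B (M (nat_lit 268) (B (M (nat_lit 233) (B (L (nat_lit 232) ln12_8_3_c10 ln12_8_3_c10_ok) (M (nat_lit 297) (B (L (nat_lit 362) ln9_7_4_c10 ln9_7_4_c10_ok) (L (nat_lit 296) ln12_8_1_c10 ln12_8_1_c10_ok))))) (M (nat_lit 269) (B (M (nat_lit 237) (B (L (nat_lit 236) ln9_8_2_c10 ln9_8_2_c10_ok) (L (nat_lit 238) ln10_8_2_c10 ln10_8_2_c10_ok))) (M (nat_lit 301) (B (L (nat_lit 300) ln9_8_0_c10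 ln9_8_0_c10_ok) (L (nat_lit 302) ln10_8_0_c10 ln10_8_0_c10_ok))))))) (B (K (nat_lit 5954262830815946494440468064101681940815180585121047853121168237010802356511733408037658918817663009877897195064491326759974647353585958912) (nat_lit 14091255496642999367814313887733881503207796680639028186331973690511631897386653150416668199181085206370058240) (nat_lit 14091255496642999367814313887733881503207796680639028186331973690511631897386653150416668199181085206370058240) c10_s154) (B (M (nat_lit 233) (B (M (nat_lit 232) (B (L (nat_lit 268) ln12_8_3_c10 ln12_8_3_c10_ok) (M (nat_lit 231) (B (L (nat_lit 230) ln6_7_0_c10 ln6_7_0_c10_ok) (L (nat_lit 264) ln11_8_3_c10 ln11_8_3_c10_ok))))) (B (M (nat_lit 232) (B (L (nat_lit 268) ln12_8_3_c10 ln12_8_3_c10_ok) (M (nat_lit 231) (B (L (nat_lit 234) ln7_7_0_c10 ln7_7_0_c10_ok) (L (nat_lit 264) ln11_8_3_c10 ln11_8_3_c10_ok))))) (M (nat_lit 297) (B (L (nat_lit 362) ln9_7_4_c10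 ln9_7_4_c10_ok) (M (nat_lit 234) (B (L (nat_lit 202) ln9_10_6_c10 ln9_10_6_c10_ok) (L (nat_lit 361) ln9_11_6_c10 ln9_11_6_c10_ok)))))))) (M (nat_lit 264) (B (M (nat_lit 295) (B (L (nat_lit 296) ln11_8_1_c10 ln11_8_1_c10_ok) (M (nat_lit 235) (B (L (nat_lit 236) ln8_8_2_c10 ln8_8_2_c10_ok) (M (nat_lit 263) (B (L (nat_lit 234) ln7_8_2_c10 ln7_8_2_c10_ok) (L (nat_lit 294) ln10_8_1_c10 ln10_8_1_c10_ok))))))) (B (M (nat_lit 263) (B (M (nat_lit 231) (B (L (nat_lit 230) ln10_8_3_c10 ln10_8_3_c10_ok) (L (nat_lit 232) ln11_8_3_c10 ln11_8_3_c10_ok))) (M (nat_lit 295) (B (L (nat_lit 294) ln10_8_1_c10 ln10_8_1_c10_ok) (L (nat_lit 296) ln11_8_1_c10 ln11_8_1_c10_ok))))) (M (nat_lit 268) (B (M (nat_lit 232) (B (L (nat_lit 231) ln11_8_3_c10 ln11_8_3_c10_ok) (L (nat_lit 233) ln12_8_3_c10 ln12_8_3_c10_ok))) (M (nat_lit 236) (B (L (nat_lit 235) ln8_8_2_c10 ln8_8_2_c10_ok) (L (nat_lit 237) ln9_8_2_c10 ln9_8_2_c10_ok))))))))))))))))))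
noncomputable def c10_d295 : Cert := (B (M (nat_lit 267) (B (M (nat_lit 299) (B (L (nat_lit 234) ln11_11_7 ln11_11_7_ok) (M (nat_lit 236) (B (L (nat_lit 268) ln11_11_6 ln11_11_6_ok) (M (nat_lit 235) (B (L (nat_lit 204) ln11_10_6 ln11_10_6_ok) (L (nat_lit 362) ln11_7_5 ln11_7_5_ok))))))) (B (M (nat_lit 299) (B (L (nat_lit 234) ln11_11_7 ln11_11_7_ok) (M (nat_lit 268) (B (L (nat_lit 236) ln11_11_6 ln11_11_6_ok) (M (nat_lit 300) (B (L (nat_lit 395) ln11_12_6 ln11_12_6_ok) (M (nat_lit 265) (B (L (nat_lit 264) ln8_8_0_c10 ln8_8_0_c10_ok) (L (nat_lit 301) ln9_8_0_c10 ln9_8_0_c10_ok))))))))) (B (M (nat_lit 265) (B (M (nat_lit 299) (B (M (nat_lit 300) (B (L (nat_lit 264) ln8_8_0_c10 ln8_8_0_c10_ok) (M (nat_lit 268) (B (L (nat_lit 236) ln11_11_6 ln11_11_6_ok) (L (nat_lit 301) ln9_8_0_c10 ln9_8_0_c10_ok))))) (B (M (nat_lit 300) (B (L (nat_lit 264) ln8_8_0_c10 ln8_8_0_c10_ok) (M (nat_lit 301) (B (L (nat_lit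 268) ln9_8_0_c10 ln9_8_0_c10_ok) (L (nat_lit 302) ln14_9_1_c10 ln14_9_1_c10_ok))))) (B (M (nat_lit 268) (B (L (nat_lit 236) ln11_11_6 ln11_11_6_ok) (M (nat_lit 300) (B (L (nat_lit 301) ln9_8_0_c10 ln9_8_0_c10_ok) (L (nat_lit 395) ln11_12_6 ln11_12_6_ok))))) (B (M (nat_lit 235) (B (L (nat_lit 362) ln11_7_5 ln11_7_5_ok) (M (nat_lit 264) (B (L (nat_lit 236) ln8_8_2_c10 ln8_8_2_c10_ok) (L (nat_lit 300) ln8_8_0_c10 ln8_8_0_c10_ok))))) (M (nat_lit 235) (B (L (nat_lit 362) ln11_7_5 ln11_7_5_ok) (M (nat_lit 236) (B (L (nat_lit 264) ln8_8_2_c10 ln8_8_2_c10_ok) (L (nat_lit 268) ln11_11_6 ln11_11_6_ok)))))))))) (B (M (nat_lit 268) (B (M (nat_lit 236) (B (L (nat_lit 237) ln9_8_2_c10 ln9_8_2_c10_ok) (L (nat_lit 299) ln11_11_6 ln11_11_6_ok))) (M (nat_lit 233) (B (L (nat_lit 232) ln12_8_3_c10 ln12_8_3_c10_ok) (M (nat_lit 297) (B (L (nat_lit 362) ln9_7_4_c10 ln9_7_4_c10_ok) (L (nat_lit 296) ln12_8_1_c10 ln12_8_1_c10_ok)))))))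 (B (M (nat_lit 268) (B (M (nat_lit 300) (B (L (nat_lit 301) ln9_8_0_c10 ln9_8_0_c10_ok) (M (nat_lit 299) (B (L (nat_lit 264) ln8_8_0_c10 ln8_8_0_c10_ok) (L (nat_lit 395) ln11_12_6 ln11_12_6_ok))))) (M (nat_lit 233) (B (L (nat_lit 232) ln12_8_3_c10 ln12_8_3_c10_ok) (M (nat_lit 297) (B (L (nat_lit 362) ln9_7_4_c10 ln9_7_4_c10_ok) (L (nat_lit 296) ln12_8_1_c10 ln12_8_1_c10_ok))))))) (B (K (nat_lit 5954262830815946494440468064101681940815180585121047853121168237010802356511733408037658918817663009877897195064491326759974647353585958912) (nat_lit 9394170331095332914836277161615125817035859362889630736541151952254241333338194342159042563900168464186212352) (nat_lit 9394170331095332914836277161615125817035859362889630736541151952254241333338194342159042563900168464186212352) c10_s152) (B (K (nat_lit 5954262830815946494440468064101681940815180585121047853121168237010802356511733408037658918817663009877897195064491326759974647353585958912)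 (nat_lit 9394170331095332912003524007484444113645406680090250427669350346026173642970798215694924308496912848114417664) (nat_lit 9394170331095332912003524007484444113645406680090250427669350346026173642970798215694924308496912848114417664) c10_s153) (M (nat_lit 268) (B (M (nat_lit 236) (B (L (nat_lit 237) ln9_8_2_c10 ln9_8_2_c10_ok) (L (nat_lit 299) ln11_11_6 ln11_11_6_ok))) (B (M (nat_lit 300) (B (L (nat_lit 301) ln9_8_0_c10 ln9_8_0_c10_ok) (M (nat_lit 299) (B (L (nat_lit 264) ln8_8_0_c10 ln8_8_0_c10_ok) (L (nat_lit 395) ln11_12_6 ln11_12_6_ok))))) (M (nat_lit 264) (B (M (nat_lit 232) (B (L (nat_lit 231) ln11_8_3_c10 ln11_8_3_c10_ok) (L (nat_lit 233) ln12_8_3_c10 ln12_8_3_c10_ok))) (M (nat_lit 236) (B (L (nat_lit 235) ln8_8_2_c10 ln8_8_2_c10_ok) (L (nat_lit 237) ln9_8_2_c10 ln9_8_2_c10_ok)))))))))))))) c10_d294)))) (B (M (nat_lit 298) (B (L (nat_lit 234) ln10_7_4 ln10_7_4_ok) (M (nat_lit 395)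 (B (L (nat_lit 362) ln10_8_4 ln10_8_4_ok) (L (nat_lit 427) ln11_13_7 ln11_13_7_ok))))) (M (nat_lit 267) (B (M (nat_lit 234) (B (L (nat_lit 299) ln11_11_7 ln11_11_7_ok) (L (nat_lit 298) ln10_7_4 ln10_7_4_ok))) (B (M (nat_lit 268) (B (M (nat_lit 236) (B (L (nat_lit 299) ln11_11_6 ln11_11_6_ok) (M (nat_lit 237) (B (L (nat_lit 265) ln9_8_2_c10 ln9_8_2_c10_ok) (M (nat_lit 238) (B (L (nat_lit 235) ln14_7_1_c10 ln14_7_1_c10_ok) (L (nat_lit 269) ln10_8_2_c10 ln10_8_2_c10_ok))))))) (B (M (nat_lit 265) (B (M (nat_lit 236) (B (L (nat_lit 237) ln9_8_2_c10 ln9_8_2_c10_ok) (L (nat_lit 299) ln11_11_6 ln11_11_6_ok))) (M (nat_lit 233) (B (L (nat_lit 232) ln12_8_3_c10 ln12_8_3_c10_ok) (M (nat_lit 297) (B (L (nat_lit 362) ln9_7_4_c10 ln9_7_4_c10_ok) (L (nat_lit 296) ln12_8_1_c10 ln12_8_1_c10_ok))))))) (B (M (nat_lit 265) (B (M (nat_lit 233) (B (L (nat_lit 232) ln12_8_3_c10 ln12_8_3_c10_ok) (M (nat_lit 297) (B (L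 (nat_lit 362) ln9_7_4_c10 ln9_7_4_c10_ok) (L (nat_lit 296) ln12_8_1_c10 ln12_8_1_c10_ok))))) (B (M (nat_lit 264) (B (M (nat_lit 296) (B (L (nat_lit 295) ln11_8_1_c10 ln11_8_1_c10_ok) (L (nat_lit 297) ln12_8_1_c10 ln12_8_1_c10_ok))) (M (nat_lit 300) (B (L (nat_lit 299) ln8_8_0_c10 ln8_8_0_c10_ok) (L (nat_lit 301) ln9_8_0_c10 ln9_8_0_c10_ok))))) (M (nat_lit 264) (B (M (nat_lit 232) (B (L (nat_lit 231) ln11_8_3_c10 ln11_8_3_c10_ok) (L (nat_lit 233) ln12_8_3_c10 ln12_8_3_c10_ok))) (M (nat_lit 300) (B (L (nat_lit 299) ln8_8_0_c10 ln8_8_0_c10_ok) (L (nat_lit 301) ln9_8_0_c10 ln9_8_0_c10_ok)))))))) (B (M (nat_lit 299) (B (L (nat_lit 236) ln11_11_6 ln11_11_6_ok) (M (nat_lit 298) (B (M (nat_lit 235) (B (L (nat_lit 203) ln11_6_5 ln11_6_5_ok) (L (nat_lit 362) ln11_7_5 ln11_7_5_ok))) (M (nat_lit 297) (B (L (nat_lit 269) ln13_8_1_c10 ln13_8_1_c10_ok) (L (nat_lit 296) ln8_9_2 ln8_9_2_ok))))))) (M (nat_lit 265)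 (B (M (nat_lit 233) (B (L (nat_lit 232) ln12_8_3_c10 ln12_8_3_c10_ok) (M (nat_lit 297) (B (L (nat_lit 362) ln9_7_4_c10 ln9_7_4_c10_ok) (L (nat_lit 296) ln12_8_1_c10 ln12_8_1_c10_ok))))) (B (M (nat_lit 264) (B (M (nat_lit 236) (B (L (nat_lit 235) ln8_8_2_c10 ln8_8_2_c10_ok) (L (nat_lit 237) ln9_8_2_c10 ln9_8_2_c10_ok))) (M (nat_lit 296) (B (L (nat_lit 295) ln11_8_1_c10 ln11_8_1_c10_ok) (L (nat_lit 297) ln12_8_1_c10 ln12_8_1_c10_ok))))) (M (nat_lit 264) (B (M (nat_lit 232) (B (L (nat_lit 231) ln11_8_3_c10 ln11_8_3_c10_ok) (L (nat_lit 233) ln12_8_3_c10 ln12_8_3_c10_ok))) (M (nat_lit 236) (B (L (nat_lit 235) ln8_8_2_c10 ln8_8_2_c10_ok) (L (nat_lit 237) ln9_8_2_c10 ln9_8_2_c10_ok))))))))))))) (B (M (nat_lit 299) (B (L (nat_lit 234) ln11_11_7 ln11_11_7_ok) (M (nat_lit 236) (B (L (nat_lit 268) ln11_11_6 ln11_11_6_ok) (M (nat_lit 235) (B (L (nat_lit 204) ln11_10_6 ln11_10_6_ok) (L (nat_lit 362) ln11_7_5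 ln11_7_5_ok))))))) (M (nat_lit 265) (B (M (nat_lit 298) (B (L (nat_lit 234) ln10_7_4 ln10_7_4_ok) (M (nat_lit 362) (B (L (nat_lit 233) ln10_11_7_c10 ln10_11_7_c10_ok) (L (nat_lit 235) ln10_11_6_c10 ln10_11_6_c10_ok))))) (B (M (nat_lit 297) (B (M (nat_lit 234) (B (L (nat_lit 361) ln9_11_6_c10 ln9_11_6_c10_ok) (L (nat_lit 298) ln10_7_4 ln10_7_4_ok))) (M (nat_lit 296) (B (L (nat_lit 268) ln12_8_1_c10 ln12_8_1_c10_ok) (M (nat_lit 295) (B (L (nat_lit 264) ln11_8_1_c10 ln11_8_1_c10_ok) (L (nat_lit 294) ln6_9_0_c10 ln6_9_0_c10_ok))))))) (K (nat_lit 5954262830815946494440468064101681940815180585121047853121168237010802356511733408037658918817663009877897195064491326759974647353585958912) (nat_lit 9394170331095332912003524007484444113645406680090250427669350346026173642970798215694924308496912848114417664) (nat_lit 9394170331095332912003524007484444113645406680090250427669350346026173642970798215694924308496912848114417664)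 c10_s153))))))))))
noncomputable def c10_d296 : Cert := (B (M (nat_lit 329) (B (M (nat_lit 364) (B (L (nat_lit 328) ln8_10_0 ln8_10_0_ok) (L (nat_lit 362) ln13_11_3 ln13_11_3_ok))) (B (M (nat_lit 266) (B (M (nat_lit 298) (B (L (nat_lit 234) ln10_7_4 ln10_7_4_ok) (M (nat_lit 395) (B (L (nat_lit 299) ln11_12_7 ln11_12_7_ok) (L (nat_lit 427) ln11_13_7 ln11_13_7_ok))))) (B (M (nat_lit 298) (B (M (nat_lit 395) (B (L (nat_lit 299) ln11_12_7 ln11_12_7_ok) (L (nat_lit 362) ln10_8_4 ln10_8_4_ok))) (B (M (nat_lit 395) (B (L (nat_lit 362) ln10_8_4 ln10_8_4_ok) (L (nat_lit 427) ln11_13_7 ln11_13_7_ok))) (B (M (nat_lit 395) (B (L (nat_lit 299) ln11_12_7 ln11_12_7_ok) (L (nat_lit 427) ln11_13_7 ln11_13_7_ok))) (M (nat_lit 267) (B (M (nat_lit 235) (B (L (nat_lit 362) ln10_11_6_c10 ln10_11_6_c10_ok) (M (nat_lit 203) (B (L (nat_lit 171) ln11_5_5_c10 ln11_5_5_c10_ok) (L (nat_lit 299) ln11_6_5 ln11_6_5_ok))))) (B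 (M (nat_lit 265) (B (M (nat_lit 362) (B (L (nat_lit 233) ln10_11_7_c10 ln10_11_7_c10_ok) (L (nat_lit 235) ln10_11_6_c10 ln10_11_6_c10_ok))) (M (nat_lit 268) (B (M (nat_lit 236) (B (L (nat_lit 237) ln9_8_2_c10 ln9_8_2_c10_ok) (L (nat_lit 299) ln11_11_6 ln11_11_6_ok))) (M (nat_lit 297) (B (L (nat_lit 296) ln12_8_1_c10 ln12_8_1_c10_ok) (L (nat_lit 269) ln13_8_1_c10 ln13_8_1_c10_ok))))))) (B (M (nat_lit 268) (B (M (nat_lit 297) (B (L (nat_lit 269) ln13_8_1_c10 ln13_8_1_c10_ok) (M (nat_lit 296) (B (L (nat_lit 265) ln12_8_1_c10 ln12_8_1_c10_ok) (L (nat_lit 295) ln7_9_0_c10 ln7_9_0_c10_ok))))) (B (M (nat_lit 297) (B (L (nat_lit 269) ln13_8_1_c10 ln13_8_1_c10_ok) (M (nat_lit 296) (B (L (nat_lit 295) ln7_9_0_c10 ln7_9_0_c10_ok) (L (nat_lit 299) ln8_9_2 ln8_9_2_ok))))) (M (nat_lit 265) (B (M (nat_lit 233) (B (L (nat_lit 232) ln12_8_3_c10 ln12_8_3_c10_ok) (L (nat_lit 362) ln10_11_7_c10 ln10_11_7_c10_ok)))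 (M (nat_lit 236) (B (L (nat_lit 237) ln9_8_2_c10 ln9_8_2_c10_ok) (L (nat_lit 299) ln11_11_6 ln11_11_6_ok)))))))) (B (M (nat_lit 265) (B (M (nat_lit 362) (B (L (nat_lit 233) ln10_11_7_c10 ln10_11_7_c10_ok) (L (nat_lit 235) ln10_11_6_c10 ln10_11_6_c10_ok))) (B (M (nat_lit 297) (B (M (nat_lit 296) (B (L (nat_lit 268) ln12_8_1_c10 ln12_8_1_c10_ok) (L (nat_lit 295) ln7_9_0_c10 ln7_9_0_c10_ok))) (M (nat_lit 264) (B (M (nat_lit 232) (B (L (nat_lit 231) ln11_8_3_c10 ln11_8_3_c10_ok) (L (nat_lit 361) ln9_11_7_c10 ln9_11_7_c10_ok))) (M (nat_lit 235) (B (L (nat_lit 236) ln8_8_2_c10 ln8_8_2_c10_ok) (L (nat_lit 362) ln10_11_6_c10 ln10_11_6_c10_ok))))))) (B (M (nat_lit 297) (B (M (nat_lit 233) (B (L (nat_lit 201) ln9_6_4_c10 ln9_6_4_c10_ok) (L (nat_lit 362) ln9_7_4_c10 ln9_7_4_c10_ok))) (M (nat_lit 268) (B (L (nat_lit 296) ln12_8_1_c10 ln12_8_1_c10_ok) (L (nat_lit 269) ln13_8_1_c10 ln13_8_1_c10_ok))))) (M (nat_lit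 297) (B (M (nat_lit 296) (B (L (nat_lit 268) ln12_8_1_c10 ln12_8_1_c10_ok) (L (nat_lit 295) ln7_9_0_c10 ln7_9_0_c10_ok))) (M (nat_lit 232) (B (M (nat_lit 233) (B (L (nat_lit 200) ln9_10_7_c10 ln9_10_7_c10_ok) (L (nat_lit 201) ln9_6_4_c10 ln9_6_4_c10_ok))) (M (nat_lit 264) (B (L (nat_lit 231) ln11_8_3_c10 ln11_8_3_c10_ok) (L (nat_lit 361) ln9_11_7_c10 ln9_11_7_c10_ok))))))))))) (M (nat_lit 268) (B (M (nat_lit 297) (B (L (nat_lit 269) ln13_8_1_c10 ln13_8_1_c10_ok) (M (nat_lit 296) (B (L (nat_lit 265) ln12_8_1_c10 ln12_8_1_c10_ok) (L (nat_lit 295) ln7_9_0_c10 ln7_9_0_c10_ok))))) (B (M (nat_lit 297) (B (L (nat_lit 269) ln13_8_1_c10 ln13_8_1_c10_ok) (M (nat_lit 296) (B (L (nat_lit 295) ln7_9_0_c10 ln7_9_0_c10_ok) (L (nat_lit 299) ln8_9_2 ln8_9_2_ok))))) (B (M (nat_lit 265) (B (M (nat_lit 236) (B (L (nat_lit 237) ln9_8_2_c10 ln9_8_2_c10_ok) (L (nat_lit 299) ln11_11_6 ln11_11_6_ok))) (M (nat_lit 264)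 (B (M (nat_lit 232) (B (L (nat_lit 231) ln11_8_3_c10 ln11_8_3_c10_ok) (L (nat_lit 233) ln12_8_3_c10 ln12_8_3_c10_ok))) (M (nat_lit 296) (B (L (nat_lit 295) ln11_8_1_c10 ln11_8_1_c10_ok) (L (nat_lit 297) ln12_8_1_c10 ln12_8_1_c10_ok))))))) (B (M (nat_lit 297) (B (L (nat_lit 269) ln13_8_1_c10 ln13_8_1_c10_ok) (M (nat_lit 296) (B (L (nat_lit 265) ln12_8_1_c10 ln12_8_1_c10_ok) (L (nat_lit 299) ln8_9_2 ln8_9_2_ok))))) (M (nat_lit 265) (B (M (nat_lit 236) (B (L (nat_lit 237) ln9_8_2_c10 ln9_8_2_c10_ok) (L (nat_lit 299) ln11_11_6 ln11_11_6_ok))) (B (M (nat_lit 264) (B (M (nat_lit 232) (B (L (nat_lit 231) ln11_8_3_c10 ln11_8_3_c10_ok) (L (nat_lit 233) ln12_8_3_c10 ln12_8_3_c10_ok))) (M (nat_lit 299) (B (L (nat_lit 263) ln7_8_0_c10 ln7_8_0_c10_ok) (L (nat_lit 300) ln8_8_0_c10 ln8_8_0_c10_ok))))) (M (nat_lit 264) (B (M (nat_lit 232) (B (L (nat_lit 231) ln11_8_3_c10 ln11_8_3_c10_ok) (L (nat_lit 233) ln12_8_3_c10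 ln12_8_3_c10_ok))) (M (nat_lit 236) (B (L (nat_lit 235) ln8_8_2_c10 ln8_8_2_c10_ok) (L (nat_lit 237) ln9_8_2_c10 ln9_8_2_c10_ok)))))))))))))))))))))) c10_d295))) (M (nat_lit 328) (B (L (nat_lit 364) ln8_10_0 ln8_10_0_ok) (M (nat_lit 327) (B (M (nat_lit 295) (B (L (nat_lit 294) ln10_10_3_c10 ln10_10_3_c10_ok) (L (nat_lit 296) ln11_10_3_c10 ln11_10_3_c10_ok))) (M (nat_lit 299) (B (L (nat_lit 298) ln7_10_2_c10 ln7_10_2_c10_ok) (L (nat_lit 300) ln8_10_2_c10 ln8_10_2_c10_ok)))))))))) (B (M (nat_lit 300) (B (M (nat_lit 329) (B (M (nat_lit 328) (B (L (nat_lit 299) ln8_10_2_c10 ln8_10_2_c10_ok) (L (nat_lit 364) ln8_10_0 ln8_10_0_ok))) (B (M (nat_lit 332) (B (L (nat_lit 301) ln9_10_2 ln9_10_2_ok) (L (nat_lit 364) ln9_10_0 ln9_10_0_ok))) (M (nat_lit 301) (B (L (nat_lit 332) ln9_10_2 ln9_10_2_ok) (M (nat_lit 299) (B (L (nat_lit 298) ln13_9_1 ln13_9_1_ok) (L (nat_lit 302) ln14_9_1_c10 ln14_9_1_c10_ok))))))))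 (B (M (nat_lit 332) (B (M (nat_lit 268) (B (L (nat_lit 236) ln12_7_5 ln12_7_5_ok) (M (nat_lit 395) (B (L (nat_lit 299) ln11_12_6 ln11_12_6_ok) (L (nat_lit 427) ln11_13_6 ln11_13_6_ok))))) (B (M (nat_lit 301) (B (L (nat_lit 329) ln9_10_2 ln9_10_2_ok) (M (nat_lit 302) (B (L (nat_lit 299) ln14_9_1_c10 ln14_9_1_c10_ok) (L (nat_lit 303) ln15_9_1_c10 ln15_9_1_c10_ok))))) (M (nat_lit 395) (B (L (nat_lit 427) ln11_13_6 ln11_13_6_ok) (M (nat_lit 268) (B (L (nat_lit 236) ln12_7_5 ln12_7_5_ok) (L (nat_lit 364) ln12_8_5 ln12_8_5_ok)))))))) (B (M (nat_lit 332) (B (M (nat_lit 301) (B (L (nat_lit 329) ln9_10_2 ln9_10_2_ok) (M (nat_lit 302) (B (L (nat_lit 303) ln15_9_1_c10 ln15_9_1_c10_ok) (L (nat_lit 333) ln10_10_2 ln10_10_2_ok))))) (M (nat_lit 395) (B (L (nat_lit 427) ln11_13_6 ln11_13_6_ok) (M (nat_lit 268) (B (L (nat_lit 236) ln12_7_5 ln12_7_5_ok) (L (nat_lit 364) ln12_8_5 ln12_8_5_ok))))))) (B (M (nat_lit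 395) (B (M (nat_lit 427) (B (L (nat_lit 298) ln11_13_7 ln11_13_7_ok) (L (nat_lit 332) ln11_13_6 ln11_13_6_ok))) (B (M (nat_lit 268) (B (L (nat_lit 299) ln11_12_6 ln11_12_6_ok) (M (nat_lit 332) (B (L (nat_lit 236) ln12_7_5 ln12_7_5_ok) (L (nat_lit 427) ln11_13_6 ln11_13_6_ok))))) (B (M (nat_lit 298) (B (L (nat_lit 427) ln11_13_7 ln11_13_7_ok) (M (nat_lit 299) (B (L (nat_lit 266) ln11_12_7 ln11_12_7_ok) (L (nat_lit 268) ln11_12_6 ln11_12_6_ok))))) (M (nat_lit 268) (B (L (nat_lit 299) ln11_12_6 ln11_12_6_ok) (M (nat_lit 332) (B (L (nat_lit 236) ln12_7_5 ln12_7_5_ok) (L (nat_lit 364) ln12_8_5 ln12_8_5_ok))))))))) (M (nat_lit 299) (B (M (nat_lit 268) (B (L (nat_lit 395) ln11_12_6 ln11_12_6_ok) (M (nat_lit 236) (B (L (nat_lit 204) ln12_6_5_c10 ln12_6_5_c10_ok) (L (nat_lit 267) ln11_11_6 ln11_11_6_ok))))) (M (nat_lit 301) (B (L (nat_lit 302) ln14_9_1_c10 ln14_9_1_c10_ok) (M (nat_lit 329) (B (L (nat_lit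 298) ln13_9_1 ln13_9_1_ok) (L (nat_lit 328) ln8_10_2_c10 ln8_10_2_c10_ok)))))))))))) (M (nat_lit 332) (B (K (nat_lit 5954262830815946494440468064101681940822835962657788394856056995957887490046071422635514024883407087375290374780171726510172582816537116672) (nat_lit 346583711845797166146911836828222287362781370546289025907440334063754219026583373713918969534905213573468196502988484423008124928) (nat_lit 346583711845797166146911836828222287362781370546289025907440334063754219026583373713918969534905213573468196502988484423008124928) c10_s150) (B (M (nat_lit 298) (B (M (nat_lit 297) (B (L (nat_lit 333) ln13_10_3 ln13_10_3_ok) (M (nat_lit 296) (B (L (nat_lit 295) ln7_9_0_c10 ln7_9_0_c10_ok) (L (nat_lit 329) ln12_10_3 ln12_10_3_ok))))) (B (M (nat_lit 297) (B (L (nat_lit 333) ln13_10_3 ln13_10_3_ok) (M (nat_lit 296) (B (L (nat_lit 299) ln8_9_0 ln8_9_0_ok) (L (nat_lit 329) ln12_10_3 ln12_10_3_ok)))))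 (B (M (nat_lit 333) (B (L (nat_lit 297) ln13_10_3 ln13_10_3_ok) (M (nat_lit 334) (B (L (nat_lit 299) ln14_10_3 ln14_10_3_ok) (L (nat_lit 362) ln14_10_1 ln14_10_1_ok))))) (M (nat_lit 395) (B (L (nat_lit 427) ln11_13_7 ln11_13_7_ok) (M (nat_lit 266) (B (L (nat_lit 299) ln11_12_7 ln11_12_7_ok) (L (nat_lit 362) ln10_8_4 ln10_8_4_ok))))))))) (B (M (nat_lit 333) (B (M (nat_lit 362) (B (L (nat_lit 361) ln13_10_1 ln13_10_1_ok) (L (nat_lit 334) ln14_10_1 ln14_10_1_ok))) (M (nat_lit 329) (B (M (nat_lit 297) (B (L (nat_lit 296) ln12_10_3 ln12_10_3_ok) (L (nat_lit 298) ln13_10_3 ln13_10_3_ok))) (M (nat_lit 301) (B (L (nat_lit 300) ln9_10_2 ln9_10_2_ok) (L (nat_lit 302) ln10_10_2 ln10_10_2_ok))))))) (B (M (nat_lit 300) (B (M (nat_lit 301) (B (L (nat_lit 329) ln9_10_2 ln9_10_2_ok) (M (nat_lit 302) (B (L (nat_lit 299) ln14_9_1_c10 ln14_9_1_c10_ok) (L (nat_lit 303) ln15_9_1_c10 ln15_9_1_c10_ok))))) (B (M (nat_lit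 301) (B (L (nat_lit 329) ln9_10_2 ln9_10_2_ok) (M (nat_lit 302) (B (L (nat_lit 303) ln15_9_1_c10 ln15_9_1_c10_ok) (L (nat_lit 333) ln10_10_2 ln10_10_2_ok))))) (M (nat_lit 268) (B (L (nat_lit 236) ln12_7_5 ln12_7_5_ok) (M (nat_lit 395) (B (L (nat_lit 299) ln11_12_6 ln11_12_6_ok) (L (nat_lit 427) ln11_13_6 ln11_13_6_ok)))))))) (M (nat_lit 329) (B (M (nat_lit 300) (B (L (nat_lit 301) ln9_10_2 ln9_10_2_ok) (M (nat_lit 328) (B (L (nat_lit 299) ln8_10_2_c10 ln8_10_2_c10_ok) (M (nat_lit 296) (B (L (nat_lit 295) ln11_10_3_c10 ln11_10_3_c10_ok) (L (nat_lit 297) ln12_10_3 ln12_10_3_ok))))))) (B (M (nat_lit 328) (B (M (nat_lit 300) (B (L (nat_lit 299) ln8_10_2_c10 ln8_10_2_c10_ok) (L (nat_lit 301) ln9_10_2 ln9_10_2_ok))) (M (nat_lit 360) (B (L (nat_lit 359) ln11_10_1_c10 ln11_10_1_c10_ok) (L (nat_lit 361) ln12_10_1 ln12_10_1_ok))))) (B (M (nat_lit 328) (B (M (nat_lit 296) (B (L (nat_lit 295) ln11_10_3_c10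 ln11_10_3_c10_ok) (L (nat_lit 297) ln12_10_3 ln12_10_3_ok))) (M (nat_lit 360) (B (L (nat_lit 359) ln11_10_1_c10 ln11_10_1_c10_ok) (L (nat_lit 361) ln12_10_1 ln12_10_1_ok))))) (M (nat_lit 300) (B (L (nat_lit 301) ln9_10_2 ln9_10_2_ok) (M (nat_lit 268) (B (L (nat_lit 236) ln12_7_5 ln12_7_5_ok) (M (nat_lit 395) (B (L (nat_lit 299) ln11_12_6 ln11_12_6_ok) (L (nat_lit 427) ln11_13_6 ln11_13_6_ok))))))))))))))))))
noncomputable def c10_d297 : Cert := (B (M (nat_lit 329) (B (M (nat_lit 364) (B (L (nat_lit 328) ln8_10_0 ln8_10_0_ok) (L (nat_lit 332) ln9_10_0 ln9_10_0_ok))) (B (M (nat_lit 364) (B (L (nat_lit 332) ln9_10_0 ln9_10_0_ok) (L (nat_lit 362) ln13_11_3 ln13_11_3_ok))) (B (M (nat_lit 364) (B (L (nat_lit 328) ln8_10_0 ln8_10_0_ok) (L (nat_lit 362) ln13_11_3 ln13_11_3_ok))) (M (nat_lit 328) (B (M (nat_lit 327) (B (L (nat_lit 362) ln7_10_0_c10 ln7_10_0_c10_ok) (M (nat_lit 359) (B (L (nat_lit 358) ln10_10_1_c10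 ln10_10_1_c10_ok) (L (nat_lit 360) ln11_10_1_c10 ln11_10_1_c10_ok))))) (B (M (nat_lit 332) (B (M (nat_lit 296) (B (L (nat_lit 295) ln11_10_3_c10 ln11_10_3_c10_ok) (L (nat_lit 297) ln12_10_3 ln12_10_3_ok))) (M (nat_lit 360) (B (L (nat_lit 359) ln11_10_1_c10 ln11_10_1_c10_ok) (L (nat_lit 361) ln12_10_1 ln12_10_1_ok))))) (M (nat_lit 327) (B (L (nat_lit 362) ln7_10_0_c10 ln7_10_0_c10_ok) (M (nat_lit 295) (B (L (nat_lit 294) ln10_10_3_c10 ln10_10_3_c10_ok) (L (nat_lit 296) ln11_10_3_c10 ln11_10_3_c10_ok)))))))))))) (B (M (nat_lit 332) (B (K (nat_lit 5954262830815946494440468064101681940822835962657788394856056995957887490046071422635514024883407087375290374780171726510172582816537116672) (nat_lit 346583711845797166146911836828222287362781370546289025907440334063754219026583373713918969534905213573468196502988484423008124928) (nat_lit 346583711845797166146911836828222287362781370546289025907440334063754219026583373713918969534905213573468196502988484423008124928)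 c10_s150) (B (M (nat_lit 333) (B (M (nat_lit 362) (B (L (nat_lit 361) ln13_10_1 ln13_10_1_ok) (L (nat_lit 334) ln14_10_1 ln14_10_1_ok))) (B (M (nat_lit 329) (B (M (nat_lit 301) (B (L (nat_lit 300) ln9_10_2 ln9_10_2_ok) (L (nat_lit 302) ln10_10_2 ln10_10_2_ok))) (M (nat_lit 361) (B (L (nat_lit 360) ln12_10_1 ln12_10_1_ok) (L (nat_lit 362) ln13_10_1 ln13_10_1_ok))))) (B (M (nat_lit 334) (B (L (nat_lit 362) ln14_10_1 ln14_10_1_ok) (M (nat_lit 302) (B (L (nat_lit 301) ln10_10_2 ln10_10_2_ok) (L (nat_lit 303) ln11_10_2 ln11_10_2_ok))))) (M (nat_lit 298) (B (L (nat_lit 297) ln13_10_3 ln13_10_3_ok) (M (nat_lit 302) (B (L (nat_lit 301) ln10_10_2 ln10_10_2_ok) (M (nat_lit 334) (B (L (nat_lit 299) ln14_10_3 ln14_10_3_ok) (L (nat_lit 303) ln11_10_2 ln11_10_2_ok))))))))))) (B (M (nat_lit 333) (B (M (nat_lit 362) (B (L (nat_lit 361) ln13_10_1 ln13_10_1_ok) (L (nat_lit 334) ln14_10_1 ln14_10_1_ok))) (M (nat_lit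 329) (B (M (nat_lit 301) (B (L (nat_lit 300) ln9_10_2 ln9_10_2_ok) (L (nat_lit 302) ln10_10_2 ln10_10_2_ok))) (L (nat_lit 364) ln9_10_0 ln9_10_0_ok))))) (M (nat_lit 300) (B (M (nat_lit 301) (B (L (nat_lit 329) ln9_10_2 ln9_10_2_ok) (M (nat_lit 302) (B (L (nat_lit 299) ln14_9_1_c10 ln14_9_1_c10_ok) (L (nat_lit 303) ln15_9_1_c10 ln15_9_1_c10_ok))))) (B (M (nat_lit 329) (B (L (nat_lit 301) ln9_10_2 ln9_10_2_ok) (L (nat_lit 364) ln9_10_0 ln9_10_0_ok))) (M (nat_lit 395) (B (L (nat_lit 427) ln11_13_6 ln11_13_6_ok) (M (nat_lit 268) (B (L (nat_lit 299) ln11_12_6 ln11_12_6_ok) (L (nat_lit 364) ln12_8_5 ln12_8_5_ok)))))))))))) (B (M (nat_lit 329) (B (M (nat_lit 364) (B (L (nat_lit 328) ln8_10_0 ln8_10_0_ok) (L (nat_lit 362) ln13_11_3 ln13_11_3_ok))) (B (M (nat_lit 332) (B (M (nat_lit 300) (B (L (nat_lit 301) ln9_10_2 ln9_10_2_ok) (M (nat_lit 395) (B (L (nat_lit 427) ln11_13_6 ln11_13_6_ok) (M (nat_lit 268)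 (B (L (nat_lit 236) ln12_7_5 ln12_7_5_ok) (L (nat_lit 364) ln12_8_5 ln12_8_5_ok))))))) (B (M (nat_lit 333) (B (L (nat_lit 364) ln9_10_0 ln9_10_0_ok) (M (nat_lit 362) (B (L (nat_lit 361) ln13_10_1 ln13_10_1_ok) (L (nat_lit 334) ln14_10_1 ln14_10_1_ok))))) (M (nat_lit 300) (B (L (nat_lit 301) ln9_10_2 ln9_10_2_ok) (M (nat_lit 268) (B (L (nat_lit 236) ln12_7_5 ln12_7_5_ok) (M (nat_lit 395) (B (L (nat_lit 299) ln11_12_6 ln11_12_6_ok) (L (nat_lit 427) ln11_13_6 ln11_13_6_ok)))))))))) (B (M (nat_lit 364) (B (L (nat_lit 328) ln8_10_0 ln8_10_0_ok) (L (nat_lit 332) ln9_10_0 ln9_10_0_ok))) (M (nat_lit 328) (B (M (nat_lit 327) (B (L (nat_lit 362) ln7_10_0_c10 ln7_10_0_c10_ok) (M (nat_lit 359) (B (L (nat_lit 358) ln10_10_1_c10 ln10_10_1_c10_ok) (L (nat_lit 360) ln11_10_1_c10 ln11_10_1_c10_ok))))) (B (M (nat_lit 332) (B (M (nat_lit 300) (B (L (nat_lit 299) ln8_10_2_c10 ln8_10_2_c10_ok) (L (nat_lit 301) ln9_10_2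 ln9_10_2_ok))) (M (nat_lit 360) (B (L (nat_lit 359) ln11_10_1_c10 ln11_10_1_c10_ok) (L (nat_lit 361) ln12_10_1 ln12_10_1_ok))))) (M (nat_lit 327) (B (L (nat_lit 362) ln7_10_0_c10 ln7_10_0_c10_ok) (M (nat_lit 295) (B (L (nat_lit 294) ln10_10_3_c10 ln10_10_3_c10_ok) (L (nat_lit 296) ln11_10_3_c10 ln11_10_3_c10_ok)))))))))))) (B (M (nat_lit 332) (B (K (nat_lit 5954262830815946494440468064101681940822835962657788394856056995957887490046071422635514024883407087375290374780171726510172582816537116672) (nat_lit 346583711845797166146911836828222287362781370546289025907440334063754219026583373713918969534905213573468196502988484423008124928) (nat_lit 346583711845797166146911836828222287362781370546289025907440334063754219026583373713918969534905213573468196502988484423008124928) c10_s150) (B (M (nat_lit 333) (B (M (nat_lit 362) (B (L (nat_lit 361) ln13_10_1 ln13_10_1_ok) (L (nat_lit 334) ln14_10_1 ln14_10_1_ok)))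 (M (nat_lit 329) (B (M (nat_lit 301) (B (L (nat_lit 300) ln9_10_2 ln9_10_2_ok) (L (nat_lit 302) ln10_10_2 ln10_10_2_ok))) (L (nat_lit 364) ln9_10_0 ln9_10_0_ok))))) (M (nat_lit 300) (B (M (nat_lit 395) (B (L (nat_lit 427) ln11_13_6 ln11_13_6_ok) (M (nat_lit 268) (B (L (nat_lit 236) ln12_7_5 ln12_7_5_ok) (L (nat_lit 364) ln12_8_5 ln12_8_5_ok))))) (M (nat_lit 301) (B (L (nat_lit 329) ln9_10_2 ln9_10_2_ok) (M (nat_lit 302) (B (L (nat_lit 299) ln14_9_1_c10 ln14_9_1_c10_ok) (L (nat_lit 303) ln15_9_1_c10 ln15_9_1_c10_ok)))))))))) (B (M (nat_lit 299) (B (M (nat_lit 267) (B (M (nat_lit 235) (B (L (nat_lit 362) ln11_7_5 ln11_7_5_ok) (M (nat_lit 236) (B (L (nat_lit 204) ln11_10_6 ln11_10_6_ok) (L (nat_lit 268) ln11_11_6 ln11_11_6_ok))))) (B (M (nat_lit 234) (B (L (nat_lit 266) ln11_11_7 ln11_11_7_ok) (M (nat_lit 235) (B (L (nat_lit 202) ln11_10_7 ln11_10_7_ok) (L (nat_lit 362) ln11_7_5 ln11_7_5_ok))))) (M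 (nat_lit 395) (B (M (nat_lit 266) (B (L (nat_lit 234) ln11_11_7 ln11_11_7_ok) (L (nat_lit 298) ln11_12_7 ln11_12_7_ok))) (M (nat_lit 268) (B (L (nat_lit 236) ln11_11_6 ln11_11_6_ok) (L (nat_lit 300) ln11_12_6 ln11_12_6_ok)))))))) (B (M (nat_lit 267) (B (M (nat_lit 235) (B (L (nat_lit 362) ln11_7_5 ln11_7_5_ok) (M (nat_lit 236) (B (L (nat_lit 204) ln11_10_6 ln11_10_6_ok) (L (nat_lit 268) ln11_11_6 ln11_11_6_ok))))) (B (M (nat_lit 298) (B (M (nat_lit 235) (B (L (nat_lit 203) ln11_6_5 ln11_6_5_ok) (L (nat_lit 362) ln11_7_5 ln11_7_5_ok))) (M (nat_lit 266) (B (L (nat_lit 234) ln10_7_4 ln10_7_4_ok) (L (nat_lit 395) ln11_12_7 ln11_12_7_ok))))) (M (nat_lit 395) (B (M (nat_lit 266) (B (L (nat_lit 234) ln11_11_7 ln11_11_7_ok) (L (nat_lit 298) ln11_12_7 ln11_12_7_ok))) (M (nat_lit 268) (B (L (nat_lit 236) ln11_11_6 ln11_11_6_ok) (L (nat_lit 300) ln11_12_6 ln11_12_6_ok)))))))) c10_d293))) c10_d296)))))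
noncomputable def c10_d298 : Cert := (B (M (nat_lit 329) (B (M (nat_lit 330) (B (L (nat_lit 332) ln9_10_0 ln9_10_0_ok) (L (nat_lit 328) ln8_10_0 ln8_10_0_ok))) (B (M (nat_lit 330) (B (L (nat_lit 362) ln13_11_3 ln13_11_3_ok) (L (nat_lit 332) ln9_10_0 ln9_10_0_ok))) (B (M (nat_lit 330) (B (L (nat_lit 328) ln8_10_0 ln8_10_0_ok) (L (nat_lit 362) ln13_11_3 ln13_11_3_ok))) (M (nat_lit 299) (B (M (nat_lit 396) (B (M (nat_lit 428) (B (L (nat_lit 332) ln12_10_4 ln12_10_4_ok) (L (nat_lit 395) ln11_9_4 ln11_9_4_ok))) (L (nat_lit 267) ln11_8_4 ln11_8_4_ok))) (B (M (nat_lit 267) (B (M (nat_lit 332) (B (L (nat_lit 235) ln11_7_4 ln11_7_4_ok) (L (nat_lit 396) ln11_8_4 ln11_8_4_ok))) (B (L (nat_lit 396) ln11_8_4 ln11_8_4_ok) (M (nat_lit 235) (B (L (nat_lit 332) ln11_7_4 ln11_7_4_ok) (M (nat_lit 236) (B (L (nat_lit 204) ln11_10_6 ln11_10_6_ok) (L (nat_lit 268) ln11_11_6 ln11_11_6_ok)))))))) (B (M (nat_lit 396) (B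 (L (nat_lit 267) ln11_8_4 ln11_8_4_ok) (M (nat_lit 428) (B (L (nat_lit 460) ln12_14_7 ln12_14_7_ok) (L (nat_lit 395) ln11_9_4 ln11_9_4_ok))))) (B (M (nat_lit 267) (B (M (nat_lit 235) (B (L (nat_lit 332) ln11_7_4 ln11_7_4_ok) (M (nat_lit 236) (B (L (nat_lit 204) ln11_10_6 ln11_10_6_ok) (L (nat_lit 268) ln11_11_6 ln11_11_6_ok))))) (B (M (nat_lit 395) (B (M (nat_lit 266) (B (L (nat_lit 234) ln11_11_7 ln11_11_7_ok) (L (nat_lit 298) ln11_12_7 ln11_12_7_ok))) (M (nat_lit 268) (B (L (nat_lit 236) ln11_11_6 ln11_11_6_ok) (L (nat_lit 300) ln11_12_6 ln11_12_6_ok))))) (M (nat_lit 235) (B (L (nat_lit 332) ln11_7_4 ln11_7_4_ok) (M (nat_lit 234) (B (L (nat_lit 202) ln11_10_7 ln11_10_7_ok) (L (nat_lit 266) ln11_11_7 ln11_11_7_ok)))))))) (M (nat_lit 395) (B (M (nat_lit 427) (B (M (nat_lit 428) (B (L (nat_lit 396) ln11_9_4 ln11_9_4_ok) (L (nat_lit 460) ln11_10_4 ln11_10_4_ok))) (B (M (nat_lit 459) (B (M (nat_lit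 460) (B (L (nat_lit 428) ln11_10_4 ln11_10_4_ok) (L (nat_lit 492) ln11_11_4 ln11_11_4_ok))) (M (nat_lit 458) (B (L (nat_lit 426) ln11_10_5 ln11_10_5_ok) (L (nat_lit 490) ln11_11_5 ln11_11_5_ok))))) (B (M (nat_lit 459) (B (M (nat_lit 458) (B (L (nat_lit 426) ln11_10_5 ln11_10_5_ok) (L (nat_lit 490) ln11_11_5 ln11_11_5_ok))) (M (nat_lit 492) (B (L (nat_lit 460) ln11_11_4 ln11_11_4_ok) (M (nat_lit 491) (B (L (nat_lit 396) ln11_15_6 ln11_15_6_ok) (L (nat_lit 524) ln11_12_4 ln11_12_4_ok))))))) (M (nat_lit 459) (B (M (nat_lit 396) (B (L (nat_lit 428) ln11_9_4 ln11_9_4_ok) (L (nat_lit 491) ln11_15_6 ln11_15_6_ok))) (M (nat_lit 458) (B (L (nat_lit 426) ln11_10_5 ln11_10_5_ok) (L (nat_lit 490) ln11_11_5 ln11_11_5_ok))))))))) (B (M (nat_lit 427) (B (M (nat_lit 332) (B (L (nat_lit 459) ln11_14_6 ln11_14_6_ok) (L (nat_lit 300) ln11_13_6 ln11_13_6_ok))) (B (M (nat_lit 300) (B (L (nat_lit 332) ln11_13_6 ln11_13_6_ok)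 (L (nat_lit 268) ln11_12_6 ln11_12_6_ok))) (M (nat_lit 459) (B (M (nat_lit 458) (B (L (nat_lit 490) ln11_11_5 ln11_11_5_ok) (L (nat_lit 426) ln11_10_5 ln11_10_5_ok))) (M (nat_lit 460) (B (L (nat_lit 492) ln11_11_4 ln11_11_4_ok) (L (nat_lit 428) ln11_10_4 ln11_10_4_ok)))))))) (B (M (nat_lit 427) (B (M (nat_lit 428) (B (L (nat_lit 460) ln11_10_4 ln11_10_4_ok) (L (nat_lit 396) ln11_9_4 ln11_9_4_ok))) (M (nat_lit 332) (B (L (nat_lit 459) ln11_14_6 ln11_14_6_ok) (L (nat_lit 300) ln11_13_6 ln11_13_6_ok))))) (B (M (nat_lit 427) (B (M (nat_lit 300) (B (L (nat_lit 268) ln11_12_6 ln11_12_6_ok) (L (nat_lit 332) ln11_13_6 ln11_13_6_ok))) (B (M (nat_lit 332) (B (L (nat_lit 300) ln11_13_6 ln11_13_6_ok) (L (nat_lit 459) ln11_14_6 ln11_14_6_ok))) (B (M (nat_lit 459) (B (L (nat_lit 332) ln11_14_6 ln11_14_6_ok) (M (nat_lit 458) (B (L (nat_lit 426) ln11_10_5 ln11_10_5_ok) (L (nat_lit 490) ln11_11_5 ln11_11_5_ok)))))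 (M (nat_lit 459) (B (M (nat_lit 458) (B (L (nat_lit 426) ln11_10_5 ln11_10_5_ok) (L (nat_lit 490) ln11_11_5 ln11_11_5_ok))) (M (nat_lit 492) (B (L (nat_lit 460) ln11_11_4 ln11_11_4_ok) (M (nat_lit 491) (B (L (nat_lit 396) ln11_15_6 ln11_15_6_ok) (L (nat_lit 524) ln11_12_4 ln11_12_4_ok))))))))))) (B (M (nat_lit 427) (B (M (nat_lit 300) (B (L (nat_lit 268) ln11_12_6 ln11_12_6_ok) (L (nat_lit 332) ln11_13_6 ln11_13_6_ok))) (B (M (nat_lit 332) (B (L (nat_lit 300) ln11_13_6 ln11_13_6_ok) (L (nat_lit 459) ln11_14_6 ln11_14_6_ok))) (B (M (nat_lit 396) (B (L (nat_lit 428) ln11_9_4 ln11_9_4_ok) (M (nat_lit 459) (B (L (nat_lit 332) ln11_14_6 ln11_14_6_ok) (L (nat_lit 491) ln11_15_6 ln11_15_6_ok))))) (M (nat_lit 459) (B (M (nat_lit 396) (B (L (nat_lit 491) ln11_15_6 ln11_15_6_ok) (L (nat_lit 428) ln11_9_4 ln11_9_4_ok))) (M (nat_lit 458) (B (L (nat_lit 426) ln11_10_5 ln11_10_5_ok) (L (nat_lit 490) ln11_11_5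 ln11_11_5_ok))))))))) (B (M (nat_lit 427) (B (M (nat_lit 300) (B (L (nat_lit 268) ln11_12_6 ln11_12_6_ok) (L (nat_lit 332) ln11_13_6 ln11_13_6_ok))) (M (nat_lit 428) (B (L (nat_lit 396) ln11_9_4 ln11_9_4_ok) (L (nat_lit 460) ln11_10_4 ln11_10_4_ok))))) (M (nat_lit 396) (B (L (nat_lit 428) ln11_9_4 ln11_9_4_ok) (M (nat_lit 300) (B (L (nat_lit 268) ln11_12_6 ln11_12_6_ok) (M (nat_lit 298) (B (L (nat_lit 266) ln11_12_7 ln11_12_7_ok) (M (nat_lit 297) (B (L (nat_lit 328) ln12_9_1 ln12_9_1_ok) (M (nat_lit 296) (B (L (nat_lit 332) ln8_9_0 ln8_9_0_ok) (M (nat_lit 264) (B (L (nat_lit 265) ln12_9_3 ln12_9_3_ok) (L (nat_lit 263) ln11_9_3 ln11_9_3_ok))))))))))))))))))))))))))))) (B (M (nat_lit 366) (B (M (nat_lit 428) (B (M (nat_lit 427) (B (M (nat_lit 395) (B (M (nat_lit 426) (B (L (nat_lit 462) ln10_13_0 ln10_13_0_ok) (L (nat_lit 458) ln11_10_5 ln11_10_5_ok))) (M (nat_lit 332) (B (L (nat_lit 300) ln11_13_6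 ln11_13_6_ok) (L (nat_lit 459) ln11_14_6 ln11_14_6_ok))))) (B (M (nat_lit 395) (B (M (nat_lit 332) (B (L (nat_lit 300) ln11_13_6 ln11_13_6_ok) (L (nat_lit 459) ln11_14_6 ln11_14_6_ok))) (L (nat_lit 460) ln11_10_4 ln11_10_4_ok))) (M (nat_lit 462) (B (M (nat_lit 463) (B (L (nat_lit 460) ln15_14_3 ln15_14_3_ok) (L (nat_lit 464) ln16_14_3 ln16_14_3_ok))) (L (nat_lit 426) ln10_13_0 ln10_13_0_ok)))))) (B (M (nat_lit 396) (B (M (nat_lit 299) (B (L (nat_lit 395) ln11_9_4 ln11_9_4_ok) (L (nat_lit 267) ln11_8_4 ln11_8_4_ok))) (L (nat_lit 332) ln12_10_4 ln12_10_4_ok))) (B (M (nat_lit 396) (B (M (nat_lit 299) (B (L (nat_lit 395) ln11_9_4 ln11_9_4_ok) (L (nat_lit 267) ln11_8_4 ln11_8_4_ok))) (L (nat_lit 460) ln12_14_7 ln12_14_7_ok))) (M (nat_lit 396) (B (L (nat_lit 332) ln12_10_4 ln12_10_4_ok) (L (nat_lit 460) ln12_14_7 ln12_14_7_ok))))))) (M (nat_lit 367) (B (M (nat_lit 335) (B (L (nat_lit 334) ln11_11_2 ln11_11_2_ok)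 (L (nat_lit 336) ln12_11_2 ln12_11_2_ok))) (M (nat_lit 399) (B (L (nat_lit 398) ln11_11_0 ln11_11_0_ok) (L (nat_lit 400) ln12_11_0 ln12_11_0_ok))))))) (M (nat_lit 330) (B (M (nat_lit 329) (B (L (nat_lit 362) ln13_11_3 ln13_11_3_ok) (L (nat_lit 328) ln8_10_0 ln8_10_0_ok))) (L (nat_lit 366) ln14_11_3 ln14_11_3_ok)))))
noncomputable def c10_d299 : Cert := (B (M (nat_lit 298) (B (M (nat_lit 266) (B (L (nat_lit 395) ln11_12_7 ln11_12_7_ok) (M (nat_lit 234) (B (L (nat_lit 202) ln10_6_4_c10 ln10_6_4_c10_ok) (L (nat_lit 330) ln10_7_4 ln10_7_4_ok))))) (B (M (nat_lit 395) (B (L (nat_lit 266) ln11_12_7 ln11_12_7_ok) (M (nat_lit 427) (B (L (nat_lit 330) ln11_13_7 ln11_13_7_ok) (M (nat_lit 428) (B (L (nat_lit 396) ln11_9_4 ln11_9_4_ok) (L (nat_lit 460) ln11_10_4 ln11_10_4_ok))))))) (B (M (nat_lit 300) (B (M (nat_lit 395) (B (L (nat_lit 268) ln11_12_6 ln11_12_6_ok) (M (nat_lit 427) (B (L (nat_lit 332) ln11_13_6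 ln11_13_6_ok) (L (nat_lit 330) ln11_13_7 ln11_13_7_ok))))) (B (M (nat_lit 332) (B (M (nat_lit 333) (B (L (nat_lit 297) ln9_9_0 ln9_9_0_ok) (L (nat_lit 334) ln14_10_3 ln14_10_3_ok))) (M (nat_lit 301) (B (M (nat_lit 302) (B (L (nat_lit 303) ln15_9_1_c10 ln15_9_1_c10_ok) (L (nat_lit 330) ln14_9_1_c10 ln14_9_1_c10_ok))) (M (nat_lit 396) (B (M (nat_lit 269) (B (L (nat_lit 270) ln10_9_2 ln10_9_2_ok) (L (nat_lit 364) ln12_12_6 ln12_12_6_ok))) (B (M (nat_lit 364) (B (L (nat_lit 269) ln12_12_6 ln12_12_6_ok) (L (nat_lit 428) ln12_10_4 ln12_10_4_ok))) (M (nat_lit 395) (B (L (nat_lit 427) ln11_13_6 ln11_13_6_ok) (L (nat_lit 428) ln11_9_4 ln11_9_4_ok)))))))))) (B (M (nat_lit 395) (B (L (nat_lit 268) ln11_12_6 ln11_12_6_ok) (M (nat_lit 427) (B (L (nat_lit 330) ln11_13_7 ln11_13_7_ok) (M (nat_lit 428) (B (L (nat_lit 396) ln11_9_4 ln11_9_4_ok) (L (nat_lit 460) ln11_10_4 ln11_10_4_ok))))))) (B (M (nat_lit 332)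 (B (M (nat_lit 395) (B (L (nat_lit 268) ln11_12_6 ln11_12_6_ok) (L (nat_lit 427) ln11_13_6 ln11_13_6_ok))) (M (nat_lit 333) (B (L (nat_lit 297) ln9_9_0 ln9_9_0_ok) (L (nat_lit 334) ln14_10_3 ln14_10_3_ok))))) (M (nat_lit 301) (B (M (nat_lit 302) (B (L (nat_lit 330) ln14_9_1_c10 ln14_9_1_c10_ok) (M (nat_lit 334) (B (L (nat_lit 335) ln11_9_0_c10 ln11_9_0_c10_ok) (L (nat_lit 333) ln10_9_0 ln10_9_0_ok))))) (B (M (nat_lit 297) (B (M (nat_lit 269) (B (L (nat_lit 270) ln10_9_2 ln10_9_2_ok) (L (nat_lit 268) ln9_9_2 ln9_9_2_ok))) (M (nat_lit 333) (B (L (nat_lit 334) ln10_9_0 ln10_9_0_ok) (L (nat_lit 332) ln9_9_0 ln9_9_0_ok))))) (M (nat_lit 270) (B (L (nat_lit 269) ln10_9_2 ln10_9_2_ok) (M (nat_lit 302) (B (L (nat_lit 271) ln11_9_2 ln11_9_2_ok) (L (nat_lit 330) ln14_9_1_c10 ln14_9_1_c10_ok))))))))))))) (B (M (nat_lit 395) (B (L (nat_lit 266) ln11_12_7 ln11_12_7_ok) (M (nat_lit 427) (B (M (nat_lit 300) (B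 (L (nat_lit 268) ln11_12_6 ln11_12_6_ok) (L (nat_lit 332) ln11_13_6 ln11_13_6_ok))) (M (nat_lit 428) (B (L (nat_lit 396) ln11_9_4 ln11_9_4_ok) (L (nat_lit 460) ln11_10_4 ln11_10_4_ok))))))) (M (nat_lit 297) (B (M (nat_lit 332) (B (L (nat_lit 296) ln8_9_0 ln8_9_0_ok) (M (nat_lit 333) (B (L (nat_lit 300) ln9_9_0 ln9_9_0_ok) (L (nat_lit 334) ln14_10_3 ln14_10_3_ok))))) (B (M (nat_lit 332) (B (L (nat_lit 296) ln8_9_0 ln8_9_0_ok) (M (nat_lit 333) (B (L (nat_lit 334) ln14_10_3 ln14_10_3_ok) (L (nat_lit 330) ln13_10_3 ln13_10_3_ok))))) (B (M (nat_lit 300) (B (M (nat_lit 268) (B (L (nat_lit 269) ln9_9_2 ln9_9_2_ok) (M (nat_lit 332) (B (L (nat_lit 236) ln12_7_5 ln12_7_5_ok) (L (nat_lit 333) ln9_9_0 ln9_9_0_ok))))) (M (nat_lit 266) (B (M (nat_lit 234) (B (L (nat_lit 202) ln10_6_4_c10 ln10_6_4_c10_ok) (L (nat_lit 330) ln10_7_4 ln10_7_4_ok))) (M (nat_lit 265) (B (L (nat_lit 301) ln13_9_3 ln13_9_3_ok) (L (nat_lit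 264) ln12_9_3 ln12_9_3_ok))))))) (B (M (nat_lit 296) (B (L (nat_lit 332) ln8_9_0 ln8_9_0_ok) (M (nat_lit 295) (B (L (nat_lit 330) ln7_9_0_c10 ln7_9_0_c10_ok) (M (nat_lit 327) (B (L (nat_lit 328) ln11_9_1 ln11_9_1_ok) (L (nat_lit 326) ln10_9_1_c10 ln10_9_1_c10_ok))))))) (M (nat_lit 300) (B (M (nat_lit 265) (B (L (nat_lit 264) ln12_9_3 ln12_9_3_ok) (M (nat_lit 301) (B (L (nat_lit 266) ln13_9_3 ln13_9_3_ok) (M (nat_lit 269) (B (L (nat_lit 270) ln10_9_2 ln10_9_2_ok) (L (nat_lit 268) ln9_9_2 ln9_9_2_ok))))))) (B (M (nat_lit 301) (B (M (nat_lit 265) (B (L (nat_lit 266) ln13_9_3 ln13_9_3_ok) (L (nat_lit 264) ln12_9_3 ln12_9_3_ok))) (M (nat_lit 302) (B (L (nat_lit 330) ln14_9_1_c10 ln14_9_1_c10_ok) (M (nat_lit 334) (B (L (nat_lit 335) ln11_9_0_c10 ln11_9_0_c10_ok) (L (nat_lit 333) ln10_9_0 ln10_9_0_ok))))))) (B (M (nat_lit 301) (B (M (nat_lit 269) (B (L (nat_lit 270) ln10_9_2 ln10_9_2_ok) (L (nat_lit 268)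 ln9_9_2 ln9_9_2_ok))) (M (nat_lit 302) (B (L (nat_lit 330) ln14_9_1_c10 ln14_9_1_c10_ok) (M (nat_lit 334) (B (L (nat_lit 335) ln11_9_0_c10 ln11_9_0_c10_ok) (L (nat_lit 333) ln10_9_0 ln10_9_0_ok))))))) (M (nat_lit 296) (B (M (nat_lit 264) (B (L (nat_lit 265) ln12_9_3 ln12_9_3_ok) (L (nat_lit 263) ln11_9_3 ln11_9_3_ok))) (M (nat_lit 295) (B (L (nat_lit 330) ln7_9_0_c10 ln7_9_0_c10_ok) (M (nat_lit 327) (B (L (nat_lit 328) ln11_9_1 ln11_9_1_ok) (L (nat_lit 326) ln10_9_1_c10 ln10_9_1_c10_ok))))))))))))))))))))) (B (K (nat_lit 5954262830815946494440468064101681940811899709034891853222361727865433606063510264561573696898111202468558680008852037543936685284513546240) (nat_lit 3196670520733556021898708746185697779210955737845086192699447132978210863880408746608475937202218706332490057115618476802253256805441543159744036864) (nat_lit 3196670520733556021898708746185697779210955737845086192699447132978210863880408746608475937202218706332490057115618476802253256805441543159744036864)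 c10_s158) (B (K (nat_lit 5954262830815946494440468064101681940811899709034891853222361727865433606063510264561573696898111202468558680008852037543936685284513546240) (nat_lit 693167423772289641002827907649143682780264628303397082434254448534116213189720120605854209617295494465222054275046929311069110272) (nat_lit 693167423772289641002827907649143682780264628303397082434254448534116213189720120605854209617295494465222054275046929311069110272) c10_s159) (B (K (nat_lit 5954262830815946494440468064101681940811899709034891853222361727865433606063510264561573696898111202468558680008852037543936685284513546240) (nat_lit 693167423772289641002827907649143682781792405285647946998955782800423246810508721901103661805272599802237840249869431840706658304) (nat_lit 693167423772289641002827907649143682781792405285647946998955782800423246810508721901103661805272599802237840249869431840706658304) c10_s160) (B (K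 (nat_lit 5954262830815946494440468064101681940811899709034891853222361727865433606063510264561573696898111202468558680008852037543936685284513546240) (nat_lit 693167423772289641002827907640394679883169616582241559612052408761112913627198739253817063442291822917778931881916213309160292352) (nat_lit 693167423772289641002827907640394679883169616582241559612052408761112913627198739253817063442291822917778931881916213309160292352) c10_s138) (B (K (nat_lit 5954262830815946494440468064101681940811899709034891853222361727865433606063510264561573696898111202468558680008852037543936685284513546240) (nat_lit 2977131415754556959227421815521819572057350078165662395990435606049782852523844736998945234642593881926942156455968986557493698644695580672) (nat_lit 2977131415754556959227421815521819572057350078165662395990435606049782852523844736998945234642593881926942156455968986557493698644695580672) c10_s161) (B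 (K (nat_lit 5954262830815946494440468064101681940811899709034891853222361727865433606063510264561573696898111202468558680008852037543936685284513546240) (nat_lit 15983352582827860201637730999257116350129811091691836413810576185522458724586235224860668027096144159837535268388362421106190656867611790607019671552) (nat_lit 15983352582827860201637730999257116350129811091691836413810576185522458724586235224860668027096144159837535268388362421106190656867611790607019671552) c10_s162) (K (nat_lit 5954262830815946494440468064101681940811899709034891853222361727865433606063510264561573696898111202468558680008852037543936685284513546240) (nat_lit 161390617418008468186625282826998722280124631987255117389687847327671000432008618642261204605827688748426668477375315968) (nat_lit 161390617418008468186625282826998722280124631987255117389687847327671000432008618642261204605827688748426668477375315968) c10_s163))))))))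
noncomputable def c10_d300 : Cert := (B (M (nat_lit 298) (B (M (nat_lit 266) (B (L (nat_lit 395) ln11_12_7 ln11_12_7_ok) (M (nat_lit 234) (B (L (nat_lit 202) ln10_6_4_c10 ln10_6_4_c10_ok) (L (nat_lit 330) ln10_7_4 ln10_7_4_ok))))) (B (M (nat_lit 395) (B (L (nat_lit 266) ln11_12_7 ln11_12_7_ok) (M (nat_lit 427) (B (L (nat_lit 330) ln11_13_7 ln11_13_7_ok) (M (nat_lit 428) (B (L (nat_lit 396) ln11_9_4 ln11_9_4_ok) (L (nat_lit 460) ln11_10_4 ln11_10_4_ok))))))) (B (M (nat_lit 300) (B (M (nat_lit 395) (B (L (nat_lit 268) ln11_12_6 ln11_12_6_ok) (M (nat_lit 427) (B (L (nat_lit 332) ln11_13_6 ln11_13_6_ok) (L (nat_lit 330) ln11_13_7 ln11_13_7_ok))))) (B (M (nat_lit 332) (B (M (nat_lit 297) (B (L (nat_lit 333) ln9_9_0 ln9_9_0_ok) (L (nat_lit 296) ln8_9_0 ln8_9_0_ok))) (M (nat_lit 301) (B (M (nat_lit 302) (B (L (nat_lit 303) ln15_9_1_c10 ln15_9_1_c10_ok) (L (nat_lit 330) ln14_9_1_c10 ln14_9_1_c10_ok)))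 (B (M (nat_lit 330) (B (L (nat_lit 302) ln14_9_1_c10 ln14_9_1_c10_ok) (L (nat_lit 329) ln13_9_1 ln13_9_1_ok))) (M (nat_lit 396) (B (M (nat_lit 269) (B (L (nat_lit 270) ln10_9_2 ln10_9_2_ok) (L (nat_lit 364) ln12_12_6 ln12_12_6_ok))) (B (M (nat_lit 364) (B (L (nat_lit 269) ln12_12_6 ln12_12_6_ok) (L (nat_lit 428) ln12_10_4 ln12_10_4_ok))) (M (nat_lit 395) (B (L (nat_lit 427) ln11_13_6 ln11_13_6_ok) (L (nat_lit 428) ln11_9_4 ln11_9_4_ok))))))))))) (B (M (nat_lit 330) (B (M (nat_lit 301) (B (L (nat_lit 302) ln14_9_1_c10 ln14_9_1_c10_ok) (L (nat_lit 329) ln13_9_1 ln13_9_1_ok))) (M (nat_lit 395) (B (L (nat_lit 268) ln11_12_6 ln11_12_6_ok) (L (nat_lit 427) ln11_13_7 ln11_13_7_ok))))) (B (M (nat_lit 297) (B (M (nat_lit 268) (B (L (nat_lit 269) ln9_9_2 ln9_9_2_ok) (L (nat_lit 395) ln11_12_6 ln11_12_6_ok))) (M (nat_lit 332) (B (L (nat_lit 333) ln9_9_0 ln9_9_0_ok) (L (nat_lit 296) ln8_9_0 ln8_9_0_ok)))))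 (M (nat_lit 297) (B (M (nat_lit 332) (B (L (nat_lit 333) ln9_9_0 ln9_9_0_ok) (L (nat_lit 296) ln8_9_0 ln8_9_0_ok))) (M (nat_lit 301) (B (M (nat_lit 269) (B (L (nat_lit 270) ln10_9_2 ln10_9_2_ok) (L (nat_lit 268) ln9_9_2 ln9_9_2_ok))) (M (nat_lit 330) (B (L (nat_lit 302) ln14_9_1_c10 ln14_9_1_c10_ok) (L (nat_lit 329) ln13_9_1 ln13_9_1_ok)))))))))))) (B (M (nat_lit 395) (B (L (nat_lit 266) ln11_12_7 ln11_12_7_ok) (M (nat_lit 427) (B (M (nat_lit 300) (B (L (nat_lit 268) ln11_12_6 ln11_12_6_ok) (L (nat_lit 332) ln11_13_6 ln11_13_6_ok))) (M (nat_lit 428) (B (L (nat_lit 396) ln11_9_4 ln11_9_4_ok) (L (nat_lit 460) ln11_10_4 ln11_10_4_ok))))))) (M (nat_lit 297) (B (M (nat_lit 332) (B (L (nat_lit 296) ln8_9_0 ln8_9_0_ok) (M (nat_lit 333) (B (L (nat_lit 300) ln9_9_0 ln9_9_0_ok) (L (nat_lit 330) ln13_10_3 ln13_10_3_ok))))) (B (M (nat_lit 296) (B (L (nat_lit 332) ln8_9_0 ln8_9_0_ok) (M (nat_lit 295) (B (L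 (nat_lit 330) ln7_9_0_c10 ln7_9_0_c10_ok) (M (nat_lit 327) (B (L (nat_lit 328) ln11_9_1 ln11_9_1_ok) (L (nat_lit 326) ln10_9_1_c10 ln10_9_1_c10_ok))))))) (B (M (nat_lit 300) (B (M (nat_lit 268) (B (L (nat_lit 269) ln9_9_2 ln9_9_2_ok) (M (nat_lit 332) (B (L (nat_lit 236) ln12_7_5 ln12_7_5_ok) (L (nat_lit 333) ln9_9_0 ln9_9_0_ok))))) (M (nat_lit 301) (B (M (nat_lit 265) (B (L (nat_lit 266) ln13_9_3 ln13_9_3_ok) (L (nat_lit 264) ln12_9_3 ln12_9_3_ok))) (M (nat_lit 330) (B (L (nat_lit 302) ln14_9_1_c10 ln14_9_1_c10_ok) (L (nat_lit 329) ln13_9_1 ln13_9_1_ok))))))) (B (M (nat_lit 296) (B (M (nat_lit 295) (B (L (nat_lit 330) ln7_9_0_c10 ln7_9_0_c10_ok) (M (nat_lit 327) (B (L (nat_lit 328) ln11_9_1 ln11_9_1_ok) (L (nat_lit 326) ln10_9_1_c10 ln10_9_1_c10_ok))))) (B (M (nat_lit 300) (B (M (nat_lit 264) (B (L (nat_lit 265) ln12_9_3 ln12_9_3_ok) (L (nat_lit 263) ln11_9_3 ln11_9_3_ok))) (M (nat_lit 328) (B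 (L (nat_lit 329) ln12_9_1 ln12_9_1_ok) (L (nat_lit 327) ln11_9_1 ln11_9_1_ok))))) (M (nat_lit 295) (B (L (nat_lit 330) ln7_9_0_c10 ln7_9_0_c10_ok) (M (nat_lit 263) (B (L (nat_lit 264) ln11_9_3 ln11_9_3_ok) (L (nat_lit 262) ln10_9_3_c10 ln10_9_3_c10_ok)))))))) (M (nat_lit 332) (B (L (nat_lit 296) ln8_9_0 ln8_9_0_ok) (M (nat_lit 300) (B (L (nat_lit 333) ln9_9_0 ln9_9_0_ok) (M (nat_lit 268) (B (L (nat_lit 236) ln12_7_5 ln12_7_5_ok) (L (nat_lit 269) ln9_9_2 ln9_9_2_ok))))))))))))))))) (B (K (nat_lit 5954262830815946494440468064101681940811899709034891853222361727865433606063510264561573696898111202468558680008852037543936685284513546240) (nat_lit 3196670520733556021898708746185697779210955737845086192699447132978210863880408746608475937202218706332490057115618476802253256805441543159744036864) (nat_lit 3196670520733556021898708746185697779210955737845086192699447132978210863880408746608475937202218706332490057115618476802253256805441543159744036864)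 c10_s158) (B (K (nat_lit 5954262830815946494440468064101681940811899709034891853222361727865433606063510264561573696898111202468558680008852037543936685284513546240) (nat_lit 693167423772289641002827907649143682781792405285647946998955782800423246810508721901103661805272599802237840249869431840706658304) (nat_lit 693167423772289641002827907649143682781792405285647946998955782800423246810508721901103661805272599802237840249869431840706658304) c10_s160) (B (K (nat_lit 5954262830815946494440468064101681940811899709034891853222361727865433606063510264561573696898111202468558680008852037543936685284513546240) (nat_lit 693167423772289641002827907640394679883169616582241559612052408761112913627198739253817063442291822917778931881916213309160292352) (nat_lit 693167423772289641002827907640394679883169616582241559612052408761112913627198739253817063442291822917778931881916213309160292352) c10_s138) (B (K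 (nat_lit 5954262830815946494440468064101681940811899709034891853222361727865433606063510264561573696898111202468558680008852037543936685284513546240) (nat_lit 2977131415754556959227421815521819572057350078165662395990435606049782852523844736998945234642593881926942156455968986557493698644695580672) (nat_lit 2977131415754556959227421815521819572057350078165662395990435606049782852523844736998945234642593881926942156455968986557493698644695580672) c10_s161) (B (M (nat_lit 267) (B (M (nat_lit 235) (B (M (nat_lit 236) (B (L (nat_lit 204) ln11_10_6 ln11_10_6_ok) (L (nat_lit 268) ln11_11_6 ln11_11_6_ok))) (M (nat_lit 234) (B (L (nat_lit 202) ln11_10_7 ln11_10_7_ok) (L (nat_lit 266) ln11_11_7 ln11_11_7_ok))))) (B (M (nat_lit 266) (B (L (nat_lit 234) ln11_11_7 ln11_11_7_ok) (M (nat_lit 395) (B (L (nat_lit 298) ln11_12_7 ln11_12_7_ok) (M (nat_lit 268) (B (L (nat_lit 236) ln11_11_6 ln11_11_6_ok) (L (nat_lit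 300) ln11_12_6 ln11_12_6_ok))))))) (B (M (nat_lit 235) (B (M (nat_lit 234) (B (L (nat_lit 202) ln11_10_7 ln11_10_7_ok) (L (nat_lit 266) ln11_11_7 ln11_11_7_ok))) (M (nat_lit 203) (B (M (nat_lit 332) (B (L (nat_lit 300) ln11_6_4_c10 ln11_6_4_c10_ok) (L (nat_lit 364) ln11_7_4 ln11_7_4_ok))) (M (nat_lit 330) (B (L (nat_lit 298) ln11_6_5 ln11_6_5_ok) (L (nat_lit 362) ln11_7_5 ln11_7_5_ok))))))) (M (nat_lit 235) (B (M (nat_lit 236) (B (L (nat_lit 204) ln11_10_6 ln11_10_6_ok) (L (nat_lit 268) ln11_11_6 ln11_11_6_ok))) (M (nat_lit 203) (B (M (nat_lit 332) (B (L (nat_lit 300) ln11_6_4_c10 ln11_6_4_c10_ok) (L (nat_lit 364) ln11_7_4 ln11_7_4_ok))) (M (nat_lit 330) (B (L (nat_lit 298) ln11_6_5 ln11_6_5_ok) (L (nat_lit 362) ln11_7_5 ln11_7_5_ok))))))))))) (K (nat_lit 5954262830815946494440468064101681940811899709034891853222361727865433606063510264561573696898111202468558680008852037543936685284513546240)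 (nat_lit 161390617418008468186625282826998722280124631987255117389687847327671000432008618642261204605827688748426668477375315968) (nat_lit 161390617418008468186625282826998722280124631987255117389687847327671000432008618642261204605827688748426668477375315968) c10_s163)))))))
noncomputable def c10_d301 : Cert := (B (M (nat_lit 395) (B (M (nat_lit 427) (B (M (nat_lit 298) (B (L (nat_lit 266) ln11_12_7 ln11_12_7_ok) (L (nat_lit 330) ln11_13_7 ln11_13_7_ok))) (M (nat_lit 428) (B (L (nat_lit 396) ln11_9_4 ln11_9_4_ok) (L (nat_lit 460) ln11_10_4 ln11_10_4_ok))))) (B (M (nat_lit 427) (B (M (nat_lit 300) (B (L (nat_lit 268) ln11_12_6 ln11_12_6_ok) (L (nat_lit 332) ln11_13_6 ln11_13_6_ok))) (M (nat_lit 428) (B (L (nat_lit 396) ln11_9_4 ln11_9_4_ok) (L (nat_lit 460) ln11_10_4 ln11_10_4_ok))))) (B (M (nat_lit 427) (B (M (nat_lit 300) (B (L (nat_lit 268) ln11_12_6 ln11_12_6_ok) (L (nat_lit 332) ln11_13_6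 ln11_13_6_ok))) (M (nat_lit 298) (B (L (nat_lit 266) ln11_12_7 ln11_12_7_ok) (L (nat_lit 330) ln11_13_7 ln11_13_7_ok))))) (M (nat_lit 300) (B (L (nat_lit 268) ln11_12_6 ln11_12_6_ok) (M (nat_lit 298) (B (L (nat_lit 266) ln11_12_7 ln11_12_7_ok) (M (nat_lit 301) (B (M (nat_lit 330) (B (L (nat_lit 302) ln14_9_1_c10 ln14_9_1_c10_ok) (L (nat_lit 329) ln13_9_1 ln13_9_1_ok))) (B (M (nat_lit 297) (B (M (nat_lit 333) (B (L (nat_lit 334) ln10_9_0 ln10_9_0_ok) (L (nat_lit 332) ln9_9_0 ln9_9_0_ok))) (M (nat_lit 329) (B (L (nat_lit 330) ln13_9_1 ln13_9_1_ok) (L (nat_lit 328) ln12_9_1 ln12_9_1_ok))))) (M (nat_lit 302) (B (M (nat_lit 270) (B (L (nat_lit 271) ln11_9_2 ln11_9_2_ok) (L (nat_lit 269) ln10_9_2 ln10_9_2_ok))) (M (nat_lit 334) (B (L (nat_lit 335) ln11_9_0_c10 ln11_9_0_c10_ok) (L (nat_lit 333) ln10_9_0 ln10_9_0_ok)))))))))))))))) (B (M (nat_lit 395) (B (M (nat_lit 427) (B (M (nat_lit 300) (B (L (nat_lit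 268) ln11_12_6 ln11_12_6_ok) (L (nat_lit 332) ln11_13_6 ln11_13_6_ok))) (M (nat_lit 428) (B (L (nat_lit 396) ln11_9_4 ln11_9_4_ok) (L (nat_lit 460) ln11_10_4 ln11_10_4_ok))))) (B (M (nat_lit 427) (B (M (nat_lit 428) (B (L (nat_lit 396) ln11_9_4 ln11_9_4_ok) (L (nat_lit 460) ln11_10_4 ln11_10_4_ok))) (M (nat_lit 459) (B (M (nat_lit 332) (B (L (nat_lit 300) ln11_13_6 ln11_13_6_ok) (L (nat_lit 364) ln11_14_6 ln11_14_6_ok))) (M (nat_lit 458) (B (L (nat_lit 426) ln11_10_5 ln11_10_5_ok) (L (nat_lit 490) ln11_11_5 ln11_11_5_ok))))))) (B (M (nat_lit 427) (B (M (nat_lit 428) (B (L (nat_lit 396) ln11_9_4 ln11_9_4_ok) (L (nat_lit 460) ln11_10_4 ln11_10_4_ok))) (B (M (nat_lit 459) (B (M (nat_lit 460) (B (L (nat_lit 428) ln11_10_4 ln11_10_4_ok) (L (nat_lit 492) ln11_11_4 ln11_11_4_ok))) (M (nat_lit 458) (B (L (nat_lit 426) ln11_10_5 ln11_10_5_ok) (L (nat_lit 490) ln11_11_5 ln11_11_5_ok))))) (M (nat_lit 459)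 (B (M (nat_lit 458) (B (L (nat_lit 426) ln11_10_5 ln11_10_5_ok) (L (nat_lit 490) ln11_11_5 ln11_11_5_ok))) (M (nat_lit 364) (B (L (nat_lit 332) ln11_14_6 ln11_14_6_ok) (M (nat_lit 396) (B (L (nat_lit 267) ln11_8_4 ln11_8_4_ok) (L (nat_lit 491) ln11_15_6 ln11_15_6_ok)))))))))) (B (M (nat_lit 396) (B (L (nat_lit 428) ln11_9_4 ln11_9_4_ok) (M (nat_lit 268) (B (L (nat_lit 300) ln11_12_6 ln11_12_6_ok) (M (nat_lit 267) (B (L (nat_lit 236) ln11_11_6 ln11_11_6_ok) (L (nat_lit 364) ln11_8_4 ln11_8_4_ok))))))) (B (M (nat_lit 427) (B (M (nat_lit 300) (B (L (nat_lit 268) ln11_12_6 ln11_12_6_ok) (L (nat_lit 332) ln11_13_6 ln11_13_6_ok))) (M (nat_lit 459) (B (M (nat_lit 460) (B (L (nat_lit 428) ln11_10_4 ln11_10_4_ok) (L (nat_lit 492) ln11_11_4 ln11_11_4_ok))) (M (nat_lit 458) (B (L (nat_lit 426) ln11_10_5 ln11_10_5_ok) (L (nat_lit 490) ln11_11_5 ln11_11_5_ok))))))) (M (nat_lit 300) (B (L (nat_lit 268) ln11_12_6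 ln11_12_6_ok) (M (nat_lit 330) (B (M (nat_lit 427) (B (L (nat_lit 332) ln11_13_6 ln11_13_6_ok) (L (nat_lit 298) ln11_13_7 ln11_13_7_ok))) (B (M (nat_lit 301) (B (L (nat_lit 302) ln14_9_1_c10 ln14_9_1_c10_ok) (M (nat_lit 329) (B (L (nat_lit 332) ln9_10_2 ln9_10_2_ok) (L (nat_lit 328) ln8_10_2_c10 ln8_10_2_c10_ok))))) (M (nat_lit 301) (B (L (nat_lit 302) ln14_9_1_c10 ln14_9_1_c10_ok) (M (nat_lit 329) (B (L (nat_lit 298) ln13_9_1 ln13_9_1_ok) (L (nat_lit 328) ln8_10_2_c10 ln8_10_2_c10_ok)))))))))))))))) (B (K (nat_lit 5954262830815946494440468064101681940811899709034891853222361727865433606063510264561573696898111202468558680008852037543936685284513546240) (nat_lit 693167423772289641002827907649143682780264628303397082434254448534116213189720120605854209617295494465222054275046929311069110272) (nat_lit 693167423772289641002827907649143682780264628303397082434254448534116213189720120605854209617295494465222054275046929311069110272)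 c10_s159) (B (K (nat_lit 5954262830815946494440468064101681940811899709034891853222361727865433606063510264561573696898111202468558680008852037543936685284513546240) (nat_lit 693167423772289641002827907649143682781792405285647946998955782800423246810508721901103661805272599802237840249869431840706658304) (nat_lit 693167423772289641002827907649143682781792405285647946998955782800423246810508721901103661805272599802237840249869431840706658304) c10_s160) (B (K (nat_lit 5954262830815946494440468064101681940811899709034891853222361727865433606063510264561573696898111202468558680008852037543936685284513546240) (nat_lit 693167423772289641002827907640394679883169616582241559612052408761112913627198739253817063442291822917778931881916213309160292352) (nat_lit 693167423772289641002827907640394679883169616582241559612052408761112913627198739253817063442291822917778931881916213309160292352) c10_s138) (B (K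 (nat_lit 5954262830815946494440468064101681940811899709034891853222361727865433606063510264561573696898111202468558680008852037543936685284513546240) (nat_lit 15983352582827860201637730999257116350129811091691836413810576185522458724586235224860668027096144159837535268388362421106190656867611790607019671552) (nat_lit 15983352582827860201637730999257116350129811091691836413810576185522458724586235224860668027096144159837535268388362421106190656867611790607019671552) c10_s162) (K (nat_lit 5954262830815946494440468064101681940811899709034891853222361727865433606063510264561573696898111202468558680008852037543936685284513546240) (nat_lit 161390617418008468186625282826998722280124631987255117389687847327671000432008618642261204605827688748426668477375315968) (nat_lit 161390617418008468186625282826998722280124631987255117389687847327671000432008618642261204605827688748426668477375315968) c10_s163)))))))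
noncomputable def c10_d302 : Cert := (B (M (nat_lit 300) (B (M (nat_lit 268) (B (L (nat_lit 395) ln11_12_6 ln11_12_6_ok) (M (nat_lit 236) (B (L (nat_lit 204) ln12_6_5_c10 ln12_6_5_c10_ok) (L (nat_lit 332) ln12_7_5 ln12_7_5_ok))))) (B (M (nat_lit 301) (B (M (nat_lit 330) (B (L (nat_lit 302) ln14_9_1_c10 ln14_9_1_c10_ok) (M (nat_lit 329) (B (L (nat_lit 298) ln13_9_1 ln13_9_1_ok) (L (nat_lit 332) ln9_10_2 ln9_10_2_ok))))) (B (M (nat_lit 302) (B (L (nat_lit 330) ln14_9_1_c10 ln14_9_1_c10_ok) (M (nat_lit 303) (B (L (nat_lit 332) ln15_9_1_c10 ln15_9_1_c10_ok) (M (nat_lit 271) (B (L (nat_lit 270) ln11_9_2 ln11_9_2_ok) (L (nat_lit 272) ln12_9_2 ln12_9_2_ok))))))) (B (M (nat_lit 302) (B (M (nat_lit 303) (B (L (nat_lit 332) ln15_9_1_c10 ln15_9_1_c10_ok) (M (nat_lit 271) (B (L (nat_lit 270) ln11_9_2 ln11_9_2_ok) (L (nat_lit 272) ln12_9_2 ln12_9_2_ok))))) (B (M (nat_lit 303) (B (M (nat_lit 271) (B (L (nat_lit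 270) ln11_9_2 ln11_9_2_ok) (L (nat_lit 272) ln12_9_2 ln12_9_2_ok))) (M (nat_lit 335) (B (L (nat_lit 334) ln11_9_0_c10 ln11_9_0_c10_ok) (L (nat_lit 336) ln12_9_0 ln12_9_0_ok))))) (B (M (nat_lit 303) (B (L (nat_lit 332) ln15_9_1_c10 ln15_9_1_c10_ok) (M (nat_lit 335) (B (L (nat_lit 334) ln11_9_0_c10 ln11_9_0_c10_ok) (L (nat_lit 336) ln12_9_0 ln12_9_0_ok))))) (M (nat_lit 298) (B (M (nat_lit 270) (B (L (nat_lit 269) ln10_9_2 ln10_9_2_ok) (L (nat_lit 271) ln11_9_2 ln11_9_2_ok))) (M (nat_lit 334) (B (L (nat_lit 333) ln10_9_0 ln10_9_0_ok) (L (nat_lit 335) ln11_9_0_c10 ln11_9_0_c10_ok))))))))) (B (M (nat_lit 330) (B (L (nat_lit 302) ln14_9_1_c10 ln14_9_1_c10_ok) (M (nat_lit 298) (B (L (nat_lit 329) ln13_9_1 ln13_9_1_ok) (M (nat_lit 266) (B (L (nat_lit 265) ln13_9_3 ln13_9_3_ok) (L (nat_lit 234) ln10_7_4 ln10_7_4_ok))))))) (M (nat_lit 298) (B (M (nat_lit 266) (B (L (nat_lit 265) ln13_9_3 ln13_9_3_ok) (M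 (nat_lit 234) (B (L (nat_lit 202) ln10_6_4_c10 ln10_6_4_c10_ok) (L (nat_lit 330) ln10_7_4 ln10_7_4_ok))))) (M (nat_lit 297) (B (M (nat_lit 269) (B (L (nat_lit 268) ln9_9_2 ln9_9_2_ok) (L (nat_lit 270) ln10_9_2 ln10_9_2_ok))) (M (nat_lit 333) (B (L (nat_lit 332) ln9_9_0 ln9_9_0_ok) (L (nat_lit 334) ln10_9_0 ln10_9_0_ok)))))))))))) (B (M (nat_lit 301) (B (M (nat_lit 330) (B (L (nat_lit 302) ln14_9_1_c10 ln14_9_1_c10_ok) (M (nat_lit 329) (B (L (nat_lit 298) ln13_9_1 ln13_9_1_ok) (L (nat_lit 332) ln9_10_2 ln9_10_2_ok))))) (B (M (nat_lit 302) (B (L (nat_lit 330) ln14_9_1_c10 ln14_9_1_c10_ok) (M (nat_lit 303) (B (L (nat_lit 332) ln15_9_1_c10 ln15_9_1_c10_ok) (M (nat_lit 335) (B (L (nat_lit 334) ln11_9_0_c10 ln11_9_0_c10_ok) (L (nat_lit 336) ln12_9_0 ln12_9_0_ok))))))) (B (M (nat_lit 302) (B (M (nat_lit 303) (B (L (nat_lit 332) ln15_9_1_c10 ln15_9_1_c10_ok) (M (nat_lit 335) (B (L (nat_lit 334) ln11_9_0_c10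 ln11_9_0_c10_ok) (L (nat_lit 336) ln12_9_0 ln12_9_0_ok))))) (B (M (nat_lit 298) (B (M (nat_lit 266) (B (L (nat_lit 265) ln13_9_3 ln13_9_3_ok) (L (nat_lit 395) ln11_12_7 ln11_12_7_ok))) (M (nat_lit 334) (B (L (nat_lit 333) ln10_9_0 ln10_9_0_ok) (L (nat_lit 335) ln11_9_0_c10 ln11_9_0_c10_ok))))) (M (nat_lit 298) (B (M (nat_lit 266) (B (L (nat_lit 265) ln13_9_3 ln13_9_3_ok) (L (nat_lit 395) ln11_12_7 ln11_12_7_ok))) (M (nat_lit 270) (B (L (nat_lit 269) ln10_9_2 ln10_9_2_ok) (L (nat_lit 271) ln11_9_2 ln11_9_2_ok)))))))) (B (M (nat_lit 298) (B (M (nat_lit 330) (B (L (nat_lit 329) ln13_9_1 ln13_9_1_ok) (L (nat_lit 302) ln14_9_1_c10 ln14_9_1_c10_ok))) (M (nat_lit 266) (B (L (nat_lit 265) ln13_9_3 ln13_9_3_ok) (L (nat_lit 395) ln11_12_7 ln11_12_7_ok))))) (M (nat_lit 298) (B (M (nat_lit 266) (B (L (nat_lit 265) ln13_9_3 ln13_9_3_ok) (L (nat_lit 395) ln11_12_7 ln11_12_7_ok))) (B (M (nat_lit 330) (B (L (nat_lit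 329) ln13_9_1 ln13_9_1_ok) (M (nat_lit 395) (B (L (nat_lit 266) ln11_12_7 ln11_12_7_ok) (L (nat_lit 427) ln11_13_7 ln11_13_7_ok))))) (B (M (nat_lit 332) (B (M (nat_lit 333) (B (L (nat_lit 297) ln9_9_0 ln9_9_0_ok) (L (nat_lit 334) ln10_9_0 ln10_9_0_ok))) (M (nat_lit 396) (B (M (nat_lit 395) (B (L (nat_lit 428) ln11_9_4 ln11_9_4_ok) (L (nat_lit 427) ln11_13_6 ln11_13_6_ok))) (B (M (nat_lit 364) (B (L (nat_lit 428) ln12_10_4 ln12_10_4_ok) (L (nat_lit 269) ln12_12_6 ln12_12_6_ok))) (M (nat_lit 269) (B (L (nat_lit 270) ln10_9_2 ln10_9_2_ok) (L (nat_lit 364) ln12_12_6 ln12_12_6_ok)))))))) (M (nat_lit 330) (B (L (nat_lit 329) ln13_9_1 ln13_9_1_ok) (M (nat_lit 266) (B (L (nat_lit 265) ln13_9_3 ln13_9_3_ok) (L (nat_lit 234) ln10_7_4 ln10_7_4_ok)))))))))))))) (M (nat_lit 395) (B (L (nat_lit 268) ln11_12_6 ln11_12_6_ok) (M (nat_lit 298) (B (L (nat_lit 266) ln11_12_7 ln11_12_7_ok) (M (nat_lit 330) (B (L (nat_lit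 427) ln11_13_7 ln11_13_7_ok) (M (nat_lit 301) (B (L (nat_lit 329) ln13_9_1 ln13_9_1_ok) (L (nat_lit 302) ln14_9_1_c10 ln14_9_1_c10_ok))))))))))))) (B (M (nat_lit 267) (B (M (nat_lit 235) (B (M (nat_lit 236) (B (L (nat_lit 204) ln11_10_6 ln11_10_6_ok) (L (nat_lit 268) ln11_11_6 ln11_11_6_ok))) (M (nat_lit 364) (B (L (nat_lit 332) ln11_7_4 ln11_7_4_ok) (L (nat_lit 396) ln11_8_4 ln11_8_4_ok))))) (B (M (nat_lit 268) (B (L (nat_lit 236) ln11_11_6 ln11_11_6_ok) (M (nat_lit 266) (B (L (nat_lit 234) ln11_11_7 ln11_11_7_ok) (M (nat_lit 269) (B (M (nat_lit 298) (B (L (nat_lit 297) ln13_8_1_c10 ln13_8_1_c10_ok) (L (nat_lit 270) ln14_8_1_c10 ln14_8_1_c10_ok))) (B (M (nat_lit 270) (B (L (nat_lit 298) ln14_8_1_c10 ln14_8_1_c10_ok) (M (nat_lit 238) (B (L (nat_lit 237) ln10_8_2_c10 ln10_8_2_c10_ok) (L (nat_lit 239) ln11_8_2_c10 ln11_8_2_c10_ok))))) (B (M (nat_lit 270) (B (M (nat_lit 238) (B (L (nat_lit 237) ln10_8_2_c10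 ln10_8_2_c10_ok) (L (nat_lit 239) ln11_8_2_c10 ln11_8_2_c10_ok))) (M (nat_lit 302) (B (L (nat_lit 301) ln10_8_0_c10 ln10_8_0_c10_ok) (L (nat_lit 303) ln11_8_0_c10 ln11_8_0_c10_ok))))) (M (nat_lit 265) (B (M (nat_lit 297) (B (L (nat_lit 296) ln12_8_1_c10 ln12_8_1_c10_ok) (L (nat_lit 298) ln13_8_1_c10 ln13_8_1_c10_ok))) (M (nat_lit 301) (B (L (nat_lit 300) ln9_8_0_c10 ln9_8_0_c10_ok) (L (nat_lit 302) ln10_8_0_c10 ln10_8_0_c10_ok))))))))))))) (M (nat_lit 235) (B (M (nat_lit 234) (B (L (nat_lit 202) ln11_10_7 ln11_10_7_ok) (L (nat_lit 266) ln11_11_7 ln11_11_7_ok))) (M (nat_lit 364) (B (L (nat_lit 332) ln11_7_4 ln11_7_4_ok) (L (nat_lit 396) ln11_8_4 ln11_8_4_ok)))))))) (B (M (nat_lit 395) (B (M (nat_lit 300) (B (L (nat_lit 268) ln11_12_6 ln11_12_6_ok) (M (nat_lit 427) (B (L (nat_lit 332) ln11_13_6 ln11_13_6_ok) (M (nat_lit 298) (B (L (nat_lit 266) ln11_12_7 ln11_12_7_ok) (L (nat_lit 330) ln11_13_7 ln11_13_7_ok)))))))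 (B (M (nat_lit 427) (B (M (nat_lit 300) (B (L (nat_lit 268) ln11_12_6 ln11_12_6_ok) (L (nat_lit 332) ln11_13_6 ln11_13_6_ok))) (M (nat_lit 428) (B (L (nat_lit 396) ln11_9_4 ln11_9_4_ok) (L (nat_lit 460) ln11_10_4 ln11_10_4_ok))))) (M (nat_lit 267) (B (M (nat_lit 266) (B (L (nat_lit 234) ln11_11_7 ln11_11_7_ok) (L (nat_lit 298) ln11_12_7 ln11_12_7_ok))) (M (nat_lit 396) (B (L (nat_lit 364) ln11_8_4 ln11_8_4_ok) (L (nat_lit 428) ln11_9_4 ln11_9_4_ok)))))))) (B (M (nat_lit 267) (B (M (nat_lit 235) (B (M (nat_lit 234) (B (L (nat_lit 202) ln11_10_7 ln11_10_7_ok) (L (nat_lit 266) ln11_11_7 ln11_11_7_ok))) (M (nat_lit 364) (B (L (nat_lit 332) ln11_7_4 ln11_7_4_ok) (L (nat_lit 396) ln11_8_4 ln11_8_4_ok))))) (B (M (nat_lit 395) (B (M (nat_lit 266) (B (L (nat_lit 234) ln11_11_7 ln11_11_7_ok) (L (nat_lit 298) ln11_12_7 ln11_12_7_ok))) (M (nat_lit 396) (B (L (nat_lit 364) ln11_8_4 ln11_8_4_ok) (L (nat_lit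 428) ln11_9_4 ln11_9_4_ok))))) (B (M (nat_lit 235) (B (M (nat_lit 364) (B (L (nat_lit 332) ln11_7_4 ln11_7_4_ok) (L (nat_lit 396) ln11_8_4 ln11_8_4_ok))) (M (nat_lit 203) (B (M (nat_lit 330) (B (L (nat_lit 298) ln11_6_5 ln11_6_5_ok) (L (nat_lit 362) ln11_7_5 ln11_7_5_ok))) (M (nat_lit 204) (B (L (nat_lit 172) ln11_9_6_c10 ln11_9_6_c10_ok) (L (nat_lit 236) ln11_10_6 ln11_10_6_ok))))))) (M (nat_lit 235) (B (M (nat_lit 234) (B (L (nat_lit 202) ln11_10_7 ln11_10_7_ok) (L (nat_lit 266) ln11_11_7 ln11_11_7_ok))) (M (nat_lit 203) (B (M (nat_lit 330) (B (L (nat_lit 298) ln11_6_5 ln11_6_5_ok) (L (nat_lit 362) ln11_7_5 ln11_7_5_ok))) (M (nat_lit 204) (B (L (nat_lit 172) ln11_9_6_c10 ln11_9_6_c10_ok) (L (nat_lit 236) ln11_10_6 ln11_10_6_ok))))))))))) (B (M (nat_lit 267) (B (M (nat_lit 395) (B (M (nat_lit 268) (B (L (nat_lit 236) ln11_11_6 ln11_11_6_ok) (L (nat_lit 300) ln11_12_6 ln11_12_6_ok))) (M (nat_lit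 396) (B (L (nat_lit 364) ln11_8_4 ln11_8_4_ok) (L (nat_lit 428) ln11_9_4 ln11_9_4_ok))))) (B (M (nat_lit 235) (B (M (nat_lit 234) (B (L (nat_lit 202) ln11_10_7 ln11_10_7_ok) (L (nat_lit 266) ln11_11_7 ln11_11_7_ok))) (M (nat_lit 236) (B (L (nat_lit 204) ln11_10_6 ln11_10_6_ok) (L (nat_lit 268) ln11_11_6 ln11_11_6_ok))))) (M (nat_lit 395) (B (M (nat_lit 266) (B (L (nat_lit 234) ln11_11_7 ln11_11_7_ok) (L (nat_lit 298) ln11_12_7 ln11_12_7_ok))) (M (nat_lit 396) (B (L (nat_lit 364) ln11_8_4 ln11_8_4_ok) (L (nat_lit 428) ln11_9_4 ln11_9_4_ok)))))))) (B (M (nat_lit 395) (B (M (nat_lit 427) (B (M (nat_lit 300) (B (L (nat_lit 268) ln11_12_6 ln11_12_6_ok) (L (nat_lit 332) ln11_13_6 ln11_13_6_ok))) (M (nat_lit 428) (B (L (nat_lit 396) ln11_9_4 ln11_9_4_ok) (L (nat_lit 460) ln11_10_4 ln11_10_4_ok))))) (B (M (nat_lit 268) (B (L (nat_lit 300) ln11_12_6 ln11_12_6_ok) (M (nat_lit 267) (B (L (nat_lit 236) ln11_11_6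 ln11_11_6_ok) (M (nat_lit 266) (B (L (nat_lit 234) ln11_11_7 ln11_11_7_ok) (L (nat_lit 298) ln11_12_7 ln11_12_7_ok))))))) (M (nat_lit 427) (B (M (nat_lit 298) (B (L (nat_lit 266) ln11_12_7 ln11_12_7_ok) (L (nat_lit 330) ln11_13_7 ln11_13_7_ok))) (M (nat_lit 428) (B (L (nat_lit 396) ln11_9_4 ln11_9_4_ok) (L (nat_lit 460) ln11_10_4 ln11_10_4_ok)))))))) (M (nat_lit 267) (B (M (nat_lit 235) (B (M (nat_lit 234) (B (L (nat_lit 202) ln11_10_7 ln11_10_7_ok) (L (nat_lit 266) ln11_11_7 ln11_11_7_ok))) (M (nat_lit 236) (B (L (nat_lit 204) ln11_10_6 ln11_10_6_ok) (L (nat_lit 268) ln11_11_6 ln11_11_6_ok))))) (B (M (nat_lit 268) (B (L (nat_lit 236) ln11_11_6 ln11_11_6_ok) (M (nat_lit 266) (B (L (nat_lit 234) ln11_11_7 ln11_11_7_ok) (M (nat_lit 395) (B (L (nat_lit 298) ln11_12_7 ln11_12_7_ok) (L (nat_lit 300) ln11_12_6 ln11_12_6_ok))))))) (B (M (nat_lit 235) (B (M (nat_lit 236) (B (L (nat_lit 204) ln11_10_6 ln11_10_6_ok)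 (L (nat_lit 268) ln11_11_6 ln11_11_6_ok))) (M (nat_lit 203) (B (M (nat_lit 330) (B (L (nat_lit 298) ln11_6_5 ln11_6_5_ok) (L (nat_lit 362) ln11_7_5 ln11_7_5_ok))) (M (nat_lit 332) (B (L (nat_lit 300) ln11_6_4_c10 ln11_6_4_c10_ok) (L (nat_lit 364) ln11_7_4 ln11_7_4_ok))))))) (M (nat_lit 235) (B (M (nat_lit 234) (B (L (nat_lit 202) ln11_10_7 ln11_10_7_ok) (L (nat_lit 266) ln11_11_7 ln11_11_7_ok))) (M (nat_lit 203) (B (M (nat_lit 330) (B (L (nat_lit 298) ln11_6_5 ln11_6_5_ok) (L (nat_lit 362) ln11_7_5 ln11_7_5_ok))) (M (nat_lit 332) (B (L (nat_lit 300) ln11_6_4_c10 ln11_6_4_c10_ok) (L (nat_lit 364) ln11_7_4 ln11_7_4_ok)))))))))))))))))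
noncomputable def c10_d303 : Cert := (B (M (nat_lit 299) (B (M (nat_lit 395) (B (M (nat_lit 267) (B (M (nat_lit 266) (B (L (nat_lit 234) ln11_11_7 ln11_11_7_ok) (L (nat_lit 298) ln11_12_7 ln11_12_7_ok))) (M (nat_lit 396) (B (L (nat_lit 364) ln11_8_4 ln11_8_4_ok) (L (nat_lit 428) ln11_9_4 ln11_9_4_ok))))) (B (M (nat_lit 427) (B (M (nat_lit 300) (B (L (nat_lit 268) ln11_12_6 ln11_12_6_ok) (L (nat_lit 332) ln11_13_6 ln11_13_6_ok))) (M (nat_lit 298) (B (L (nat_lit 266) ln11_12_7 ln11_12_7_ok) (L (nat_lit 330) ln11_13_7 ln11_13_7_ok))))) (M (nat_lit 396) (B (L (nat_lit 428) ln11_9_4 ln11_9_4_ok) (M (nat_lit 268) (B (L (nat_lit 300) ln11_12_6 ln11_12_6_ok) (M (nat_lit 267) (B (L (nat_lit 236) ln11_11_6 ln11_11_6_ok) (L (nat_lit 364) ln11_8_4 ln11_8_4_ok)))))))))) (B (K (nat_lit 5954262830815946494440468064101681940811899709034891853222361727865433606063510264561573696898111202468558680008852037543936685284513546240)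 (nat_lit 2977131415754556959227421815559396253381731409811894085539064998487683345364829205909662934093312793921536673807833444346767397505625751552) (nat_lit 2977131415754556959227421815559396253381731409811894085539064998487683345364829205909662934093312793921536673807833444346767397505625751552) c10_s155) (B (K (nat_lit 5954262830815946494440468064101681940811899709034891853222361727865433606063510264561573696898111202468558680008852037543936685284513546240) (nat_lit 2977131415754556959227421815559396253381731409811894085539064998487766166320990692675112151163660118226966087115499488985429347796311343104) (nat_lit 2977131415754556959227421815559396253381731409811894085539064998487766166320990692675112151163660118226966087115499488985429347796311343104) c10_s156) (B (K (nat_lit 5954262830815946494440468064101681940811899709034891853222361727865433606063510264561573696898111202468558680008852037543936685284513546240)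 (nat_lit 3196670520733556021898708746185697779201561567513990859787889210590697802472686160104339960887993636123088651316837781908003202475168208922676822016) (nat_lit 3196670520733556021898708746185697779201561567513990859787889210590697802472686160104339960887993636123088651316837781908003202475168208922676822016) c10_s157) c10_d301))))) (M (nat_lit 299) (B (M (nat_lit 267) (B (M (nat_lit 235) (B (M (nat_lit 234) (B (L (nat_lit 202) ln11_10_7 ln11_10_7_ok) (L (nat_lit 266) ln11_11_7 ln11_11_7_ok))) (M (nat_lit 236) (B (L (nat_lit 204) ln11_10_6 ln11_10_6_ok) (L (nat_lit 268) ln11_11_6 ln11_11_6_ok))))) (B (M (nat_lit 235) (B (M (nat_lit 236) (B (L (nat_lit 204) ln11_10_6 ln11_10_6_ok) (L (nat_lit 268) ln11_11_6 ln11_11_6_ok))) (M (nat_lit 364) (B (L (nat_lit 332) ln11_7_4 ln11_7_4_ok) (L (nat_lit 396) ln11_8_4 ln11_8_4_ok))))) (B (M (nat_lit 268) (B (L (nat_lit 236) ln11_11_6 ln11_11_6_ok) (M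 (nat_lit 266) (B (L (nat_lit 234) ln11_11_7 ln11_11_7_ok) (M (nat_lit 395) (B (L (nat_lit 298) ln11_12_7 ln11_12_7_ok) (L (nat_lit 300) ln11_12_6 ln11_12_6_ok))))))) (M (nat_lit 235) (B (M (nat_lit 234) (B (L (nat_lit 202) ln11_10_7 ln11_10_7_ok) (L (nat_lit 266) ln11_11_7 ln11_11_7_ok))) (M (nat_lit 364) (B (L (nat_lit 332) ln11_7_4 ln11_7_4_ok) (L (nat_lit 396) ln11_8_4 ln11_8_4_ok))))))))) (B (M (nat_lit 267) (B (M (nat_lit 268) (B (L (nat_lit 236) ln11_11_6 ln11_11_6_ok) (M (nat_lit 266) (B (L (nat_lit 234) ln11_11_7 ln11_11_7_ok) (M (nat_lit 395) (B (L (nat_lit 298) ln11_12_7 ln11_12_7_ok) (L (nat_lit 300) ln11_12_6 ln11_12_6_ok))))))) (B (M (nat_lit 395) (B (M (nat_lit 268) (B (L (nat_lit 236) ln11_11_6 ln11_11_6_ok) (L (nat_lit 300) ln11_12_6 ln11_12_6_ok))) (M (nat_lit 396) (B (L (nat_lit 364) ln11_8_4 ln11_8_4_ok) (L (nat_lit 428) ln11_9_4 ln11_9_4_ok))))) (B (M (nat_lit 235) (B (M (nat_lit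 236) (B (L (nat_lit 204) ln11_10_6 ln11_10_6_ok) (L (nat_lit 268) ln11_11_6 ln11_11_6_ok))) (M (nat_lit 364) (B (L (nat_lit 332) ln11_7_4 ln11_7_4_ok) (L (nat_lit 396) ln11_8_4 ln11_8_4_ok))))) (M (nat_lit 395) (B (M (nat_lit 266) (B (L (nat_lit 234) ln11_11_7 ln11_11_7_ok) (L (nat_lit 298) ln11_12_7 ln11_12_7_ok))) (M (nat_lit 396) (B (L (nat_lit 364) ln11_8_4 ln11_8_4_ok) (L (nat_lit 428) ln11_9_4 ln11_9_4_ok))))))))) (B (M (nat_lit 395) (B (M (nat_lit 300) (B (L (nat_lit 268) ln11_12_6 ln11_12_6_ok) (M (nat_lit 427) (B (L (nat_lit 332) ln11_13_6 ln11_13_6_ok) (M (nat_lit 298) (B (L (nat_lit 266) ln11_12_7 ln11_12_7_ok) (L (nat_lit 330) ln11_13_7 ln11_13_7_ok))))))) (B (M (nat_lit 427) (B (M (nat_lit 300) (B (L (nat_lit 268) ln11_12_6 ln11_12_6_ok) (L (nat_lit 332) ln11_13_6 ln11_13_6_ok))) (M (nat_lit 428) (B (L (nat_lit 396) ln11_9_4 ln11_9_4_ok) (L (nat_lit 460) ln11_10_4 ln11_10_4_ok)))))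 (B (M (nat_lit 267) (B (M (nat_lit 268) (B (L (nat_lit 236) ln11_11_6 ln11_11_6_ok) (L (nat_lit 300) ln11_12_6 ln11_12_6_ok))) (M (nat_lit 396) (B (L (nat_lit 364) ln11_8_4 ln11_8_4_ok) (L (nat_lit 428) ln11_9_4 ln11_9_4_ok))))) (M (nat_lit 427) (B (M (nat_lit 298) (B (L (nat_lit 266) ln11_12_7 ln11_12_7_ok) (L (nat_lit 330) ln11_13_7 ln11_13_7_ok))) (M (nat_lit 428) (B (L (nat_lit 396) ln11_9_4 ln11_9_4_ok) (L (nat_lit 460) ln11_10_4 ln11_10_4_ok))))))))) (B (M (nat_lit 267) (B (M (nat_lit 235) (B (M (nat_lit 236) (B (L (nat_lit 204) ln11_10_6 ln11_10_6_ok) (L (nat_lit 268) ln11_11_6 ln11_11_6_ok))) (M (nat_lit 364) (B (L (nat_lit 332) ln11_7_4 ln11_7_4_ok) (L (nat_lit 396) ln11_8_4 ln11_8_4_ok))))) (B (M (nat_lit 395) (B (M (nat_lit 268) (B (L (nat_lit 236) ln11_11_6 ln11_11_6_ok) (L (nat_lit 300) ln11_12_6 ln11_12_6_ok))) (M (nat_lit 396) (B (L (nat_lit 364) ln11_8_4 ln11_8_4_ok) (L (nat_lit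 428) ln11_9_4 ln11_9_4_ok))))) (B (M (nat_lit 235) (B (M (nat_lit 364) (B (L (nat_lit 332) ln11_7_4 ln11_7_4_ok) (L (nat_lit 396) ln11_8_4 ln11_8_4_ok))) (M (nat_lit 203) (B (M (nat_lit 202) (B (L (nat_lit 170) ln11_9_7_c10 ln11_9_7_c10_ok) (L (nat_lit 234) ln11_10_7 ln11_10_7_ok))) (M (nat_lit 330) (B (L (nat_lit 298) ln11_6_5 ln11_6_5_ok) (L (nat_lit 362) ln11_7_5 ln11_7_5_ok))))))) (M (nat_lit 235) (B (M (nat_lit 236) (B (L (nat_lit 204) ln11_10_6 ln11_10_6_ok) (L (nat_lit 268) ln11_11_6 ln11_11_6_ok))) (M (nat_lit 203) (B (M (nat_lit 202) (B (L (nat_lit 170) ln11_9_7_c10 ln11_9_7_c10_ok) (L (nat_lit 234) ln11_10_7 ln11_10_7_ok))) (M (nat_lit 330) (B (L (nat_lit 298) ln11_6_5 ln11_6_5_ok) (L (nat_lit 362) ln11_7_5 ln11_7_5_ok))))))))))) (B (M (nat_lit 267) (B (M (nat_lit 235) (B (M (nat_lit 234) (B (L (nat_lit 202) ln11_10_7 ln11_10_7_ok) (L (nat_lit 266) ln11_11_7 ln11_11_7_ok))) (M (nat_lit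 364) (B (L (nat_lit 332) ln11_7_4 ln11_7_4_ok) (L (nat_lit 396) ln11_8_4 ln11_8_4_ok))))) (B (M (nat_lit 235) (B (M (nat_lit 236) (B (L (nat_lit 204) ln11_10_6 ln11_10_6_ok) (L (nat_lit 268) ln11_11_6 ln11_11_6_ok))) (M (nat_lit 364) (B (L (nat_lit 332) ln11_7_4 ln11_7_4_ok) (L (nat_lit 396) ln11_8_4 ln11_8_4_ok))))) (B (M (nat_lit 395) (B (M (nat_lit 268) (B (L (nat_lit 236) ln11_11_6 ln11_11_6_ok) (L (nat_lit 300) ln11_12_6 ln11_12_6_ok))) (M (nat_lit 396) (B (L (nat_lit 364) ln11_8_4 ln11_8_4_ok) (L (nat_lit 428) ln11_9_4 ln11_9_4_ok))))) (M (nat_lit 235) (B (M (nat_lit 234) (B (L (nat_lit 202) ln11_10_7 ln11_10_7_ok) (L (nat_lit 266) ln11_11_7 ln11_11_7_ok))) (M (nat_lit 236) (B (L (nat_lit 204) ln11_10_6 ln11_10_6_ok) (L (nat_lit 268) ln11_11_6 ln11_11_6_ok))))))))) c10_d302)))))))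
noncomputable def c10_d304 : Cert := (B (M (nat_lit 364) (B (M (nat_lit 396) (B (M (nat_lit 366) (B (M (nat_lit 334) (B (M (nat_lit 333) (B (M (nat_lit 302) (B (M (nat_lit 267) (B (L (nat_lit 299) ln11_8_4 ln11_8_4_ok) (M (nat_lit 269) (B (M (nat_lit 398) (B (L (nat_lit 399) ln11_11_0 ln11_11_0_ok) (L (nat_lit 301) ln13_8_4 ln13_8_4_ok))) (M (nat_lit 270) (B (L (nat_lit 237) ln14_11_7_c10 ln14_11_7_c10_ok) (M (nat_lit 239) (B (L (nat_lit 271) ln14_11_6_c10 ln14_11_6_c10_ok) (L (nat_lit 238) ln14_7_5_c10 ln14_7_5_c10_ok))))))))) (B (M (nat_lit 270) (B (L (nat_lit 238) ln14_7_5_c10 ln14_7_5_c10_ok) (M (nat_lit 269) (B (L (nat_lit 237) ln14_11_7_c10 ln14_11_7_c10_ok) (L (nat_lit 301) ln13_8_5 ln13_8_5_ok))))) (M (nat_lit 398) (B (M (nat_lit 303) (B (L (nat_lit 332) ln11_10_2 ln11_10_2_ok) (L (nat_lit 271) ln14_12_6 ln14_12_6_ok))) (L (nat_lit 399) ln11_11_0 ln11_11_0_ok)))))) (L (nat_lit 362) ln10_11_2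 ln10_11_2_ok))) (L (nat_lit 335) ln11_11_2 ln11_11_2_ok))) (B (M (nat_lit 333) (B (M (nat_lit 334) (B (L (nat_lit 335) ln11_11_2 ln11_11_2_ok) (L (nat_lit 362) ln10_11_2 ln10_11_2_ok))) (M (nat_lit 399) (B (L (nat_lit 398) ln11_11_0 ln11_11_0_ok) (M (nat_lit 367) (B (L (nat_lit 400) ln12_11_0 ln12_11_0_ok) (L (nat_lit 395) ln15_11_1 ln15_11_1_ok))))))) (M (nat_lit 367) (B (L (nat_lit 395) ln15_11_1 ln15_11_1_ok) (L (nat_lit 332) ln15_11_3 ln15_11_3_ok)))))) (B (M (nat_lit 333) (B (M (nat_lit 334) (B (L (nat_lit 362) ln10_11_2 ln10_11_2_ok) (M (nat_lit 335) (B (L (nat_lit 336) ln16_10_1 ln16_10_1_ok) (L (nat_lit 366) ln11_11_2 ln11_11_2_ok))))) (B (M (nat_lit 334) (B (L (nat_lit 362) ln10_11_2 ln10_11_2_ok) (M (nat_lit 335) (B (L (nat_lit 332) ln15_10_1 ln15_10_1_ok) (L (nat_lit 366) ln11_11_2 ln11_11_2_ok))))) (M (nat_lit 301) (B (L (nat_lit 269) ln13_8_5 ln13_8_5_ok) (M (nat_lit 428) (B (L (nat_lit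 332) ln12_10_4 ln12_10_4_ok) (L (nat_lit 460) ln12_14_6 ln12_14_6_ok)))))))) (M (nat_lit 428) (B (M (nat_lit 299) (B (L (nat_lit 267) ln11_8_4 ln11_8_4_ok) (L (nat_lit 395) ln11_9_4 ln11_9_4_ok))) (L (nat_lit 460) ln12_14_7 ln12_14_7_ok)))))) (B (M (nat_lit 396) (B (M (nat_lit 428) (B (L (nat_lit 460) ln12_14_7 ln12_14_7_ok) (M (nat_lit 299) (B (L (nat_lit 332) ln12_10_4 ln12_10_4_ok) (L (nat_lit 267) ln11_8_4 ln11_8_4_ok))))) (B (M (nat_lit 299) (B (L (nat_lit 267) ln11_8_4 ln11_8_4_ok) (M (nat_lit 428) (B (L (nat_lit 395) ln11_9_4 ln11_9_4_ok) (L (nat_lit 332) ln12_10_4 ln12_10_4_ok))))) (B (M (nat_lit 299) (B (L (nat_lit 267) ln11_8_4 ln11_8_4_ok) (M (nat_lit 362) (B (M (nat_lit 333) (B (L (nat_lit 334) ln10_11_2 ln10_11_2_ok) (M (nat_lit 361) (B (L (nat_lit 332) ln9_11_2 ln9_11_2_ok) (M (nat_lit 329) (B (L (nat_lit 330) ln13_11_3 ln13_11_3_ok) (L (nat_lit 328) ln12_11_3 ln12_11_3_ok)))))))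 (B (M (nat_lit 300) (B (M (nat_lit 268) (B (L (nat_lit 395) ln11_12_6 ln11_12_6_ok) (M (nat_lit 236) (B (L (nat_lit 332) ln12_7_5 ln12_7_5_ok) (L (nat_lit 204) ln12_6_5_c10 ln12_6_5_c10_ok))))) (M (nat_lit 301) (B (M (nat_lit 333) (B (L (nat_lit 269) ln13_8_5 ln13_8_5_ok) (L (nat_lit 334) ln10_11_2 ln10_11_2_ok))) (M (nat_lit 330) (B (L (nat_lit 329) ln13_11_3 ln13_11_3_ok) (L (nat_lit 302) ln14_9_1_c10 ln14_9_1_c10_ok))))))) (B (M (nat_lit 361) (B (M (nat_lit 329) (B (L (nat_lit 330) ln13_11_3 ln13_11_3_ok) (L (nat_lit 328) ln12_11_3 ln12_11_3_ok))) (M (nat_lit 360) (B (L (nat_lit 395) ln8_11_0 ln8_11_0_ok) (L (nat_lit 332) ln8_11_2 ln8_11_2_ok))))) (B (M (nat_lit 361) (B (M (nat_lit 329) (B (L (nat_lit 330) ln13_11_3 ln13_11_3_ok) (L (nat_lit 328) ln12_11_3 ln12_11_3_ok))) (M (nat_lit 392) (B (L (nat_lit 393) ln12_11_1 ln12_11_1_ok) (M (nat_lit 360) (B (L (nat_lit 395) ln8_11_0 ln8_11_0_ok) (L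 (nat_lit 391) ln11_11_1 ln11_11_1_ok))))))) (M (nat_lit 361) (B (M (nat_lit 333) (B (L (nat_lit 334) ln10_11_2 ln10_11_2_ok) (L (nat_lit 332) ln9_11_2 ln9_11_2_ok))) (B (M (nat_lit 360) (B (L (nat_lit 395) ln8_11_0 ln8_11_0_ok) (L (nat_lit 332) ln8_11_2 ln8_11_2_ok))) (M (nat_lit 392) (B (L (nat_lit 393) ln12_11_1 ln12_11_1_ok) (M (nat_lit 360) (B (L (nat_lit 395) ln8_11_0 ln8_11_0_ok) (L (nat_lit 391) ln11_11_1 ln11_11_1_ok))))))))))))))) (B (M (nat_lit 428) (B (L (nat_lit 460) ln12_14_7 ln12_14_7_ok) (M (nat_lit 299) (B (L (nat_lit 395) ln11_9_4 ln11_9_4_ok) (L (nat_lit 267) ln11_8_4 ln11_8_4_ok))))) (M (nat_lit 362) (B (M (nat_lit 333) (B (L (nat_lit 334) ln10_11_2 ln10_11_2_ok) (M (nat_lit 428) (B (L (nat_lit 460) ln12_14_6 ln12_14_6_ok) (L (nat_lit 332) ln12_10_4 ln12_10_4_ok))))) (B (M (nat_lit 361) (B (M (nat_lit 333) (B (L (nat_lit 334) ln10_11_2 ln10_11_2_ok) (L (nat_lit 332) ln9_11_2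 ln9_11_2_ok))) (M (nat_lit 329) (B (L (nat_lit 330) ln13_11_3 ln13_11_3_ok) (L (nat_lit 328) ln12_11_3 ln12_11_3_ok))))) (B (M (nat_lit 361) (B (M (nat_lit 329) (B (L (nat_lit 330) ln13_11_3 ln13_11_3_ok) (L (nat_lit 328) ln12_11_3 ln12_11_3_ok))) (M (nat_lit 360) (B (L (nat_lit 395) ln8_11_0 ln8_11_0_ok) (L (nat_lit 332) ln8_11_2 ln8_11_2_ok))))) (M (nat_lit 361) (B (M (nat_lit 329) (B (L (nat_lit 330) ln13_11_3 ln13_11_3_ok) (L (nat_lit 328) ln12_11_3 ln12_11_3_ok))) (M (nat_lit 392) (B (L (nat_lit 393) ln12_11_1 ln12_11_1_ok) (M (nat_lit 360) (B (L (nat_lit 395) ln8_11_0 ln8_11_0_ok) (L (nat_lit 391) ln11_11_1 ln11_11_1_ok)))))))))))))))) (B (M (nat_lit 366) (B (L (nat_lit 330) ln14_11_3 ln14_11_3_ok) (M (nat_lit 399) (B (L (nat_lit 398) ln11_11_0 ln11_11_0_ok) (M (nat_lit 335) (B (L (nat_lit 334) ln11_11_2 ln11_11_2_ok) (M (nat_lit 367) (B (L (nat_lit 400) ln12_11_0 ln12_11_0_ok) (L (nat_lit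 336) ln12_11_2 ln12_11_2_ok))))))))) (M (nat_lit 330) (B (M (nat_lit 329) (B (L (nat_lit 362) ln13_11_3 ln13_11_3_ok) (L (nat_lit 328) ln8_10_0 ln8_10_0_ok))) (L (nat_lit 366) ln14_11_3 ln14_11_3_ok))))))) (B (M (nat_lit 299) (B (K (nat_lit 5954262830815946494440468064101681940811899709034891853222361727865433606063510264561573696898111202468558680008852037543936685284513546240) (nat_lit 2977131415754556959227421815559396253381731409811894085539064998487683345364829205909662934093312793921536673807833444346767397505625751552) (nat_lit 2977131415754556959227421815559396253381731409811894085539064998487683345364829205909662934093312793921536673807833444346767397505625751552) c10_s155) (B (K (nat_lit 5954262830815946494440468064101681940811899709034891853222361727865433606063510264561573696898111202468558680008852037543936685284513546240) (nat_lit 2977131415754556959227421815559396253381731409811894085539064998487766166320990692675112151163660118226966087115499488985429347796311343104)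 (nat_lit 2977131415754556959227421815559396253381731409811894085539064998487766166320990692675112151163660118226966087115499488985429347796311343104) c10_s156) (B (K (nat_lit 5954262830815946494440468064101681940811899709034891853222361727865433606063510264561573696898111202468558680008852037543936685284513546240) (nat_lit 3196670520733556021898708746185697779201561567513990859787889210590697802472686160104339960887993636123088651316837781908003202475168208922676822016) (nat_lit 3196670520733556021898708746185697779201561567513990859787889210590697802472686160104339960887993636123088651316837781908003202475168208922676822016) c10_s157) c10_d299)))) (B (M (nat_lit 299) (B (M (nat_lit 267) (B (M (nat_lit 266) (B (L (nat_lit 234) ln11_11_7 ln11_11_7_ok) (M (nat_lit 395) (B (L (nat_lit 298) ln11_12_7 ln11_12_7_ok) (M (nat_lit 268) (B (L (nat_lit 236) ln11_11_6 ln11_11_6_ok) (L (nat_lit 300) ln11_12_6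 ln11_12_6_ok))))))) (B (M (nat_lit 395) (B (M (nat_lit 266) (B (L (nat_lit 234) ln11_11_7 ln11_11_7_ok) (L (nat_lit 298) ln11_12_7 ln11_12_7_ok))) (M (nat_lit 396) (B (L (nat_lit 364) ln11_8_4 ln11_8_4_ok) (L (nat_lit 428) ln11_9_4 ln11_9_4_ok))))) (B (M (nat_lit 395) (B (M (nat_lit 268) (B (L (nat_lit 236) ln11_11_6 ln11_11_6_ok) (L (nat_lit 300) ln11_12_6 ln11_12_6_ok))) (M (nat_lit 396) (B (L (nat_lit 364) ln11_8_4 ln11_8_4_ok) (L (nat_lit 428) ln11_9_4 ln11_9_4_ok))))) (M (nat_lit 235) (B (M (nat_lit 236) (B (L (nat_lit 204) ln11_10_6 ln11_10_6_ok) (L (nat_lit 268) ln11_11_6 ln11_11_6_ok))) (M (nat_lit 364) (B (L (nat_lit 332) ln11_7_4 ln11_7_4_ok) (L (nat_lit 396) ln11_8_4 ln11_8_4_ok))))))))) (B (M (nat_lit 267) (B (M (nat_lit 266) (B (L (nat_lit 234) ln11_11_7 ln11_11_7_ok) (M (nat_lit 395) (B (L (nat_lit 298) ln11_12_7 ln11_12_7_ok) (M (nat_lit 268) (B (L (nat_lit 236) ln11_11_6 ln11_11_6_ok)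 (L (nat_lit 300) ln11_12_6 ln11_12_6_ok))))))) (B (M (nat_lit 395) (B (M (nat_lit 266) (B (L (nat_lit 234) ln11_11_7 ln11_11_7_ok) (L (nat_lit 298) ln11_12_7 ln11_12_7_ok))) (M (nat_lit 396) (B (L (nat_lit 364) ln11_8_4 ln11_8_4_ok) (L (nat_lit 428) ln11_9_4 ln11_9_4_ok))))) (B (M (nat_lit 395) (B (M (nat_lit 268) (B (L (nat_lit 236) ln11_11_6 ln11_11_6_ok) (L (nat_lit 300) ln11_12_6 ln11_12_6_ok))) (M (nat_lit 396) (B (L (nat_lit 364) ln11_8_4 ln11_8_4_ok) (L (nat_lit 428) ln11_9_4 ln11_9_4_ok))))) (M (nat_lit 234) (B (L (nat_lit 266) ln11_11_7 ln11_11_7_ok) (M (nat_lit 235) (B (L (nat_lit 202) ln11_10_7 ln11_10_7_ok) (M (nat_lit 364) (B (L (nat_lit 332) ln11_7_4 ln11_7_4_ok) (L (nat_lit 396) ln11_8_4 ln11_8_4_ok))))))))))) (B (K (nat_lit 5954262830815946494440468064101681940811899709034891853222361727865433606063510264561573696898111202468558680008852037543936685284513546240) (nat_lit 2977131415754556959227421815559396253381731409811894085539064998487683345364829205909662934093312793921536673807833444346767397505625751552)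 (nat_lit 2977131415754556959227421815559396253381731409811894085539064998487683345364829205909662934093312793921536673807833444346767397505625751552) c10_s155) (B (K (nat_lit 5954262830815946494440468064101681940811899709034891853222361727865433606063510264561573696898111202468558680008852037543936685284513546240) (nat_lit 2977131415754556959227421815559396253381731409811894085539064998487766166320990692675112151163660118226966087115499488985429347796311343104) (nat_lit 2977131415754556959227421815559396253381731409811894085539064998487766166320990692675112151163660118226966087115499488985429347796311343104) c10_s156) (B (M (nat_lit 267) (B (M (nat_lit 234) (B (L (nat_lit 266) ln11_11_7 ln11_11_7_ok) (M (nat_lit 235) (B (L (nat_lit 202) ln11_10_7 ln11_10_7_ok) (M (nat_lit 364) (B (L (nat_lit 332) ln11_7_4 ln11_7_4_ok) (L (nat_lit 396) ln11_8_4 ln11_8_4_ok))))))) (B (M (nat_lit 395) (B (M (nat_lit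 266) (B (L (nat_lit 234) ln11_11_7 ln11_11_7_ok) (L (nat_lit 298) ln11_12_7 ln11_12_7_ok))) (M (nat_lit 396) (B (L (nat_lit 364) ln11_8_4 ln11_8_4_ok) (L (nat_lit 428) ln11_9_4 ln11_9_4_ok))))) (B (M (nat_lit 235) (B (M (nat_lit 364) (B (L (nat_lit 332) ln11_7_4 ln11_7_4_ok) (L (nat_lit 396) ln11_8_4 ln11_8_4_ok))) (M (nat_lit 203) (B (M (nat_lit 204) (B (L (nat_lit 172) ln11_9_6_c10 ln11_9_6_c10_ok) (L (nat_lit 236) ln11_10_6 ln11_10_6_ok))) (M (nat_lit 330) (B (L (nat_lit 298) ln11_6_5 ln11_6_5_ok) (L (nat_lit 362) ln11_7_5 ln11_7_5_ok))))))) (M (nat_lit 235) (B (M (nat_lit 234) (B (L (nat_lit 202) ln11_10_7 ln11_10_7_ok) (L (nat_lit 266) ln11_11_7 ln11_11_7_ok))) (M (nat_lit 203) (B (M (nat_lit 204) (B (L (nat_lit 172) ln11_9_6_c10 ln11_9_6_c10_ok) (L (nat_lit 236) ln11_10_6 ln11_10_6_ok))) (M (nat_lit 330) (B (L (nat_lit 298) ln11_6_5 ln11_6_5_ok) (L (nat_lit 362) ln11_7_5 ln11_7_5_ok)))))))))))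 c10_d300)))))) c10_d303)))
noncomputable def c10_d305 : Cert := (B (K (nat_lit 5954262830815946494440468064101681940811899709033873335234194484822299383219305575481047962701278234343240609784174846894055016931421847552) (nat_lit 15983352583479107698758225147283237359731860418587134759431873384274999560582138656028652969058401871040402374116649100172603501913928658834740477952) (nat_lit 15983352583479107698758225147283237359731860418587134759431873384274999560582138656028652969058401871040402374116649100172603501913928658834740477952) c10_s147) (B (M (nat_lit 330) c10_d290) (B (M (nat_lit 364) c10_d291) (B (M (nat_lit 330) c10_d297) (B (M (nat_lit 364) (B (K (nat_lit 5954262830815946494440468064139258622136281040680105024782823877260310304001838693412364618245793578745074344879594030868211316179932807168) (nat_lit 54918381303421571333730218684158387868709331249942219528251963649539941374610984882925466289370258259592839859299733627306204889750197922750275298654687330304)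 (nat_lit 54918381303421571333730218684158387868709331249942219528251963649539941374610984882925466289370258259592839859299733627306204889750197922750275298654687330304) c10_s130) (B (M (nat_lit 299) (B (M (nat_lit 396) (B (L (nat_lit 267) ln11_8_4 ln11_8_4_ok) (M (nat_lit 428) (B (L (nat_lit 460) ln12_14_7 ln12_14_7_ok) (L (nat_lit 395) ln11_9_4 ln11_9_4_ok))))) (B (M (nat_lit 267) (B (L (nat_lit 396) ln11_8_4 ln11_8_4_ok) (M (nat_lit 234) (B (L (nat_lit 266) ln11_11_7 ln11_11_7_ok) (M (nat_lit 236) (B (L (nat_lit 268) ln11_11_6 ln11_11_6_ok) (M (nat_lit 235) (B (L (nat_lit 202) ln11_10_7 ln11_10_7_ok) (L (nat_lit 204) ln11_10_6 ln11_10_6_ok))))))))) (B (M (nat_lit 266) (B (M (nat_lit 234) (B (L (nat_lit 267) ln11_11_7 ln11_11_7_ok) (M (nat_lit 298) (B (L (nat_lit 330) ln10_7_4 ln10_7_4_ok) (L (nat_lit 395) ln11_12_7 ln11_12_7_ok))))) (B (M (nat_lit 300) (B (M (nat_lit 395) (B (L (nat_lit 298)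 ln11_12_7 ln11_12_7_ok) (L (nat_lit 268) ln11_12_6 ln11_12_6_ok))) (B (M (nat_lit 268) (B (L (nat_lit 395) ln11_12_6 ln11_12_6_ok) (M (nat_lit 236) (B (L (nat_lit 267) ln11_11_6 ln11_11_6_ok) (L (nat_lit 204) ln12_6_5_c10 ln12_6_5_c10_ok))))) (B (M (nat_lit 301) (B (M (nat_lit 302) (B (L (nat_lit 267) ln14_9_3 ln14_9_3_ok) (L (nat_lit 330) ln14_9_1_c10 ln14_9_1_c10_ok))) (B (M (nat_lit 265) (B (L (nat_lit 298) ln13_9_3 ln13_9_3_ok) (M (nat_lit 267) (B (L (nat_lit 264) ln8_8_0_c10 ln8_8_0_c10_ok) (L (nat_lit 302) ln14_9_3 ln14_9_3_ok))))) (B (M (nat_lit 298) (B (L (nat_lit 265) ln13_9_3 ln13_9_3_ok) (M (nat_lit 330) (B (L (nat_lit 329) ln13_9_1 ln13_9_1_ok) (L (nat_lit 302) ln14_9_1_c10 ln14_9_1_c10_ok))))) (M (nat_lit 265) (B (L (nat_lit 298) ln13_9_3 ln13_9_3_ok) (M (nat_lit 267) (B (L (nat_lit 264) ln8_8_0_c10 ln8_8_0_c10_ok) (L (nat_lit 268) ln9_8_0_c10 ln9_8_0_c10_ok))))))))) (M (nat_lit 301)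 (B (M (nat_lit 298) (B (L (nat_lit 265) ln13_9_3 ln13_9_3_ok) (L (nat_lit 395) ln11_12_7 ln11_12_7_ok))) (M (nat_lit 302) (B (L (nat_lit 267) ln14_9_3 ln14_9_3_ok) (L (nat_lit 330) ln14_9_1_c10 ln14_9_1_c10_ok))))))))) (B (M (nat_lit 267) (B (L (nat_lit 234) ln11_11_7 ln11_11_7_ok) (M (nat_lit 268) (B (L (nat_lit 236) ln11_11_6 ln11_11_6_ok) (M (nat_lit 300) (B (L (nat_lit 395) ln11_12_6 ln11_12_6_ok) (M (nat_lit 301) (B (L (nat_lit 265) ln9_8_0_c10 ln9_8_0_c10_ok) (L (nat_lit 302) ln14_9_3 ln14_9_3_ok))))))))) (B (M (nat_lit 298) (B (L (nat_lit 395) ln11_12_7 ln11_12_7_ok) (M (nat_lit 234) (B (L (nat_lit 202) ln10_6_4_c10 ln10_6_4_c10_ok) (L (nat_lit 330) ln10_7_4 ln10_7_4_ok))))) (M (nat_lit 234) (B (L (nat_lit 267) ln11_11_7 ln11_11_7_ok) (M (nat_lit 298) (B (L (nat_lit 202) ln10_6_4_c10 ln10_6_4_c10_ok) (L (nat_lit 330) ln10_7_4 ln10_7_4_ok)))))))))) (M (nat_lit 395) (B (M (nat_lit 300) (B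 (L (nat_lit 268) ln11_12_6 ln11_12_6_ok) (M (nat_lit 298) (B (L (nat_lit 266) ln11_12_7 ln11_12_7_ok) (M (nat_lit 330) (B (L (nat_lit 427) ln11_13_7 ln11_13_7_ok) (M (nat_lit 329) (B (L (nat_lit 328) ln8_10_0 ln8_10_0_ok) (L (nat_lit 301) ln13_9_1 ln13_9_1_ok))))))))) (B (M (nat_lit 427) (B (M (nat_lit 428) (B (L (nat_lit 396) ln11_9_4 ln11_9_4_ok) (L (nat_lit 460) ln11_10_4 ln11_10_4_ok))) (B (M (nat_lit 459) (B (M (nat_lit 460) (B (L (nat_lit 428) ln11_10_4 ln11_10_4_ok) (L (nat_lit 492) ln11_11_4 ln11_11_4_ok))) (M (nat_lit 458) (B (L (nat_lit 426) ln11_10_5 ln11_10_5_ok) (L (nat_lit 490) ln11_11_5 ln11_11_5_ok))))) (B (M (nat_lit 459) (B (M (nat_lit 458) (B (L (nat_lit 426) ln11_10_5 ln11_10_5_ok) (L (nat_lit 490) ln11_11_5 ln11_11_5_ok))) (M (nat_lit 492) (B (L (nat_lit 460) ln11_11_4 ln11_11_4_ok) (M (nat_lit 491) (B (L (nat_lit 396) ln11_15_6 ln11_15_6_ok) (L (nat_lit 524) ln11_12_4 ln11_12_4_ok)))))))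 (M (nat_lit 459) (B (M (nat_lit 396) (B (L (nat_lit 428) ln11_9_4 ln11_9_4_ok) (L (nat_lit 491) ln11_15_6 ln11_15_6_ok))) (M (nat_lit 458) (B (L (nat_lit 426) ln11_10_5 ln11_10_5_ok) (L (nat_lit 490) ln11_11_5 ln11_11_5_ok))))))))) (M (nat_lit 298) (B (L (nat_lit 266) ln11_12_7 ln11_12_7_ok) (M (nat_lit 300) (B (L (nat_lit 268) ln11_12_6 ln11_12_6_ok) (M (nat_lit 301) (B (M (nat_lit 330) (B (L (nat_lit 302) ln14_9_1_c10 ln14_9_1_c10_ok) (L (nat_lit 329) ln13_9_1 ln13_9_1_ok))) (B (M (nat_lit 297) (B (M (nat_lit 329) (B (L (nat_lit 330) ln13_9_1 ln13_9_1_ok) (L (nat_lit 328) ln12_9_1 ln12_9_1_ok))) (B (M (nat_lit 296) (B (M (nat_lit 264) (B (L (nat_lit 265) ln12_9_3 ln12_9_3_ok) (L (nat_lit 263) ln11_9_3 ln11_9_3_ok))) (M (nat_lit 328) (B (L (nat_lit 329) ln12_9_1 ln12_9_1_ok) (L (nat_lit 327) ln11_9_1 ln11_9_1_ok))))) (B (M (nat_lit 296) (B (M (nat_lit 264) (B (L (nat_lit 265) ln12_9_3 ln12_9_3_ok)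 (L (nat_lit 263) ln11_9_3 ln11_9_3_ok))) (M (nat_lit 295) (B (L (nat_lit 330) ln7_9_0_c10 ln7_9_0_c10_ok) (M (nat_lit 327) (B (L (nat_lit 328) ln11_9_1 ln11_9_1_ok) (L (nat_lit 326) ln10_9_1_c10 ln10_9_1_c10_ok))))))) (M (nat_lit 296) (B (M (nat_lit 264) (B (L (nat_lit 265) ln12_9_3 ln12_9_3_ok) (L (nat_lit 263) ln11_9_3 ln11_9_3_ok))) (M (nat_lit 330) (B (L (nat_lit 329) ln13_9_1 ln13_9_1_ok) (L (nat_lit 295) ln7_9_0_c10 ln7_9_0_c10_ok))))))))) (M (nat_lit 302) (B (M (nat_lit 270) (B (L (nat_lit 271) ln11_9_2 ln11_9_2_ok) (L (nat_lit 269) ln10_9_2 ln10_9_2_ok))) (M (nat_lit 334) (B (L (nat_lit 335) ln11_9_0_c10 ln11_9_0_c10_ok) (L (nat_lit 333) ln10_9_0 ln10_9_0_ok))))))))))))))))))) (M (nat_lit 330) (B (M (nat_lit 329) (B (L (nat_lit 362) ln13_11_3 ln13_11_3_ok) (L (nat_lit 328) ln8_10_0 ln8_10_0_ok))) (L (nat_lit 366) ln14_11_3 ln14_11_3_ok)))))) (B (M (nat_lit 364) c10_d298) c10_d304))))))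
theorem c10_s164 : Sem (nat_lit 5954262830815946494440468064101681940807525207584307311385449480368064140488599236619261537828426693130420703785776095047607990577375739904) (nat_lit 54918381663047004414143450848453445952067668943940909826377510809319811464890515557988458754751297367558196863085043271118742558080238739559427860777207332864) (nat_lit 54918381663047004414143450848453445952067668943940909826377510809319811464890515557988458754751297367558196863085043271118742558080238739559427860777207332864) :=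
  sem_of_chk (M (nat_lit 331) (B (M (nat_lit 299) c10_d287) c10_d305)) (nat_lit 5954262830815946494440468064101681940807525207584307311385449480368064140488599236619261537828426693130420703785776095047607990577375739904) (nat_lit 54918381663047004414143450848453445952067668943940909826377510809319811464890515557988458754751297367558196863085043271118742558080238739559427860777207332864) (nat_lit 54918381663047004414143450848453445952067668943940909826377510809319811464890515557988458754751297367558196863085043271118742558080238739559427860777207332864) (by decide +kernel)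
noncomputable def c10_d306 : Cert := (B (M (nat_lit 362) (B (M (nat_lit 457) (B (L (nat_lit 330) ln10_10_5 ln10_10_5_ok) (L (nat_lit 489) ln10_11_5 ln10_11_5_ok))) (B (M (nat_lit 330) (B (M (nat_lit 297) (B (L (nat_lit 329) ln10_13_7_c10 ln10_13_7_c10_ok) (M (nat_lit 298) (B (L (nat_lit 265) ln10_12_7_c10 ln10_12_7_c10_ok) (L (nat_lit 393) ln10_9_5_c10 ln10_9_5_c10_ok))))) (B (M (nat_lit 298) (B (L (nat_lit 393) ln10_9_5_c10 ln10_9_5_c10_ok) (M (nat_lit 299) (B (L (nat_lit 267) ln10_12_6_c10 ln10_12_6_c10_ok) (L (nat_lit 331) ln10_13_6 ln10_13_6_ok))))) (B (M (nat_lit 298) (B (M (nat_lit 297) (B (L (nat_lit 265) ln10_12_7_c10 ln10_12_7_c10_ok) (L (nat_lit 329) ln10_13_7_c10 ln10_13_7_c10_ok))) (M (nat_lit 299) (B (L (nat_lit 267) ln10_12_6_c10 ln10_12_6_c10_ok) (L (nat_lit 331) ln10_13_6 ln10_13_6_ok))))) (M (nat_lit 329) (B (L (nat_lit 297) ln10_13_7_c10 ln10_13_7_c10_ok) (L (nat_lit 361) ln10_14_7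 ln10_14_7_ok))))))) (M (nat_lit 490) (B (M (nat_lit 361) (B (L (nat_lit 329) ln10_14_7 ln10_14_7_ok) (L (nat_lit 393) ln10_15_7 ln10_15_7_ok))) (M (nat_lit 489) (B (L (nat_lit 457) ln10_11_5 ln10_11_5_ok) (L (nat_lit 521) ln10_12_5 ln10_12_5_ok)))))))) (B (M (nat_lit 362) (B (M (nat_lit 457) (B (L (nat_lit 330) ln10_10_5 ln10_10_5_ok) (L (nat_lit 489) ln10_11_5 ln10_11_5_ok))) (B (M (nat_lit 330) (B (M (nat_lit 298) (B (L (nat_lit 393) ln10_9_5_c10 ln10_9_5_c10_ok) (M (nat_lit 297) (B (L (nat_lit 265) ln10_12_7_c10 ln10_12_7_c10_ok) (L (nat_lit 329) ln10_13_7_c10 ln10_13_7_c10_ok))))) (B (M (nat_lit 298) (B (L (nat_lit 393) ln10_9_5_c10 ln10_9_5_c10_ok) (M (nat_lit 299) (B (L (nat_lit 267) ln10_12_6_c10 ln10_12_6_c10_ok) (L (nat_lit 331) ln10_13_6 ln10_13_6_ok))))) (M (nat_lit 329) (B (L (nat_lit 297) ln10_13_7_c10 ln10_13_7_c10_ok) (L (nat_lit 361) ln10_14_7 ln10_14_7_ok)))))) (M (nat_lit 361)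 (B (L (nat_lit 329) ln10_14_7 ln10_14_7_ok) (M (nat_lit 360) (B (M (nat_lit 395) (B (L (nat_lit 359) ln7_11_0 ln7_11_0_ok) (L (nat_lit 396) ln13_12_1 ln13_12_1_ok))) (M (nat_lit 457) (B (M (nat_lit 393) (B (L (nat_lit 328) ln9_14_7_c10 ln9_14_7_c10_ok) (L (nat_lit 489) ln10_11_5 ln10_11_5_ok))) (B (L (nat_lit 489) ln10_11_5 ln10_11_5_ok) (M (nat_lit 363) (B (M (nat_lit 328) (B (L (nat_lit 327) ln11_11_3 ln11_11_3_ok) (L (nat_lit 393) ln9_14_7_c10 ln9_14_7_c10_ok))) (L (nat_lit 331) ln10_14_6 ln10_14_6_ok))))))))))))) (B (K (nat_lit 21584202758328614853000082511097990957069816092741368555548397708368367948862273840480321538611056628315198064110864201916563382792483766272) (nat_lit 6864797664925615488639406293322877290213166362617244047640099434836855068090114381418774266393002424797489091480410875270444017638570184387044687489856962560) (nat_lit 6864797664925615488639406293322877290213166362617244047640099434836855068090114381418774266393002424797489091480410875270444017638570184387044687489856962560)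 c10_s174) (B (K (nat_lit 21584202758328614853000082511097990957069816092741368555548397708368367948862273840480321538611056628315198064110864201916563382792483766272) (nat_lit 147420407267645042704038340629432216729122982892963386991076975762860682532354244128370495960805031604414143124765516075334333846359459607210024318831160180152194826240) (nat_lit 147420407267645042704038340629432216729122982892963386991076975762860682532354244128370495960805031604414143124765516075334333846359459607210024318831160180152194826240) c10_s175) (B (K (nat_lit 21584202758328614853000082511097990957069816092741368555548397708368367948862273840480321538611056628315198064110864201916563382792483766272) (nat_lit 3196670515895717471774106291370325222620872282627918220536517642437071305046407863005909249943580129043124915831338256006388484259047031246069694464) (nat_lit 3196670515895717471774106291370325222620872282627918220536517642437071305046407863005909249943580129043124915831338256006388484259047031246069694464)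 c10_s176) (B (K (nat_lit 21584202758328614853000082511097990957069816092741368555548397708368367948862273840480321538611056628315198064110864201916563382792483766272) (nat_lit 126633165760618091594458917094871992255361168889520338997950379576864812826054941610401031783337105506577755411718442228755121372738875473049168333509619162244106504240002760704) (nat_lit 126633165760618091594458917094871992255361168889520338997950379576864812826054941610401031783337105506577755411718442228755121372738875473049168333509619162244106504240002760704) c10_s178) (B (K (nat_lit 21584202758328614853000082511097990957069816092741368555548397708368367948862273840480321538611056628315198064110864201916563382792483766272) (nat_lit 147420407267645042704038340629060075302283632165002133201457105781940370573681584568533157142600077009256824529516088705503700453263951353554897041406244124413954883584) (nat_lit 147420407267645042704038340629060075302283632165002133201457105781940370573681584568533157142600077009256824529516088705503700453263951353554897041406244124413954883584)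 c10_s179) (B (M (nat_lit 490) (B (M (nat_lit 393) (B (L (nat_lit 522) ln10_16_7 ln10_16_7_ok) (L (nat_lit 361) ln10_15_7 ln10_15_7_ok))) (M (nat_lit 362) (B (M (nat_lit 489) (B (L (nat_lit 521) ln10_12_5 ln10_12_5_ok) (L (nat_lit 457) ln10_11_5 ln10_11_5_ok))) (M (nat_lit 363) (B (L (nat_lit 395) ln10_15_6 ln10_15_6_ok) (L (nat_lit 331) ln10_14_6 ln10_14_6_ok))))))) (B (K (nat_lit 21584202758328614853000082511097990957069816092741368555548397708368367948862273840480321538611056628315198064110864201916563382792483766272) (nat_lit 117936325823726750889651195465461366018834535858459946144401955297694948515209049547280836410075353838255345946589841403246625288359545105288491721422126365200730816512) (nat_lit 117936325823726750889651195465461366018834535858459946144401955297694948515209049547280836410075353838255345946589841403246625288359545105288491721422126365200730816512) c10_s180) (K (nat_lit 21584202758328614853000082511097990957069816092741368555548397708368367948862273840480321538611056628315198064110864201916563382792483766272)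 (nat_lit 20594392985986002547809725651550368214408633868016953059010474721871167070265878583653141206319290893636788044646665599645035674975908032712764168146786451456) (nat_lit 20594392985986002547809725651550368214408633868016953059010474721871167070265878583653141206319290893636788044646665599645035674975908032712764168146786451456) c10_s181))))))))))
theorem c10_s182 : Sem (nat_lit 20839919904649913397037227277475566367178313602335007801283750091394436700446175314548354283586149593514889033341045482096437963662708178944) (nat_lit 126633165760618091594458917095671159886800535210621147855596411318717348825432262284367994573982915108664366075440069278117511244570443879541203828402964207251484884079327838208) (nat_lit 126633165760618091594458917095671159886800535210621147855596411318717348825432262284367994573982915108664366075440069278117511244570443879541203828402964207251484884079327838208)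 :=
  sem_of_chk (M (nat_lit 458) (B (L (nat_lit 459) ln13_14_3 ln13_14_3_ok) (M (nat_lit 394) c10_d306))) (nat_lit 20839919904649913397037227277475566367178313602335007801283750091394436700446175314548354283586149593514889033341045482096437963662708178944) (nat_lit 126633165760618091594458917095671159886800535210621147855596411318717348825432262284367994573982915108664366075440069278117511244570443879541203828402964207251484884079327838208) (nat_lit 126633165760618091594458917095671159886800535210621147855596411318717348825432262284367994573982915108664366075440069278117511244570443879541203828402964207251484884079327838208) (by decide +kernel)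

end Vale.Agent.Lib.P062.Data
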