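import Vale.Agent.Lib.P062.Data.c10_lines
import Vale.Agent.Lib.P062.Data.c10_l0_0
import Vale.Agent.Lib.P062.Data.c10_l0_1
import Vale.Agent.Lib.P062.Data.c10_l0_2
import Vale.Agent.Lib.P062.Data.c10_l0_3
import Vale.Agent.Lib.P062.Data.c10_l1_0
import Vale.Agent.Lib.P062.Data.c10_l1_1
import Vale.Agent.Lib.P062.Data.c10_l1_3
import Vale.Agent.Lib.P062.Data.c10_l1_4
import Vale.Agent.Lib.P062.Data.c10_l2_0
import Vale.Agent.Lib.P062.Data.c10_l2_1
import Vale.Agent.Lib.P062.Data.c10_l2_2
import Vale.Agent.Lib.P062.Data.c10_l2_3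

namespace Vale.Agent.Lib.P062.Data
noncomputable def c10_d430 : Cert := (B (M (nat_lit 459) (B (K (nat_lit 7442828538519933118171628043138940840321789388389130514873123439225193202285603004404846869852250707160144421232589589674220262377622863872) (nat_lit 235872651653460199734713761133312789452362613053429118413065292675754203129780625473981930386352905803246864971073552544336863677742658576718234465079047932634382467072) (nat_lit 235872651653460199734713761133312789452362613053429118413065292675754203129780625473981930386352905803246864971073552544336863677742658576718234465079047932634382467072) c10_s19) (B (K (nat_lit 7442828538519933118171628043138940840321789388389130514873123439225193202285603004404846869852250707160144421232589589674220262377622863872) (nat_lit 17161994156520073412677210936267765715554721937632079641876465580476105177654348910250925651885830371482037890550303029466367075399602266019188571468174721024) (nat_lit 17161994156520073412677210936267765715554721937632079641876465580476105177654348910250925651885830371482037890550303029466367075399602266019188571468174721024)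 c10_s20) (B (K (nat_lit 7442828538519933118171628043138940840321789388389130514873123439225193202285603004404846869852250707160144421232589589674220262377622863872) (nat_lit 8790843918992329118353103144586075173201169876637794456835504488003402036253339727759064858427369019573851016118988294125658320177409197478850330624) (nat_lit 8790843918992329118353103144586075173201169876637794456835504488003402036253339727759064858427369019573851016118988294125658320177409197478850330624) c10_s21) (M (nat_lit 491) (B (L (nat_lit 362) ln11_15_7 ln11_15_7_ok) (M (nat_lit 524) (B (L (nat_lit 492) ln11_12_4 ln11_12_4_ok) (M (nat_lit 522) (B (L (nat_lit 490) ln11_12_5 ln11_12_5_ok) (M (nat_lit 523) (B (L (nat_lit 556) ln11_13_4 ln11_13_4_ok) (L (nat_lit 554) ln11_13_5 ln11_13_5_ok))))))))))))) (B (M (nat_lit 362) (B (M (nat_lit 393) (B (M (nat_lit 459) (B (M (nat_lit 425) (B (M (nat_lit 457) (B (M (nat_lit 458) (B (L (nat_lit 490) ln11_11_5 ln11_11_5_ok) (M (nat_lit 456) (B (L (nat_lit 428)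 ln8_14_2 ln8_14_2_ok) (M (nat_lit 455) (B (M (nat_lit 423) (B (L (nat_lit 422) ln10_14_3 ln10_14_3_ok) (L (nat_lit 424) ln11_14_3 ln11_14_3_ok))) (M (nat_lit 487) (B (L (nat_lit 486) ln10_14_1_c10 ln10_14_1_c10_ok) (L (nat_lit 488) ln11_14_1 ln11_14_1_ok))))))))) (L (nat_lit 489) ln9_15_6 ln9_15_6_ok))) (B (M (nat_lit 361) (B (M (nat_lit 360) (B (L (nat_lit 359) ln7_11_0 ln7_11_0_ok) (L (nat_lit 396) ln8_11_0 ln8_11_0_ok))) (B (M (nat_lit 396) (B (L (nat_lit 360) ln8_11_0 ln8_11_0_ok) (L (nat_lit 424) ln12_12_1 ln12_12_1_ok))) (B (M (nat_lit 456) (B (M (nat_lit 424) (B (L (nat_lit 329) ln9_10_5_c10 ln9_10_5_c10_ok) (L (nat_lit 396) ln12_12_1 ln12_12_1_ok))) (M (nat_lit 457) (B (L (nat_lit 488) ln9_11_5_c10 ln9_11_5_c10_ok) (L (nat_lit 489) ln9_15_6 ln9_15_6_ok))))) (M (nat_lit 360) (B (L (nat_lit 359) ln7_11_0 ln7_11_0_ok) (M (nat_lit 457) (B (L (nat_lit 328) ln9_14_7_c10 ln9_14_7_c10_ok) (L (nat_lit 489) ln9_15_6 ln9_15_6_ok))))))))) (B (M (nat_lit 457) (B (M (nat_lit 458)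 (B (M (nat_lit 428) (B (L (nat_lit 396) ln9_12_0 ln9_12_0_ok) (L (nat_lit 456) ln8_14_2 ln8_14_2_ok))) (L (nat_lit 490) ln11_11_5 ln11_11_5_ok))) (L (nat_lit 489) ln9_15_6 ln9_15_6_ok))) (M (nat_lit 396) (B (L (nat_lit 428) ln9_12_0 ln9_12_0_ok) (L (nat_lit 424) ln12_12_1 ln12_12_1_ok))))))) (L (nat_lit 491) ln11_15_7 ln11_15_7_ok))) (B (M (nat_lit 392) (B (L (nat_lit 391) ln7_12_2_c10 ln7_12_2_c10_ok) (M (nat_lit 360) (B (L (nat_lit 359) ln11_12_3 ln11_12_3_ok) (M (nat_lit 396) (B (L (nat_lit 361) ln8_11_0 ln8_11_0_ok) (M (nat_lit 424) (B (L (nat_lit 425) ln12_12_1 ln12_12_1_ok) (L (nat_lit 423) ln11_12_1 ln11_12_1_ok))))))))) (M (nat_lit 392) (B (L (nat_lit 391) ln7_12_2_c10 ln7_12_2_c10_ok) (L (nat_lit 428) ln8_12_0 ln8_12_0_ok)))))) (B (M (nat_lit 331) (B (M (nat_lit 299) (B (L (nat_lit 267) ln11_8_5 ln11_8_5_ok) (M (nat_lit 298) (B (L (nat_lit 266) ln11_12_7 ln11_12_7_ok) (L (nat_lit 330) ln10_9_4 ln10_9_4_ok))))) (B (M (nat_lit 299) (B (L (nat_lit 267) ln11_8_5 ln11_8_5_ok)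 (M (nat_lit 300) (B (L (nat_lit 268) ln11_12_6 ln11_12_6_ok) (L (nat_lit 332) ln11_13_6 ln11_13_6_ok))))) (B (M (nat_lit 298) (B (L (nat_lit 330) ln10_9_4 ln10_9_4_ok) (M (nat_lit 299) (B (L (nat_lit 266) ln11_12_7 ln11_12_7_ok) (M (nat_lit 300) (B (L (nat_lit 268) ln11_12_6 ln11_12_6_ok) (L (nat_lit 332) ln11_13_6 ln11_13_6_ok))))))) (M (nat_lit 330) (B (L (nat_lit 298) ln10_9_4 ln10_9_4_ok) (M (nat_lit 332) (B (L (nat_lit 300) ln11_13_6 ln11_13_6_ok) (M (nat_lit 333) (B (L (nat_lit 361) ln13_10_1 ln13_10_1_ok) (L (nat_lit 334) ln14_10_1 ln14_10_1_ok))))))))))) (M (nat_lit 459) (B (L (nat_lit 330) ln11_14_7 ln11_14_7_ok) (L (nat_lit 491) ln11_15_7 ln11_15_7_ok)))))) (M (nat_lit 331) (B (M (nat_lit 299) (B (M (nat_lit 267) (B (L (nat_lit 362) ln11_8_5 ln11_8_5_ok) (M (nat_lit 268) (B (L (nat_lit 300) ln11_12_6 ln11_12_6_ok) (L (nat_lit 236) ln11_11_6 ln11_11_6_ok))))) (B (M (nat_lit 267) (B (L (nat_lit 362) ln11_8_5 ln11_8_5_ok) (M (nat_lit 266) (B (L (nat_lit 298) ln11_12_7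 ln11_12_7_ok) (L (nat_lit 234) ln11_11_7 ln11_11_7_ok))))) (M (nat_lit 300) (B (L (nat_lit 268) ln11_12_6 ln11_12_6_ok) (L (nat_lit 332) ln11_13_6 ln11_13_6_ok)))))) (B (M (nat_lit 330) (B (L (nat_lit 298) ln11_13_7 ln11_13_7_ok) (M (nat_lit 332) (B (L (nat_lit 300) ln11_13_6 ln11_13_6_ok) (M (nat_lit 333) (B (L (nat_lit 366) ln10_10_0 ln10_10_0_ok) (M (nat_lit 334) (B (L (nat_lit 362) ln14_10_1 ln14_10_1_ok) (M (nat_lit 302) (B (L (nat_lit 301) ln10_10_2 ln10_10_2_ok) (L (nat_lit 303) ln11_10_2 ln11_10_2_ok))))))))))) (B (M (nat_lit 299) (B (M (nat_lit 298) (B (L (nat_lit 266) ln11_12_7 ln11_12_7_ok) (L (nat_lit 330) ln11_13_7 ln11_13_7_ok))) (B (M (nat_lit 362) (B (L (nat_lit 267) ln11_8_5 ln11_8_5_ok) (M (nat_lit 330) (B (L (nat_lit 298) ln10_9_4 ln10_9_4_ok) (L (nat_lit 459) ln11_14_7 ln11_14_7_ok))))) (B (M (nat_lit 362) (B (L (nat_lit 267) ln11_8_5 ln11_8_5_ok) (M (nat_lit 459) (B (L (nat_lit 330) ln11_14_7 ln11_14_7_ok) (L (nat_lit 491) ln11_15_7 ln11_15_7_ok)))))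 (M (nat_lit 267) (B (L (nat_lit 362) ln11_8_5 ln11_8_5_ok) (M (nat_lit 266) (B (L (nat_lit 234) ln11_11_7 ln11_11_7_ok) (L (nat_lit 298) ln11_12_7 ln11_12_7_ok))))))))) (B (M (nat_lit 300) (B (L (nat_lit 332) ln11_13_6 ln11_13_6_ok) (M (nat_lit 362) (B (M (nat_lit 459) (B (L (nat_lit 491) ln11_15_7 ln11_15_7_ok) (L (nat_lit 330) ln11_14_7 ln11_14_7_ok))) (M (nat_lit 299) (B (L (nat_lit 268) ln11_12_6 ln11_12_6_ok) (L (nat_lit 267) ln11_8_5 ln11_8_5_ok))))))) (M (nat_lit 299) (B (M (nat_lit 300) (B (L (nat_lit 268) ln11_12_6 ln11_12_6_ok) (L (nat_lit 332) ln11_13_6 ln11_13_6_ok))) (M (nat_lit 298) (B (L (nat_lit 266) ln11_12_7 ln11_12_7_ok) (L (nat_lit 330) ln11_13_7 ln11_13_7_ok))))))))))))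
noncomputable def c10_d431 : Cert := (B (M (nat_lit 392) (B (K (nat_lit 11164242806956763361724542930949954360387412368405372498011588490284763320381227860305654526517742114202174164724156242151434631932433924096) (nat_lit 93035356731499163983197498696727525058658545547361644095188976126280246276866107320735263314799411062846370033071415276228553066479091712) (nat_lit 93035356731499163983197498696727525058658545547361644095188976126280246276866107320735263314799411062846370033071415276228553066479091712) c10_s22) (B (K (nat_lit 11164242806956763361724542930949954360387412368405372498011588490284763320381227860305654526517742114202174164724156242151434631932433924096) (nat_lit 29484081455931687722412798866551412218247447479740561885909981978797913299634193703402702097694462052690104947692031133513562022619654907530628960950176611365751357440) (nat_lit 29484081455931687722412798866551412218247447479740561885909981978797913299634193703402702097694462052690104947692031133513562022619654907530628960950176611365751357440)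 c10_s24) (B (K (nat_lit 11164242806956763361724542930949954360387412368405372498011588490284763320381227860305654526517742114202174164724156242151434631932433924096) (nat_lit 29484081455931687722412798866551412218236616738577685786096329648193307058248826150709994711452061616176584955913077011183948321620539532625728371168170558207649906688) (nat_lit 29484081455931687722412798866551412218236616738577685786096329648193307058248826150709994711452061616176584955913077011183948321620539532625728371168170558207649906688) c10_s25) (B (K (nat_lit 11164242806956763361724542930949954360387412368405372498011588490284763320381227860305654526517742114202174164724156242151434631932433924096) (nat_lit 1716199416231403872345922286858702096475643186302988914207387572381091366067402048496606145512414661989426235653587145074187718963891747458074240796097249280) (nat_lit 1716199416231403872345922286858702096475643186302988914207387572381091366067402048496606145512414661989426235653587145074187718963891747458074240796097249280)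 c10_s26) (B (K (nat_lit 11164242806956763361724542930949954360387412368405372498011588490284763320381227860305654526517742114202174164724156242151434631932433924096) (nat_lit 399583814719553075854664901336277243787485659384050487143291783829043656423411120296633519536034850341166109367470915559467883438781330102536896512) (nat_lit 399583814719553075854664901336277243787485659384050487143291783829043656423411120296633519536034850341166109367470915559467883438781330102536896512) c10_s27) (B (M (nat_lit 327) (B (M (nat_lit 295) (B (L (nat_lit 328) ln8_13_7_c10 ln8_13_7_c10_ok) (M (nat_lit 359) (B (L (nat_lit 391) ln7_9_4_c10 ln7_9_4_c10_ok) (L (nat_lit 456) ln8_14_7_c10 ln8_14_7_c10_ok))))) (B (M (nat_lit 361) (B (M (nat_lit 456) (B (L (nat_lit 359) ln8_14_7_c10 ln8_14_7_c10_ok) (L (nat_lit 329) ln8_14_6_c10 ln8_14_6_c10_ok))) (B (M (nat_lit 329) (B (L (nat_lit 456) ln8_14_6_c10 ln8_14_6_c10_ok) (M (nat_lit 297) (B (L (nat_lit 328) ln8_13_6_c10 ln8_13_6_c10_ok) (L (nat_lit 265)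 ln9_8_5_c10 ln9_8_5_c10_ok))))) (M (nat_lit 362) (B (L (nat_lit 328) ln11_11_3 ln11_11_3_ok) (M (nat_lit 359) (B (L (nat_lit 326) ln10_11_3 ln10_11_3_ok) (L (nat_lit 391) ln11_11_1 ln11_11_1_ok)))))))) (B (M (nat_lit 328) (B (L (nat_lit 295) ln8_13_7_c10 ln8_13_7_c10_ok) (M (nat_lit 329) (B (L (nat_lit 297) ln8_13_6_c10 ln8_13_6_c10_ok) (M (nat_lit 361) (B (L (nat_lit 456) ln8_14_6_c10 ln8_14_6_c10_ok) (L (nat_lit 362) ln11_11_3 ln11_11_3_ok))))))) (B (M (nat_lit 359) (B (L (nat_lit 456) ln8_14_7_c10 ln8_14_7_c10_ok) (M (nat_lit 295) (B (L (nat_lit 263) ln7_8_4_c10 ln7_8_4_c10_ok) (L (nat_lit 391) ln7_9_4_c10 ln7_9_4_c10_ok))))) (M (nat_lit 295) (B (L (nat_lit 328) ln8_13_7_c10 ln8_13_7_c10_ok) (M (nat_lit 359) (B (L (nat_lit 263) ln7_8_4_c10 ln7_8_4_c10_ok) (L (nat_lit 391) ln7_9_4_c10 ln7_9_4_c10_ok)))))))))) (K (nat_lit 11164242806956763361724542930949954360387412368405372498011588490284763320381227860305654526517742114202174164724156242151434631932433924096) (nat_lit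 399583814719553075768018973374827952249583428899004909378393250550681476405333299736541914362880013689073669503001151342247518446186654021124620288) (nat_lit 399583814719553075768018973374827952249583428899004909378393250550681476405333299736541914362880013689073669503001151342247518446186654021124620288) c10_s28)))))))) (B (M (nat_lit 330) (B (L (nat_lit 362) ln11_14_7 ln11_14_7_ok) (M (nat_lit 331) (B (L (nat_lit 298) ln11_13_7 ln11_13_7_ok) (M (nat_lit 300) (B (L (nat_lit 332) ln11_13_6 ln11_13_6_ok) (M (nat_lit 299) (B (L (nat_lit 268) ln11_12_6 ln11_12_6_ok) (M (nat_lit 328) (B (L (nat_lit 329) ln8_10_2_c10 ln8_10_2_c10_ok) (M (nat_lit 301) (B (L (nat_lit 302) ln14_9_1_c10 ln14_9_1_c10_ok) (M (nat_lit 392) (B (M (nat_lit 296) (B (M (nat_lit 264) (B (M (nat_lit 391) (B (L (nat_lit 423) ln8_9_5_c10 ln8_9_5_c10_ok) (L (nat_lit 359) ln8_8_5_c10 ln8_8_5_c10_ok))) (M (nat_lit 265) (B (L (nat_lit 297) ln8_12_6_c10 ln8_12_6_c10_ok) (L (nat_lit 233) ln8_11_6_c10 ln8_11_6_c10_ok)))))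 (B (M (nat_lit 263) (B (L (nat_lit 295) ln8_12_7_c10 ln8_12_7_c10_ok) (M (nat_lit 264) (B (L (nat_lit 231) ln8_11_7_c10 ln8_11_7_c10_ok) (M (nat_lit 265) (B (L (nat_lit 297) ln8_12_6_c10 ln8_12_6_c10_ok) (L (nat_lit 233) ln8_11_6_c10 ln8_11_6_c10_ok))))))) (B (M (nat_lit 264) (B (M (nat_lit 391) (B (L (nat_lit 423) ln8_9_5_c10 ln8_9_5_c10_ok) (L (nat_lit 359) ln8_8_5_c10 ln8_8_5_c10_ok))) (M (nat_lit 263) (B (L (nat_lit 295) ln8_12_7_c10 ln8_12_7_c10_ok) (L (nat_lit 231) ln8_11_7_c10 ln8_11_7_c10_ok))))) (M (nat_lit 423) (B (L (nat_lit 455) ln8_10_5_c10 ln8_10_5_c10_ok) (L (nat_lit 391) ln8_9_5_c10 ln8_9_5_c10_ok))))))) (B (M (nat_lit 296) (B (M (nat_lit 264) (B (M (nat_lit 263) (B (L (nat_lit 231) ln8_11_7_c10 ln8_11_7_c10_ok) (L (nat_lit 295) ln8_12_7_c10 ln8_12_7_c10_ok))) (M (nat_lit 391) (B (L (nat_lit 359) ln8_8_5_c10 ln8_8_5_c10_ok) (L (nat_lit 423) ln8_9_5_c10 ln8_9_5_c10_ok))))) (B (M (nat_lit 295) (B (L (nat_lit 263) ln8_12_7_c10 ln8_12_7_c10_ok) (L (nat_lit 327)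 ln8_13_7_c10 ln8_13_7_c10_ok))) (M (nat_lit 423) (B (L (nat_lit 391) ln8_9_5_c10 ln8_9_5_c10_ok) (L (nat_lit 455) ln8_10_5_c10 ln8_10_5_c10_ok)))))) (B (M (nat_lit 456) (B (M (nat_lit 327) (B (L (nat_lit 295) ln8_13_7_c10 ln8_13_7_c10_ok) (L (nat_lit 359) ln8_14_7_c10 ln8_14_7_c10_ok))) (M (nat_lit 455) (B (L (nat_lit 423) ln8_10_5_c10 ln8_10_5_c10_ok) (L (nat_lit 487) ln8_11_5_c10 ln8_11_5_c10_ok))))) (B (M (nat_lit 296) (B (M (nat_lit 423) (B (L (nat_lit 455) ln8_10_5_c10 ln8_10_5_c10_ok) (L (nat_lit 391) ln8_9_5_c10 ln8_9_5_c10_ok))) (M (nat_lit 295) (B (L (nat_lit 327) ln8_13_7_c10 ln8_13_7_c10_ok) (L (nat_lit 263) ln8_12_7_c10 ln8_12_7_c10_ok))))) (B (M (nat_lit 296) (B (M (nat_lit 295) (B (L (nat_lit 263) ln8_12_7_c10 ln8_12_7_c10_ok) (L (nat_lit 327) ln8_13_7_c10 ln8_13_7_c10_ok))) (M (nat_lit 264) (B (M (nat_lit 265) (B (L (nat_lit 233) ln8_11_6_c10 ln8_11_6_c10_ok) (L (nat_lit 297) ln8_12_6_c10 ln8_12_6_c10_ok))) (M (nat_lit 391) (B (L (nat_lit 359) ln8_8_5_c10 ln8_8_5_c10_ok)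 (L (nat_lit 423) ln8_9_5_c10 ln8_9_5_c10_ok))))))) (B (M (nat_lit 423) (B (L (nat_lit 455) ln8_10_5_c10 ln8_10_5_c10_ok) (M (nat_lit 393) (B (M (nat_lit 296) (B (L (nat_lit 425) ln8_9_4_c10 ln8_9_4_c10_ok) (L (nat_lit 391) ln8_9_5_c10 ln8_9_5_c10_ok))) (M (nat_lit 422) (B (L (nat_lit 421) ln5_13_2_c10 ln5_13_2_c10_ok) (L (nat_lit 394) ln11_12_1 ln11_12_1_ok))))))) (M (nat_lit 296) (B (M (nat_lit 295) (B (L (nat_lit 263) ln8_12_7_c10 ln8_12_7_c10_ok) (L (nat_lit 327) ln8_13_7_c10 ln8_13_7_c10_ok))) (B (M (nat_lit 327) (B (L (nat_lit 295) ln8_13_7_c10 ln8_13_7_c10_ok) (M (nat_lit 359) (B (L (nat_lit 456) ln8_14_7_c10 ln8_14_7_c10_ok) (M (nat_lit 264) (B (L (nat_lit 232) ln8_7_5_c10 ln8_7_5_c10_ok) (L (nat_lit 391) ln8_8_5_c10 ln8_8_5_c10_ok))))))) (B (M (nat_lit 264) (B (M (nat_lit 265) (B (L (nat_lit 233) ln8_11_6_c10 ln8_11_6_c10_ok) (L (nat_lit 297) ln8_12_6_c10 ln8_12_6_c10_ok))) (M (nat_lit 359) (B (L (nat_lit 391) ln8_8_5_c10 ln8_8_5_c10_ok) (M (nat_lit 327) (B (L (nat_lit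 232) ln8_7_5_c10 ln8_7_5_c10_ok) (L (nat_lit 456) ln8_14_7_c10 ln8_14_7_c10_ok))))))) (M (nat_lit 264) (B (M (nat_lit 263) (B (L (nat_lit 231) ln8_11_7_c10 ln8_11_7_c10_ok) (L (nat_lit 295) ln8_12_7_c10 ln8_12_7_c10_ok))) (M (nat_lit 265) (B (L (nat_lit 233) ln8_11_6_c10 ln8_11_6_c10_ok) (L (nat_lit 297) ln8_12_6_c10 ln8_12_6_c10_ok)))))))))))))))))))))))))))) (B (M (nat_lit 362) (B (L (nat_lit 330) ln11_14_7 ln11_14_7_ok) (M (nat_lit 361) (B (L (nat_lit 396) ln8_11_0 ln8_11_0_ok) (M (nat_lit 392) (B (L (nat_lit 391) ln11_11_1 ln11_11_1_ok) (M (nat_lit 359) (B (L (nat_lit 394) ln7_11_0 ln7_11_0_ok) (M (nat_lit 327) (B (L (nat_lit 326) ln10_11_3 ln10_11_3_ok) (L (nat_lit 456) ln8_14_7_c10 ln8_14_7_c10_ok))))))))))) (B (M (nat_lit 362) (B (L (nat_lit 330) ln11_14_7 ln11_14_7_ok) (M (nat_lit 361) (B (L (nat_lit 396) ln8_11_0 ln8_11_0_ok) (M (nat_lit 392) (B (L (nat_lit 391) ln11_11_1 ln11_11_1_ok) (M (nat_lit 329) (B (L (nat_lit 456) ln8_14_6_c10 ln8_14_6_c10_ok) (M (nat_lit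 297) (B (L (nat_lit 328) ln8_13_6_c10 ln8_13_6_c10_ok) (L (nat_lit 265) ln9_8_5_c10 ln9_8_5_c10_ok))))))))))) (M (nat_lit 362) (B (L (nat_lit 330) ln11_14_7 ln11_14_7_ok) (M (nat_lit 361) (B (L (nat_lit 396) ln8_11_0 ln8_11_0_ok) (M (nat_lit 359) (B (L (nat_lit 394) ln7_11_0 ln7_11_0_ok) (M (nat_lit 327) (B (L (nat_lit 328) ln11_11_3 ln11_11_3_ok) (L (nat_lit 326) ln10_11_3 ln10_11_3_ok)))))))))))))
noncomputable def c10_d432 : Cert := (M (nat_lit 392) (B (M (nat_lit 360) (B (M (nat_lit 328) (B (M (nat_lit 329) (B (L (nat_lit 297) ln8_13_6_c10 ln8_13_6_c10_ok) (L (nat_lit 361) ln8_14_6_c10 ln8_14_6_c10_ok))) (M (nat_lit 327) (B (L (nat_lit 295) ln8_13_7_c10 ln8_13_7_c10_ok) (L (nat_lit 359) ln8_14_7_c10 ln8_14_7_c10_ok))))) (B (M (nat_lit 391) (B (M (nat_lit 359) (B (L (nat_lit 327) ln8_14_7_c10 ln8_14_7_c10_ok) (M (nat_lit 361) (B (L (nat_lit 329) ln8_14_6_c10 ln8_14_6_c10_ok) (L (nat_lit 362) ln11_11_1 ln11_11_1_ok))))) (B (M (nat_lit 328) (B (M (nat_lit 327) (B (L (nat_lit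 295) ln8_13_7_c10 ln8_13_7_c10_ok) (L (nat_lit 359) ln8_14_7_c10 ln8_14_7_c10_ok))) (M (nat_lit 423) (B (L (nat_lit 296) ln8_9_5_c10 ln8_9_5_c10_ok) (L (nat_lit 455) ln8_10_5_c10 ln8_10_5_c10_ok))))) (M (nat_lit 361) (B (L (nat_lit 329) ln8_14_6_c10 ln8_14_6_c10_ok) (L (nat_lit 362) ln11_11_1 ln11_11_1_ok)))))) (B (M (nat_lit 359) (B (L (nat_lit 327) ln8_14_7_c10 ln8_14_7_c10_ok) (M (nat_lit 361) (B (L (nat_lit 329) ln8_14_6_c10 ln8_14_6_c10_ok) (M (nat_lit 358) (B (M (nat_lit 393) (B (L (nat_lit 394) ln6_11_0_c10 ln6_11_0_c10_ok) (L (nat_lit 357) ln5_11_0_c10 ln5_11_0_c10_ok))) (B (M (nat_lit 362) (B (L (nat_lit 394) ln7_11_0 ln7_11_0_ok) (M (nat_lit 390) (B (L (nat_lit 391) ln10_11_1 ln10_11_1_ok) (L (nat_lit 389) ln9_11_1_c10 ln9_11_1_c10_ok))))) (M (nat_lit 357) (B (L (nat_lit 393) ln5_11_0_c10 ln5_11_0_c10_ok) (M (nat_lit 325) (B (L (nat_lit 326) ln9_11_3_c10 ln9_11_3_c10_ok) (L (nat_lit 324) ln8_11_3_c10 ln8_11_3_c10_ok)))))))))))) (B (M (nat_lit 393) (B (M (nat_lit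 359) (B (L (nat_lit 327) ln8_14_7_c10 ln8_14_7_c10_ok) (L (nat_lit 394) ln11_12_3 ln11_12_3_ok))) (B (M (nat_lit 394) (B (L (nat_lit 359) ln11_12_3 ln11_12_3_ok) (L (nat_lit 423) ln11_12_1 ln11_12_1_ok))) (B (M (nat_lit 423) (B (M (nat_lit 422) (B (L (nat_lit 421) ln5_13_2_c10 ln5_13_2_c10_ok) (L (nat_lit 394) ln11_12_1 ln11_12_1_ok))) (M (nat_lit 328) (B (L (nat_lit 455) ln8_10_5_c10 ln8_10_5_c10_ok) (M (nat_lit 296) (B (L (nat_lit 391) ln8_9_5_c10 ln8_9_5_c10_ok) (M (nat_lit 295) (B (L (nat_lit 263) ln8_12_7_c10 ln8_12_7_c10_ok) (L (nat_lit 327) ln8_13_7_c10 ln8_13_7_c10_ok))))))))) (M (nat_lit 328) (B (M (nat_lit 327) (B (L (nat_lit 295) ln8_13_7_c10 ln8_13_7_c10_ok) (L (nat_lit 359) ln8_14_7_c10 ln8_14_7_c10_ok))) (M (nat_lit 296) (B (M (nat_lit 423) (B (L (nat_lit 391) ln8_9_5_c10 ln8_9_5_c10_ok) (L (nat_lit 455) ln8_10_5_c10 ln8_10_5_c10_ok))) (M (nat_lit 264) (B (L (nat_lit 361) ln8_8_4_c10 ln8_8_4_c10_ok) (M (nat_lit 265) (B (L (nat_lit 233) ln8_11_6_c10 ln8_11_6_c10_ok)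 (L (nat_lit 297) ln8_12_6_c10 ln8_12_6_c10_ok))))))))))))) (B (M (nat_lit 328) (B (M (nat_lit 329) (B (L (nat_lit 297) ln8_13_6_c10 ln8_13_6_c10_ok) (L (nat_lit 361) ln8_14_6_c10 ln8_14_6_c10_ok))) (B (M (nat_lit 296) (B (M (nat_lit 423) (B (L (nat_lit 391) ln8_9_5_c10 ln8_9_5_c10_ok) (L (nat_lit 455) ln8_10_5_c10 ln8_10_5_c10_ok))) (M (nat_lit 264) (B (M (nat_lit 263) (B (L (nat_lit 231) ln8_11_7_c10 ln8_11_7_c10_ok) (L (nat_lit 295) ln8_12_7_c10 ln8_12_7_c10_ok))) (M (nat_lit 361) (B (L (nat_lit 393) ln8_8_4_c10 ln8_8_4_c10_ok) (L (nat_lit 329) ln8_14_6_c10 ln8_14_6_c10_ok))))))) (M (nat_lit 296) (B (M (nat_lit 423) (B (L (nat_lit 391) ln8_9_5_c10 ln8_9_5_c10_ok) (L (nat_lit 455) ln8_10_5_c10 ln8_10_5_c10_ok))) (M (nat_lit 264) (B (M (nat_lit 265) (B (L (nat_lit 233) ln8_11_6_c10 ln8_11_6_c10_ok) (L (nat_lit 297) ln8_12_6_c10 ln8_12_6_c10_ok))) (M (nat_lit 263) (B (L (nat_lit 231) ln8_11_7_c10 ln8_11_7_c10_ok) (L (nat_lit 295) ln8_12_7_c10 ln8_12_7_c10_ok)))))))))) (M (nat_lit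 328) (B (M (nat_lit 327) (B (L (nat_lit 295) ln8_13_7_c10 ln8_13_7_c10_ok) (L (nat_lit 359) ln8_14_7_c10 ln8_14_7_c10_ok))) (M (nat_lit 296) (B (M (nat_lit 297) (B (L (nat_lit 265) ln8_12_6_c10 ln8_12_6_c10_ok) (L (nat_lit 329) ln8_13_6_c10 ln8_13_6_c10_ok))) (M (nat_lit 423) (B (L (nat_lit 391) ln8_9_5_c10 ln8_9_5_c10_ok) (L (nat_lit 455) ln8_10_5_c10 ln8_10_5_c10_ok))))))))))))) (B (K (nat_lit 11350313520376438725705169825766934978599170723513436440846860644247631295589349408806452144528933377960614761811896684704034721246327341056) (nat_lit 799167628880894011255350372877934378681704933431851685087573541249116509473020641280381947323275166677209045884509924195949153509881595151545008128) (nat_lit 799167628880894011255350372877934378681704933431851685087573541249116509473020641280381947323275166677209045884509924195949153509881595151545008128) c10_s29) (B (M (nat_lit 360) (B (M (nat_lit 359) (B (L (nat_lit 327) ln8_14_7_c10 ln8_14_7_c10_ok) (M (nat_lit 488) (B (L (nat_lit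 391) ln8_15_7_c10 ln8_15_7_c10_ok) (M (nat_lit 361) (B (L (nat_lit 329) ln8_14_6_c10 ln8_14_6_c10_ok) (L (nat_lit 393) ln8_15_6_c10 ln8_15_6_c10_ok))))))) (B (M (nat_lit 488) (B (M (nat_lit 359) (B (L (nat_lit 327) ln8_14_7_c10 ln8_14_7_c10_ok) (L (nat_lit 391) ln8_15_7_c10 ln8_15_7_c10_ok))) (M (nat_lit 489) (B (L (nat_lit 457) ln8_11_4_c10 ln8_11_4_c10_ok) (L (nat_lit 521) ln8_12_4_c10 ln8_12_4_c10_ok))))) (B (M (nat_lit 488) (B (M (nat_lit 361) (B (L (nat_lit 329) ln8_14_6_c10 ln8_14_6_c10_ok) (L (nat_lit 393) ln8_15_6_c10 ln8_15_6_c10_ok))) (M (nat_lit 489) (B (L (nat_lit 457) ln8_11_4_c10 ln8_11_4_c10_ok) (L (nat_lit 521) ln8_12_4_c10 ln8_12_4_c10_ok))))) (M (nat_lit 328) (B (M (nat_lit 329) (B (L (nat_lit 297) ln8_13_6_c10 ln8_13_6_c10_ok) (L (nat_lit 361) ln8_14_6_c10 ln8_14_6_c10_ok))) (M (nat_lit 327) (B (L (nat_lit 295) ln8_13_7_c10 ln8_13_7_c10_ok) (L (nat_lit 359) ln8_14_7_c10 ln8_14_7_c10_ok))))))))) (B (M (nat_lit 457) (B (L (nat_lit 423) ln11_14_3 ln11_14_3_ok)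 (M (nat_lit 489) (B (L (nat_lit 360) ln8_11_4_c10 ln8_11_4_c10_ok) (M (nat_lit 521) (B (L (nat_lit 553) ln9_17_7_c10 ln9_17_7_c10_ok) (L (nat_lit 488) ln8_12_4_c10 ln8_12_4_c10_ok))))))) (M (nat_lit 423) (B (L (nat_lit 457) ln11_14_3 ln11_14_3_ok) (M (nat_lit 488) (B (M (nat_lit 393) (B (L (nat_lit 394) ln11_12_1 ln11_12_1_ok) (L (nat_lit 361) ln8_15_6_c10 ln8_15_6_c10_ok))) (M (nat_lit 391) (B (L (nat_lit 359) ln8_15_7_c10 ln8_15_7_c10_ok) (L (nat_lit 520) ln8_16_7_c10 ln8_16_7_c10_ok))))))))))))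
noncomputable def c10_d433 : Cert := (B (M (nat_lit 392) (B (M (nat_lit 360) (B (M (nat_lit 455) (B (L (nat_lit 487) ln8_11_5_c10 ln8_11_5_c10_ok) (M (nat_lit 327) (B (L (nat_lit 359) ln8_14_7_c10 ln8_14_7_c10_ok) (M (nat_lit 328) (B (L (nat_lit 295) ln8_13_7_c10 ln8_13_7_c10_ok) (L (nat_lit 423) ln8_10_5_c10 ln8_10_5_c10_ok))))))) (B (M (nat_lit 328) (B (M (nat_lit 329) (B (L (nat_lit 297) ln8_13_6_c10 ln8_13_6_c10_ok) (L (nat_lit 361) ln8_14_6_c10 ln8_14_6_c10_ok))) (M (nat_lit 455) (B (L (nat_lit 423) ln8_10_5_c10 ln8_10_5_c10_ok) (L (nat_lit 487) ln8_11_5_c10 ln8_11_5_c10_ok))))) (M (nat_lit 359) (B (L (nat_lit 327) ln8_14_7_c10 ln8_14_7_c10_ok) (M (nat_lit 361) (B (L (nat_lit 329) ln8_14_6_c10 ln8_14_6_c10_ok) (M (nat_lit 358) (B (M (nat_lit 393) (B (L (nat_lit 357) ln5_11_0_c10 ln5_11_0_c10_ok) (L (nat_lit 394) ln6_11_0_c10 ln6_11_0_c10_ok))) (B (M (nat_lit 362) (B (M (nat_lit 390) (B (L (nat_lit 389) ln9_11_1_c10 ln9_11_1_c10_ok) (L (nat_lit 391) ln10_11_1 ln10_11_1_ok)))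 (L (nat_lit 394) ln7_11_0 ln7_11_0_ok))) (M (nat_lit 357) (B (M (nat_lit 325) (B (L (nat_lit 324) ln8_11_3_c10 ln8_11_3_c10_ok) (L (nat_lit 326) ln9_11_3_c10 ln9_11_3_c10_ok))) (M (nat_lit 389) (B (L (nat_lit 388) ln8_11_1_c10 ln8_11_1_c10_ok) (L (nat_lit 390) ln9_11_1_c10 ln9_11_1_c10_ok))))))))))))))) (B (M (nat_lit 393) (B (M (nat_lit 488) (B (L (nat_lit 361) ln8_15_6_c10 ln8_15_6_c10_ok) (M (nat_lit 519) (B (L (nat_lit 487) ln8_12_5_c10 ln8_12_5_c10_ok) (M (nat_lit 521) (B (L (nat_lit 489) ln8_12_4_c10 ln8_12_4_c10_ok) (M (nat_lit 520) (B (L (nat_lit 551) ln8_13_5_c10 ln8_13_5_c10_ok) (L (nat_lit 553) ln8_13_4_c10 ln8_13_4_c10_ok))))))))) (M (nat_lit 394) (B (M (nat_lit 362) (B (L (nat_lit 391) ln7_12_2_c10 ln7_12_2_c10_ok) (L (nat_lit 330) ln11_14_7 ln11_14_7_ok))) (L (nat_lit 423) ln11_12_1 ln11_12_1_ok))))) (B (M (nat_lit 488) (B (M (nat_lit 359) (B (L (nat_lit 391) ln8_15_7_c10 ln8_15_7_c10_ok) (M (nat_lit 360) (B (L (nat_lit 327) ln8_14_7_c10 ln8_14_7_c10_ok) (M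 (nat_lit 361) (B (L (nat_lit 329) ln8_14_6_c10 ln8_14_6_c10_ok) (L (nat_lit 393) ln8_15_6_c10 ln8_15_6_c10_ok))))))) (M (nat_lit 519) (B (L (nat_lit 487) ln8_12_5_c10 ln8_12_5_c10_ok) (M (nat_lit 520) (B (L (nat_lit 551) ln8_13_5_c10 ln8_13_5_c10_ok) (M (nat_lit 521) (B (L (nat_lit 489) ln8_12_4_c10 ln8_12_4_c10_ok) (L (nat_lit 553) ln8_13_4_c10 ln8_13_4_c10_ok))))))))) (B (K (nat_lit 11350313520376438725705169825766934978599170723513436440846860644247631295589349408806452144528933377960614761811896684704034721246327341056) (nat_lit 799167628880894011255350372877934378681704933431851685087573541249116509473020641280381947323275166677209045884509924195949153509881595151545008128) (nat_lit 799167628880894011255350372877934378681704933431851685087573541249116509473020641280381947323275166677209045884509924195949153509881595151545008128) c10_s29) (B (M (nat_lit 360) (B (M (nat_lit 329) (B (L (nat_lit 361) ln8_14_6_c10 ln8_14_6_c10_ok) (M (nat_lit 328) (B (L (nat_lit 297) ln8_13_6_c10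 ln8_13_6_c10_ok) (M (nat_lit 327) (B (L (nat_lit 359) ln8_14_7_c10 ln8_14_7_c10_ok) (L (nat_lit 295) ln8_13_7_c10 ln8_13_7_c10_ok))))))) (B (M (nat_lit 328) (B (M (nat_lit 455) (B (L (nat_lit 487) ln8_11_5_c10 ln8_11_5_c10_ok) (L (nat_lit 423) ln8_10_5_c10 ln8_10_5_c10_ok))) (M (nat_lit 327) (B (L (nat_lit 359) ln8_14_7_c10 ln8_14_7_c10_ok) (L (nat_lit 295) ln8_13_7_c10 ln8_13_7_c10_ok))))) (B (M (nat_lit 328) (B (M (nat_lit 455) (B (L (nat_lit 487) ln8_11_5_c10 ln8_11_5_c10_ok) (L (nat_lit 423) ln8_10_5_c10 ln8_10_5_c10_ok))) (M (nat_lit 329) (B (L (nat_lit 361) ln8_14_6_c10 ln8_14_6_c10_ok) (L (nat_lit 297) ln8_13_6_c10 ln8_13_6_c10_ok))))) (M (nat_lit 488) (B (M (nat_lit 487) (B (L (nat_lit 519) ln8_12_5_c10 ln8_12_5_c10_ok) (L (nat_lit 455) ln8_11_5_c10 ln8_11_5_c10_ok))) (M (nat_lit 361) (B (L (nat_lit 393) ln8_15_6_c10 ln8_15_6_c10_ok) (L (nat_lit 329) ln8_14_6_c10 ln8_14_6_c10_ok))))))))) (M (nat_lit 488) (B (M (nat_lit 520) (B (M (nat_lit 391) (B (L (nat_lit 359)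 ln8_15_7_c10 ln8_15_7_c10_ok) (L (nat_lit 423) ln8_16_7_c10 ln8_16_7_c10_ok))) (M (nat_lit 521) (B (L (nat_lit 489) ln8_12_4_c10 ln8_12_4_c10_ok) (L (nat_lit 553) ln8_13_4_c10 ln8_13_4_c10_ok))))) (B (M (nat_lit 519) (B (L (nat_lit 487) ln8_12_5_c10 ln8_12_5_c10_ok) (M (nat_lit 520) (B (L (nat_lit 551) ln8_13_5_c10 ln8_13_5_c10_ok) (M (nat_lit 521) (B (L (nat_lit 489) ln8_12_4_c10 ln8_12_4_c10_ok) (L (nat_lit 553) ln8_13_4_c10 ln8_13_4_c10_ok))))))) (B (M (nat_lit 520) (B (M (nat_lit 391) (B (L (nat_lit 359) ln8_15_7_c10 ln8_15_7_c10_ok) (L (nat_lit 423) ln8_16_7_c10 ln8_16_7_c10_ok))) (M (nat_lit 519) (B (L (nat_lit 487) ln8_12_5_c10 ln8_12_5_c10_ok) (L (nat_lit 551) ln8_13_5_c10 ln8_13_5_c10_ok))))) (M (nat_lit 360) (B (M (nat_lit 359) (B (L (nat_lit 327) ln8_14_7_c10 ln8_14_7_c10_ok) (L (nat_lit 391) ln8_15_7_c10 ln8_15_7_c10_ok))) (M (nat_lit 487) (B (L (nat_lit 455) ln8_11_5_c10 ln8_11_5_c10_ok) (L (nat_lit 519) ln8_12_5_c10 ln8_12_5_c10_ok))))))))))))))) (B (M (nat_lit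 488) (B (M (nat_lit 489) (B (L (nat_lit 457) ln12_14_1 ln12_14_1_ok) (M (nat_lit 521) (B (L (nat_lit 392) ln8_12_4_c10 ln8_12_4_c10_ok) (M (nat_lit 553) (B (L (nat_lit 585) ln9_18_7_c10 ln9_18_7_c10_ok) (L (nat_lit 520) ln8_13_4_c10 ln8_13_4_c10_ok))))))) (B (M (nat_lit 457) (B (L (nat_lit 487) ln11_14_1 ln11_14_1_ok) (L (nat_lit 489) ln12_14_1 ln12_14_1_ok))) (B (M (nat_lit 487) (B (L (nat_lit 457) ln11_14_1 ln11_14_1_ok) (M (nat_lit 519) (B (L (nat_lit 392) ln8_12_5_c10 ln8_12_5_c10_ok) (M (nat_lit 551) (B (L (nat_lit 520) ln8_13_5_c10 ln8_13_5_c10_ok) (L (nat_lit 455) ln7_17_6_c10 ln7_17_6_c10_ok))))))) (M (nat_lit 392) (B (M (nat_lit 521) (B (L (nat_lit 489) ln8_12_4_c10 ln8_12_4_c10_ok) (M (nat_lit 520) (B (L (nat_lit 553) ln8_13_4_c10 ln8_13_4_c10_ok) (M (nat_lit 519) (B (L (nat_lit 551) ln8_13_5_c10 ln8_13_5_c10_ok) (L (nat_lit 487) ln8_12_5_c10 ln8_12_5_c10_ok))))))) (M (nat_lit 361) (B (L (nat_lit 393) ln8_15_6_c10 ln8_15_6_c10_ok) (M (nat_lit 360) (B (L (nat_lit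 329) ln8_14_6_c10 ln8_14_6_c10_ok) (M (nat_lit 359) (B (L (nat_lit 391) ln8_15_7_c10 ln8_15_7_c10_ok) (L (nat_lit 327) ln8_14_7_c10 ln8_14_7_c10_ok))))))))))))) (B (M (nat_lit 488) (B (M (nat_lit 457) (B (L (nat_lit 423) ln11_14_3 ln11_14_3_ok) (L (nat_lit 487) ln11_14_1 ln11_14_1_ok))) (B (M (nat_lit 392) (B (M (nat_lit 360) (B (M (nat_lit 361) (B (L (nat_lit 329) ln8_14_6_c10 ln8_14_6_c10_ok) (L (nat_lit 393) ln8_15_6_c10 ln8_15_6_c10_ok))) (M (nat_lit 487) (B (L (nat_lit 455) ln8_11_5_c10 ln8_11_5_c10_ok) (L (nat_lit 519) ln8_12_5_c10 ln8_12_5_c10_ok))))) (B (M (nat_lit 360) (B (M (nat_lit 359) (B (L (nat_lit 327) ln8_14_7_c10 ln8_14_7_c10_ok) (L (nat_lit 391) ln8_15_7_c10 ln8_15_7_c10_ok))) (M (nat_lit 487) (B (L (nat_lit 455) ln8_11_5_c10 ln8_11_5_c10_ok) (L (nat_lit 519) ln8_12_5_c10 ln8_12_5_c10_ok))))) (B (M (nat_lit 520) (B (M (nat_lit 391) (B (L (nat_lit 359) ln8_15_7_c10 ln8_15_7_c10_ok) (L (nat_lit 423) ln8_16_7_c10 ln8_16_7_c10_ok))) (M (nat_lit 519) (B (L (nat_lit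 487) ln8_12_5_c10 ln8_12_5_c10_ok) (L (nat_lit 551) ln8_13_5_c10 ln8_13_5_c10_ok))))) (M (nat_lit 360) (B (M (nat_lit 361) (B (L (nat_lit 329) ln8_14_6_c10 ln8_14_6_c10_ok) (L (nat_lit 393) ln8_15_6_c10 ln8_15_6_c10_ok))) (M (nat_lit 359) (B (L (nat_lit 327) ln8_14_7_c10 ln8_14_7_c10_ok) (L (nat_lit 391) ln8_15_7_c10 ln8_15_7_c10_ok))))))))) (B (M (nat_lit 487) (B (L (nat_lit 457) ln11_14_1 ln11_14_1_ok) (M (nat_lit 519) (B (L (nat_lit 392) ln8_12_5_c10 ln8_12_5_c10_ok) (M (nat_lit 551) (B (L (nat_lit 520) ln8_13_5_c10 ln8_13_5_c10_ok) (L (nat_lit 455) ln7_17_6_c10 ln7_17_6_c10_ok))))))) (M (nat_lit 423) (B (L (nat_lit 457) ln11_14_3 ln11_14_3_ok) (M (nat_lit 391) (B (L (nat_lit 520) ln8_16_7_c10 ln8_16_7_c10_ok) (M (nat_lit 359) (B (L (nat_lit 392) ln8_15_7_c10 ln8_15_7_c10_ok) (L (nat_lit 327) ln7_10_4_c10 ln7_10_4_c10_ok))))))))))) (M (nat_lit 457) (B (M (nat_lit 488) (B (L (nat_lit 489) ln12_14_1 ln12_14_1_ok) (L (nat_lit 487) ln11_14_1 ln11_14_1_ok))) (L (nat_lit 423)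 ln11_14_3 ln11_14_3_ok))))))
noncomputable def c10_d434 : Cert := (B (M (nat_lit 360) (B (M (nat_lit 392) (B (M (nat_lit 328) (B (M (nat_lit 296) (B (M (nat_lit 264) (B (M (nat_lit 265) (B (L (nat_lit 233) ln8_11_6_c10 ln8_11_6_c10_ok) (L (nat_lit 297) ln8_12_6_c10 ln8_12_6_c10_ok))) (M (nat_lit 263) (B (L (nat_lit 231) ln8_11_7_c10 ln8_11_7_c10_ok) (L (nat_lit 295) ln8_12_7_c10 ln8_12_7_c10_ok))))) (B (M (nat_lit 295) (B (L (nat_lit 263) ln8_12_7_c10 ln8_12_7_c10_ok) (L (nat_lit 327) ln8_13_7_c10 ln8_13_7_c10_ok))) (B (M (nat_lit 264) (B (M (nat_lit 265) (B (L (nat_lit 233) ln8_11_6_c10 ln8_11_6_c10_ok) (L (nat_lit 297) ln8_12_6_c10 ln8_12_6_c10_ok))) (M (nat_lit 359) (B (L (nat_lit 391) ln8_8_5_c10 ln8_8_5_c10_ok) (M (nat_lit 327) (B (L (nat_lit 232) ln8_7_5_c10 ln8_7_5_c10_ok) (L (nat_lit 295) ln8_13_7_c10 ln8_13_7_c10_ok))))))) (M (nat_lit 264) (B (M (nat_lit 265) (B (L (nat_lit 233) ln8_11_6_c10 ln8_11_6_c10_ok) (L (nat_lit 297) ln8_12_6_c10 ln8_12_6_c10_ok))) (M (nat_lit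 232) (B (M (nat_lit 231) (B (L (nat_lit 199) ln8_10_7_c10 ln8_10_7_c10_ok) (L (nat_lit 263) ln8_11_7_c10 ln8_11_7_c10_ok))) (M (nat_lit 359) (B (L (nat_lit 327) ln8_7_5_c10 ln8_7_5_c10_ok) (L (nat_lit 391) ln8_8_5_c10 ln8_8_5_c10_ok))))))))))) (M (nat_lit 330) (B (L (nat_lit 362) ln11_14_7 ln11_14_7_ok) (M (nat_lit 331) (B (L (nat_lit 298) ln11_13_7 ln11_13_7_ok) (M (nat_lit 300) (B (L (nat_lit 332) ln11_13_6 ln11_13_6_ok) (M (nat_lit 299) (B (L (nat_lit 268) ln11_12_6 ln11_12_6_ok) (L (nat_lit 329) ln8_10_2_c10 ln8_10_2_c10_ok))))))))))) (B (M (nat_lit 328) (B (M (nat_lit 425) (B (L (nat_lit 457) ln8_10_4_c10 ln8_10_4_c10_ok) (M (nat_lit 393) (B (L (nat_lit 296) ln8_9_4_c10 ln8_9_4_c10_ok) (M (nat_lit 394) (B (L (nat_lit 396) ln12_12_1 ln12_12_1_ok) (L (nat_lit 359) ln11_12_3 ln11_12_3_ok))))))) (M (nat_lit 330) (B (L (nat_lit 362) ln11_14_7 ln11_14_7_ok) (M (nat_lit 331) (B (L (nat_lit 298) ln11_13_7 ln11_13_7_ok) (M (nat_lit 300) (B (L (nat_lit 332) ln11_13_6 ln11_13_6_ok)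 (M (nat_lit 299) (B (L (nat_lit 268) ln11_12_6 ln11_12_6_ok) (L (nat_lit 329) ln8_10_2_c10 ln8_10_2_c10_ok))))))))))) (M (nat_lit 457) (B (M (nat_lit 489) (B (L (nat_lit 456) ln8_11_4_c10 ln8_11_4_c10_ok) (L (nat_lit 488) ln12_14_1 ln12_14_1_ok))) (L (nat_lit 425) ln12_14_3 ln12_14_3_ok)))))) (B (M (nat_lit 457) (B (L (nat_lit 425) ln12_14_3 ln12_14_3_ok) (M (nat_lit 488) (B (L (nat_lit 489) ln12_14_1 ln12_14_1_ok) (M (nat_lit 456) (B (L (nat_lit 487) ln11_14_1 ln11_14_1_ok) (M (nat_lit 392) (B (M (nat_lit 359) (B (L (nat_lit 327) ln8_14_7_c10 ln8_14_7_c10_ok) (M (nat_lit 393) (B (L (nat_lit 394) ln11_12_3 ln11_12_3_ok) (L (nat_lit 361) ln8_15_6_c10 ln8_15_6_c10_ok))))) (B (M (nat_lit 359) (B (L (nat_lit 327) ln8_14_7_c10 ln8_14_7_c10_ok) (M (nat_lit 393) (B (L (nat_lit 394) ln11_12_3 ln11_12_3_ok) (L (nat_lit 391) ln8_15_7_c10 ln8_15_7_c10_ok))))) (B (M (nat_lit 393) (B (L (nat_lit 361) ln8_15_6_c10 ln8_15_6_c10_ok) (M (nat_lit 359) (B (L (nat_lit 394) ln11_12_3 ln11_12_3_ok)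 (L (nat_lit 391) ln8_15_7_c10 ln8_15_7_c10_ok))))) (B (M (nat_lit 329) (B (L (nat_lit 361) ln8_14_6_c10 ln8_14_6_c10_ok) (M (nat_lit 328) (B (L (nat_lit 297) ln8_13_6_c10 ln8_13_6_c10_ok) (M (nat_lit 327) (B (L (nat_lit 295) ln8_13_7_c10 ln8_13_7_c10_ok) (L (nat_lit 359) ln8_14_7_c10 ln8_14_7_c10_ok))))))) (M (nat_lit 361) (B (L (nat_lit 329) ln8_14_6_c10 ln8_14_6_c10_ok) (L (nat_lit 393) ln8_15_6_c10 ln8_15_6_c10_ok)))))))))))))) (B (M (nat_lit 362) (B (L (nat_lit 330) ln11_14_7 ln11_14_7_ok) (M (nat_lit 361) (B (L (nat_lit 396) ln8_11_0 ln8_11_0_ok) (M (nat_lit 392) (B (L (nat_lit 391) ln11_11_1 ln11_11_1_ok) (M (nat_lit 329) (B (L (nat_lit 456) ln8_14_6_c10 ln8_14_6_c10_ok) (M (nat_lit 297) (B (L (nat_lit 328) ln8_13_6_c10 ln8_13_6_c10_ok) (L (nat_lit 265) ln9_8_5_c10 ln9_8_5_c10_ok))))))))))) (B (M (nat_lit 362) (B (L (nat_lit 330) ln11_14_7 ln11_14_7_ok) (M (nat_lit 361) (B (L (nat_lit 396) ln8_11_0 ln8_11_0_ok) (M (nat_lit 392) (B (L (nat_lit 391) ln11_11_1 ln11_11_1_ok)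 (M (nat_lit 359) (B (L (nat_lit 394) ln7_11_0 ln7_11_0_ok) (M (nat_lit 327) (B (L (nat_lit 326) ln10_11_3 ln10_11_3_ok) (L (nat_lit 456) ln8_14_7_c10 ln8_14_7_c10_ok))))))))))) (M (nat_lit 362) (B (L (nat_lit 330) ln11_14_7 ln11_14_7_ok) (M (nat_lit 361) (B (L (nat_lit 396) ln8_11_0 ln8_11_0_ok) (M (nat_lit 359) (B (L (nat_lit 394) ln7_11_0 ln7_11_0_ok) (M (nat_lit 327) (B (L (nat_lit 328) ln11_11_3 ln11_11_3_ok) (L (nat_lit 326) ln10_11_3 ln10_11_3_ok)))))))))))))) (B (M (nat_lit 425) (B (L (nat_lit 457) ln12_14_3 ln12_14_3_ok) (M (nat_lit 331) (B (M (nat_lit 298) (B (M (nat_lit 266) (B (L (nat_lit 299) ln11_12_7 ln11_12_7_ok) (L (nat_lit 330) ln11_13_7 ln11_13_7_ok))) (B (M (nat_lit 332) (B (L (nat_lit 330) ln11_13_7 ln11_13_7_ok) (L (nat_lit 300) ln11_13_6 ln11_13_6_ok))) (M (nat_lit 299) (B (L (nat_lit 266) ln11_12_7 ln11_12_7_ok) (M (nat_lit 300) (B (L (nat_lit 268) ln11_12_6 ln11_12_6_ok) (L (nat_lit 332) ln11_13_6 ln11_13_6_ok)))))))) (B (M (nat_lit 299) (B (M (nat_lit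 267) (B (M (nat_lit 268) (B (L (nat_lit 236) ln11_11_6 ln11_11_6_ok) (L (nat_lit 300) ln11_12_6 ln11_12_6_ok))) (M (nat_lit 266) (B (L (nat_lit 234) ln11_11_7 ln11_11_7_ok) (L (nat_lit 298) ln11_12_7 ln11_12_7_ok))))) (B (M (nat_lit 298) (B (L (nat_lit 266) ln11_12_7 ln11_12_7_ok) (L (nat_lit 330) ln11_13_7 ln11_13_7_ok))) (M (nat_lit 267) (B (M (nat_lit 268) (B (L (nat_lit 236) ln11_11_6 ln11_11_6_ok) (L (nat_lit 300) ln11_12_6 ln11_12_6_ok))) (M (nat_lit 362) (B (L (nat_lit 394) ln11_8_5 ln11_8_5_ok) (L (nat_lit 330) ln11_14_7 ln11_14_7_ok)))))))) (B (M (nat_lit 330) (B (L (nat_lit 298) ln11_13_7 ln11_13_7_ok) (L (nat_lit 362) ln11_14_7 ln11_14_7_ok))) (B (M (nat_lit 300) (B (L (nat_lit 332) ln11_13_6 ln11_13_6_ok) (M (nat_lit 299) (B (L (nat_lit 268) ln11_12_6 ln11_12_6_ok) (M (nat_lit 266) (B (L (nat_lit 298) ln11_12_7 ln11_12_7_ok) (M (nat_lit 267) (B (L (nat_lit 234) ln11_11_7 ln11_11_7_ok) (M (nat_lit 394) (B (L (nat_lit 362) ln11_8_5 ln11_8_5_ok) (M (nat_lit 393)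 (B (L (nat_lit 396) ln12_12_1 ln12_12_1_ok) (M (nat_lit 423) (B (L (nat_lit 422) ln6_13_2_c10 ln6_13_2_c10_ok) (L (nat_lit 392) ln11_12_1 ln11_12_1_ok))))))))))))))) (M (nat_lit 300) (B (L (nat_lit 332) ln11_13_6 ln11_13_6_ok) (M (nat_lit 299) (B (L (nat_lit 268) ln11_12_6 ln11_12_6_ok) (M (nat_lit 362) (B (L (nat_lit 330) ln11_14_7 ln11_14_7_ok) (M (nat_lit 394) (B (L (nat_lit 267) ln11_8_5 ln11_8_5_ok) (M (nat_lit 393) (B (L (nat_lit 396) ln12_12_1 ln12_12_1_ok) (M (nat_lit 423) (B (L (nat_lit 422) ln6_13_2_c10 ln6_13_2_c10_ok) (L (nat_lit 392) ln11_12_1 ln11_12_1_ok)))))))))))))))))))) (M (nat_lit 457) (B (M (nat_lit 456) (B (M (nat_lit 488) (B (L (nat_lit 489) ln12_14_1 ln12_14_1_ok) (L (nat_lit 487) ln11_14_1 ln11_14_1_ok))) (L (nat_lit 423) ln11_14_3 ln11_14_3_ok))) (L (nat_lit 425) ln12_14_3 ln12_14_3_ok)))))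
noncomputable def c10_d435 : Cert := (B (M (nat_lit 360) (B (M (nat_lit 392) (B (K (nat_lit 11164242806956763361724542930949954360387412368405372498011588490284763320381227860305654526517742114202174164724156242151434631932433924096) (nat_lit 93035356731499163983197498696727525058658545547361644095188976126280246276866107320735263314799411062846370033071415276228553066479091712) (nat_lit 93035356731499163983197498696727525058658545547361644095188976126280246276866107320735263314799411062846370033071415276228553066479091712) c10_s22) (B (K (nat_lit 11164242806956763361724542930949954360387412368405372498011588490284763320381227860305654526517742114202174164724156242151434631932433924096) (nat_lit 29484081455931687722412798866551412218247447479740561885909981978797913299634193703402702097694462052690104947692031133513562022619654907530628960950176611365751357440) (nat_lit 29484081455931687722412798866551412218247447479740561885909981978797913299634193703402702097694462052690104947692031133513562022619654907530628960950176611365751357440)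 c10_s24) (B (K (nat_lit 11164242806956763361724542930949954360387412368405372498011588490284763320381227860305654526517742114202174164724156242151434631932433924096) (nat_lit 29484081455931687722412798866551412218236616738577685786096329648193307058248826150709994711452061616176584955913077011183948321620539532625728371168170558207649906688) (nat_lit 29484081455931687722412798866551412218236616738577685786096329648193307058248826150709994711452061616176584955913077011183948321620539532625728371168170558207649906688) c10_s25) (B (K (nat_lit 11164242806956763361724542930949954360387412368405372498011588490284763320381227860305654526517742114202174164724156242151434631932433924096) (nat_lit 1716199416231403872345922286858702096475643186302988914207387572381091366067402048496606145512414661989426235653587145074187718963891747458074240796097249280) (nat_lit 1716199416231403872345922286858702096475643186302988914207387572381091366067402048496606145512414661989426235653587145074187718963891747458074240796097249280)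 c10_s26) (B (K (nat_lit 11164242806956763361724542930949954360387412368405372498011588490284763320381227860305654526517742114202174164724156242151434631932433924096) (nat_lit 399583814719553075854664901336277243787485659384050487143291783829043656423411120296633519536034850341166109367470915559467883438781330102536896512) (nat_lit 399583814719553075854664901336277243787485659384050487143291783829043656423411120296633519536034850341166109367470915559467883438781330102536896512) c10_s27) (B (M (nat_lit 329) (B (M (nat_lit 297) (B (L (nat_lit 328) ln8_13_6_c10 ln8_13_6_c10_ok) (M (nat_lit 361) (B (L (nat_lit 393) ln9_9_5_c10 ln9_9_5_c10_ok) (L (nat_lit 456) ln8_14_6_c10 ln8_14_6_c10_ok))))) (B (M (nat_lit 359) (B (M (nat_lit 456) (B (L (nat_lit 361) ln8_14_6_c10 ln8_14_6_c10_ok) (L (nat_lit 327) ln8_14_7_c10 ln8_14_7_c10_ok))) (B (M (nat_lit 327) (B (L (nat_lit 456) ln8_14_7_c10 ln8_14_7_c10_ok) (M (nat_lit 295) (B (L (nat_lit 328) ln8_13_7_c10 ln8_13_7_c10_ok) (L (nat_lit 263)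 ln7_8_4_c10 ln7_8_4_c10_ok))))) (B (M (nat_lit 358) (B (M (nat_lit 357) (B (L (nat_lit 328) ln5_11_2_c10 ln5_11_2_c10_ok) (L (nat_lit 393) ln5_11_0_c10 ln5_11_0_c10_ok))) (B (M (nat_lit 330) (B (L (nat_lit 361) ln6_11_2_c10 ln6_11_2_c10_ok) (M (nat_lit 328) (B (L (nat_lit 331) ln11_10_1_c10 ln11_10_1_c10_ok) (L (nat_lit 357) ln5_11_2_c10 ln5_11_2_c10_ok))))) (B (M (nat_lit 361) (B (L (nat_lit 330) ln6_11_2_c10 ln6_11_2_c10_ok) (M (nat_lit 393) (B (L (nat_lit 394) ln6_11_0_c10 ln6_11_0_c10_ok) (L (nat_lit 357) ln5_11_0_c10 ln5_11_0_c10_ok))))) (M (nat_lit 330) (B (L (nat_lit 361) ln6_11_2_c10 ln6_11_2_c10_ok) (M (nat_lit 328) (B (L (nat_lit 331) ln11_10_1_c10 ln11_10_1_c10_ok) (L (nat_lit 327) ln10_10_1_c10 ln10_10_1_c10_ok))))))))) (M (nat_lit 358) (B (M (nat_lit 361) (B (L (nat_lit 330) ln6_11_2_c10 ln6_11_2_c10_ok) (L (nat_lit 456) ln8_14_6_c10 ln8_14_6_c10_ok))) (M (nat_lit 357) (B (L (nat_lit 328) ln5_11_2_c10 ln5_11_2_c10_ok) (L (nat_lit 393) ln5_11_0_c10 ln5_11_0_c10_ok)))))))))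 (B (M (nat_lit 328) (B (L (nat_lit 297) ln8_13_6_c10 ln8_13_6_c10_ok) (M (nat_lit 327) (B (L (nat_lit 295) ln8_13_7_c10 ln8_13_7_c10_ok) (M (nat_lit 359) (B (L (nat_lit 456) ln8_14_7_c10 ln8_14_7_c10_ok) (M (nat_lit 358) (B (L (nat_lit 330) ln10_10_1_c10 ln10_10_1_c10_ok) (L (nat_lit 357) ln5_11_2_c10 ln5_11_2_c10_ok))))))))) (B (M (nat_lit 361) (B (L (nat_lit 456) ln8_14_6_c10 ln8_14_6_c10_ok) (M (nat_lit 297) (B (L (nat_lit 265) ln9_8_5_c10 ln9_8_5_c10_ok) (L (nat_lit 393) ln9_9_5_c10 ln9_9_5_c10_ok))))) (M (nat_lit 297) (B (L (nat_lit 328) ln8_13_6_c10 ln8_13_6_c10_ok) (M (nat_lit 361) (B (L (nat_lit 265) ln9_8_5_c10 ln9_8_5_c10_ok) (L (nat_lit 393) ln9_9_5_c10 ln9_9_5_c10_ok)))))))))) (K (nat_lit 11164242806956763361724542930949954360387412368405372498011588490284763320381227860305654526517742114202174164724156242151434631932433924096) (nat_lit 399583814719553075768018973374827952249583428899004909378393250550681476405333299736541914362880013689073669503001151342247518446186654021124620288)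 (nat_lit 399583814719553075768018973374827952249583428899004909378393250550681476405333299736541914362880013689073669503001151342247518446186654021124620288) c10_s28)))))))) c10_d431)) (B (M (nat_lit 456) (B c10_d432 (B (M (nat_lit 360) (B (M (nat_lit 392) (B (M (nat_lit 328) (B (M (nat_lit 455) (B (L (nat_lit 487) ln8_11_5_c10 ln8_11_5_c10_ok) (L (nat_lit 423) ln8_10_5_c10 ln8_10_5_c10_ok))) (M (nat_lit 327) (B (L (nat_lit 359) ln8_14_7_c10 ln8_14_7_c10_ok) (L (nat_lit 295) ln8_13_7_c10 ln8_13_7_c10_ok))))) (B (M (nat_lit 328) (B (M (nat_lit 327) (B (L (nat_lit 359) ln8_14_7_c10 ln8_14_7_c10_ok) (L (nat_lit 295) ln8_13_7_c10 ln8_13_7_c10_ok))) (M (nat_lit 329) (B (L (nat_lit 361) ln8_14_6_c10 ln8_14_6_c10_ok) (L (nat_lit 297) ln8_13_6_c10 ln8_13_6_c10_ok))))) (B (M (nat_lit 328) (B (M (nat_lit 455) (B (L (nat_lit 487) ln8_11_5_c10 ln8_11_5_c10_ok) (L (nat_lit 423) ln8_10_5_c10 ln8_10_5_c10_ok))) (M (nat_lit 329) (B (L (nat_lit 361) ln8_14_6_c10 ln8_14_6_c10_ok) (L (nat_lit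 297) ln8_13_6_c10 ln8_13_6_c10_ok))))) (M (nat_lit 359) (B (L (nat_lit 327) ln8_14_7_c10 ln8_14_7_c10_ok) (M (nat_lit 361) (B (L (nat_lit 329) ln8_14_6_c10 ln8_14_6_c10_ok) (M (nat_lit 358) (B (M (nat_lit 393) (B (L (nat_lit 357) ln5_11_0_c10 ln5_11_0_c10_ok) (L (nat_lit 394) ln6_11_0_c10 ln6_11_0_c10_ok))) (B (M (nat_lit 357) (B (M (nat_lit 389) (B (L (nat_lit 388) ln8_11_1_c10 ln8_11_1_c10_ok) (L (nat_lit 390) ln9_11_1_c10 ln9_11_1_c10_ok))) (M (nat_lit 325) (B (L (nat_lit 324) ln8_11_3_c10 ln8_11_3_c10_ok) (L (nat_lit 326) ln9_11_3_c10 ln9_11_3_c10_ok))))) (M (nat_lit 362) (B (M (nat_lit 390) (B (L (nat_lit 389) ln9_11_1_c10 ln9_11_1_c10_ok) (L (nat_lit 391) ln10_11_1 ln10_11_1_ok))) (L (nat_lit 394) ln7_11_0 ln7_11_0_ok)))))))))))))) (B (M (nat_lit 392) (B (M (nat_lit 329) (B (M (nat_lit 297) (B (L (nat_lit 328) ln8_13_6_c10 ln8_13_6_c10_ok) (L (nat_lit 361) ln8_14_6_c10 ln8_14_6_c10_ok))) (B (M (nat_lit 359) (B (L (nat_lit 361) ln8_14_6_c10 ln8_14_6_c10_ok) (L (nat_lit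 327) ln8_14_7_c10 ln8_14_7_c10_ok))) (M (nat_lit 328) (B (L (nat_lit 297) ln8_13_6_c10 ln8_13_6_c10_ok) (M (nat_lit 327) (B (L (nat_lit 295) ln8_13_7_c10 ln8_13_7_c10_ok) (L (nat_lit 359) ln8_14_7_c10 ln8_14_7_c10_ok)))))))) (M (nat_lit 457) (B (L (nat_lit 423) ln11_14_3 ln11_14_3_ok) (L (nat_lit 489) ln8_11_4_c10 ln8_11_4_c10_ok))))) (B (M (nat_lit 328) (B (M (nat_lit 330) (B (L (nat_lit 362) ln11_14_7 ln11_14_7_ok) (M (nat_lit 331) (B (L (nat_lit 298) ln11_13_7 ln11_13_7_ok) (M (nat_lit 300) (B (L (nat_lit 332) ln11_13_6 ln11_13_6_ok) (M (nat_lit 299) (B (L (nat_lit 268) ln11_12_6 ln11_12_6_ok) (L (nat_lit 329) ln8_10_2_c10 ln8_10_2_c10_ok))))))))) (M (nat_lit 392) (B (M (nat_lit 327) (B (L (nat_lit 359) ln8_14_7_c10 ln8_14_7_c10_ok) (L (nat_lit 295) ln8_13_7_c10 ln8_13_7_c10_ok))) (M (nat_lit 457) (B (L (nat_lit 423) ln11_14_3 ln11_14_3_ok) (L (nat_lit 489) ln8_11_4_c10 ln8_11_4_c10_ok))))))) (B (M (nat_lit 362) (B (L (nat_lit 330) ln11_14_7 ln11_14_7_ok) (M (nat_lit 361)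 (B (L (nat_lit 396) ln8_11_0 ln8_11_0_ok) (M (nat_lit 392) (B (L (nat_lit 391) ln11_11_1 ln11_11_1_ok) (L (nat_lit 329) ln8_14_6_c10 ln8_14_6_c10_ok))))))) (B (M (nat_lit 362) (B (L (nat_lit 330) ln11_14_7 ln11_14_7_ok) (M (nat_lit 361) (B (L (nat_lit 396) ln8_11_0 ln8_11_0_ok) (M (nat_lit 392) (B (L (nat_lit 391) ln11_11_1 ln11_11_1_ok) (M (nat_lit 359) (B (L (nat_lit 394) ln7_11_0 ln7_11_0_ok) (L (nat_lit 327) ln8_14_7_c10 ln8_14_7_c10_ok))))))))) (M (nat_lit 362) (B (L (nat_lit 330) ln11_14_7 ln11_14_7_ok) (M (nat_lit 361) (B (L (nat_lit 396) ln8_11_0 ln8_11_0_ok) (M (nat_lit 359) (B (L (nat_lit 394) ln7_11_0 ln7_11_0_ok) (M (nat_lit 327) (B (L (nat_lit 328) ln11_11_3 ln11_11_3_ok) (L (nat_lit 326) ln10_11_3 ln10_11_3_ok))))))))))))))) c10_d433))) c10_d434))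
noncomputable def c10_d436 : Cert := (B (M (nat_lit 459) (B (M (nat_lit 394) (B (K (nat_lit 7442828538519933118171628043138940840321789388389130514873123439225193202285603004404846869852250707160144421232589589674220262377622863872) (nat_lit 235872651653460199734713761133312789452362613053429118413065292675754203129780625473981930386352905803246864971073552544336863677742658576718234465079047932634382467072) (nat_lit 235872651653460199734713761133312789452362613053429118413065292675754203129780625473981930386352905803246864971073552544336863677742658576718234465079047932634382467072) c10_s19) (B (K (nat_lit 7442828538519933118171628043138940840321789388389130514873123439225193202285603004404846869852250707160144421232589589674220262377622863872) (nat_lit 17161994156520073412677210936267765715554721937632079641876465580476105177654348910250925651885830371482037890550303029466367075399602266019188571468174721024) (nat_lit 17161994156520073412677210936267765715554721937632079641876465580476105177654348910250925651885830371482037890550303029466367075399602266019188571468174721024)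 c10_s20) (B (K (nat_lit 7442828538519933118171628043138940840321789388389130514873123439225193202285603004404846869852250707160144421232589589674220262377622863872) (nat_lit 8790843918992329118353103144586075173201169876637794456835504488003402036253339727759064858427369019573851016118988294125658320177409197478850330624) (nat_lit 8790843918992329118353103144586075173201169876637794456835504488003402036253339727759064858427369019573851016118988294125658320177409197478850330624) c10_s21) (M (nat_lit 491) (B (L (nat_lit 362) ln11_15_7 ln11_15_7_ok) (M (nat_lit 524) (B (L (nat_lit 492) ln11_12_4 ln11_12_4_ok) (M (nat_lit 522) (B (L (nat_lit 490) ln11_12_5 ln11_12_5_ok) (M (nat_lit 523) (B (L (nat_lit 556) ln11_13_4 ln11_13_4_ok) (L (nat_lit 554) ln11_13_5 ln11_13_5_ok))))))))))))) (B (M (nat_lit 394) (B (K (nat_lit 7442828538519933118171628043138940840321789388389130514873123439225193202285603004404846869852250707160144421232589589674220262377622863872) (nat_lit 8790843918992329118353103144586075173201169876637794456835504488003402036253339727759064858427369019573851016118988294125658320177409197478850330624)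 (nat_lit 8790843918992329118353103144586075173201169876637794456835504488003402036253339727759064858427369019573851016118988294125658320177409197478850330624) c10_s21) (B (M (nat_lit 428) (B (M (nat_lit 393) (B (L (nat_lit 396) ln9_12_0 ln9_12_0_ok) (L (nat_lit 392) ln8_12_0 ln8_12_0_ok))) (M (nat_lit 460) (B (L (nat_lit 492) ln11_11_4 ln11_11_4_ok) (L (nat_lit 331) ln11_10_4 ln11_10_4_ok))))) (M (nat_lit 491) (B (M (nat_lit 492) (B (L (nat_lit 460) ln11_11_4 ln11_11_4_ok) (L (nat_lit 524) ln11_12_4 ln11_12_4_ok))) (L (nat_lit 362) ln11_15_7 ln11_15_7_ok)))))) (B (M (nat_lit 428) (B (M (nat_lit 396) (B (M (nat_lit 331) (B (L (nat_lit 460) ln11_10_4 ln11_10_4_ok) (L (nat_lit 299) ln11_9_4 ln11_9_4_ok))) (M (nat_lit 394) (B (M (nat_lit 491) (B (L (nat_lit 523) ln11_16_6 ln11_16_6_ok) (L (nat_lit 362) ln11_15_7 ln11_15_7_ok))) (L (nat_lit 393) ln9_12_0 ln9_12_0_ok))))) (B (M (nat_lit 490) (B (L (nat_lit 458) ln11_11_5 ln11_11_5_ok) (M (nat_lit 394) (B (M (nat_lit 491) (B (L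 (nat_lit 362) ln11_15_7 ln11_15_7_ok) (L (nat_lit 522) ln11_12_5 ln11_12_5_ok))) (M (nat_lit 393) (B (L (nat_lit 392) ln8_12_0 ln8_12_0_ok) (L (nat_lit 396) ln9_12_0 ln9_12_0_ok))))))) (M (nat_lit 460) (B (M (nat_lit 458) (B (L (nat_lit 457) ln9_14_2 ln9_14_2_ok) (L (nat_lit 490) ln11_11_5 ln11_11_5_ok))) (L (nat_lit 331) ln11_10_4 ln11_10_4_ok)))))) (B (K (nat_lit 7442828538519933118131280388793832893608415651326583454336721786212236584897623951958899250758237563494056212587587436058034275315548684288) (nat_lit 18780439282980635673489020103417542853755935196277802591186406429447219786262569596273965918296607162120150893508006998258259161949052709583565357056) (nat_lit 18780439282980635673489020103417542853755935196277802591186406429447219786262569596273965918296607162120150893508006998258259161949052709583565357056) c10_s30) (B (K (nat_lit 7442828538519933118131280388793832893608415651326583454336721786212236584897623951958899250758237563494056212587587436058034275315548684288)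 (nat_lit 1013065324846613311822781578762100152300878690779692722003361584541151127249466453216697853383836016808962749683910977600093520951046853845450314767997988072102899863122668945408) (nat_lit 1013065324846613311822781578762100152300878690779692722003361584541151127249466453216697853383836016808962749683910977600093520951046853845450314767997988072102899863122668945408) c10_s31) (M (nat_lit 491) (B (M (nat_lit 492) (B (L (nat_lit 460) ln11_11_4 ln11_11_4_ok) (L (nat_lit 524) ln11_12_4 ln11_12_4_ok))) (M (nat_lit 490) (B (L (nat_lit 458) ln11_11_5 ln11_11_5_ok) (L (nat_lit 522) ln11_12_5 ln11_12_5_ok))))))))))) (B (K (nat_lit 5954262831162530206286265230239199607252158144638956066880229858290287322841385004986859978896449781225614568337954303650155411180145868800) (nat_lit 68647976626479877465335361461529866314613663262271253689803211927387907099040965059862572223900102815475311100248640561457265881612992512206802839988625997824) (nat_lit 68647976626479877465335361461529866314613663262271253689803211927387907099040965059862572223900102815475311100248640561457265881612992512206802839988625997824)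 c10_s32) (B (K (nat_lit 5954262831162530206286265230239199607252158144638956066880229858290287322841385004986859978896449781225614568337954303650155411180145868800) (nat_lit 13729595342637913055747339548009376287444164718165448644559483135573393574413373764737923843578423755084898143059258780970571448777781024292515262870832807936) (nat_lit 13729595342637913055747339548009376287444164718165448644559483135573393574413373764737923843578423755084898143059258780970571448777781024292515262870832807936) c10_s33) (K (nat_lit 5954262831162530206286265230239199607252158144638956066880229858290287322841385004986859978896449781225614568337954303650155411180145868800) (nat_lit 2977131415407973247381624649548699886463753985908654110292523978793153768442865169211559931173199392044103477095514455632421641635873423360) (nat_lit 2977131415407973247381624649548699886463753985908654110292523978793153768442865169211559931173199392044103477095514455632421641635873423360) c10_s34))))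
noncomputable def c10_d437 : Cert := (B (M (nat_lit 456) (B (M (nat_lit 455) (B (L (nat_lit 424) ln11_13_1_c10 ln11_13_1_c10_ok) (M (nat_lit 457) (B (L (nat_lit 458) ln7_14_2 ln7_14_2_ok) (L (nat_lit 428) ln12_13_1 ln12_13_1_ok))))) (B (M (nat_lit 393) (B (M (nat_lit 428) (B (L (nat_lit 457) ln12_13_1 ln12_13_1_ok) (L (nat_lit 392) ln12_13_3 ln12_13_3_ok))) (B (M (nat_lit 392) (B (L (nat_lit 428) ln12_13_3 ln12_13_3_ok) (M (nat_lit 391) (B (L (nat_lit 424) ln11_13_3 ln11_13_3_ok) (L (nat_lit 390) ln6_12_0_c10 ln6_12_0_c10_ok))))) (B (M (nat_lit 361) (B (M (nat_lit 329) (B (L (nat_lit 424) ln9_10_5_c10 ln9_10_5_c10_ok) (L (nat_lit 458) ln9_10_4_c10 ln9_10_4_c10_ok))) (B (M (nat_lit 488) (B (L (nat_lit 457) ln9_11_5_c10 ln9_11_5_c10_ok) (M (nat_lit 424) (B (L (nat_lit 520) ln8_16_6_c10 ln8_16_6_c10_ok) (L (nat_lit 329) ln9_10_5_c10 ln9_10_5_c10_ok))))) (B (M (nat_lit 457) (B (L (nat_lit 488) ln9_11_5_c10 ln9_11_5_c10_ok) (M (nat_lit 458) (B (L (nat_lit 490) ln9_11_4 ln9_11_4_ok)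 (L (nat_lit 329) ln9_10_4_c10 ln9_10_4_c10_ok))))) (M (nat_lit 488) (B (L (nat_lit 457) ln9_11_5_c10 ln9_11_5_c10_ok) (M (nat_lit 424) (B (L (nat_lit 520) ln8_16_6_c10 ln8_16_6_c10_ok) (L (nat_lit 392) ln8_15_6_c10 ln8_15_6_c10_ok))))))))) (M (nat_lit 361) (B (M (nat_lit 457) (B (L (nat_lit 488) ln9_11_5_c10 ln9_11_5_c10_ok) (L (nat_lit 428) ln12_13_1 ln12_13_1_ok))) (M (nat_lit 329) (B (L (nat_lit 424) ln9_10_5_c10 ln9_10_5_c10_ok) (L (nat_lit 458) ln9_10_4_c10 ln9_10_4_c10_ok))))))))) (B (M (nat_lit 424) (B (L (nat_lit 455) ln11_13_1_c10 ln11_13_1_c10_ok) (M (nat_lit 392) (B (L (nat_lit 391) ln11_13_3 ln11_13_3_ok) (M (nat_lit 393) (B (L (nat_lit 428) ln12_13_3 ln12_13_3_ok) (M (nat_lit 361) (B (L (nat_lit 488) ln8_15_6_c10 ln8_15_6_c10_ok) (L (nat_lit 329) ln9_10_5_c10 ln9_10_5_c10_ok))))))))) (B (M (nat_lit 457) (B (L (nat_lit 428) ln12_13_1 ln12_13_1_ok) (M (nat_lit 455) (B (L (nat_lit 454) ln6_14_2_c10 ln6_14_2_c10_ok) (L (nat_lit 458) ln7_14_2 ln7_14_2_ok))))) (M (nat_lit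 455) (B (L (nat_lit 424) ln11_13_1_c10 ln11_13_1_c10_ok) (M (nat_lit 457) (B (L (nat_lit 454) ln6_14_2_c10 ln6_14_2_c10_ok) (L (nat_lit 458) ln7_14_2 ln7_14_2_ok)))))))))) (B (M (nat_lit 424) (B (M (nat_lit 392) (B (L (nat_lit 391) ln11_13_3 ln11_13_3_ok) (M (nat_lit 428) (B (L (nat_lit 393) ln12_13_3 ln12_13_3_ok) (M (nat_lit 456) (B (L (nat_lit 455) ln11_13_1_c10 ln11_13_1_c10_ok) (L (nat_lit 457) ln12_13_1 ln12_13_1_ok))))))) (B (M (nat_lit 428) (B (M (nat_lit 392) (B (L (nat_lit 391) ln11_13_3 ln11_13_3_ok) (L (nat_lit 393) ln12_13_3 ln12_13_3_ok))) (L (nat_lit 460) ln9_13_0 ln9_13_0_ok))) (B (M (nat_lit 428) (B (M (nat_lit 456) (B (L (nat_lit 455) ln11_13_1_c10 ln11_13_1_c10_ok) (L (nat_lit 457) ln12_13_1 ln12_13_1_ok))) (L (nat_lit 460) ln9_13_0 ln9_13_0_ok))) (M (nat_lit 423) (B (M (nat_lit 455) (B (L (nat_lit 454) ln10_13_1_c10 ln10_13_1_c10_ok) (L (nat_lit 456) ln11_13_1_c10 ln11_13_1_c10_ok))) (M (nat_lit 391) (B (L (nat_lit 390) ln10_13_3_c10 ln10_13_3_c10_ok)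 (L (nat_lit 392) ln11_13_3 ln11_13_3_ok))))))))) (B (M (nat_lit 424) (B (M (nat_lit 423) (B (M (nat_lit 391) (B (L (nat_lit 390) ln10_13_3_c10 ln10_13_3_c10_ok) (L (nat_lit 392) ln11_13_3 ln11_13_3_ok))) (M (nat_lit 459) (B (L (nat_lit 458) ln7_13_0 ln7_13_0_ok) (L (nat_lit 460) ln8_13_0 ln8_13_0_ok))))) (B (M (nat_lit 428) (B (M (nat_lit 456) (B (L (nat_lit 455) ln11_13_1_c10 ln11_13_1_c10_ok) (L (nat_lit 457) ln12_13_1 ln12_13_1_ok))) (L (nat_lit 460) ln9_13_0 ln9_13_0_ok))) (M (nat_lit 428) (B (M (nat_lit 456) (B (L (nat_lit 455) ln11_13_1_c10 ln11_13_1_c10_ok) (L (nat_lit 457) ln12_13_1 ln12_13_1_ok))) (M (nat_lit 392) (B (L (nat_lit 391) ln11_13_3 ln11_13_3_ok) (L (nat_lit 393) ln12_13_3 ln12_13_3_ok)))))))) (B (M (nat_lit 456) (B (M (nat_lit 457) (B (L (nat_lit 428) ln12_13_1 ln12_13_1_ok) (M (nat_lit 455) (B (L (nat_lit 454) ln6_14_2_c10 ln6_14_2_c10_ok) (L (nat_lit 424) ln11_13_1_c10 ln11_13_1_c10_ok))))) (B (M (nat_lit 424) (B (L (nat_lit 455) ln11_13_1_c10 ln11_13_1_c10_ok)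 (M (nat_lit 392) (B (L (nat_lit 391) ln11_13_3 ln11_13_3_ok) (M (nat_lit 393) (B (L (nat_lit 428) ln12_13_3 ln12_13_3_ok) (M (nat_lit 488) (B (L (nat_lit 520) ln8_16_6_c10 ln8_16_6_c10_ok) (L (nat_lit 361) ln8_15_6_c10 ln8_15_6_c10_ok))))))))) (B (M (nat_lit 393) (B (M (nat_lit 428) (B (L (nat_lit 457) ln12_13_1 ln12_13_1_ok) (L (nat_lit 392) ln12_13_3 ln12_13_3_ok))) (B (M (nat_lit 392) (B (L (nat_lit 428) ln12_13_3 ln12_13_3_ok) (M (nat_lit 424) (B (L (nat_lit 391) ln11_13_3 ln11_13_3_ok) (M (nat_lit 361) (B (L (nat_lit 488) ln8_15_6_c10 ln8_15_6_c10_ok) (L (nat_lit 329) ln9_10_5_c10 ln9_10_5_c10_ok))))))) (B (M (nat_lit 361) (B (M (nat_lit 329) (B (L (nat_lit 458) ln9_10_4_c10 ln9_10_4_c10_ok) (L (nat_lit 424) ln9_10_5_c10 ln9_10_5_c10_ok))) (B (M (nat_lit 424) (B (L (nat_lit 329) ln9_10_5_c10 ln9_10_5_c10_ok) (M (nat_lit 488) (B (L (nat_lit 457) ln9_11_5_c10 ln9_11_5_c10_ok) (L (nat_lit 392) ln8_15_6_c10 ln8_15_6_c10_ok))))) (B (M (nat_lit 458) (B (L (nat_lit 329) ln9_10_4_c10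 ln9_10_4_c10_ok) (M (nat_lit 457) (B (L (nat_lit 490) ln9_11_4 ln9_11_4_ok) (L (nat_lit 488) ln9_11_5_c10 ln9_11_5_c10_ok))))) (M (nat_lit 488) (B (L (nat_lit 457) ln9_11_5_c10 ln9_11_5_c10_ok) (M (nat_lit 424) (B (L (nat_lit 520) ln8_16_6_c10 ln8_16_6_c10_ok) (L (nat_lit 392) ln8_15_6_c10 ln8_15_6_c10_ok))))))))) (M (nat_lit 361) (B (M (nat_lit 457) (B (L (nat_lit 488) ln9_11_5_c10 ln9_11_5_c10_ok) (L (nat_lit 428) ln12_13_1 ln12_13_1_ok))) (M (nat_lit 329) (B (L (nat_lit 458) ln9_10_4_c10 ln9_10_4_c10_ok) (L (nat_lit 424) ln9_10_5_c10 ln9_10_5_c10_ok))))))))) (B (M (nat_lit 455) (B (L (nat_lit 424) ln11_13_1_c10 ln11_13_1_c10_ok) (M (nat_lit 457) (B (L (nat_lit 458) ln7_14_2 ln7_14_2_ok) (L (nat_lit 454) ln6_14_2_c10 ln6_14_2_c10_ok))))) (M (nat_lit 457) (B (L (nat_lit 428) ln12_13_1 ln12_13_1_ok) (M (nat_lit 455) (B (L (nat_lit 458) ln7_14_2 ln7_14_2_ok) (L (nat_lit 454) ln6_14_2_c10 ln6_14_2_c10_ok)))))))))) (B (M (nat_lit 460) (B (L (nat_lit 428) ln9_13_0 ln9_13_0_ok)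 (M (nat_lit 459) (B (L (nat_lit 424) ln8_13_0 ln8_13_0_ok) (L (nat_lit 458) ln13_14_3 ln13_14_3_ok))))) (M (nat_lit 460) (B (L (nat_lit 428) ln9_13_0 ln9_13_0_ok) (M (nat_lit 459) (B (L (nat_lit 458) ln13_14_3 ln13_14_3_ok) (L (nat_lit 462) ln14_14_3 ln14_14_3_ok))))))))))
noncomputable def c10_d438 : Cert := (B (K (nat_lit 5954262831335822062088120850272634600334353401978639263018415088212529061853840731832816342148421894274946874679036947102871160295308394496) (nat_lit 50164565117482973732051061223894282168196237825392306277806488105417733145882451094736393302809604103019256617023293913842521919648606487331123061617042174299192287415485976417811613682758872380509515677696) (nat_lit 50164565117482973732051061223894282168196237825392306277806488105417733145882451094736393302809604103019256617023293913842521919648606487331123061617042174299192287415485976417811613682758872380509515677696) c10_s55) (B (M (nat_lit 458) (B (K (nat_lit 6698545685014523518010628429549951243512482155322452956746661052173503692881960205318835978079315785409167696803853513306810592363009802240)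 (nat_lit 339928315513534963489347076483866596341084467418454578269320664770567070482755564416848752595021558499956494026184618144422360856285425570702412354471880872233238240750619328606355062784) (nat_lit 339928315513534963489347076483866596341084467418454578269320664770567070482755564416848752595021558499956494026184618144422360856285425570702412354471880872233238240750619328606355062784) c10_s49) (B (M (nat_lit 457) (B (M (nat_lit 456) (B (L (nat_lit 455) ln7_14_2 ln7_14_2_ok) (M (nat_lit 459) (B (M (nat_lit 491) (B (L (nat_lit 492) ln8_14_0 ln8_14_0_ok) (M (nat_lit 523) (B (L (nat_lit 555) ln11_17_7 ln11_17_7_ok) (L (nat_lit 394) ln11_16_7 ln11_16_7_ok))))) (M (nat_lit 460) (B (M (nat_lit 424) (B (L (nat_lit 425) ln8_13_0 ln8_13_0_ok) (L (nat_lit 423) ln11_14_3 ln11_14_3_ok))) (M (nat_lit 488) (B (L (nat_lit 489) ln12_14_1 ln12_14_1_ok) (L (nat_lit 487) ln11_14_1 ln11_14_1_ok))))))))) (L (nat_lit 428) ln13_13_1 ln13_13_1_ok))) (B (M (nat_lit 460) (B (M (nat_lit 425) (B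 (L (nat_lit 428) ln9_13_0 ln9_13_0_ok) (L (nat_lit 459) ln13_14_3 ln13_14_3_ok))) (B (M (nat_lit 459) (B (L (nat_lit 425) ln13_14_3 ln13_14_3_ok) (L (nat_lit 462) ln14_14_3 ln14_14_3_ok))) (B (M (nat_lit 462) (B (L (nat_lit 459) ln14_14_3 ln14_14_3_ok) (L (nat_lit 428) ln10_13_0 ln10_13_0_ok))) (M (nat_lit 428) (B (L (nat_lit 425) ln9_13_0 ln9_13_0_ok) (L (nat_lit 462) ln10_13_0 ln10_13_0_ok))))))) (M (nat_lit 428) (B (L (nat_lit 462) ln10_13_0 ln10_13_0_ok) (L (nat_lit 457) ln13_13_1 ln13_13_1_ok))))))) (B (M (nat_lit 425) (B (M (nat_lit 424) (B (M (nat_lit 391) (B (L (nat_lit 392) ln11_13_3 ln11_13_3_ok) (M (nat_lit 423) (B (L (nat_lit 390) ln10_13_3_c10 ln10_13_3_c10_ok) (M (nat_lit 455) (B (L (nat_lit 456) ln11_13_1_c10 ln11_13_1_c10_ok) (L (nat_lit 454) ln10_13_1_c10 ln10_13_1_c10_ok))))))) (B (M (nat_lit 423) (B (M (nat_lit 459) (B (L (nat_lit 460) ln8_13_0 ln8_13_0_ok) (L (nat_lit 458) ln7_13_0 ln7_13_0_ok))) (M (nat_lit 455) (B (L (nat_lit 456) ln11_13_1_c10 ln11_13_1_c10_ok)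 (L (nat_lit 454) ln10_13_1_c10 ln10_13_1_c10_ok))))) (B (M (nat_lit 423) (B (M (nat_lit 459) (B (L (nat_lit 460) ln8_13_0 ln8_13_0_ok) (L (nat_lit 458) ln7_13_0 ln7_13_0_ok))) (M (nat_lit 391) (B (L (nat_lit 392) ln11_13_3 ln11_13_3_ok) (L (nat_lit 390) ln10_13_3_c10 ln10_13_3_c10_ok))))) (M (nat_lit 428) (B (L (nat_lit 460) ln9_13_0 ln9_13_0_ok) (M (nat_lit 392) (B (L (nat_lit 393) ln12_13_3 ln12_13_3_ok) (L (nat_lit 391) ln11_13_3 ln11_13_3_ok))))))))) (B (M (nat_lit 424) (B (M (nat_lit 423) (B (M (nat_lit 459) (B (L (nat_lit 460) ln8_13_0 ln8_13_0_ok) (L (nat_lit 458) ln7_13_0 ln7_13_0_ok))) (M (nat_lit 391) (B (L (nat_lit 392) ln11_13_3 ln11_13_3_ok) (L (nat_lit 390) ln10_13_3_c10 ln10_13_3_c10_ok))))) (B (M (nat_lit 455) (B (L (nat_lit 456) ln11_13_1_c10 ln11_13_1_c10_ok) (M (nat_lit 423) (B (L (nat_lit 454) ln10_13_1_c10 ln10_13_1_c10_ok) (M (nat_lit 391) (B (L (nat_lit 392) ln11_13_3 ln11_13_3_ok) (L (nat_lit 390) ln10_13_3_c10 ln10_13_3_c10_ok))))))) (B (M (nat_lit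 423) (B (M (nat_lit 459) (B (L (nat_lit 460) ln8_13_0 ln8_13_0_ok) (L (nat_lit 458) ln7_13_0 ln7_13_0_ok))) (M (nat_lit 455) (B (L (nat_lit 456) ln11_13_1_c10 ln11_13_1_c10_ok) (L (nat_lit 454) ln10_13_1_c10 ln10_13_1_c10_ok))))) (M (nat_lit 428) (B (L (nat_lit 460) ln9_13_0 ln9_13_0_ok) (M (nat_lit 456) (B (L (nat_lit 457) ln12_13_1 ln12_13_1_ok) (L (nat_lit 455) ln11_13_1_c10 ln11_13_1_c10_ok))))))))) (B (M (nat_lit 424) (B (M (nat_lit 459) (B (L (nat_lit 460) ln8_13_0 ln8_13_0_ok) (M (nat_lit 455) (B (L (nat_lit 456) ln11_13_1_c10 ln11_13_1_c10_ok) (M (nat_lit 423) (B (L (nat_lit 454) ln10_13_1_c10 ln10_13_1_c10_ok) (L (nat_lit 458) ln7_13_0 ln7_13_0_ok))))))) (B (M (nat_lit 423) (B (M (nat_lit 391) (B (L (nat_lit 390) ln10_13_3_c10 ln10_13_3_c10_ok) (L (nat_lit 392) ln11_13_3 ln11_13_3_ok))) (M (nat_lit 459) (B (L (nat_lit 458) ln7_13_0 ln7_13_0_ok) (L (nat_lit 460) ln8_13_0 ln8_13_0_ok))))) (M (nat_lit 456) (B (L (nat_lit 455) ln11_13_1_c10 ln11_13_1_c10_ok) (M (nat_lit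 392) (B (L (nat_lit 391) ln11_13_3 ln11_13_3_ok) (M (nat_lit 488) (B (M (nat_lit 393) (B (L (nat_lit 520) ln8_16_6_c10 ln8_16_6_c10_ok) (L (nat_lit 361) ln8_15_6_c10 ln8_15_6_c10_ok))) (B (M (nat_lit 360) (B (M (nat_lit 489) (B (L (nat_lit 521) ln8_12_4_c10 ln8_12_4_c10_ok) (L (nat_lit 457) ln8_11_4_c10 ln8_11_4_c10_ok))) (M (nat_lit 361) (B (L (nat_lit 393) ln8_15_6_c10 ln8_15_6_c10_ok) (L (nat_lit 329) ln8_14_6_c10 ln8_14_6_c10_ok))))) (M (nat_lit 520) (B (M (nat_lit 519) (B (L (nat_lit 551) ln8_13_5_c10 ln8_13_5_c10_ok) (L (nat_lit 487) ln8_12_5_c10 ln8_12_5_c10_ok))) (M (nat_lit 521) (B (L (nat_lit 553) ln8_13_4_c10 ln8_13_4_c10_ok) (L (nat_lit 489) ln8_12_4_c10 ln8_12_4_c10_ok))))))))))))))) c10_d437)))) (B (K (nat_lit 5954262831335822062088120850272634600334353401978639263018415088212529061853840731832816342148421894274946874679036947102871160295308394496) (nat_lit 6393341036815344206659260761557925907942095047184662171910971821255093701130660437242831190966933076489675162278984049397303812946142853110693888000)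 (nat_lit 6393341036815344206659260761557925907942095047184662171910971821255093701130660437242831190966933076489675162278984049397303812946142853110693888000) c10_s56) (B (M (nat_lit 428) (B (M (nat_lit 394) (B (L (nat_lit 393) ln13_13_3 ln13_13_3_ok) (M (nat_lit 458) (B (L (nat_lit 457) ln13_13_1 ln13_13_1_ok) (M (nat_lit 362) (B (L (nat_lit 331) ln10_14_6 ln10_14_6_ok) (M (nat_lit 459) (B (L (nat_lit 330) ln10_10_4 ln10_10_4_ok) (L (nat_lit 491) ln10_11_4 ln10_11_4_ok))))))))) (L (nat_lit 462) ln10_13_0 ln10_13_0_ok))) (M (nat_lit 428) (B (M (nat_lit 425) (B (M (nat_lit 393) (B (L (nat_lit 394) ln13_13_3 ln13_13_3_ok) (L (nat_lit 392) ln12_13_3 ln12_13_3_ok))) (L (nat_lit 460) ln9_13_0 ln9_13_0_ok))) (L (nat_lit 462) ln10_13_0 ln10_13_0_ok))))))))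
noncomputable def c10_d439 : Cert := (B (M (nat_lit 459) (B (M (nat_lit 426) (B (M (nat_lit 425) (B (M (nat_lit 424) (B (L (nat_lit 396) ln8_13_2 ln8_13_2_ok) (M (nat_lit 423) (B (M (nat_lit 391) (B (L (nat_lit 392) ln11_13_3 ln11_13_3_ok) (L (nat_lit 390) ln10_13_3_c10 ln10_13_3_c10_ok))) (M (nat_lit 422) (B (L (nat_lit 458) ln7_13_0 ln7_13_0_ok) (M (nat_lit 454) (B (L (nat_lit 455) ln10_13_1_c10 ln10_13_1_c10_ok) (L (nat_lit 453) ln9_13_1_c10 ln9_13_1_c10_ok))))))))) (B (M (nat_lit 424) (B (L (nat_lit 396) ln8_13_2 ln8_13_2_ok) (M (nat_lit 455) (B (L (nat_lit 456) ln11_13_1_c10 ln11_13_1_c10_ok) (M (nat_lit 391) (B (L (nat_lit 392) ln11_13_3 ln11_13_3_ok) (M (nat_lit 423) (B (L (nat_lit 454) ln10_13_1_c10 ln10_13_1_c10_ok) (L (nat_lit 390) ln10_13_3_c10 ln10_13_3_c10_ok))))))))) (M (nat_lit 428) (B (M (nat_lit 457) (B (L (nat_lit 458) ln13_13_1 ln13_13_1_ok) (L (nat_lit 456) ln12_13_1 ln12_13_1_ok))) (L (nat_lit 462) ln10_13_0 ln10_13_0_ok)))))) (B (K (nat_lit 7442828538693224974013831317517483780117358382791360771547710322160391558686037783696750852198235963875564936218674386743121998554859569152)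 (nat_lit 12234149408188452979393218309572768827582243762788600183996496960120205910484356899046288311004763577896008530207921478663161363585547894784) (nat_lit 12234149408188452979393218309572768827582243762788600183996496960120205910484356899046288311004763577896008530207921478663161363585547894784) c10_s76) (K (nat_lit 7442828538693224974013831317517483780117358382791360771547710322160391558686037783696750852198235963875564936218674386743121998554859569152) (nat_lit 253266331521236183188917834186547313995198761734105922432632904510931804078734630997564241999714634795989469779345239644235525992676691251741598997619283742883528092570804551680) (nat_lit 253266331521236183188917834186547313995198761734105922432632904510931804078734630997564241999714634795989469779345239644235525992676691251741598997619283742883528092570804551680) c10_s71)))) (B (K (nat_lit 7442828538519933118131280388793832893608415651326583454336721786212236584897623951958899250758237563494056212587587436058034275315548684288)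 (nat_lit 5594173415516831767515619254948884627131496619889049474097145503527912348745200832582722642505607260041579173786688002516802584410574164248504565760) (nat_lit 5594173415516831767515619254948884627131496619889049474097145503527912348745200832582722642505607260041579173786688002516802584410574164248504565760) c10_s77) (B (M (nat_lit 491) (B (M (nat_lit 523) (B (M (nat_lit 428) (B (M (nat_lit 426) (B (L (nat_lit 462) ln10_13_0 ln10_13_0_ok) (M (nat_lit 425) (B (M (nat_lit 457) (B (L (nat_lit 458) ln13_13_1 ln13_13_1_ok) (L (nat_lit 456) ln12_13_1 ln12_13_1_ok))) (B (M (nat_lit 424) (B (M (nat_lit 456) (B (L (nat_lit 457) ln12_13_1 ln12_13_1_ok) (L (nat_lit 455) ln11_13_1_c10 ln11_13_1_c10_ok))) (M (nat_lit 392) (B (L (nat_lit 393) ln12_13_3 ln12_13_3_ok) (L (nat_lit 391) ln11_13_3 ln11_13_3_ok))))) (B (M (nat_lit 424) (B (M (nat_lit 392) (B (L (nat_lit 393) ln12_13_3 ln12_13_3_ok) (L (nat_lit 391) ln11_13_3 ln11_13_3_ok))) (M (nat_lit 455) (B (L (nat_lit 456) ln11_13_1_c10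 ln11_13_1_c10_ok) (M (nat_lit 423) (B (L (nat_lit 458) ln7_13_0 ln7_13_0_ok) (L (nat_lit 454) ln10_13_1_c10 ln10_13_1_c10_ok))))))) (M (nat_lit 424) (B (M (nat_lit 458) (B (L (nat_lit 457) ln13_13_1 ln13_13_1_ok) (L (nat_lit 423) ln7_13_0 ln7_13_0_ok))) (M (nat_lit 392) (B (L (nat_lit 393) ln12_13_3 ln12_13_3_ok) (L (nat_lit 391) ln11_13_3 ln11_13_3_ok))))))))))) (L (nat_lit 396) ln11_16_6 ln11_16_6_ok))) (M (nat_lit 524) (B (L (nat_lit 492) ln11_12_4 ln11_12_4_ok) (L (nat_lit 556) ln11_13_4 ln11_13_4_ok))))) (B (M (nat_lit 362) (B (L (nat_lit 330) ln11_14_7 ln11_14_7_ok) (M (nat_lit 523) (B (M (nat_lit 524) (B (L (nat_lit 556) ln11_13_4 ln11_13_4_ok) (L (nat_lit 492) ln11_12_4 ln11_12_4_ok))) (M (nat_lit 522) (B (L (nat_lit 554) ln11_13_5 ln11_13_5_ok) (L (nat_lit 490) ln11_12_5 ln11_12_5_ok))))))) (M (nat_lit 490) (B (L (nat_lit 458) ln11_11_5 ln11_11_5_ok) (L (nat_lit 522) ln11_12_5 ln11_12_5_ok)))))) (B (M (nat_lit 491) (B (M (nat_lit 490) (B (L (nat_lit 458) ln11_11_5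 ln11_11_5_ok) (L (nat_lit 522) ln11_12_5 ln11_12_5_ok))) (B (M (nat_lit 523) (B (M (nat_lit 524) (B (L (nat_lit 492) ln11_12_4 ln11_12_4_ok) (L (nat_lit 556) ln11_13_4 ln11_13_4_ok))) (M (nat_lit 522) (B (L (nat_lit 490) ln11_12_5 ln11_12_5_ok) (L (nat_lit 554) ln11_13_5 ln11_13_5_ok))))) (B (M (nat_lit 523) (B (M (nat_lit 524) (B (L (nat_lit 492) ln11_12_4 ln11_12_4_ok) (L (nat_lit 556) ln11_13_4 ln11_13_4_ok))) (M (nat_lit 555) (B (M (nat_lit 426) (B (L (nat_lit 394) ln11_16_7 ln11_16_7_ok) (L (nat_lit 458) ln11_17_7 ln11_17_7_ok))) (M (nat_lit 554) (B (L (nat_lit 522) ln11_13_5 ln11_13_5_ok) (L (nat_lit 586) ln11_14_5 ln11_14_5_ok))))))) (M (nat_lit 523) (B (M (nat_lit 524) (B (L (nat_lit 492) ln11_12_4 ln11_12_4_ok) (L (nat_lit 556) ln11_13_4 ln11_13_4_ok))) (M (nat_lit 426) (B (L (nat_lit 394) ln11_16_7 ln11_16_7_ok) (M (nat_lit 458) (B (L (nat_lit 490) ln11_11_5 ln11_11_5_ok) (L (nat_lit 555) ln11_17_7 ln11_17_7_ok))))))))))) (M (nat_lit 362) (B (L (nat_lit 330) ln11_14_7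 ln11_14_7_ok) (M (nat_lit 491) (B (L (nat_lit 394) ln11_15_7 ln11_15_7_ok) (M (nat_lit 523) (B (M (nat_lit 524) (B (L (nat_lit 492) ln11_12_4 ln11_12_4_ok) (L (nat_lit 556) ln11_13_4 ln11_13_4_ok))) (M (nat_lit 522) (B (L (nat_lit 490) ln11_12_5 ln11_12_5_ok) (L (nat_lit 554) ln11_13_5 ln11_13_5_ok)))))))))))))) (B (K (nat_lit 5954262831162530206286265230239199607252158144638956066880229858290287322841385004986859978896449781225614568337954303650155411180145868800) (nat_lit 54918381305819074232979191551847507108488626286461226742647112418523033493016920512800165714062236620462190237564766049698911130333067494708350207905480310784) (nat_lit 54918381305819074232979191551847507108488626286461226742647112418523033493016920512800165714062236620462190237564766049698911130333067494708350207905480310784) c10_s78) (B (M (nat_lit 459) (B (M (nat_lit 426) (B (M (nat_lit 462) (B (L (nat_lit 460) ln14_14_3 ln14_14_3_ok) (L (nat_lit 428) ln10_13_0 ln10_13_0_ok))) (B (M (nat_lit 425) (B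 (M (nat_lit 460) (B (L (nat_lit 458) ln13_14_3 ln13_14_3_ok) (L (nat_lit 428) ln9_13_0 ln9_13_0_ok))) (B (M (nat_lit 424) (B (L (nat_lit 396) ln8_13_2 ln8_13_2_ok) (M (nat_lit 423) (B (L (nat_lit 458) ln7_13_0 ln7_13_0_ok) (L (nat_lit 394) ln7_13_2 ln7_13_2_ok))))) (M (nat_lit 424) (B (L (nat_lit 460) ln8_13_0 ln8_13_0_ok) (L (nat_lit 396) ln8_13_2 ln8_13_2_ok)))))) (B (M (nat_lit 428) (B (L (nat_lit 462) ln10_13_0 ln10_13_0_ok) (M (nat_lit 425) (B (M (nat_lit 457) (B (L (nat_lit 458) ln13_13_1 ln13_13_1_ok) (L (nat_lit 456) ln12_13_1 ln12_13_1_ok))) (M (nat_lit 393) (B (L (nat_lit 394) ln13_13_3 ln13_13_3_ok) (L (nat_lit 392) ln12_13_3 ln12_13_3_ok))))))) (M (nat_lit 460) (B (L (nat_lit 462) ln14_14_3 ln14_14_3_ok) (M (nat_lit 425) (B (L (nat_lit 458) ln13_14_3 ln13_14_3_ok) (L (nat_lit 424) ln8_13_0 ln8_13_0_ok))))))))) (B (K (nat_lit 7442828538519933118131280388793832893608415651326583454336721786212236584897623951958899250758237563494056212587587436058034275315548684288)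 (nat_lit 1013065324846613311822781578762100152300878690779692722003361584541151127249466453216697853383836016808962749683910977600093520951046853845450314767997988072102899863122668945408) (nat_lit 1013065324846613311822781578762100152300878690779692722003361584541151127249466453216697853383836016808962749683910977600093520951046853845450314767997988072102899863122668945408) c10_s31) (M (nat_lit 362) (B (L (nat_lit 330) ln11_14_7 ln11_14_7_ok) (M (nat_lit 491) (B (L (nat_lit 394) ln11_15_7 ln11_15_7_ok) (M (nat_lit 523) (B (M (nat_lit 524) (B (L (nat_lit 492) ln11_12_4 ln11_12_4_ok) (L (nat_lit 556) ln11_13_4 ln11_13_4_ok))) (M (nat_lit 522) (B (L (nat_lit 490) ln11_12_5 ln11_12_5_ok) (L (nat_lit 554) ln11_13_5 ln11_13_5_ok)))))))))))) (B (K (nat_lit 5954262831162530206286265230239199607252158144638956066880229858290287322841385004986859978896449781225614568337954303650155411180145868800) (nat_lit 294840814535290085410873767965064507116940702384061133024019532635347700271506902244268991594004818594098187138118735103870507353089723985130005291488325573556182188032)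 (nat_lit 294840814535290085410873767965064507116940702384061133024019532635347700271506902244268991594004818594098187138118735103870507353089723985130005291488325573556182188032) c10_s79) (B (K (nat_lit 5954262831162530206286265230239199607252158144638956066880229858290287322841385004986859978896449781225614568337954303650155411180145868800) (nat_lit 235872651619994311854834147636101539680499351824960565631039512253437782751791182384106664487747204783138906854834492128092631021925656004665193737540476931237298044928) (nat_lit 235872651619994311854834147636101539680499351824960565631039512253437782751791182384106664487747204783138906854834492128092631021925656004665193737540476931237298044928) c10_s80) (K (nat_lit 5954262831162530206286265230239199607252158144638956066880229858290287322841385004986859978896449781225614568337954303650155411180145868800) (nat_lit 68647976626479877465335361461529866314613663262271253689803211927387907099040965059862572223900102815475311100248640561457265881612992512206802839988625997824)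 (nat_lit 68647976626479877465335361461529866314613663262271253689803211927387907099040965059862572223900102815475311100248640561457265881612992512206802839988625997824) c10_s32))))))
noncomputable def c10_d440 : Cert := (B (M (nat_lit 360) (B (M (nat_lit 328) (B (M (nat_lit 297) (B (L (nat_lit 329) ln8_13_6_c10 ln8_13_6_c10_ok) (M (nat_lit 296) (B (L (nat_lit 265) ln8_12_6_c10 ln8_12_6_c10_ok) (M (nat_lit 295) (B (L (nat_lit 327) ln8_13_7_c10 ln8_13_7_c10_ok) (L (nat_lit 263) ln8_12_7_c10 ln8_12_7_c10_ok))))))) (B (M (nat_lit 296) (B (M (nat_lit 423) (B (L (nat_lit 455) ln8_10_5_c10 ln8_10_5_c10_ok) (L (nat_lit 391) ln8_9_5_c10 ln8_9_5_c10_ok))) (M (nat_lit 295) (B (L (nat_lit 327) ln8_13_7_c10 ln8_13_7_c10_ok) (L (nat_lit 263) ln8_12_7_c10 ln8_12_7_c10_ok))))) (B (M (nat_lit 296) (B (M (nat_lit 423) (B (L (nat_lit 455) ln8_10_5_c10 ln8_10_5_c10_ok) (L (nat_lit 391) ln8_9_5_c10 ln8_9_5_c10_ok))) (M (nat_lit 297) (B (L (nat_lit 329) ln8_13_6_c10 ln8_13_6_c10_ok) (L (nat_lit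 265) ln8_12_6_c10 ln8_12_6_c10_ok))))) (M (nat_lit 455) (B (L (nat_lit 487) ln8_11_5_c10 ln8_11_5_c10_ok) (L (nat_lit 423) ln8_10_5_c10 ln8_10_5_c10_ok))))))) (B (M (nat_lit 328) (B (M (nat_lit 329) (B (L (nat_lit 297) ln8_13_6_c10 ln8_13_6_c10_ok) (L (nat_lit 361) ln8_14_6_c10 ln8_14_6_c10_ok))) (M (nat_lit 327) (B (L (nat_lit 295) ln8_13_7_c10 ln8_13_7_c10_ok) (L (nat_lit 359) ln8_14_7_c10 ln8_14_7_c10_ok))))) (B (M (nat_lit 328) (B (M (nat_lit 296) (B (M (nat_lit 297) (B (L (nat_lit 265) ln8_12_6_c10 ln8_12_6_c10_ok) (L (nat_lit 329) ln8_13_6_c10 ln8_13_6_c10_ok))) (M (nat_lit 423) (B (L (nat_lit 391) ln8_9_5_c10 ln8_9_5_c10_ok) (L (nat_lit 455) ln8_10_5_c10 ln8_10_5_c10_ok))))) (B (M (nat_lit 329) (B (L (nat_lit 297) ln8_13_6_c10 ln8_13_6_c10_ok) (L (nat_lit 361) ln8_14_6_c10 ln8_14_6_c10_ok))) (B (M (nat_lit 296) (B (M (nat_lit 423) (B (L (nat_lit 391) ln8_9_5_c10 ln8_9_5_c10_ok) (L (nat_lit 455) ln8_10_5_c10 ln8_10_5_c10_ok))) (M (nat_lit 264) (B (M (nat_lit 263) (B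 (L (nat_lit 231) ln8_11_7_c10 ln8_11_7_c10_ok) (L (nat_lit 295) ln8_12_7_c10 ln8_12_7_c10_ok))) (M (nat_lit 361) (B (L (nat_lit 393) ln8_8_4_c10 ln8_8_4_c10_ok) (L (nat_lit 329) ln8_14_6_c10 ln8_14_6_c10_ok))))))) (M (nat_lit 296) (B (M (nat_lit 423) (B (L (nat_lit 391) ln8_9_5_c10 ln8_9_5_c10_ok) (L (nat_lit 455) ln8_10_5_c10 ln8_10_5_c10_ok))) (M (nat_lit 264) (B (M (nat_lit 265) (B (L (nat_lit 233) ln8_11_6_c10 ln8_11_6_c10_ok) (L (nat_lit 297) ln8_12_6_c10 ln8_12_6_c10_ok))) (M (nat_lit 263) (B (L (nat_lit 231) ln8_11_7_c10 ln8_11_7_c10_ok) (L (nat_lit 295) ln8_12_7_c10 ln8_12_7_c10_ok))))))))))) (B (M (nat_lit 328) (B (M (nat_lit 329) (B (L (nat_lit 297) ln8_13_6_c10 ln8_13_6_c10_ok) (L (nat_lit 361) ln8_14_6_c10 ln8_14_6_c10_ok))) (M (nat_lit 455) (B (L (nat_lit 423) ln8_10_5_c10 ln8_10_5_c10_ok) (L (nat_lit 487) ln8_11_5_c10 ln8_11_5_c10_ok))))) (B (M (nat_lit 328) (B (M (nat_lit 455) (B (L (nat_lit 487) ln8_11_5_c10 ln8_11_5_c10_ok) (L (nat_lit 423) ln8_10_5_c10 ln8_10_5_c10_ok)))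 (M (nat_lit 327) (B (L (nat_lit 359) ln8_14_7_c10 ln8_14_7_c10_ok) (L (nat_lit 295) ln8_13_7_c10 ln8_13_7_c10_ok))))) (M (nat_lit 359) (B (L (nat_lit 327) ln8_14_7_c10 ln8_14_7_c10_ok) (M (nat_lit 361) (B (L (nat_lit 329) ln8_14_6_c10 ln8_14_6_c10_ok) (M (nat_lit 358) (B (M (nat_lit 357) (B (L (nat_lit 393) ln5_11_0_c10 ln5_11_0_c10_ok) (M (nat_lit 325) (B (L (nat_lit 326) ln9_11_3_c10 ln9_11_3_c10_ok) (L (nat_lit 324) ln8_11_3_c10 ln8_11_3_c10_ok))))) (B (M (nat_lit 357) (B (L (nat_lit 393) ln5_11_0_c10 ln5_11_0_c10_ok) (M (nat_lit 389) (B (L (nat_lit 388) ln8_11_1_c10 ln8_11_1_c10_ok) (L (nat_lit 390) ln9_11_1_c10 ln9_11_1_c10_ok))))) (M (nat_lit 390) (B (L (nat_lit 389) ln9_11_1_c10 ln9_11_1_c10_ok) (M (nat_lit 455) (B (L (nat_lit 487) ln8_11_5_c10 ln8_11_5_c10_ok) (M (nat_lit 326) (B (L (nat_lit 325) ln9_11_3_c10 ln9_11_3_c10_ok) (M (nat_lit 423) (B (L (nat_lit 422) ln6_10_4_c10 ln6_10_4_c10_ok) (L (nat_lit 391) ln7_14_7_c10 ln7_14_7_c10_ok)))))))))))))))))))))) (B (M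 (nat_lit 488) (B (M (nat_lit 360) (B (M (nat_lit 361) (B (L (nat_lit 393) ln8_15_6_c10 ln8_15_6_c10_ok) (L (nat_lit 329) ln8_14_6_c10 ln8_14_6_c10_ok))) (M (nat_lit 487) (B (L (nat_lit 519) ln8_12_5_c10 ln8_12_5_c10_ok) (L (nat_lit 455) ln8_11_5_c10 ln8_11_5_c10_ok))))) (B (M (nat_lit 520) (B (M (nat_lit 519) (B (L (nat_lit 551) ln8_13_5_c10 ln8_13_5_c10_ok) (L (nat_lit 487) ln8_12_5_c10 ln8_12_5_c10_ok))) (M (nat_lit 552) (B (M (nat_lit 553) (B (L (nat_lit 585) ln8_14_4_c10 ln8_14_4_c10_ok) (L (nat_lit 521) ln8_13_4_c10 ln8_13_4_c10_ok))) (M (nat_lit 423) (B (L (nat_lit 455) ln8_17_7_c10 ln8_17_7_c10_ok) (L (nat_lit 391) ln8_16_7_c10 ln8_16_7_c10_ok))))))) (B (M (nat_lit 423) (B (M (nat_lit 391) (B (L (nat_lit 520) ln8_16_7_c10 ln8_16_7_c10_ok) (M (nat_lit 393) (B (L (nat_lit 394) ln7_12_0_c10 ln7_12_0_c10_ok) (L (nat_lit 361) ln8_15_6_c10 ln8_15_6_c10_ok))))) (B (M (nat_lit 455) (B (M (nat_lit 520) (B (L (nat_lit 552) ln8_17_7_c10 ln8_17_7_c10_ok) (L (nat_lit 391) ln8_16_7_c10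 ln8_16_7_c10_ok))) (M (nat_lit 360) (B (L (nat_lit 487) ln8_11_5_c10 ln8_11_5_c10_ok) (L (nat_lit 328) ln8_10_5_c10 ln8_10_5_c10_ok))))) (M (nat_lit 360) (B (M (nat_lit 361) (B (L (nat_lit 393) ln8_15_6_c10 ln8_15_6_c10_ok) (L (nat_lit 329) ln8_14_6_c10 ln8_14_6_c10_ok))) (M (nat_lit 455) (B (L (nat_lit 487) ln8_11_5_c10 ln8_11_5_c10_ok) (L (nat_lit 328) ln8_10_5_c10 ln8_10_5_c10_ok)))))))) (M (nat_lit 520) (B (M (nat_lit 393) (B (L (nat_lit 361) ln8_15_6_c10 ln8_15_6_c10_ok) (M (nat_lit 391) (B (L (nat_lit 394) ln7_12_0_c10 ln7_12_0_c10_ok) (L (nat_lit 423) ln8_16_7_c10 ln8_16_7_c10_ok))))) (M (nat_lit 552) (B (M (nat_lit 553) (B (L (nat_lit 585) ln8_14_4_c10 ln8_14_4_c10_ok) (L (nat_lit 521) ln8_13_4_c10 ln8_13_4_c10_ok))) (M (nat_lit 551) (B (L (nat_lit 583) ln8_14_5_c10 ln8_14_5_c10_ok) (L (nat_lit 519) ln8_13_5_c10 ln8_13_5_c10_ok))))))))))) (B (M (nat_lit 359) (B (M (nat_lit 327) (B (L (nat_lit 360) ln8_14_7_c10 ln8_14_7_c10_ok) (M (nat_lit 391) (B (L (nat_lit 423)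 ln7_10_4_c10 ln7_10_4_c10_ok) (L (nat_lit 488) ln8_15_7_c10 ln8_15_7_c10_ok))))) (B (M (nat_lit 393) (B (M (nat_lit 488) (B (L (nat_lit 391) ln8_15_7_c10 ln8_15_7_c10_ok) (L (nat_lit 361) ln8_15_6_c10 ln8_15_6_c10_ok))) (B (M (nat_lit 361) (B (L (nat_lit 488) ln8_15_6_c10 ln8_15_6_c10_ok) (M (nat_lit 329) (B (L (nat_lit 360) ln8_14_6_c10 ln8_14_6_c10_ok) (L (nat_lit 297) ln9_9_5_c10 ln9_9_5_c10_ok))))) (M (nat_lit 394) (B (L (nat_lit 360) ln11_12_3 ln11_12_3_ok) (L (nat_lit 391) ln7_12_0_c10 ln7_12_0_c10_ok)))))) (B (M (nat_lit 360) (B (L (nat_lit 327) ln8_14_7_c10 ln8_14_7_c10_ok) (M (nat_lit 361) (B (L (nat_lit 329) ln8_14_6_c10 ln8_14_6_c10_ok) (M (nat_lit 393) (B (L (nat_lit 488) ln8_15_6_c10 ln8_15_6_c10_ok) (L (nat_lit 394) ln11_12_3 ln11_12_3_ok))))))) (B (M (nat_lit 391) (B (L (nat_lit 488) ln8_15_7_c10 ln8_15_7_c10_ok) (M (nat_lit 327) (B (L (nat_lit 295) ln7_9_4_c10 ln7_9_4_c10_ok) (L (nat_lit 423) ln7_10_4_c10 ln7_10_4_c10_ok))))) (M (nat_lit 327) (B (L (nat_lit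 360) ln8_14_7_c10 ln8_14_7_c10_ok) (M (nat_lit 391) (B (L (nat_lit 295) ln7_9_4_c10 ln7_9_4_c10_ok) (L (nat_lit 423) ln7_10_4_c10 ln7_10_4_c10_ok)))))))))) (B (M (nat_lit 360) (B (M (nat_lit 329) (B (L (nat_lit 361) ln8_14_6_c10 ln8_14_6_c10_ok) (M (nat_lit 328) (B (L (nat_lit 297) ln8_13_6_c10 ln8_13_6_c10_ok) (M (nat_lit 327) (B (L (nat_lit 359) ln8_14_7_c10 ln8_14_7_c10_ok) (L (nat_lit 295) ln8_13_7_c10 ln8_13_7_c10_ok))))))) (B (M (nat_lit 328) (B (M (nat_lit 455) (B (L (nat_lit 487) ln8_11_5_c10 ln8_11_5_c10_ok) (L (nat_lit 423) ln8_10_5_c10 ln8_10_5_c10_ok))) (M (nat_lit 327) (B (L (nat_lit 359) ln8_14_7_c10 ln8_14_7_c10_ok) (L (nat_lit 295) ln8_13_7_c10 ln8_13_7_c10_ok))))) (B (M (nat_lit 328) (B (M (nat_lit 455) (B (L (nat_lit 487) ln8_11_5_c10 ln8_11_5_c10_ok) (L (nat_lit 423) ln8_10_5_c10 ln8_10_5_c10_ok))) (M (nat_lit 329) (B (L (nat_lit 361) ln8_14_6_c10 ln8_14_6_c10_ok) (L (nat_lit 297) ln8_13_6_c10 ln8_13_6_c10_ok))))) (M (nat_lit 488) (B (M (nat_lit 487) (B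 (L (nat_lit 519) ln8_12_5_c10 ln8_12_5_c10_ok) (L (nat_lit 455) ln8_11_5_c10 ln8_11_5_c10_ok))) (M (nat_lit 361) (B (L (nat_lit 393) ln8_15_6_c10 ln8_15_6_c10_ok) (L (nat_lit 329) ln8_14_6_c10 ln8_14_6_c10_ok))))))))) (B (M (nat_lit 488) (B (M (nat_lit 520) (B (M (nat_lit 391) (B (L (nat_lit 359) ln8_15_7_c10 ln8_15_7_c10_ok) (L (nat_lit 423) ln8_16_7_c10 ln8_16_7_c10_ok))) (M (nat_lit 521) (B (L (nat_lit 489) ln8_12_4_c10 ln8_12_4_c10_ok) (L (nat_lit 553) ln8_13_4_c10 ln8_13_4_c10_ok))))) (B (M (nat_lit 519) (B (L (nat_lit 487) ln8_12_5_c10 ln8_12_5_c10_ok) (M (nat_lit 520) (B (L (nat_lit 551) ln8_13_5_c10 ln8_13_5_c10_ok) (M (nat_lit 521) (B (L (nat_lit 489) ln8_12_4_c10 ln8_12_4_c10_ok) (L (nat_lit 553) ln8_13_4_c10 ln8_13_4_c10_ok))))))) (B (M (nat_lit 520) (B (M (nat_lit 391) (B (L (nat_lit 359) ln8_15_7_c10 ln8_15_7_c10_ok) (L (nat_lit 423) ln8_16_7_c10 ln8_16_7_c10_ok))) (M (nat_lit 519) (B (L (nat_lit 487) ln8_12_5_c10 ln8_12_5_c10_ok) (L (nat_lit 551) ln8_13_5_c10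 ln8_13_5_c10_ok))))) (M (nat_lit 360) (B (M (nat_lit 359) (B (L (nat_lit 327) ln8_14_7_c10 ln8_14_7_c10_ok) (L (nat_lit 391) ln8_15_7_c10 ln8_15_7_c10_ok))) (M (nat_lit 487) (B (L (nat_lit 455) ln8_11_5_c10 ln8_11_5_c10_ok) (L (nat_lit 519) ln8_12_5_c10 ln8_12_5_c10_ok))))))))) (M (nat_lit 488) (B (M (nat_lit 391) (B (L (nat_lit 359) ln8_15_7_c10 ln8_15_7_c10_ok) (M (nat_lit 393) (B (L (nat_lit 361) ln8_15_6_c10 ln8_15_6_c10_ok) (L (nat_lit 394) ln7_12_0_c10 ln7_12_0_c10_ok))))) (M (nat_lit 520) (B (M (nat_lit 519) (B (L (nat_lit 487) ln8_12_5_c10 ln8_12_5_c10_ok) (L (nat_lit 551) ln8_13_5_c10 ln8_13_5_c10_ok))) (M (nat_lit 521) (B (L (nat_lit 489) ln8_12_4_c10 ln8_12_4_c10_ok) (L (nat_lit 553) ln8_13_4_c10 ln8_13_4_c10_ok))))))))))))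
noncomputable def c10_d441 : Cert := (B (M (nat_lit 458) (B (M (nat_lit 459) (B (M (nat_lit 491) (B (M (nat_lit 395) (B (M (nat_lit 424) (B (M (nat_lit 456) (B (M (nat_lit 392) c10_d440) (B (M (nat_lit 488) (B (M (nat_lit 457) (B (L (nat_lit 487) ln11_14_1 ln11_14_1_ok) (L (nat_lit 423) ln11_14_3 ln11_14_3_ok))) (B (M (nat_lit 520) (B (M (nat_lit 423) (B (L (nat_lit 391) ln8_16_7_c10 ln8_16_7_c10_ok) (L (nat_lit 457) ln11_14_3 ln11_14_3_ok))) (M (nat_lit 552) (B (M (nat_lit 551) (B (L (nat_lit 583) ln8_14_5_c10 ln8_14_5_c10_ok) (L (nat_lit 519) ln8_13_5_c10 ln8_13_5_c10_ok))) (M (nat_lit 553) (B (L (nat_lit 585) ln8_14_4_c10 ln8_14_4_c10_ok) (L (nat_lit 521) ln8_13_4_c10 ln8_13_4_c10_ok))))))) (B (M (nat_lit 487) (B (L (nat_lit 457) ln11_14_1 ln11_14_1_ok) (M (nat_lit 519) (B (L (nat_lit 392) ln8_12_5_c10 ln8_12_5_c10_ok) (M (nat_lit 551) (B (L (nat_lit 583) ln7_18_6_c10 ln7_18_6_c10_ok) (L (nat_lit 520) ln8_13_5_c10 ln8_13_5_c10_ok))))))) (M (nat_lit 520) (B (M (nat_lit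 552) (B (M (nat_lit 551) (B (L (nat_lit 583) ln8_14_5_c10 ln8_14_5_c10_ok) (L (nat_lit 519) ln8_13_5_c10 ln8_13_5_c10_ok))) (M (nat_lit 553) (B (L (nat_lit 585) ln8_14_4_c10 ln8_14_4_c10_ok) (L (nat_lit 521) ln8_13_4_c10 ln8_13_4_c10_ok))))) (M (nat_lit 391) (B (L (nat_lit 423) ln8_16_7_c10 ln8_16_7_c10_ok) (M (nat_lit 392) (B (L (nat_lit 359) ln8_15_7_c10 ln8_15_7_c10_ok) (M (nat_lit 393) (B (L (nat_lit 394) ln7_12_0_c10 ln7_12_0_c10_ok) (L (nat_lit 361) ln8_15_6_c10 ln8_15_6_c10_ok))))))))))))) (M (nat_lit 457) (B (L (nat_lit 455) ln7_14_2 ln7_14_2_ok) (L (nat_lit 492) ln8_14_0 ln8_14_0_ok)))))) (B (M (nat_lit 425) (B (L (nat_lit 396) ln8_13_2 ln8_13_2_ok) (M (nat_lit 392) (B (L (nat_lit 391) ln11_13_3 ln11_13_3_ok) (M (nat_lit 456) (B (L (nat_lit 455) ln11_13_1_c10 ln11_13_1_c10_ok) (M (nat_lit 393) (B (M (nat_lit 361) (B (L (nat_lit 329) ln9_10_4_c10 ln9_10_4_c10_ok) (L (nat_lit 488) ln8_15_6_c10 ln8_15_6_c10_ok))) (M (nat_lit 360) (B (M (nat_lit 457) (B (L (nat_lit 489)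 ln8_11_4_c10 ln8_11_4_c10_ok) (L (nat_lit 328) ln8_10_4_c10 ln8_10_4_c10_ok))) (M (nat_lit 359) (B (L (nat_lit 394) ln11_12_3 ln11_12_3_ok) (L (nat_lit 327) ln8_14_7_c10 ln8_14_7_c10_ok))))))))))))) (M (nat_lit 425) (B (L (nat_lit 396) ln8_13_2 ln8_13_2_ok) (L (nat_lit 423) ln7_13_0 ln7_13_0_ok)))))) (L (nat_lit 331) ln11_10_5 ln11_10_5_ok))) (B (M (nat_lit 524) (B (M (nat_lit 395) (B (L (nat_lit 492) ln11_12_4 ln11_12_4_ok) (L (nat_lit 331) ln11_10_5 ln11_10_5_ok))) (M (nat_lit 523) (B (L (nat_lit 556) ln11_13_4 ln11_13_4_ok) (L (nat_lit 555) ln11_17_7 ln11_17_7_ok))))) (M (nat_lit 523) (B (L (nat_lit 394) ln11_16_7 ln11_16_7_ok) (L (nat_lit 555) ln11_17_7 ln11_17_7_ok)))))) (B (M (nat_lit 395) (B (M (nat_lit 460) (B (L (nat_lit 462) ln14_14_3 ln14_14_3_ok) (L (nat_lit 492) ln11_11_4 ln11_11_4_ok))) (L (nat_lit 331) ln11_10_5 ln11_10_5_ok))) (M (nat_lit 460) (B (L (nat_lit 462) ln14_14_3 ln14_14_3_ok) (L (nat_lit 425) ln13_14_3 ln13_14_3_ok)))))) (B (K (nat_lit 6698545685014523518010628429549951243512482155322452956746661052173503692881960205318835978079315785409167696803853513306810592363009802240)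 (nat_lit 886432159085995220399084503476962510213666421772890594079476702491163345396389443606466886303635252257621947685705302404608403581441023823773810562762271180719933708297270460416) (nat_lit 886432159085995220399084503476962510213666421772890594079476702491163345396389443606466886303635252257621947685705302404608403581441023823773810562762271180719933708297270460416) c10_s54) (B (M (nat_lit 395) (B (L (nat_lit 331) ln11_10_5 ln11_10_5_ok) (M (nat_lit 459) (B (L (nat_lit 490) ln11_11_5 ln11_11_5_ok) (M (nat_lit 460) (B (L (nat_lit 492) ln11_11_4 ln11_11_4_ok) (L (nat_lit 425) ln13_14_3 ln13_14_3_ok))))))) (M (nat_lit 395) (B (M (nat_lit 490) (B (L (nat_lit 394) ln10_15_6 ln10_15_6_ok) (L (nat_lit 522) ln10_16_6 ln10_16_6_ok))) (L (nat_lit 331) ln11_10_5 ln11_10_5_ok))))))) (B (M (nat_lit 428) (B (K (nat_lit 5954262832028989485618324565167238146370124327837748531862369232005148957007496058784222747908415495800981769203384749843222053252551933952) (nat_lit 3628378911813638489569441843071626253749286741079403422802791922657204596817874477937938592950368020273285233146172857672183262438842433536)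 (nat_lit 3628378911813638489569441843071626253749286741079403422802791922657204596817874477937938592950368020273285233146172857672183262438842433536) c10_s83) (B (M (nat_lit 458) (B (L (nat_lit 457) ln13_13_1 ln13_13_1_ok) (M (nat_lit 395) (B (L (nat_lit 331) ln11_10_5 ln11_10_5_ok) (M (nat_lit 490) (B (L (nat_lit 459) ln11_11_5 ln11_11_5_ok) (L (nat_lit 522) ln10_16_6 ln10_16_6_ok))))))) (M (nat_lit 460) (B (M (nat_lit 395) (B (L (nat_lit 331) ln11_10_4 ln11_10_4_ok) (M (nat_lit 492) (B (L (nat_lit 459) ln11_11_4 ln11_11_4_ok) (L (nat_lit 524) ln12_16_7 ln12_16_7_ok))))) (M (nat_lit 393) (B (L (nat_lit 394) ln13_13_3 ln13_13_3_ok) (L (nat_lit 425) ln9_13_0 ln9_13_0_ok)))))))) (B (M (nat_lit 428) (B (K (nat_lit 5954262832028989485618324565167238146370124327837748531862369232005148957007496058784222747908415495800981769203384749843222053252551933952) (nat_lit 3628378911813638489569441843071626253749286741079403422802791922657204596817874477937938592950368020273285233146172857672183262438842433536)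 (nat_lit 3628378911813638489569441843071626253749286741079403422802791922657204596817874477937938592950368020273285233146172857672183262438842433536) c10_s83) (L (nat_lit 462) ln10_13_0 ln10_13_0_ok))) (B (M (nat_lit 428) (B (M (nat_lit 460) (B (M (nat_lit 395) (B (L (nat_lit 331) ln11_10_4 ln11_10_4_ok) (M (nat_lit 492) (B (L (nat_lit 459) ln11_11_4 ln11_11_4_ok) (L (nat_lit 524) ln12_16_7 ln12_16_7_ok))))) (M (nat_lit 393) (B (L (nat_lit 394) ln13_13_3 ln13_13_3_ok) (L (nat_lit 425) ln9_13_0 ln9_13_0_ok))))) (L (nat_lit 462) ln10_13_0 ln10_13_0_ok))) (B (M (nat_lit 428) (B (L (nat_lit 462) ln10_13_0 ln10_13_0_ok) (M (nat_lit 425) (B (M (nat_lit 457) (B (L (nat_lit 456) ln12_13_1 ln12_13_1_ok) (L (nat_lit 458) ln13_13_1 ln13_13_1_ok))) (M (nat_lit 393) (B (L (nat_lit 392) ln12_13_3 ln12_13_3_ok) (L (nat_lit 394) ln13_13_3 ln13_13_3_ok))))))) (M (nat_lit 458) (B (M (nat_lit 395) (B (M (nat_lit 490) (B (L (nat_lit 394) ln10_15_6 ln10_15_6_ok) (L (nat_lit 459) ln11_11_5 ln11_11_5_ok)))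 (L (nat_lit 331) ln11_10_5 ln11_10_5_ok))) (M (nat_lit 428) (B (L (nat_lit 462) ln10_13_0 ln10_13_0_ok) (L (nat_lit 457) ln13_13_1 ln13_13_1_ok))))))))))
noncomputable def c10_d442 : Cert := (B (K (nat_lit 8187111392415249393906976628975713144922722819001368794578703420108404933161260715117233388489129455105162939251262690618333361432388698112) (nat_lit 2397502887293929530778237856415592037040154539544847727875229406289710267290866122238082137424845131273788163324551687648149323385836223430934921216) (nat_lit 2397502887293929530778237856415592037040154539544847727875229406289710267290866122238082137424845131273788163324551687648149323385836223430934921216) c10_s85) (M (nat_lit 456) (B (M (nat_lit 457) (B (L (nat_lit 455) ln7_14_2 ln7_14_2_ok) (L (nat_lit 423) ln11_14_3 ln11_14_3_ok))) (B (M (nat_lit 488) (B (M (nat_lit 457) (B (L (nat_lit 487) ln11_14_1 ln11_14_1_ok) (L (nat_lit 423) ln11_14_3 ln11_14_3_ok))) (B (M (nat_lit 520) (B (M (nat_lit 423) (B (L (nat_lit 391) ln8_16_7_c10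 ln8_16_7_c10_ok) (L (nat_lit 457) ln11_14_3 ln11_14_3_ok))) (M (nat_lit 552) (B (M (nat_lit 551) (B (L (nat_lit 583) ln8_14_5_c10 ln8_14_5_c10_ok) (L (nat_lit 519) ln8_13_5_c10 ln8_13_5_c10_ok))) (M (nat_lit 553) (B (L (nat_lit 585) ln8_14_4_c10 ln8_14_4_c10_ok) (L (nat_lit 521) ln8_13_4_c10 ln8_13_4_c10_ok))))))) (B (M (nat_lit 487) (B (L (nat_lit 457) ln11_14_1 ln11_14_1_ok) (M (nat_lit 519) (B (L (nat_lit 392) ln8_12_5_c10 ln8_12_5_c10_ok) (M (nat_lit 551) (B (L (nat_lit 583) ln7_18_6_c10 ln7_18_6_c10_ok) (L (nat_lit 520) ln8_13_5_c10 ln8_13_5_c10_ok))))))) (M (nat_lit 520) (B (M (nat_lit 552) (B (M (nat_lit 551) (B (L (nat_lit 583) ln8_14_5_c10 ln8_14_5_c10_ok) (L (nat_lit 519) ln8_13_5_c10 ln8_13_5_c10_ok))) (M (nat_lit 553) (B (L (nat_lit 585) ln8_14_4_c10 ln8_14_4_c10_ok) (L (nat_lit 521) ln8_13_4_c10 ln8_13_4_c10_ok))))) (M (nat_lit 391) (B (L (nat_lit 423) ln8_16_7_c10 ln8_16_7_c10_ok) (M (nat_lit 392) (B (L (nat_lit 359) ln8_15_7_c10 ln8_15_7_c10_ok) (M (nat_lit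 393) (B (L (nat_lit 394) ln7_12_0_c10 ln7_12_0_c10_ok) (L (nat_lit 361) ln8_15_6_c10 ln8_15_6_c10_ok))))))))))))) (B (K (nat_lit 8373182105834924757887603523795042305717255007337322218010764911098648590918290583488738297471852927888718144782466832169318219449314050048) (nat_lit 158291457407161184593636891404374390978358009790618337180830038580447641763868482613260207403114254888848166336218951841472279842882051584053912197132411721658497792719965913088) (nat_lit 158291457407161184593636891404374390978358009790618337180830038580447641763868482613260207403114254888848166336218951841472279842882051584053912197132411721658497792719965913088) c10_s86) (M (nat_lit 392) (B (M (nat_lit 488) (B (M (nat_lit 391) (B (L (nat_lit 359) ln8_15_7_c10 ln8_15_7_c10_ok) (M (nat_lit 393) (B (L (nat_lit 394) ln7_12_0_c10 ln7_12_0_c10_ok) (L (nat_lit 361) ln8_15_6_c10 ln8_15_6_c10_ok))))) (B (M (nat_lit 360) (B (M (nat_lit 489) (B (L (nat_lit 521) ln8_12_4_c10 ln8_12_4_c10_ok) (L (nat_lit 457)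 ln8_11_4_c10 ln8_11_4_c10_ok))) (M (nat_lit 359) (B (L (nat_lit 391) ln8_15_7_c10 ln8_15_7_c10_ok) (L (nat_lit 327) ln8_14_7_c10 ln8_14_7_c10_ok))))) (M (nat_lit 360) (B (M (nat_lit 489) (B (L (nat_lit 521) ln8_12_4_c10 ln8_12_4_c10_ok) (L (nat_lit 457) ln8_11_4_c10 ln8_11_4_c10_ok))) (M (nat_lit 361) (B (L (nat_lit 393) ln8_15_6_c10 ln8_15_6_c10_ok) (L (nat_lit 329) ln8_14_6_c10 ln8_14_6_c10_ok)))))))) (B (M (nat_lit 360) (B (M (nat_lit 455) (B (L (nat_lit 487) ln8_11_5_c10 ln8_11_5_c10_ok) (L (nat_lit 457) ln7_14_2 ln7_14_2_ok))) (M (nat_lit 328) (B (M (nat_lit 329) (B (L (nat_lit 361) ln8_14_6_c10 ln8_14_6_c10_ok) (L (nat_lit 297) ln8_13_6_c10 ln8_13_6_c10_ok))) (M (nat_lit 327) (B (L (nat_lit 359) ln8_14_7_c10 ln8_14_7_c10_ok) (L (nat_lit 295) ln8_13_7_c10 ln8_13_7_c10_ok))))))) (B (M (nat_lit 488) (B (M (nat_lit 391) (B (L (nat_lit 359) ln8_15_7_c10 ln8_15_7_c10_ok) (M (nat_lit 393) (B (L (nat_lit 394) ln7_12_0_c10 ln7_12_0_c10_ok) (L (nat_lit 361) ln8_15_6_c10 ln8_15_6_c10_ok)))))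 (B (M (nat_lit 360) (B (M (nat_lit 487) (B (L (nat_lit 519) ln8_12_5_c10 ln8_12_5_c10_ok) (L (nat_lit 455) ln8_11_5_c10 ln8_11_5_c10_ok))) (M (nat_lit 359) (B (L (nat_lit 391) ln8_15_7_c10 ln8_15_7_c10_ok) (L (nat_lit 327) ln8_14_7_c10 ln8_14_7_c10_ok))))) (M (nat_lit 360) (B (M (nat_lit 361) (B (L (nat_lit 393) ln8_15_6_c10 ln8_15_6_c10_ok) (L (nat_lit 329) ln8_14_6_c10 ln8_14_6_c10_ok))) (M (nat_lit 487) (B (L (nat_lit 519) ln8_12_5_c10 ln8_12_5_c10_ok) (L (nat_lit 455) ln8_11_5_c10 ln8_11_5_c10_ok)))))))) (B (M (nat_lit 360) (B (M (nat_lit 455) (B (L (nat_lit 487) ln8_11_5_c10 ln8_11_5_c10_ok) (L (nat_lit 457) ln7_14_2 ln7_14_2_ok))) (B (M (nat_lit 488) (B (M (nat_lit 487) (B (L (nat_lit 519) ln8_12_5_c10 ln8_12_5_c10_ok) (L (nat_lit 455) ln8_11_5_c10 ln8_11_5_c10_ok))) (M (nat_lit 359) (B (L (nat_lit 391) ln8_15_7_c10 ln8_15_7_c10_ok) (L (nat_lit 327) ln8_14_7_c10 ln8_14_7_c10_ok))))) (M (nat_lit 488) (B (M (nat_lit 489) (B (L (nat_lit 521) ln8_12_4_c10 ln8_12_4_c10_ok)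 (L (nat_lit 457) ln8_11_4_c10 ln8_11_4_c10_ok))) (M (nat_lit 359) (B (L (nat_lit 391) ln8_15_7_c10 ln8_15_7_c10_ok) (L (nat_lit 327) ln8_14_7_c10 ln8_14_7_c10_ok)))))))) (B (M (nat_lit 488) (B (M (nat_lit 391) (B (L (nat_lit 359) ln8_15_7_c10 ln8_15_7_c10_ok) (M (nat_lit 393) (B (L (nat_lit 394) ln7_12_0_c10 ln7_12_0_c10_ok) (L (nat_lit 361) ln8_15_6_c10 ln8_15_6_c10_ok))))) (M (nat_lit 520) (B (M (nat_lit 521) (B (L (nat_lit 553) ln8_13_4_c10 ln8_13_4_c10_ok) (L (nat_lit 489) ln8_12_4_c10 ln8_12_4_c10_ok))) (M (nat_lit 519) (B (L (nat_lit 551) ln8_13_5_c10 ln8_13_5_c10_ok) (L (nat_lit 487) ln8_12_5_c10 ln8_12_5_c10_ok))))))) (M (nat_lit 360) (B (M (nat_lit 455) (B (L (nat_lit 487) ln8_11_5_c10 ln8_11_5_c10_ok) (L (nat_lit 457) ln7_14_2 ln7_14_2_ok))) (B (M (nat_lit 488) (B (M (nat_lit 361) (B (L (nat_lit 393) ln8_15_6_c10 ln8_15_6_c10_ok) (L (nat_lit 329) ln8_14_6_c10 ln8_14_6_c10_ok))) (M (nat_lit 487) (B (L (nat_lit 519) ln8_12_5_c10 ln8_12_5_c10_ok) (L (nat_lit 455) ln8_11_5_c10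 ln8_11_5_c10_ok))))) (M (nat_lit 488) (B (M (nat_lit 489) (B (L (nat_lit 521) ln8_12_4_c10 ln8_12_4_c10_ok) (L (nat_lit 457) ln8_11_4_c10 ln8_11_4_c10_ok))) (M (nat_lit 361) (B (L (nat_lit 393) ln8_15_6_c10 ln8_15_6_c10_ok) (L (nat_lit 329) ln8_14_6_c10 ln8_14_6_c10_ok)))))))))))))))))))
noncomputable def c10_d443 : Cert := (B (M (nat_lit 395) (B (M (nat_lit 458) (B (L (nat_lit 331) ln11_10_5 ln11_10_5_ok) (M (nat_lit 459) (B (M (nat_lit 460) (B (L (nat_lit 492) ln11_11_4 ln11_11_4_ok) (L (nat_lit 425) ln13_14_3 ln13_14_3_ok))) (B (M (nat_lit 491) (B (M (nat_lit 492) (B (L (nat_lit 524) ln11_12_4 ln11_12_4_ok) (L (nat_lit 460) ln11_11_4 ln11_11_4_ok))) (M (nat_lit 523) (B (L (nat_lit 394) ln11_16_7 ln11_16_7_ok) (L (nat_lit 555) ln11_17_7 ln11_17_7_ok))))) (B (M (nat_lit 424) (B (M (nat_lit 425) (B (L (nat_lit 396) ln8_13_2 ln8_13_2_ok) (L (nat_lit 423) ln7_13_0 ln7_13_0_ok))) (B (K (nat_lit 8187111392415249393906976628975713144922722819001368794578703420108404933161260715117233388489129455105162939251262690618333361432388698112)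 (nat_lit 2397502887293929530756576374591663788330129965584724834692320483783943312349173220066446618241404157469840937941215931774272069014944206274317778944) (nat_lit 2397502887293929530756576374591663788330129965584724834692320483783943312349173220066446618241404157469840937941215931774272069014944206274317778944) c10_s84) (B (K (nat_lit 8187111392415249393906976628975713144922722819001368794578703420108404933161260715117233388489129455105162939251262690618333361432388698112) (nat_lit 2397502887293929530778237856415592037040154539544847727875229406289710267290866122238082137424845131273788163324551687648149323385836223430934921216) (nat_lit 2397502887293929530778237856415592037040154539544847727875229406289710267290866122238082137424845131273788163324551687648149323385836223430934921216) c10_s85) (M (nat_lit 456) (B (M (nat_lit 491) (B (M (nat_lit 523) (B (L (nat_lit 555) ln11_17_7 ln11_17_7_ok) (L (nat_lit 394) ln11_16_7 ln11_16_7_ok))) (M (nat_lit 492) (B (L (nat_lit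 524) ln11_12_4 ln11_12_4_ok) (L (nat_lit 457) ln8_14_0 ln8_14_0_ok))))) (B (M (nat_lit 457) (B (L (nat_lit 455) ln7_14_2 ln7_14_2_ok) (L (nat_lit 423) ln11_14_3 ln11_14_3_ok))) (K (nat_lit 8373182105834924757887603523795042305717255007337322218010764911098648590918290583488738297471852927888718144782466832169318219449314050048) (nat_lit 158291457407161184593636891404374390978358009790618337180830038580447641763868482613260207403114254888848166336218951841472279842882051584053912197132411721658497792719965913088) (nat_lit 158291457407161184593636891404374390978358009790618337180830038580447641763868482613260207403114254888848166336218951841472279842882051584053912197132411721658497792719965913088) c10_s86)))))))) (M (nat_lit 424) (B (M (nat_lit 425) (B (L (nat_lit 396) ln8_13_2 ln8_13_2_ok) (L (nat_lit 423) ln7_13_0 ln7_13_0_ok))) (B (K (nat_lit 8187111392415249393906976628975713144922722819001368794578703420108404933161260715117233388489129455105162939251262690618333361432388698112)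 (nat_lit 2397502887293929530756576374591663788330129965584724834692320483783943312349173220066446618241404157469840937941215931774272069014944206274317778944) (nat_lit 2397502887293929530756576374591663788330129965584724834692320483783943312349173220066446618241404157469840937941215931774272069014944206274317778944) c10_s84) c10_d442))))))))) (B (M (nat_lit 459) (B (K (nat_lit 7442828538693224974013831317517483780117358382791360771547710322160391558686037783696750852198235963875564936218674386743121998554859569152) (nat_lit 1716199424223080164504135240793070520584939410064935701858969045069564628576697911981183215317126503914517604119764642302507352512955592048735528955729149952) (nat_lit 1716199424223080164504135240793070520584939410064935701858969045069564628576697911981183215317126503914517604119764642302507352512955592048735528955729149952) c10_s70) (B (K (nat_lit 7442828538693224974013831317517483780117358382791360771547710322160391558686037783696750852198235963875564936218674386743121998554859569152)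 (nat_lit 253266331521236183188917834186547313995198761734105922432632904510931804078734630997564241999714634795989469779345239644235525992676691251741598997619283742883528092570804551680) (nat_lit 253266331521236183188917834186547313995198761734105922432632904510931804078734630997564241999714634795989469779345239644235525992676691251741598997619283742883528092570804551680) c10_s71) (M (nat_lit 460) (B (L (nat_lit 462) ln14_14_3 ln14_14_3_ok) (L (nat_lit 492) ln11_11_4 ln11_11_4_ok)))))) (B (K (nat_lit 5954262831335822062168816158962850493761100876103733384091218394238442296629798836724711580336448181607123291969041254335243134419456753664) (nat_lit 1488565707357402911885362812913832488634079015589349514188355378287671075938901266225004774091317199644027372004850323739008726362960691200) (nat_lit 1488565707357402911885362812913832488634079015589349514188355378287671075938901266225004774091317199644027372004850323739008726362960691200) c10_s87) (M (nat_lit 331) (B (L (nat_lit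 458) ln11_10_5 ln11_10_5_ok) (M (nat_lit 300) (B (L (nat_lit 332) ln11_13_6 ln11_13_6_ok) (M (nat_lit 298) (B (L (nat_lit 330) ln11_13_7 ln11_13_7_ok) (M (nat_lit 299) (B (L (nat_lit 268) ln11_12_6 ln11_12_6_ok) (L (nat_lit 266) ln11_12_7 ln11_12_7_ok))))))))))))) (B (M (nat_lit 395) (B (K (nat_lit 5954262831335822062168816158962850493761100876103733384091218394238442296629798836724711580336448181607123291969041254335243134419456753664) (nat_lit 54918381293831559798649357102650829706256033893211708034092385184661114129368141323552855875875515399259918302951605183372458581366805704345476018342130089984) (nat_lit 54918381293831559798649357102650829706256033893211708034092385184661114129368141323552855875875515399259918302951605183372458581366805704345476018342130089984) c10_s73) (M (nat_lit 331) (B (L (nat_lit 458) ln11_10_5 ln11_10_5_ok) (M (nat_lit 300) (B (L (nat_lit 332) ln11_13_6 ln11_13_6_ok) (M (nat_lit 298) (B (L (nat_lit 330) ln11_13_7 ln11_13_7_ok) (M (nat_lit 299)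 (B (L (nat_lit 268) ln11_12_6 ln11_12_6_ok) (L (nat_lit 266) ln11_12_7 ln11_12_7_ok))))))))))) (B (K (nat_lit 5954262831335822062088120850272634600334353401978639263018415088212529061853840731832816342148421894274946874679036947102871160295308394496) (nat_lit 6393341036815344206659260761557925907942095047184662171910971821255093701130660437242831190966933076489675162278984049397303812946142853110693888000) (nat_lit 6393341036815344206659260761557925907942095047184662171910971821255093701130660437242831190966933076489675162278984049397303812946142853110693888000) c10_s56) (B (M (nat_lit 428) (B (M (nat_lit 394) (B (L (nat_lit 393) ln13_13_3 ln13_13_3_ok) (M (nat_lit 458) (B (L (nat_lit 457) ln13_13_1 ln13_13_1_ok) (M (nat_lit 362) (B (L (nat_lit 331) ln10_14_6 ln10_14_6_ok) (M (nat_lit 459) (B (L (nat_lit 330) ln10_10_4 ln10_10_4_ok) (L (nat_lit 491) ln10_11_4 ln10_11_4_ok))))))))) (L (nat_lit 462) ln10_13_0 ln10_13_0_ok))) (M (nat_lit 428) (B (M (nat_lit 425) (B (M (nat_lit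 393) (B (L (nat_lit 394) ln13_13_3 ln13_13_3_ok) (L (nat_lit 392) ln12_13_3 ln12_13_3_ok))) (L (nat_lit 460) ln9_13_0 ln9_13_0_ok))) (L (nat_lit 462) ln10_13_0 ln10_13_0_ok)))))))
noncomputable def c10_d444 : Cert := (B (M (nat_lit 459) (B (M (nat_lit 492) (B (L (nat_lit 460) ln11_11_4 ln11_11_4_ok) (M (nat_lit 491) (B (L (nat_lit 524) ln11_12_4 ln11_12_4_ok) (M (nat_lit 490) (B (L (nat_lit 458) ln11_11_5 ln11_11_5_ok) (L (nat_lit 522) ln11_12_5 ln11_12_5_ok))))))) (B (M (nat_lit 491) (B (M (nat_lit 362) (B (L (nat_lit 330) ln11_14_7 ln11_14_7_ok) (L (nat_lit 394) ln11_15_7 ln11_15_7_ok))) (M (nat_lit 490) (B (L (nat_lit 458) ln11_11_5 ln11_11_5_ok) (L (nat_lit 522) ln11_12_5 ln11_12_5_ok))))) (B (M (nat_lit 491) (B (M (nat_lit 362) (B (L (nat_lit 330) ln11_14_7 ln11_14_7_ok) (L (nat_lit 394) ln11_15_7 ln11_15_7_ok))) (M (nat_lit 492) (B (L (nat_lit 460) ln11_11_4 ln11_11_4_ok) (L (nat_lit 524) ln11_12_4 ln11_12_4_ok))))) (M (nat_lit 331) (B (M (nat_lit 330) (B (L (nat_lit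 298) ln11_13_7 ln11_13_7_ok) (L (nat_lit 362) ln11_14_7 ln11_14_7_ok))) (M (nat_lit 460) (B (L (nat_lit 428) ln11_10_4 ln11_10_4_ok) (L (nat_lit 492) ln11_11_4 ln11_11_4_ok))))))))) (B (M (nat_lit 331) (B (M (nat_lit 299) (B (M (nat_lit 426) (B (L (nat_lit 458) ln11_10_5 ln11_10_5_ok) (L (nat_lit 394) ln11_9_5 ln11_9_5_ok))) (M (nat_lit 300) (B (L (nat_lit 332) ln11_13_6 ln11_13_6_ok) (L (nat_lit 268) ln11_12_6 ln11_12_6_ok))))) (B (M (nat_lit 298) (B (L (nat_lit 330) ln11_13_7 ln11_13_7_ok) (M (nat_lit 299) (B (L (nat_lit 266) ln11_12_7 ln11_12_7_ok) (M (nat_lit 300) (B (L (nat_lit 332) ln11_13_6 ln11_13_6_ok) (L (nat_lit 268) ln11_12_6 ln11_12_6_ok))))))) (B (M (nat_lit 299) (B (M (nat_lit 426) (B (L (nat_lit 458) ln11_10_5 ln11_10_5_ok) (L (nat_lit 394) ln11_9_5 ln11_9_5_ok))) (M (nat_lit 298) (B (L (nat_lit 330) ln11_13_7 ln11_13_7_ok) (L (nat_lit 266) ln11_12_7 ln11_12_7_ok))))) (M (nat_lit 459) (B (M (nat_lit 458) (B (L (nat_lit 490) ln11_11_5 ln11_11_5_ok) (L (nat_lit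 426) ln11_10_5 ln11_10_5_ok))) (M (nat_lit 330) (B (L (nat_lit 362) ln11_14_7 ln11_14_7_ok) (L (nat_lit 298) ln11_13_7 ln11_13_7_ok))))))))) (B (M (nat_lit 331) (B (M (nat_lit 299) (B (M (nat_lit 428) (B (L (nat_lit 460) ln11_10_4 ln11_10_4_ok) (L (nat_lit 396) ln11_9_4 ln11_9_4_ok))) (M (nat_lit 300) (B (L (nat_lit 332) ln11_13_6 ln11_13_6_ok) (L (nat_lit 268) ln11_12_6 ln11_12_6_ok))))) (B (M (nat_lit 299) (B (M (nat_lit 426) (B (L (nat_lit 458) ln11_10_5 ln11_10_5_ok) (L (nat_lit 394) ln11_9_5 ln11_9_5_ok))) (M (nat_lit 300) (B (L (nat_lit 332) ln11_13_6 ln11_13_6_ok) (L (nat_lit 268) ln11_12_6 ln11_12_6_ok))))) (B (M (nat_lit 299) (B (M (nat_lit 426) (B (L (nat_lit 458) ln11_10_5 ln11_10_5_ok) (L (nat_lit 394) ln11_9_5 ln11_9_5_ok))) (M (nat_lit 428) (B (L (nat_lit 460) ln11_10_4 ln11_10_4_ok) (L (nat_lit 396) ln11_9_4 ln11_9_4_ok))))) (M (nat_lit 458) (B (L (nat_lit 426) ln11_10_5 ln11_10_5_ok) (M (nat_lit 459) (B (L (nat_lit 490) ln11_11_5 ln11_11_5_ok) (M (nat_lit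 460) (B (L (nat_lit 492) ln11_11_4 ln11_11_4_ok) (L (nat_lit 428) ln11_10_4 ln11_10_4_ok))))))))))) (B (M (nat_lit 459) (B (M (nat_lit 490) (B (L (nat_lit 458) ln11_11_5 ln11_11_5_ok) (M (nat_lit 491) (B (L (nat_lit 522) ln11_12_5 ln11_12_5_ok) (M (nat_lit 492) (B (L (nat_lit 524) ln11_12_4 ln11_12_4_ok) (L (nat_lit 460) ln11_11_4 ln11_11_4_ok))))))) (B (M (nat_lit 491) (B (M (nat_lit 490) (B (L (nat_lit 522) ln11_12_5 ln11_12_5_ok) (L (nat_lit 458) ln11_11_5 ln11_11_5_ok))) (M (nat_lit 362) (B (L (nat_lit 394) ln11_15_7 ln11_15_7_ok) (L (nat_lit 330) ln11_14_7 ln11_14_7_ok))))) (B (M (nat_lit 458) (B (L (nat_lit 490) ln11_11_5 ln11_11_5_ok) (M (nat_lit 457) (B (M (nat_lit 456) (B (L (nat_lit 428) ln8_14_2 ln8_14_2_ok) (M (nat_lit 455) (B (L (nat_lit 426) ln7_14_2 ln7_14_2_ok) (M (nat_lit 487) (B (L (nat_lit 488) ln11_14_1 ln11_14_1_ok) (L (nat_lit 486) ln10_14_1_c10 ln10_14_1_c10_ok))))))) (B (M (nat_lit 456) (B (M (nat_lit 460) (B (L (nat_lit 492) ln11_11_4 ln11_11_4_ok)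 (M (nat_lit 488) (B (L (nat_lit 489) ln12_14_1 ln12_14_1_ok) (L (nat_lit 487) ln11_14_1 ln11_14_1_ok))))) (B (M (nat_lit 455) (B (L (nat_lit 426) ln7_14_2 ln7_14_2_ok) (M (nat_lit 487) (B (L (nat_lit 488) ln11_14_1 ln11_14_1_ok) (L (nat_lit 486) ln10_14_1_c10 ln10_14_1_c10_ok))))) (M (nat_lit 460) (B (L (nat_lit 492) ln11_11_4 ln11_11_4_ok) (M (nat_lit 424) (B (L (nat_lit 425) ln12_14_3 ln12_14_3_ok) (L (nat_lit 423) ln11_14_3 ln11_14_3_ok)))))))) (B (M (nat_lit 456) (B (L (nat_lit 428) ln8_14_2 ln8_14_2_ok) (M (nat_lit 460) (B (L (nat_lit 492) ln11_11_4 ln11_11_4_ok) (M (nat_lit 424) (B (L (nat_lit 425) ln12_14_3 ln12_14_3_ok) (L (nat_lit 423) ln11_14_3 ln11_14_3_ok))))))) (M (nat_lit 460) (B (L (nat_lit 492) ln11_11_4 ln11_11_4_ok) (M (nat_lit 426) (B (L (nat_lit 425) ln13_14_3 ln13_14_3_ok) (M (nat_lit 362) (B (L (nat_lit 330) ln11_14_7 ln11_14_7_ok) (M (nat_lit 489) (B (L (nat_lit 488) ln12_14_1 ln12_14_1_ok) (L (nat_lit 394) ln10_11_5 ln10_11_5_ok))))))))))))))) (M (nat_lit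 491) (B (M (nat_lit 492) (B (L (nat_lit 524) ln11_12_4 ln11_12_4_ok) (L (nat_lit 460) ln11_11_4 ln11_11_4_ok))) (M (nat_lit 362) (B (L (nat_lit 394) ln11_15_7 ln11_15_7_ok) (L (nat_lit 330) ln11_14_7 ln11_14_7_ok))))))))) (M (nat_lit 331) (B (M (nat_lit 298) (B (L (nat_lit 330) ln11_13_7 ln11_13_7_ok) (M (nat_lit 299) (B (L (nat_lit 266) ln11_12_7 ln11_12_7_ok) (M (nat_lit 300) (B (L (nat_lit 268) ln11_12_6 ln11_12_6_ok) (L (nat_lit 332) ln11_13_6 ln11_13_6_ok))))))) (B (M (nat_lit 299) (B (M (nat_lit 300) (B (L (nat_lit 268) ln11_12_6 ln11_12_6_ok) (L (nat_lit 332) ln11_13_6 ln11_13_6_ok))) (M (nat_lit 426) (B (L (nat_lit 394) ln11_9_5 ln11_9_5_ok) (L (nat_lit 458) ln11_10_5 ln11_10_5_ok))))) (B (M (nat_lit 299) (B (M (nat_lit 298) (B (L (nat_lit 266) ln11_12_7 ln11_12_7_ok) (L (nat_lit 330) ln11_13_7 ln11_13_7_ok))) (M (nat_lit 428) (B (L (nat_lit 396) ln11_9_4 ln11_9_4_ok) (L (nat_lit 460) ln11_10_4 ln11_10_4_ok))))) (M (nat_lit 426) (B (L (nat_lit 458) ln11_10_5 ln11_10_5_ok)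 (M (nat_lit 428) (B (L (nat_lit 460) ln11_10_4 ln11_10_4_ok) (M (nat_lit 425) (B (M (nat_lit 424) (B (L (nat_lit 396) ln8_13_2 ln8_13_2_ok) (M (nat_lit 456) (B (L (nat_lit 457) ln12_13_1 ln12_13_1_ok) (L (nat_lit 455) ln11_13_1_c10 ln11_13_1_c10_ok))))) (B (M (nat_lit 424) (B (L (nat_lit 396) ln8_13_2 ln8_13_2_ok) (M (nat_lit 392) (B (L (nat_lit 391) ln11_13_3 ln11_13_3_ok) (L (nat_lit 393) ln12_13_3 ln12_13_3_ok))))) (M (nat_lit 393) (B (L (nat_lit 392) ln12_13_3 ln12_13_3_ok) (M (nat_lit 330) (B (L (nat_lit 298) ln11_13_7 ln11_13_7_ok) (M (nat_lit 457) (B (L (nat_lit 456) ln12_13_1 ln12_13_1_ok) (M (nat_lit 362) (B (L (nat_lit 361) ln9_14_6_c10 ln9_14_6_c10_ok) (L (nat_lit 394) ln10_10_5 ln10_10_5_ok))))))))))))))))))))))))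
noncomputable def c10_d445 : Cert := (B (M (nat_lit 395) (B (K (nat_lit 5954262831162530206286265230239199607252158144638956066880229858290287322841385004986859978896449781225614568337954303650155411180145868800) (nat_lit 294840814535290085410873767965064507116940702384061133024019532635347700271506902244268991594004818594098187138118735103870507353089723985130005291488325573556182188032) (nat_lit 294840814535290085410873767965064507116940702384061133024019532635347700271506902244268991594004818594098187138118735103870507353089723985130005291488325573556182188032) c10_s79) (B (K (nat_lit 5954262831162530206286265230239199607252158144638956066880229858290287322841385004986859978896449781225614568337954303650155411180145868800) (nat_lit 13729595323457889961815082746692144840696633821694836568453126515944781934013276067104515873984236733310642736188154414271116039368270310037102250287133884416) (nat_lit 13729595323457889961815082746692144840696633821694836568453126515944781934013276067104515873984236733310642736188154414271116039368270310037102250287133884416)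 c10_s81) (B (K (nat_lit 5954262831162530206286265230239199607252158144638956066880229858290287322841385004986859978896449781225614568337954303650155411180145868800) (nat_lit 54918381293831559798974980851308553449165203369386846872066194352757196552238584952707607419551406418178611348625240917837141133643401885015513250058217717760) (nat_lit 54918381293831559798974980851308553449165203369386846872066194352757196552238584952707607419551406418178611348625240917837141133643401885015513250058217717760) c10_s88) (B (K (nat_lit 5954262831162530206286265230239199607252158144638956066880229858290287322841385004986859978896449781225614568337954303650155411180145868800) (nat_lit 13729595342637913055747339548009376287444164718165448644559483135573393574413373764737923843578423755084898143059258780970571448777781024292515262870832807936) (nat_lit 13729595342637913055747339548009376287444164718165448644559483135573393574413373764737923843578423755084898143059258780970571448777781024292515262870832807936)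 c10_s33) (M (nat_lit 331) (B (M (nat_lit 299) (B (M (nat_lit 426) (B (L (nat_lit 458) ln11_10_5 ln11_10_5_ok) (L (nat_lit 394) ln11_9_5 ln11_9_5_ok))) (M (nat_lit 300) (B (L (nat_lit 332) ln11_13_6 ln11_13_6_ok) (L (nat_lit 268) ln11_12_6 ln11_12_6_ok))))) (B (M (nat_lit 298) (B (L (nat_lit 330) ln11_13_7 ln11_13_7_ok) (M (nat_lit 299) (B (L (nat_lit 266) ln11_12_7 ln11_12_7_ok) (M (nat_lit 300) (B (L (nat_lit 332) ln11_13_6 ln11_13_6_ok) (L (nat_lit 268) ln11_12_6 ln11_12_6_ok))))))) (B (M (nat_lit 299) (B (M (nat_lit 426) (B (L (nat_lit 458) ln11_10_5 ln11_10_5_ok) (L (nat_lit 394) ln11_9_5 ln11_9_5_ok))) (M (nat_lit 298) (B (L (nat_lit 330) ln11_13_7 ln11_13_7_ok) (L (nat_lit 266) ln11_12_7 ln11_12_7_ok))))) (M (nat_lit 459) (B (M (nat_lit 458) (B (L (nat_lit 490) ln11_11_5 ln11_11_5_ok) (L (nat_lit 426) ln11_10_5 ln11_10_5_ok))) (M (nat_lit 330) (B (L (nat_lit 362) ln11_14_7 ln11_14_7_ok) (L (nat_lit 298) ln11_13_7 ln11_13_7_ok)))))))))))))) (B (M (nat_lit 395) (B (M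 (nat_lit 331) (B (M (nat_lit 458) (B (L (nat_lit 426) ln11_10_5 ln11_10_5_ok) (M (nat_lit 459) (B (L (nat_lit 490) ln11_11_5 ln11_11_5_ok) (M (nat_lit 460) (B (L (nat_lit 492) ln11_11_4 ln11_11_4_ok) (L (nat_lit 428) ln11_10_4 ln11_10_4_ok))))))) (M (nat_lit 298) (B (L (nat_lit 330) ln11_13_7 ln11_13_7_ok) (M (nat_lit 299) (B (L (nat_lit 266) ln11_12_7 ln11_12_7_ok) (M (nat_lit 300) (B (L (nat_lit 332) ln11_13_6 ln11_13_6_ok) (L (nat_lit 268) ln11_12_6 ln11_12_6_ok))))))))) (B (M (nat_lit 331) (B (M (nat_lit 459) (B (M (nat_lit 460) (B (L (nat_lit 492) ln11_11_4 ln11_11_4_ok) (L (nat_lit 428) ln11_10_4 ln11_10_4_ok))) (M (nat_lit 330) (B (L (nat_lit 362) ln11_14_7 ln11_14_7_ok) (L (nat_lit 298) ln11_13_7 ln11_13_7_ok))))) (M (nat_lit 299) (B (M (nat_lit 426) (B (L (nat_lit 458) ln11_10_5 ln11_10_5_ok) (L (nat_lit 394) ln11_9_5 ln11_9_5_ok))) (M (nat_lit 300) (B (L (nat_lit 332) ln11_13_6 ln11_13_6_ok) (L (nat_lit 268) ln11_12_6 ln11_12_6_ok))))))) (B (M (nat_lit 331) (B (M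 (nat_lit 299) (B (M (nat_lit 428) (B (L (nat_lit 460) ln11_10_4 ln11_10_4_ok) (L (nat_lit 396) ln11_9_4 ln11_9_4_ok))) (M (nat_lit 300) (B (L (nat_lit 332) ln11_13_6 ln11_13_6_ok) (L (nat_lit 268) ln11_12_6 ln11_12_6_ok))))) (B (M (nat_lit 299) (B (M (nat_lit 426) (B (L (nat_lit 458) ln11_10_5 ln11_10_5_ok) (L (nat_lit 394) ln11_9_5 ln11_9_5_ok))) (M (nat_lit 300) (B (L (nat_lit 332) ln11_13_6 ln11_13_6_ok) (L (nat_lit 268) ln11_12_6 ln11_12_6_ok))))) (B (M (nat_lit 299) (B (M (nat_lit 426) (B (L (nat_lit 458) ln11_10_5 ln11_10_5_ok) (L (nat_lit 394) ln11_9_5 ln11_9_5_ok))) (M (nat_lit 428) (B (L (nat_lit 460) ln11_10_4 ln11_10_4_ok) (L (nat_lit 396) ln11_9_4 ln11_9_4_ok))))) (M (nat_lit 459) (B (M (nat_lit 458) (B (L (nat_lit 490) ln11_11_5 ln11_11_5_ok) (L (nat_lit 426) ln11_10_5 ln11_10_5_ok))) (M (nat_lit 330) (B (L (nat_lit 362) ln11_14_7 ln11_14_7_ok) (L (nat_lit 298) ln11_13_7 ln11_13_7_ok))))))))) (B (M (nat_lit 331) (B (M (nat_lit 298) (B (L (nat_lit 330) ln11_13_7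 ln11_13_7_ok) (M (nat_lit 299) (B (L (nat_lit 266) ln11_12_7 ln11_12_7_ok) (M (nat_lit 300) (B (L (nat_lit 332) ln11_13_6 ln11_13_6_ok) (L (nat_lit 268) ln11_12_6 ln11_12_6_ok))))))) (B (M (nat_lit 299) (B (M (nat_lit 428) (B (L (nat_lit 460) ln11_10_4 ln11_10_4_ok) (L (nat_lit 396) ln11_9_4 ln11_9_4_ok))) (M (nat_lit 300) (B (L (nat_lit 332) ln11_13_6 ln11_13_6_ok) (L (nat_lit 268) ln11_12_6 ln11_12_6_ok))))) (B (M (nat_lit 299) (B (M (nat_lit 428) (B (L (nat_lit 460) ln11_10_4 ln11_10_4_ok) (L (nat_lit 396) ln11_9_4 ln11_9_4_ok))) (M (nat_lit 298) (B (L (nat_lit 330) ln11_13_7 ln11_13_7_ok) (L (nat_lit 266) ln11_12_7 ln11_12_7_ok))))) (M (nat_lit 459) (B (M (nat_lit 460) (B (L (nat_lit 492) ln11_11_4 ln11_11_4_ok) (L (nat_lit 428) ln11_10_4 ln11_10_4_ok))) (M (nat_lit 330) (B (L (nat_lit 362) ln11_14_7 ln11_14_7_ok) (L (nat_lit 298) ln11_13_7 ln11_13_7_ok))))))))) c10_d444))))) (M (nat_lit 395) (B (K (nat_lit 5954262831162530206286265230239199607252158144638956066880229858290287322841385004986859978896449781225614568337954303650155411180145868800)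 (nat_lit 235872651619994311854834147636101539680499351824960565631039512253437782751791182384106664487747204783138906854834492128092631021925656004665193737540476931237298044928) (nat_lit 235872651619994311854834147636101539680499351824960565631039512253437782751791182384106664487747204783138906854834492128092631021925656004665193737540476931237298044928) c10_s80) (B (K (nat_lit 5954262831162530206286265230239199607252158144638956066880229858290287322841385004986859978896449781225614568337954303650155411180145868800) (nat_lit 2977131415407973247381624649548699886463753985908654110292523978793153768442865169211559931173199392044103477095514455632421641635873423360) (nat_lit 2977131415407973247381624649548699886463753985908654110292523978793153768442865169211559931173199392044103477095514455632421641635873423360) c10_s34) (K (nat_lit 5954262831162530206286265230239199607252158144638956066880229858290287322841385004986859978896449781225614568337954303650155411180145868800) (nat_lit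 744282853851993311845406162510473457262418320295239895865615520026895101829328096202103361778483086498650213892797444116782214528614006784) (nat_lit 744282853851993311845406162510473457262418320295239895865615520026895101829328096202103361778483086498650213892797444116782214528614006784) c10_s82))))))
noncomputable def c10_d446 : Cert := (B (M (nat_lit 426) (B (M (nat_lit 395) (B (K (nat_lit 5954262831335822062168816158962850493761100876103733384091218394238442296629798836724711580336448181607123291969041254335243134419456753664) (nat_lit 13729595325056225206179779402076437136332843899646366012762921032018968449859184963036882193683268548248496767743092706825585273446720363869331131038647189504) (nat_lit 13729595325056225206179779402076437136332843899646366012762921032018968449859184963036882193683268548248496767743092706825585273446720363869331131038647189504) c10_s67) (B (K (nat_lit 5954262831335822062168816158962850493761100876103733384091218394238442296629798836724711580336448181607123291969041254335243134419456753664)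 (nat_lit 1488565707357402911885362812913832488634079015589349514188355378287671075938901266225004774091317199644027372004850323739008726362960691200) (nat_lit 1488565707357402911885362812913832488634079015589349514188355378287671075938901266225004774091317199644027372004850323739008726362960691200) c10_s87) (B (M (nat_lit 331) (B (L (nat_lit 458) ln11_10_5 ln11_10_5_ok) (M (nat_lit 300) (B (L (nat_lit 332) ln11_13_6 ln11_13_6_ok) (M (nat_lit 298) (B (L (nat_lit 330) ln11_13_7 ln11_13_7_ok) (M (nat_lit 299) (B (L (nat_lit 268) ln11_12_6 ln11_12_6_ok) (L (nat_lit 266) ln11_12_7 ln11_12_7_ok))))))))) (M (nat_lit 458) (B (M (nat_lit 490) (B (L (nat_lit 394) ln10_15_6 ln10_15_6_ok) (L (nat_lit 522) ln10_16_6 ln10_16_6_ok))) (L (nat_lit 331) ln11_10_5 ln11_10_5_ok))))))) (B (M (nat_lit 428) (B (M (nat_lit 425) (B (M (nat_lit 393) (B (L (nat_lit 394) ln13_13_3 ln13_13_3_ok) (L (nat_lit 392) ln12_13_3 ln12_13_3_ok))) (B (M (nat_lit 424) (B (M (nat_lit 456) (B (L (nat_lit 457) ln12_13_1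 ln12_13_1_ok) (L (nat_lit 455) ln11_13_1_c10 ln11_13_1_c10_ok))) (M (nat_lit 392) (B (L (nat_lit 393) ln12_13_3 ln12_13_3_ok) (L (nat_lit 391) ln11_13_3 ln11_13_3_ok))))) (B (M (nat_lit 424) (B (M (nat_lit 456) (B (L (nat_lit 457) ln12_13_1 ln12_13_1_ok) (L (nat_lit 455) ln11_13_1_c10 ln11_13_1_c10_ok))) (M (nat_lit 423) (B (M (nat_lit 395) (B (L (nat_lit 396) ln8_13_2 ln8_13_2_ok) (L (nat_lit 394) ln7_13_2 ln7_13_2_ok))) (M (nat_lit 391) (B (L (nat_lit 392) ln11_13_3 ln11_13_3_ok) (L (nat_lit 390) ln10_13_3_c10 ln10_13_3_c10_ok))))))) (M (nat_lit 424) (B (M (nat_lit 456) (B (L (nat_lit 457) ln12_13_1 ln12_13_1_ok) (L (nat_lit 455) ln11_13_1_c10 ln11_13_1_c10_ok))) (M (nat_lit 395) (B (L (nat_lit 396) ln8_13_2 ln8_13_2_ok) (M (nat_lit 394) (B (L (nat_lit 393) ln13_13_3 ln13_13_3_ok) (L (nat_lit 423) ln7_13_2 ln7_13_2_ok))))))))))) (L (nat_lit 462) ln10_13_0 ln10_13_0_ok))) (B (M (nat_lit 428) (B (K (nat_lit 5954262832028989485618324565167238146370124327837748531862369232005148957007496058784222747908415495800981769203384749843222053252551933952)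 (nat_lit 13729595329851230978767378294089803420323579397543628656357384518644704721726467299345883555807669029340437039496586358740141024914453642690190892691888275456) (nat_lit 13729595329851230978767378294089803420323579397543628656357384518644704721726467299345883555807669029340437039496586358740141024914453642690190892691888275456) c10_s89) (L (nat_lit 462) ln10_13_0 ln10_13_0_ok))) (B (M (nat_lit 428) (B (L (nat_lit 462) ln10_13_0 ln10_13_0_ok) (M (nat_lit 425) (B (M (nat_lit 457) (B (L (nat_lit 456) ln12_13_1 ln12_13_1_ok) (L (nat_lit 458) ln13_13_1 ln13_13_1_ok))) (M (nat_lit 393) (B (L (nat_lit 392) ln12_13_3 ln12_13_3_ok) (L (nat_lit 394) ln13_13_3 ln13_13_3_ok))))))) (M (nat_lit 458) (B (M (nat_lit 395) (B (M (nat_lit 490) (B (L (nat_lit 459) ln11_11_5 ln11_11_5_ok) (L (nat_lit 522) ln10_16_6 ln10_16_6_ok))) (L (nat_lit 331) ln11_10_5 ln11_10_5_ok))) (M (nat_lit 428) (B (L (nat_lit 462) ln10_13_0 ln10_13_0_ok) (L (nat_lit 457) ln13_13_1 ln13_13_1_ok)))))))))) (B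 (M (nat_lit 395) (B (K (nat_lit 5954262831162530206286265230239199607252158144638956066880229858290287322841385004986859978896449781225614568337954303650155411180145868800) (nat_lit 54918381305819074232979191551847507108488626286461226742647112418523033493016920512800165714062236620462190237564766049698911130333067494708350207905480310784) (nat_lit 54918381305819074232979191551847507108488626286461226742647112418523033493016920512800165714062236620462190237564766049698911130333067494708350207905480310784) c10_s78) (B (K (nat_lit 5954262831162530206286265230239199607252158144638956066880229858290287322841385004986859978896449781225614568337954303650155411180145868800) (nat_lit 2977131415407973247381624649548699886463753985908654110292523978793153768442865169211559931173199392044103477095514455632421641635873423360) (nat_lit 2977131415407973247381624649548699886463753985908654110292523978793153768442865169211559931173199392044103477095514455632421641635873423360) c10_s34) (B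 (K (nat_lit 5954262831162530206286265230239199607252158144638956066880229858290287322841385004986859978896449781225614568337954303650155411180145868800) (nat_lit 744282853851993311845406162510473457262418320295239895865615520026895101829328096202103361778483086498650213892797444116782214528614006784) (nat_lit 744282853851993311845406162510473457262418320295239895865615520026895101829328096202103361778483086498650213892797444116782214528614006784) c10_s82) (M (nat_lit 331) (B (M (nat_lit 299) (B (M (nat_lit 428) (B (L (nat_lit 460) ln11_10_4 ln11_10_4_ok) (L (nat_lit 396) ln11_9_4 ln11_9_4_ok))) (M (nat_lit 300) (B (L (nat_lit 332) ln11_13_6 ln11_13_6_ok) (L (nat_lit 268) ln11_12_6 ln11_12_6_ok))))) (B (M (nat_lit 299) (B (M (nat_lit 426) (B (L (nat_lit 458) ln11_10_5 ln11_10_5_ok) (L (nat_lit 394) ln11_9_5 ln11_9_5_ok))) (M (nat_lit 300) (B (L (nat_lit 332) ln11_13_6 ln11_13_6_ok) (L (nat_lit 268) ln11_12_6 ln11_12_6_ok))))) (B (M (nat_lit 299) (B (M (nat_lit 426) (B (L (nat_lit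 458) ln11_10_5 ln11_10_5_ok) (L (nat_lit 394) ln11_9_5 ln11_9_5_ok))) (M (nat_lit 428) (B (L (nat_lit 460) ln11_10_4 ln11_10_4_ok) (L (nat_lit 396) ln11_9_4 ln11_9_4_ok))))) (M (nat_lit 458) (B (L (nat_lit 426) ln11_10_5 ln11_10_5_ok) (M (nat_lit 459) (B (L (nat_lit 490) ln11_11_5 ln11_11_5_ok) (M (nat_lit 460) (B (L (nat_lit 492) ln11_11_4 ln11_11_4_ok) (L (nat_lit 428) ln11_10_4 ln11_10_4_ok))))))))))))))) (B (M (nat_lit 428) (B (M (nat_lit 395) (B (M (nat_lit 459) (B (M (nat_lit 458) (B (L (nat_lit 490) ln11_11_5 ln11_11_5_ok) (M (nat_lit 460) (B (L (nat_lit 492) ln11_11_4 ln11_11_4_ok) (L (nat_lit 457) ln9_14_2 ln9_14_2_ok))))) (B (M (nat_lit 491) (B (M (nat_lit 490) (B (L (nat_lit 522) ln11_12_5 ln11_12_5_ok) (L (nat_lit 458) ln11_11_5 ln11_11_5_ok))) (M (nat_lit 523) (B (L (nat_lit 396) ln11_16_6 ln11_16_6_ok) (M (nat_lit 555) (B (L (nat_lit 460) ln11_17_6 ln11_17_6_ok) (M (nat_lit 556) (B (L (nat_lit 588) ln11_14_4 ln11_14_4_ok) (L (nat_lit 524) ln11_13_4 ln11_13_4_ok)))))))))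 (B (M (nat_lit 491) (B (M (nat_lit 492) (B (L (nat_lit 524) ln11_12_4 ln11_12_4_ok) (L (nat_lit 460) ln11_11_4 ln11_11_4_ok))) (B (M (nat_lit 460) (B (L (nat_lit 492) ln11_11_4 ln11_11_4_ok) (M (nat_lit 523) (B (L (nat_lit 555) ln11_17_6 ln11_17_6_ok) (L (nat_lit 396) ln11_16_6 ln11_16_6_ok))))) (B (M (nat_lit 523) (B (L (nat_lit 396) ln11_16_6 ln11_16_6_ok) (M (nat_lit 555) (B (L (nat_lit 460) ln11_17_6 ln11_17_6_ok) (M (nat_lit 554) (B (L (nat_lit 586) ln11_14_5 ln11_14_5_ok) (L (nat_lit 522) ln11_13_5 ln11_13_5_ok))))))) (M (nat_lit 523) (B (L (nat_lit 396) ln11_16_6 ln11_16_6_ok) (M (nat_lit 524) (B (L (nat_lit 556) ln11_13_4 ln11_13_4_ok) (L (nat_lit 492) ln11_12_4 ln11_12_4_ok))))))))) (M (nat_lit 491) (B (M (nat_lit 490) (B (L (nat_lit 458) ln11_11_5 ln11_11_5_ok) (L (nat_lit 522) ln11_12_5 ln11_12_5_ok))) (M (nat_lit 523) (B (L (nat_lit 396) ln11_16_6 ln11_16_6_ok) (M (nat_lit 524) (B (L (nat_lit 492) ln11_12_4 ln11_12_4_ok) (L (nat_lit 556) ln11_13_4 ln11_13_4_ok)))))))))))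 (B (M (nat_lit 331) (B (M (nat_lit 299) (B (L (nat_lit 396) ln11_9_4 ln11_9_4_ok) (M (nat_lit 298) (B (L (nat_lit 330) ln11_13_7 ln11_13_7_ok) (L (nat_lit 266) ln11_12_7 ln11_12_7_ok))))) (B (M (nat_lit 299) (B (L (nat_lit 396) ln11_9_4 ln11_9_4_ok) (M (nat_lit 300) (B (L (nat_lit 332) ln11_13_6 ln11_13_6_ok) (L (nat_lit 268) ln11_12_6 ln11_12_6_ok))))) (M (nat_lit 330) (B (L (nat_lit 298) ln11_13_7 ln11_13_7_ok) (M (nat_lit 362) (B (L (nat_lit 459) ln11_14_7 ln11_14_7_ok) (M (nat_lit 332) (B (L (nat_lit 300) ln11_13_6 ln11_13_6_ok) (M (nat_lit 333) (B (L (nat_lit 361) ln13_10_1 ln13_10_1_ok) (L (nat_lit 334) ln14_10_1 ln14_10_1_ok)))))))))))) (M (nat_lit 331) (B (L (nat_lit 460) ln11_10_4 ln11_10_4_ok) (M (nat_lit 298) (B (L (nat_lit 330) ln11_13_7 ln11_13_7_ok) (M (nat_lit 300) (B (L (nat_lit 332) ln11_13_6 ln11_13_6_ok) (M (nat_lit 299) (B (L (nat_lit 266) ln11_12_7 ln11_12_7_ok) (L (nat_lit 268) ln11_12_6 ln11_12_6_ok)))))))))))) (B (M (nat_lit 426) (B (M (nat_lit 458)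 (B (L (nat_lit 457) ln13_13_1 ln13_13_1_ok) (M (nat_lit 395) (B (L (nat_lit 331) ln11_10_5 ln11_10_5_ok) (M (nat_lit 490) (B (L (nat_lit 522) ln10_16_6 ln10_16_6_ok) (L (nat_lit 459) ln11_11_5 ln11_11_5_ok))))))) (L (nat_lit 462) ln10_13_0 ln10_13_0_ok))) (M (nat_lit 462) (B (M (nat_lit 463) (B (L (nat_lit 460) ln15_14_3 ln15_14_3_ok) (L (nat_lit 464) ln16_14_3 ln16_14_3_ok))) (L (nat_lit 426) ln10_13_0 ln10_13_0_ok)))))) c10_d445)))
noncomputable def c10_d447 : Cert := (B (M (nat_lit 395) (B (K (nat_lit 5954262831162530206286265230239199607252158144638956066880229858290287322841385004986859978896449781225614568337954303650155411180145868800) (nat_lit 189949748434538567236206749329374652210244966943389983390402023942188957950321746598928600557155546082944760903427168424727567665577135175919420507744831566744709702606567505920) (nat_lit 189949748434538567236206749329374652210244966943389983390402023942188957950321746598928600557155546082944760903427168424727567665577135175919420507744831566744709702606567505920)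 c10_s66) (B (K (nat_lit 5954262831162530206286265230239199607252158144638956066880229858290287322841385004986859978896449781225614568337954303650155411180145868800) (nat_lit 13729595323457889961815082746692144840696633821694836568453126515944781934013276067104515873984236733310642736188154414271116039368270310037102250287133884416) (nat_lit 13729595323457889961815082746692144840696633821694836568453126515944781934013276067104515873984236733310642736188154414271116039368270310037102250287133884416) c10_s81) (B (K (nat_lit 5954262831162530206286265230239199607252158144638956066880229858290287322841385004986859978896449781225614568337954303650155411180145868800) (nat_lit 2977131415407973247381624649548699886463753985908654110292523978793153768442865169211559931173199392044103477095514455632421641635873423360) (nat_lit 2977131415407973247381624649548699886463753985908654110292523978793153768442865169211559931173199392044103477095514455632421641635873423360) c10_s34) (K (nat_lit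 5954262831162530206286265230239199607252158144638956066880229858290287322841385004986859978896449781225614568337954303650155411180145868800) (nat_lit 744282853851993311845406162510473457262418320295239895865615520026895101829328096202103361778483086498650213892797444116782214528614006784) (nat_lit 744282853851993311845406162510473457262418320295239895865615520026895101829328096202103361778483086498650213892797444116782214528614006784) c10_s82))))) (B (M (nat_lit 426) c10_d441) (B (M (nat_lit 426) c10_d443) (B (M (nat_lit 395) (B (K (nat_lit 5954262831162530206286265230239199607252158144638956066880229858290287322841385004986859978896449781225614568337954303650155411180145868800) (nat_lit 294840814537006284825906420405020742800928828050948023087106506677134747576115612518959346856057998304244900159868529646128526198375229248977790906881013556320445399040) (nat_lit 294840814537006284825906420405020742800928828050948023087106506677134747576115612518959346856057998304244900159868529646128526198375229248977790906881013556320445399040)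 c10_s75) (B (M (nat_lit 331) (B (M (nat_lit 299) (B (M (nat_lit 300) (B (L (nat_lit 268) ln11_12_6 ln11_12_6_ok) (L (nat_lit 332) ln11_13_6 ln11_13_6_ok))) (M (nat_lit 298) (B (L (nat_lit 266) ln11_12_7 ln11_12_7_ok) (L (nat_lit 330) ln11_13_7 ln11_13_7_ok))))) (B (M (nat_lit 330) (B (L (nat_lit 298) ln11_13_7 ln11_13_7_ok) (M (nat_lit 362) (B (L (nat_lit 459) ln11_14_7 ln11_14_7_ok) (M (nat_lit 332) (B (L (nat_lit 300) ln11_13_6 ln11_13_6_ok) (M (nat_lit 333) (B (L (nat_lit 334) ln14_10_1 ln14_10_1_ok) (L (nat_lit 361) ln13_10_1 ln13_10_1_ok))))))))) (B (M (nat_lit 299) (B (M (nat_lit 298) (B (L (nat_lit 266) ln11_12_7 ln11_12_7_ok) (L (nat_lit 330) ln11_13_7 ln11_13_7_ok))) (B (M (nat_lit 362) (B (M (nat_lit 394) (B (L (nat_lit 267) ln11_8_5 ln11_8_5_ok) (L (nat_lit 426) ln11_9_5 ln11_9_5_ok))) (M (nat_lit 330) (B (L (nat_lit 298) ln11_13_7 ln11_13_7_ok) (L (nat_lit 459) ln11_14_7 ln11_14_7_ok))))) (M (nat_lit 267) (B (M (nat_lit 394) (B (L (nat_lit 362) ln11_8_5 ln11_8_5_ok)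 (L (nat_lit 426) ln11_9_5 ln11_9_5_ok))) (M (nat_lit 235) (B (M (nat_lit 236) (B (L (nat_lit 204) ln11_10_6 ln11_10_6_ok) (L (nat_lit 268) ln11_11_6 ln11_11_6_ok))) (M (nat_lit 234) (B (L (nat_lit 202) ln11_10_7 ln11_10_7_ok) (L (nat_lit 266) ln11_11_7 ln11_11_7_ok)))))))))) (B (M (nat_lit 299) (B (M (nat_lit 300) (B (L (nat_lit 268) ln11_12_6 ln11_12_6_ok) (L (nat_lit 332) ln11_13_6 ln11_13_6_ok))) (M (nat_lit 394) (B (L (nat_lit 426) ln11_9_5 ln11_9_5_ok) (M (nat_lit 362) (B (L (nat_lit 267) ln11_8_5 ln11_8_5_ok) (M (nat_lit 459) (B (L (nat_lit 330) ln11_14_7 ln11_14_7_ok) (L (nat_lit 491) ln11_15_7 ln11_15_7_ok))))))))) (M (nat_lit 299) (B (M (nat_lit 300) (B (L (nat_lit 268) ln11_12_6 ln11_12_6_ok) (L (nat_lit 332) ln11_13_6 ln11_13_6_ok))) (M (nat_lit 267) (B (M (nat_lit 266) (B (L (nat_lit 234) ln11_11_7 ln11_11_7_ok) (L (nat_lit 298) ln11_12_7 ln11_12_7_ok))) (M (nat_lit 394) (B (L (nat_lit 362) ln11_8_5 ln11_8_5_ok) (L (nat_lit 426) ln11_9_5 ln11_9_5_ok))))))))))))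 (B (K (nat_lit 5954262831162530206286265230239199607252158144638956066880229858290287322841385004986859978896449781225614568337954303650155411180145868800) (nat_lit 54918381293831559798974980851308553449165203369386846872066194352757196552238584952707607419551406418178611348625240917837141133643401885015513250058217717760) (nat_lit 54918381293831559798974980851308553449165203369386846872066194352757196552238584952707607419551406418178611348625240917837141133643401885015513250058217717760) c10_s88) (K (nat_lit 5954262831162530206286265230239199607252158144638956066880229858290287322841385004986859978896449781225614568337954303650155411180145868800) (nat_lit 2977131415407973247381624649548699886463753985908654110292523978793153768442865169211559931173199392044103477095514455632421641635873423360) (nat_lit 2977131415407973247381624649548699886463753985908654110292523978793153768442865169211559931173199392044103477095514455632421641635873423360) c10_s34))))) (B (M (nat_lit 395)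 (B (K (nat_lit 5954262831162530206286265230239199607252158144638956066880229858290287322841385004986859978896449781225614568337954303650155411180145868800) (nat_lit 36855101830640855999467475120568667279620455793787138823830589112930043192584574387574669061481492954243622291354600128270749690059738259342200347068057061957560172544) (nat_lit 36855101830640855999467475120568667279620455793787138823830589112930043192584574387574669061481492954243622291354600128270749690059738259342200347068057061957560172544) c10_s69) (B (K (nat_lit 5954262831162530206286265230239199607252158144638956066880229858290287322841385004986859978896449781225614568337954303650155411180145868800) (nat_lit 54918381293831559798974980851308553449165203369386846872066194352757196552238584952707607419551406418178611348625240917837141133643401885015513250058217717760) (nat_lit 54918381293831559798974980851308553449165203369386846872066194352757196552238584952707607419551406418178611348625240917837141133643401885015513250058217717760)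 c10_s88) (B (K (nat_lit 5954262831162530206286265230239199607252158144638956066880229858290287322841385004986859978896449781225614568337954303650155411180145868800) (nat_lit 2977131415407973247381624649548699886463753985908654110292523978793153768442865169211559931173199392044103477095514455632421641635873423360) (nat_lit 2977131415407973247381624649548699886463753985908654110292523978793153768442865169211559931173199392044103477095514455632421641635873423360) c10_s34) (K (nat_lit 5954262831162530206286265230239199607252158144638956066880229858290287322841385004986859978896449781225614568337954303650155411180145868800) (nat_lit 744282853851993311845406162510473457262418320295239895865615520026895101829328096202103361778483086498650213892797444116782214528614006784) (nat_lit 744282853851993311845406162510473457262418320295239895865615520026895101829328096202103361778483086498650213892797444116782214528614006784) c10_s82))))) c10_d446)))))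
noncomputable def c10_d448 : Cert := (B (M (nat_lit 395) (B (M (nat_lit 394) (B (K (nat_lit 5954262831162530206326612884584307553965531881701503127416631511303243940229364057432807597990462924891702776982956457266341398242220048384) (nat_lit 17161994155920697690923505071132661365444120559509290048314417857864027225256943731889297626595559757190171122591366634962695358363150258723489993779568443392) (nat_lit 17161994155920697690923505071132661365444120559509290048314417857864027225256943731889297626595559757190171122591366634962695358363150258723489993779568443392) c10_s18) c10_d430)) (B (M (nat_lit 459) (B (M (nat_lit 460) (B (M (nat_lit 458) (B (M (nat_lit 424) c10_d435) (L (nat_lit 490) ln11_11_5 ln11_11_5_ok))) (L (nat_lit 492) ln11_11_4 ln11_11_4_ok))) (B (M (nat_lit 491) (B (M (nat_lit 362) (B (L (nat_lit 330) ln11_14_7 ln11_14_7_ok) (L (nat_lit 394) ln11_15_7 ln11_15_7_ok))) (M (nat_lit 492) (B (L (nat_lit 460) ln11_11_4 ln11_11_4_ok) (L (nat_lit 524) ln11_12_4 ln11_12_4_ok)))))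 (B (M (nat_lit 491) (B (M (nat_lit 492) (B (L (nat_lit 460) ln11_11_4 ln11_11_4_ok) (L (nat_lit 524) ln11_12_4 ln11_12_4_ok))) (M (nat_lit 490) (B (L (nat_lit 458) ln11_11_5 ln11_11_5_ok) (L (nat_lit 522) ln11_12_5 ln11_12_5_ok))))) (M (nat_lit 491) (B (M (nat_lit 362) (B (L (nat_lit 330) ln11_14_7 ln11_14_7_ok) (L (nat_lit 394) ln11_15_7 ln11_15_7_ok))) (M (nat_lit 490) (B (L (nat_lit 458) ln11_11_5 ln11_11_5_ok) (L (nat_lit 522) ln11_12_5 ln11_12_5_ok))))))))) c10_d436))) (B (M (nat_lit 426) c10_d438) (B (M (nat_lit 395) (B (K (nat_lit 5954262831162530206286265230239199607252158144638956066880229858290287322841385004986859978896449781225614568337954303650155411180145868800) (nat_lit 189949748434538567236206749329374652210244966943389983390402023942188957950321746598928600557155546082944760903427168424727567665577135175919420507744831566744709702606567505920) (nat_lit 189949748434538567236206749329374652210244966943389983390402023942188957950321746598928600557155546082944760903427168424727567665577135175919420507744831566744709702606567505920)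 c10_s66) (B (K (nat_lit 5954262831162530206286265230239199607252158144638956066880229858290287322841385004986859978896449781225614568337954303650155411180145868800) (nat_lit 36855101830640855999467475120568667279620455793787138823830589112930043192584574387574669061481492954243622291354600128270749690059738259342200347068057061957560172544) (nat_lit 36855101830640855999467475120568667279620455793787138823830589112930043192584574387574669061481492954243622291354600128270749690059738259342200347068057061957560172544) c10_s69) (B (M (nat_lit 426) (B (M (nat_lit 459) (B (K (nat_lit 7442828538693224974013831317517483780117358382791360771547710322160391558686037783696750852198235963875564936218674386743121998554859569152) (nat_lit 1716199424223080164504135240793070520584939410064935701858969045069564628576697911981183215317126503914517604119764642302507352512955592048735528955729149952) (nat_lit 1716199424223080164504135240793070520584939410064935701858969045069564628576697911981183215317126503914517604119764642302507352512955592048735528955729149952)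 c10_s70) (B (K (nat_lit 7442828538693224974013831317517483780117358382791360771547710322160391558686037783696750852198235963875564936218674386743121998554859569152) (nat_lit 253266331521236183188917834186547313995198761734105922432632904510931804078734630997564241999714634795989469779345239644235525992676691251741598997619283742883528092570804551680) (nat_lit 253266331521236183188917834186547313995198761734105922432632904510931804078734630997564241999714634795989469779345239644235525992676691251741598997619283742883528092570804551680) c10_s71) (M (nat_lit 460) (B (L (nat_lit 462) ln14_14_3 ln14_14_3_ok) (L (nat_lit 492) ln11_11_4 ln11_11_4_ok)))))) (B (M (nat_lit 459) (B (K (nat_lit 7442828538693224974013831317517483780117358382791360771547710322160391558686037783696750852198235963875564936218674386743121998554859569152) (nat_lit 253266331521236183188917834186547313995198761734105922432632904510931804078734630997564241999714634795989469779345239644235525992676691251741598997619283742883528092570804551680)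 (nat_lit 253266331521236183188917834186547313995198761734105922432632904510931804078734630997564241999714634795989469779345239644235525992676691251741598997619283742883528092570804551680) c10_s71) (B (M (nat_lit 394) (B (M (nat_lit 428) (B (L (nat_lit 462) ln10_13_0 ln10_13_0_ok) (L (nat_lit 393) ln13_13_3 ln13_13_3_ok))) (M (nat_lit 491) (B (L (nat_lit 523) ln11_16_7 ln11_16_7_ok) (L (nat_lit 362) ln11_15_7 ln11_15_7_ok))))) (M (nat_lit 460) (B (L (nat_lit 462) ln14_14_3 ln14_14_3_ok) (L (nat_lit 492) ln11_11_4 ln11_11_4_ok)))))) (B (K (nat_lit 5954262831335822062168816158962850493761100876103733384091218394238442296629798836724711580336448181607123291969041254335243134419456753664) (nat_lit 4419179444562087692206888727160944074211891852678556399849914338529972284689102427443082133730377720986689897897347533521797326874683113472) (nat_lit 4419179444562087692206888727160944074211891852678556399849914338529972284689102427443082133730377720986689897897347533521797326874683113472)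 c10_s72) (B (K (nat_lit 5954262831335822062168816158962850493761100876103733384091218394238442296629798836724711580336448181607123291969041254335243134419456753664) (nat_lit 54918381293831559798649357102650829706256033893211708034092385184661114129368141323552855875875515399259918302951605183372458581366805704345476018342130089984) (nat_lit 54918381293831559798649357102650829706256033893211708034092385184661114129368141323552855875875515399259918302951605183372458581366805704345476018342130089984) c10_s73) (K (nat_lit 5954262831335822062168816158962850493761100876103733384091218394238442296629798836724711580336448181607123291969041254335243134419456753664) (nat_lit 12234149408188452979393218309572768827582243762788600183996496960120205910484356899046288311004763577896008530207921478663161363585547894784) (nat_lit 12234149408188452979393218309572768827582243762788600183996496960120205910484356899046288311004763577896008530207921478663161363585547894784) c10_s68)))))) (B (K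 (nat_lit 5954262831162530206286265230239199607252158144638956066880229858290287322841385004986859978896449781225614568337954303650155411180145868800) (nat_lit 294840814537006284825906420405020742800928828050948023087106506677134747576115612518959346856057998304244900159868529646128526198375229248977790906881013556320445399040) (nat_lit 294840814537006284825906420405020742800928828050948023087106506677134747576115612518959346856057998304244900159868529646128526198375229248977790906881013556320445399040) c10_s75) c10_d439))))) c10_d447)))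
theorem c10_s90 : Sem (nat_lit 5954262830815946494440468064101681940807525207584307311385449480368064140488599236619261537828426693130420703785776095047607990577375739904) (nat_lit 1723641332851444552320660979215680871826052726417003730392773290751664149219151959473607977213155721127691238775836464664027585216368592366130565314314269899395533839399060784941566117556728436296406718581615976513536) (nat_lit 1723641332851444552320660979215680871826052726417003730392773290751664149219151959473607977213155721127691238775836464664027585216368592366130565314314269899395533839399060784941566117556728436296406718581615976513536) :=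
  sem_of_chk (M (nat_lit 427) (B (K (nat_lit 5954262831162530206205569921548983713825410670513861945807426552264374088065426900094964740708423493893438151047949996417783437055997509632) (nat_lit 1723641332801279987219529792661266898052611476105214827548106057300161826165976033361530687825529873081114158247368674225296198679895886211487488072328084728230229607782224038041503925424881000615884096011149565231104) (nat_lit 1723641332801279987219529792661266898052611476105214827548106057300161826165976033361530687825529873081114158247368674225296198679895886211487488072328084728230229607782224038041503925424881000615884096011149565231104) c10_s15) c10_d448)) (nat_lit 5954262830815946494440468064101681940807525207584307311385449480368064140488599236619261537828426693130420703785776095047607990577375739904) (nat_lit 1723641332851444552320660979215680871826052726417003730392773290751664149219151959473607977213155721127691238775836464664027585216368592366130565314314269899395533839399060784941566117556728436296406718581615976513536)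 (nat_lit 1723641332851444552320660979215680871826052726417003730392773290751664149219151959473607977213155721127691238775836464664027585216368592366130565314314269899395533839399060784941566117556728436296406718581615976513536) (by decide +kernel)
noncomputable def c10_d449 : Cert := (B (M (nat_lit 435) (B (M (nat_lit 464) (B (L (nat_lit 463) ln19_13_1_c10 ln19_13_1_c10_ok) (M (nat_lit 436) (B (L (nat_lit 465) ln20_13_1_c10 ln20_13_1_c10_ok) (M (nat_lit 400) (B (L (nat_lit 399) ln13_12_0 ln13_12_0_ok) (L (nat_lit 401) ln20_13_3_c10 ln20_13_3_c10_ok))))))) (B (M (nat_lit 436) (B (M (nat_lit 400) (B (L (nat_lit 399) ln13_12_0 ln13_12_0_ok) (L (nat_lit 401) ln20_13_3_c10 ln20_13_3_c10_ok))) (M (nat_lit 404) (B (L (nat_lit 403) ln16_13_2_c10 ln16_13_2_c10_ok) (L (nat_lit 405) ln17_13_2_c10 ln17_13_2_c10_ok))))) (B (M (nat_lit 436) (B (M (nat_lit 464) (B (L (nat_lit 463) ln19_13_1_c10 ln19_13_1_c10_ok) (L (nat_lit 465) ln20_13_1_c10 ln20_13_1_c10_ok))) (M (nat_lit 404) (B (L (nat_lit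 403) ln16_13_2_c10 ln16_13_2_c10_ok) (L (nat_lit 405) ln17_13_2_c10 ln17_13_2_c10_ok))))) (M (nat_lit 431) (B (L (nat_lit 399) ln18_13_3 ln18_13_3_ok) (M (nat_lit 403) (B (L (nat_lit 402) ln15_13_2_c10 ln15_13_2_c10_ok) (L (nat_lit 404) ln16_13_2_c10 ln16_13_2_c10_ok))))))))) (B (M (nat_lit 466) (B (M (nat_lit 467) (B (L (nat_lit 431) ln15_13_0_c10 ln15_13_0_c10_ok) (M (nat_lit 468) (B (L (nat_lit 465) ln20_14_3_c10 ln20_14_3_c10_ok) (L (nat_lit 469) ln21_14_3_c10 ln21_14_3_c10_ok))))) (B (M (nat_lit 498) (B (M (nat_lit 401) (B (L (nat_lit 530) ln18_16_7_c10 ln18_16_7_c10_ok) (M (nat_lit 369) (B (L (nat_lit 465) ln17_11_4_c10 ln17_11_4_c10_ok) (L (nat_lit 337) ln17_10_4_c10 ln17_10_4_c10_ok))))) (B (M (nat_lit 401) (B (L (nat_lit 530) ln18_16_7_c10 ln18_16_7_c10_ok) (M (nat_lit 369) (B (L (nat_lit 337) ln17_10_4_c10 ln17_10_4_c10_ok) (L (nat_lit 402) ln18_15_7_c10 ln18_15_7_c10_ok))))) (B (M (nat_lit 530) (B (M (nat_lit 562) (B (L (nat_lit 465) ln18_17_7_c10 ln18_17_7_c10_ok)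 (M (nat_lit 561) (B (L (nat_lit 593) ln18_14_5_c10 ln18_14_5_c10_ok) (L (nat_lit 529) ln18_13_5_c10 ln18_13_5_c10_ok))))) (B (M (nat_lit 562) (B (L (nat_lit 465) ln18_17_7_c10 ln18_17_7_c10_ok) (M (nat_lit 563) (B (L (nat_lit 595) ln18_14_4_c10 ln18_14_4_c10_ok) (L (nat_lit 531) ln18_13_4_c10 ln18_13_4_c10_ok))))) (M (nat_lit 402) (B (M (nat_lit 529) (B (L (nat_lit 561) ln18_13_5_c10 ln18_13_5_c10_ok) (L (nat_lit 497) ln18_12_5_c10 ln18_12_5_c10_ok))) (M (nat_lit 531) (B (L (nat_lit 563) ln18_13_4_c10 ln18_13_4_c10_ok) (L (nat_lit 499) ln18_12_4_c10 ln18_12_4_c10_ok)))))))) (M (nat_lit 402) (B (M (nat_lit 401) (B (L (nat_lit 369) ln18_15_7_c10 ln18_15_7_c10_ok) (M (nat_lit 403) (B (L (nat_lit 404) ln20_12_1_c10 ln20_12_1_c10_ok) (L (nat_lit 371) ln18_15_6_c10 ln18_15_6_c10_ok))))) (M (nat_lit 370) (B (M (nat_lit 497) (B (L (nat_lit 529) ln18_12_5_c10 ln18_12_5_c10_ok) (L (nat_lit 465) ln18_11_5_c10 ln18_11_5_c10_ok))) (M (nat_lit 499) (B (L (nat_lit 531) ln18_12_4_c10 ln18_12_4_c10_ok)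 (L (nat_lit 467) ln18_11_4_c10 ln18_11_4_c10_ok))))))))))) (B (M (nat_lit 402) (B (M (nat_lit 431) (B (L (nat_lit 467) ln15_13_0_c10 ln15_13_0_c10_ok) (L (nat_lit 403) ln15_13_2_c10 ln15_13_2_c10_ok))) (B (M (nat_lit 498) (B (M (nat_lit 401) (B (L (nat_lit 530) ln18_16_7_c10 ln18_16_7_c10_ok) (L (nat_lit 369) ln18_15_7_c10 ln18_15_7_c10_ok))) (M (nat_lit 370) (B (M (nat_lit 499) (B (L (nat_lit 531) ln18_12_4_c10 ln18_12_4_c10_ok) (L (nat_lit 467) ln18_11_4_c10 ln18_11_4_c10_ok))) (M (nat_lit 371) (B (L (nat_lit 403) ln18_15_6_c10 ln18_15_6_c10_ok) (L (nat_lit 339) ln18_14_6_c10 ln18_14_6_c10_ok))))))) (B (M (nat_lit 403) (B (L (nat_lit 431) ln15_13_2_c10 ln15_13_2_c10_ok) (M (nat_lit 404) (B (L (nat_lit 401) ln20_12_1_c10 ln20_12_1_c10_ok) (L (nat_lit 405) ln21_12_1_c10 ln21_12_1_c10_ok))))) (M (nat_lit 498) (B (M (nat_lit 401) (B (L (nat_lit 530) ln18_16_7_c10 ln18_16_7_c10_ok) (L (nat_lit 369) ln18_15_7_c10 ln18_15_7_c10_ok))) (M (nat_lit 499) (B (L (nat_lit 531) ln18_12_4_c10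 ln18_12_4_c10_ok) (M (nat_lit 467) (B (L (nat_lit 431) ln15_13_0_c10 ln15_13_0_c10_ok) (L (nat_lit 370) ln18_11_4_c10 ln18_11_4_c10_ok))))))))))) (M (nat_lit 402) (B (M (nat_lit 403) (B (L (nat_lit 431) ln15_13_2_c10 ln15_13_2_c10_ok) (M (nat_lit 404) (B (L (nat_lit 401) ln20_12_1_c10 ln20_12_1_c10_ok) (L (nat_lit 405) ln21_12_1_c10 ln21_12_1_c10_ok))))) (B (M (nat_lit 498) (B (M (nat_lit 401) (B (L (nat_lit 530) ln18_16_7_c10 ln18_16_7_c10_ok) (L (nat_lit 369) ln18_15_7_c10 ln18_15_7_c10_ok))) (B (M (nat_lit 530) (B (M (nat_lit 529) (B (L (nat_lit 561) ln18_13_5_c10 ln18_13_5_c10_ok) (L (nat_lit 497) ln18_12_5_c10 ln18_12_5_c10_ok))) (M (nat_lit 531) (B (L (nat_lit 563) ln18_13_4_c10 ln18_13_4_c10_ok) (L (nat_lit 499) ln18_12_4_c10 ln18_12_4_c10_ok))))) (M (nat_lit 401) (B (L (nat_lit 369) ln18_15_7_c10 ln18_15_7_c10_ok) (M (nat_lit 403) (B (L (nat_lit 404) ln20_12_1_c10 ln20_12_1_c10_ok) (L (nat_lit 371) ln18_15_6_c10 ln18_15_6_c10_ok)))))))) (B (M (nat_lit 498) (B (M (nat_lit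 403) (B (L (nat_lit 431) ln15_13_2_c10 ln15_13_2_c10_ok) (L (nat_lit 371) ln18_15_6_c10 ln18_15_6_c10_ok))) (M (nat_lit 530) (B (M (nat_lit 529) (B (L (nat_lit 561) ln18_13_5_c10 ln18_13_5_c10_ok) (L (nat_lit 497) ln18_12_5_c10 ln18_12_5_c10_ok))) (M (nat_lit 531) (B (L (nat_lit 563) ln18_13_4_c10 ln18_13_4_c10_ok) (L (nat_lit 499) ln18_12_4_c10 ln18_12_4_c10_ok))))))) (M (nat_lit 498) (B (M (nat_lit 401) (B (L (nat_lit 530) ln18_16_7_c10 ln18_16_7_c10_ok) (L (nat_lit 369) ln18_15_7_c10 ln18_15_7_c10_ok))) (B (M (nat_lit 530) (B (M (nat_lit 529) (B (L (nat_lit 561) ln18_13_5_c10 ln18_13_5_c10_ok) (L (nat_lit 497) ln18_12_5_c10 ln18_12_5_c10_ok))) (M (nat_lit 531) (B (L (nat_lit 563) ln18_13_4_c10 ln18_13_4_c10_ok) (L (nat_lit 499) ln18_12_4_c10 ln18_12_4_c10_ok))))) (M (nat_lit 370) (B (M (nat_lit 497) (B (L (nat_lit 529) ln18_12_5_c10 ln18_12_5_c10_ok) (L (nat_lit 465) ln18_11_5_c10 ln18_11_5_c10_ok))) (M (nat_lit 369) (B (L (nat_lit 401) ln18_15_7_c10 ln18_15_7_c10_ok)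 (L (nat_lit 337) ln18_14_7_c10 ln18_14_7_c10_ok)))))))))))))))) (M (nat_lit 435) (B (M (nat_lit 464) (B (L (nat_lit 463) ln19_13_1_c10 ln19_13_1_c10_ok) (M (nat_lit 436) (B (L (nat_lit 465) ln20_13_1_c10 ln20_13_1_c10_ok) (M (nat_lit 400) (B (L (nat_lit 399) ln13_12_0 ln13_12_0_ok) (L (nat_lit 401) ln20_13_3_c10 ln20_13_3_c10_ok))))))) (B (M (nat_lit 436) (B (M (nat_lit 400) (B (L (nat_lit 399) ln13_12_0 ln13_12_0_ok) (L (nat_lit 401) ln20_13_3_c10 ln20_13_3_c10_ok))) (M (nat_lit 468) (B (L (nat_lit 467) ln16_13_0_c10 ln16_13_0_c10_ok) (L (nat_lit 469) ln17_13_0_c10 ln17_13_0_c10_ok))))) (B (M (nat_lit 436) (B (M (nat_lit 464) (B (L (nat_lit 463) ln19_13_1_c10 ln19_13_1_c10_ok) (L (nat_lit 465) ln20_13_1_c10 ln20_13_1_c10_ok))) (M (nat_lit 468) (B (L (nat_lit 467) ln16_13_0_c10 ln16_13_0_c10_ok) (L (nat_lit 469) ln17_13_0_c10 ln17_13_0_c10_ok))))) (M (nat_lit 431) (B (L (nat_lit 399) ln18_13_3 ln18_13_3_ok) (M (nat_lit 467) (B (L (nat_lit 466) ln15_13_0_c10 ln15_13_0_c10_ok)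 (L (nat_lit 468) ln16_13_0_c10 ln16_13_0_c10_ok)))))))))))
noncomputable def c10_d450 : Cert := (B (M (nat_lit 402) (B (M (nat_lit 498) (B (M (nat_lit 401) (B (L (nat_lit 530) ln18_16_7_c10 ln18_16_7_c10_ok) (L (nat_lit 369) ln18_15_7_c10 ln18_15_7_c10_ok))) (M (nat_lit 467) (B (M (nat_lit 468) (B (L (nat_lit 465) ln20_14_3_c10 ln20_14_3_c10_ok) (L (nat_lit 469) ln21_14_3_c10 ln21_14_3_c10_ok))) (M (nat_lit 499) (B (L (nat_lit 531) ln18_12_4_c10 ln18_12_4_c10_ok) (L (nat_lit 370) ln18_11_4_c10 ln18_11_4_c10_ok))))))) (B (M (nat_lit 498) (B (M (nat_lit 401) (B (L (nat_lit 530) ln18_16_7_c10 ln18_16_7_c10_ok) (L (nat_lit 369) ln18_15_7_c10 ln18_15_7_c10_ok))) (M (nat_lit 370) (B (M (nat_lit 499) (B (L (nat_lit 531) ln18_12_4_c10 ln18_12_4_c10_ok) (L (nat_lit 467) ln18_11_4_c10 ln18_11_4_c10_ok))) (M (nat_lit 371) (B (L (nat_lit 403) ln18_15_6_c10 ln18_15_6_c10_ok) (L (nat_lit 339) ln18_14_6_c10 ln18_14_6_c10_ok))))))) (B (M (nat_lit 370) (B (M (nat_lit 465) (B (L (nat_lit 497)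 ln18_11_5_c10 ln18_11_5_c10_ok) (L (nat_lit 338) ln18_10_5_c10 ln18_10_5_c10_ok))) (M (nat_lit 371) (B (L (nat_lit 339) ln18_14_6_c10 ln18_14_6_c10_ok) (M (nat_lit 498) (B (L (nat_lit 403) ln18_15_6_c10 ln18_15_6_c10_ok) (M (nat_lit 499) (B (L (nat_lit 531) ln18_12_4_c10 ln18_12_4_c10_ok) (L (nat_lit 467) ln18_11_4_c10 ln18_11_4_c10_ok))))))))) (B (M (nat_lit 370) (B (M (nat_lit 465) (B (L (nat_lit 497) ln18_11_5_c10 ln18_11_5_c10_ok) (L (nat_lit 338) ln18_10_5_c10 ln18_10_5_c10_ok))) (B (M (nat_lit 465) (B (L (nat_lit 338) ln18_10_5_c10 ln18_10_5_c10_ok) (M (nat_lit 467) (B (L (nat_lit 468) ln20_14_3_c10 ln20_14_3_c10_ok) (L (nat_lit 499) ln18_11_4_c10 ln18_11_4_c10_ok))))) (B (M (nat_lit 338) (B (M (nat_lit 337) (B (L (nat_lit 369) ln18_14_7_c10 ln18_14_7_c10_ok) (L (nat_lit 305) ln18_13_7_c10 ln18_13_7_c10_ok))) (M (nat_lit 339) (B (L (nat_lit 371) ln18_14_6_c10 ln18_14_6_c10_ok) (L (nat_lit 307) ln18_13_6_c10 ln18_13_6_c10_ok))))) (M (nat_lit 465) (B (L (nat_lit 497)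 ln18_11_5_c10 ln18_11_5_c10_ok) (M (nat_lit 467) (B (L (nat_lit 468) ln20_14_3_c10 ln20_14_3_c10_ok) (L (nat_lit 499) ln18_11_4_c10 ln18_11_4_c10_ok))))))))) (B (M (nat_lit 498) (B (M (nat_lit 401) (B (L (nat_lit 530) ln18_16_7_c10 ln18_16_7_c10_ok) (L (nat_lit 369) ln18_15_7_c10 ln18_15_7_c10_ok))) (B (M (nat_lit 530) (B (M (nat_lit 529) (B (L (nat_lit 561) ln18_13_5_c10 ln18_13_5_c10_ok) (L (nat_lit 497) ln18_12_5_c10 ln18_12_5_c10_ok))) (M (nat_lit 531) (B (L (nat_lit 563) ln18_13_4_c10 ln18_13_4_c10_ok) (L (nat_lit 499) ln18_12_4_c10 ln18_12_4_c10_ok))))) (M (nat_lit 401) (B (L (nat_lit 369) ln18_15_7_c10 ln18_15_7_c10_ok) (M (nat_lit 403) (B (L (nat_lit 404) ln20_12_1_c10 ln20_12_1_c10_ok) (L (nat_lit 371) ln18_15_6_c10 ln18_15_6_c10_ok)))))))) (M (nat_lit 498) (B (M (nat_lit 401) (B (L (nat_lit 530) ln18_16_7_c10 ln18_16_7_c10_ok) (L (nat_lit 369) ln18_15_7_c10 ln18_15_7_c10_ok))) (M (nat_lit 370) (B (M (nat_lit 497) (B (L (nat_lit 529) ln18_12_5_c10 ln18_12_5_c10_ok)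 (L (nat_lit 465) ln18_11_5_c10 ln18_11_5_c10_ok))) (M (nat_lit 371) (B (L (nat_lit 403) ln18_15_6_c10 ln18_15_6_c10_ok) (L (nat_lit 339) ln18_14_6_c10 ln18_14_6_c10_ok))))))))))))) (B (M (nat_lit 402) (B (M (nat_lit 431) (B (L (nat_lit 467) ln15_13_0_c10 ln15_13_0_c10_ok) (L (nat_lit 403) ln15_13_2_c10 ln15_13_2_c10_ok))) (B (M (nat_lit 498) (B (M (nat_lit 401) (B (L (nat_lit 530) ln18_16_7_c10 ln18_16_7_c10_ok) (L (nat_lit 369) ln18_15_7_c10 ln18_15_7_c10_ok))) (M (nat_lit 370) (B (M (nat_lit 499) (B (L (nat_lit 531) ln18_12_4_c10 ln18_12_4_c10_ok) (L (nat_lit 467) ln18_11_4_c10 ln18_11_4_c10_ok))) (M (nat_lit 371) (B (L (nat_lit 403) ln18_15_6_c10 ln18_15_6_c10_ok) (L (nat_lit 339) ln18_14_6_c10 ln18_14_6_c10_ok))))))) (B (M (nat_lit 401) (B (M (nat_lit 403) (B (L (nat_lit 431) ln15_13_2_c10 ln15_13_2_c10_ok) (L (nat_lit 404) ln20_12_1_c10 ln20_12_1_c10_ok))) (M (nat_lit 498) (B (L (nat_lit 530) ln18_16_7_c10 ln18_16_7_c10_ok) (L (nat_lit 369) ln18_15_7_c10 ln18_15_7_c10_ok)))))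 (M (nat_lit 467) (B (L (nat_lit 431) ln15_13_0_c10 ln15_13_0_c10_ok) (M (nat_lit 499) (B (L (nat_lit 370) ln18_11_4_c10 ln18_11_4_c10_ok) (M (nat_lit 531) (B (L (nat_lit 498) ln18_12_4_c10 ln18_12_4_c10_ok) (L (nat_lit 563) ln19_17_7_c10 ln19_17_7_c10_ok))))))))))) (M (nat_lit 402) (B (M (nat_lit 403) (B (L (nat_lit 431) ln15_13_2_c10 ln15_13_2_c10_ok) (M (nat_lit 404) (B (L (nat_lit 401) ln20_12_1_c10 ln20_12_1_c10_ok) (L (nat_lit 405) ln21_12_1_c10 ln21_12_1_c10_ok))))) (B (M (nat_lit 498) (B (M (nat_lit 401) (B (L (nat_lit 530) ln18_16_7_c10 ln18_16_7_c10_ok) (L (nat_lit 369) ln18_15_7_c10 ln18_15_7_c10_ok))) (M (nat_lit 370) (B (M (nat_lit 497) (B (L (nat_lit 529) ln18_12_5_c10 ln18_12_5_c10_ok) (L (nat_lit 465) ln18_11_5_c10 ln18_11_5_c10_ok))) (M (nat_lit 371) (B (L (nat_lit 403) ln18_15_6_c10 ln18_15_6_c10_ok) (L (nat_lit 339) ln18_14_6_c10 ln18_14_6_c10_ok))))))) (B (M (nat_lit 497) (B (M (nat_lit 529) (B (L (nat_lit 465) ln17_16_6_c10 ln17_16_6_c10_ok) (L (nat_lit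 498) ln18_12_5_c10 ln18_12_5_c10_ok))) (B (M (nat_lit 371) (B (M (nat_lit 403) (B (L (nat_lit 431) ln15_13_2_c10 ln15_13_2_c10_ok) (L (nat_lit 498) ln18_15_6_c10 ln18_15_6_c10_ok))) (M (nat_lit 370) (B (L (nat_lit 465) ln18_11_5_c10 ln18_11_5_c10_ok) (L (nat_lit 339) ln18_14_6_c10 ln18_14_6_c10_ok))))) (B (M (nat_lit 498) (B (L (nat_lit 529) ln18_12_5_c10 ln18_12_5_c10_ok) (M (nat_lit 403) (B (L (nat_lit 431) ln15_13_2_c10 ln15_13_2_c10_ok) (L (nat_lit 371) ln18_15_6_c10 ln18_15_6_c10_ok))))) (M (nat_lit 465) (B (L (nat_lit 529) ln17_16_6_c10 ln17_16_6_c10_ok) (L (nat_lit 370) ln18_11_5_c10 ln18_11_5_c10_ok))))))) (M (nat_lit 498) (B (M (nat_lit 401) (B (L (nat_lit 530) ln18_16_7_c10 ln18_16_7_c10_ok) (L (nat_lit 369) ln18_15_7_c10 ln18_15_7_c10_ok))) (B (M (nat_lit 530) (B (M (nat_lit 529) (B (L (nat_lit 561) ln18_13_5_c10 ln18_13_5_c10_ok) (L (nat_lit 497) ln18_12_5_c10 ln18_12_5_c10_ok))) (M (nat_lit 531) (B (L (nat_lit 563) ln18_13_4_c10 ln18_13_4_c10_ok) (L (nat_lit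 499) ln18_12_4_c10 ln18_12_4_c10_ok))))) (M (nat_lit 370) (B (M (nat_lit 497) (B (L (nat_lit 529) ln18_12_5_c10 ln18_12_5_c10_ok) (L (nat_lit 465) ln18_11_5_c10 ln18_11_5_c10_ok))) (M (nat_lit 369) (B (L (nat_lit 401) ln18_15_7_c10 ln18_15_7_c10_ok) (L (nat_lit 337) ln18_14_7_c10 ln18_14_7_c10_ok))))))))))))))
noncomputable def c10_d451 : Cert := (B (M (nat_lit 464) (B (M (nat_lit 435) (B (L (nat_lit 463) ln19_13_1_c10 ln19_13_1_c10_ok) (M (nat_lit 436) (B (L (nat_lit 465) ln20_13_1_c10 ln20_13_1_c10_ok) (M (nat_lit 400) (B (L (nat_lit 399) ln13_12_0 ln13_12_0_ok) (L (nat_lit 401) ln20_13_3_c10 ln20_13_3_c10_ok))))))) (B (M (nat_lit 400) (B (M (nat_lit 435) (B (L (nat_lit 399) ln13_12_0 ln13_12_0_ok) (M (nat_lit 436) (B (L (nat_lit 465) ln20_13_1_c10 ln20_13_1_c10_ok) (L (nat_lit 401) ln20_13_3_c10 ln20_13_3_c10_ok))))) (B (M (nat_lit 496) (B (M (nat_lit 401) (B (L (nat_lit 528) ln16_16_6_c10 ln16_16_6_c10_ok) (L (nat_lit 369) ln16_15_6_c10 ln16_15_6_c10_ok))) (B (M (nat_lit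 368) (B (M (nat_lit 497) (B (L (nat_lit 529) ln16_12_4 ln16_12_4_ok) (L (nat_lit 465) ln16_11_4 ln16_11_4_ok))) (M (nat_lit 369) (B (L (nat_lit 401) ln16_15_6_c10 ln16_15_6_c10_ok) (L (nat_lit 337) ln16_14_6_c10 ln16_14_6_c10_ok))))) (M (nat_lit 528) (B (M (nat_lit 527) (B (L (nat_lit 559) ln16_13_5_c10 ln16_13_5_c10_ok) (L (nat_lit 495) ln16_12_5_c10 ln16_12_5_c10_ok))) (M (nat_lit 529) (B (L (nat_lit 561) ln16_13_4_c10 ln16_13_4_c10_ok) (L (nat_lit 497) ln16_12_4 ln16_12_4_ok)))))))) (B (M (nat_lit 401) (B (M (nat_lit 496) (B (L (nat_lit 528) ln16_16_6_c10 ln16_16_6_c10_ok) (L (nat_lit 369) ln16_15_6_c10 ln16_15_6_c10_ok))) (M (nat_lit 435) (B (L (nat_lit 399) ln13_12_0 ln13_12_0_ok) (L (nat_lit 436) ln20_13_3_c10 ln20_13_3_c10_ok))))) (M (nat_lit 465) (B (M (nat_lit 435) (B (L (nat_lit 399) ln13_12_0 ln13_12_0_ok) (L (nat_lit 436) ln20_13_1_c10 ln20_13_1_c10_ok))) (M (nat_lit 497) (B (L (nat_lit 368) ln16_11_4 ln16_11_4_ok) (L (nat_lit 529) ln17_16_7_c10 ln17_16_7_c10_ok)))))))))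 (B (M (nat_lit 435) (B (L (nat_lit 463) ln19_13_1_c10 ln19_13_1_c10_ok) (M (nat_lit 436) (B (L (nat_lit 465) ln20_13_1_c10 ln20_13_1_c10_ok) (M (nat_lit 468) (B (L (nat_lit 467) ln16_13_0_c10 ln16_13_0_c10_ok) (L (nat_lit 469) ln17_13_0_c10 ln17_13_0_c10_ok))))))) (B (M (nat_lit 435) (B (L (nat_lit 463) ln19_13_1_c10 ln19_13_1_c10_ok) (M (nat_lit 436) (B (M (nat_lit 400) (B (L (nat_lit 399) ln13_12_0 ln13_12_0_ok) (L (nat_lit 401) ln20_13_3_c10 ln20_13_3_c10_ok))) (M (nat_lit 404) (B (L (nat_lit 403) ln16_13_2_c10 ln16_13_2_c10_ok) (L (nat_lit 405) ln17_13_2_c10 ln17_13_2_c10_ok))))))) (M (nat_lit 496) (B (M (nat_lit 401) (B (L (nat_lit 528) ln16_16_6_c10 ln16_16_6_c10_ok) (M (nat_lit 369) (B (L (nat_lit 400) ln16_15_6_c10 ln16_15_6_c10_ok) (L (nat_lit 465) ln17_11_5_c10 ln17_11_5_c10_ok))))) (B (M (nat_lit 400) (B (M (nat_lit 401) (B (L (nat_lit 369) ln16_15_6_c10 ln16_15_6_c10_ok) (L (nat_lit 399) ln13_12_0 ln13_12_0_ok))) (M (nat_lit 368) (B (M (nat_lit 495) (B (L (nat_lit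 527) ln16_12_5_c10 ln16_12_5_c10_ok) (L (nat_lit 463) ln16_11_5_c10 ln16_11_5_c10_ok))) (M (nat_lit 497) (B (L (nat_lit 529) ln16_12_4 ln16_12_4_ok) (L (nat_lit 465) ln16_11_4 ln16_11_4_ok))))))) (B (M (nat_lit 401) (B (L (nat_lit 528) ln16_16_6_c10 ln16_16_6_c10_ok) (M (nat_lit 369) (B (L (nat_lit 465) ln17_11_5_c10 ln17_11_5_c10_ok) (L (nat_lit 337) ln17_10_5_c10 ln17_10_5_c10_ok))))) (B (M (nat_lit 401) (B (L (nat_lit 528) ln16_16_6_c10 ln16_16_6_c10_ok) (M (nat_lit 369) (B (L (nat_lit 400) ln16_15_6_c10 ln16_15_6_c10_ok) (L (nat_lit 337) ln17_10_5_c10 ln17_10_5_c10_ok))))) (M (nat_lit 400) (B (M (nat_lit 368) (B (M (nat_lit 367) (B (L (nat_lit 399) ln13_12_0 ln13_12_0_ok) (L (nat_lit 335) ln16_14_7 ln16_14_7_ok))) (M (nat_lit 497) (B (L (nat_lit 529) ln16_12_4 ln16_12_4_ok) (L (nat_lit 465) ln16_11_4 ln16_11_4_ok))))) (B (M (nat_lit 368) (B (M (nat_lit 495) (B (L (nat_lit 527) ln16_12_5_c10 ln16_12_5_c10_ok) (L (nat_lit 463) ln16_11_5_c10 ln16_11_5_c10_ok))) (M (nat_lit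 497) (B (L (nat_lit 529) ln16_12_4 ln16_12_4_ok) (L (nat_lit 465) ln16_11_4 ln16_11_4_ok))))) (B (M (nat_lit 528) (B (M (nat_lit 527) (B (L (nat_lit 559) ln16_13_5_c10 ln16_13_5_c10_ok) (L (nat_lit 495) ln16_12_5_c10 ln16_12_5_c10_ok))) (M (nat_lit 529) (B (L (nat_lit 561) ln16_13_4_c10 ln16_13_4_c10_ok) (L (nat_lit 497) ln16_12_4 ln16_12_4_ok))))) (M (nat_lit 495) (B (L (nat_lit 527) ln16_12_5_c10 ln16_12_5_c10_ok) (M (nat_lit 368) (B (L (nat_lit 463) ln16_11_5_c10 ln16_11_5_c10_ok) (M (nat_lit 367) (B (L (nat_lit 399) ln13_12_0 ln13_12_0_ok) (L (nat_lit 335) ln16_14_7 ln16_14_7_ok))))))))))))))))))))) (B (M (nat_lit 435) (B (M (nat_lit 436) (B (M (nat_lit 464) (B (L (nat_lit 463) ln19_13_1_c10 ln19_13_1_c10_ok) (L (nat_lit 465) ln20_13_1_c10 ln20_13_1_c10_ok))) (M (nat_lit 468) (B (L (nat_lit 467) ln16_13_0_c10 ln16_13_0_c10_ok) (L (nat_lit 469) ln17_13_0_c10 ln17_13_0_c10_ok))))) (B (M (nat_lit 436) (B (M (nat_lit 468) (B (L (nat_lit 467) ln16_13_0_c10 ln16_13_0_c10_ok)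 (L (nat_lit 469) ln17_13_0_c10 ln17_13_0_c10_ok))) (M (nat_lit 404) (B (L (nat_lit 403) ln16_13_2_c10 ln16_13_2_c10_ok) (L (nat_lit 405) ln17_13_2_c10 ln17_13_2_c10_ok))))) (B (M (nat_lit 436) (B (M (nat_lit 464) (B (L (nat_lit 463) ln19_13_1_c10 ln19_13_1_c10_ok) (L (nat_lit 465) ln20_13_1_c10 ln20_13_1_c10_ok))) (M (nat_lit 404) (B (L (nat_lit 403) ln16_13_2_c10 ln16_13_2_c10_ok) (L (nat_lit 405) ln17_13_2_c10 ln17_13_2_c10_ok))))) (M (nat_lit 431) (B (M (nat_lit 467) (B (L (nat_lit 466) ln15_13_0_c10 ln15_13_0_c10_ok) (L (nat_lit 468) ln16_13_0_c10 ln16_13_0_c10_ok))) (M (nat_lit 403) (B (L (nat_lit 402) ln15_13_2_c10 ln15_13_2_c10_ok) (L (nat_lit 404) ln16_13_2_c10 ln16_13_2_c10_ok))))))))) (B (M (nat_lit 435) (B (M (nat_lit 436) (B (M (nat_lit 464) (B (L (nat_lit 463) ln19_13_1_c10 ln19_13_1_c10_ok) (L (nat_lit 465) ln20_13_1_c10 ln20_13_1_c10_ok))) (M (nat_lit 400) (B (L (nat_lit 399) ln13_12_0 ln13_12_0_ok) (L (nat_lit 401) ln20_13_3_c10 ln20_13_3_c10_ok))))) (B (M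 (nat_lit 436) (B (M (nat_lit 400) (B (L (nat_lit 399) ln13_12_0 ln13_12_0_ok) (L (nat_lit 401) ln20_13_3_c10 ln20_13_3_c10_ok))) (M (nat_lit 404) (B (L (nat_lit 403) ln16_13_2_c10 ln16_13_2_c10_ok) (L (nat_lit 405) ln17_13_2_c10 ln17_13_2_c10_ok))))) (B (M (nat_lit 436) (B (M (nat_lit 464) (B (L (nat_lit 463) ln19_13_1_c10 ln19_13_1_c10_ok) (L (nat_lit 465) ln20_13_1_c10 ln20_13_1_c10_ok))) (M (nat_lit 404) (B (L (nat_lit 403) ln16_13_2_c10 ln16_13_2_c10_ok) (L (nat_lit 405) ln17_13_2_c10 ln17_13_2_c10_ok))))) (M (nat_lit 431) (B (L (nat_lit 399) ln18_13_3 ln18_13_3_ok) (M (nat_lit 403) (B (L (nat_lit 402) ln15_13_2_c10 ln15_13_2_c10_ok) (L (nat_lit 404) ln16_13_2_c10 ln16_13_2_c10_ok))))))))) (B (M (nat_lit 466) (B (M (nat_lit 467) (B (L (nat_lit 431) ln15_13_0_c10 ln15_13_0_c10_ok) (M (nat_lit 468) (B (L (nat_lit 465) ln20_14_3_c10 ln20_14_3_c10_ok) (L (nat_lit 469) ln21_14_3_c10 ln21_14_3_c10_ok))))) c10_d450)) (M (nat_lit 435) (B (M (nat_lit 436) (B (M (nat_lit 464) (B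 (L (nat_lit 463) ln19_13_1_c10 ln19_13_1_c10_ok) (L (nat_lit 465) ln20_13_1_c10 ln20_13_1_c10_ok))) (M (nat_lit 400) (B (L (nat_lit 399) ln13_12_0 ln13_12_0_ok) (L (nat_lit 401) ln20_13_3_c10 ln20_13_3_c10_ok))))) (B (M (nat_lit 436) (B (M (nat_lit 400) (B (L (nat_lit 399) ln13_12_0 ln13_12_0_ok) (L (nat_lit 401) ln20_13_3_c10 ln20_13_3_c10_ok))) (M (nat_lit 468) (B (L (nat_lit 467) ln16_13_0_c10 ln16_13_0_c10_ok) (L (nat_lit 469) ln17_13_0_c10 ln17_13_0_c10_ok))))) (B (M (nat_lit 436) (B (M (nat_lit 464) (B (L (nat_lit 463) ln19_13_1_c10 ln19_13_1_c10_ok) (L (nat_lit 465) ln20_13_1_c10 ln20_13_1_c10_ok))) (M (nat_lit 468) (B (L (nat_lit 467) ln16_13_0_c10 ln16_13_0_c10_ok) (L (nat_lit 469) ln17_13_0_c10 ln17_13_0_c10_ok))))) (M (nat_lit 431) (B (L (nat_lit 399) ln18_13_3 ln18_13_3_ok) (M (nat_lit 467) (B (L (nat_lit 466) ln15_13_0_c10 ln15_13_0_c10_ok) (L (nat_lit 468) ln16_13_0_c10 ln16_13_0_c10_ok)))))))))))))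
noncomputable def c10_d452 : Cert := (B (K (nat_lit 8931394323165503754481658153670348049985162940857813804920622417077344278730704448857942057155343404368412318944338361584051269924982620160) (nat_lit 3000948466659147621449104578829900253015810714825239463632303291750953413256223288340147363223343542812437937761126728142407813693172571176960) (nat_lit 3000948466659147621449104578829900253015810714825239463632303291750953413256223288340147363223343542812437937761126728142407813693172571176960) c10_s329) (B (M (nat_lit 402) (B (M (nat_lit 403) (B (L (nat_lit 431) ln15_13_2_c10 ln15_13_2_c10_ok) (M (nat_lit 404) (B (L (nat_lit 401) ln20_12_1_c10 ln20_12_1_c10_ok) (L (nat_lit 405) ln21_12_1_c10 ln21_12_1_c10_ok))))) (B (M (nat_lit 370) (B (M (nat_lit 465) (B (L (nat_lit 338) ln18_10_5_c10 ln18_10_5_c10_ok) (M (nat_lit 497) (B (L (nat_lit 401) ln17_15_6_c10 ln17_15_6_c10_ok) (L (nat_lit 529) ln17_16_6_c10 ln17_16_6_c10_ok))))) (B (M (nat_lit 465) (B (L (nat_lit 338) ln18_10_5_c10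 ln18_10_5_c10_ok) (M (nat_lit 497) (B (L (nat_lit 529) ln17_16_6_c10 ln17_16_6_c10_ok) (L (nat_lit 466) ln18_11_5_c10 ln18_11_5_c10_ok))))) (B (M (nat_lit 338) (B (M (nat_lit 306) (B (L (nat_lit 401) ln18_9_5_c10 ln18_9_5_c10_ok) (M (nat_lit 305) (B (L (nat_lit 273) ln18_12_7_c10 ln18_12_7_c10_ok) (L (nat_lit 337) ln18_13_7_c10 ln18_13_7_c10_ok))))) (B (M (nat_lit 306) (B (L (nat_lit 401) ln18_9_5_c10 ln18_9_5_c10_ok) (M (nat_lit 307) (B (L (nat_lit 275) ln18_12_6_c10 ln18_12_6_c10_ok) (L (nat_lit 339) ln18_13_6_c10 ln18_13_6_c10_ok))))) (M (nat_lit 466) (B (M (nat_lit 337) (B (L (nat_lit 305) ln18_13_7_c10 ln18_13_7_c10_ok) (L (nat_lit 369) ln18_14_7_c10 ln18_14_7_c10_ok))) (M (nat_lit 339) (B (L (nat_lit 307) ln18_13_6_c10 ln18_13_6_c10_ok) (L (nat_lit 371) ln18_14_6_c10 ln18_14_6_c10_ok)))))))) (M (nat_lit 466) (B (M (nat_lit 465) (B (L (nat_lit 497) ln18_11_5_c10 ln18_11_5_c10_ok) (M (nat_lit 467) (B (L (nat_lit 468) ln20_14_3_c10 ln20_14_3_c10_ok) (L (nat_lit 499) ln18_11_4_c10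 ln18_11_4_c10_ok))))) (M (nat_lit 498) (B (M (nat_lit 369) (B (L (nat_lit 337) ln18_14_7_c10 ln18_14_7_c10_ok) (L (nat_lit 401) ln18_15_7_c10 ln18_15_7_c10_ok))) (M (nat_lit 371) (B (L (nat_lit 339) ln18_14_6_c10 ln18_14_6_c10_ok) (L (nat_lit 403) ln18_15_6_c10 ln18_15_6_c10_ok))))))))))) (B (M (nat_lit 466) (B (M (nat_lit 431) (B (L (nat_lit 403) ln15_13_2_c10 ln15_13_2_c10_ok) (L (nat_lit 467) ln15_13_0_c10 ln15_13_0_c10_ok))) (B (M (nat_lit 370) (B (M (nat_lit 465) (B (L (nat_lit 338) ln18_10_5_c10 ln18_10_5_c10_ok) (L (nat_lit 497) ln18_11_5_c10 ln18_11_5_c10_ok))) (M (nat_lit 498) (B (M (nat_lit 371) (B (L (nat_lit 339) ln18_14_6_c10 ln18_14_6_c10_ok) (L (nat_lit 403) ln18_15_6_c10 ln18_15_6_c10_ok))) (M (nat_lit 499) (B (L (nat_lit 467) ln18_11_4_c10 ln18_11_4_c10_ok) (L (nat_lit 531) ln18_12_4_c10 ln18_12_4_c10_ok))))))) (B (M (nat_lit 467) (B (L (nat_lit 431) ln15_13_0_c10 ln15_13_0_c10_ok) (M (nat_lit 468) (B (L (nat_lit 465) ln20_14_3_c10 ln20_14_3_c10_ok) (L (nat_lit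 469) ln21_14_3_c10 ln21_14_3_c10_ok))))) (M (nat_lit 370) (B (M (nat_lit 465) (B (L (nat_lit 338) ln18_10_5_c10 ln18_10_5_c10_ok) (L (nat_lit 497) ln18_11_5_c10 ln18_11_5_c10_ok))) (M (nat_lit 371) (B (L (nat_lit 339) ln18_14_6_c10 ln18_14_6_c10_ok) (M (nat_lit 403) (B (L (nat_lit 431) ln15_13_2_c10 ln15_13_2_c10_ok) (L (nat_lit 498) ln18_15_6_c10 ln18_15_6_c10_ok))))))))))) (M (nat_lit 466) (B (M (nat_lit 467) (B (L (nat_lit 431) ln15_13_0_c10 ln15_13_0_c10_ok) (M (nat_lit 468) (B (L (nat_lit 465) ln20_14_3_c10 ln20_14_3_c10_ok) (L (nat_lit 469) ln21_14_3_c10 ln21_14_3_c10_ok))))) (B (M (nat_lit 370) (B (M (nat_lit 465) (B (L (nat_lit 338) ln18_10_5_c10 ln18_10_5_c10_ok) (L (nat_lit 497) ln18_11_5_c10 ln18_11_5_c10_ok))) (B (M (nat_lit 338) (B (M (nat_lit 337) (B (L (nat_lit 305) ln18_13_7_c10 ln18_13_7_c10_ok) (L (nat_lit 369) ln18_14_7_c10 ln18_14_7_c10_ok))) (M (nat_lit 339) (B (L (nat_lit 307) ln18_13_6_c10 ln18_13_6_c10_ok) (L (nat_lit 371) ln18_14_6_c10 ln18_14_6_c10_ok)))))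 (M (nat_lit 465) (B (L (nat_lit 497) ln18_11_5_c10 ln18_11_5_c10_ok) (M (nat_lit 467) (B (L (nat_lit 468) ln20_14_3_c10 ln20_14_3_c10_ok) (L (nat_lit 499) ln18_11_4_c10 ln18_11_4_c10_ok)))))))) (B (M (nat_lit 370) (B (M (nat_lit 467) (B (L (nat_lit 431) ln15_13_0_c10 ln15_13_0_c10_ok) (L (nat_lit 499) ln18_11_4_c10 ln18_11_4_c10_ok))) (M (nat_lit 338) (B (M (nat_lit 337) (B (L (nat_lit 305) ln18_13_7_c10 ln18_13_7_c10_ok) (L (nat_lit 369) ln18_14_7_c10 ln18_14_7_c10_ok))) (M (nat_lit 339) (B (L (nat_lit 307) ln18_13_6_c10 ln18_13_6_c10_ok) (L (nat_lit 371) ln18_14_6_c10 ln18_14_6_c10_ok))))))) (M (nat_lit 370) (B (M (nat_lit 465) (B (L (nat_lit 338) ln18_10_5_c10 ln18_10_5_c10_ok) (L (nat_lit 497) ln18_11_5_c10 ln18_11_5_c10_ok))) (B (M (nat_lit 338) (B (M (nat_lit 337) (B (L (nat_lit 305) ln18_13_7_c10 ln18_13_7_c10_ok) (L (nat_lit 369) ln18_14_7_c10 ln18_14_7_c10_ok))) (M (nat_lit 339) (B (L (nat_lit 307) ln18_13_6_c10 ln18_13_6_c10_ok) (L (nat_lit 371) ln18_14_6_c10 ln18_14_6_c10_ok)))))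 (M (nat_lit 498) (B (M (nat_lit 369) (B (L (nat_lit 337) ln18_14_7_c10 ln18_14_7_c10_ok) (L (nat_lit 401) ln18_15_7_c10 ln18_15_7_c10_ok))) (M (nat_lit 497) (B (L (nat_lit 465) ln18_11_5_c10 ln18_11_5_c10_ok) (L (nat_lit 529) ln18_12_5_c10 ln18_12_5_c10_ok)))))))))))))))) (B (K (nat_lit 8931394323165503754481658153670348049985162940857813804920622417077344278730704448857942057155343404368412318944338361584051269924982620160) (nat_lit 1757388201402609913355823057391166979012985751906250732270305636897394142786631281689378812853505600093456347485441504186295074466673940530440577750667630739456) (nat_lit 1757388201402609913355823057391166979012985751906250732270305636897394142786631281689378812853505600093456347485441504186295074466673940530440577750667630739456) c10_s327) (K (nat_lit 8931394323165503754481658153670348049985162940857813804920622417077344278730704448857942057155343404368412318944338361584051269924982620160) (nat_lit 1757388201402609916023332804975632996894646922863286700399987615249453756146201292127075373739768869101074455828822103112082361178328795244948924650835616464896)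 (nat_lit 1757388201402609916023332804975632996894646922863286700399987615249453756146201292127075373739768869101074455828822103112082361178328795244948924650835616464896) c10_s328))))
noncomputable def c10_d453 : Cert := (B (M (nat_lit 435) (B (M (nat_lit 436) (B (M (nat_lit 400) (B (L (nat_lit 399) ln13_12_0 ln13_12_0_ok) (L (nat_lit 401) ln20_13_3_c10 ln20_13_3_c10_ok))) (M (nat_lit 437) (B (M (nat_lit 465) (B (L (nat_lit 464) ln20_13_1_c10 ln20_13_1_c10_ok) (L (nat_lit 466) ln21_13_1_c10 ln21_13_1_c10_ok))) (M (nat_lit 405) (B (L (nat_lit 404) ln17_13_2_c10 ln17_13_2_c10_ok) (L (nat_lit 406) ln18_13_2_c10 ln18_13_2_c10_ok))))))) (B (M (nat_lit 431) (B (M (nat_lit 403) (B (L (nat_lit 404) ln16_13_2_c10 ln16_13_2_c10_ok) (L (nat_lit 402) ln15_13_2_c10 ln15_13_2_c10_ok))) (L (nat_lit 399) ln18_13_3 ln18_13_3_ok))) (B (M (nat_lit 436) (B (M (nat_lit 404) (B (L (nat_lit 403) ln16_13_2_c10 ln16_13_2_c10_ok) (L (nat_lit 405) ln17_13_2_c10 ln17_13_2_c10_ok))) (M (nat_lit 468)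 (B (L (nat_lit 467) ln16_13_0_c10 ln16_13_0_c10_ok) (L (nat_lit 469) ln17_13_0_c10 ln17_13_0_c10_ok))))) (M (nat_lit 431) (B (M (nat_lit 467) (B (L (nat_lit 468) ln16_13_0_c10 ln16_13_0_c10_ok) (L (nat_lit 466) ln15_13_0_c10 ln15_13_0_c10_ok))) (L (nat_lit 399) ln18_13_3 ln18_13_3_ok))))))) (B (K (nat_lit 8931394323165503754481658153670348049985162940857813804920622417077344278730704448857942057155343404368412318944338361584051269924982620160) (nat_lit 2858046158397935220919912828409751560934563806511194623825912020650188381061635898065435246542552084834077534133008153867781207911591349059584) (nat_lit 2858046158397935220919912828409751560934563806511194623825912020650188381061635898065435246542552084834077534133008153867781207911591349059584) c10_s320) (B (K (nat_lit 8931394323165503754481658153670348049985162940857813804920622417077344278730704448857942057155343404368412318944338361584051269924982620160) (nat_lit 2667509747856187648214079887627106134639586522343190365728799877047495769569759950279176810232310613482235585082175664245316325990150778650624)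 (nat_lit 2667509747856187648214079887627106134639586522343190365728799877047495769569759950279176810232310613482235585082175664245316325990150778650624) c10_s321) (B (K (nat_lit 8931394323165503754481658153670348049985162940857813804920622417077344278730704448857942057155343404368412318944338361584051269924982620160) (nat_lit 3514776404441915132850885770031955481404650436055630624304407588884775238942867984012250340750425311733717383336133668029976061543808264903816786153408605192192) (nat_lit 3514776404441915132850885770031955481404650436055630624304407588884775238942867984012250340750425311733717383336133668029976061543808264903816786153408605192192) c10_s322) (B (K (nat_lit 8931394323165503754481658153670348049985162940857813804920622417077344278730704448857942057155343404368412318944338361584051269924982620160) (nat_lit 7029552806019613481029869450508948361856703989967823963373201306549228913779275157935294531269300559572710493300911117032603956149764202372018976358843908358144)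 (nat_lit 7029552806019613481029869450508948361856703989967823963373201306549228913779275157935294531269300559572710493300911117032603956149764202372018976358843908358144) c10_s323) (B (K (nat_lit 8931394323165503754481658153670348049985162940857813804920622417077344278730704448857942057155343404368412318944338361584051269924982620160) (nat_lit 2858046158397935220847609831823318120424198069695110291344680258450970122702377436082297113126080531384447464241164294587575919096354419245056) (nat_lit 2858046158397935220847609831823318120424198069695110291344680258450970122702377436082297113126080531384447464241164294587575919096354419245056) c10_s324) (B (M (nat_lit 435) (B (M (nat_lit 467) (B (L (nat_lit 468) ln16_13_0_c10 ln16_13_0_c10_ok) (M (nat_lit 431) (B (L (nat_lit 466) ln15_13_0_c10 ln15_13_0_c10_ok) (M (nat_lit 403) (B (L (nat_lit 404) ln16_13_2_c10 ln16_13_2_c10_ok) (L (nat_lit 402) ln15_13_2_c10 ln15_13_2_c10_ok))))))) (B (M (nat_lit 431) (B (M (nat_lit 467) (B (L (nat_lit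 468) ln16_13_0_c10 ln16_13_0_c10_ok) (L (nat_lit 466) ln15_13_0_c10 ln15_13_0_c10_ok))) (L (nat_lit 399) ln18_13_3 ln18_13_3_ok))) (B (M (nat_lit 431) (B (M (nat_lit 403) (B (L (nat_lit 404) ln16_13_2_c10 ln16_13_2_c10_ok) (L (nat_lit 402) ln15_13_2_c10 ln15_13_2_c10_ok))) (L (nat_lit 399) ln18_13_3 ln18_13_3_ok))) (M (nat_lit 436) (B (M (nat_lit 404) (B (L (nat_lit 405) ln17_13_2_c10 ln17_13_2_c10_ok) (L (nat_lit 403) ln16_13_2_c10 ln16_13_2_c10_ok))) (M (nat_lit 400) (B (L (nat_lit 401) ln20_13_3_c10 ln20_13_3_c10_ok) (L (nat_lit 399) ln13_12_0 ln13_12_0_ok))))))))) (B (K (nat_lit 8931394323165503754481658153670348049985162940857813804920622417077344278730704448857942057155343404368412318944338361584051269924982620160) (nat_lit 3000948466659147621449104578829900253015810714825239463632303291750953413256223288340147363223343542812437937761126728142407813693172571176960) (nat_lit 3000948466659147621449104578829900253015810714825239463632303291750953413256223288340147363223343542812437937761126728142407813693172571176960)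 c10_s329) (B (K (nat_lit 8931394323165503754481658153670348049985162940857813804920622417077344278730704448857942057155343404368412318944338361584051269924982620160) (nat_lit 37739624260517130932233815203992693640787242550884232796548580410252810875245112558803146053664845070755352894582892599572400205525288089531275415718134158180682083336192) (nat_lit 37739624260517130932233815203992693640787242550884232796548580410252810875245112558803146053664845070755352894582892599572400205525288089531275415718134158180682083336192) c10_s326) (B (K (nat_lit 8931394323165503754481658153670348049985162940857813804920622417077344278730704448857942057155343404368412318944338361584051269924982620160) (nat_lit 1757388201402609913355823057391166979012985751906250732270305636897394142786631281689378812853505600093456347485441504186295074466673940530440577750667630739456) (nat_lit 1757388201402609913355823057391166979012985751906250732270305636897394142786631281689378812853505600093456347485441504186295074466673940530440577750667630739456)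 c10_s327) (K (nat_lit 8931394323165503754481658153670348049985162940857813804920622417077344278730704448857942057155343404368412318944338361584051269924982620160) (nat_lit 1757388201402609916023332804975632996894646922863286700399987615249453756146201292127075373739768869101074455828822103112082361178328795244948924650835616464896) (nat_lit 1757388201402609916023332804975632996894646922863286700399987615249453756146201292127075373739768869101074455828822103112082361178328795244948924650835616464896) c10_s328)))))))))))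
noncomputable def c10_d454 : Cert := (B (M (nat_lit 402) (B (M (nat_lit 403) (B (L (nat_lit 431) ln15_13_2_c10 ln15_13_2_c10_ok) (M (nat_lit 404) (B (L (nat_lit 401) ln20_12_1_c10 ln20_12_1_c10_ok) (L (nat_lit 405) ln21_12_1_c10 ln21_12_1_c10_ok))))) (B (M (nat_lit 497) (B (L (nat_lit 529) ln17_16_6_c10 ln17_16_6_c10_ok) (M (nat_lit 370) (B (L (nat_lit 401) ln17_15_6_c10 ln17_15_6_c10_ok) (L (nat_lit 338) ln18_10_5_c10 ln18_10_5_c10_ok))))) (M (nat_lit 497) (B (L (nat_lit 529) ln17_16_6_c10 ln17_16_6_c10_ok) (M (nat_lit 370) (B (L (nat_lit 466) ln18_11_5_c10 ln18_11_5_c10_ok) (L (nat_lit 338) ln18_10_5_c10 ln18_10_5_c10_ok)))))))) (B (M (nat_lit 435) (B (M (nat_lit 400) (B (L (nat_lit 399) ln13_12_0 ln13_12_0_ok) (M (nat_lit 368) (B (L (nat_lit 336) ln16_10_4_c10 ln16_10_4_c10_ok) (M (nat_lit 497) (B (L (nat_lit 529) ln17_16_7_c10 ln17_16_7_c10_ok) (L (nat_lit 401) ln17_15_7_c10 ln17_15_7_c10_ok))))))) (B (M (nat_lit 402) (B (M (nat_lit 497) (B (L (nat_lit 529) ln17_16_6_c10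 ln17_16_6_c10_ok) (M (nat_lit 370) (B (L (nat_lit 466) ln18_11_5_c10 ln18_11_5_c10_ok) (L (nat_lit 338) ln18_10_5_c10 ln18_10_5_c10_ok))))) (B (M (nat_lit 370) (B (L (nat_lit 338) ln18_10_5_c10 ln18_10_5_c10_ok) (M (nat_lit 497) (B (L (nat_lit 401) ln17_15_6_c10 ln17_15_6_c10_ok) (L (nat_lit 466) ln18_11_5_c10 ln18_11_5_c10_ok))))) (M (nat_lit 436) (B (M (nat_lit 404) (B (L (nat_lit 403) ln16_13_2_c10 ln16_13_2_c10_ok) (L (nat_lit 405) ln17_13_2_c10 ln17_13_2_c10_ok))) (M (nat_lit 401) (B (L (nat_lit 400) ln20_13_3_c10 ln20_13_3_c10_ok) (L (nat_lit 437) ln21_13_3_c10 ln21_13_3_c10_ok)))))))) (B (M (nat_lit 402) (B (M (nat_lit 497) (B (L (nat_lit 529) ln17_16_6_c10 ln17_16_6_c10_ok) (M (nat_lit 370) (B (L (nat_lit 466) ln18_11_5_c10 ln18_11_5_c10_ok) (L (nat_lit 338) ln18_10_5_c10 ln18_10_5_c10_ok))))) (B (M (nat_lit 370) (B (L (nat_lit 338) ln18_10_5_c10 ln18_10_5_c10_ok) (M (nat_lit 497) (B (L (nat_lit 401) ln17_15_6_c10 ln17_15_6_c10_ok) (L (nat_lit 466) ln18_11_5_c10 ln18_11_5_c10_ok)))))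 (B (M (nat_lit 436) (B (M (nat_lit 404) (B (L (nat_lit 403) ln16_13_2_c10 ln16_13_2_c10_ok) (L (nat_lit 405) ln17_13_2_c10 ln17_13_2_c10_ok))) (M (nat_lit 437) (B (L (nat_lit 466) ln21_13_1_c10 ln21_13_1_c10_ok) (L (nat_lit 401) ln21_13_3_c10 ln21_13_3_c10_ok))))) (M (nat_lit 497) (B (L (nat_lit 529) ln17_16_6_c10 ln17_16_6_c10_ok) (M (nat_lit 370) (B (L (nat_lit 401) ln17_15_6_c10 ln17_15_6_c10_ok) (L (nat_lit 338) ln18_10_5_c10 ln18_10_5_c10_ok))))))))) (B (M (nat_lit 400) (B (L (nat_lit 399) ln13_12_0 ln13_12_0_ok) (M (nat_lit 436) (B (L (nat_lit 401) ln20_13_3_c10 ln20_13_3_c10_ok) (M (nat_lit 404) (B (L (nat_lit 403) ln16_13_2_c10 ln16_13_2_c10_ok) (L (nat_lit 405) ln17_13_2_c10 ln17_13_2_c10_ok))))))) (M (nat_lit 436) (B (M (nat_lit 404) (B (L (nat_lit 403) ln16_13_2_c10 ln16_13_2_c10_ok) (L (nat_lit 405) ln17_13_2_c10 ln17_13_2_c10_ok))) (M (nat_lit 469) (B (L (nat_lit 468) ln17_13_0_c10 ln17_13_0_c10_ok) (M (nat_lit 437) (B (L (nat_lit 466) ln21_13_1_c10 ln21_13_1_c10_ok)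 (L (nat_lit 470) ln18_13_0_c10 ln18_13_0_c10_ok)))))))))))) (B (M (nat_lit 402) (B (M (nat_lit 403) (B (L (nat_lit 431) ln15_13_2_c10 ln15_13_2_c10_ok) (M (nat_lit 404) (B (L (nat_lit 401) ln20_12_1_c10 ln20_12_1_c10_ok) (L (nat_lit 435) ln16_13_2_c10 ln16_13_2_c10_ok))))) (B (M (nat_lit 370) (B (L (nat_lit 338) ln18_10_5_c10 ln18_10_5_c10_ok) (M (nat_lit 497) (B (L (nat_lit 401) ln17_15_6_c10 ln17_15_6_c10_ok) (L (nat_lit 466) ln18_11_5_c10 ln18_11_5_c10_ok))))) (M (nat_lit 403) (B (L (nat_lit 431) ln15_13_2_c10 ln15_13_2_c10_ok) (M (nat_lit 404) (B (L (nat_lit 435) ln16_13_2_c10 ln16_13_2_c10_ok) (L (nat_lit 405) ln21_12_1_c10 ln21_12_1_c10_ok)))))))) (B (M (nat_lit 435) (B (M (nat_lit 403) (B (L (nat_lit 404) ln16_13_2_c10 ln16_13_2_c10_ok) (M (nat_lit 399) (B (L (nat_lit 400) ln13_12_0 ln13_12_0_ok) (L (nat_lit 431) ln18_13_3 ln18_13_3_ok))))) (B (M (nat_lit 400) (B (L (nat_lit 399) ln13_12_0 ln13_12_0_ok) (M (nat_lit 436) (B (L (nat_lit 401) ln20_13_3_c10 ln20_13_3_c10_ok)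 (M (nat_lit 404) (B (L (nat_lit 403) ln16_13_2_c10 ln16_13_2_c10_ok) (L (nat_lit 405) ln17_13_2_c10 ln17_13_2_c10_ok))))))) (B (M (nat_lit 436) (B (M (nat_lit 404) (B (L (nat_lit 403) ln16_13_2_c10 ln16_13_2_c10_ok) (L (nat_lit 405) ln17_13_2_c10 ln17_13_2_c10_ok))) (M (nat_lit 469) (B (L (nat_lit 468) ln17_13_0_c10 ln17_13_0_c10_ok) (M (nat_lit 437) (B (L (nat_lit 466) ln21_13_1_c10 ln21_13_1_c10_ok) (L (nat_lit 470) ln18_13_0_c10 ln18_13_0_c10_ok))))))) (M (nat_lit 436) (B (M (nat_lit 400) (B (L (nat_lit 399) ln13_12_0 ln13_12_0_ok) (L (nat_lit 401) ln20_13_3_c10 ln20_13_3_c10_ok))) (M (nat_lit 469) (B (L (nat_lit 468) ln17_13_0_c10 ln17_13_0_c10_ok) (M (nat_lit 437) (B (L (nat_lit 466) ln21_13_1_c10 ln21_13_1_c10_ok) (L (nat_lit 470) ln18_13_0_c10 ln18_13_0_c10_ok))))))))))) (B (M (nat_lit 402) (B (M (nat_lit 403) (B (L (nat_lit 431) ln15_13_2_c10 ln15_13_2_c10_ok) (M (nat_lit 404) (B (L (nat_lit 435) ln16_13_2_c10 ln16_13_2_c10_ok) (L (nat_lit 405) ln21_12_1_c10 ln21_12_1_c10_ok)))))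 (M (nat_lit 497) (B (L (nat_lit 529) ln17_16_6_c10 ln17_16_6_c10_ok) (M (nat_lit 370) (B (L (nat_lit 466) ln18_11_5_c10 ln18_11_5_c10_ok) (L (nat_lit 338) ln18_10_5_c10 ln18_10_5_c10_ok))))))) (B (M (nat_lit 402) (B (M (nat_lit 403) (B (L (nat_lit 431) ln15_13_2_c10 ln15_13_2_c10_ok) (M (nat_lit 404) (B (L (nat_lit 401) ln20_12_1_c10 ln20_12_1_c10_ok) (L (nat_lit 435) ln16_13_2_c10 ln16_13_2_c10_ok))))) (B (M (nat_lit 497) (B (L (nat_lit 529) ln17_16_6_c10 ln17_16_6_c10_ok) (M (nat_lit 370) (B (L (nat_lit 401) ln17_15_6_c10 ln17_15_6_c10_ok) (L (nat_lit 338) ln18_10_5_c10 ln18_10_5_c10_ok))))) (M (nat_lit 403) (B (L (nat_lit 431) ln15_13_2_c10 ln15_13_2_c10_ok) (M (nat_lit 404) (B (L (nat_lit 435) ln16_13_2_c10 ln16_13_2_c10_ok) (L (nat_lit 405) ln21_12_1_c10 ln21_12_1_c10_ok)))))))) (M (nat_lit 400) (B (L (nat_lit 399) ln13_12_0 ln13_12_0_ok) (M (nat_lit 497) (B (L (nat_lit 529) ln17_16_7_c10 ln17_16_7_c10_ok) (M (nat_lit 368) (B (L (nat_lit 336) ln16_10_4_c10 ln16_10_4_c10_ok)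 (L (nat_lit 401) ln17_15_7_c10 ln17_15_7_c10_ok)))))))))))))
noncomputable def c10_d455 : Cert := (B (M (nat_lit 435) (B (K (nat_lit 8931394411890933966347733660179601942563841450823800216946752822532690858398586298637961994434524399700878818060857112348965568452155670528) (nat_lit 5335019495701284617632309641730246798120181316082612394098623694348090444470831470153076260807335020380332271702360729911017763903190054469632) (nat_lit 5335019495701284617632309641730246798120181316082612394098623694348090444470831470153076260807335020380332271702360729911017763903190054469632) c10_s352) (B (K (nat_lit 8931394411890933966347733660179601942563841450823800216946752822532690858398586298637961994434524399700878818060857112348965568452155670528) (nat_lit 5716092316784779763063342397414858171607040057962593110947697829701353989035970745829501927104926181681561938035839699073242452380940620529664) (nat_lit 5716092316784779763063342397414858171607040057962593110947697829701353989035970745829501927104926181681561938035839699073242452380940620529664)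 c10_s353) (B (K (nat_lit 8931394411890933966347733660179601942563841450823800216946752822532690858398586298637961994434524399700878818060857112348965568452155670528) (nat_lit 2667509747761916878594605308315788237956302282636328916108549320045480287482632880639730681883825174714972499277263329336859330758170051084288) (nat_lit 2667509747761916878594605308315788237956302282636328916108549320045480287482632880639730681883825174714972499277263329336859330758170051084288) c10_s332) (B (K (nat_lit 8931394411890933966347733660179601942563841450823800216946752822532690858398586298637961994434524399700878818060857112348965568452155670528) (nat_lit 64836180869436462896362965551756112383914101467181601579112969193657015459861335409106557226789896726000396243173416671096503103783712521481036708691424121498782584829579836260352) (nat_lit 64836180869436462896362965551756112383914101467181601579112969193657015459861335409106557226789896726000396243173416671096503103783712521481036708691424121498782584829579836260352)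 c10_s333) (B (K (nat_lit 8931394411890933966347733660179601942563841450823800216946752822532690858398586298637961994434524399700878818060857112348965568452155670528) (nat_lit 3514776402805219826711646114771243279250779369313231262098866898567044043208924149974490319140968044633960516289731531345488413297598385132753492800005738594304) (nat_lit 3514776402805219826711646114771243279250779369313231262098866898567044043208924149974490319140968044633960516289731531345488413297598385132753492800005738594304) c10_s356) (K (nat_lit 8931394411890933966347733660179601942563841450823800216946752822532690858398586298637961994434524399700878818060857112348965568452155670528) (nat_lit 3514776402805219832046665609940175315012810586288259744063402895685161763990899317953468829157079252970926409165484308599748164044268025646052235014355336298496) (nat_lit 3514776402805219832046665609940175315012810586288259744063402895685161763990899317953468829157079252970926409165484308599748164044268025646052235014355336298496)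 c10_s357))))))) (B (K (nat_lit 8931394323165503754481658153670348049985162940857813804920622417077344278730704448857942057155343404368412318944338361584051269924982620160) (nat_lit 2858046158397935220919912828409751560934563806511194623825912020650188381061635898065435246542552084834077534133008153867781207911591349059584) (nat_lit 2858046158397935220919912828409751560934563806511194623825912020650188381061635898065435246542552084834077534133008153867781207911591349059584) c10_s320) (B (K (nat_lit 8931394323165503754481658153670348049985162940857813804920622417077344278730704448857942057155343404368412318944338361584051269924982620160) (nat_lit 2667509747856187648214079887627106134639586522343190365728799877047495769569759950279176810232310613482235585082175664245316325990150778650624) (nat_lit 2667509747856187648214079887627106134639586522343190365728799877047495769569759950279176810232310613482235585082175664245316325990150778650624) c10_s321) (B (K (nat_lit 8931394323165503754481658153670348049985162940857813804920622417077344278730704448857942057155343404368412318944338361584051269924982620160)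 (nat_lit 7029552806019613481029869450508948361856703989967823963373201306549228913779275157935294531269300559572710493300911117032603956149764202372018976358843908358144) (nat_lit 7029552806019613481029869450508948361856703989967823963373201306549228913779275157935294531269300559572710493300911117032603956149764202372018976358843908358144) c10_s323) (B (K (nat_lit 8931394323165503754481658153670348049985162940857813804920622417077344278730704448857942057155343404368412318944338361584051269924982620160) (nat_lit 2858046158397935220847609831823318120424198069695110291344680258450970122702377436082297113126080531384447464241164294587575919096354419245056) (nat_lit 2858046158397935220847609831823318120424198069695110291344680258450970122702377436082297113126080531384447464241164294587575919096354419245056) c10_s324) (B (K (nat_lit 8931394323165503754481658153670348049985162940857813804920622417077344278730704448857942057155343404368412318944338361584051269924982620160) (nat_lit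 3514776402805219827378523550519474530222191441465550989528490934481446660288929061847559846542536477905338351711297456788774239965367519036237877744596986888192) (nat_lit 3514776402805219827378523550519474530222191441465550989528490934481446660288929061847559846542536477905338351711297456788774239965367519036237877744596986888192) c10_s325) (B (K (nat_lit 8931394323165503754481658153670348049985162940857813804920622417077344278730704448857942057155343404368412318944338361584051269924982620160) (nat_lit 6001896933401475333423583742528114989450655276387224168040800061685245898198944060234018694794941159828276024561319273082810918178362031603712) (nat_lit 6001896933401475333423583742528114989450655276387224168040800061685245898198944060234018694794941159828276024561319273082810918178362031603712) c10_s358) (B (K (nat_lit 8931394323165503754481658153670348049985162940857813804920622417077344278730704448857942057155343404368412318944338361584051269924982620160) (nat_lit 37739624260517130932233815203992693640787242550884232796548580410252810875245112558803146053664845070755352894582892599572400205525288089531275415718134158180682083336192)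 (nat_lit 37739624260517130932233815203992693640787242550884232796548580410252810875245112558803146053664845070755352894582892599572400205525288089531275415718134158180682083336192) c10_s326) (B (M (nat_lit 465) c10_d454) (M (nat_lit 399) (B (L (nat_lit 431) ln18_13_3 ln18_13_3_ok) (L (nat_lit 400) ln13_12_0 ln13_12_0_ok))))))))))))
noncomputable def c10_d456 : Cert := (B (M (nat_lit 370) (B (M (nat_lit 465) (B (L (nat_lit 338) ln18_10_5_c10 ln18_10_5_c10_ok) (M (nat_lit 497) (B (L (nat_lit 401) ln17_15_6_c10 ln17_15_6_c10_ok) (L (nat_lit 529) ln17_16_6_c10 ln17_16_6_c10_ok))))) (B (M (nat_lit 465) (B (L (nat_lit 338) ln18_10_5_c10 ln18_10_5_c10_ok) (M (nat_lit 497) (B (L (nat_lit 529) ln17_16_6_c10 ln17_16_6_c10_ok) (L (nat_lit 466) ln18_11_5_c10 ln18_11_5_c10_ok))))) (B (M (nat_lit 338) (B (M (nat_lit 306) (B (L (nat_lit 401) ln18_9_5_c10 ln18_9_5_c10_ok) (M (nat_lit 305) (B (L (nat_lit 273) ln18_12_7_c10 ln18_12_7_c10_ok) (L (nat_lit 337) ln18_13_7_c10 ln18_13_7_c10_ok)))))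 (B (M (nat_lit 306) (B (L (nat_lit 401) ln18_9_5_c10 ln18_9_5_c10_ok) (M (nat_lit 307) (B (L (nat_lit 275) ln18_12_6_c10 ln18_12_6_c10_ok) (L (nat_lit 339) ln18_13_6_c10 ln18_13_6_c10_ok))))) (M (nat_lit 466) (B (M (nat_lit 337) (B (L (nat_lit 305) ln18_13_7_c10 ln18_13_7_c10_ok) (L (nat_lit 369) ln18_14_7_c10 ln18_14_7_c10_ok))) (M (nat_lit 339) (B (L (nat_lit 307) ln18_13_6_c10 ln18_13_6_c10_ok) (L (nat_lit 371) ln18_14_6_c10 ln18_14_6_c10_ok)))))))) (M (nat_lit 369) (B (M (nat_lit 337) (B (L (nat_lit 466) ln18_14_7_c10 ln18_14_7_c10_ok) (M (nat_lit 305) (B (L (nat_lit 273) ln17_8_4_c10 ln17_8_4_c10_ok) (L (nat_lit 401) ln17_9_4_c10 ln17_9_4_c10_ok))))) (B (M (nat_lit 466) (B (L (nat_lit 337) ln18_14_7_c10 ln18_14_7_c10_ok) (M (nat_lit 497) (B (L (nat_lit 465) ln18_11_5_c10 ln18_11_5_c10_ok) (M (nat_lit 498) (B (L (nat_lit 401) ln18_15_7_c10 ln18_15_7_c10_ok) (L (nat_lit 529) ln18_12_5_c10 ln18_12_5_c10_ok))))))) (B (M (nat_lit 466) (B (M (nat_lit 497) (B (L (nat_lit 465)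 ln18_11_5_c10 ln18_11_5_c10_ok) (M (nat_lit 498) (B (L (nat_lit 401) ln18_15_7_c10 ln18_15_7_c10_ok) (L (nat_lit 529) ln18_12_5_c10 ln18_12_5_c10_ok))))) (B (M (nat_lit 498) (B (M (nat_lit 497) (B (L (nat_lit 465) ln18_11_5_c10 ln18_11_5_c10_ok) (L (nat_lit 529) ln18_12_5_c10 ln18_12_5_c10_ok))) (M (nat_lit 371) (B (L (nat_lit 339) ln18_14_6_c10 ln18_14_6_c10_ok) (L (nat_lit 403) ln18_15_6_c10 ln18_15_6_c10_ok))))) (B (M (nat_lit 498) (B (L (nat_lit 401) ln18_15_7_c10 ln18_15_7_c10_ok) (M (nat_lit 371) (B (L (nat_lit 339) ln18_14_6_c10 ln18_14_6_c10_ok) (L (nat_lit 403) ln18_15_6_c10 ln18_15_6_c10_ok))))) (M (nat_lit 368) (B (M (nat_lit 403) (B (L (nat_lit 367) ln15_11_0_c10 ln15_11_0_c10_ok) (M (nat_lit 371) (B (L (nat_lit 404) ln16_11_0_c10 ln16_11_0_c10_ok) (L (nat_lit 339) ln18_14_6_c10 ln18_14_6_c10_ok))))) (B (M (nat_lit 336) (B (M (nat_lit 371) (B (L (nat_lit 335) ln19_11_3_c10 ln19_11_3_c10_ok) (L (nat_lit 339) ln18_14_6_c10 ln18_14_6_c10_ok))) (M (nat_lit 465) (B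 (L (nat_lit 401) ln17_14_7_c10 ln17_14_7_c10_ok) (L (nat_lit 497) ln18_11_5_c10 ln18_11_5_c10_ok))))) (B (M (nat_lit 403) (B (L (nat_lit 367) ln15_11_0_c10 ln15_11_0_c10_ok) (M (nat_lit 404) (B (L (nat_lit 401) ln20_12_1_c10 ln20_12_1_c10_ok) (L (nat_lit 371) ln16_11_0_c10 ln16_11_0_c10_ok))))) (M (nat_lit 403) (B (L (nat_lit 367) ln15_11_0_c10 ln15_11_0_c10_ok) (M (nat_lit 404) (B (L (nat_lit 401) ln20_12_1_c10 ln20_12_1_c10_ok) (L (nat_lit 435) ln16_13_2_c10 ln16_13_2_c10_ok))))))))))))) (B (M (nat_lit 403) (B (M (nat_lit 404) (B (L (nat_lit 435) ln16_13_2_c10 ln16_13_2_c10_ok) (L (nat_lit 405) ln21_12_1_c10 ln21_12_1_c10_ok))) (M (nat_lit 466) (B (L (nat_lit 337) ln18_14_7_c10 ln18_14_7_c10_ok) (M (nat_lit 371) (B (L (nat_lit 339) ln18_14_6_c10 ln18_14_6_c10_ok) (L (nat_lit 498) ln18_15_6_c10 ln18_15_6_c10_ok))))))) (M (nat_lit 368) (B (M (nat_lit 403) (B (L (nat_lit 367) ln15_11_0_c10 ln15_11_0_c10_ok) (M (nat_lit 404) (B (L (nat_lit 401) ln20_12_1_c10 ln20_12_1_c10_ok)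 (L (nat_lit 371) ln16_11_0_c10 ln16_11_0_c10_ok))))) (B (M (nat_lit 371) (B (M (nat_lit 403) (B (L (nat_lit 404) ln16_11_0_c10 ln16_11_0_c10_ok) (M (nat_lit 339) (B (L (nat_lit 340) ln16_11_2_c10 ln16_11_2_c10_ok) (L (nat_lit 307) ln19_9_5_c10 ln19_9_5_c10_ok))))) (M (nat_lit 337) (B (M (nat_lit 336) (B (L (nat_lit 335) ln19_11_3_c10 ln19_11_3_c10_ok) (L (nat_lit 372) ln20_11_3_c10 ln20_11_3_c10_ok))) (M (nat_lit 305) (B (L (nat_lit 273) ln17_8_4_c10 ln17_8_4_c10_ok) (L (nat_lit 401) ln17_9_4_c10 ln17_9_4_c10_ok))))))) (B (M (nat_lit 403) (B (L (nat_lit 367) ln15_11_0_c10 ln15_11_0_c10_ok) (M (nat_lit 404) (B (L (nat_lit 371) ln16_11_0_c10 ln16_11_0_c10_ok) (L (nat_lit 435) ln16_13_2_c10 ln16_13_2_c10_ok))))) (B (M (nat_lit 403) (B (L (nat_lit 367) ln15_11_0_c10 ln15_11_0_c10_ok) (M (nat_lit 404) (B (L (nat_lit 401) ln20_12_1_c10 ln20_12_1_c10_ok) (L (nat_lit 435) ln16_13_2_c10 ln16_13_2_c10_ok))))) (M (nat_lit 336) (B (M (nat_lit 335) (B (L (nat_lit 371) ln19_11_3_c10 ln19_11_3_c10_ok)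 (M (nat_lit 334) (B (L (nat_lit 333) ln13_10_0 ln13_10_0_ok) (L (nat_lit 337) ln14_10_0 ln14_10_0_ok))))) (B (M (nat_lit 335) (B (L (nat_lit 371) ln19_11_3_c10 ln19_11_3_c10_ok) (M (nat_lit 334) (B (L (nat_lit 367) ln18_11_3 ln18_11_3_ok) (L (nat_lit 337) ln14_10_0 ln14_10_0_ok))))) (B (M (nat_lit 401) (B (L (nat_lit 465) ln17_14_7_c10 ln17_14_7_c10_ok) (M (nat_lit 304) (B (L (nat_lit 272) ln16_8_4_c10 ln16_8_4_c10_ok) (L (nat_lit 337) ln17_13_7_c10 ln17_13_7_c10_ok))))) (M (nat_lit 335) (B (L (nat_lit 371) ln19_11_3_c10 ln19_11_3_c10_ok) (M (nat_lit 334) (B (L (nat_lit 333) ln13_10_0 ln13_10_0_ok) (L (nat_lit 367) ln18_11_3 ln18_11_3_ok))))))))))))))))))))))) (M (nat_lit 370) (B (M (nat_lit 465) (B (L (nat_lit 338) ln18_10_5_c10 ln18_10_5_c10_ok) (M (nat_lit 497) (B (L (nat_lit 466) ln18_11_5_c10 ln18_11_5_c10_ok) (L (nat_lit 401) ln17_15_6_c10 ln17_15_6_c10_ok))))) (B (M (nat_lit 466) (B (M (nat_lit 467) (B (L (nat_lit 499) ln18_11_4_c10 ln18_11_4_c10_ok) (L (nat_lit 431)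 ln15_13_0_c10 ln15_13_0_c10_ok))) (M (nat_lit 498) (B (M (nat_lit 369) (B (L (nat_lit 337) ln18_14_7_c10 ln18_14_7_c10_ok) (L (nat_lit 401) ln18_15_7_c10 ln18_15_7_c10_ok))) (M (nat_lit 497) (B (L (nat_lit 465) ln18_11_5_c10 ln18_11_5_c10_ok) (L (nat_lit 529) ln18_12_5_c10 ln18_12_5_c10_ok))))))) (B (M (nat_lit 465) (B (L (nat_lit 338) ln18_10_5_c10 ln18_10_5_c10_ok) (M (nat_lit 497) (B (L (nat_lit 401) ln17_15_6_c10 ln17_15_6_c10_ok) (L (nat_lit 529) ln17_16_6_c10 ln17_16_6_c10_ok))))) (B (M (nat_lit 465) (B (L (nat_lit 338) ln18_10_5_c10 ln18_10_5_c10_ok) (M (nat_lit 497) (B (L (nat_lit 466) ln18_11_5_c10 ln18_11_5_c10_ok) (L (nat_lit 529) ln17_16_6_c10 ln17_16_6_c10_ok))))) (M (nat_lit 466) (B (M (nat_lit 467) (B (L (nat_lit 499) ln18_11_4_c10 ln18_11_4_c10_ok) (L (nat_lit 431) ln15_13_0_c10 ln15_13_0_c10_ok))) (M (nat_lit 338) (B (M (nat_lit 339) (B (L (nat_lit 307) ln18_13_6_c10 ln18_13_6_c10_ok) (L (nat_lit 371) ln18_14_6_c10 ln18_14_6_c10_ok))) (M (nat_lit 337) (B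 (L (nat_lit 305) ln18_13_7_c10 ln18_13_7_c10_ok) (L (nat_lit 369) ln18_14_7_c10 ln18_14_7_c10_ok)))))))))))))
noncomputable def c10_d457 : Cert := (B (K (nat_lit 8931394323165503754481658153670348049985162940857813804920622417077344278730704448857942057155343404368412318944338361584051269924982620160) (nat_lit 75479248521034261864467630405103524072385638676130367221011828010505451258460682163641396478310370132872640804430323330840803516660413748823871210158860690077786090504192) (nat_lit 75479248521034261864467630405103524072385638676130367221011828010505451258460682163641396478310370132872640804430323330840803516660413748823871210158860690077786090504192) c10_s336) (B (K (nat_lit 8931394323165503754481658153670348049985162940857813804920622417077344278730704448857942057155343404368412318944338361584051269924982620160) (nat_lit 7029552806019613481029869450508948361856703989967823963373201306549228913779275157935294531269300559572710493300911117032603956149764202372018976358843908358144)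 (nat_lit 7029552806019613481029869450508948361856703989967823963373201306549228913779275157935294531269300559572710493300911117032603956149764202372018976358843908358144) c10_s323) (B (K (nat_lit 8931394323165503754481658153670348049985162940857813804920622417077344278730704448857942057155343404368412318944338361584051269924982620160) (nat_lit 3514776402805219828902814834853455111951486963825495474757298621329577105044376796039635890888125159604706566097768145831658483676991846621905834619249469947904) (nat_lit 3514776402805219828902814834853455111951486963825495474757298621329577105044376796039635890888125159604706566097768145831658483676991846621905834619249469947904) c10_s337) (B (K (nat_lit 8931394323165503754481658153670348049985162940857813804920622417077344278730704448857942057155343404368412318944338361584051269924982620160) (nat_lit 7029552806019613481029869450508948361774071993869042888504211893045132533800724572564759378858719460163409769396372198804455304844799791766070074855715988570112)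 (nat_lit 7029552806019613481029869450508948361774071993869042888504211893045132533800724572564759378858719460163409769396372198804455304844799791766070074855715988570112) c10_s338) (B (K (nat_lit 8931394323165503754481658153670348049985162940857813804920622417077344278730704448857942057155343404368412318944338361584051269924982620160) (nat_lit 3514776402805219827378523550519474530222191441465550989528490934481446660288929061847559846542536477905338351711297456788774239965367519036237877744596986888192) (nat_lit 3514776402805219827378523550519474530222191441465550989528490934481446660288929061847559846542536477905338351711297456788774239965367519036237877744596986888192) c10_s325) (B (K (nat_lit 8931394323165503754481658153670348049985162940857813804920622417077344278730704448857942057155343404368412318944338361584051269924982620160) (nat_lit 75479248521034261864467630404912987661843891103414205280726454580274251535620280469004679003389433380152093683662616517487519219395513522952446044117303669539807239864320)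 (nat_lit 75479248521034261864467630404912987661843891103414205280726454580274251535620280469004679003389433380152093683662616517487519219395513522952446044117303669539807239864320) c10_s339) (B (K (nat_lit 8931394323165503754481658153670348049985162940857813804920622417077344278730704448857942057155343404368412318944338361584051269924982620160) (nat_lit 818347654998800985125261771244416439653536635664075810350827750052421878776062674837069937303713274278883001932745871332594632445291772906629186453504) (nat_lit 818347654998800985125261771244416439653536635664075810350827750052421878776062674837069937303713274278883001932745871332594632445291772906629186453504) c10_s340) (B (K (nat_lit 8931394323165503754481658153670348049985162940857813804920622417077344278730704448857942057155343404368412318944338361584051269924982620160) (nat_lit 37739624260517130932233815203992693640787242550884232796548580410252810875245112558803146053664845070755352894582892599572400205525288089531275415718134158180682083336192)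 (nat_lit 37739624260517130932233815203992693640787242550884232796548580410252810875245112558803146053664845070755352894582892599572400205525288089531275415718134158180682083336192) c10_s326) (B (M (nat_lit 402) (B (M (nat_lit 403) (B (L (nat_lit 431) ln15_13_2_c10 ln15_13_2_c10_ok) (M (nat_lit 404) (B (L (nat_lit 405) ln21_12_1_c10 ln21_12_1_c10_ok) (L (nat_lit 435) ln16_13_2_c10 ln16_13_2_c10_ok))))) (B (M (nat_lit 403) (B (L (nat_lit 431) ln15_13_2_c10 ln15_13_2_c10_ok) (M (nat_lit 404) (B (L (nat_lit 435) ln16_13_2_c10 ln16_13_2_c10_ok) (L (nat_lit 401) ln20_12_1_c10 ln20_12_1_c10_ok))))) (B (M (nat_lit 403) (B (L (nat_lit 431) ln15_13_2_c10 ln15_13_2_c10_ok) (M (nat_lit 404) (B (L (nat_lit 405) ln21_12_1_c10 ln21_12_1_c10_ok) (L (nat_lit 401) ln20_12_1_c10 ln20_12_1_c10_ok))))) c10_d456)))) (B (K (nat_lit 8931394323165503754481658153670348049985162940857813804920622417077344278730704448857942057155343404368412318944338361584051269924982620160) (nat_lit 178299497156964602586411520136380274821765081335752938541760408444399225011823258063241552997441753436661369089906686039569747596435424352213802876792773054368320152283907692167168)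 (nat_lit 178299497156964602586411520136380274821765081335752938541760408444399225011823258063241552997441753436661369089906686039569747596435424352213802876792773054368320152283907692167168) c10_s359) (B (K (nat_lit 8931394323165503754481658153670348049985162940857813804920622417077344278730704448857942057155343404368412318944338361584051269924982620160) (nat_lit 5501738855729387955072063397912714199721167865032214496473045537624592404789185026973360623291565718127005730979524056739558554720566908026880) (nat_lit 5501738855729387955072063397912714199721167865032214496473045537624592404789185026973360623291565718127005730979524056739558554720566908026880) c10_s360) (K (nat_lit 8931394323165503754481658153670348049985162940857813804920622417077344278730704448857942057155343404368412318944338361584051269924982620160) (nat_lit 22643774576608112285540433622105514761340802663356941626199121260377381392838825840015536366132650842881371984582563197727092532100531298598977397218622221280039961362432)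 (nat_lit 22643774576608112285540433622105514761340802663356941626199121260377381392838825840015536366132650842881371984582563197727092532100531298598977397218622221280039961362432) c10_s363))))))))))))
noncomputable def c10_d458 : Cert := (B (M (nat_lit 435) (B (K (nat_lit 8931394411890933966347733660179601942563841450823800216946752822532690858398586298637961994434524399700878818060857112348965568452155670528) (nat_lit 5692275265467061316455746405697706972423263723897620378030708963603139091018098872252310828889037779165035926172671647953139417505891123986432) (nat_lit 5692275265467061316455746405697706972423263723897620378030708963603139091018098872252310828889037779165035926172671647953139417505891123986432) c10_s330) (B (K (nat_lit 8931394411890933966347733660179601942563841450823800216946752822532690858398586298637961994434524399700878818060857112348965568452155670528) (nat_lit 150958497042068523728935260809825975323687782206828410561419240454074018291486089845201978615236240838939330898401561687588445474259320386507605291302537933278845048193024)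 (nat_lit 150958497042068523728935260809825975323687782206828410561419240454074018291486089845201978615236240838939330898401561687588445474259320386507605291302537933278845048193024) c10_s331) (B (K (nat_lit 8931394411890933966347733660179601942563841450823800216946752822532690858398586298637961994434524399700878818060857112348965568452155670528) (nat_lit 2667509747761916878594605308315788237956302282636328916108549320045480287482632880639730681883825174714972499277263329336859330758170051084288) (nat_lit 2667509747761916878594605308315788237956302282636328916108549320045480287482632880639730681883825174714972499277263329336859330758170051084288) c10_s332) (B (K (nat_lit 8931394411890933966347733660179601942563841450823800216946752822532690858398586298637961994434524399700878818060857112348965568452155670528) (nat_lit 64836180869436462896362965551756112383914101467181601579112969193657015459861335409106557226789896726000396243173416671096503103783712521481036708691424121498782584829579836260352)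 (nat_lit 64836180869436462896362965551756112383914101467181601579112969193657015459861335409106557226789896726000396243173416671096503103783712521481036708691424121498782584829579836260352) c10_s333) (B (K (nat_lit 8931394411890933966347733660179601942563841450823800216946752822532690858398586298637961994434524399700878818060857112348965568452155670528) (nat_lit 8786941007013049571185269778842786781952065056608487193491964057428541375824303783853509717332752649530951880165212117498910970506356329806921559655622580895744) (nat_lit 8786941007013049571185269778842786781952065056608487193491964057428541375824303783853509717332752649530951880165212117498910970506356329806921559655622580895744) c10_s334) (K (nat_lit 8931394411890933966347733660179601942563841450823800216946752822532690858398586298637961994434524399700878818060857112348965568452155670528) (nat_lit 8786941007013049565826433232356136299599222472157541124650899980617420110905859892131365407367326288364163035128662315131041330775052490259378804029120164397056)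 (nat_lit 8786941007013049565826433232356136299599222472157541124650899980617420110905859892131365407367326288364163035128662315131041330775052490259378804029120164397056) c10_s335))))))) (B (M (nat_lit 435) (B (K (nat_lit 8931394411890933966347733660179601942563841450823800216946752822532690858398586298637961994434524399700878818060857112348965568452155670528) (nat_lit 5692275265467061316455746405697706972423263723897620378030708963603139091018098872252310828889037779165035926172671647953139417505891123986432) (nat_lit 5692275265467061316455746405697706972423263723897620378030708963603139091018098872252310828889037779165035926172671647953139417505891123986432) c10_s330) (B (K (nat_lit 8931394411890933966347733660179601942563841450823800216946752822532690858398586298637961994434524399700878818060857112348965568452155670528) (nat_lit 150958497042068523728935260809825975323687782206828410561419240454074018291486089845201978615236240838939330898401561687588445474259320386507605291302537933278845048193024)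 (nat_lit 150958497042068523728935260809825975323687782206828410561419240454074018291486089845201978615236240838939330898401561687588445474259320386507605291302537933278845048193024) c10_s331) (B (K (nat_lit 8931394411890933966347733660179601942563841450823800216946752822532690858398586298637961994434524399700878818060857112348965568452155670528) (nat_lit 2667509747761916878594605308315788237956302282636328916108549320045480287482632880639730681883825174714972499277263329336859330758170051084288) (nat_lit 2667509747761916878594605308315788237956302282636328916108549320045480287482632880639730681883825174714972499277263329336859330758170051084288) c10_s354) (B (K (nat_lit 8931394411890933966347733660179601942563841450823800216946752822532690858398586298637961994434524399700878818060857112348965568452155670528) (nat_lit 60383398821748096455501412079459437864893767795890438064777845282493161465051203486758286981630539562753864460485500502180529353093361765170149315011841342766109480189952)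 (nat_lit 60383398821748096455501412079459437864893767795890438064777845282493161465051203486758286981630539562753864460485500502180529353093361765170149315011841342766109480189952) c10_s355) (B (K (nat_lit 8931394411890933966347733660179601942563841450823800216946752822532690858398586298637961994434524399700878818060857112348965568452155670528) (nat_lit 8786941007013049571185269778842786781952065056608487193491964057428541375824303783853509717332752649530951880165212117498910970506356329806921559655622580895744) (nat_lit 8786941007013049571185269778842786781952065056608487193491964057428541375824303783853509717332752649530951880165212117498910970506356329806921559655622580895744) c10_s334) (K (nat_lit 8931394411890933966347733660179601942563841450823800216946752822532690858398586298637961994434524399700878818060857112348965568452155670528) (nat_lit 8786941007013049565826433232356136299599222472157541124650899980617420110905859892131365407367326288364163035128662315131041330775052490259378804029120164397056)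 (nat_lit 8786941007013049565826433232356136299599222472157541124650899980617420110905859892131365407367326288364163035128662315131041330775052490259378804029120164397056) c10_s335))))))) c10_d457))
noncomputable def c10_d459 : Cert := (B (M (nat_lit 435) (B (M (nat_lit 436) (B (M (nat_lit 464) (B (L (nat_lit 465) ln20_13_1_c10 ln20_13_1_c10_ok) (L (nat_lit 463) ln19_13_1_c10 ln19_13_1_c10_ok))) (M (nat_lit 469) (B (L (nat_lit 468) ln17_13_0_c10 ln17_13_0_c10_ok) (M (nat_lit 437) (B (L (nat_lit 470) ln18_13_0_c10 ln18_13_0_c10_ok) (M (nat_lit 405) (B (L (nat_lit 404) ln17_13_2_c10 ln17_13_2_c10_ok) (L (nat_lit 406) ln18_13_2_c10 ln18_13_2_c10_ok))))))))) (B (M (nat_lit 436) (B (M (nat_lit 400) (B (L (nat_lit 399) ln13_12_0 ln13_12_0_ok) (L (nat_lit 401) ln20_13_3_c10 ln20_13_3_c10_ok))) (M (nat_lit 437) (B (M (nat_lit 465) (B (L (nat_lit 464) ln20_13_1_c10 ln20_13_1_c10_ok) (L (nat_lit 466) ln21_13_1_c10 ln21_13_1_c10_ok))) (M (nat_lit 405) (B (L (nat_lit 404) ln17_13_2_c10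 ln17_13_2_c10_ok) (L (nat_lit 406) ln18_13_2_c10 ln18_13_2_c10_ok))))))) (B (K (nat_lit 8931394411890933966347733660179601942563841450823800216946752822532690858398586298637961994434524399700878818060857112348965568452155670528) (nat_lit 5335019495701284617632309641730246798120181316082612394098623694348090444470831470153076260807335020380332271702360729911017763903190054469632) (nat_lit 5335019495701284617632309641730246798120181316082612394098623694348090444470831470153076260807335020380332271702360729911017763903190054469632) c10_s352) (B (M (nat_lit 436) (B (M (nat_lit 437) (B (M (nat_lit 465) (B (L (nat_lit 464) ln20_13_1_c10 ln20_13_1_c10_ok) (L (nat_lit 466) ln21_13_1_c10 ln21_13_1_c10_ok))) (M (nat_lit 469) (B (L (nat_lit 468) ln17_13_0_c10 ln17_13_0_c10_ok) (L (nat_lit 470) ln18_13_0_c10 ln18_13_0_c10_ok))))) (B (M (nat_lit 437) (B (M (nat_lit 401) (B (L (nat_lit 400) ln20_13_3_c10 ln20_13_3_c10_ok) (L (nat_lit 402) ln21_13_3_c10 ln21_13_3_c10_ok))) (M (nat_lit 469)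 (B (L (nat_lit 468) ln17_13_0_c10 ln17_13_0_c10_ok) (L (nat_lit 470) ln18_13_0_c10 ln18_13_0_c10_ok))))) (B (M (nat_lit 437) (B (M (nat_lit 401) (B (L (nat_lit 400) ln20_13_3_c10 ln20_13_3_c10_ok) (L (nat_lit 402) ln21_13_3_c10 ln21_13_3_c10_ok))) (M (nat_lit 465) (B (L (nat_lit 464) ln20_13_1_c10 ln20_13_1_c10_ok) (L (nat_lit 466) ln21_13_1_c10 ln21_13_1_c10_ok))))) (M (nat_lit 400) (B (L (nat_lit 401) ln20_13_3_c10 ln20_13_3_c10_ok) (L (nat_lit 399) ln13_12_0 ln13_12_0_ok))))))) (M (nat_lit 431) (B (L (nat_lit 399) ln18_13_3 ln18_13_3_ok) (M (nat_lit 467) (B (L (nat_lit 466) ln15_13_0_c10 ln15_13_0_c10_ok) (L (nat_lit 468) ln16_13_0_c10 ln16_13_0_c10_ok)))))))))) (B (K (nat_lit 8931394323165503754481658153670348049985162940857813804920622417077344278730704448857942057155343404368412318944338361584051269924982620160) (nat_lit 3024765517621964346901948532995003607985733173628040226258575592179010181693417736160027378158129209548882858505279346137053063064282604765184) (nat_lit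 3024765517621964346901948532995003607985733173628040226258575592179010181693417736160027378158129209548882858505279346137053063064282604765184) c10_s365) (B (K (nat_lit 8931394323165503754481658153670348049985162940857813804920622417077344278730704448857942057155343404368412318944338361584051269924982620160) (nat_lit 3000948466659147621449104578829900253015810714825239463632303291750953413256223288340147363223343542812437937761126728142407813693172571176960) (nat_lit 3000948466659147621449104578829900253015810714825239463632303291750953413256223288340147363223343542812437937761126728142407813693172571176960) c10_s329) (B (K (nat_lit 8931394323165503754481658153670348049985162940857813804920622417077344278730704448857942057155343404368412318944338361584051269924982620160) (nat_lit 6001896933401475333423583742528114989450655276387224168040800061685245898198944060234018694794941159828276024561319273082810918178362031603712) (nat_lit 6001896933401475333423583742528114989450655276387224168040800061685245898198944060234018694794941159828276024561319273082810918178362031603712)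 c10_s358) (B (K (nat_lit 8931394323165503754481658153670348049985162940857813804920622417077344278730704448857942057155343404368412318944338361584051269924982620160) (nat_lit 9434906065129282733058453803094073926420823893356390362934764421262396775771907856286542875635331493472034614582882524901306007903568939892152080641881207875839222349824) (nat_lit 9434906065129282733058453803094073926420823893356390362934764421262396775771907856286542875635331493472034614582882524901306007903568939892152080641881207875839222349824) c10_s366) (B (K (nat_lit 8931394323165503754481658153670348049985162940857813804920622417077344278730704448857942057155343404368412318944338361584051269924982620160) (nat_lit 1757388201607196826182612564682515148547428076730361732406145185695160805384020559506632083011352563426511481151425941065051328887082955671720652398492917956608) (nat_lit 1757388201607196826182612564682515148547428076730361732406145185695160805384020559506632083011352563426511481151425941065051328887082955671720652398492917956608)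 c10_s367) (B (K (nat_lit 8931394323165503754481658153670348049985162940857813804920622417077344278730704448857942057155343404368412318944338361584051269924982620160) (nat_lit 1757388201402609916047149855938449722621209364103197458267977180827284385504510924766319496770018074948773024762887707843501145364325395302022382882504805711872) (nat_lit 1757388201402609916047149855938449722621209364103197458267977180827284385504510924766319496770018074948773024762887707843501145364325395302022382882504805711872) c10_s368) (B (K (nat_lit 8931394323165503754481658153670348049985162940857813804920622417077344278730704448857942057155343404368412318944338361584051269924982620160) (nat_lit 26417736987370548026561108898890891893698318989696112810988604714383220837427802361057368215871172497537632438013884185588337103425658931922892519790987964700620251725824) (nat_lit 26417736987370548026561108898890891893698318989696112810988604714383220837427802361057368215871172497537632438013884185588337103425658931922892519790987964700620251725824)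 c10_s348) (B (K (nat_lit 8931394323165503754481658153670348049985162940857813804920622417077344278730704448857942057155343404368412318944338361584051269924982620160) (nat_lit 22643774576608112285540433622105514761340802663356941626199121260377381392838825840015536366132650842881371984582563197727092532100531298598977397218622221280039961362432) (nat_lit 22643774576608112285540433622105514761340802663356941626199121260377381392838825840015536366132650842881371984582563197727092532100531298598977397218622221280039961362432) c10_s363) (M (nat_lit 399) (B (L (nat_lit 431) ln18_13_3 ln18_13_3_ok) (L (nat_lit 400) ln13_12_0 ln13_12_0_ok))))))))))))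
noncomputable def c10_d460 : Cert := (B (M (nat_lit 435) (B (M (nat_lit 468) (B (L (nat_lit 467) ln16_13_0_c10 ln16_13_0_c10_ok) (M (nat_lit 436) (B (L (nat_lit 469) ln17_13_0_c10 ln17_13_0_c10_ok) (M (nat_lit 404) (B (L (nat_lit 403) ln16_13_2_c10 ln16_13_2_c10_ok) (L (nat_lit 405) ln17_13_2_c10 ln17_13_2_c10_ok))))))) (B (M (nat_lit 436) (B (M (nat_lit 464) (B (L (nat_lit 463) ln19_13_1_c10 ln19_13_1_c10_ok) (L (nat_lit 465) ln20_13_1_c10 ln20_13_1_c10_ok))) (M (nat_lit 404) (B (L (nat_lit 403) ln16_13_2_c10 ln16_13_2_c10_ok) (L (nat_lit 405) ln17_13_2_c10 ln17_13_2_c10_ok))))) (B (M (nat_lit 436) (B (M (nat_lit 464) (B (L (nat_lit 463) ln19_13_1_c10 ln19_13_1_c10_ok) (L (nat_lit 465) ln20_13_1_c10 ln20_13_1_c10_ok))) (M (nat_lit 468) (B (L (nat_lit 467) ln16_13_0_c10 ln16_13_0_c10_ok) (L (nat_lit 469) ln17_13_0_c10 ln17_13_0_c10_ok))))) (M (nat_lit 464) (B (L (nat_lit 463) ln19_13_1_c10 ln19_13_1_c10_ok) (M (nat_lit 400) (B (L (nat_lit 399) ln13_12_0 ln13_12_0_ok) (M (nat_lit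 496) (B (M (nat_lit 401) (B (L (nat_lit 528) ln16_16_6_c10 ln16_16_6_c10_ok) (L (nat_lit 369) ln16_15_6_c10 ln16_15_6_c10_ok))) (B (M (nat_lit 368) (B (M (nat_lit 497) (B (L (nat_lit 529) ln16_12_4 ln16_12_4_ok) (L (nat_lit 465) ln16_11_4 ln16_11_4_ok))) (M (nat_lit 369) (B (L (nat_lit 401) ln16_15_6_c10 ln16_15_6_c10_ok) (L (nat_lit 337) ln16_14_6_c10 ln16_14_6_c10_ok))))) (M (nat_lit 528) (B (M (nat_lit 527) (B (L (nat_lit 559) ln16_13_5_c10 ln16_13_5_c10_ok) (L (nat_lit 495) ln16_12_5_c10 ln16_12_5_c10_ok))) (M (nat_lit 529) (B (L (nat_lit 561) ln16_13_4_c10 ln16_13_4_c10_ok) (L (nat_lit 497) ln16_12_4 ln16_12_4_ok)))))))))))))))) (B (M (nat_lit 464) (B (M (nat_lit 435) (B (L (nat_lit 463) ln19_13_1_c10 ln19_13_1_c10_ok) (M (nat_lit 436) (B (L (nat_lit 465) ln20_13_1_c10 ln20_13_1_c10_ok) (M (nat_lit 404) (B (L (nat_lit 403) ln16_13_2_c10 ln16_13_2_c10_ok) (L (nat_lit 405) ln17_13_2_c10 ln17_13_2_c10_ok))))))) (B (M (nat_lit 435) (B (L (nat_lit 463) ln19_13_1_c10 ln19_13_1_c10_ok)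 (M (nat_lit 436) (B (L (nat_lit 465) ln20_13_1_c10 ln20_13_1_c10_ok) (M (nat_lit 400) (B (L (nat_lit 399) ln13_12_0 ln13_12_0_ok) (L (nat_lit 401) ln20_13_3_c10 ln20_13_3_c10_ok))))))) (B (M (nat_lit 496) (B (M (nat_lit 401) (B (L (nat_lit 528) ln16_16_6_c10 ln16_16_6_c10_ok) (M (nat_lit 369) (B (L (nat_lit 337) ln17_10_5_c10 ln17_10_5_c10_ok) (L (nat_lit 465) ln17_11_5_c10 ln17_11_5_c10_ok))))) (B (M (nat_lit 401) (B (L (nat_lit 528) ln16_16_6_c10 ln16_16_6_c10_ok) (M (nat_lit 369) (B (L (nat_lit 400) ln16_15_6_c10 ln16_15_6_c10_ok) (L (nat_lit 465) ln17_11_5_c10 ln17_11_5_c10_ok))))) (B (M (nat_lit 400) (B (L (nat_lit 399) ln13_12_0 ln13_12_0_ok) (M (nat_lit 368) (B (M (nat_lit 495) (B (L (nat_lit 463) ln16_11_5_c10 ln16_11_5_c10_ok) (L (nat_lit 527) ln16_12_5_c10 ln16_12_5_c10_ok))) (M (nat_lit 497) (B (L (nat_lit 465) ln16_11_4 ln16_11_4_ok) (L (nat_lit 529) ln16_12_4 ln16_12_4_ok))))))) (M (nat_lit 401) (B (L (nat_lit 528) ln16_16_6_c10 ln16_16_6_c10_ok) (M (nat_lit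 369) (B (L (nat_lit 337) ln17_10_5_c10 ln17_10_5_c10_ok) (L (nat_lit 400) ln16_15_6_c10 ln16_15_6_c10_ok))))))))) (B (M (nat_lit 400) (B (L (nat_lit 399) ln13_12_0 ln13_12_0_ok) (M (nat_lit 496) (B (M (nat_lit 401) (B (L (nat_lit 369) ln16_15_6_c10 ln16_15_6_c10_ok) (L (nat_lit 528) ln16_16_6_c10 ln16_16_6_c10_ok))) (B (M (nat_lit 528) (B (L (nat_lit 401) ln16_16_6_c10 ln16_16_6_c10_ok) (M (nat_lit 527) (B (L (nat_lit 495) ln16_12_5_c10 ln16_12_5_c10_ok) (L (nat_lit 559) ln16_13_5_c10 ln16_13_5_c10_ok))))) (B (M (nat_lit 528) (B (M (nat_lit 527) (B (L (nat_lit 495) ln16_12_5_c10 ln16_12_5_c10_ok) (L (nat_lit 559) ln16_13_5_c10 ln16_13_5_c10_ok))) (M (nat_lit 529) (B (L (nat_lit 497) ln16_12_4 ln16_12_4_ok) (L (nat_lit 561) ln16_13_4_c10 ln16_13_4_c10_ok))))) (M (nat_lit 368) (B (M (nat_lit 369) (B (L (nat_lit 337) ln16_14_6_c10 ln16_14_6_c10_ok) (L (nat_lit 401) ln16_15_6_c10 ln16_15_6_c10_ok))) (M (nat_lit 497) (B (L (nat_lit 465) ln16_11_4 ln16_11_4_ok) (L (nat_lit 529)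 ln16_12_4 ln16_12_4_ok))))))))))) (M (nat_lit 435) (B (L (nat_lit 463) ln19_13_1_c10 ln19_13_1_c10_ok) (M (nat_lit 436) (B (M (nat_lit 400) (B (L (nat_lit 399) ln13_12_0 ln13_12_0_ok) (L (nat_lit 401) ln20_13_3_c10 ln20_13_3_c10_ok))) (M (nat_lit 404) (B (L (nat_lit 403) ln16_13_2_c10 ln16_13_2_c10_ok) (L (nat_lit 405) ln17_13_2_c10 ln17_13_2_c10_ok)))))))))))) (B (K (nat_lit 8931394323165503754481658153670348049985162940857813804920622417077344278730704448857942057155343404368412318944338361584051269924982620160) (nat_lit 3024765517621964346901948532995003607985733173628040226258575592179010181693417736160027378158129209548882858505279346137053063064282604765184) (nat_lit 3024765517621964346901948532995003607985733173628040226258575592179010181693417736160027378158129209548882858505279346137053063064282604765184) c10_s365) (B (K (nat_lit 8931394323165503754481658153670348049985162940857813804920622417077344278730704448857942057155343404368412318944338361584051269924982620160)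 (nat_lit 818347654998800985125261771244416439653536635664075810350827750052421878776062674837069937303713274278883001932745871332594632445291772906629186453504) (nat_lit 818347654998800985125261771244416439653536635664075810350827750052421878776062674837069937303713274278883001932745871332594632445291772906629186453504) c10_s340) (B (M (nat_lit 435) (B (M (nat_lit 431) (B (L (nat_lit 399) ln18_13_3 ln18_13_3_ok) (M (nat_lit 467) (B (L (nat_lit 466) ln15_13_0_c10 ln15_13_0_c10_ok) (L (nat_lit 468) ln16_13_0_c10 ln16_13_0_c10_ok))))) (B (M (nat_lit 400) (B (L (nat_lit 399) ln13_12_0 ln13_12_0_ok) (M (nat_lit 464) (B (L (nat_lit 463) ln19_13_1_c10 ln19_13_1_c10_ok) (M (nat_lit 368) (B (M (nat_lit 465) (B (L (nat_lit 336) ln16_10_4_c10 ln16_10_4_c10_ok) (L (nat_lit 497) ln16_11_4 ln16_11_4_ok))) (B (M (nat_lit 496) (B (M (nat_lit 369) (B (L (nat_lit 337) ln16_14_6_c10 ln16_14_6_c10_ok) (L (nat_lit 401) ln16_15_6_c10 ln16_15_6_c10_ok))) (M (nat_lit 497) (B (L (nat_lit 465) ln16_11_4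 ln16_11_4_ok) (L (nat_lit 529) ln16_12_4 ln16_12_4_ok))))) (M (nat_lit 336) (B (M (nat_lit 335) (B (L (nat_lit 303) ln16_13_7 ln16_13_7_ok) (L (nat_lit 367) ln16_14_7 ln16_14_7_ok))) (M (nat_lit 337) (B (L (nat_lit 305) ln16_13_6_c10 ln16_13_6_c10_ok) (L (nat_lit 369) ln16_14_6_c10 ln16_14_6_c10_ok)))))))))))) (M (nat_lit 467) (B (L (nat_lit 468) ln16_13_0_c10 ln16_13_0_c10_ok) (M (nat_lit 466) (B (L (nat_lit 431) ln15_13_0_c10 ln15_13_0_c10_ok) (M (nat_lit 403) (B (L (nat_lit 404) ln16_13_2_c10 ln16_13_2_c10_ok) (M (nat_lit 371) (B (L (nat_lit 339) ln19_10_5_c10 ln19_10_5_c10_ok) (L (nat_lit 498) ln19_11_5_c10 ln19_11_5_c10_ok)))))))))))) (M (nat_lit 399) (B (L (nat_lit 431) ln18_13_3 ln18_13_3_ok) (L (nat_lit 400) ln13_12_0 ln13_12_0_ok))))))))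
noncomputable def c10_d461 : Cert := (B (M (nat_lit 368) (B (M (nat_lit 337) (B (L (nat_lit 369) ln16_14_6_c10 ln16_14_6_c10_ok) (M (nat_lit 336) (B (L (nat_lit 305) ln16_13_6_c10 ln16_13_6_c10_ok) (M (nat_lit 335) (B (L (nat_lit 367) ln16_14_7 ln16_14_7_ok) (L (nat_lit 303) ln16_13_7 ln16_13_7_ok))))))) (B (K (nat_lit 56565496914239681830171355352852121757942084378221615904623074979689445620047599070514902898822048644351296800181183998276121732943209037824) (nat_lit 9434906065129282733058453800259844819346152458564009899709483292576672467444423126489031224687322048776185495077067653542887020176084841952054126594244752120515445915648) (nat_lit 9434906065129282733058453800259844819346152458564009899709483292576672467444423126489031224687322048776185495077067653542887020176084841952054126594244752120515445915648) c10_s370) (B (M (nat_lit 336) (B (M (nat_lit 335) (B (L (nat_lit 367) ln16_14_7 ln16_14_7_ok) (L (nat_lit 303) ln16_13_7 ln16_13_7_ok))) (M (nat_lit 304) (B (L (nat_lit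 401) ln16_9_4_c10 ln16_9_4_c10_ok) (M (nat_lit 305) (B (L (nat_lit 337) ln16_13_6_c10 ln16_13_6_c10_ok) (L (nat_lit 273) ln16_12_6_c10 ln16_12_6_c10_ok))))))) (M (nat_lit 335) (B (L (nat_lit 367) ln16_14_7 ln16_14_7_ok) (M (nat_lit 401) (B (M (nat_lit 496) (B (L (nat_lit 528) ln16_16_6_c10 ln16_16_6_c10_ok) (L (nat_lit 369) ln16_15_6_c10 ln16_15_6_c10_ok))) (M (nat_lit 336) (B (L (nat_lit 303) ln16_13_7 ln16_13_7_ok) (L (nat_lit 304) ln16_9_4_c10 ln16_9_4_c10_ok))))))))))) (B (M (nat_lit 496) (B (M (nat_lit 529) (B (L (nat_lit 497) ln16_12_4 ln16_12_4_ok) (M (nat_lit 528) (B (L (nat_lit 561) ln16_13_4_c10 ln16_13_4_c10_ok) (M (nat_lit 527) (B (L (nat_lit 495) ln16_12_5_c10 ln16_12_5_c10_ok) (L (nat_lit 559) ln16_13_5_c10 ln16_13_5_c10_ok))))))) (B (M (nat_lit 368) (B (M (nat_lit 465) (B (L (nat_lit 336) ln16_10_4_c10 ln16_10_4_c10_ok) (L (nat_lit 497) ln16_11_4 ln16_11_4_ok))) (B (M (nat_lit 497) (B (L (nat_lit 465) ln16_11_4 ln16_11_4_ok) (L (nat_lit 529) ln16_12_4 ln16_12_4_ok)))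 (M (nat_lit 336) (B (M (nat_lit 335) (B (L (nat_lit 303) ln16_13_7 ln16_13_7_ok) (L (nat_lit 367) ln16_14_7 ln16_14_7_ok))) (M (nat_lit 337) (B (L (nat_lit 305) ln16_13_6_c10 ln16_13_6_c10_ok) (L (nat_lit 369) ln16_14_6_c10 ln16_14_6_c10_ok)))))))) (B (M (nat_lit 528) (B (M (nat_lit 527) (B (L (nat_lit 495) ln16_12_5_c10 ln16_12_5_c10_ok) (L (nat_lit 559) ln16_13_5_c10 ln16_13_5_c10_ok))) (M (nat_lit 560) (B (L (nat_lit 465) ln16_17_6_c10 ln16_17_6_c10_ok) (M (nat_lit 561) (B (L (nat_lit 529) ln16_13_4_c10 ln16_13_4_c10_ok) (L (nat_lit 593) ln16_14_4_c10 ln16_14_4_c10_ok))))))) (M (nat_lit 527) (B (L (nat_lit 495) ln16_12_5_c10 ln16_12_5_c10_ok) (M (nat_lit 465) (B (M (nat_lit 368) (B (L (nat_lit 336) ln16_10_4_c10 ln16_10_4_c10_ok) (L (nat_lit 497) ln16_11_4 ln16_11_4_ok))) (M (nat_lit 528) (B (L (nat_lit 559) ln16_13_5_c10 ln16_13_5_c10_ok) (L (nat_lit 560) ln16_17_6_c10 ln16_17_6_c10_ok))))))))))) (B (M (nat_lit 368) (B (M (nat_lit 465) (B (L (nat_lit 336) ln16_10_4_c10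 ln16_10_4_c10_ok) (L (nat_lit 497) ln16_11_4 ln16_11_4_ok))) (M (nat_lit 496) (B (M (nat_lit 369) (B (L (nat_lit 337) ln16_14_6_c10 ln16_14_6_c10_ok) (L (nat_lit 401) ln16_15_6_c10 ln16_15_6_c10_ok))) (M (nat_lit 495) (B (L (nat_lit 463) ln16_11_5_c10 ln16_11_5_c10_ok) (L (nat_lit 527) ln16_12_5_c10 ln16_12_5_c10_ok))))))) (B (M (nat_lit 496) (B (M (nat_lit 401) (B (L (nat_lit 528) ln16_16_6_c10 ln16_16_6_c10_ok) (L (nat_lit 369) ln16_15_6_c10 ln16_15_6_c10_ok))) (B (M (nat_lit 368) (B (M (nat_lit 369) (B (L (nat_lit 401) ln16_15_6_c10 ln16_15_6_c10_ok) (L (nat_lit 337) ln16_14_6_c10 ln16_14_6_c10_ok))) (M (nat_lit 336) (B (L (nat_lit 465) ln16_10_4_c10 ln16_10_4_c10_ok) (M (nat_lit 335) (B (L (nat_lit 367) ln16_14_7 ln16_14_7_ok) (L (nat_lit 303) ln16_13_7 ln16_13_7_ok))))))) (M (nat_lit 528) (B (M (nat_lit 527) (B (L (nat_lit 559) ln16_13_5_c10 ln16_13_5_c10_ok) (L (nat_lit 495) ln16_12_5_c10 ln16_12_5_c10_ok))) (M (nat_lit 560) (B (L (nat_lit 465) ln16_17_6_c10 ln16_17_6_c10_ok)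 (M (nat_lit 561) (B (L (nat_lit 593) ln16_14_4_c10 ln16_14_4_c10_ok) (L (nat_lit 529) ln16_13_4_c10 ln16_13_4_c10_ok)))))))))) (B (M (nat_lit 496) (B (M (nat_lit 401) (B (L (nat_lit 369) ln16_15_6_c10 ln16_15_6_c10_ok) (L (nat_lit 528) ln16_16_6_c10 ln16_16_6_c10_ok))) (B (M (nat_lit 529) (B (L (nat_lit 497) ln16_12_4 ln16_12_4_ok) (M (nat_lit 528) (B (L (nat_lit 401) ln16_16_6_c10 ln16_16_6_c10_ok) (L (nat_lit 561) ln16_13_4_c10 ln16_13_4_c10_ok))))) (B (M (nat_lit 528) (B (M (nat_lit 529) (B (L (nat_lit 497) ln16_12_4 ln16_12_4_ok) (L (nat_lit 561) ln16_13_4_c10 ln16_13_4_c10_ok))) (M (nat_lit 527) (B (L (nat_lit 495) ln16_12_5_c10 ln16_12_5_c10_ok) (L (nat_lit 559) ln16_13_5_c10 ln16_13_5_c10_ok))))) (M (nat_lit 401) (B (L (nat_lit 369) ln16_15_6_c10 ln16_15_6_c10_ok) (M (nat_lit 497) (B (L (nat_lit 529) ln16_12_4 ln16_12_4_ok) (M (nat_lit 465) (B (M (nat_lit 498) (B (L (nat_lit 530) ln17_12_4_c10 ln17_12_4_c10_ok) (M (nat_lit 499) (B (L (nat_lit 500) ln20_15_3_c10 ln20_15_3_c10_ok)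 (L (nat_lit 463) ln19_15_3_c10 ln19_15_3_c10_ok))))) (M (nat_lit 402) (B (L (nat_lit 370) ln17_15_6_c10 ln17_15_6_c10_ok) (M (nat_lit 403) (B (L (nat_lit 404) ln20_12_1_c10 ln20_12_1_c10_ok) (L (nat_lit 431) ln19_12_1_c10 ln19_12_1_c10_ok))))))))))))))) (M (nat_lit 465) (B (M (nat_lit 368) (B (L (nat_lit 497) ln16_11_4 ln16_11_4_ok) (L (nat_lit 336) ln16_10_4_c10 ln16_10_4_c10_ok))) (B (M (nat_lit 497) (B (L (nat_lit 529) ln17_16_7_c10 ln17_16_7_c10_ok) (M (nat_lit 401) (B (M (nat_lit 369) (B (L (nat_lit 337) ln17_10_5_c10 ln17_10_5_c10_ok) (M (nat_lit 498) (B (L (nat_lit 530) ln17_12_4_c10 ln17_12_4_c10_ok) (L (nat_lit 466) ln17_11_4_c10 ln17_11_4_c10_ok))))) (M (nat_lit 402) (B (L (nat_lit 370) ln17_15_6_c10 ln17_15_6_c10_ok) (M (nat_lit 403) (B (L (nat_lit 431) ln19_12_1_c10 ln19_12_1_c10_ok) (L (nat_lit 404) ln20_12_1_c10 ln20_12_1_c10_ok))))))))) (M (nat_lit 368) (B (L (nat_lit 336) ln16_10_4_c10 ln16_10_4_c10_ok) (M (nat_lit 466) (B (M (nat_lit 467) (B (L (nat_lit 431)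 ln19_14_3_c10 ln19_14_3_c10_ok) (L (nat_lit 468) ln20_14_3_c10 ln20_14_3_c10_ok))) (M (nat_lit 498) (B (M (nat_lit 463) (B (L (nat_lit 495) ln16_11_5_c10 ln16_11_5_c10_ok) (L (nat_lit 499) ln15_14_0_c10 ln15_14_0_c10_ok))) (M (nat_lit 369) (B (L (nat_lit 337) ln16_14_6_c10 ln16_14_6_c10_ok) (L (nat_lit 401) ln17_11_4_c10 ln17_11_4_c10_ok)))))))))))))))))
noncomputable def c10_d462 : Cert := (B (M (nat_lit 336) (B (M (nat_lit 305) (B (L (nat_lit 337) ln16_13_6_c10 ln16_13_6_c10_ok) (M (nat_lit 304) (B (L (nat_lit 273) ln16_12_6_c10 ln16_12_6_c10_ok) (M (nat_lit 303) (B (L (nat_lit 271) ln16_12_7_c10 ln16_12_7_c10_ok) (L (nat_lit 335) ln16_13_7 ln16_13_7_ok))))))) (B (M (nat_lit 464) (B (M (nat_lit 337) (B (L (nat_lit 305) ln16_13_6_c10 ln16_13_6_c10_ok) (L (nat_lit 369) ln16_14_6_c10 ln16_14_6_c10_ok))) (M (nat_lit 335) (B (L (nat_lit 303) ln16_13_7 ln16_13_7_ok) (L (nat_lit 367) ln16_14_7 ln16_14_7_ok))))) (B (M (nat_lit 304) (B (M (nat_lit 303) (B (L (nat_lit 335) ln16_13_7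 ln16_13_7_ok) (L (nat_lit 271) ln16_12_7_c10 ln16_12_7_c10_ok))) (M (nat_lit 272) (B (L (nat_lit 401) ln16_9_4_c10 ln16_9_4_c10_ok) (M (nat_lit 273) (B (L (nat_lit 305) ln16_12_6_c10 ln16_12_6_c10_ok) (L (nat_lit 241) ln16_11_6_c10 ln16_11_6_c10_ok))))))) (B (M (nat_lit 304) (B (M (nat_lit 303) (B (L (nat_lit 271) ln16_12_7_c10 ln16_12_7_c10_ok) (L (nat_lit 335) ln16_13_7 ln16_13_7_ok))) (B (M (nat_lit 272) (B (L (nat_lit 401) ln16_9_4_c10 ln16_9_4_c10_ok) (M (nat_lit 240) (B (M (nat_lit 241) (B (L (nat_lit 209) ln16_10_6_c10 ln16_10_6_c10_ok) (L (nat_lit 273) ln16_11_6_c10 ln16_11_6_c10_ok))) (M (nat_lit 335) (B (L (nat_lit 367) ln16_7_5_c10 ln16_7_5_c10_ok) (L (nat_lit 303) ln16_13_7 ln16_13_7_ok))))))) (M (nat_lit 272) (B (L (nat_lit 401) ln16_9_4_c10 ln16_9_4_c10_ok) (M (nat_lit 240) (B (M (nat_lit 239) (B (L (nat_lit 207) ln16_10_7_c10 ln16_10_7_c10_ok) (L (nat_lit 271) ln16_11_7_c10 ln16_11_7_c10_ok))) (M (nat_lit 241) (B (L (nat_lit 209) ln16_10_6_c10 ln16_10_6_c10_ok)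 (L (nat_lit 273) ln16_11_6_c10 ln16_11_6_c10_ok)))))))))) (B (M (nat_lit 304) (B (M (nat_lit 305) (B (L (nat_lit 273) ln16_12_6_c10 ln16_12_6_c10_ok) (L (nat_lit 337) ln16_13_6_c10 ln16_13_6_c10_ok))) (M (nat_lit 272) (B (M (nat_lit 271) (B (L (nat_lit 239) ln16_11_7_c10 ln16_11_7_c10_ok) (L (nat_lit 303) ln16_12_7_c10 ln16_12_7_c10_ok))) (L (nat_lit 401) ln16_9_4_c10 ln16_9_4_c10_ok))))) (M (nat_lit 304) (B (M (nat_lit 305) (B (L (nat_lit 337) ln16_13_6_c10 ln16_13_6_c10_ok) (L (nat_lit 273) ln16_12_6_c10 ln16_12_6_c10_ok))) (B (M (nat_lit 272) (B (L (nat_lit 401) ln16_9_4_c10 ln16_9_4_c10_ok) (M (nat_lit 273) (B (L (nat_lit 305) ln16_12_6_c10 ln16_12_6_c10_ok) (L (nat_lit 241) ln16_11_6_c10 ln16_11_6_c10_ok))))) (L (nat_lit 401) ln16_9_4_c10 ln16_9_4_c10_ok)))))))))) (B (M (nat_lit 336) (B (L (nat_lit 465) ln16_10_4_c10 ln16_10_4_c10_ok) (M (nat_lit 303) (B (L (nat_lit 335) ln16_13_7 ln16_13_7_ok) (M (nat_lit 305) (B (L (nat_lit 337) ln16_13_6_c10 ln16_13_6_c10_ok) (M (nat_lit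 304) (B (L (nat_lit 271) ln16_12_7_c10 ln16_12_7_c10_ok) (L (nat_lit 273) ln16_12_6_c10 ln16_12_6_c10_ok))))))))) (M (nat_lit 464) (B (M (nat_lit 496) (B (M (nat_lit 497) (B (L (nat_lit 465) ln16_11_4 ln16_11_4_ok) (L (nat_lit 529) ln16_12_4 ln16_12_4_ok))) (B (M (nat_lit 528) (B (M (nat_lit 529) (B (L (nat_lit 497) ln16_12_4 ln16_12_4_ok) (L (nat_lit 561) ln16_13_4_c10 ln16_13_4_c10_ok))) (M (nat_lit 527) (B (L (nat_lit 495) ln16_12_5_c10 ln16_12_5_c10_ok) (L (nat_lit 559) ln16_13_5_c10 ln16_13_5_c10_ok))))) (B (M (nat_lit 528) (B (M (nat_lit 527) (B (L (nat_lit 495) ln16_12_5_c10 ln16_12_5_c10_ok) (L (nat_lit 559) ln16_13_5_c10 ln16_13_5_c10_ok))) (M (nat_lit 561) (B (L (nat_lit 529) ln16_13_4_c10 ln16_13_4_c10_ok) (M (nat_lit 560) (B (L (nat_lit 465) ln16_17_6_c10 ln16_17_6_c10_ok) (L (nat_lit 593) ln16_14_4_c10 ln16_14_4_c10_ok))))))) (M (nat_lit 528) (B (M (nat_lit 465) (B (L (nat_lit 497) ln16_11_4 ln16_11_4_ok) (L (nat_lit 560) ln16_17_6_c10 ln16_17_6_c10_ok))) (M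 (nat_lit 527) (B (L (nat_lit 495) ln16_12_5_c10 ln16_12_5_c10_ok) (L (nat_lit 559) ln16_13_5_c10 ln16_13_5_c10_ok))))))))) (B (K (nat_lit 56565496914239681830171355352852121757942084378221615904623074979689445620047599070514902898822048644351296800181183998276121732943209037824) (nat_lit 9434906065129282733058453800259844819346152458564009899709483292576672467444423126489031224687322048776185495077067653542887020176084841952054126594244752120515445915648) (nat_lit 9434906065129282733058453800259844819346152458564009899709483292576672467444423126489031224687322048776185495077067653542887020176084841952054126594244752120515445915648) c10_s370) (B (M (nat_lit 496) (B (M (nat_lit 497) (B (L (nat_lit 529) ln16_12_4 ln16_12_4_ok) (L (nat_lit 465) ln16_11_4 ln16_11_4_ok))) (M (nat_lit 401) (B (L (nat_lit 528) ln16_16_6_c10 ln16_16_6_c10_ok) (L (nat_lit 369) ln16_15_6_c10 ln16_15_6_c10_ok))))) (B (M (nat_lit 496) (B (M (nat_lit 495) (B (L (nat_lit 527) ln16_12_5_c10 ln16_12_5_c10_ok)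 (L (nat_lit 463) ln16_11_5_c10 ln16_11_5_c10_ok))) (M (nat_lit 401) (B (L (nat_lit 528) ln16_16_6_c10 ln16_16_6_c10_ok) (L (nat_lit 369) ln16_15_6_c10 ln16_15_6_c10_ok))))) (B (M (nat_lit 369) (B (L (nat_lit 337) ln16_14_6_c10 ln16_14_6_c10_ok) (M (nat_lit 401) (B (L (nat_lit 496) ln16_15_6_c10 ln16_15_6_c10_ok) (M (nat_lit 370) (B (M (nat_lit 338) (B (L (nat_lit 465) ln17_14_6_c10 ln17_14_6_c10_ok) (M (nat_lit 306) (B (L (nat_lit 274) ln18_8_5_c10 ln18_8_5_c10_ok) (L (nat_lit 402) ln18_9_5_c10 ln18_9_5_c10_ok))))) (B (M (nat_lit 367) (B (L (nat_lit 335) ln16_14_7 ln16_14_7_ok) (M (nat_lit 338) (B (L (nat_lit 339) ln15_11_2_c10 ln15_11_2_c10_ok) (L (nat_lit 465) ln17_14_6_c10 ln17_14_6_c10_ok))))) (M (nat_lit 403) (B (M (nat_lit 371) (B (L (nat_lit 372) ln20_11_1_c10 ln20_11_1_c10_ok) (L (nat_lit 404) ln16_11_0_c10 ln16_11_0_c10_ok))) (B (M (nat_lit 404) (B (L (nat_lit 371) ln16_11_0_c10 ln16_11_0_c10_ok) (L (nat_lit 402) ln20_12_1_c10 ln20_12_1_c10_ok))) (M (nat_lit 367)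 (B (L (nat_lit 402) ln15_11_0_c10 ln15_11_0_c10_ok) (L (nat_lit 335) ln16_14_7 ln16_14_7_ok))))))))))))) (M (nat_lit 465) (B (L (nat_lit 497) ln16_11_4 ln16_11_4_ok) (M (nat_lit 369) (B (L (nat_lit 337) ln16_14_6_c10 ln16_14_6_c10_ok) (M (nat_lit 367) (B (L (nat_lit 335) ln16_14_7 ln16_14_7_ok) (M (nat_lit 370) (B (M (nat_lit 338) (B (L (nat_lit 401) ln17_14_6_c10 ln17_14_6_c10_ok) (L (nat_lit 339) ln15_11_2_c10 ln15_11_2_c10_ok))) (B (M (nat_lit 402) (B (L (nat_lit 403) ln15_11_0_c10 ln15_11_0_c10_ok) (M (nat_lit 338) (B (L (nat_lit 339) ln15_11_2_c10 ln15_11_2_c10_ok) (L (nat_lit 434) ln18_10_5_c10 ln18_10_5_c10_ok))))) (B (M (nat_lit 371) (B (M (nat_lit 372) (B (L (nat_lit 401) ln20_11_1_c10 ln20_11_1_c10_ok) (M (nat_lit 404) (B (L (nat_lit 405) ln17_11_0_c10 ln17_11_0_c10_ok) (L (nat_lit 403) ln16_11_0_c10 ln16_11_0_c10_ok))))) (B (M (nat_lit 403) (B (L (nat_lit 404) ln16_11_0_c10 ln16_11_0_c10_ok) (L (nat_lit 402) ln15_11_0_c10 ln15_11_0_c10_ok))) (M (nat_lit 372) (B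 (L (nat_lit 401) ln20_11_1_c10 ln20_11_1_c10_ok) (M (nat_lit 340) (B (L (nat_lit 341) ln17_11_2_c10 ln17_11_2_c10_ok) (L (nat_lit 339) ln16_11_2_c10 ln16_11_2_c10_ok)))))))) (M (nat_lit 371) (B (M (nat_lit 403) (B (L (nat_lit 404) ln16_11_0_c10 ln16_11_0_c10_ok) (L (nat_lit 402) ln15_11_0_c10 ln15_11_0_c10_ok))) (M (nat_lit 401) (B (L (nat_lit 372) ln20_11_1_c10 ln20_11_1_c10_ok) (L (nat_lit 338) ln17_14_6_c10 ln17_14_6_c10_ok)))))))))))))))))))))))
noncomputable def c10_d463 : Cert := (B (M (nat_lit 400) (B (L (nat_lit 399) ln13_12_0 ln13_12_0_ok) (M (nat_lit 368) (B (K (nat_lit 8931394278802788651130870279103856594541844164217539506015333286187069234247952767409646199244839611761164184192923761223998080610318942208) (nat_lit 2196735251957849304438208648995460201833898308352870173903514767816140216545464296209845483087356362146109557013837192180782890342746114536877403956578487369728) (nat_lit 2196735251957849304438208648995460201833898308352870173903514767816140216545464296209845483087356362146109557013837192180782890342746114536877403956578487369728)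 c10_s371) (B (M (nat_lit 464) (B (M (nat_lit 336) (B (M (nat_lit 335) (B (L (nat_lit 303) ln16_13_7 ln16_13_7_ok) (L (nat_lit 367) ln16_14_7 ln16_14_7_ok))) (L (nat_lit 465) ln16_10_4_c10 ln16_10_4_c10_ok))) (M (nat_lit 496) (B (M (nat_lit 369) (B (L (nat_lit 337) ln16_14_6_c10 ln16_14_6_c10_ok) (L (nat_lit 401) ln16_15_6_c10 ln16_15_6_c10_ok))) (M (nat_lit 495) (B (L (nat_lit 463) ln16_11_5_c10 ln16_11_5_c10_ok) (L (nat_lit 527) ln16_12_5_c10 ln16_12_5_c10_ok))))))) (B (M (nat_lit 336) (B (M (nat_lit 303) (B (L (nat_lit 335) ln16_13_7 ln16_13_7_ok) (M (nat_lit 304) (B (L (nat_lit 271) ln16_12_7_c10 ln16_12_7_c10_ok) (M (nat_lit 305) (B (L (nat_lit 337) ln16_13_6_c10 ln16_13_6_c10_ok) (L (nat_lit 273) ln16_12_6_c10 ln16_12_6_c10_ok))))))) (B (M (nat_lit 304) (B (L (nat_lit 465) ln16_10_4_c10 ln16_10_4_c10_ok) (M (nat_lit 305) (B (L (nat_lit 337) ln16_13_6_c10 ln16_13_6_c10_ok) (L (nat_lit 273) ln16_12_6_c10 ln16_12_6_c10_ok))))) (B (M (nat_lit 304) (B (L (nat_lit 465) ln16_10_4_c10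 ln16_10_4_c10_ok) (M (nat_lit 303) (B (L (nat_lit 335) ln16_13_7 ln16_13_7_ok) (L (nat_lit 271) ln16_12_7_c10 ln16_12_7_c10_ok))))) (M (nat_lit 464) (B (L (nat_lit 465) ln16_10_4_c10 ln16_10_4_c10_ok) (M (nat_lit 335) (B (L (nat_lit 367) ln16_14_7 ln16_14_7_ok) (L (nat_lit 303) ln16_13_7 ln16_13_7_ok))))))))) (B (M (nat_lit 336) (B (M (nat_lit 304) (B (L (nat_lit 465) ln16_10_4_c10 ln16_10_4_c10_ok) (M (nat_lit 303) (B (L (nat_lit 335) ln16_13_7 ln16_13_7_ok) (L (nat_lit 271) ln16_12_7_c10 ln16_12_7_c10_ok))))) (B (M (nat_lit 305) (B (L (nat_lit 337) ln16_13_6_c10 ln16_13_6_c10_ok) (M (nat_lit 304) (B (L (nat_lit 273) ln16_12_6_c10 ln16_12_6_c10_ok) (M (nat_lit 303) (B (L (nat_lit 335) ln16_13_7 ln16_13_7_ok) (L (nat_lit 271) ln16_12_7_c10 ln16_12_7_c10_ok))))))) (B (M (nat_lit 304) (B (L (nat_lit 465) ln16_10_4_c10 ln16_10_4_c10_ok) (M (nat_lit 305) (B (L (nat_lit 337) ln16_13_6_c10 ln16_13_6_c10_ok) (L (nat_lit 273) ln16_12_6_c10 ln16_12_6_c10_ok))))) (M (nat_lit 464) (B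 (L (nat_lit 465) ln16_10_4_c10 ln16_10_4_c10_ok) (M (nat_lit 337) (B (L (nat_lit 369) ln16_14_6_c10 ln16_14_6_c10_ok) (L (nat_lit 305) ln16_13_6_c10 ln16_13_6_c10_ok))))))))) (B (M (nat_lit 464) (B (M (nat_lit 496) (B (M (nat_lit 369) (B (L (nat_lit 337) ln16_14_6_c10 ln16_14_6_c10_ok) (L (nat_lit 401) ln16_15_6_c10 ln16_15_6_c10_ok))) (M (nat_lit 495) (B (L (nat_lit 463) ln16_11_5_c10 ln16_11_5_c10_ok) (L (nat_lit 527) ln16_12_5_c10 ln16_12_5_c10_ok))))) (B (M (nat_lit 497) (B (L (nat_lit 465) ln16_11_4 ln16_11_4_ok) (M (nat_lit 496) (B (L (nat_lit 529) ln16_12_4 ln16_12_4_ok) (M (nat_lit 495) (B (L (nat_lit 463) ln16_11_5_c10 ln16_11_5_c10_ok) (L (nat_lit 527) ln16_12_5_c10 ln16_12_5_c10_ok))))))) (B (M (nat_lit 496) (B (M (nat_lit 369) (B (L (nat_lit 337) ln16_14_6_c10 ln16_14_6_c10_ok) (L (nat_lit 401) ln16_15_6_c10 ln16_15_6_c10_ok))) (M (nat_lit 497) (B (L (nat_lit 465) ln16_11_4 ln16_11_4_ok) (L (nat_lit 529) ln16_12_4 ln16_12_4_ok))))) (M (nat_lit 336) (B (M (nat_lit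 337) (B (L (nat_lit 305) ln16_13_6_c10 ln16_13_6_c10_ok) (L (nat_lit 369) ln16_14_6_c10 ln16_14_6_c10_ok))) (L (nat_lit 465) ln16_10_4_c10 ln16_10_4_c10_ok))))))) (B (M (nat_lit 464) (B (M (nat_lit 496) (B (M (nat_lit 495) (B (L (nat_lit 527) ln16_12_5_c10 ln16_12_5_c10_ok) (L (nat_lit 463) ln16_11_5_c10 ln16_11_5_c10_ok))) (M (nat_lit 497) (B (L (nat_lit 529) ln16_12_4 ln16_12_4_ok) (L (nat_lit 465) ln16_11_4 ln16_11_4_ok))))) (B (M (nat_lit 336) (B (L (nat_lit 465) ln16_10_4_c10 ln16_10_4_c10_ok) (M (nat_lit 335) (B (L (nat_lit 367) ln16_14_7 ln16_14_7_ok) (L (nat_lit 303) ln16_13_7 ln16_13_7_ok))))) (M (nat_lit 496) (B (M (nat_lit 495) (B (L (nat_lit 527) ln16_12_5_c10 ln16_12_5_c10_ok) (L (nat_lit 463) ln16_11_5_c10 ln16_11_5_c10_ok))) (M (nat_lit 528) (B (M (nat_lit 529) (B (L (nat_lit 561) ln16_13_4_c10 ln16_13_4_c10_ok) (L (nat_lit 497) ln16_12_4 ln16_12_4_ok))) (L (nat_lit 401) ln16_16_6_c10 ln16_16_6_c10_ok)))))))) c10_d462))))))))) (M (nat_lit 434) (B (K (nat_lit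 8931394323165503754481658153670348049985162940857813804920622417077344278730704448857942057155343404368412318944338361584051269924982620160) (nat_lit 1500474233287983765309512254173665278008689202896069410842602265006882983527854000357313487738551103821369818517502323617487974304185738854400) (nat_lit 1500474233287983765309512254173665278008689202896069410842602265006882983527854000357313487738551103821369818517502323617487974304185738854400) c10_s369) (B (K (nat_lit 8931394323165503754481658153670348049985162940857813804920622417077344278730704448857942057155343404368412318944338361584051269924982620160) (nat_lit 75479248521034261864467630405103524072385638676130367221011828010505451258460682163641396478310370132872640804430323330840803516660413748823871210158860690077786090504192) (nat_lit 75479248521034261864467630405103524072385638676130367221011828010505451258460682163641396478310370132872640804430323330840803516660413748823871210158860690077786090504192) c10_s336) (B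 (K (nat_lit 8931394323165503754481658153670348049985162940857813804920622417077344278730704448857942057155343404368412318944338361584051269924982620160) (nat_lit 7029552806019613481029869450508948361856703989967823963373201306549228913779275157935294531269300559572710493300911117032603956149764202372018976358843908358144) (nat_lit 7029552806019613481029869450508948361856703989967823963373201306549228913779275157935294531269300559572710493300911117032603956149764202372018976358843908358144) c10_s323) (B (K (nat_lit 8931394323165503754481658153670348049985162940857813804920622417077344278730704448857942057155343404368412318944338361584051269924982620160) (nat_lit 2858046158397935220922495078287838469524219725683197635700241726443017604574466557421975894164568926028707179486288291699217111083564096552960) (nat_lit 2858046158397935220922495078287838469524219725683197635700241726443017604574466557421975894164568926028707179486288291699217111083564096552960) c10_s364) (B (M (nat_lit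 435) (B (M (nat_lit 436) (B (M (nat_lit 468) (B (L (nat_lit 469) ln17_13_0_c10 ln17_13_0_c10_ok) (L (nat_lit 467) ln16_13_0_c10 ln16_13_0_c10_ok))) (M (nat_lit 464) (B (L (nat_lit 465) ln20_13_1_c10 ln20_13_1_c10_ok) (L (nat_lit 463) ln19_13_1_c10 ln19_13_1_c10_ok))))) (B (M (nat_lit 436) (B (M (nat_lit 404) (B (L (nat_lit 405) ln17_13_2_c10 ln17_13_2_c10_ok) (L (nat_lit 403) ln16_13_2_c10 ln16_13_2_c10_ok))) (M (nat_lit 464) (B (L (nat_lit 465) ln20_13_1_c10 ln20_13_1_c10_ok) (L (nat_lit 463) ln19_13_1_c10 ln19_13_1_c10_ok))))) (M (nat_lit 431) (B (M (nat_lit 403) (B (L (nat_lit 404) ln16_13_2_c10 ln16_13_2_c10_ok) (L (nat_lit 402) ln15_13_2_c10 ln15_13_2_c10_ok))) (L (nat_lit 399) ln18_13_3 ln18_13_3_ok)))))) (B (M (nat_lit 435) (B (M (nat_lit 436) (B (M (nat_lit 468) (B (L (nat_lit 469) ln17_13_0_c10 ln17_13_0_c10_ok) (L (nat_lit 467) ln16_13_0_c10 ln16_13_0_c10_ok))) (M (nat_lit 464) (B (L (nat_lit 465) ln20_13_1_c10 ln20_13_1_c10_ok) (L (nat_lit 463) ln19_13_1_c10 ln19_13_1_c10_ok)))))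 (M (nat_lit 431) (B (M (nat_lit 403) (B (L (nat_lit 404) ln16_13_2_c10 ln16_13_2_c10_ok) (L (nat_lit 402) ln15_13_2_c10 ln15_13_2_c10_ok))) (L (nat_lit 399) ln18_13_3 ln18_13_3_ok))))) (B (K (nat_lit 8931394323165503754481658153670348049985162940857813804920622417077344278730704448857942057155343404368412318944338361584051269924982620160) (nat_lit 1757388201402609916047149855938449722621209364103197458267977180827284385504510924766319496770018074948773024762887707843501145364325395302022382882504805711872) (nat_lit 1757388201402609916047149855938449722621209364103197458267977180827284385504510924766319496770018074948773024762887707843501145364325395302022382882504805711872) c10_s368) (M (nat_lit 399) (B (L (nat_lit 431) ln18_13_3 ln18_13_3_ok) (L (nat_lit 400) ln13_12_0 ln13_12_0_ok))))))))))))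
noncomputable def c10_d464 : Cert := (B (M (nat_lit 434) (B (M (nat_lit 435) (B (M (nat_lit 436) (B (M (nat_lit 464) (B (L (nat_lit 465) ln20_13_1_c10 ln20_13_1_c10_ok) (L (nat_lit 463) ln19_13_1_c10 ln19_13_1_c10_ok))) (M (nat_lit 469) (B (L (nat_lit 468) ln17_13_0_c10 ln17_13_0_c10_ok) (M (nat_lit 437) (B (L (nat_lit 470) ln18_13_0_c10 ln18_13_0_c10_ok) (M (nat_lit 405) (B (L (nat_lit 404) ln17_13_2_c10 ln17_13_2_c10_ok) (L (nat_lit 406) ln18_13_2_c10 ln18_13_2_c10_ok))))))))) (B (M (nat_lit 436) (B (M (nat_lit 400) (B (L (nat_lit 399) ln13_12_0 ln13_12_0_ok) (L (nat_lit 401) ln20_13_3_c10 ln20_13_3_c10_ok))) (M (nat_lit 437) (B (M (nat_lit 465) (B (L (nat_lit 464) ln20_13_1_c10 ln20_13_1_c10_ok) (L (nat_lit 466) ln21_13_1_c10 ln21_13_1_c10_ok))) (M (nat_lit 405) (B (L (nat_lit 404) ln17_13_2_c10 ln17_13_2_c10_ok) (L (nat_lit 406) ln18_13_2_c10 ln18_13_2_c10_ok))))))) (B (M (nat_lit 436) (B (M (nat_lit 404) (B (L (nat_lit 405) ln17_13_2_c10 ln17_13_2_c10_ok) (L (nat_lit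 403) ln16_13_2_c10 ln16_13_2_c10_ok))) (M (nat_lit 464) (B (L (nat_lit 465) ln20_13_1_c10 ln20_13_1_c10_ok) (L (nat_lit 463) ln19_13_1_c10 ln19_13_1_c10_ok))))) (B (M (nat_lit 403) (B (L (nat_lit 404) ln16_13_2_c10 ln16_13_2_c10_ok) (M (nat_lit 467) (B (L (nat_lit 468) ln16_13_0_c10 ln16_13_0_c10_ok) (M (nat_lit 466) (B (M (nat_lit 498) (B (L (nat_lit 371) ln19_11_5_c10 ln19_11_5_c10_ok) (L (nat_lit 530) ln18_16_6_c10 ln18_16_6_c10_ok))) (M (nat_lit 436) (B (M (nat_lit 437) (B (L (nat_lit 438) ln22_13_1_c10 ln22_13_1_c10_ok) (L (nat_lit 465) ln21_13_1_c10 ln21_13_1_c10_ok))) (M (nat_lit 400) (B (L (nat_lit 401) ln20_13_3_c10 ln20_13_3_c10_ok) (L (nat_lit 399) ln13_12_0 ln13_12_0_ok))))))))))) (B (K (nat_lit 8931394411890933966347733660179601942563841450823800216946752822532690858398586298637961994434524399700878818060857112348965568452155670528) (nat_lit 2667509747761916878594605308315788237956302282636328916108549320045480287482632880639730681883825174714972499277263329336859330758170051084288)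 (nat_lit 2667509747761916878594605308315788237956302282636328916108549320045480287482632880639730681883825174714972499277263329336859330758170051084288) c10_s354) (B (M (nat_lit 436) (B (M (nat_lit 464) (B (L (nat_lit 465) ln20_13_1_c10 ln20_13_1_c10_ok) (L (nat_lit 463) ln19_13_1_c10 ln19_13_1_c10_ok))) (M (nat_lit 468) (B (L (nat_lit 469) ln17_13_0_c10 ln17_13_0_c10_ok) (L (nat_lit 467) ln16_13_0_c10 ln16_13_0_c10_ok))))) (M (nat_lit 431) (B (L (nat_lit 399) ln18_13_3 ln18_13_3_ok) (M (nat_lit 467) (B (L (nat_lit 466) ln15_13_0_c10 ln15_13_0_c10_ok) (L (nat_lit 468) ln16_13_0_c10 ln16_13_0_c10_ok)))))))))))) (B (K (nat_lit 8931394323165503754481658153670348049985162940857813804920622417077344278730704448857942057155343404368412318944338361584051269924982620160) (nat_lit 1500474233287983765309512254173665278008689202896069410842602265006882983527854000357313487738551103821369818517502323617487974304185738854400) (nat_lit 1500474233287983765309512254173665278008689202896069410842602265006882983527854000357313487738551103821369818517502323617487974304185738854400)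 c10_s369) (B (K (nat_lit 8931394323165503754481658153670348049985162940857813804920622417077344278730704448857942057155343404368412318944338361584051269924982620160) (nat_lit 2858046158397935220919912828409751560934563806511194623825912020650188381061635898065435246542552084834077534133008153867781207911591349059584) (nat_lit 2858046158397935220919912828409751560934563806511194623825912020650188381061635898065435246542552084834077534133008153867781207911591349059584) c10_s320) c10_d460)))) (B (M (nat_lit 434) (B (K (nat_lit 8931394323165503754481658153670348049985162940857813804920622417077344278730704448857942057155343404368412318944338361584051269924982620160) (nat_lit 3024765517621964346901948532995003607985733173628040226258575592179010181693417736160027378158129209548882858505279346137053063064282604765184) (nat_lit 3024765517621964346901948532995003607985733173628040226258575592179010181693417736160027378158129209548882858505279346137053063064282604765184) c10_s365)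 (B (K (nat_lit 8931394323165503754481658153670348049985162940857813804920622417077344278730704448857942057155343404368412318944338361584051269924982620160) (nat_lit 9434906065129282733058453803094073926420823893356390362934764421262396775771907856286542875635331493472034614582882524901306007903568939892152080641881207875839222349824) (nat_lit 9434906065129282733058453803094073926420823893356390362934764421262396775771907856286542875635331493472034614582882524901306007903568939892152080641881207875839222349824) c10_s366) (B (K (nat_lit 8931394323165503754481658153670348049985162940857813804920622417077344278730704448857942057155343404368412318944338361584051269924982620160) (nat_lit 1757388201607196826182612564682515148547428076730361732406145185695160805384020559506632083011352563426511481151425941065051328887082955671720652398492917956608) (nat_lit 1757388201607196826182612564682515148547428076730361732406145185695160805384020559506632083011352563426511481151425941065051328887082955671720652398492917956608)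 c10_s367) (B (K (nat_lit 8931394323165503754481658153670348049985162940857813804920622417077344278730704448857942057155343404368412318944338361584051269924982620160) (nat_lit 1757388201402609916023332804975632996894646922863286700399987615249453756146201292127075373739768869101074455828822103112082361178328795244948924650835616464896) (nat_lit 1757388201402609916023332804975632996894646922863286700399987615249453756146201292127075373739768869101074455828822103112082361178328795244948924650835616464896) c10_s328) (B (K (nat_lit 8931394323165503754481658153670348049985162940857813804920622417077344278730704448857942057155343404368412318944338361584051269924982620160) (nat_lit 1757388201402609916047149855938449722621209364103197458267977180827284385504510924766319496770018074948773024762887707843501145364325395302022382882504805711872) (nat_lit 1757388201402609916047149855938449722621209364103197458267977180827284385504510924766319496770018074948773024762887707843501145364325395302022382882504805711872)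 c10_s368) (B (K (nat_lit 8931394323165503754481658153670348049985162940857813804920622417077344278730704448857942057155343404368412318944338361584051269924982620160) (nat_lit 116992835281501279758904573971886685273455131208274396479626926143890502311748657421542169708054835601204261811239623164347157357210747775713194370859455619923084243369984) (nat_lit 116992835281501279758904573971886685273455131208274396479626926143890502311748657421542169708054835601204261811239623164347157357210747775713194370859455619923084243369984) c10_s350) (B (K (nat_lit 8931394323165503754481658153670348049985162940857813804920622417077344278730704448857942057155343404368412318944338361584051269924982620160) (nat_lit 178299497156964602586411520136380274821765081335752938541760408444399225011823258063241552997441753436661369089906686039569747596435424352213802876792773054368320152283907692167168) (nat_lit 178299497156964602586411520136380274821765081335752938541760408444399225011823258063241552997441753436661369089906686039569747596435424352213802876792773054368320152283907692167168)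 c10_s359) (M (nat_lit 399) (B (L (nat_lit 431) ln18_13_3 ln18_13_3_ok) (L (nat_lit 400) ln13_12_0 ln13_12_0_ok))))))))))) (B (M (nat_lit 400) (B (L (nat_lit 399) ln13_12_0 ln13_12_0_ok) (M (nat_lit 464) (B (M (nat_lit 496) (B (M (nat_lit 401) (B (L (nat_lit 528) ln16_16_6_c10 ln16_16_6_c10_ok) (L (nat_lit 369) ln16_15_6_c10 ln16_15_6_c10_ok))) (B (M (nat_lit 368) (B (M (nat_lit 497) (B (L (nat_lit 529) ln16_12_4 ln16_12_4_ok) (L (nat_lit 465) ln16_11_4 ln16_11_4_ok))) (M (nat_lit 369) (B (L (nat_lit 401) ln16_15_6_c10 ln16_15_6_c10_ok) (L (nat_lit 337) ln16_14_6_c10 ln16_14_6_c10_ok))))) (M (nat_lit 528) (B (M (nat_lit 527) (B (L (nat_lit 559) ln16_13_5_c10 ln16_13_5_c10_ok) (L (nat_lit 495) ln16_12_5_c10 ln16_12_5_c10_ok))) (M (nat_lit 529) (B (L (nat_lit 561) ln16_13_4_c10 ln16_13_4_c10_ok) (L (nat_lit 497) ln16_12_4 ln16_12_4_ok)))))))) (B (M (nat_lit 368) (B (M (nat_lit 465) (B (L (nat_lit 336) ln16_10_4_c10 ln16_10_4_c10_ok) (L (nat_lit 497) ln16_11_4 ln16_11_4_ok)))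 (B (M (nat_lit 496) (B (M (nat_lit 369) (B (L (nat_lit 337) ln16_14_6_c10 ln16_14_6_c10_ok) (L (nat_lit 401) ln16_15_6_c10 ln16_15_6_c10_ok))) (M (nat_lit 497) (B (L (nat_lit 465) ln16_11_4 ln16_11_4_ok) (L (nat_lit 529) ln16_12_4 ln16_12_4_ok))))) (M (nat_lit 336) (B (M (nat_lit 335) (B (L (nat_lit 303) ln16_13_7 ln16_13_7_ok) (L (nat_lit 367) ln16_14_7 ln16_14_7_ok))) (M (nat_lit 337) (B (L (nat_lit 305) ln16_13_6_c10 ln16_13_6_c10_ok) (L (nat_lit 369) ln16_14_6_c10 ln16_14_6_c10_ok)))))))) (B (M (nat_lit 496) (B (M (nat_lit 528) (B (L (nat_lit 401) ln16_16_6_c10 ln16_16_6_c10_ok) (M (nat_lit 529) (B (L (nat_lit 561) ln16_13_4_c10 ln16_13_4_c10_ok) (L (nat_lit 497) ln16_12_4 ln16_12_4_ok))))) (B (M (nat_lit 368) (B (M (nat_lit 495) (B (L (nat_lit 527) ln16_12_5_c10 ln16_12_5_c10_ok) (L (nat_lit 463) ln16_11_5_c10 ln16_11_5_c10_ok))) (M (nat_lit 497) (B (L (nat_lit 529) ln16_12_4 ln16_12_4_ok) (L (nat_lit 465) ln16_11_4 ln16_11_4_ok))))) (M (nat_lit 527) (B (L (nat_lit 495)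 ln16_12_5_c10 ln16_12_5_c10_ok) (M (nat_lit 528) (B (L (nat_lit 559) ln16_13_5_c10 ln16_13_5_c10_ok) (L (nat_lit 401) ln16_16_6_c10 ln16_16_6_c10_ok)))))))) c10_d461)))))) c10_d463)))
noncomputable def c10_d465 : Cert := (B (M (nat_lit 434) (B (M (nat_lit 435) (B (K (nat_lit 8931394411890933966347733660179601942563841450823800216946752822532690858398586298637961994434524399700878818060857112348965568452155670528) (nat_lit 5335019495701284617632309641730246798120181316082612394098623694348090444470831470153076260807335020380332271702360729911017763903190054469632) (nat_lit 5335019495701284617632309641730246798120181316082612394098623694348090444470831470153076260807335020380332271702360729911017763903190054469632) c10_s352) (B (K (nat_lit 8931394411890933966347733660179601942563841450823800216946752822532690858398586298637961994434524399700878818060857112348965568452155670528) (nat_lit 5716092316784779763063342397414858171607040057962593110947697829701353989035970745829501927104926181681561938035839699073242452380940620529664)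 (nat_lit 5716092316784779763063342397414858171607040057962593110947697829701353989035970745829501927104926181681561938035839699073242452380940620529664) c10_s353) (B (K (nat_lit 8931394411890933966347733660179601942563841450823800216946752822532690858398586298637961994434524399700878818060857112348965568452155670528) (nat_lit 2667509747761916878594605308315788237956302282636328916108549320045480287482632880639730681883825174714972499277263329336859330758170051084288) (nat_lit 2667509747761916878594605308315788237956302282636328916108549320045480287482632880639730681883825174714972499277263329336859330758170051084288) c10_s354) (B (K (nat_lit 8931394411890933966347733660179601942563841450823800216946752822532690858398586298637961994434524399700878818060857112348965568452155670528) (nat_lit 60383398821748096455501412079459437864893767795890438064777845282493161465051203486758286981630539562753864460485500502180529353093361765170149315011841342766109480189952) (nat_lit 60383398821748096455501412079459437864893767795890438064777845282493161465051203486758286981630539562753864460485500502180529353093361765170149315011841342766109480189952)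 c10_s355) (B (K (nat_lit 8931394411890933966347733660179601942563841450823800216946752822532690858398586298637961994434524399700878818060857112348965568452155670528) (nat_lit 3514776402805219826711646114771243279250779369313231262098866898567044043208924149974490319140968044633960516289731531345488413297598385132753492800005738594304) (nat_lit 3514776402805219826711646114771243279250779369313231262098866898567044043208924149974490319140968044633960516289731531345488413297598385132753492800005738594304) c10_s356) (K (nat_lit 8931394411890933966347733660179601942563841450823800216946752822532690858398586298637961994434524399700878818060857112348965568452155670528) (nat_lit 3514776402805219832046665609940175315012810586288259744063402895685161763990899317953468829157079252970926409165484308599748164044268025646052235014355336298496) (nat_lit 3514776402805219832046665609940175315012810586288259744063402895685161763990899317953468829157079252970926409165484308599748164044268025646052235014355336298496)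 c10_s357))))))) c10_d455)) (B (M (nat_lit 434) (B (M (nat_lit 399) (B (L (nat_lit 431) ln18_13_3 ln18_13_3_ok) (L (nat_lit 400) ln13_12_0 ln13_12_0_ok))) (B (K (nat_lit 8931394323165503754481658153670348049985162940857813804920622417077344278730704448857942057155343404368412318944338361584051269924982620160) (nat_lit 3514776404441915132850885770031955481404650436055630624304407588884775238942867984012250340750425311733717383336133668029976061543808264903816786153408605192192) (nat_lit 3514776404441915132850885770031955481404650436055630624304407588884775238942867984012250340750425311733717383336133668029976061543808264903816786153408605192192) c10_s322) (K (nat_lit 8931394323165503754481658153670348049985162940857813804920622417077344278730704448857942057155343404368412318944338361584051269924982620160) (nat_lit 7029552806019613481029869450508948361856703989967823963373201306549228913779275157935294531269300559572710493300911117032603956149764202372018976358843908358144)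 (nat_lit 7029552806019613481029869450508948361856703989967823963373201306549228913779275157935294531269300559572710493300911117032603956149764202372018976358843908358144) c10_s323)))) (B (M (nat_lit 434) c10_d458) (B (M (nat_lit 434) (B (K (nat_lit 8931394323165503754481658153670348049985162940857813804920622417077344278730704448857942057155343404368412318944338361584051269924982620160) (nat_lit 2858046158397935220919912828409751560934563806511194623825912020650188381061635898065435246542552084834077534133008153867781207911591349059584) (nat_lit 2858046158397935220919912828409751560934563806511194623825912020650188381061635898065435246542552084834077534133008153867781207911591349059584) c10_s320) (B (K (nat_lit 8931394323165503754481658153670348049985162940857813804920622417077344278730704448857942057155343404368412318944338361584051269924982620160) (nat_lit 2667509747856187648214079887627106134639586522343190365728799877047495769569759950279176810232310613482235585082175664245316325990150778650624)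 (nat_lit 2667509747856187648214079887627106134639586522343190365728799877047495769569759950279176810232310613482235585082175664245316325990150778650624) c10_s321) (B (K (nat_lit 8931394323165503754481658153670348049985162940857813804920622417077344278730704448857942057155343404368412318944338361584051269924982620160) (nat_lit 3514776404441915132850885770031955481404650436055630624304407588884775238942867984012250340750425311733717383336133668029976061543808264903816786153408605192192) (nat_lit 3514776404441915132850885770031955481404650436055630624304407588884775238942867984012250340750425311733717383336133668029976061543808264903816786153408605192192) c10_s322) (B (K (nat_lit 8931394323165503754481658153670348049985162940857813804920622417077344278730704448857942057155343404368412318944338361584051269924982620160) (nat_lit 3514776402805219828902814834853455111951486963825495474757298621329577105044376796039635890888125159604706566097768145831658483676991846621905834619249469947904)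 (nat_lit 3514776402805219828902814834853455111951486963825495474757298621329577105044376796039635890888125159604706566097768145831658483676991846621905834619249469947904) c10_s337) (B (K (nat_lit 8931394323165503754481658153670348049985162940857813804920622417077344278730704448857942057155343404368412318944338361584051269924982620160) (nat_lit 2858046158397935220922495078287838469524219725683197635700241726443017604574466557421975894164568926028707179486288291699217111083564096552960) (nat_lit 2858046158397935220922495078287838469524219725683197635700241726443017604574466557421975894164568926028707179486288291699217111083564096552960) c10_s364) (B (K (nat_lit 8931394323165503754481658153670348049985162940857813804920622417077344278730704448857942057155343404368412318944338361584051269924982620160) (nat_lit 2858046158397935220847609831823318120424198069695110291344680258450970122702377436082297113126080531384447464241164294587575919096354419245056) (nat_lit 2858046158397935220847609831823318120424198069695110291344680258450970122702377436082297113126080531384447464241164294587575919096354419245056)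 c10_s324) (B (K (nat_lit 8931394323165503754481658153670348049985162940857813804920622417077344278730704448857942057155343404368412318944338361584051269924982620160) (nat_lit 3514776402805219827378523550519474530222191441465550989528490934481446660288929061847559846542536477905338351711297456788774239965367519036237877744596986888192) (nat_lit 3514776402805219827378523550519474530222191441465550989528490934481446660288929061847559846542536477905338351711297456788774239965367519036237877744596986888192) c10_s325) (M (nat_lit 399) (B (L (nat_lit 431) ln18_13_3 ln18_13_3_ok) (L (nat_lit 400) ln13_12_0 ln13_12_0_ok))))))))))) (B (M (nat_lit 434) c10_d459) c10_d464)))))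
noncomputable def c10_d466 : Cert := (B (M (nat_lit 434) (B (K (nat_lit 8931394323165503754481658153670348049985162940857813804920622417077344278730704448857942057155343404368412318944338361584051269924982620160) (nat_lit 2858046158397935220919912828409751560934563806511194623825912020650188381061635898065435246542552084834077534133008153867781207911591349059584) (nat_lit 2858046158397935220919912828409751560934563806511194623825912020650188381061635898065435246542552084834077534133008153867781207911591349059584) c10_s320) (B (K (nat_lit 8931394323165503754481658153670348049985162940857813804920622417077344278730704448857942057155343404368412318944338361584051269924982620160) (nat_lit 2667509747856187648214079887627106134639586522343190365728799877047495769569759950279176810232310613482235585082175664245316325990150778650624) (nat_lit 2667509747856187648214079887627106134639586522343190365728799877047495769569759950279176810232310613482235585082175664245316325990150778650624)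 c10_s321) (B (K (nat_lit 8931394323165503754481658153670348049985162940857813804920622417077344278730704448857942057155343404368412318944338361584051269924982620160) (nat_lit 3514776404441915132850885770031955481404650436055630624304407588884775238942867984012250340750425311733717383336133668029976061543808264903816786153408605192192) (nat_lit 3514776404441915132850885770031955481404650436055630624304407588884775238942867984012250340750425311733717383336133668029976061543808264903816786153408605192192) c10_s322) (B (K (nat_lit 8931394323165503754481658153670348049985162940857813804920622417077344278730704448857942057155343404368412318944338361584051269924982620160) (nat_lit 7029552806019613481029869450508948361856703989967823963373201306549228913779275157935294531269300559572710493300911117032603956149764202372018976358843908358144) (nat_lit 7029552806019613481029869450508948361856703989967823963373201306549228913779275157935294531269300559572710493300911117032603956149764202372018976358843908358144)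 c10_s323) (B (K (nat_lit 8931394323165503754481658153670348049985162940857813804920622417077344278730704448857942057155343404368412318944338361584051269924982620160) (nat_lit 2858046158397935220847609831823318120424198069695110291344680258450970122702377436082297113126080531384447464241164294587575919096354419245056) (nat_lit 2858046158397935220847609831823318120424198069695110291344680258450970122702377436082297113126080531384447464241164294587575919096354419245056) c10_s324) (B (K (nat_lit 8931394323165503754481658153670348049985162940857813804920622417077344278730704448857942057155343404368412318944338361584051269924982620160) (nat_lit 3514776402805219827378523550519474530222191441465550989528490934481446660288929061847559846542536477905338351711297456788774239965367519036237877744596986888192) (nat_lit 3514776402805219827378523550519474530222191441465550989528490934481446660288929061847559846542536477905338351711297456788774239965367519036237877744596986888192) c10_s325)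 (B (K (nat_lit 8931394323165503754481658153670348049985162940857813804920622417077344278730704448857942057155343404368412318944338361584051269924982620160) (nat_lit 37739624260517130932233815203992693640787242550884232796548580410252810875245112558803146053664845070755352894582892599572400205525288089531275415718134158180682083336192) (nat_lit 37739624260517130932233815203992693640787242550884232796548580410252810875245112558803146053664845070755352894582892599572400205525288089531275415718134158180682083336192) c10_s326) (B (K (nat_lit 8931394323165503754481658153670348049985162940857813804920622417077344278730704448857942057155343404368412318944338361584051269924982620160) (nat_lit 1757388201402609913355823057391166979012985751906250732270305636897394142786631281689378812853505600093456347485441504186295074466673940530440577750667630739456) (nat_lit 1757388201402609913355823057391166979012985751906250732270305636897394142786631281689378812853505600093456347485441504186295074466673940530440577750667630739456)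 c10_s327) (K (nat_lit 8931394323165503754481658153670348049985162940857813804920622417077344278730704448857942057155343404368412318944338361584051269924982620160) (nat_lit 1757388201402609916023332804975632996894646922863286700399987615249453756146201292127075373739768869101074455828822103112082361178328795244948924650835616464896) (nat_lit 1757388201402609916023332804975632996894646922863286700399987615249453756146201292127075373739768869101074455828822103112082361178328795244948924650835616464896) c10_s328)))))))))) (B (M (nat_lit 434) (B (K (nat_lit 8931394323165503754481658153670348049985162940857813804920622417077344278730704448857942057155343404368412318944338361584051269924982620160) (nat_lit 2858046158397935220919912828409751560934563806511194623825912020650188381061635898065435246542552084834077534133008153867781207911591349059584) (nat_lit 2858046158397935220919912828409751560934563806511194623825912020650188381061635898065435246542552084834077534133008153867781207911591349059584)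 c10_s320) (B (K (nat_lit 8931394323165503754481658153670348049985162940857813804920622417077344278730704448857942057155343404368412318944338361584051269924982620160) (nat_lit 2667509747856187648214079887627106134639586522343190365728799877047495769569759950279176810232310613482235585082175664245316325990150778650624) (nat_lit 2667509747856187648214079887627106134639586522343190365728799877047495769569759950279176810232310613482235585082175664245316325990150778650624) c10_s321) (B (K (nat_lit 8931394323165503754481658153670348049985162940857813804920622417077344278730704448857942057155343404368412318944338361584051269924982620160) (nat_lit 3514776404441915132850885770031955481404650436055630624304407588884775238942867984012250340750425311733717383336133668029976061543808264903816786153408605192192) (nat_lit 3514776404441915132850885770031955481404650436055630624304407588884775238942867984012250340750425311733717383336133668029976061543808264903816786153408605192192) c10_s322)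 (B (K (nat_lit 8931394323165503754481658153670348049985162940857813804920622417077344278730704448857942057155343404368412318944338361584051269924982620160) (nat_lit 7029552806019613481029869450508948361856703989967823963373201306549228913779275157935294531269300559572710493300911117032603956149764202372018976358843908358144) (nat_lit 7029552806019613481029869450508948361856703989967823963373201306549228913779275157935294531269300559572710493300911117032603956149764202372018976358843908358144) c10_s323) (B (K (nat_lit 8931394323165503754481658153670348049985162940857813804920622417077344278730704448857942057155343404368412318944338361584051269924982620160) (nat_lit 2858046158397935220847609831823318120424198069695110291344680258450970122702377436082297113126080531384447464241164294587575919096354419245056) (nat_lit 2858046158397935220847609831823318120424198069695110291344680258450970122702377436082297113126080531384447464241164294587575919096354419245056) c10_s324) (B (K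 (nat_lit 8931394323165503754481658153670348049985162940857813804920622417077344278730704448857942057155343404368412318944338361584051269924982620160) (nat_lit 3514776402805219827378523550519474530222191441465550989528490934481446660288929061847559846542536477905338351711297456788774239965367519036237877744596986888192) (nat_lit 3514776402805219827378523550519474530222191441465550989528490934481446660288929061847559846542536477905338351711297456788774239965367519036237877744596986888192) c10_s325) (B (M (nat_lit 435) (B (M (nat_lit 436) (B (M (nat_lit 404) (B (L (nat_lit 405) ln17_13_2_c10 ln17_13_2_c10_ok) (L (nat_lit 403) ln16_13_2_c10 ln16_13_2_c10_ok))) (M (nat_lit 400) (B (L (nat_lit 401) ln20_13_3_c10 ln20_13_3_c10_ok) (L (nat_lit 399) ln13_12_0 ln13_12_0_ok))))) (B (M (nat_lit 431) (B (M (nat_lit 403) (B (L (nat_lit 404) ln16_13_2_c10 ln16_13_2_c10_ok) (L (nat_lit 402) ln15_13_2_c10 ln15_13_2_c10_ok))) (L (nat_lit 399) ln18_13_3 ln18_13_3_ok))) (B (M (nat_lit 436) (B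 (M (nat_lit 400) (B (L (nat_lit 401) ln20_13_3_c10 ln20_13_3_c10_ok) (L (nat_lit 399) ln13_12_0 ln13_12_0_ok))) (M (nat_lit 437) (B (M (nat_lit 469) (B (L (nat_lit 470) ln18_13_0_c10 ln18_13_0_c10_ok) (L (nat_lit 468) ln17_13_0_c10 ln17_13_0_c10_ok))) (M (nat_lit 465) (B (L (nat_lit 466) ln21_13_1_c10 ln21_13_1_c10_ok) (L (nat_lit 464) ln20_13_1_c10 ln20_13_1_c10_ok))))))) (M (nat_lit 436) (B (M (nat_lit 404) (B (L (nat_lit 405) ln17_13_2_c10 ln17_13_2_c10_ok) (L (nat_lit 403) ln16_13_2_c10 ln16_13_2_c10_ok))) (M (nat_lit 437) (B (M (nat_lit 469) (B (L (nat_lit 470) ln18_13_0_c10 ln18_13_0_c10_ok) (L (nat_lit 468) ln17_13_0_c10 ln17_13_0_c10_ok))) (M (nat_lit 465) (B (L (nat_lit 466) ln21_13_1_c10 ln21_13_1_c10_ok) (L (nat_lit 464) ln20_13_1_c10 ln20_13_1_c10_ok))))))))))) c10_d452)))))))) (B (K (nat_lit 8931394278802788648548620400415721103695823685874820598907557214349670988896763523967932088515752906702179069386078986201594120661396094976) (nat_lit 64836181001525147852546975900808713548080762161629049539427780988249205572367002142219686432436084060755223437216775147789110703067327211670365443603158786991405048277069316751360)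 (nat_lit 64836181001525147852546975900808713548080762161629049539427780988249205572367002142219686432436084060755223437216775147789110703067327211670365443603158786991405048277069316751360) c10_s351) (B (M (nat_lit 434) c10_d453) c10_d465))))
noncomputable def c10_d467 : Cert := (B (M (nat_lit 434) (B (M (nat_lit 435) (B (M (nat_lit 464) (B (L (nat_lit 463) ln19_13_1_c10 ln19_13_1_c10_ok) (M (nat_lit 436) (B (L (nat_lit 465) ln20_13_1_c10 ln20_13_1_c10_ok) (M (nat_lit 400) (B (L (nat_lit 399) ln13_12_0 ln13_12_0_ok) (L (nat_lit 401) ln20_13_3_c10 ln20_13_3_c10_ok))))))) (M (nat_lit 431) (B (M (nat_lit 467) (B (L (nat_lit 466) ln15_13_0_c10 ln15_13_0_c10_ok) (L (nat_lit 468) ln16_13_0_c10 ln16_13_0_c10_ok))) (M (nat_lit 403) (B (L (nat_lit 402) ln15_13_2_c10 ln15_13_2_c10_ok) (L (nat_lit 404) ln16_13_2_c10 ln16_13_2_c10_ok))))))) (B (M (nat_lit 435) (B (M (nat_lit 436) (B (M (nat_lit 400) (B (L (nat_lit 399) ln13_12_0 ln13_12_0_ok) (L (nat_lit 401) ln20_13_3_c10 ln20_13_3_c10_ok)))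 (M (nat_lit 468) (B (L (nat_lit 467) ln16_13_0_c10 ln16_13_0_c10_ok) (L (nat_lit 469) ln17_13_0_c10 ln17_13_0_c10_ok))))) (B (M (nat_lit 436) (B (M (nat_lit 468) (B (L (nat_lit 467) ln16_13_0_c10 ln16_13_0_c10_ok) (L (nat_lit 469) ln17_13_0_c10 ln17_13_0_c10_ok))) (M (nat_lit 404) (B (L (nat_lit 403) ln16_13_2_c10 ln16_13_2_c10_ok) (L (nat_lit 405) ln17_13_2_c10 ln17_13_2_c10_ok))))) (B (M (nat_lit 436) (B (M (nat_lit 400) (B (L (nat_lit 399) ln13_12_0 ln13_12_0_ok) (L (nat_lit 401) ln20_13_3_c10 ln20_13_3_c10_ok))) (M (nat_lit 404) (B (L (nat_lit 403) ln16_13_2_c10 ln16_13_2_c10_ok) (L (nat_lit 405) ln17_13_2_c10 ln17_13_2_c10_ok))))) (M (nat_lit 431) (B (M (nat_lit 467) (B (L (nat_lit 466) ln15_13_0_c10 ln15_13_0_c10_ok) (L (nat_lit 468) ln16_13_0_c10 ln16_13_0_c10_ok))) (M (nat_lit 403) (B (L (nat_lit 402) ln15_13_2_c10 ln15_13_2_c10_ok) (L (nat_lit 404) ln16_13_2_c10 ln16_13_2_c10_ok))))))))) (B (M (nat_lit 435) (B (M (nat_lit 464) (B (L (nat_lit 463) ln19_13_1_c10 ln19_13_1_c10_ok)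 (M (nat_lit 436) (B (L (nat_lit 465) ln20_13_1_c10 ln20_13_1_c10_ok) (M (nat_lit 400) (B (L (nat_lit 399) ln13_12_0 ln13_12_0_ok) (L (nat_lit 401) ln20_13_3_c10 ln20_13_3_c10_ok))))))) (B (M (nat_lit 436) (B (M (nat_lit 400) (B (L (nat_lit 399) ln13_12_0 ln13_12_0_ok) (L (nat_lit 401) ln20_13_3_c10 ln20_13_3_c10_ok))) (M (nat_lit 468) (B (L (nat_lit 467) ln16_13_0_c10 ln16_13_0_c10_ok) (L (nat_lit 469) ln17_13_0_c10 ln17_13_0_c10_ok))))) (B (M (nat_lit 436) (B (M (nat_lit 464) (B (L (nat_lit 463) ln19_13_1_c10 ln19_13_1_c10_ok) (L (nat_lit 465) ln20_13_1_c10 ln20_13_1_c10_ok))) (M (nat_lit 468) (B (L (nat_lit 467) ln16_13_0_c10 ln16_13_0_c10_ok) (L (nat_lit 469) ln17_13_0_c10 ln17_13_0_c10_ok))))) (M (nat_lit 467) (B (L (nat_lit 468) ln16_13_0_c10 ln16_13_0_c10_ok) (M (nat_lit 403) (B (L (nat_lit 404) ln16_13_2_c10 ln16_13_2_c10_ok) (M (nat_lit 499) (B (M (nat_lit 402) (B (L (nat_lit 531) ln19_16_7_c10 ln19_16_7_c10_ok) (L (nat_lit 370) ln19_15_7_c10 ln19_15_7_c10_ok))) (B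 (M (nat_lit 531) (B (M (nat_lit 530) (B (L (nat_lit 562) ln19_13_5_c10 ln19_13_5_c10_ok) (L (nat_lit 498) ln19_12_5_c10 ln19_12_5_c10_ok))) (M (nat_lit 532) (B (L (nat_lit 564) ln19_13_4_c10 ln19_13_4_c10_ok) (L (nat_lit 500) ln19_12_4_c10 ln19_12_4_c10_ok))))) (M (nat_lit 371) (B (M (nat_lit 498) (B (L (nat_lit 530) ln19_12_5_c10 ln19_12_5_c10_ok) (L (nat_lit 466) ln19_11_5_c10 ln19_11_5_c10_ok))) (M (nat_lit 370) (B (L (nat_lit 402) ln19_15_7_c10 ln19_15_7_c10_ok) (L (nat_lit 338) ln19_14_7_c10 ln19_14_7_c10_ok)))))))))))))))) (B (M (nat_lit 435) (B (M (nat_lit 436) (B (M (nat_lit 464) (B (L (nat_lit 463) ln19_13_1_c10 ln19_13_1_c10_ok) (L (nat_lit 465) ln20_13_1_c10 ln20_13_1_c10_ok))) (M (nat_lit 404) (B (L (nat_lit 403) ln16_13_2_c10 ln16_13_2_c10_ok) (L (nat_lit 405) ln17_13_2_c10 ln17_13_2_c10_ok))))) (B (M (nat_lit 436) (B (M (nat_lit 468) (B (L (nat_lit 467) ln16_13_0_c10 ln16_13_0_c10_ok) (L (nat_lit 469) ln17_13_0_c10 ln17_13_0_c10_ok))) (M (nat_lit 404) (B (L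 (nat_lit 403) ln16_13_2_c10 ln16_13_2_c10_ok) (L (nat_lit 405) ln17_13_2_c10 ln17_13_2_c10_ok))))) (B (M (nat_lit 436) (B (M (nat_lit 464) (B (L (nat_lit 463) ln19_13_1_c10 ln19_13_1_c10_ok) (L (nat_lit 465) ln20_13_1_c10 ln20_13_1_c10_ok))) (M (nat_lit 468) (B (L (nat_lit 467) ln16_13_0_c10 ln16_13_0_c10_ok) (L (nat_lit 469) ln17_13_0_c10 ln17_13_0_c10_ok))))) (M (nat_lit 431) (B (M (nat_lit 467) (B (L (nat_lit 466) ln15_13_0_c10 ln15_13_0_c10_ok) (L (nat_lit 468) ln16_13_0_c10 ln16_13_0_c10_ok))) (M (nat_lit 403) (B (L (nat_lit 402) ln15_13_2_c10 ln15_13_2_c10_ok) (L (nat_lit 404) ln16_13_2_c10 ln16_13_2_c10_ok))))))))) (B (M (nat_lit 435) (B (M (nat_lit 436) (B (M (nat_lit 464) (B (L (nat_lit 463) ln19_13_1_c10 ln19_13_1_c10_ok) (L (nat_lit 465) ln20_13_1_c10 ln20_13_1_c10_ok))) (M (nat_lit 468) (B (L (nat_lit 467) ln16_13_0_c10 ln16_13_0_c10_ok) (L (nat_lit 469) ln17_13_0_c10 ln17_13_0_c10_ok))))) (B (M (nat_lit 436) (B (M (nat_lit 468) (B (L (nat_lit 467) ln16_13_0_c10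 ln16_13_0_c10_ok) (L (nat_lit 469) ln17_13_0_c10 ln17_13_0_c10_ok))) (M (nat_lit 404) (B (L (nat_lit 403) ln16_13_2_c10 ln16_13_2_c10_ok) (L (nat_lit 405) ln17_13_2_c10 ln17_13_2_c10_ok))))) (B (M (nat_lit 436) (B (M (nat_lit 464) (B (L (nat_lit 463) ln19_13_1_c10 ln19_13_1_c10_ok) (L (nat_lit 465) ln20_13_1_c10 ln20_13_1_c10_ok))) (M (nat_lit 404) (B (L (nat_lit 403) ln16_13_2_c10 ln16_13_2_c10_ok) (L (nat_lit 405) ln17_13_2_c10 ln17_13_2_c10_ok))))) (M (nat_lit 431) (B (L (nat_lit 399) ln18_13_3 ln18_13_3_ok) (M (nat_lit 403) (B (L (nat_lit 402) ln15_13_2_c10 ln15_13_2_c10_ok) (L (nat_lit 404) ln16_13_2_c10 ln16_13_2_c10_ok))))))))) (B (M (nat_lit 435) (B (M (nat_lit 431) (B (L (nat_lit 399) ln18_13_3 ln18_13_3_ok) (M (nat_lit 467) (B (L (nat_lit 466) ln15_13_0_c10 ln15_13_0_c10_ok) (L (nat_lit 468) ln16_13_0_c10 ln16_13_0_c10_ok))))) (M (nat_lit 436) (B (M (nat_lit 464) (B (L (nat_lit 463) ln19_13_1_c10 ln19_13_1_c10_ok) (L (nat_lit 465) ln20_13_1_c10 ln20_13_1_c10_ok)))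 (M (nat_lit 404) (B (L (nat_lit 403) ln16_13_2_c10 ln16_13_2_c10_ok) (L (nat_lit 405) ln17_13_2_c10 ln17_13_2_c10_ok))))))) c10_d449))))))) (B (M (nat_lit 434) (B (M (nat_lit 435) (B (M (nat_lit 436) (B (M (nat_lit 464) (B (L (nat_lit 463) ln19_13_1_c10 ln19_13_1_c10_ok) (L (nat_lit 465) ln20_13_1_c10 ln20_13_1_c10_ok))) (M (nat_lit 400) (B (L (nat_lit 399) ln13_12_0 ln13_12_0_ok) (L (nat_lit 401) ln20_13_3_c10 ln20_13_3_c10_ok))))) (M (nat_lit 431) (B (M (nat_lit 467) (B (L (nat_lit 466) ln15_13_0_c10 ln15_13_0_c10_ok) (L (nat_lit 468) ln16_13_0_c10 ln16_13_0_c10_ok))) (M (nat_lit 403) (B (L (nat_lit 402) ln15_13_2_c10 ln15_13_2_c10_ok) (L (nat_lit 404) ln16_13_2_c10 ln16_13_2_c10_ok))))))) (B (M (nat_lit 435) (B (M (nat_lit 431) (B (M (nat_lit 467) (B (L (nat_lit 466) ln15_13_0_c10 ln15_13_0_c10_ok) (L (nat_lit 468) ln16_13_0_c10 ln16_13_0_c10_ok))) (M (nat_lit 403) (B (L (nat_lit 402) ln15_13_2_c10 ln15_13_2_c10_ok) (L (nat_lit 404) ln16_13_2_c10 ln16_13_2_c10_ok)))))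 (B (M (nat_lit 436) (B (M (nat_lit 400) (B (L (nat_lit 399) ln13_12_0 ln13_12_0_ok) (L (nat_lit 401) ln20_13_3_c10 ln20_13_3_c10_ok))) (M (nat_lit 404) (B (L (nat_lit 403) ln16_13_2_c10 ln16_13_2_c10_ok) (L (nat_lit 405) ln17_13_2_c10 ln17_13_2_c10_ok))))) (M (nat_lit 431) (B (L (nat_lit 399) ln18_13_3 ln18_13_3_ok) (M (nat_lit 467) (B (L (nat_lit 466) ln15_13_0_c10 ln15_13_0_c10_ok) (L (nat_lit 468) ln16_13_0_c10 ln16_13_0_c10_ok)))))))) c10_d451))) c10_d466))
theorem c10_s372 : Sem (nat_lit 8931394256621431095582101523788407630551154058383323995901024612985834343979793061522927104195957657869062444606949298510365546029602832384) (nat_lit 243135678103767295251367282257595340812460076887132808928307592625805096140307170508299983281842340167335286666077666895048990070193510197399418160696506231726911857702620241068032) (nat_lit 243135678103767295251367282257595340812460076887132808928307592625805096140307170508299983281842340167335286666077666895048990070193510197399418160696506231726911857702620241068032)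 :=
  sem_of_chk (M (nat_lit 433) c10_d467) (nat_lit 8931394256621431095582101523788407630551154058383323995901024612985834343979793061522927104195957657869062444606949298510365546029602832384) (nat_lit 243135678103767295251367282257595340812460076887132808928307592625805096140307170508299983281842340167335286666077666895048990070193510197399418160696506231726911857702620241068032) (nat_lit 243135678103767295251367282257595340812460076887132808928307592625805096140307170508299983281842340167335286666077666895048990070193510197399418160696506231726911857702620241068032) (by decide +kernel)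
noncomputable def c10_d468 : Cert := (B (M (nat_lit 338) (B (M (nat_lit 367) (B (L (nat_lit 339) ln19_10_1_c10 ln19_10_1_c10_ok) (M (nat_lit 366) (B (L (nat_lit 369) ln14_11_2 ln14_11_2_ok) (L (nat_lit 365) ln13_11_2 ln13_11_2_ok))))) (B (M (nat_lit 367) (B (L (nat_lit 339) ln19_10_1_c10 ln19_10_1_c10_ok) (M (nat_lit 366) (B (L (nat_lit 365) ln13_11_2 ln13_11_2_ok) (L (nat_lit 335) ln18_10_1 ln18_10_1_ok))))) (B (M (nat_lit 339) (B (M (nat_lit 340) (B (L (nat_lit 369) ln20_10_1_c10 ln20_10_1_c10_ok) (M (nat_lit 372) (B (L (nat_lit 373) ln17_10_0_c10 ln17_10_0_c10_ok) (L (nat_lit 371) ln16_10_0_c10 ln16_10_0_c10_ok))))) (B (M (nat_lit 340) (B (L (nat_lit 369) ln20_10_1_c10 ln20_10_1_c10_ok) (M (nat_lit 308) (B (L (nat_lit 309) ln17_10_2_c10 ln17_10_2_c10_ok) (L (nat_lit 307) ln16_10_2_c10 ln16_10_2_c10_ok))))) (M (nat_lit 335) (B (M (nat_lit 371) (B (L (nat_lit 372) ln16_10_0_c10 ln16_10_0_c10_ok) (L (nat_lit 370) ln15_10_0_c10 ln15_10_0_c10_ok))) (M (nat_lit 307) (B (L (nat_lit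 308) ln16_10_2_c10 ln16_10_2_c10_ok) (L (nat_lit 306) ln15_10_2_c10 ln15_10_2_c10_ok)))))))) (M (nat_lit 370) (B (M (nat_lit 371) (B (L (nat_lit 335) ln15_10_0_c10 ln15_10_0_c10_ok) (M (nat_lit 372) (B (L (nat_lit 373) ln21_11_3_c10 ln21_11_3_c10_ok) (L (nat_lit 369) ln20_11_3_c10 ln20_11_3_c10_ok))))) (B (M (nat_lit 335) (B (L (nat_lit 371) ln15_10_0_c10 ln15_10_0_c10_ok) (M (nat_lit 366) (B (L (nat_lit 367) ln18_10_1 ln18_10_1_ok) (M (nat_lit 334) (B (L (nat_lit 369) ln14_10_0 ln14_10_0_ok) (L (nat_lit 365) ln17_10_1 ln17_10_1_ok))))))) (B (M (nat_lit 335) (B (M (nat_lit 366) (B (L (nat_lit 367) ln18_10_1 ln18_10_1_ok) (M (nat_lit 334) (B (L (nat_lit 369) ln14_10_0 ln14_10_0_ok) (L (nat_lit 365) ln17_10_1 ln17_10_1_ok))))) (B (M (nat_lit 334) (B (M (nat_lit 366) (B (L (nat_lit 367) ln18_10_1 ln18_10_1_ok) (L (nat_lit 365) ln17_10_1 ln17_10_1_ok))) (M (nat_lit 306) (B (L (nat_lit 307) ln15_10_2_c10 ln15_10_2_c10_ok) (L (nat_lit 305) ln14_10_2_c10 ln14_10_2_c10_ok))))) (B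 (M (nat_lit 334) (B (L (nat_lit 369) ln14_10_0 ln14_10_0_ok) (M (nat_lit 306) (B (L (nat_lit 307) ln15_10_2_c10 ln15_10_2_c10_ok) (L (nat_lit 305) ln14_10_2_c10 ln14_10_2_c10_ok))))) (M (nat_lit 402) (B (M (nat_lit 305) (B (L (nat_lit 434) ln18_13_7_c10 ln18_13_7_c10_ok) (M (nat_lit 306) (B (L (nat_lit 273) ln18_12_7_c10 ln18_12_7_c10_ok) (L (nat_lit 307) ln15_10_2_c10 ln15_10_2_c10_ok))))) (B (M (nat_lit 403) (B (M (nat_lit 306) (B (L (nat_lit 435) ln18_9_4_c10 ln18_9_4_c10_ok) (L (nat_lit 307) ln15_10_2_c10 ln15_10_2_c10_ok))) (M (nat_lit 367) (B (L (nat_lit 369) ln15_11_0_c10 ln15_11_0_c10_ok) (L (nat_lit 366) ln18_10_1 ln18_10_1_ok))))) (B (M (nat_lit 305) (B (L (nat_lit 434) ln18_13_7_c10 ln18_13_7_c10_ok) (M (nat_lit 273) (B (L (nat_lit 369) ln17_8_4_c10 ln17_8_4_c10_ok) (L (nat_lit 306) ln18_12_7_c10 ln18_12_7_c10_ok))))) (M (nat_lit 305) (B (L (nat_lit 434) ln18_13_7_c10 ln18_13_7_c10_ok) (M (nat_lit 273) (B (L (nat_lit 369) ln17_8_4_c10 ln17_8_4_c10_ok) (L (nat_lit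 304) ln16_12_6_c10 ln16_12_6_c10_ok))))))))))))) (B (M (nat_lit 305) (B (M (nat_lit 273) (B (L (nat_lit 304) ln16_12_6_c10 ln16_12_6_c10_ok) (L (nat_lit 241) ln17_7_4_c10 ln17_7_4_c10_ok))) (M (nat_lit 335) (B (L (nat_lit 371) ln15_10_0_c10 ln15_10_0_c10_ok) (M (nat_lit 306) (B (L (nat_lit 307) ln15_10_2_c10 ln15_10_2_c10_ok) (L (nat_lit 334) ln14_10_2_c10 ln14_10_2_c10_ok))))))) (M (nat_lit 402) (B (M (nat_lit 305) (B (L (nat_lit 434) ln18_13_7_c10 ln18_13_7_c10_ok) (M (nat_lit 273) (B (L (nat_lit 369) ln17_8_4_c10 ln17_8_4_c10_ok) (L (nat_lit 306) ln18_12_7_c10 ln18_12_7_c10_ok))))) (B (M (nat_lit 306) (B (M (nat_lit 305) (B (L (nat_lit 273) ln18_12_7_c10 ln18_12_7_c10_ok) (M (nat_lit 307) (B (L (nat_lit 275) ln18_12_6_c10 ln18_12_6_c10_ok) (L (nat_lit 308) ln20_9_1_c10 ln20_9_1_c10_ok))))) (M (nat_lit 371) (B (M (nat_lit 403) (B (L (nat_lit 435) ln18_9_4_c10 ln18_9_4_c10_ok) (L (nat_lit 274) ln18_8_4_c10 ln18_8_4_c10_ok))) (M (nat_lit 372) (B (L (nat_lit 373) ln21_11_3_c10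 ln21_11_3_c10_ok) (L (nat_lit 369) ln20_11_3_c10 ln20_11_3_c10_ok))))))) (B (M (nat_lit 305) (B (L (nat_lit 434) ln18_13_7_c10 ln18_13_7_c10_ok) (M (nat_lit 273) (B (L (nat_lit 306) ln18_12_7_c10 ln18_12_7_c10_ok) (L (nat_lit 304) ln16_12_6_c10 ln16_12_6_c10_ok))))) (B (M (nat_lit 305) (B (L (nat_lit 434) ln18_13_7_c10 ln18_13_7_c10_ok) (M (nat_lit 273) (B (L (nat_lit 369) ln17_8_4_c10 ln17_8_4_c10_ok) (L (nat_lit 304) ln16_12_6_c10 ln16_12_6_c10_ok))))) (M (nat_lit 403) (B (M (nat_lit 435) (B (L (nat_lit 306) ln18_9_4_c10 ln18_9_4_c10_ok) (M (nat_lit 467) (B (L (nat_lit 499) ln19_15_7_c10 ln19_15_7_c10_ok) (L (nat_lit 371) ln19_14_7_c10 ln19_14_7_c10_ok))))) (B (M (nat_lit 435) (B (L (nat_lit 306) ln18_9_4_c10 ln18_9_4_c10_ok) (M (nat_lit 467) (B (L (nat_lit 434) ln18_10_4_c10 ln18_10_4_c10_ok) (L (nat_lit 371) ln19_14_7_c10 ln19_14_7_c10_ok))))) (B (M (nat_lit 369) (B (L (nat_lit 367) ln15_11_0_c10 ln15_11_0_c10_ok) (M (nat_lit 404) (B (L (nat_lit 405) ln21_12_3_c10 ln21_12_3_c10_ok)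 (L (nat_lit 371) ln16_11_0_c10 ln16_11_0_c10_ok))))) (M (nat_lit 435) (B (L (nat_lit 306) ln18_9_4_c10 ln18_9_4_c10_ok) (M (nat_lit 467) (B (L (nat_lit 499) ln19_15_7_c10 ln19_15_7_c10_ok) (L (nat_lit 434) ln18_10_4_c10 ln18_10_4_c10_ok))))))))))))))))))))))) (M (nat_lit 338) (B (M (nat_lit 367) (B (L (nat_lit 339) ln19_10_1_c10 ln19_10_1_c10_ok) (M (nat_lit 366) (B (L (nat_lit 335) ln18_10_1 ln18_10_1_ok) (L (nat_lit 369) ln14_11_2 ln14_11_2_ok))))) (B (M (nat_lit 335) (B (M (nat_lit 303) (B (L (nat_lit 302) ln18_10_3_c10 ln18_10_3_c10_ok) (L (nat_lit 432) ln16_13_7 ln16_13_7_ok))) (M (nat_lit 334) (B (M (nat_lit 370) (B (L (nat_lit 371) ln15_10_0_c10 ln15_10_0_c10_ok) (L (nat_lit 369) ln14_10_0 ln14_10_0_ok))) (M (nat_lit 366) (B (L (nat_lit 367) ln18_10_1 ln18_10_1_ok) (L (nat_lit 365) ln17_10_1 ln17_10_1_ok))))))) (B (M (nat_lit 367) (B (L (nat_lit 339) ln19_10_1_c10 ln19_10_1_c10_ok) (M (nat_lit 366) (B (L (nat_lit 369) ln14_11_2 ln14_11_2_ok) (L (nat_lit 365) ln13_11_2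 ln13_11_2_ok))))) (B (M (nat_lit 367) (B (L (nat_lit 339) ln19_10_1_c10 ln19_10_1_c10_ok) (M (nat_lit 366) (B (L (nat_lit 335) ln18_10_1 ln18_10_1_ok) (L (nat_lit 365) ln13_11_2 ln13_11_2_ok))))) (M (nat_lit 335) (B (M (nat_lit 303) (B (L (nat_lit 302) ln18_10_3_c10 ln18_10_3_c10_ok) (L (nat_lit 432) ln16_13_7 ln16_13_7_ok))) (M (nat_lit 339) (B (M (nat_lit 307) (B (L (nat_lit 308) ln16_10_2_c10 ln16_10_2_c10_ok) (L (nat_lit 306) ln15_10_2_c10 ln15_10_2_c10_ok))) (M (nat_lit 371) (B (L (nat_lit 372) ln16_10_0_c10 ln16_10_0_c10_ok) (L (nat_lit 370) ln15_10_0_c10 ln15_10_0_c10_ok)))))))))))))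
noncomputable def c10_d469 : Cert := (B (M (nat_lit 272) (B (M (nat_lit 369) (B (L (nat_lit 401) ln16_8_4_c10 ln16_8_4_c10_ok) (M (nat_lit 241) (B (L (nat_lit 273) ln16_11_6_c10 ln16_11_6_c10_ok) (M (nat_lit 240) (B (L (nat_lit 209) ln16_10_6_c10 ln16_10_6_c10_ok) (L (nat_lit 337) ln16_7_4_c10 ln16_7_4_c10_ok))))))) (B (M (nat_lit 240) (B (M (nat_lit 239) (B (L (nat_lit 207) ln16_10_7_c10 ln16_10_7_c10_ok) (L (nat_lit 271) ln16_11_7_c10 ln16_11_7_c10_ok))) (M (nat_lit 369) (B (L (nat_lit 337) ln16_7_4_c10 ln16_7_4_c10_ok) (L (nat_lit 401) ln16_8_4_c10 ln16_8_4_c10_ok))))) (M (nat_lit 273) (B (L (nat_lit 241) ln16_11_6_c10 ln16_11_6_c10_ok) (L (nat_lit 305) ln16_12_6_c10 ln16_12_6_c10_ok)))))) (B (M (nat_lit 272) (B (M (nat_lit 240) (B (M (nat_lit 369) (B (L (nat_lit 401) ln16_8_4_c10 ln16_8_4_c10_ok) (L (nat_lit 337) ln16_7_4_c10 ln16_7_4_c10_ok))) (M (nat_lit 241) (B (L (nat_lit 273) ln16_11_6_c10 ln16_11_6_c10_ok) (L (nat_lit 209) ln16_10_6_c10 ln16_10_6_c10_ok))))) (B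 (M (nat_lit 240) (B (M (nat_lit 241) (B (L (nat_lit 273) ln16_11_6_c10 ln16_11_6_c10_ok) (L (nat_lit 209) ln16_10_6_c10 ln16_10_6_c10_ok))) (M (nat_lit 208) (B (M (nat_lit 337) (B (L (nat_lit 369) ln16_7_4_c10 ln16_7_4_c10_ok) (L (nat_lit 305) ln16_6_4_c10 ln16_6_4_c10_ok))) (M (nat_lit 207) (B (L (nat_lit 239) ln16_10_7_c10 ln16_10_7_c10_ok) (L (nat_lit 175) ln16_9_7_c10 ln16_9_7_c10_ok))))))) (B (M (nat_lit 240) (B (M (nat_lit 241) (B (L (nat_lit 273) ln16_11_6_c10 ln16_11_6_c10_ok) (L (nat_lit 209) ln16_10_6_c10 ln16_10_6_c10_ok))) (B (M (nat_lit 208) (B (M (nat_lit 209) (B (L (nat_lit 241) ln16_10_6_c10 ln16_10_6_c10_ok) (L (nat_lit 177) ln16_9_6_c10 ln16_9_6_c10_ok))) (M (nat_lit 207) (B (L (nat_lit 239) ln16_10_7_c10 ln16_10_7_c10_ok) (L (nat_lit 175) ln16_9_7_c10 ln16_9_7_c10_ok))))) (M (nat_lit 208) (B (M (nat_lit 207) (B (L (nat_lit 239) ln16_10_7_c10 ln16_10_7_c10_ok) (L (nat_lit 175) ln16_9_7_c10 ln16_9_7_c10_ok))) (M (nat_lit 305) (B (L (nat_lit 337) ln16_6_4_c10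 ln16_6_4_c10_ok) (L (nat_lit 273) ln16_12_6_c10 ln16_12_6_c10_ok)))))))) (B (M (nat_lit 273) (B (L (nat_lit 241) ln16_11_6_c10 ln16_11_6_c10_ok) (M (nat_lit 401) (B (L (nat_lit 369) ln16_8_4_c10 ln16_8_4_c10_ok) (L (nat_lit 433) ln16_9_4_c10 ln16_9_4_c10_ok))))) (B (M (nat_lit 240) (B (M (nat_lit 369) (B (L (nat_lit 401) ln16_8_4_c10 ln16_8_4_c10_ok) (L (nat_lit 337) ln16_7_4_c10 ln16_7_4_c10_ok))) (M (nat_lit 208) (B (M (nat_lit 209) (B (L (nat_lit 241) ln16_10_6_c10 ln16_10_6_c10_ok) (L (nat_lit 177) ln16_9_6_c10 ln16_9_6_c10_ok))) (M (nat_lit 207) (B (L (nat_lit 239) ln16_10_7_c10 ln16_10_7_c10_ok) (L (nat_lit 175) ln16_9_7_c10 ln16_9_7_c10_ok))))))) (M (nat_lit 369) (B (L (nat_lit 401) ln16_8_4_c10 ln16_8_4_c10_ok) (M (nat_lit 335) (B (M (nat_lit 240) (B (L (nat_lit 337) ln16_7_4_c10 ln16_7_4_c10_ok) (L (nat_lit 367) ln16_7_5_c10 ln16_7_5_c10_ok))) (B (M (nat_lit 370) (B (L (nat_lit 371) ln19_11_3_c10 ln19_11_3_c10_ok) (M (nat_lit 334) (B (L (nat_lit 337) ln14_10_0 ln14_10_0_ok)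 (L (nat_lit 333) ln13_10_0 ln13_10_0_ok))))) (M (nat_lit 370) (B (L (nat_lit 371) ln19_11_3_c10 ln19_11_3_c10_ok) (M (nat_lit 334) (B (L (nat_lit 367) ln18_11_3 ln18_11_3_ok) (L (nat_lit 333) ln13_10_0 ln13_10_0_ok)))))))))))))))) (B (M (nat_lit 272) (B (M (nat_lit 401) (B (L (nat_lit 433) ln16_9_4_c10 ln16_9_4_c10_ok) (L (nat_lit 369) ln16_8_4_c10 ln16_8_4_c10_ok))) (M (nat_lit 273) (B (L (nat_lit 305) ln16_12_6_c10 ln16_12_6_c10_ok) (L (nat_lit 241) ln16_11_6_c10 ln16_11_6_c10_ok))))) (B (K (nat_lit 179013548899091572664880704632125070351178483776869792081600063709755245052761738834463097324579765996655954539854950080463219134825796588300373327872) (nat_lit 22181357589118017188406914306613955208627419575683293719071194612876548453406566853720080631237721771077532927223178317571433693184) (nat_lit 22181357589118017188406914306613955208627419575683293719071194612876548453406566853720080631237721771077532927223178317571433693184) c10_s445) (B (M (nat_lit 305) (B (L (nat_lit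 273) ln16_12_6_c10 ln16_12_6_c10_ok) (M (nat_lit 337) (B (L (nat_lit 432) ln16_13_6_c10 ln16_13_6_c10_ok) (M (nat_lit 335) (B (M (nat_lit 334) (B (L (nat_lit 306) ln14_10_2_c10 ln14_10_2_c10_ok) (L (nat_lit 333) ln13_10_2 ln13_10_2_ok))) (B (M (nat_lit 338) (B (M (nat_lit 367) (B (L (nat_lit 339) ln19_10_1_c10 ln19_10_1_c10_ok) (L (nat_lit 366) ln18_10_1 ln18_10_1_ok))) (B (M (nat_lit 339) (B (L (nat_lit 340) ln20_10_3_c10 ln20_10_3_c10_ok) (M (nat_lit 371) (B (L (nat_lit 372) ln16_10_0_c10 ln16_10_0_c10_ok) (L (nat_lit 370) ln15_10_0_c10 ln15_10_0_c10_ok))))) (M (nat_lit 370) (B (L (nat_lit 371) ln15_10_0_c10 ln15_10_0_c10_ok) (M (nat_lit 402) (B (L (nat_lit 434) ln18_13_7_c10 ln18_13_7_c10_ok) (M (nat_lit 403) (B (M (nat_lit 306) (B (L (nat_lit 435) ln18_9_4_c10 ln18_9_4_c10_ok) (L (nat_lit 307) ln19_9_1_c10 ln19_9_1_c10_ok))) (M (nat_lit 367) (B (L (nat_lit 401) ln19_12_3_c10 ln19_12_3_c10_ok) (L (nat_lit 366) ln18_10_1 ln18_10_1_ok)))))))))))) (M (nat_lit 338) (B (M (nat_lit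 367) (B (L (nat_lit 339) ln19_10_1_c10 ln19_10_1_c10_ok) (L (nat_lit 366) ln18_10_1 ln18_10_1_ok))) (B (M (nat_lit 339) (B (L (nat_lit 340) ln20_10_3_c10 ln20_10_3_c10_ok) (M (nat_lit 371) (B (L (nat_lit 372) ln16_10_0_c10 ln16_10_0_c10_ok) (L (nat_lit 370) ln15_10_0_c10 ln15_10_0_c10_ok))))) (M (nat_lit 366) (B (L (nat_lit 367) ln18_10_1 ln18_10_1_ok) (M (nat_lit 334) (B (L (nat_lit 365) ln17_10_1 ln17_10_1_ok) (L (nat_lit 333) ln13_10_2 ln13_10_2_ok))))))))))))))) (M (nat_lit 272) (B (M (nat_lit 273) (B (L (nat_lit 241) ln16_11_6_c10 ln16_11_6_c10_ok) (L (nat_lit 305) ln16_12_6_c10 ln16_12_6_c10_ok))) (B (M (nat_lit 305) (B (L (nat_lit 273) ln16_12_6_c10 ln16_12_6_c10_ok) (M (nat_lit 337) (B (L (nat_lit 432) ln16_13_6_c10 ln16_13_6_c10_ok) (M (nat_lit 240) (B (L (nat_lit 208) ln16_6_4_c10 ln16_6_4_c10_ok) (L (nat_lit 369) ln16_7_4_c10 ln16_7_4_c10_ok))))))) (B (M (nat_lit 240) (B (M (nat_lit 239) (B (L (nat_lit 207) ln16_10_7_c10 ln16_10_7_c10_ok) (L (nat_lit 271) ln16_11_7_c10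 ln16_11_7_c10_ok))) (M (nat_lit 337) (B (L (nat_lit 369) ln16_7_4_c10 ln16_7_4_c10_ok) (M (nat_lit 305) (B (L (nat_lit 208) ln16_6_4_c10 ln16_6_4_c10_ok) (L (nat_lit 432) ln16_13_6_c10 ln16_13_6_c10_ok))))))) (M (nat_lit 240) (B (M (nat_lit 241) (B (L (nat_lit 209) ln16_10_6_c10 ln16_10_6_c10_ok) (L (nat_lit 273) ln16_11_6_c10 ln16_11_6_c10_ok))) (M (nat_lit 239) (B (L (nat_lit 207) ln16_10_7_c10 ln16_10_7_c10_ok) (L (nat_lit 271) ln16_11_7_c10 ln16_11_7_c10_ok))))))))))))))
noncomputable def c10_d470 : Cert := (B (M (nat_lit 337) (B (M (nat_lit 305) (B (L (nat_lit 432) ln16_13_6_c10 ln16_13_6_c10_ok) (M (nat_lit 273) (B (L (nat_lit 369) ln17_8_5_c10 ln17_8_5_c10_ok) (L (nat_lit 241) ln17_7_5_c10 ln17_7_5_c10_ok))))) (B (M (nat_lit 338) (B (M (nat_lit 367) (B (L (nat_lit 339) ln19_10_1_c10 ln19_10_1_c10_ok) (M (nat_lit 366) (B (L (nat_lit 365) ln13_11_2 ln13_11_2_ok) (L (nat_lit 335) ln18_10_1 ln18_10_1_ok))))) (B (M (nat_lit 367) (B (L (nat_lit 339) ln19_10_1_c10 ln19_10_1_c10_ok)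 (M (nat_lit 366) (B (L (nat_lit 369) ln14_11_2 ln14_11_2_ok) (L (nat_lit 335) ln18_10_1 ln18_10_1_ok))))) (B (M (nat_lit 339) (B (L (nat_lit 367) ln19_10_1_c10 ln19_10_1_c10_ok) (M (nat_lit 340) (B (L (nat_lit 369) ln20_10_1_c10 ln20_10_1_c10_ok) (M (nat_lit 372) (B (L (nat_lit 371) ln16_10_0_c10 ln16_10_0_c10_ok) (L (nat_lit 373) ln17_10_0_c10 ln17_10_0_c10_ok))))))) (B (M (nat_lit 335) (B (M (nat_lit 306) (B (L (nat_lit 307) ln15_10_2_c10 ln15_10_2_c10_ok) (M (nat_lit 334) (B (L (nat_lit 305) ln14_10_2_c10 ln14_10_2_c10_ok) (M (nat_lit 302) (B (L (nat_lit 301) ln17_10_3_c10 ln17_10_3_c10_ok) (L (nat_lit 303) ln18_10_3_c10 ln18_10_3_c10_ok))))))) (B (M (nat_lit 339) (B (M (nat_lit 307) (B (L (nat_lit 306) ln15_10_2_c10 ln15_10_2_c10_ok) (L (nat_lit 308) ln16_10_2_c10 ln16_10_2_c10_ok))) (M (nat_lit 372) (B (L (nat_lit 371) ln16_10_0_c10 ln16_10_0_c10_ok) (M (nat_lit 340) (B (L (nat_lit 369) ln20_10_1_c10 ln20_10_1_c10_ok) (L (nat_lit 373) ln17_10_0_c10 ln17_10_0_c10_ok)))))))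 (M (nat_lit 334) (B (M (nat_lit 302) (B (L (nat_lit 301) ln17_10_3_c10 ln17_10_3_c10_ok) (L (nat_lit 303) ln18_10_3_c10 ln18_10_3_c10_ok))) (M (nat_lit 333) (B (L (nat_lit 369) ln13_10_0 ln13_10_0_ok) (M (nat_lit 365) (B (L (nat_lit 364) ln16_10_1 ln16_10_1_ok) (L (nat_lit 366) ln17_10_1 ln17_10_1_ok)))))))))) (M (nat_lit 335) (B (M (nat_lit 303) (B (L (nat_lit 302) ln18_10_3_c10 ln18_10_3_c10_ok) (M (nat_lit 367) (B (L (nat_lit 271) ln15_8_4 ln15_8_4_ok) (L (nat_lit 366) ln18_10_1 ln18_10_1_ok))))) (B (M (nat_lit 306) (B (L (nat_lit 307) ln15_10_2_c10 ln15_10_2_c10_ok) (M (nat_lit 334) (B (L (nat_lit 305) ln14_10_2_c10 ln14_10_2_c10_ok) (M (nat_lit 302) (B (L (nat_lit 301) ln17_10_3_c10 ln17_10_3_c10_ok) (L (nat_lit 303) ln18_10_3_c10 ln18_10_3_c10_ok))))))) (M (nat_lit 334) (B (M (nat_lit 366) (B (L (nat_lit 365) ln17_10_1 ln17_10_1_ok) (L (nat_lit 367) ln18_10_1 ln18_10_1_ok))) (M (nat_lit 306) (B (L (nat_lit 305) ln14_10_2_c10 ln14_10_2_c10_ok) (L (nat_lit 307) ln15_10_2_c10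 ln15_10_2_c10_ok))))))))))))) (B (M (nat_lit 335) (B (M (nat_lit 432) (B (L (nat_lit 303) ln16_13_7 ln16_13_7_ok) (L (nat_lit 305) ln16_13_6_c10 ln16_13_6_c10_ok))) (B (M (nat_lit 338) (B (M (nat_lit 367) (B (L (nat_lit 366) ln18_10_1 ln18_10_1_ok) (L (nat_lit 339) ln19_10_1_c10 ln19_10_1_c10_ok))) (M (nat_lit 306) (B (L (nat_lit 307) ln15_10_2_c10 ln15_10_2_c10_ok) (M (nat_lit 334) (B (L (nat_lit 305) ln14_10_2_c10 ln14_10_2_c10_ok) (M (nat_lit 302) (B (L (nat_lit 301) ln17_10_3_c10 ln17_10_3_c10_ok) (L (nat_lit 303) ln18_10_3_c10 ln18_10_3_c10_ok))))))))) (B (M (nat_lit 334) (B (M (nat_lit 305) (B (L (nat_lit 432) ln16_13_6_c10 ln16_13_6_c10_ok) (L (nat_lit 306) ln14_10_2_c10 ln14_10_2_c10_ok))) (M (nat_lit 333) (B (M (nat_lit 365) (B (L (nat_lit 364) ln16_10_1 ln16_10_1_ok) (L (nat_lit 366) ln17_10_1 ln17_10_1_ok))) (M (nat_lit 301) (B (L (nat_lit 300) ln16_10_3 ln16_10_3_ok) (L (nat_lit 302) ln17_10_3_c10 ln17_10_3_c10_ok))))))) (M (nat_lit 303) (B (L (nat_lit 432) ln16_13_7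 ln16_13_7_ok) (M (nat_lit 271) (B (L (nat_lit 367) ln15_8_4 ln15_8_4_ok) (L (nat_lit 239) ln15_7_4_c10 ln15_7_4_c10_ok))))))))) (M (nat_lit 335) (B (M (nat_lit 303) (B (L (nat_lit 432) ln16_13_7 ln16_13_7_ok) (M (nat_lit 271) (B (L (nat_lit 367) ln15_8_4 ln15_8_4_ok) (L (nat_lit 239) ln15_7_4_c10 ln15_7_4_c10_ok))))) (B (M (nat_lit 334) (B (M (nat_lit 333) (B (L (nat_lit 369) ln13_10_0 ln13_10_0_ok) (M (nat_lit 365) (B (L (nat_lit 364) ln16_10_1 ln16_10_1_ok) (L (nat_lit 366) ln17_10_1 ln17_10_1_ok))))) (B (M (nat_lit 333) (B (L (nat_lit 369) ln13_10_0 ln13_10_0_ok) (M (nat_lit 301) (B (L (nat_lit 300) ln16_10_3 ln16_10_3_ok) (L (nat_lit 302) ln17_10_3_c10 ln17_10_3_c10_ok))))) (M (nat_lit 338) (B (M (nat_lit 366) (B (L (nat_lit 365) ln17_10_1 ln17_10_1_ok) (L (nat_lit 367) ln18_10_1 ln18_10_1_ok))) (M (nat_lit 302) (B (L (nat_lit 301) ln17_10_3_c10 ln17_10_3_c10_ok) (L (nat_lit 303) ln18_10_3_c10 ln18_10_3_c10_ok)))))))) (B (M (nat_lit 303) (B (L (nat_lit 432) ln16_13_7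 ln16_13_7_ok) (M (nat_lit 302) (B (L (nat_lit 338) ln18_10_3_c10 ln18_10_3_c10_ok) (M (nat_lit 301) (B (L (nat_lit 334) ln17_10_3_c10 ln17_10_3_c10_ok) (L (nat_lit 300) ln12_9_0 ln12_9_0_ok))))))) (M (nat_lit 338) (B (M (nat_lit 367) (B (L (nat_lit 366) ln18_10_1 ln18_10_1_ok) (L (nat_lit 339) ln19_10_1_c10 ln19_10_1_c10_ok))) (B (M (nat_lit 339) (B (L (nat_lit 367) ln19_10_1_c10 ln19_10_1_c10_ok) (M (nat_lit 307) (B (L (nat_lit 306) ln15_10_2_c10 ln15_10_2_c10_ok) (L (nat_lit 308) ln16_10_2_c10 ln16_10_2_c10_ok))))) (B (M (nat_lit 339) (B (M (nat_lit 307) (B (L (nat_lit 306) ln15_10_2_c10 ln15_10_2_c10_ok) (L (nat_lit 308) ln16_10_2_c10 ln16_10_2_c10_ok))) (M (nat_lit 372) (B (L (nat_lit 371) ln16_10_0_c10 ln16_10_0_c10_ok) (M (nat_lit 340) (B (L (nat_lit 369) ln20_10_1_c10 ln20_10_1_c10_ok) (L (nat_lit 373) ln17_10_0_c10 ln17_10_0_c10_ok))))))) (M (nat_lit 334) (B (M (nat_lit 366) (B (L (nat_lit 365) ln17_10_1 ln17_10_1_ok) (L (nat_lit 367) ln18_10_1 ln18_10_1_ok))) (M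 (nat_lit 333) (B (L (nat_lit 369) ln13_10_0 ln13_10_0_ok) (M (nat_lit 301) (B (L (nat_lit 300) ln16_10_3 ln16_10_3_ok) (L (nat_lit 302) ln17_10_3_c10 ln17_10_3_c10_ok))))))))))))))))))) (B (M (nat_lit 337) (B (M (nat_lit 305) (B (L (nat_lit 432) ln16_13_6_c10 ln16_13_6_c10_ok) (M (nat_lit 273) (B (L (nat_lit 241) ln17_7_5_c10 ln17_7_5_c10_ok) (L (nat_lit 304) ln16_12_6_c10 ln16_12_6_c10_ok))))) (B (M (nat_lit 305) (B (L (nat_lit 432) ln16_13_6_c10 ln16_13_6_c10_ok) (M (nat_lit 273) (B (L (nat_lit 304) ln16_12_6_c10 ln16_12_6_c10_ok) (L (nat_lit 369) ln17_8_5_c10 ln17_8_5_c10_ok))))) (B (M (nat_lit 305) (B (L (nat_lit 432) ln16_13_6_c10 ln16_13_6_c10_ok) (M (nat_lit 273) (B (L (nat_lit 241) ln17_7_5_c10 ln17_7_5_c10_ok) (L (nat_lit 369) ln17_8_5_c10 ln17_8_5_c10_ok))))) c10_d468)))) (B (M (nat_lit 304) (B (M (nat_lit 272) (B (M (nat_lit 240) (B (M (nat_lit 369) (B (L (nat_lit 401) ln16_8_4_c10 ln16_8_4_c10_ok) (L (nat_lit 337) ln16_7_4_c10 ln16_7_4_c10_ok))) (M (nat_lit 239)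 (B (L (nat_lit 271) ln16_11_7_c10 ln16_11_7_c10_ok) (L (nat_lit 207) ln16_10_7_c10 ln16_10_7_c10_ok))))) (B (M (nat_lit 241) (B (L (nat_lit 273) ln16_11_6_c10 ln16_11_6_c10_ok) (M (nat_lit 240) (B (L (nat_lit 209) ln16_10_6_c10 ln16_10_6_c10_ok) (M (nat_lit 239) (B (L (nat_lit 271) ln16_11_7_c10 ln16_11_7_c10_ok) (L (nat_lit 207) ln16_10_7_c10 ln16_10_7_c10_ok))))))) (B (M (nat_lit 240) (B (M (nat_lit 369) (B (L (nat_lit 401) ln16_8_4_c10 ln16_8_4_c10_ok) (L (nat_lit 337) ln16_7_4_c10 ln16_7_4_c10_ok))) (M (nat_lit 241) (B (L (nat_lit 273) ln16_11_6_c10 ln16_11_6_c10_ok) (L (nat_lit 209) ln16_10_6_c10 ln16_10_6_c10_ok))))) (M (nat_lit 401) (B (L (nat_lit 433) ln16_9_4_c10 ln16_9_4_c10_ok) (L (nat_lit 369) ln16_8_4_c10 ln16_8_4_c10_ok))))))) c10_d469)) (M (nat_lit 304) (B (M (nat_lit 303) (B (L (nat_lit 271) ln16_12_7_c10 ln16_12_7_c10_ok) (M (nat_lit 432) (B (L (nat_lit 431) ln16_10_5 ln16_10_5_ok) (L (nat_lit 335) ln16_13_7 ln16_13_7_ok))))) (B (M (nat_lit 272) (B (M (nat_lit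 271) (B (L (nat_lit 239) ln16_11_7_c10 ln16_11_7_c10_ok) (L (nat_lit 303) ln16_12_7_c10 ln16_12_7_c10_ok))) (M (nat_lit 401) (B (L (nat_lit 369) ln16_8_4_c10 ln16_8_4_c10_ok) (L (nat_lit 433) ln16_9_4_c10 ln16_9_4_c10_ok))))) (K (nat_lit 179013548899091572664880704632125070351178483776869792081600063709755245052761738834463097324579765996655954539854950080463219134825796588300373327872) (nat_lit 22181357589118017188406914306613955208627419575683293719071194612876548453406566853720080631237721771077532927223178317571433693184) (nat_lit 22181357589118017188406914306613955208627419575683293719071194612876548453406566853720080631237721771077532927223178317571433693184) c10_s445)))))))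
noncomputable def c10_d471 : Cert := (B (M (nat_lit 303) (B (M (nat_lit 271) (B (L (nat_lit 304) ln16_12_7_c10 ln16_12_7_c10_ok) (M (nat_lit 335) (B (L (nat_lit 367) ln15_8_4 ln15_8_4_ok) (L (nat_lit 432) ln16_13_7 ln16_13_7_ok))))) (B (M (nat_lit 337) (B (M (nat_lit 432) (B (L (nat_lit 335) ln16_13_7 ln16_13_7_ok) (L (nat_lit 305) ln16_13_6_c10 ln16_13_6_c10_ok))) (B (M (nat_lit 305) (B (L (nat_lit 432) ln16_13_6_c10 ln16_13_6_c10_ok) (M (nat_lit 273) (B (L (nat_lit 304) ln16_12_6_c10 ln16_12_6_c10_ok) (L (nat_lit 241) ln17_7_5_c10 ln17_7_5_c10_ok))))) (B (M (nat_lit 338) (B (M (nat_lit 339) (B (L (nat_lit 304) ln19_10_3_c10 ln19_10_3_c10_ok) (L (nat_lit 367) ln19_10_1_c10 ln19_10_1_c10_ok))) (B (M (nat_lit 302) (B (L (nat_lit 335) ln18_10_3_c10 ln18_10_3_c10_ok) (M (nat_lit 304) (B (L (nat_lit 301) ln13_9_0 ln13_9_0_ok) (L (nat_lit 339) ln19_10_3_c10 ln19_10_3_c10_ok))))) (B (M (nat_lit 335) (B (L (nat_lit 302) ln18_10_3_c10 ln18_10_3_c10_ok) (M (nat_lit 367) (B (L (nat_lit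 366) ln18_10_1 ln18_10_1_ok) (L (nat_lit 339) ln19_10_1_c10 ln19_10_1_c10_ok))))) (M (nat_lit 302) (B (L (nat_lit 335) ln18_10_3_c10 ln18_10_3_c10_ok) (M (nat_lit 304) (B (L (nat_lit 301) ln13_9_0 ln13_9_0_ok) (L (nat_lit 305) ln14_9_0_c10 ln14_9_0_c10_ok))))))))) (M (nat_lit 338) (B (M (nat_lit 335) (B (L (nat_lit 302) ln18_10_3_c10 ln18_10_3_c10_ok) (L (nat_lit 432) ln16_13_7 ln16_13_7_ok))) (M (nat_lit 339) (B (L (nat_lit 304) ln19_10_3_c10 ln19_10_3_c10_ok) (L (nat_lit 367) ln19_10_1_c10 ln19_10_1_c10_ok))))))))) (B (M (nat_lit 304) (B (L (nat_lit 271) ln16_12_7_c10 ln16_12_7_c10_ok) (M (nat_lit 305) (B (L (nat_lit 273) ln16_12_6_c10 ln16_12_6_c10_ok) (M (nat_lit 337) (B (L (nat_lit 432) ln16_13_6_c10 ln16_13_6_c10_ok) (M (nat_lit 338) (B (L (nat_lit 302) ln14_9_0_c10 ln14_9_0_c10_ok) (L (nat_lit 339) ln19_10_3_c10 ln19_10_3_c10_ok))))))))) (B (M (nat_lit 335) (B (L (nat_lit 432) ln16_13_7 ln16_13_7_ok) (M (nat_lit 271) (B (L (nat_lit 239) ln15_7_4_c10 ln15_7_4_c10_ok)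 (L (nat_lit 367) ln15_8_4 ln15_8_4_ok))))) (M (nat_lit 271) (B (L (nat_lit 304) ln16_12_7_c10 ln16_12_7_c10_ok) (M (nat_lit 335) (B (L (nat_lit 239) ln15_7_4_c10 ln15_7_4_c10_ok) (L (nat_lit 367) ln15_8_4 ln15_8_4_ok)))))))))) (B (M (nat_lit 303) (B (M (nat_lit 335) (B (L (nat_lit 432) ln16_13_7 ln16_13_7_ok) (M (nat_lit 271) (B (L (nat_lit 239) ln15_7_4_c10 ln15_7_4_c10_ok) (L (nat_lit 304) ln16_12_7_c10 ln16_12_7_c10_ok))))) (B (M (nat_lit 304) (B (L (nat_lit 271) ln16_12_7_c10 ln16_12_7_c10_ok) (M (nat_lit 305) (B (L (nat_lit 273) ln16_12_6_c10 ln16_12_6_c10_ok) (M (nat_lit 337) (B (L (nat_lit 432) ln16_13_6_c10 ln16_13_6_c10_ok) (M (nat_lit 302) (B (L (nat_lit 301) ln13_9_0 ln13_9_0_ok) (L (nat_lit 338) ln14_9_0_c10 ln14_9_0_c10_ok))))))))) (B (M (nat_lit 337) (B (M (nat_lit 432) (B (L (nat_lit 335) ln16_13_7 ln16_13_7_ok) (L (nat_lit 305) ln16_13_6_c10 ln16_13_6_c10_ok))) (B (M (nat_lit 305) (B (L (nat_lit 432) ln16_13_6_c10 ln16_13_6_c10_ok) (M (nat_lit 304) (B (L (nat_lit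 273) ln16_12_6_c10 ln16_12_6_c10_ok) (M (nat_lit 338) (B (L (nat_lit 302) ln14_9_0_c10 ln14_9_0_c10_ok) (L (nat_lit 339) ln19_10_3_c10 ln19_10_3_c10_ok))))))) (B (M (nat_lit 338) (B (M (nat_lit 339) (B (L (nat_lit 367) ln19_10_1_c10 ln19_10_1_c10_ok) (L (nat_lit 304) ln19_10_3_c10 ln19_10_3_c10_ok))) (B (M (nat_lit 304) (B (L (nat_lit 339) ln19_10_3_c10 ln19_10_3_c10_ok) (M (nat_lit 302) (B (L (nat_lit 335) ln18_10_3_c10 ln18_10_3_c10_ok) (L (nat_lit 305) ln14_9_0_c10 ln14_9_0_c10_ok))))) (B (M (nat_lit 367) (B (L (nat_lit 339) ln19_10_1_c10 ln19_10_1_c10_ok) (M (nat_lit 335) (B (L (nat_lit 366) ln18_10_1 ln18_10_1_ok) (L (nat_lit 302) ln18_10_3_c10 ln18_10_3_c10_ok))))) (M (nat_lit 302) (B (L (nat_lit 335) ln18_10_3_c10 ln18_10_3_c10_ok) (M (nat_lit 304) (B (L (nat_lit 301) ln13_9_0 ln13_9_0_ok) (L (nat_lit 305) ln14_9_0_c10 ln14_9_0_c10_ok))))))))) (M (nat_lit 338) (B (M (nat_lit 335) (B (L (nat_lit 302) ln18_10_3_c10 ln18_10_3_c10_ok) (L (nat_lit 432) ln16_13_7 ln16_13_7_ok)))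 (M (nat_lit 339) (B (L (nat_lit 367) ln19_10_1_c10 ln19_10_1_c10_ok) (L (nat_lit 304) ln19_10_3_c10 ln19_10_3_c10_ok))))))))) (B (M (nat_lit 271) (B (L (nat_lit 304) ln16_12_7_c10 ln16_12_7_c10_ok) (M (nat_lit 335) (B (L (nat_lit 367) ln15_8_4 ln15_8_4_ok) (L (nat_lit 239) ln15_7_4_c10 ln15_7_4_c10_ok))))) (M (nat_lit 335) (B (L (nat_lit 432) ln16_13_7 ln16_13_7_ok) (M (nat_lit 271) (B (L (nat_lit 367) ln15_8_4 ln15_8_4_ok) (L (nat_lit 239) ln15_7_4_c10 ln15_7_4_c10_ok)))))))))) (B (M (nat_lit 305) (B (M (nat_lit 337) (B (L (nat_lit 432) ln16_13_6_c10 ln16_13_6_c10_ok) (M (nat_lit 273) (B (L (nat_lit 241) ln17_7_5_c10 ln17_7_5_c10_ok) (L (nat_lit 304) ln16_12_6_c10 ln16_12_6_c10_ok))))) (B (M (nat_lit 304) (B (L (nat_lit 273) ln16_12_6_c10 ln16_12_6_c10_ok) (M (nat_lit 303) (B (L (nat_lit 271) ln16_12_7_c10 ln16_12_7_c10_ok) (M (nat_lit 335) (B (L (nat_lit 432) ln16_13_7 ln16_13_7_ok) (M (nat_lit 306) (B (L (nat_lit 307) ln19_9_1_c10 ln19_9_1_c10_ok) (L (nat_lit 334) ln18_9_1_c10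 ln18_9_1_c10_ok))))))))) (B (M (nat_lit 335) (B (M (nat_lit 432) (B (L (nat_lit 337) ln16_13_6_c10 ln16_13_6_c10_ok) (L (nat_lit 303) ln16_13_7 ln16_13_7_ok))) (B (M (nat_lit 303) (B (L (nat_lit 432) ln16_13_7 ln16_13_7_ok) (M (nat_lit 304) (B (L (nat_lit 271) ln16_12_7_c10 ln16_12_7_c10_ok) (M (nat_lit 334) (B (L (nat_lit 306) ln18_9_1_c10 ln18_9_1_c10_ok) (L (nat_lit 333) ln13_10_2 ln13_10_2_ok))))))) (B (M (nat_lit 334) (B (M (nat_lit 333) (B (L (nat_lit 369) ln13_10_0 ln13_10_0_ok) (L (nat_lit 304) ln13_10_2 ln13_10_2_ok))) (B (M (nat_lit 304) (B (L (nat_lit 333) ln13_10_2 ln13_10_2_ok) (M (nat_lit 306) (B (L (nat_lit 337) ln14_10_2_c10 ln14_10_2_c10_ok) (L (nat_lit 303) ln18_9_1_c10 ln18_9_1_c10_ok))))) (B (M (nat_lit 369) (B (L (nat_lit 333) ln13_10_0 ln13_10_0_ok) (M (nat_lit 337) (B (L (nat_lit 370) ln14_10_0 ln14_10_0_ok) (L (nat_lit 306) ln14_10_2_c10 ln14_10_2_c10_ok))))) (M (nat_lit 306) (B (L (nat_lit 337) ln14_10_2_c10 ln14_10_2_c10_ok) (M (nat_lit 304) (B (L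 (nat_lit 307) ln19_9_1_c10 ln19_9_1_c10_ok) (L (nat_lit 303) ln18_9_1_c10 ln18_9_1_c10_ok))))))))) (M (nat_lit 334) (B (M (nat_lit 337) (B (L (nat_lit 306) ln14_10_2_c10 ln14_10_2_c10_ok) (L (nat_lit 432) ln16_13_6_c10 ln16_13_6_c10_ok))) (M (nat_lit 333) (B (L (nat_lit 369) ln13_10_0 ln13_10_0_ok) (L (nat_lit 304) ln13_10_2 ln13_10_2_ok))))))))) (B (M (nat_lit 273) (B (L (nat_lit 304) ln16_12_6_c10 ln16_12_6_c10_ok) (M (nat_lit 337) (B (L (nat_lit 369) ln17_8_5_c10 ln17_8_5_c10_ok) (L (nat_lit 241) ln17_7_5_c10 ln17_7_5_c10_ok))))) (M (nat_lit 337) (B (L (nat_lit 432) ln16_13_6_c10 ln16_13_6_c10_ok) (M (nat_lit 273) (B (L (nat_lit 369) ln17_8_5_c10 ln17_8_5_c10_ok) (L (nat_lit 241) ln17_7_5_c10 ln17_7_5_c10_ok)))))))))) (B (M (nat_lit 304) (B (M (nat_lit 401) (B (L (nat_lit 433) ln16_9_4_c10 ln16_9_4_c10_ok) (M (nat_lit 273) (B (L (nat_lit 305) ln16_12_6_c10 ln16_12_6_c10_ok) (M (nat_lit 272) (B (L (nat_lit 241) ln16_11_6_c10 ln16_11_6_c10_ok) (L (nat_lit 369) ln16_8_4_c10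 ln16_8_4_c10_ok))))))) (B (M (nat_lit 272) (B (M (nat_lit 271) (B (L (nat_lit 239) ln16_11_7_c10 ln16_11_7_c10_ok) (L (nat_lit 303) ln16_12_7_c10 ln16_12_7_c10_ok))) (M (nat_lit 401) (B (L (nat_lit 369) ln16_8_4_c10 ln16_8_4_c10_ok) (L (nat_lit 433) ln16_9_4_c10 ln16_9_4_c10_ok))))) (M (nat_lit 305) (B (L (nat_lit 273) ln16_12_6_c10 ln16_12_6_c10_ok) (M (nat_lit 337) (B (L (nat_lit 432) ln16_13_6_c10 ln16_13_6_c10_ok) (M (nat_lit 303) (B (L (nat_lit 271) ln16_12_7_c10 ln16_12_7_c10_ok) (M (nat_lit 302) (B (L (nat_lit 338) ln14_9_0_c10 ln14_9_0_c10_ok) (L (nat_lit 301) ln13_9_0 ln13_9_0_ok)))))))))))) c10_d470))))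
noncomputable def c10_d472 : Cert := (B (M (nat_lit 304) (B (M (nat_lit 305) (B (L (nat_lit 273) ln16_12_6_c10 ln16_12_6_c10_ok) (M (nat_lit 433) (B (L (nat_lit 401) ln16_9_4_c10 ln16_9_4_c10_ok) (M (nat_lit 432) (B (L (nat_lit 465) ln16_10_4_c10 ln16_10_4_c10_ok) (L (nat_lit 337) ln16_13_6_c10 ln16_13_6_c10_ok))))))) (B (M (nat_lit 401) (B (L (nat_lit 433) ln16_9_4_c10 ln16_9_4_c10_ok) (M (nat_lit 272) (B (L (nat_lit 369) ln16_8_4_c10 ln16_8_4_c10_ok) (M (nat_lit 273) (B (L (nat_lit 305) ln16_12_6_c10 ln16_12_6_c10_ok) (L (nat_lit 241) ln16_11_6_c10 ln16_11_6_c10_ok))))))) (B (M (nat_lit 272) (B (M (nat_lit 273) (B (L (nat_lit 305) ln16_12_6_c10 ln16_12_6_c10_ok) (L (nat_lit 241) ln16_11_6_c10 ln16_11_6_c10_ok))) (M (nat_lit 240) (B (M (nat_lit 367) (B (L (nat_lit 399) ln16_8_5 ln16_8_5_ok) (L (nat_lit 335) ln16_7_5_c10 ln16_7_5_c10_ok))) (M (nat_lit 369) (B (L (nat_lit 401) ln16_8_4_c10 ln16_8_4_c10_ok) (L (nat_lit 337) ln16_7_4_c10 ln16_7_4_c10_ok))))))) (B (M (nat_lit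 337) (B (M (nat_lit 305) (B (L (nat_lit 432) ln16_13_6_c10 ln16_13_6_c10_ok) (L (nat_lit 273) ln16_12_6_c10 ln16_12_6_c10_ok))) (M (nat_lit 367) (B (M (nat_lit 366) (B (L (nat_lit 365) ln13_11_2 ln13_11_2_ok) (M (nat_lit 338) (B (L (nat_lit 369) ln14_11_2 ln14_11_2_ok) (L (nat_lit 339) ln19_10_1_c10 ln19_10_1_c10_ok))))) (B (M (nat_lit 338) (B (L (nat_lit 339) ln19_10_1_c10 ln19_10_1_c10_ok) (M (nat_lit 366) (B (L (nat_lit 369) ln14_11_2 ln14_11_2_ok) (L (nat_lit 335) ln18_10_1 ln18_10_1_ok))))) (B (M (nat_lit 272) (B (L (nat_lit 399) ln16_8_5 ln16_8_5_ok) (M (nat_lit 240) (B (L (nat_lit 335) ln16_7_5_c10 ln16_7_5_c10_ok) (L (nat_lit 369) ln16_7_4_c10 ln16_7_4_c10_ok))))) (M (nat_lit 366) (B (L (nat_lit 365) ln13_11_2 ln13_11_2_ok) (M (nat_lit 338) (B (L (nat_lit 335) ln18_10_1 ln18_10_1_ok) (L (nat_lit 339) ln19_10_1_c10 ln19_10_1_c10_ok))))))))))) (M (nat_lit 367) (B (M (nat_lit 272) (B (L (nat_lit 399) ln16_8_5 ln16_8_5_ok) (M (nat_lit 401) (B (L (nat_lit 433) ln16_9_4_c10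 ln16_9_4_c10_ok) (L (nat_lit 369) ln16_8_4_c10 ln16_8_4_c10_ok))))) (B (M (nat_lit 272) (B (L (nat_lit 399) ln16_8_5 ln16_8_5_ok) (M (nat_lit 240) (B (L (nat_lit 335) ln16_7_5_c10 ln16_7_5_c10_ok) (M (nat_lit 369) (B (L (nat_lit 401) ln16_8_4_c10 ln16_8_4_c10_ok) (L (nat_lit 337) ln16_7_4_c10 ln16_7_4_c10_ok))))))) (B (M (nat_lit 401) (B (L (nat_lit 433) ln16_9_4_c10 ln16_9_4_c10_ok) (M (nat_lit 402) (B (L (nat_lit 403) ln19_12_3_c10 ln19_12_3_c10_ok) (M (nat_lit 366) (B (L (nat_lit 365) ln13_11_0 ln13_11_0_ok) (L (nat_lit 369) ln14_11_0 ln14_11_0_ok))))))) (B (M (nat_lit 337) (B (M (nat_lit 272) (B (L (nat_lit 399) ln16_8_5 ln16_8_5_ok) (M (nat_lit 240) (B (L (nat_lit 335) ln16_7_5_c10 ln16_7_5_c10_ok) (L (nat_lit 369) ln16_7_4_c10 ln16_7_4_c10_ok))))) (B (M (nat_lit 366) (B (L (nat_lit 365) ln13_11_2 ln13_11_2_ok) (M (nat_lit 338) (B (L (nat_lit 335) ln18_10_1 ln18_10_1_ok) (L (nat_lit 339) ln19_10_1_c10 ln19_10_1_c10_ok))))) (M (nat_lit 366) (B (L (nat_lit 365) ln13_11_2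 ln13_11_2_ok) (M (nat_lit 338) (B (L (nat_lit 369) ln14_11_2 ln14_11_2_ok) (L (nat_lit 339) ln19_10_1_c10 ln19_10_1_c10_ok)))))))) (M (nat_lit 399) (B (L (nat_lit 272) ln16_8_5 ln16_8_5_ok) (M (nat_lit 401) (B (L (nat_lit 433) ln16_9_4_c10 ln16_9_4_c10_ok) (M (nat_lit 366) (B (L (nat_lit 402) ln18_12_3 ln18_12_3_ok) (L (nat_lit 365) ln13_11_0 ln13_11_0_ok))))))))))))))))) (M (nat_lit 304) (B (M (nat_lit 303) (B (L (nat_lit 271) ln16_12_7_c10 ln16_12_7_c10_ok) (M (nat_lit 432) (B (L (nat_lit 335) ln16_13_7 ln16_13_7_ok) (M (nat_lit 433) (B (L (nat_lit 465) ln16_10_4_c10 ln16_10_4_c10_ok) (L (nat_lit 401) ln16_9_4_c10 ln16_9_4_c10_ok))))))) (B (M (nat_lit 401) (B (L (nat_lit 433) ln16_9_4_c10 ln16_9_4_c10_ok) (M (nat_lit 272) (B (L (nat_lit 369) ln16_8_4_c10 ln16_8_4_c10_ok) (M (nat_lit 271) (B (L (nat_lit 303) ln16_12_7_c10 ln16_12_7_c10_ok) (L (nat_lit 239) ln16_11_7_c10 ln16_11_7_c10_ok))))))) (B (M (nat_lit 272) (B (M (nat_lit 271) (B (L (nat_lit 303) ln16_12_7_c10 ln16_12_7_c10_ok)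 (L (nat_lit 239) ln16_11_7_c10 ln16_11_7_c10_ok))) (M (nat_lit 240) (B (M (nat_lit 369) (B (L (nat_lit 401) ln16_8_4_c10 ln16_8_4_c10_ok) (L (nat_lit 337) ln16_7_4_c10 ln16_7_4_c10_ok))) (M (nat_lit 367) (B (L (nat_lit 399) ln16_8_5 ln16_8_5_ok) (L (nat_lit 335) ln16_7_5_c10 ln16_7_5_c10_ok))))))) (B (M (nat_lit 272) (B (M (nat_lit 271) (B (L (nat_lit 303) ln16_12_7_c10 ln16_12_7_c10_ok) (L (nat_lit 239) ln16_11_7_c10 ln16_11_7_c10_ok))) (M (nat_lit 367) (B (L (nat_lit 399) ln16_8_5 ln16_8_5_ok) (M (nat_lit 337) (B (M (nat_lit 240) (B (L (nat_lit 369) ln16_7_4_c10 ln16_7_4_c10_ok) (L (nat_lit 335) ln16_7_5_c10 ln16_7_5_c10_ok))) (B (M (nat_lit 366) (B (L (nat_lit 365) ln13_11_2 ln13_11_2_ok) (M (nat_lit 338) (B (L (nat_lit 339) ln19_10_1_c10 ln19_10_1_c10_ok) (L (nat_lit 335) ln18_10_1 ln18_10_1_ok))))) (M (nat_lit 369) (B (L (nat_lit 240) ln16_7_4_c10 ln16_7_4_c10_ok) (M (nat_lit 366) (B (L (nat_lit 338) ln14_11_2 ln14_11_2_ok) (L (nat_lit 365) ln13_11_2 ln13_11_2_ok))))))))))))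 (M (nat_lit 367) (B (M (nat_lit 272) (B (L (nat_lit 399) ln16_8_5 ln16_8_5_ok) (M (nat_lit 401) (B (L (nat_lit 433) ln16_9_4_c10 ln16_9_4_c10_ok) (L (nat_lit 369) ln16_8_4_c10 ln16_8_4_c10_ok))))) (B (M (nat_lit 272) (B (L (nat_lit 399) ln16_8_5 ln16_8_5_ok) (M (nat_lit 240) (B (L (nat_lit 335) ln16_7_5_c10 ln16_7_5_c10_ok) (M (nat_lit 369) (B (L (nat_lit 401) ln16_8_4_c10 ln16_8_4_c10_ok) (L (nat_lit 337) ln16_7_4_c10 ln16_7_4_c10_ok))))))) (B (M (nat_lit 337) (B (M (nat_lit 366) (B (L (nat_lit 365) ln13_11_2 ln13_11_2_ok) (M (nat_lit 338) (B (L (nat_lit 369) ln14_11_2 ln14_11_2_ok) (L (nat_lit 339) ln19_10_1_c10 ln19_10_1_c10_ok))))) (B (M (nat_lit 366) (B (L (nat_lit 365) ln13_11_2 ln13_11_2_ok) (M (nat_lit 338) (B (L (nat_lit 339) ln19_10_1_c10 ln19_10_1_c10_ok) (L (nat_lit 335) ln18_10_1 ln18_10_1_ok))))) (M (nat_lit 272) (B (L (nat_lit 399) ln16_8_5 ln16_8_5_ok) (M (nat_lit 240) (B (L (nat_lit 369) ln16_7_4_c10 ln16_7_4_c10_ok) (L (nat_lit 335) ln16_7_5_c10 ln16_7_5_c10_ok))))))))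 (B (M (nat_lit 401) (B (L (nat_lit 433) ln16_9_4_c10 ln16_9_4_c10_ok) (M (nat_lit 369) (B (L (nat_lit 272) ln16_8_4_c10 ln16_8_4_c10_ok) (M (nat_lit 402) (B (L (nat_lit 403) ln19_12_3_c10 ln19_12_3_c10_ok) (L (nat_lit 366) ln14_11_0 ln14_11_0_ok))))))) (B (M (nat_lit 399) (B (L (nat_lit 272) ln16_8_5 ln16_8_5_ok) (M (nat_lit 401) (B (L (nat_lit 433) ln16_9_4_c10 ln16_9_4_c10_ok) (M (nat_lit 366) (B (L (nat_lit 402) ln18_12_3 ln18_12_3_ok) (L (nat_lit 365) ln13_11_0 ln13_11_0_ok))))))) (M (nat_lit 401) (B (L (nat_lit 433) ln16_9_4_c10 ln16_9_4_c10_ok) (M (nat_lit 402) (B (L (nat_lit 403) ln19_12_3_c10 ln19_12_3_c10_ok) (M (nat_lit 366) (B (L (nat_lit 369) ln14_11_0 ln14_11_0_ok) (L (nat_lit 365) ln13_11_0 ln13_11_0_ok)))))))))))))))))))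
noncomputable def c10_d473 : Cert := (B (M (nat_lit 305) (B (M (nat_lit 337) (B (L (nat_lit 432) ln16_13_6_c10 ln16_13_6_c10_ok) (M (nat_lit 273) (B (L (nat_lit 241) ln17_7_5_c10 ln17_7_5_c10_ok) (L (nat_lit 304) ln16_12_6_c10 ln16_12_6_c10_ok))))) (B (M (nat_lit 304) (B (L (nat_lit 273) ln16_12_6_c10 ln16_12_6_c10_ok) (M (nat_lit 303) (B (L (nat_lit 271) ln16_12_7_c10 ln16_12_7_c10_ok) (M (nat_lit 335) (B (L (nat_lit 432) ln16_13_7 ln16_13_7_ok) (M (nat_lit 306) (B (L (nat_lit 307) ln19_9_1_c10 ln19_9_1_c10_ok) (L (nat_lit 334) ln18_9_1_c10 ln18_9_1_c10_ok))))))))) (B (M (nat_lit 335) (B (M (nat_lit 432) (B (L (nat_lit 337) ln16_13_6_c10 ln16_13_6_c10_ok) (L (nat_lit 303) ln16_13_7 ln16_13_7_ok))) (B (M (nat_lit 303) (B (L (nat_lit 432) ln16_13_7 ln16_13_7_ok) (M (nat_lit 304) (B (L (nat_lit 271) ln16_12_7_c10 ln16_12_7_c10_ok) (M (nat_lit 334) (B (L (nat_lit 306) ln18_9_1_c10 ln18_9_1_c10_ok) (L (nat_lit 333) ln13_10_2 ln13_10_2_ok))))))) (B (M (nat_lit 334) (B (M (nat_lit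 333) (B (L (nat_lit 369) ln13_10_0 ln13_10_0_ok) (L (nat_lit 304) ln13_10_2 ln13_10_2_ok))) (B (M (nat_lit 304) (B (L (nat_lit 333) ln13_10_2 ln13_10_2_ok) (M (nat_lit 306) (B (L (nat_lit 337) ln14_10_2_c10 ln14_10_2_c10_ok) (L (nat_lit 303) ln18_9_1_c10 ln18_9_1_c10_ok))))) (B (M (nat_lit 369) (B (L (nat_lit 333) ln13_10_0 ln13_10_0_ok) (M (nat_lit 337) (B (L (nat_lit 370) ln14_10_0 ln14_10_0_ok) (L (nat_lit 306) ln14_10_2_c10 ln14_10_2_c10_ok))))) (M (nat_lit 306) (B (L (nat_lit 337) ln14_10_2_c10 ln14_10_2_c10_ok) (M (nat_lit 304) (B (L (nat_lit 307) ln19_9_1_c10 ln19_9_1_c10_ok) (L (nat_lit 303) ln18_9_1_c10 ln18_9_1_c10_ok))))))))) (M (nat_lit 334) (B (M (nat_lit 337) (B (L (nat_lit 306) ln14_10_2_c10 ln14_10_2_c10_ok) (L (nat_lit 432) ln16_13_6_c10 ln16_13_6_c10_ok))) (M (nat_lit 333) (B (L (nat_lit 369) ln13_10_0 ln13_10_0_ok) (L (nat_lit 304) ln13_10_2 ln13_10_2_ok))))))))) (B (M (nat_lit 273) (B (L (nat_lit 304) ln16_12_6_c10 ln16_12_6_c10_ok) (M (nat_lit 337) (B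 (L (nat_lit 369) ln17_8_5_c10 ln17_8_5_c10_ok) (L (nat_lit 241) ln17_7_5_c10 ln17_7_5_c10_ok))))) (M (nat_lit 337) (B (L (nat_lit 432) ln16_13_6_c10 ln16_13_6_c10_ok) (M (nat_lit 273) (B (L (nat_lit 369) ln17_8_5_c10 ln17_8_5_c10_ok) (L (nat_lit 241) ln17_7_5_c10 ln17_7_5_c10_ok)))))))))) (B (M (nat_lit 337) (B (M (nat_lit 305) (B (L (nat_lit 432) ln16_13_6_c10 ln16_13_6_c10_ok) (M (nat_lit 273) (B (L (nat_lit 369) ln17_8_5_c10 ln17_8_5_c10_ok) (L (nat_lit 241) ln17_7_5_c10 ln17_7_5_c10_ok))))) (B (M (nat_lit 338) (B (M (nat_lit 367) (B (L (nat_lit 339) ln19_10_1_c10 ln19_10_1_c10_ok) (M (nat_lit 366) (B (L (nat_lit 365) ln13_11_2 ln13_11_2_ok) (L (nat_lit 335) ln18_10_1 ln18_10_1_ok))))) (B (M (nat_lit 367) (B (L (nat_lit 339) ln19_10_1_c10 ln19_10_1_c10_ok) (M (nat_lit 366) (B (L (nat_lit 369) ln14_11_2 ln14_11_2_ok) (L (nat_lit 335) ln18_10_1 ln18_10_1_ok))))) (B (M (nat_lit 339) (B (L (nat_lit 367) ln19_10_1_c10 ln19_10_1_c10_ok) (M (nat_lit 340) (B (L (nat_lit 369) ln20_10_1_c10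 ln20_10_1_c10_ok) (M (nat_lit 372) (B (L (nat_lit 371) ln16_10_0_c10 ln16_10_0_c10_ok) (L (nat_lit 373) ln17_10_0_c10 ln17_10_0_c10_ok))))))) (B (M (nat_lit 335) (B (M (nat_lit 306) (B (L (nat_lit 307) ln15_10_2_c10 ln15_10_2_c10_ok) (M (nat_lit 334) (B (L (nat_lit 305) ln14_10_2_c10 ln14_10_2_c10_ok) (M (nat_lit 302) (B (L (nat_lit 301) ln17_10_3_c10 ln17_10_3_c10_ok) (L (nat_lit 303) ln18_10_3_c10 ln18_10_3_c10_ok))))))) (B (M (nat_lit 339) (B (M (nat_lit 307) (B (L (nat_lit 306) ln15_10_2_c10 ln15_10_2_c10_ok) (L (nat_lit 308) ln16_10_2_c10 ln16_10_2_c10_ok))) (M (nat_lit 372) (B (L (nat_lit 371) ln16_10_0_c10 ln16_10_0_c10_ok) (M (nat_lit 340) (B (L (nat_lit 369) ln20_10_1_c10 ln20_10_1_c10_ok) (L (nat_lit 373) ln17_10_0_c10 ln17_10_0_c10_ok))))))) (M (nat_lit 334) (B (M (nat_lit 302) (B (L (nat_lit 301) ln17_10_3_c10 ln17_10_3_c10_ok) (L (nat_lit 303) ln18_10_3_c10 ln18_10_3_c10_ok))) (M (nat_lit 333) (B (L (nat_lit 369) ln13_10_0 ln13_10_0_ok) (M (nat_lit 365) (B (L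 (nat_lit 364) ln16_10_1 ln16_10_1_ok) (L (nat_lit 366) ln17_10_1 ln17_10_1_ok)))))))))) (M (nat_lit 335) (B (M (nat_lit 303) (B (L (nat_lit 302) ln18_10_3_c10 ln18_10_3_c10_ok) (M (nat_lit 367) (B (L (nat_lit 271) ln15_8_4 ln15_8_4_ok) (L (nat_lit 366) ln18_10_1 ln18_10_1_ok))))) (B (M (nat_lit 306) (B (L (nat_lit 307) ln15_10_2_c10 ln15_10_2_c10_ok) (M (nat_lit 334) (B (L (nat_lit 305) ln14_10_2_c10 ln14_10_2_c10_ok) (M (nat_lit 302) (B (L (nat_lit 301) ln17_10_3_c10 ln17_10_3_c10_ok) (L (nat_lit 303) ln18_10_3_c10 ln18_10_3_c10_ok))))))) (M (nat_lit 334) (B (M (nat_lit 366) (B (L (nat_lit 365) ln17_10_1 ln17_10_1_ok) (L (nat_lit 367) ln18_10_1 ln18_10_1_ok))) (M (nat_lit 306) (B (L (nat_lit 305) ln14_10_2_c10 ln14_10_2_c10_ok) (L (nat_lit 307) ln15_10_2_c10 ln15_10_2_c10_ok))))))))))))) (B (M (nat_lit 335) (B (M (nat_lit 432) (B (L (nat_lit 303) ln16_13_7 ln16_13_7_ok) (L (nat_lit 305) ln16_13_6_c10 ln16_13_6_c10_ok))) (B (M (nat_lit 338) (B (M (nat_lit 367) (B (L (nat_lit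 366) ln18_10_1 ln18_10_1_ok) (L (nat_lit 339) ln19_10_1_c10 ln19_10_1_c10_ok))) (M (nat_lit 306) (B (L (nat_lit 307) ln15_10_2_c10 ln15_10_2_c10_ok) (M (nat_lit 334) (B (L (nat_lit 305) ln14_10_2_c10 ln14_10_2_c10_ok) (M (nat_lit 302) (B (L (nat_lit 301) ln17_10_3_c10 ln17_10_3_c10_ok) (L (nat_lit 303) ln18_10_3_c10 ln18_10_3_c10_ok))))))))) (B (M (nat_lit 334) (B (M (nat_lit 305) (B (L (nat_lit 432) ln16_13_6_c10 ln16_13_6_c10_ok) (L (nat_lit 306) ln14_10_2_c10 ln14_10_2_c10_ok))) (M (nat_lit 333) (B (M (nat_lit 365) (B (L (nat_lit 364) ln16_10_1 ln16_10_1_ok) (L (nat_lit 366) ln17_10_1 ln17_10_1_ok))) (M (nat_lit 301) (B (L (nat_lit 300) ln16_10_3 ln16_10_3_ok) (L (nat_lit 302) ln17_10_3_c10 ln17_10_3_c10_ok))))))) (M (nat_lit 303) (B (L (nat_lit 432) ln16_13_7 ln16_13_7_ok) (M (nat_lit 271) (B (L (nat_lit 367) ln15_8_4 ln15_8_4_ok) (L (nat_lit 239) ln15_7_4_c10 ln15_7_4_c10_ok))))))))) (M (nat_lit 335) (B (M (nat_lit 303) (B (L (nat_lit 432) ln16_13_7 ln16_13_7_ok) (M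 (nat_lit 271) (B (L (nat_lit 367) ln15_8_4 ln15_8_4_ok) (L (nat_lit 239) ln15_7_4_c10 ln15_7_4_c10_ok))))) (B (M (nat_lit 334) (B (M (nat_lit 333) (B (L (nat_lit 369) ln13_10_0 ln13_10_0_ok) (M (nat_lit 365) (B (L (nat_lit 364) ln16_10_1 ln16_10_1_ok) (L (nat_lit 366) ln17_10_1 ln17_10_1_ok))))) (B (M (nat_lit 333) (B (L (nat_lit 369) ln13_10_0 ln13_10_0_ok) (M (nat_lit 301) (B (L (nat_lit 300) ln16_10_3 ln16_10_3_ok) (L (nat_lit 302) ln17_10_3_c10 ln17_10_3_c10_ok))))) (M (nat_lit 338) (B (M (nat_lit 366) (B (L (nat_lit 365) ln17_10_1 ln17_10_1_ok) (L (nat_lit 367) ln18_10_1 ln18_10_1_ok))) (M (nat_lit 302) (B (L (nat_lit 301) ln17_10_3_c10 ln17_10_3_c10_ok) (L (nat_lit 303) ln18_10_3_c10 ln18_10_3_c10_ok)))))))) (B (M (nat_lit 303) (B (L (nat_lit 432) ln16_13_7 ln16_13_7_ok) (M (nat_lit 302) (B (L (nat_lit 338) ln18_10_3_c10 ln18_10_3_c10_ok) (M (nat_lit 301) (B (L (nat_lit 334) ln17_10_3_c10 ln17_10_3_c10_ok) (L (nat_lit 300) ln12_9_0 ln12_9_0_ok))))))) (M (nat_lit 338)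 (B (M (nat_lit 367) (B (L (nat_lit 366) ln18_10_1 ln18_10_1_ok) (L (nat_lit 339) ln19_10_1_c10 ln19_10_1_c10_ok))) (B (M (nat_lit 339) (B (L (nat_lit 367) ln19_10_1_c10 ln19_10_1_c10_ok) (M (nat_lit 307) (B (L (nat_lit 306) ln15_10_2_c10 ln15_10_2_c10_ok) (L (nat_lit 308) ln16_10_2_c10 ln16_10_2_c10_ok))))) (B (M (nat_lit 339) (B (M (nat_lit 307) (B (L (nat_lit 306) ln15_10_2_c10 ln15_10_2_c10_ok) (L (nat_lit 308) ln16_10_2_c10 ln16_10_2_c10_ok))) (M (nat_lit 372) (B (L (nat_lit 371) ln16_10_0_c10 ln16_10_0_c10_ok) (M (nat_lit 340) (B (L (nat_lit 369) ln20_10_1_c10 ln20_10_1_c10_ok) (L (nat_lit 373) ln17_10_0_c10 ln17_10_0_c10_ok))))))) (M (nat_lit 334) (B (M (nat_lit 366) (B (L (nat_lit 365) ln17_10_1 ln17_10_1_ok) (L (nat_lit 367) ln18_10_1 ln18_10_1_ok))) (M (nat_lit 333) (B (L (nat_lit 369) ln13_10_0 ln13_10_0_ok) (M (nat_lit 301) (B (L (nat_lit 300) ln16_10_3 ln16_10_3_ok) (L (nat_lit 302) ln17_10_3_c10 ln17_10_3_c10_ok))))))))))))))))))) c10_d472))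
noncomputable def c10_d474 : Cert := (B (M (nat_lit 304) (B (M (nat_lit 271) (B (L (nat_lit 303) ln16_12_7_c10 ln16_12_7_c10_ok) (M (nat_lit 272) (B (L (nat_lit 239) ln16_11_7_c10 ln16_11_7_c10_ok) (M (nat_lit 273) (B (L (nat_lit 305) ln16_12_6_c10 ln16_12_6_c10_ok) (L (nat_lit 241) ln16_11_6_c10 ln16_11_6_c10_ok))))))) (B (M (nat_lit 272) (B (M (nat_lit 401) (B (L (nat_lit 433) ln16_9_4_c10 ln16_9_4_c10_ok) (L (nat_lit 369) ln16_8_4_c10 ln16_8_4_c10_ok))) (M (nat_lit 273) (B (L (nat_lit 305) ln16_12_6_c10 ln16_12_6_c10_ok) (L (nat_lit 241) ln16_11_6_c10 ln16_11_6_c10_ok))))) (B (M (nat_lit 272) (B (M (nat_lit 401) (B (L (nat_lit 433) ln16_9_4_c10 ln16_9_4_c10_ok) (L (nat_lit 369) ln16_8_4_c10 ln16_8_4_c10_ok))) (M (nat_lit 271) (B (L (nat_lit 303) ln16_12_7_c10 ln16_12_7_c10_ok) (L (nat_lit 239) ln16_11_7_c10 ln16_11_7_c10_ok))))) (M (nat_lit 432) (B (M (nat_lit 433) (B (L (nat_lit 465) ln16_10_4_c10 ln16_10_4_c10_ok) (L (nat_lit 401) ln16_9_4_c10 ln16_9_4_c10_ok))) (M (nat_lit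 303) (B (L (nat_lit 335) ln16_13_7 ln16_13_7_ok) (L (nat_lit 271) ln16_12_7_c10 ln16_12_7_c10_ok))))))))) (B (M (nat_lit 304) (B (M (nat_lit 272) (B (M (nat_lit 401) (B (L (nat_lit 433) ln16_9_4_c10 ln16_9_4_c10_ok) (L (nat_lit 369) ln16_8_4_c10 ln16_8_4_c10_ok))) (M (nat_lit 271) (B (L (nat_lit 303) ln16_12_7_c10 ln16_12_7_c10_ok) (L (nat_lit 239) ln16_11_7_c10 ln16_11_7_c10_ok))))) (B (M (nat_lit 273) (B (L (nat_lit 305) ln16_12_6_c10 ln16_12_6_c10_ok) (M (nat_lit 272) (B (L (nat_lit 241) ln16_11_6_c10 ln16_11_6_c10_ok) (M (nat_lit 271) (B (L (nat_lit 303) ln16_12_7_c10 ln16_12_7_c10_ok) (L (nat_lit 239) ln16_11_7_c10 ln16_11_7_c10_ok))))))) (B (M (nat_lit 272) (B (M (nat_lit 401) (B (L (nat_lit 433) ln16_9_4_c10 ln16_9_4_c10_ok) (L (nat_lit 369) ln16_8_4_c10 ln16_8_4_c10_ok))) (M (nat_lit 273) (B (L (nat_lit 305) ln16_12_6_c10 ln16_12_6_c10_ok) (L (nat_lit 241) ln16_11_6_c10 ln16_11_6_c10_ok))))) (M (nat_lit 432) (B (M (nat_lit 433) (B (L (nat_lit 465) ln16_10_4_c10 ln16_10_4_c10_ok)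 (L (nat_lit 401) ln16_9_4_c10 ln16_9_4_c10_ok))) (M (nat_lit 305) (B (L (nat_lit 337) ln16_13_6_c10 ln16_13_6_c10_ok) (L (nat_lit 273) ln16_12_6_c10 ln16_12_6_c10_ok))))))))) (B (M (nat_lit 304) (B (M (nat_lit 401) (B (L (nat_lit 433) ln16_9_4_c10 ln16_9_4_c10_ok) (M (nat_lit 273) (B (L (nat_lit 305) ln16_12_6_c10 ln16_12_6_c10_ok) (M (nat_lit 272) (B (L (nat_lit 241) ln16_11_6_c10 ln16_11_6_c10_ok) (L (nat_lit 369) ln16_8_4_c10 ln16_8_4_c10_ok))))))) (B (M (nat_lit 272) (B (M (nat_lit 271) (B (L (nat_lit 239) ln16_11_7_c10 ln16_11_7_c10_ok) (L (nat_lit 303) ln16_12_7_c10 ln16_12_7_c10_ok))) (M (nat_lit 401) (B (L (nat_lit 369) ln16_8_4_c10 ln16_8_4_c10_ok) (L (nat_lit 433) ln16_9_4_c10 ln16_9_4_c10_ok))))) (M (nat_lit 305) (B (L (nat_lit 273) ln16_12_6_c10 ln16_12_6_c10_ok) (M (nat_lit 303) (B (L (nat_lit 271) ln16_12_7_c10 ln16_12_7_c10_ok) (M (nat_lit 306) (B (M (nat_lit 335) (B (L (nat_lit 307) ln19_9_1_c10 ln19_9_1_c10_ok) (L (nat_lit 334) ln18_9_1_c10 ln18_9_1_c10_ok)))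 (B (M (nat_lit 302) (B (M (nat_lit 338) (B (L (nat_lit 339) ln15_9_0_c10 ln15_9_0_c10_ok) (L (nat_lit 337) ln14_9_0_c10 ln14_9_0_c10_ok))) (M (nat_lit 334) (B (L (nat_lit 335) ln18_9_1_c10 ln18_9_1_c10_ok) (L (nat_lit 333) ln17_9_1 ln17_9_1_ok))))) (M (nat_lit 307) (B (M (nat_lit 275) (B (L (nat_lit 276) ln16_9_2_c10 ln16_9_2_c10_ok) (L (nat_lit 274) ln15_9_2_c10 ln15_9_2_c10_ok))) (M (nat_lit 339) (B (L (nat_lit 340) ln16_9_0_c10 ln16_9_0_c10_ok) (L (nat_lit 338) ln15_9_0_c10 ln15_9_0_c10_ok))))))))))))))) (B (M (nat_lit 303) (B (M (nat_lit 271) (B (L (nat_lit 304) ln16_12_7_c10 ln16_12_7_c10_ok) (M (nat_lit 335) (B (L (nat_lit 367) ln15_8_4 ln15_8_4_ok) (L (nat_lit 432) ln16_13_7 ln16_13_7_ok))))) (B (M (nat_lit 337) (B (M (nat_lit 432) (B (L (nat_lit 335) ln16_13_7 ln16_13_7_ok) (L (nat_lit 305) ln16_13_6_c10 ln16_13_6_c10_ok))) (B (M (nat_lit 305) (B (L (nat_lit 432) ln16_13_6_c10 ln16_13_6_c10_ok) (M (nat_lit 273) (B (L (nat_lit 304) ln16_12_6_c10 ln16_12_6_c10_ok) (L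 (nat_lit 241) ln17_7_5_c10 ln17_7_5_c10_ok))))) (B (M (nat_lit 338) (B (M (nat_lit 339) (B (L (nat_lit 304) ln19_10_3_c10 ln19_10_3_c10_ok) (L (nat_lit 367) ln19_10_1_c10 ln19_10_1_c10_ok))) (B (M (nat_lit 302) (B (L (nat_lit 335) ln18_10_3_c10 ln18_10_3_c10_ok) (M (nat_lit 304) (B (L (nat_lit 301) ln13_9_0 ln13_9_0_ok) (L (nat_lit 339) ln19_10_3_c10 ln19_10_3_c10_ok))))) (B (M (nat_lit 335) (B (L (nat_lit 302) ln18_10_3_c10 ln18_10_3_c10_ok) (M (nat_lit 367) (B (L (nat_lit 366) ln18_10_1 ln18_10_1_ok) (L (nat_lit 339) ln19_10_1_c10 ln19_10_1_c10_ok))))) (M (nat_lit 302) (B (L (nat_lit 335) ln18_10_3_c10 ln18_10_3_c10_ok) (M (nat_lit 304) (B (L (nat_lit 301) ln13_9_0 ln13_9_0_ok) (L (nat_lit 305) ln14_9_0_c10 ln14_9_0_c10_ok))))))))) (M (nat_lit 338) (B (M (nat_lit 335) (B (L (nat_lit 302) ln18_10_3_c10 ln18_10_3_c10_ok) (L (nat_lit 432) ln16_13_7 ln16_13_7_ok))) (M (nat_lit 339) (B (L (nat_lit 304) ln19_10_3_c10 ln19_10_3_c10_ok) (L (nat_lit 367) ln19_10_1_c10 ln19_10_1_c10_ok)))))))))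 (B (M (nat_lit 304) (B (L (nat_lit 271) ln16_12_7_c10 ln16_12_7_c10_ok) (M (nat_lit 305) (B (L (nat_lit 273) ln16_12_6_c10 ln16_12_6_c10_ok) (M (nat_lit 337) (B (L (nat_lit 432) ln16_13_6_c10 ln16_13_6_c10_ok) (M (nat_lit 338) (B (L (nat_lit 302) ln14_9_0_c10 ln14_9_0_c10_ok) (L (nat_lit 339) ln19_10_3_c10 ln19_10_3_c10_ok))))))))) (B (M (nat_lit 335) (B (L (nat_lit 432) ln16_13_7 ln16_13_7_ok) (M (nat_lit 271) (B (L (nat_lit 239) ln15_7_4_c10 ln15_7_4_c10_ok) (L (nat_lit 367) ln15_8_4 ln15_8_4_ok))))) (M (nat_lit 271) (B (L (nat_lit 304) ln16_12_7_c10 ln16_12_7_c10_ok) (M (nat_lit 335) (B (L (nat_lit 239) ln15_7_4_c10 ln15_7_4_c10_ok) (L (nat_lit 367) ln15_8_4 ln15_8_4_ok)))))))))) (B (M (nat_lit 304) (B (M (nat_lit 272) (B (M (nat_lit 271) (B (L (nat_lit 239) ln16_11_7_c10 ln16_11_7_c10_ok) (L (nat_lit 303) ln16_12_7_c10 ln16_12_7_c10_ok))) (M (nat_lit 401) (B (L (nat_lit 369) ln16_8_4_c10 ln16_8_4_c10_ok) (L (nat_lit 433) ln16_9_4_c10 ln16_9_4_c10_ok))))) (B (M (nat_lit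 432) (B (M (nat_lit 305) (B (L (nat_lit 273) ln16_12_6_c10 ln16_12_6_c10_ok) (L (nat_lit 337) ln16_13_6_c10 ln16_13_6_c10_ok))) (M (nat_lit 433) (B (L (nat_lit 401) ln16_9_4_c10 ln16_9_4_c10_ok) (L (nat_lit 465) ln16_10_4_c10 ln16_10_4_c10_ok))))) (M (nat_lit 432) (B (M (nat_lit 305) (B (L (nat_lit 273) ln16_12_6_c10 ln16_12_6_c10_ok) (L (nat_lit 337) ln16_13_6_c10 ln16_13_6_c10_ok))) (M (nat_lit 303) (B (L (nat_lit 271) ln16_12_7_c10 ln16_12_7_c10_ok) (L (nat_lit 335) ln16_13_7 ln16_13_7_ok)))))))) c10_d473)))))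
noncomputable def c10_d475 : Cert := (B (M (nat_lit 336) (B (M (nat_lit 304) (B (M (nat_lit 271) (B (L (nat_lit 303) ln16_12_7_c10 ln16_12_7_c10_ok) (M (nat_lit 272) (B (L (nat_lit 239) ln16_11_7_c10 ln16_11_7_c10_ok) (M (nat_lit 273) (B (L (nat_lit 305) ln16_12_6_c10 ln16_12_6_c10_ok) (L (nat_lit 241) ln16_11_6_c10 ln16_11_6_c10_ok))))))) (B (M (nat_lit 272) (B (M (nat_lit 401) (B (L (nat_lit 433) ln16_9_4_c10 ln16_9_4_c10_ok) (L (nat_lit 369) ln16_8_4_c10 ln16_8_4_c10_ok))) (M (nat_lit 273) (B (L (nat_lit 305) ln16_12_6_c10 ln16_12_6_c10_ok) (L (nat_lit 241) ln16_11_6_c10 ln16_11_6_c10_ok))))) (B (M (nat_lit 272) (B (M (nat_lit 401) (B (L (nat_lit 433) ln16_9_4_c10 ln16_9_4_c10_ok) (L (nat_lit 369) ln16_8_4_c10 ln16_8_4_c10_ok))) (M (nat_lit 271) (B (L (nat_lit 303) ln16_12_7_c10 ln16_12_7_c10_ok) (L (nat_lit 239) ln16_11_7_c10 ln16_11_7_c10_ok))))) (M (nat_lit 433) (B (L (nat_lit 465) ln16_10_4_c10 ln16_10_4_c10_ok) (L (nat_lit 401) ln16_9_4_c10 ln16_9_4_c10_ok)))))))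 (B (M (nat_lit 304) (B (M (nat_lit 303) (B (L (nat_lit 271) ln16_12_7_c10 ln16_12_7_c10_ok) (L (nat_lit 335) ln16_13_7 ln16_13_7_ok))) (M (nat_lit 305) (B (L (nat_lit 273) ln16_12_6_c10 ln16_12_6_c10_ok) (L (nat_lit 337) ln16_13_6_c10 ln16_13_6_c10_ok))))) (B (M (nat_lit 304) (B (M (nat_lit 272) (B (M (nat_lit 271) (B (L (nat_lit 239) ln16_11_7_c10 ln16_11_7_c10_ok) (L (nat_lit 303) ln16_12_7_c10 ln16_12_7_c10_ok))) (M (nat_lit 401) (B (L (nat_lit 369) ln16_8_4_c10 ln16_8_4_c10_ok) (L (nat_lit 433) ln16_9_4_c10 ln16_9_4_c10_ok))))) (B (M (nat_lit 303) (B (L (nat_lit 271) ln16_12_7_c10 ln16_12_7_c10_ok) (L (nat_lit 335) ln16_13_7 ln16_13_7_ok))) (B (M (nat_lit 272) (B (M (nat_lit 401) (B (L (nat_lit 369) ln16_8_4_c10 ln16_8_4_c10_ok) (L (nat_lit 433) ln16_9_4_c10 ln16_9_4_c10_ok))) (M (nat_lit 240) (B (M (nat_lit 241) (B (L (nat_lit 209) ln16_10_6_c10 ln16_10_6_c10_ok) (L (nat_lit 273) ln16_11_6_c10 ln16_11_6_c10_ok))) (M (nat_lit 335) (B (L (nat_lit 367) ln16_7_5_c10 ln16_7_5_c10_ok)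 (L (nat_lit 303) ln16_13_7 ln16_13_7_ok))))))) (M (nat_lit 272) (B (M (nat_lit 401) (B (L (nat_lit 369) ln16_8_4_c10 ln16_8_4_c10_ok) (L (nat_lit 433) ln16_9_4_c10 ln16_9_4_c10_ok))) (M (nat_lit 240) (B (M (nat_lit 239) (B (L (nat_lit 207) ln16_10_7_c10 ln16_10_7_c10_ok) (L (nat_lit 271) ln16_11_7_c10 ln16_11_7_c10_ok))) (M (nat_lit 241) (B (L (nat_lit 209) ln16_10_6_c10 ln16_10_6_c10_ok) (L (nat_lit 273) ln16_11_6_c10 ln16_11_6_c10_ok))))))))))) (B (M (nat_lit 304) (B (M (nat_lit 303) (B (L (nat_lit 271) ln16_12_7_c10 ln16_12_7_c10_ok) (L (nat_lit 335) ln16_13_7 ln16_13_7_ok))) (M (nat_lit 433) (B (L (nat_lit 401) ln16_9_4_c10 ln16_9_4_c10_ok) (L (nat_lit 465) ln16_10_4_c10 ln16_10_4_c10_ok))))) (B (M (nat_lit 304) (B (M (nat_lit 433) (B (L (nat_lit 465) ln16_10_4_c10 ln16_10_4_c10_ok) (L (nat_lit 401) ln16_9_4_c10 ln16_9_4_c10_ok))) (M (nat_lit 305) (B (L (nat_lit 337) ln16_13_6_c10 ln16_13_6_c10_ok) (L (nat_lit 273) ln16_12_6_c10 ln16_12_6_c10_ok))))) (M (nat_lit 337)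 (B (L (nat_lit 305) ln16_13_6_c10 ln16_13_6_c10_ok) (M (nat_lit 335) (B (L (nat_lit 303) ln16_13_7 ln16_13_7_ok) (M (nat_lit 338) (B (M (nat_lit 339) (B (L (nat_lit 367) ln19_10_1_c10 ln19_10_1_c10_ok) (M (nat_lit 307) (B (L (nat_lit 306) ln15_10_2_c10 ln15_10_2_c10_ok) (L (nat_lit 308) ln16_10_2_c10 ln16_10_2_c10_ok))))) (B (M (nat_lit 339) (B (L (nat_lit 367) ln19_10_1_c10 ln19_10_1_c10_ok) (M (nat_lit 371) (B (L (nat_lit 372) ln16_10_0_c10 ln16_10_0_c10_ok) (L (nat_lit 370) ln15_10_0_c10 ln15_10_0_c10_ok))))) (M (nat_lit 370) (B (L (nat_lit 371) ln15_10_0_c10 ln15_10_0_c10_ok) (M (nat_lit 433) (B (L (nat_lit 465) ln16_10_4_c10 ln16_10_4_c10_ok) (M (nat_lit 306) (B (L (nat_lit 307) ln15_10_2_c10 ln15_10_2_c10_ok) (M (nat_lit 401) (B (L (nat_lit 402) ln18_9_5_c10 ln18_9_5_c10_ok) (L (nat_lit 369) ln17_13_6_c10 ln17_13_6_c10_ok)))))))))))))))))))))) (B (M (nat_lit 336) (B (M (nat_lit 304) (B (M (nat_lit 271) (B (L (nat_lit 303) ln16_12_7_c10 ln16_12_7_c10_ok) (M (nat_lit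 272) (B (L (nat_lit 239) ln16_11_7_c10 ln16_11_7_c10_ok) (M (nat_lit 273) (B (L (nat_lit 305) ln16_12_6_c10 ln16_12_6_c10_ok) (L (nat_lit 241) ln16_11_6_c10 ln16_11_6_c10_ok))))))) (B (M (nat_lit 272) (B (M (nat_lit 401) (B (L (nat_lit 433) ln16_9_4_c10 ln16_9_4_c10_ok) (L (nat_lit 369) ln16_8_4_c10 ln16_8_4_c10_ok))) (M (nat_lit 273) (B (L (nat_lit 305) ln16_12_6_c10 ln16_12_6_c10_ok) (L (nat_lit 241) ln16_11_6_c10 ln16_11_6_c10_ok))))) (B (M (nat_lit 272) (B (M (nat_lit 401) (B (L (nat_lit 433) ln16_9_4_c10 ln16_9_4_c10_ok) (L (nat_lit 369) ln16_8_4_c10 ln16_8_4_c10_ok))) (M (nat_lit 271) (B (L (nat_lit 303) ln16_12_7_c10 ln16_12_7_c10_ok) (L (nat_lit 239) ln16_11_7_c10 ln16_11_7_c10_ok))))) (M (nat_lit 433) (B (L (nat_lit 465) ln16_10_4_c10 ln16_10_4_c10_ok) (L (nat_lit 401) ln16_9_4_c10 ln16_9_4_c10_ok))))))) (B (M (nat_lit 304) (B (M (nat_lit 401) (B (L (nat_lit 433) ln16_9_4_c10 ln16_9_4_c10_ok) (M (nat_lit 273) (B (L (nat_lit 305) ln16_12_6_c10 ln16_12_6_c10_ok) (M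 (nat_lit 272) (B (L (nat_lit 241) ln16_11_6_c10 ln16_11_6_c10_ok) (L (nat_lit 369) ln16_8_4_c10 ln16_8_4_c10_ok))))))) (B (M (nat_lit 272) (B (M (nat_lit 271) (B (L (nat_lit 239) ln16_11_7_c10 ln16_11_7_c10_ok) (L (nat_lit 303) ln16_12_7_c10 ln16_12_7_c10_ok))) (M (nat_lit 401) (B (L (nat_lit 369) ln16_8_4_c10 ln16_8_4_c10_ok) (L (nat_lit 433) ln16_9_4_c10 ln16_9_4_c10_ok))))) (M (nat_lit 305) (B (L (nat_lit 273) ln16_12_6_c10 ln16_12_6_c10_ok) (M (nat_lit 303) (B (L (nat_lit 271) ln16_12_7_c10 ln16_12_7_c10_ok) (M (nat_lit 306) (B (L (nat_lit 335) ln16_13_7 ln16_13_7_ok) (M (nat_lit 307) (B (M (nat_lit 275) (B (L (nat_lit 276) ln16_9_2_c10 ln16_9_2_c10_ok) (L (nat_lit 274) ln15_9_2_c10 ln15_9_2_c10_ok))) (M (nat_lit 339) (B (L (nat_lit 340) ln16_9_0_c10 ln16_9_0_c10_ok) (L (nat_lit 338) ln15_9_0_c10 ln15_9_0_c10_ok)))))))))))))) (B (M (nat_lit 305) (B (M (nat_lit 273) (B (L (nat_lit 304) ln16_12_6_c10 ln16_12_6_c10_ok) (L (nat_lit 337) ln16_13_6_c10 ln16_13_6_c10_ok))) (B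 (M (nat_lit 335) (B (L (nat_lit 337) ln16_13_6_c10 ln16_13_6_c10_ok) (L (nat_lit 303) ln16_13_7 ln16_13_7_ok))) (M (nat_lit 304) (B (L (nat_lit 273) ln16_12_6_c10 ln16_12_6_c10_ok) (M (nat_lit 303) (B (L (nat_lit 271) ln16_12_7_c10 ln16_12_7_c10_ok) (L (nat_lit 335) ln16_13_7 ln16_13_7_ok)))))))) (B (M (nat_lit 304) (B (M (nat_lit 303) (B (L (nat_lit 271) ln16_12_7_c10 ln16_12_7_c10_ok) (L (nat_lit 335) ln16_13_7 ln16_13_7_ok))) (M (nat_lit 433) (B (L (nat_lit 401) ln16_9_4_c10 ln16_9_4_c10_ok) (L (nat_lit 465) ln16_10_4_c10 ln16_10_4_c10_ok))))) (B (M (nat_lit 304) (B (M (nat_lit 433) (B (L (nat_lit 465) ln16_10_4_c10 ln16_10_4_c10_ok) (L (nat_lit 401) ln16_9_4_c10 ln16_9_4_c10_ok))) (M (nat_lit 305) (B (L (nat_lit 337) ln16_13_6_c10 ln16_13_6_c10_ok) (L (nat_lit 273) ln16_12_6_c10 ln16_12_6_c10_ok))))) (M (nat_lit 337) (B (L (nat_lit 305) ln16_13_6_c10 ln16_13_6_c10_ok) (M (nat_lit 335) (B (L (nat_lit 303) ln16_13_7 ln16_13_7_ok) (M (nat_lit 338) (B (M (nat_lit 371) (B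 (L (nat_lit 370) ln15_10_0_c10 ln15_10_0_c10_ok) (M (nat_lit 339) (B (L (nat_lit 372) ln16_10_0_c10 ln16_10_0_c10_ok) (M (nat_lit 307) (B (L (nat_lit 308) ln16_10_2_c10 ln16_10_2_c10_ok) (L (nat_lit 306) ln15_10_2_c10 ln15_10_2_c10_ok))))))) (B (M (nat_lit 369) (B (M (nat_lit 370) (B (L (nat_lit 371) ln15_10_0_c10 ln15_10_0_c10_ok) (L (nat_lit 334) ln14_10_0 ln14_10_0_ok))) (B (M (nat_lit 334) (B (L (nat_lit 370) ln14_10_0 ln14_10_0_ok) (L (nat_lit 333) ln13_10_0 ln13_10_0_ok))) (M (nat_lit 433) (B (L (nat_lit 465) ln16_10_4_c10 ln16_10_4_c10_ok) (M (nat_lit 306) (B (L (nat_lit 307) ln15_10_2_c10 ln15_10_2_c10_ok) (L (nat_lit 401) ln17_13_6_c10 ln17_13_6_c10_ok)))))))) (B (M (nat_lit 339) (B (M (nat_lit 371) (B (L (nat_lit 372) ln16_10_0_c10 ln16_10_0_c10_ok) (L (nat_lit 370) ln15_10_0_c10 ln15_10_0_c10_ok))) (B (M (nat_lit 369) (B (L (nat_lit 340) ln20_10_1_c10 ln20_10_1_c10_ok) (M (nat_lit 370) (B (L (nat_lit 371) ln15_10_0_c10 ln15_10_0_c10_ok) (L (nat_lit 334) ln14_10_0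 ln14_10_0_ok))))) (B (M (nat_lit 369) (B (L (nat_lit 340) ln20_10_1_c10 ln20_10_1_c10_ok) (M (nat_lit 334) (B (L (nat_lit 370) ln14_10_0 ln14_10_0_ok) (L (nat_lit 333) ln13_10_0 ln13_10_0_ok))))) (M (nat_lit 340) (B (L (nat_lit 369) ln20_10_1_c10 ln20_10_1_c10_ok) (M (nat_lit 372) (B (L (nat_lit 373) ln17_10_0_c10 ln17_10_0_c10_ok) (L (nat_lit 371) ln16_10_0_c10 ln16_10_0_c10_ok))))))))) (B (M (nat_lit 369) (B (M (nat_lit 334) (B (L (nat_lit 370) ln14_10_0 ln14_10_0_ok) (L (nat_lit 333) ln13_10_0 ln13_10_0_ok))) (M (nat_lit 433) (B (L (nat_lit 465) ln16_10_4_c10 ln16_10_4_c10_ok) (M (nat_lit 306) (B (L (nat_lit 307) ln15_10_2_c10 ln15_10_2_c10_ok) (L (nat_lit 401) ln17_13_6_c10 ln17_13_6_c10_ok))))))) (M (nat_lit 339) (B (M (nat_lit 307) (B (L (nat_lit 308) ln16_10_2_c10 ln16_10_2_c10_ok) (L (nat_lit 306) ln15_10_2_c10 ln15_10_2_c10_ok))) (M (nat_lit 340) (B (L (nat_lit 369) ln20_10_1_c10 ln20_10_1_c10_ok) (M (nat_lit 372) (B (L (nat_lit 373) ln17_10_0_c10 ln17_10_0_c10_ok)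 (L (nat_lit 371) ln16_10_0_c10 ln16_10_0_c10_ok)))))))))))))))))))))) (M (nat_lit 366) (B (L (nat_lit 398) ln13_15_6 ln13_15_6_ok) (M (nat_lit 365) (B (L (nat_lit 334) ln13_14_6 ln13_14_6_ok) (M (nat_lit 332) (B (L (nat_lit 364) ln13_14_7 ln13_14_7_ok) (M (nat_lit 333) (B (L (nat_lit 300) ln13_13_7 ln13_13_7_ok) (L (nat_lit 367) ln16_11_3 ln16_11_3_ok)))))))))))
theorem c10_s446 : Sem (nat_lit 179013548899091572664880704629542820472490348285883787556838639463866277061008517690714755186984062795696963535975549726517944199920874397723040677888) (nat_lit 37739624261890090464272723827526876821148685565373815621288236014828564519478912846153522758779820488914250081348043793322958827154383983735679246628562094185731953000448) (nat_lit 37739624261890090464272723827526876821148685565373815621288236014828564519478912846153522758779820488914250081348043793322958827154383983735679246628562094185731953000448) :=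
  sem_of_chk (M (nat_lit 400) (B (M (nat_lit 368) (B (K (nat_lit 179013548899091572664880704632125070351178483776729808035181358370974053132845915936065944430425776906426050241034534841324788974943278357671963525120) (nat_lit 37739624260517130932233815202468402357140884053463454476569810552036447999796936773121328602748583558460775401913685683016638816207427314948315371078197578777679127117824) (nat_lit 37739624260517130932233815202468402357140884053463454476569810552036447999796936773121328602748583558460775401913685683016638816207427314948315371078197578777679127117824) c10_s444) (B (M (nat_lit 336) (B (M (nat_lit 304) (B (M (nat_lit 303) (B (L (nat_lit 271) ln16_12_7_c10 ln16_12_7_c10_ok) (M (nat_lit 432) (B (L (nat_lit 431) ln16_10_5 ln16_10_5_ok) (L (nat_lit 335) ln16_13_7 ln16_13_7_ok))))) (B (M (nat_lit 272) (B (M (nat_lit 271) (B (L (nat_lit 239) ln16_11_7_c10 ln16_11_7_c10_ok) (L (nat_lit 303) ln16_12_7_c10 ln16_12_7_c10_ok))) (M (nat_lit 401) (B (L (nat_lit 369)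 ln16_8_4_c10 ln16_8_4_c10_ok) (L (nat_lit 433) ln16_9_4_c10 ln16_9_4_c10_ok))))) (B (M (nat_lit 401) (B (L (nat_lit 433) ln16_9_4_c10 ln16_9_4_c10_ok) (M (nat_lit 272) (B (L (nat_lit 369) ln16_8_4_c10 ln16_8_4_c10_ok) (M (nat_lit 240) (B (M (nat_lit 239) (B (L (nat_lit 271) ln16_11_7_c10 ln16_11_7_c10_ok) (L (nat_lit 207) ln16_10_7_c10 ln16_10_7_c10_ok))) (M (nat_lit 241) (B (L (nat_lit 273) ln16_11_6_c10 ln16_11_6_c10_ok) (L (nat_lit 209) ln16_10_6_c10 ln16_10_6_c10_ok))))))))) (M (nat_lit 272) (B (M (nat_lit 401) (B (L (nat_lit 369) ln16_8_4_c10 ln16_8_4_c10_ok) (L (nat_lit 433) ln16_9_4_c10 ln16_9_4_c10_ok))) (M (nat_lit 240) (B (M (nat_lit 241) (B (L (nat_lit 209) ln16_10_6_c10 ln16_10_6_c10_ok) (L (nat_lit 273) ln16_11_6_c10 ln16_11_6_c10_ok))) (M (nat_lit 335) (B (L (nat_lit 367) ln16_7_5_c10 ln16_7_5_c10_ok) (M (nat_lit 303) (B (L (nat_lit 208) ln16_6_5_c10 ln16_6_5_c10_ok) (L (nat_lit 432) ln16_13_7 ln16_13_7_ok))))))))))))) (B (M (nat_lit 304) (B (M (nat_lit 401)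 (B (L (nat_lit 433) ln16_9_4_c10 ln16_9_4_c10_ok) (M (nat_lit 273) (B (L (nat_lit 305) ln16_12_6_c10 ln16_12_6_c10_ok) (M (nat_lit 272) (B (L (nat_lit 241) ln16_11_6_c10 ln16_11_6_c10_ok) (L (nat_lit 369) ln16_8_4_c10 ln16_8_4_c10_ok))))))) (B (M (nat_lit 272) (B (M (nat_lit 271) (B (L (nat_lit 239) ln16_11_7_c10 ln16_11_7_c10_ok) (L (nat_lit 303) ln16_12_7_c10 ln16_12_7_c10_ok))) (M (nat_lit 401) (B (L (nat_lit 369) ln16_8_4_c10 ln16_8_4_c10_ok) (L (nat_lit 433) ln16_9_4_c10 ln16_9_4_c10_ok))))) (M (nat_lit 305) (B (L (nat_lit 273) ln16_12_6_c10 ln16_12_6_c10_ok) (M (nat_lit 303) (B (L (nat_lit 271) ln16_12_7_c10 ln16_12_7_c10_ok) (M (nat_lit 306) (B (M (nat_lit 335) (B (L (nat_lit 307) ln19_9_1_c10 ln19_9_1_c10_ok) (L (nat_lit 334) ln18_9_1_c10 ln18_9_1_c10_ok))) (B (M (nat_lit 302) (B (M (nat_lit 338) (B (L (nat_lit 339) ln15_9_0_c10 ln15_9_0_c10_ok) (L (nat_lit 337) ln14_9_0_c10 ln14_9_0_c10_ok))) (M (nat_lit 334) (B (L (nat_lit 335) ln18_9_1_c10 ln18_9_1_c10_ok) (L (nat_lit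 333) ln17_9_1 ln17_9_1_ok))))) (M (nat_lit 307) (B (M (nat_lit 275) (B (L (nat_lit 276) ln16_9_2_c10 ln16_9_2_c10_ok) (L (nat_lit 274) ln15_9_2_c10 ln15_9_2_c10_ok))) (M (nat_lit 339) (B (L (nat_lit 340) ln16_9_0_c10 ln16_9_0_c10_ok) (L (nat_lit 338) ln15_9_0_c10 ln15_9_0_c10_ok))))))))))))))) c10_d471))) (B (M (nat_lit 336) c10_d474) (M (nat_lit 527) (B (M (nat_lit 431) (B (L (nat_lit 432) ln15_16_6 ln15_16_6_ok) (L (nat_lit 399) ln15_15_6 ln15_15_6_ok))) (M (nat_lit 492) (B (L (nat_lit 528) ln12_15_0 ln12_15_0_ok) (L (nat_lit 524) ln13_12_5 ln13_12_5_ok))))))))) (B (M (nat_lit 492) (B (M (nat_lit 527) (B (M (nat_lit 432) (B (M (nat_lit 368) c10_d475) (L (nat_lit 431) ln15_16_6 ln15_16_6_ok))) (L (nat_lit 528) ln12_15_0 ln12_15_0_ok))) (L (nat_lit 524) ln13_12_5 ln13_12_5_ok))) (B (M (nat_lit 399) (B (M (nat_lit 398) (B (M (nat_lit 527) (B (M (nat_lit 432) (B (L (nat_lit 431) ln15_16_6 ln15_16_6_ok) (L (nat_lit 433) ln13_12_0 ln13_12_0_ok))) (M (nat_lit 492) (B (L (nat_lit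 528) ln12_15_0 ln12_15_0_ok) (L (nat_lit 524) ln13_12_5 ln13_12_5_ok))))) (L (nat_lit 428) ln16_12_1 ln16_12_1_ok))) (B (M (nat_lit 398) (B (L (nat_lit 428) ln16_12_1 ln16_12_1_ok) (M (nat_lit 401) (B (M (nat_lit 433) (B (L (nat_lit 434) ln14_12_0 ln14_12_0_ok) (L (nat_lit 432) ln13_12_0 ln13_12_0_ok))) (M (nat_lit 369) (B (L (nat_lit 370) ln14_12_2 ln14_12_2_ok) (L (nat_lit 368) ln13_12_2 ln13_12_2_ok))))))) (B (M (nat_lit 527) (B (M (nat_lit 492) (B (L (nat_lit 528) ln12_15_0 ln12_15_0_ok) (L (nat_lit 524) ln13_12_5 ln13_12_5_ok))) (M (nat_lit 431) (B (L (nat_lit 432) ln15_16_6 ln15_16_6_ok) (L (nat_lit 368) ln15_15_6 ln15_15_6_ok))))) (M (nat_lit 368) (B (M (nat_lit 398) (B (L (nat_lit 428) ln16_12_1 ln16_12_1_ok) (L (nat_lit 369) ln13_12_2 ln13_12_2_ok))) (L (nat_lit 431) ln15_15_6 ln15_15_6_ok))))))) (B (M (nat_lit 398) (B (M (nat_lit 399) (B (M (nat_lit 527) (B (M (nat_lit 432) (B (L (nat_lit 431) ln15_16_6 ln15_16_6_ok) (L (nat_lit 433) ln13_12_0 ln13_12_0_ok))) (M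 (nat_lit 492) (B (L (nat_lit 528) ln12_15_0 ln12_15_0_ok) (L (nat_lit 524) ln13_12_5 ln13_12_5_ok))))) (L (nat_lit 428) ln16_12_1 ln16_12_1_ok))) (L (nat_lit 366) ln13_15_6 ln13_15_6_ok))) (B (M (nat_lit 398) (B (L (nat_lit 366) ln13_15_6 ln13_15_6_ok) (M (nat_lit 399) (B (L (nat_lit 428) ln16_12_1 ln16_12_1_ok) (M (nat_lit 433) (B (L (nat_lit 432) ln13_12_0 ln13_12_0_ok) (M (nat_lit 401) (B (L (nat_lit 434) ln14_12_0 ln14_12_0_ok) (M (nat_lit 369) (B (L (nat_lit 370) ln14_12_2 ln14_12_2_ok) (L (nat_lit 368) ln13_12_2 ln13_12_2_ok))))))))))) (M (nat_lit 398) (B (M (nat_lit 399) (B (M (nat_lit 368) (B (L (nat_lit 431) ln15_15_6 ln15_15_6_ok) (L (nat_lit 369) ln13_12_2 ln13_12_2_ok))) (L (nat_lit 428) ln16_12_1 ln16_12_1_ok))) (L (nat_lit 366) ln13_15_6 ln13_15_6_ok))))))))) (nat_lit 179013548899091572664880704629542820472490348285883787556838639463866277061008517690714755186984062795696963535975549726517944199920874397723040677888) (nat_lit 37739624261890090464272723827526876821148685565373815621288236014828564519478912846153522758779820488914250081348043793322958827154383983735679246628562094185731953000448)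 (nat_lit 37739624261890090464272723827526876821148685565373815621288236014828564519478912846153522758779820488914250081348043793322958827154383983735679246628562094185731953000448) (by decide +kernel)
noncomputable def c10_d476 : Cert := (B (K (nat_lit 5954262830815946494763249298843757173852324438261567950902348008252711619201165097221184162808274170258209505398083731990017737449713696768) (nat_lit 633165841186404667301192165495663090666088690274556714232141249950316524015800253022819616779656468031120182112360789373839196911729736902555841556218335394877917535730365628416) (nat_lit 633165841186404667301192165495663090666088690274556714232141249950316524015800253022819616779656468031120182112360789373839196911729736902555841556218335394877917535730365628416) c10_s407) (B (K (nat_lit 5954262830815946494763249298843757173852324438261567950902348008252711619201165097221184162808274170258209505398083731990017737449713696768) (nat_lit 13208868489950824085351155109865655222757235114741041868884393176626271551614361781148658982440678202729920725844000926332076330680344727043530249685936271001263544467456)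 (nat_lit 13208868489950824085351155109865655222757235114741041868884393176626271551614361781148658982440678202729920725844000926332076330680344727043530249685936271001263544467456) c10_s405) (B (K (nat_lit 5954262830815946494763249298843757173852324438261567950902348008252711619201165097221184162808274170258209505398083731990017737449713696768) (nat_lit 153440184828491329809043217712881781326067183008575983670623962526992469891139645942059756586309978449332283792638360061382796846546361196627361792000) (nat_lit 153440184828491329809043217712881781326067183008575983670623962526992469891139645942059756586309978449332283792638360061382796846546361196627361792000) c10_s408) (B (M (nat_lit 366) (B (L (nat_lit 334) ln13_14_6 ln13_14_6_ok) (M (nat_lit 367) (B (M (nat_lit 396) (B (L (nat_lit 368) ln16_11_1 ln16_11_1_ok) (M (nat_lit 395) (B (L (nat_lit 364) ln15_11_1 ln15_11_1_ok) (L (nat_lit 398) ln11_12_2 ln11_12_2_ok))))) (B (M (nat_lit 364) (B (L (nat_lit 332) ln13_14_7 ln13_14_7_ok)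 (M (nat_lit 363) (B (M (nat_lit 399) (B (L (nat_lit 400) ln12_11_0 ln12_11_0_ok) (L (nat_lit 398) ln11_11_0 ln11_11_0_ok))) (M (nat_lit 395) (B (L (nat_lit 396) ln15_11_1 ln15_11_1_ok) (L (nat_lit 394) ln14_11_1 ln14_11_1_ok))))))) (B (M (nat_lit 396) (B (L (nat_lit 368) ln16_11_1 ln16_11_1_ok) (M (nat_lit 395) (B (L (nat_lit 398) ln11_12_2 ln11_12_2_ok) (L (nat_lit 394) ln10_12_2 ln10_12_2_ok))))) (B (M (nat_lit 396) (B (L (nat_lit 368) ln16_11_1 ln16_11_1_ok) (M (nat_lit 395) (B (L (nat_lit 364) ln15_11_1 ln15_11_1_ok) (L (nat_lit 394) ln10_12_2 ln10_12_2_ok))))) (M (nat_lit 364) (B (L (nat_lit 332) ln13_14_7 ln13_14_7_ok) (M (nat_lit 368) (B (M (nat_lit 336) (B (L (nat_lit 337) ln13_11_2 ln13_11_2_ok) (L (nat_lit 335) ln12_11_2 ln12_11_2_ok))) (M (nat_lit 400) (B (L (nat_lit 401) ln13_11_0 ln13_11_0_ok) (L (nat_lit 399) ln12_11_0 ln12_11_0_ok)))))))))))))) (B (M (nat_lit 364) (B (L (nat_lit 332) ln13_14_7 ln13_14_7_ok) (M (nat_lit 363) (B (M (nat_lit 398) (B (L (nat_lit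 362) ln10_11_0 ln10_11_0_ok) (M (nat_lit 399) (B (L (nat_lit 366) ln11_11_0 ln11_11_0_ok) (L (nat_lit 396) ln15_12_3 ln15_12_3_ok))))) (B (M (nat_lit 366) (B (L (nat_lit 334) ln13_14_6 ln13_14_6_ok) (M (nat_lit 367) (B (M (nat_lit 395) (B (L (nat_lit 394) ln14_11_1 ln14_11_1_ok) (L (nat_lit 396) ln15_11_1 ln15_11_1_ok))) (M (nat_lit 399) (B (L (nat_lit 398) ln11_11_0 ln11_11_0_ok) (L (nat_lit 400) ln12_11_0 ln12_11_0_ok))))))) (B (M (nat_lit 398) (B (L (nat_lit 362) ln10_11_0 ln10_11_0_ok) (M (nat_lit 399) (B (L (nat_lit 396) ln15_12_3 ln15_12_3_ok) (L (nat_lit 400) ln16_12_3 ln16_12_3_ok))))) (B (M (nat_lit 398) (B (L (nat_lit 362) ln10_11_0 ln10_11_0_ok) (M (nat_lit 399) (B (L (nat_lit 366) ln11_11_0 ln11_11_0_ok) (L (nat_lit 400) ln16_12_3 ln16_12_3_ok))))) (M (nat_lit 366) (B (L (nat_lit 334) ln13_14_6 ln13_14_6_ok) (M (nat_lit 362) (B (M (nat_lit 330) (B (L (nat_lit 329) ln13_11_3 ln13_11_3_ok) (L (nat_lit 331) ln14_11_3 ln14_11_3_ok))) (M (nat_lit 394) (B (L (nat_lit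 393) ln13_11_1 ln13_11_1_ok) (L (nat_lit 395) ln14_11_1 ln14_11_1_ok)))))))))))))) (B (M (nat_lit 366) (B (L (nat_lit 334) ln13_14_6 ln13_14_6_ok) (M (nat_lit 364) (B (L (nat_lit 332) ln13_14_7 ln13_14_7_ok) (M (nat_lit 367) (B (M (nat_lit 396) (B (L (nat_lit 395) ln15_11_1 ln15_11_1_ok) (L (nat_lit 368) ln16_11_1 ln16_11_1_ok))) (B (M (nat_lit 368) (B (L (nat_lit 396) ln16_11_1 ln16_11_1_ok) (M (nat_lit 336) (B (L (nat_lit 335) ln12_11_2 ln12_11_2_ok) (L (nat_lit 337) ln13_11_2 ln13_11_2_ok))))) (B (M (nat_lit 368) (B (M (nat_lit 336) (B (L (nat_lit 335) ln12_11_2 ln12_11_2_ok) (L (nat_lit 337) ln13_11_2 ln13_11_2_ok))) (M (nat_lit 401) (B (L (nat_lit 400) ln13_11_0 ln13_11_0_ok) (M (nat_lit 369) (B (L (nat_lit 398) ln17_11_1 ln17_11_1_ok) (L (nat_lit 402) ln14_11_0 ln14_11_0_ok))))))) (M (nat_lit 363) (B (M (nat_lit 395) (B (L (nat_lit 394) ln14_11_1 ln14_11_1_ok) (L (nat_lit 396) ln15_11_1 ln15_11_1_ok))) (M (nat_lit 362) (B (L (nat_lit 398) ln10_11_0 ln10_11_0_ok) (M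 (nat_lit 330) (B (L (nat_lit 329) ln13_11_3 ln13_11_3_ok) (L (nat_lit 331) ln14_11_3 ln14_11_3_ok))))))))))))))) (B (M (nat_lit 333) (B (M (nat_lit 332) (B (L (nat_lit 364) ln13_14_7 ln13_14_7_ok) (L (nat_lit 300) ln13_13_7 ln13_13_7_ok))) (B (M (nat_lit 301) (B (M (nat_lit 302) (B (L (nat_lit 334) ln13_13_6 ln13_13_6_ok) (L (nat_lit 270) ln13_12_6 ln13_12_6_ok))) (M (nat_lit 300) (B (L (nat_lit 332) ln13_13_7 ln13_13_7_ok) (L (nat_lit 268) ln13_12_7 ln13_12_7_ok))))) (B (M (nat_lit 301) (B (M (nat_lit 302) (B (L (nat_lit 334) ln13_13_6 ln13_13_6_ok) (L (nat_lit 270) ln13_12_6 ln13_12_6_ok))) (M (nat_lit 269) (B (M (nat_lit 396) (B (L (nat_lit 428) ln13_9_5 ln13_9_5_ok) (L (nat_lit 364) ln13_8_5 ln13_8_5_ok))) (M (nat_lit 268) (B (L (nat_lit 300) ln13_12_7 ln13_12_7_ok) (L (nat_lit 236) ln13_11_7 ln13_11_7_ok))))))) (M (nat_lit 301) (B (M (nat_lit 302) (B (L (nat_lit 334) ln13_13_6 ln13_13_6_ok) (L (nat_lit 270) ln13_12_6 ln13_12_6_ok))) (M (nat_lit 396) (B (L (nat_lit 428)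 ln13_9_5 ln13_9_5_ok) (M (nat_lit 364) (B (L (nat_lit 332) ln13_14_7 ln13_14_7_ok) (L (nat_lit 269) ln13_8_5 ln13_8_5_ok))))))))))) (M (nat_lit 333) (B (M (nat_lit 334) (B (L (nat_lit 302) ln13_13_6 ln13_13_6_ok) (L (nat_lit 366) ln13_14_6 ln13_14_6_ok))) (M (nat_lit 332) (B (L (nat_lit 300) ln13_13_7 ln13_13_7_ok) (L (nat_lit 364) ln13_14_7 ln13_14_7_ok))))))))))))
theorem c10_s447 : Sem (nat_lit 5954262830815946494763249298768603811203561774969104571805089223376689777636098861358550851719243481454542035207245364041705138952691777536) (nat_lit 633165841186404667301192165495663090666088690274556714232141249950391677378484011697708608349543686851630085895771634875639662341023623278029455567404565553837308968486580518912) (nat_lit 633165841186404667301192165495663090666088690274556714232141249950391677378484011697708608349543686851630085895771634875639662341023623278029455567404565553837308968486580518912) :=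
  sem_of_chk (M (nat_lit 365) c10_d476) (nat_lit 5954262830815946494763249298768603811203561774969104571805089223376689777636098861358550851719243481454542035207245364041705138952691777536) (nat_lit 633165841186404667301192165495663090666088690274556714232141249950391677378484011697708608349543686851630085895771634875639662341023623278029455567404565553837308968486580518912) (nat_lit 633165841186404667301192165495663090666088690274556714232141249950391677378484011697708608349543686851630085895771634875639662341023623278029455567404565553837308968486580518912) (by decide +kernel)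

end Vale.Agent.Lib.P062.Data
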