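import Vale.Agent.Lib.P062.Data.c10_lines
import Vale.Agent.Lib.P062.Data.c10_l0_0
import Vale.Agent.Lib.P062.Data.c10_l0_1
import Vale.Agent.Lib.P062.Data.c10_l0_2
import Vale.Agent.Lib.P062.Data.c10_l0_3
import Vale.Agent.Lib.P062.Data.c10_l1_1
import Vale.Agent.Lib.P062.Data.c10_l1_3
import Vale.Agent.Lib.P062.Data.c10_l1_4
import Vale.Agent.Lib.P062.Data.c10_l2_0
import Vale.Agent.Lib.P062.Data.c10_l2_1
import Vale.Agent.Lib.P062.Data.c10_l2_2
import Vale.Agent.Lib.P062.Data.c10_l2_3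

namespace Vale.Agent.Lib.P062.Data
noncomputable def c10_d477 : Cert := (B (M (nat_lit 297) (B (M (nat_lit 265) (B (M (nat_lit 392) (B (L (nat_lit 424) ln9_9_5_c10 ln9_9_5_c10_ok) (L (nat_lit 360) ln9_8_5_c10 ln9_8_5_c10_ok))) (M (nat_lit 264) (B (L (nat_lit 296) ln9_12_7_c10 ln9_12_7_c10_ok) (L (nat_lit 232) ln9_11_7_c10 ln9_11_7_c10_ok))))) (B (M (nat_lit 265) (B (M (nat_lit 264) (B (L (nat_lit 296) ln9_12_7_c10 ln9_12_7_c10_ok) (L (nat_lit 232) ln9_11_7_c10 ln9_11_7_c10_ok))) (M (nat_lit 266) (B (L (nat_lit 298) ln9_12_6_c10 ln9_12_6_c10_ok) (L (nat_lit 234) ln9_11_6_c10 ln9_11_6_c10_ok))))) (B (M (nat_lit 265) (B (M (nat_lit 392) (B (L (nat_lit 424) ln9_9_5_c10 ln9_9_5_c10_ok) (L (nat_lit 360) ln9_8_5_c10 ln9_8_5_c10_ok))) (M (nat_lit 266) (B (L (nat_lit 298) ln9_12_6_c10 ln9_12_6_c10_ok) (L (nat_lit 234) ln9_11_6_c10 ln9_11_6_c10_ok))))) (M (nat_lit 425) (B (M (nat_lit 296) (B (L (nat_lit 328) ln9_13_7_c10 ln9_13_7_c10_ok) (L (nat_lit 264) ln9_12_7_c10 ln9_12_7_c10_ok)))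 (M (nat_lit 298) (B (L (nat_lit 330) ln9_13_6_c10 ln9_13_6_c10_ok) (L (nat_lit 266) ln9_12_6_c10 ln9_12_6_c10_ok))))))))) (B (M (nat_lit 297) (B (M (nat_lit 264) (B (L (nat_lit 296) ln9_12_7_c10 ln9_12_7_c10_ok) (M (nat_lit 265) (B (L (nat_lit 232) ln9_11_7_c10 ln9_11_7_c10_ok) (M (nat_lit 266) (B (L (nat_lit 234) ln9_11_6_c10 ln9_11_6_c10_ok) (L (nat_lit 298) ln9_12_6_c10 ln9_12_6_c10_ok))))))) (B (M (nat_lit 265) (B (M (nat_lit 264) (B (L (nat_lit 232) ln9_11_7_c10 ln9_11_7_c10_ok) (L (nat_lit 296) ln9_12_7_c10 ln9_12_7_c10_ok))) (M (nat_lit 392) (B (L (nat_lit 360) ln9_8_5_c10 ln9_8_5_c10_ok) (L (nat_lit 424) ln9_9_5_c10 ln9_9_5_c10_ok))))) (B (M (nat_lit 296) (B (L (nat_lit 264) ln9_12_7_c10 ln9_12_7_c10_ok) (M (nat_lit 295) (B (M (nat_lit 294) (B (L (nat_lit 330) ln6_9_0_c10 ln6_9_0_c10_ok) (M (nat_lit 293) (B (L (nat_lit 328) ln5_9_0_c10 ln5_9_0_c10_ok) (M (nat_lit 261) (B (L (nat_lit 262) ln9_9_3_c10 ln9_9_3_c10_ok) (L (nat_lit 260) ln8_9_3_c10 ln8_9_3_c10_ok)))))))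 (B (M (nat_lit 294) (B (M (nat_lit 298) (B (L (nat_lit 266) ln9_12_6_c10 ln9_12_6_c10_ok) (M (nat_lit 262) (B (L (nat_lit 263) ln10_9_3_c10 ln10_9_3_c10_ok) (L (nat_lit 261) ln9_9_3_c10 ln9_9_3_c10_ok))))) (B (M (nat_lit 293) (B (L (nat_lit 328) ln5_9_0_c10 ln5_9_0_c10_ok) (M (nat_lit 261) (B (L (nat_lit 262) ln9_9_3_c10 ln9_9_3_c10_ok) (L (nat_lit 260) ln8_9_3_c10 ln8_9_3_c10_ok))))) (M (nat_lit 298) (B (L (nat_lit 266) ln9_12_6_c10 ln9_12_6_c10_ok) (M (nat_lit 326) (B (L (nat_lit 327) ln10_9_1_c10 ln10_9_1_c10_ok) (L (nat_lit 325) ln9_9_1_c10 ln9_9_1_c10_ok)))))))) (B (M (nat_lit 294) (B (L (nat_lit 330) ln6_9_0_c10 ln6_9_0_c10_ok) (M (nat_lit 298) (B (L (nat_lit 266) ln9_12_6_c10 ln9_12_6_c10_ok) (M (nat_lit 326) (B (L (nat_lit 327) ln10_9_1_c10 ln10_9_1_c10_ok) (L (nat_lit 325) ln9_9_1_c10 ln9_9_1_c10_ok))))))) (M (nat_lit 298) (B (L (nat_lit 266) ln9_12_6_c10 ln9_12_6_c10_ok) (M (nat_lit 328) (B (M (nat_lit 327) (B (L (nat_lit 299) ln11_9_1 ln11_9_1_ok) (L (nat_lit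 326) ln10_9_1_c10 ln10_9_1_c10_ok))) (M (nat_lit 392) (B (L (nat_lit 424) ln9_9_5_c10 ln9_9_5_c10_ok) (M (nat_lit 263) (B (L (nat_lit 262) ln10_9_3_c10 ln10_9_3_c10_ok) (L (nat_lit 360) ln8_12_7_c10 ln8_12_7_c10_ok))))))))))))))) (M (nat_lit 265) (B (M (nat_lit 266) (B (L (nat_lit 234) ln9_11_6_c10 ln9_11_6_c10_ok) (L (nat_lit 298) ln9_12_6_c10 ln9_12_6_c10_ok))) (M (nat_lit 392) (B (L (nat_lit 360) ln9_8_5_c10 ln9_8_5_c10_ok) (L (nat_lit 424) ln9_9_5_c10 ln9_9_5_c10_ok))))))))) (B (M (nat_lit 425) (B (K (nat_lit 8931394246657149381387253245129507015675877467476290335142453963987769399482782905470527144164791079735422728691554886057066506677825568768) (nat_lit 17161994155920697690923505070277032826837417447583681049965176348829990507627740504420910717301200964208535969304922373756155984578962103020086036422079807488) (nat_lit 17161994155920697690923505070277032826837417447583681049965176348829990507627740504420910717301200964208535969304922373756155984578962103020086036422079807488)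 c10_s109) (B (M (nat_lit 456) (B (M (nat_lit 488) (B (L (nat_lit 457) ln9_11_5_c10 ln9_11_5_c10_ok) (L (nat_lit 424) ln9_10_5_c10 ln9_10_5_c10_ok))) (L (nat_lit 426) ln9_13_0 ln9_13_0_ok))) (B (M (nat_lit 457) (B (M (nat_lit 458) (B (L (nat_lit 490) ln9_11_4 ln9_11_4_ok) (L (nat_lit 426) ln9_10_4_c10 ln9_10_4_c10_ok))) (M (nat_lit 328) (B (L (nat_lit 360) ln9_14_7_c10 ln9_14_7_c10_ok) (L (nat_lit 296) ln9_13_7_c10 ln9_13_7_c10_ok))))) (M (nat_lit 424) (B (L (nat_lit 456) ln9_10_5_c10 ln9_10_5_c10_ok) (L (nat_lit 426) ln9_13_0 ln9_13_0_ok))))))) (M (nat_lit 425) (B (M (nat_lit 457) (B (M (nat_lit 489) (B (M (nat_lit 488) (B (L (nat_lit 520) ln9_12_5_c10 ln9_12_5_c10_ok) (L (nat_lit 456) ln9_11_5_c10 ln9_11_5_c10_ok))) (M (nat_lit 360) (B (L (nat_lit 392) ln9_15_7 ln9_15_7_ok) (L (nat_lit 328) ln9_14_7_c10 ln9_14_7_c10_ok))))) (B (M (nat_lit 489) (B (M (nat_lit 490) (B (L (nat_lit 522) ln9_12_4 ln9_12_4_ok) (L (nat_lit 458) ln9_11_4 ln9_11_4_ok))) (M (nat_lit 360) (B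 (L (nat_lit 392) ln9_15_7 ln9_15_7_ok) (L (nat_lit 328) ln9_14_7_c10 ln9_14_7_c10_ok))))) (M (nat_lit 458) (B (L (nat_lit 490) ln9_11_4 ln9_11_4_ok) (M (nat_lit 456) (B (L (nat_lit 488) ln9_11_5_c10 ln9_11_5_c10_ok) (L (nat_lit 426) ln9_10_4_c10 ln9_10_4_c10_ok)))))))) (B (M (nat_lit 457) (B (L (nat_lit 426) ln9_13_0 ln9_13_0_ok) (M (nat_lit 328) (B (L (nat_lit 360) ln9_14_7_c10 ln9_14_7_c10_ok) (L (nat_lit 296) ln9_13_7_c10 ln9_13_7_c10_ok))))) (B (M (nat_lit 392) (B (L (nat_lit 426) ln9_13_0 ln9_13_0_ok) (M (nat_lit 297) (B (M (nat_lit 298) (B (L (nat_lit 266) ln9_12_6_c10 ln9_12_6_c10_ok) (L (nat_lit 330) ln9_13_6_c10 ln9_13_6_c10_ok))) (M (nat_lit 265) (B (L (nat_lit 360) ln9_8_5_c10 ln9_8_5_c10_ok) (M (nat_lit 264) (B (L (nat_lit 232) ln9_11_7_c10 ln9_11_7_c10_ok) (L (nat_lit 296) ln9_12_7_c10 ln9_12_7_c10_ok))))))))) (B (K (nat_lit 8931394246657149381387253245129507015675877467476290335142453963987769399482782905470527144164791079735422728691554886057066506677825568768)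 (nat_lit 17161994155920697690923505070277032826837417447583681049965176348829990507627740504420910717301200964208535969304922373756155984578962103020086036422079807488) (nat_lit 17161994155920697690923505070277032826837417447583681049965176348829990507627740504420910717301200964208535969304922373756155984578962103020086036422079807488) c10_s109) (M (nat_lit 298) (B (L (nat_lit 330) ln9_13_6_c10 ln9_13_6_c10_ok) (M (nat_lit 297) (B (L (nat_lit 266) ln9_12_6_c10 ln9_12_6_c10_ok) (M (nat_lit 296) (B (L (nat_lit 264) ln9_12_7_c10 ln9_12_7_c10_ok) (L (nat_lit 328) ln9_13_7_c10 ln9_13_7_c10_ok)))))))))))))))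
noncomputable def c10_d478 : Cert := (B (M (nat_lit 425) (B (M (nat_lit 456) (B (M (nat_lit 488) (B (L (nat_lit 457) ln9_11_5_c10 ln9_11_5_c10_ok) (M (nat_lit 424) (B (L (nat_lit 392) ln8_15_6_c10 ln8_15_6_c10_ok) (L (nat_lit 329) ln9_10_5_c10 ln9_10_5_c10_ok))))) (L (nat_lit 426) ln9_13_0 ln9_13_0_ok))) (B (M (nat_lit 457) (B (M (nat_lit 456) (B (L (nat_lit 488) ln9_11_5_c10 ln9_11_5_c10_ok) (M (nat_lit 329) (B (L (nat_lit 424) ln9_10_5_c10 ln9_10_5_c10_ok) (M (nat_lit 458) (B (L (nat_lit 490) ln9_11_4 ln9_11_4_ok) (L (nat_lit 426) ln9_10_4_c10 ln9_10_4_c10_ok))))))) (B (M (nat_lit 329) (B (M (nat_lit 456) (B (L (nat_lit 488) ln9_11_5_c10 ln9_11_5_c10_ok) (L (nat_lit 424) ln9_10_5_c10 ln9_10_5_c10_ok))) (M (nat_lit 330) (B (L (nat_lit 362) ln13_11_3 ln13_11_3_ok) (L (nat_lit 298) ln9_13_6_c10 ln9_13_6_c10_ok))))) (B (M (nat_lit 329) (B (M (nat_lit 458) (B (L (nat_lit 490) ln9_11_4 ln9_11_4_ok) (L (nat_lit 426) ln9_10_4_c10 ln9_10_4_c10_ok))) (M (nat_lit 330) (B (L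 (nat_lit 362) ln13_11_3 ln13_11_3_ok) (L (nat_lit 298) ln9_13_6_c10 ln9_13_6_c10_ok))))) (M (nat_lit 489) (B (M (nat_lit 490) (B (L (nat_lit 522) ln9_12_4 ln9_12_4_ok) (L (nat_lit 458) ln9_11_4 ln9_11_4_ok))) (M (nat_lit 488) (B (L (nat_lit 520) ln9_12_5_c10 ln9_12_5_c10_ok) (L (nat_lit 456) ln9_11_5_c10 ln9_11_5_c10_ok))))))))) (B (M (nat_lit 457) (B (M (nat_lit 329) (B (M (nat_lit 458) (B (L (nat_lit 490) ln9_11_4 ln9_11_4_ok) (L (nat_lit 426) ln9_10_4_c10 ln9_10_4_c10_ok))) (M (nat_lit 330) (B (L (nat_lit 362) ln13_11_3 ln13_11_3_ok) (L (nat_lit 298) ln9_13_6_c10 ln9_13_6_c10_ok))))) (B (M (nat_lit 329) (B (M (nat_lit 330) (B (L (nat_lit 362) ln13_11_3 ln13_11_3_ok) (L (nat_lit 298) ln9_13_6_c10 ln9_13_6_c10_ok))) (B (M (nat_lit 297) (B (M (nat_lit 424) (B (L (nat_lit 456) ln9_10_5_c10 ln9_10_5_c10_ok) (L (nat_lit 392) ln9_9_5_c10 ln9_9_5_c10_ok))) (M (nat_lit 298) (B (L (nat_lit 330) ln9_13_6_c10 ln9_13_6_c10_ok) (L (nat_lit 266) ln9_12_6_c10 ln9_12_6_c10_ok)))))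 (M (nat_lit 424) (B (L (nat_lit 456) ln9_10_5_c10 ln9_10_5_c10_ok) (M (nat_lit 392) (B (L (nat_lit 297) ln9_9_5_c10 ln9_9_5_c10_ok) (M (nat_lit 489) (B (L (nat_lit 521) ln9_16_7 ln9_16_7_ok) (L (nat_lit 360) ln9_15_7 ln9_15_7_ok)))))))))) (B (M (nat_lit 329) (B (M (nat_lit 458) (B (L (nat_lit 490) ln9_11_4 ln9_11_4_ok) (L (nat_lit 426) ln9_10_4_c10 ln9_10_4_c10_ok))) (M (nat_lit 297) (B (M (nat_lit 424) (B (L (nat_lit 456) ln9_10_5_c10 ln9_10_5_c10_ok) (L (nat_lit 392) ln9_9_5_c10 ln9_9_5_c10_ok))) (M (nat_lit 298) (B (L (nat_lit 330) ln9_13_6_c10 ln9_13_6_c10_ok) (L (nat_lit 266) ln9_12_6_c10 ln9_12_6_c10_ok))))))) (B (M (nat_lit 424) (B (M (nat_lit 329) (B (L (nat_lit 456) ln9_10_5_c10 ln9_10_5_c10_ok) (M (nat_lit 458) (B (L (nat_lit 490) ln9_11_4 ln9_11_4_ok) (L (nat_lit 426) ln9_10_4_c10 ln9_10_4_c10_ok))))) (B (M (nat_lit 392) (B (M (nat_lit 489) (B (L (nat_lit 521) ln9_16_7 ln9_16_7_ok) (L (nat_lit 360) ln9_15_7 ln9_15_7_ok))) (M (nat_lit 329) (B (L (nat_lit 456)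 ln9_10_5_c10 ln9_10_5_c10_ok) (L (nat_lit 297) ln9_9_5_c10 ln9_9_5_c10_ok))))) (M (nat_lit 489) (B (M (nat_lit 490) (B (L (nat_lit 522) ln9_12_4 ln9_12_4_ok) (L (nat_lit 458) ln9_11_4 ln9_11_4_ok))) (M (nat_lit 392) (B (L (nat_lit 521) ln9_16_7 ln9_16_7_ok) (L (nat_lit 360) ln9_15_7 ln9_15_7_ok)))))))) (M (nat_lit 489) (B (M (nat_lit 490) (B (L (nat_lit 522) ln9_12_4 ln9_12_4_ok) (L (nat_lit 458) ln9_11_4 ln9_11_4_ok))) (B (M (nat_lit 521) (B (M (nat_lit 392) (B (L (nat_lit 424) ln9_16_7 ln9_16_7_ok) (L (nat_lit 360) ln9_15_7 ln9_15_7_ok))) (M (nat_lit 553) (B (M (nat_lit 552) (B (L (nat_lit 584) ln9_14_5 ln9_14_5_ok) (L (nat_lit 520) ln9_13_5_c10 ln9_13_5_c10_ok))) (M (nat_lit 458) (B (L (nat_lit 426) ln9_13_0 ln9_13_0_ok) (L (nat_lit 490) ln9_11_4 ln9_11_4_ok))))))) (M (nat_lit 521) (B (M (nat_lit 392) (B (L (nat_lit 424) ln9_16_7 ln9_16_7_ok) (L (nat_lit 360) ln9_15_7 ln9_15_7_ok))) (M (nat_lit 553) (B (M (nat_lit 554) (B (L (nat_lit 586) ln9_14_4 ln9_14_4_ok) (L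 (nat_lit 522) ln9_13_4 ln9_13_4_ok))) (M (nat_lit 552) (B (L (nat_lit 584) ln9_14_5 ln9_14_5_ok) (L (nat_lit 520) ln9_13_5_c10 ln9_13_5_c10_ok))))))))))))))) (B (M (nat_lit 392) (B (L (nat_lit 362) ln12_11_1 ln12_11_1_ok) (L (nat_lit 426) ln9_13_0 ln9_13_0_ok))) (M (nat_lit 457) (B (M (nat_lit 489) (B (M (nat_lit 490) (B (L (nat_lit 522) ln9_12_4 ln9_12_4_ok) (L (nat_lit 458) ln9_11_4 ln9_11_4_ok))) (M (nat_lit 488) (B (L (nat_lit 520) ln9_12_5_c10 ln9_12_5_c10_ok) (L (nat_lit 456) ln9_11_5_c10 ln9_11_5_c10_ok))))) (B (M (nat_lit 329) (B (M (nat_lit 456) (B (L (nat_lit 488) ln9_11_5_c10 ln9_11_5_c10_ok) (L (nat_lit 424) ln9_10_5_c10 ln9_10_5_c10_ok))) (M (nat_lit 330) (B (L (nat_lit 362) ln13_11_3 ln13_11_3_ok) (L (nat_lit 298) ln9_13_6_c10 ln9_13_6_c10_ok))))) (B (M (nat_lit 424) (B (M (nat_lit 330) (B (L (nat_lit 362) ln9_14_6_c10 ln9_14_6_c10_ok) (M (nat_lit 329) (B (L (nat_lit 456) ln9_10_5_c10 ln9_10_5_c10_ok) (L (nat_lit 298) ln9_13_6_c10 ln9_13_6_c10_ok)))))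 (M (nat_lit 489) (B (M (nat_lit 490) (B (L (nat_lit 522) ln9_12_4 ln9_12_4_ok) (L (nat_lit 458) ln9_11_4 ln9_11_4_ok))) (M (nat_lit 392) (B (L (nat_lit 521) ln9_16_7 ln9_16_7_ok) (L (nat_lit 360) ln9_15_7 ln9_15_7_ok))))))) (M (nat_lit 489) (B (M (nat_lit 490) (B (L (nat_lit 522) ln9_12_4 ln9_12_4_ok) (L (nat_lit 458) ln9_11_4 ln9_11_4_ok))) (M (nat_lit 521) (B (M (nat_lit 520) (B (L (nat_lit 552) ln9_13_5_c10 ln9_13_5_c10_ok) (L (nat_lit 488) ln9_12_5_c10 ln9_12_5_c10_ok))) (M (nat_lit 392) (B (L (nat_lit 424) ln9_16_7 ln9_16_7_ok) (L (nat_lit 360) ln9_15_7 ln9_15_7_ok)))))))))))))))) (M (nat_lit 329) (B (K (nat_lit 8931394246570503453445977780767681572421406101743901676536959696013691912588575989601601343444791879544668366876011410714522645058170126336) (nat_lit 3995838145706965050409432749794105260359898799566272234921625145609396379851140038608437831657932041973453227935964954996566830855492507065496109056) (nat_lit 3995838145706965050409432749794105260359898799566272234921625145609396379851140038608437831657932041973453227935964954996566830855492507065496109056)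 c10_s108) (B (M (nat_lit 425) (B (M (nat_lit 297) (B (M (nat_lit 298) (B (L (nat_lit 266) ln9_12_6_c10 ln9_12_6_c10_ok) (L (nat_lit 330) ln9_13_6_c10 ln9_13_6_c10_ok))) (M (nat_lit 424) (B (L (nat_lit 392) ln9_9_5_c10 ln9_9_5_c10_ok) (L (nat_lit 456) ln9_10_5_c10 ln9_10_5_c10_ok))))) (M (nat_lit 457) (B (M (nat_lit 328) (B (L (nat_lit 296) ln9_13_7_c10 ln9_13_7_c10_ok) (L (nat_lit 360) ln9_14_7_c10 ln9_14_7_c10_ok))) (M (nat_lit 458) (B (L (nat_lit 426) ln9_10_4_c10 ln9_10_4_c10_ok) (L (nat_lit 490) ln9_11_4 ln9_11_4_ok))))))) (B (M (nat_lit 297) (B (M (nat_lit 266) (B (L (nat_lit 298) ln9_12_6_c10 ln9_12_6_c10_ok) (M (nat_lit 265) (B (L (nat_lit 234) ln9_11_6_c10 ln9_11_6_c10_ok) (M (nat_lit 264) (B (L (nat_lit 296) ln9_12_7_c10 ln9_12_7_c10_ok) (L (nat_lit 232) ln9_11_7_c10 ln9_11_7_c10_ok))))))) (B (M (nat_lit 265) (B (M (nat_lit 392) (B (L (nat_lit 424) ln9_9_5_c10 ln9_9_5_c10_ok) (L (nat_lit 360) ln9_8_5_c10 ln9_8_5_c10_ok))) (M (nat_lit 264) (B (L (nat_lit 296)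 ln9_12_7_c10 ln9_12_7_c10_ok) (L (nat_lit 232) ln9_11_7_c10 ln9_11_7_c10_ok))))) (B (M (nat_lit 265) (B (M (nat_lit 392) (B (L (nat_lit 424) ln9_9_5_c10 ln9_9_5_c10_ok) (L (nat_lit 360) ln9_8_5_c10 ln9_8_5_c10_ok))) (M (nat_lit 266) (B (L (nat_lit 298) ln9_12_6_c10 ln9_12_6_c10_ok) (L (nat_lit 234) ln9_11_6_c10 ln9_11_6_c10_ok))))) (M (nat_lit 425) (B (M (nat_lit 424) (B (L (nat_lit 456) ln9_10_5_c10 ln9_10_5_c10_ok) (L (nat_lit 392) ln9_9_5_c10 ln9_9_5_c10_ok))) (M (nat_lit 298) (B (L (nat_lit 330) ln9_13_6_c10 ln9_13_6_c10_ok) (L (nat_lit 266) ln9_12_6_c10 ln9_12_6_c10_ok))))))))) (B (M (nat_lit 297) (B (M (nat_lit 265) (B (M (nat_lit 392) (B (L (nat_lit 424) ln9_9_5_c10 ln9_9_5_c10_ok) (L (nat_lit 360) ln9_8_5_c10 ln9_8_5_c10_ok))) (M (nat_lit 266) (B (L (nat_lit 298) ln9_12_6_c10 ln9_12_6_c10_ok) (L (nat_lit 234) ln9_11_6_c10 ln9_11_6_c10_ok))))) (B (M (nat_lit 264) (B (L (nat_lit 296) ln9_12_7_c10 ln9_12_7_c10_ok) (M (nat_lit 265) (B (L (nat_lit 232) ln9_11_7_c10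 ln9_11_7_c10_ok) (M (nat_lit 266) (B (L (nat_lit 298) ln9_12_6_c10 ln9_12_6_c10_ok) (L (nat_lit 234) ln9_11_6_c10 ln9_11_6_c10_ok))))))) (B (M (nat_lit 265) (B (M (nat_lit 392) (B (L (nat_lit 424) ln9_9_5_c10 ln9_9_5_c10_ok) (L (nat_lit 360) ln9_8_5_c10 ln9_8_5_c10_ok))) (M (nat_lit 264) (B (L (nat_lit 296) ln9_12_7_c10 ln9_12_7_c10_ok) (L (nat_lit 232) ln9_11_7_c10 ln9_11_7_c10_ok))))) (M (nat_lit 425) (B (M (nat_lit 424) (B (L (nat_lit 456) ln9_10_5_c10 ln9_10_5_c10_ok) (L (nat_lit 392) ln9_9_5_c10 ln9_9_5_c10_ok))) (M (nat_lit 296) (B (L (nat_lit 328) ln9_13_7_c10 ln9_13_7_c10_ok) (L (nat_lit 264) ln9_12_7_c10 ln9_12_7_c10_ok))))))))) (B (M (nat_lit 425) (B (M (nat_lit 457) (B (M (nat_lit 328) (B (L (nat_lit 296) ln9_13_7_c10 ln9_13_7_c10_ok) (L (nat_lit 360) ln9_14_7_c10 ln9_14_7_c10_ok))) (M (nat_lit 458) (B (L (nat_lit 426) ln9_10_4_c10 ln9_10_4_c10_ok) (L (nat_lit 490) ln9_11_4 ln9_11_4_ok))))) (B (M (nat_lit 456) (B (L (nat_lit 424) ln9_10_5_c10 ln9_10_5_c10_ok)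 (M (nat_lit 457) (B (L (nat_lit 488) ln9_11_5_c10 ln9_11_5_c10_ok) (M (nat_lit 458) (B (L (nat_lit 426) ln9_10_4_c10 ln9_10_4_c10_ok) (L (nat_lit 490) ln9_11_4 ln9_11_4_ok))))))) (B (M (nat_lit 457) (B (M (nat_lit 328) (B (L (nat_lit 296) ln9_13_7_c10 ln9_13_7_c10_ok) (L (nat_lit 360) ln9_14_7_c10 ln9_14_7_c10_ok))) (M (nat_lit 456) (B (L (nat_lit 424) ln9_10_5_c10 ln9_10_5_c10_ok) (L (nat_lit 488) ln9_11_5_c10 ln9_11_5_c10_ok))))) (M (nat_lit 297) (B (M (nat_lit 296) (B (L (nat_lit 264) ln9_12_7_c10 ln9_12_7_c10_ok) (L (nat_lit 328) ln9_13_7_c10 ln9_13_7_c10_ok))) (M (nat_lit 424) (B (L (nat_lit 392) ln9_9_5_c10 ln9_9_5_c10_ok) (L (nat_lit 456) ln9_10_5_c10 ln9_10_5_c10_ok))))))))) (B (M (nat_lit 425) (B (M (nat_lit 457) (B (M (nat_lit 458) (B (L (nat_lit 490) ln9_11_4 ln9_11_4_ok) (L (nat_lit 426) ln9_10_4_c10 ln9_10_4_c10_ok))) (M (nat_lit 456) (B (L (nat_lit 488) ln9_11_5_c10 ln9_11_5_c10_ok) (L (nat_lit 424) ln9_10_5_c10 ln9_10_5_c10_ok))))) (B (M (nat_lit 297)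 (B (M (nat_lit 424) (B (L (nat_lit 456) ln9_10_5_c10 ln9_10_5_c10_ok) (L (nat_lit 392) ln9_9_5_c10 ln9_9_5_c10_ok))) (M (nat_lit 298) (B (L (nat_lit 330) ln9_13_6_c10 ln9_13_6_c10_ok) (L (nat_lit 266) ln9_12_6_c10 ln9_12_6_c10_ok))))) (B (M (nat_lit 392) (B (M (nat_lit 298) (B (L (nat_lit 330) ln9_13_6_c10 ln9_13_6_c10_ok) (M (nat_lit 297) (B (L (nat_lit 424) ln9_9_5_c10 ln9_9_5_c10_ok) (L (nat_lit 266) ln9_12_6_c10 ln9_12_6_c10_ok))))) (M (nat_lit 457) (B (M (nat_lit 458) (B (L (nat_lit 490) ln9_11_4 ln9_11_4_ok) (L (nat_lit 426) ln9_10_4_c10 ln9_10_4_c10_ok))) (M (nat_lit 360) (B (L (nat_lit 489) ln9_15_7 ln9_15_7_ok) (L (nat_lit 328) ln9_14_7_c10 ln9_14_7_c10_ok))))))) (M (nat_lit 457) (B (M (nat_lit 458) (B (L (nat_lit 490) ln9_11_4 ln9_11_4_ok) (L (nat_lit 426) ln9_10_4_c10 ln9_10_4_c10_ok))) (M (nat_lit 489) (B (M (nat_lit 488) (B (L (nat_lit 520) ln9_12_5_c10 ln9_12_5_c10_ok) (L (nat_lit 456) ln9_11_5_c10 ln9_11_5_c10_ok))) (M (nat_lit 360) (B (L (nat_lit 392)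 ln9_15_7 ln9_15_7_ok) (L (nat_lit 328) ln9_14_7_c10 ln9_14_7_c10_ok))))))))))) c10_d477))))))))
noncomputable def c10_d479 : Cert := (B (M (nat_lit 329) (B (M (nat_lit 330) (B (L (nat_lit 362) ln13_11_3 ln13_11_3_ok) (M (nat_lit 298) (B (L (nat_lit 425) ln9_13_6_c10 ln9_13_6_c10_ok) (M (nat_lit 266) (B (L (nat_lit 234) ln10_7_5_c10 ln10_7_5_c10_ok) (L (nat_lit 297) ln9_12_6_c10 ln9_12_6_c10_ok))))))) (B (M (nat_lit 362) (B (L (nat_lit 328) ln12_11_3 ln12_11_3_ok) (L (nat_lit 330) ln13_11_3 ln13_11_3_ok))) (B (M (nat_lit 328) (B (L (nat_lit 362) ln12_11_3 ln12_11_3_ok) (M (nat_lit 296) (B (L (nat_lit 425) ln9_13_7_c10 ln9_13_7_c10_ok) (M (nat_lit 264) (B (L (nat_lit 297) ln9_12_7_c10 ln9_12_7_c10_ok) (L (nat_lit 360) ln8_8_4_c10 ln8_8_4_c10_ok))))))) (K (nat_lit 8931394246570503453445977780767681572421406101743901676536959696013691912588575989601601343444791879544668366876011410714522645058170126336) (nat_lit 3995838145706965050409432749794105260359898799566272234921625145609396379851140038608437831657932041973453227935964954996566830855492507065496109056)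 (nat_lit 3995838145706965050409432749794105260359898799566272234921625145609396379851140038608437831657932041973453227935964954996566830855492507065496109056) c10_s108))))) (B (M (nat_lit 392) (B (L (nat_lit 362) ln12_11_1 ln12_11_1_ok) (M (nat_lit 425) (B (M (nat_lit 391) (B (L (nat_lit 426) ln9_13_0 ln9_13_0_ok) (M (nat_lit 390) (B (M (nat_lit 389) (B (L (nat_lit 424) ln5_12_0_c10 ln5_12_0_c10_ok) (M (nat_lit 421) (B (L (nat_lit 422) ln9_12_1_c10 ln9_12_1_c10_ok) (L (nat_lit 420) ln8_12_1_c10 ln8_12_1_c10_ok))))) (B (M (nat_lit 389) (B (M (nat_lit 421) (B (L (nat_lit 422) ln9_12_1_c10 ln9_12_1_c10_ok) (L (nat_lit 420) ln8_12_1_c10 ln8_12_1_c10_ok))) (M (nat_lit 357) (B (L (nat_lit 358) ln9_12_3_c10 ln9_12_3_c10_ok) (L (nat_lit 356) ln8_12_3_c10 ln8_12_3_c10_ok))))) (B (M (nat_lit 389) (B (L (nat_lit 424) ln5_12_0_c10 ln5_12_0_c10_ok) (M (nat_lit 357) (B (L (nat_lit 358) ln9_12_3_c10 ln9_12_3_c10_ok) (L (nat_lit 356) ln8_12_3_c10 ln8_12_3_c10_ok))))) (M (nat_lit 423)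 (B (M (nat_lit 422) (B (L (nat_lit 421) ln9_12_1_c10 ln9_12_1_c10_ok) (M (nat_lit 358) (B (L (nat_lit 357) ln9_12_3_c10 ln9_12_3_c10_ok) (M (nat_lit 455) (B (L (nat_lit 487) ln7_15_7_c10 ln7_15_7_c10_ok) (L (nat_lit 326) ln6_10_4_c10 ln6_10_4_c10_ok))))))) (B (M (nat_lit 422) (B (L (nat_lit 421) ln9_12_1_c10 ln9_12_1_c10_ok) (M (nat_lit 358) (B (L (nat_lit 357) ln9_12_3_c10 ln9_12_3_c10_ok) (M (nat_lit 326) (B (L (nat_lit 455) ln6_10_4_c10 ln6_10_4_c10_ok) (L (nat_lit 294) ln6_9_4_c10 ln6_9_4_c10_ok))))))) (B (M (nat_lit 422) (B (L (nat_lit 421) ln9_12_1_c10 ln9_12_1_c10_ok) (M (nat_lit 424) (B (M (nat_lit 457) (B (L (nat_lit 458) ln6_13_0_c10 ln6_13_0_c10_ok) (M (nat_lit 489) (B (L (nat_lit 521) ln9_16_7 ln9_16_7_ok) (L (nat_lit 360) ln9_15_7 ln9_15_7_ok))))) (M (nat_lit 454) (B (L (nat_lit 453) ln9_13_1_c10 ln9_13_1_c10_ok) (M (nat_lit 359) (B (L (nat_lit 486) ln6_15_6_c10 ln6_15_6_c10_ok) (L (nat_lit 327) ln7_10_5_c10 ln7_10_5_c10_ok))))))))) (M (nat_lit 358) (B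 (L (nat_lit 357) ln9_12_3_c10 ln9_12_3_c10_ok) (M (nat_lit 455) (B (L (nat_lit 487) ln7_15_7_c10 ln7_15_7_c10_ok) (M (nat_lit 326) (B (L (nat_lit 359) ln7_14_7_c10 ln7_14_7_c10_ok) (L (nat_lit 294) ln6_9_4_c10 ln6_9_4_c10_ok))))))))))))))))) (B (M (nat_lit 457) (B (M (nat_lit 360) (B (L (nat_lit 489) ln9_15_7 ln9_15_7_ok) (L (nat_lit 328) ln9_14_7_c10 ln9_14_7_c10_ok))) (B (M (nat_lit 489) (B (L (nat_lit 360) ln9_15_7 ln9_15_7_ok) (M (nat_lit 490) (B (L (nat_lit 458) ln9_11_4 ln9_11_4_ok) (L (nat_lit 522) ln9_12_4 ln9_12_4_ok))))) (B (M (nat_lit 489) (B (M (nat_lit 490) (B (L (nat_lit 458) ln9_11_4 ln9_11_4_ok) (L (nat_lit 522) ln9_12_4 ln9_12_4_ok))) (M (nat_lit 520) (B (L (nat_lit 488) ln9_12_5_c10 ln9_12_5_c10_ok) (M (nat_lit 521) (B (L (nat_lit 424) ln9_16_7 ln9_16_7_ok) (L (nat_lit 552) ln9_13_5_c10 ln9_13_5_c10_ok))))))) (M (nat_lit 458) (B (L (nat_lit 490) ln9_11_4 ln9_11_4_ok) (M (nat_lit 360) (B (L (nat_lit 328) ln9_14_7_c10 ln9_14_7_c10_ok) (M (nat_lit 456)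 (B (L (nat_lit 488) ln9_11_5_c10 ln9_11_5_c10_ok) (M (nat_lit 455) (B (L (nat_lit 426) ln9_13_0 ln9_13_0_ok) (M (nat_lit 487) (B (L (nat_lit 424) ln8_11_5_c10 ln8_11_5_c10_ok) (L (nat_lit 486) ln10_14_1_c10 ln10_14_1_c10_ok))))))))))))))) (B (M (nat_lit 457) (B (M (nat_lit 360) (B (L (nat_lit 489) ln9_15_7 ln9_15_7_ok) (L (nat_lit 328) ln9_14_7_c10 ln9_14_7_c10_ok))) (M (nat_lit 456) (B (L (nat_lit 488) ln9_11_5_c10 ln9_11_5_c10_ok) (L (nat_lit 426) ln9_13_0 ln9_13_0_ok))))) (B (L (nat_lit 426) ln9_13_0 ln9_13_0_ok) (M (nat_lit 457) (B (M (nat_lit 360) (B (L (nat_lit 328) ln9_14_7_c10 ln9_14_7_c10_ok) (L (nat_lit 489) ln9_15_7 ln9_15_7_ok))) (B (M (nat_lit 489) (B (M (nat_lit 424) (B (L (nat_lit 521) ln9_16_7 ln9_16_7_ok) (L (nat_lit 360) ln9_15_7 ln9_15_7_ok))) (B (L (nat_lit 360) ln9_15_7 ln9_15_7_ok) (M (nat_lit 521) (B (L (nat_lit 424) ln9_16_7 ln9_16_7_ok) (M (nat_lit 520) (B (L (nat_lit 552) ln9_13_5_c10 ln9_13_5_c10_ok) (L (nat_lit 488) ln9_12_5_c10 ln9_12_5_c10_ok))))))))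 (B (M (nat_lit 489) (B (M (nat_lit 521) (B (L (nat_lit 424) ln9_16_7 ln9_16_7_ok) (M (nat_lit 520) (B (L (nat_lit 552) ln9_13_5_c10 ln9_13_5_c10_ok) (L (nat_lit 488) ln9_12_5_c10 ln9_12_5_c10_ok))))) (M (nat_lit 490) (B (L (nat_lit 522) ln9_12_4 ln9_12_4_ok) (L (nat_lit 458) ln9_11_4 ln9_11_4_ok))))) (M (nat_lit 360) (B (L (nat_lit 328) ln9_14_7_c10 ln9_14_7_c10_ok) (M (nat_lit 456) (B (L (nat_lit 488) ln9_11_5_c10 ln9_11_5_c10_ok) (M (nat_lit 458) (B (L (nat_lit 490) ln9_11_4 ln9_11_4_ok) (M (nat_lit 455) (B (M (nat_lit 487) (B (L (nat_lit 424) ln8_11_5_c10 ln8_11_5_c10_ok) (L (nat_lit 486) ln10_14_1_c10 ln10_14_1_c10_ok))) (B (M (nat_lit 423) (B (L (nat_lit 422) ln10_14_3 ln10_14_3_ok) (M (nat_lit 487) (B (L (nat_lit 486) ln10_14_1_c10 ln10_14_1_c10_ok) (L (nat_lit 391) ln7_15_6_c10 ln7_15_6_c10_ok))))) (B (M (nat_lit 454) (B (M (nat_lit 453) (B (L (nat_lit 424) ln5_14_2_c10 ln5_14_2_c10_ok) (M (nat_lit 421) (B (L (nat_lit 420) ln8_14_3_c10 ln8_14_3_c10_ok) (L (nat_lit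 422) ln9_14_3_c10 ln9_14_3_c10_ok))))) (B (M (nat_lit 422) (B (L (nat_lit 421) ln9_14_3_c10 ln9_14_3_c10_ok) (L (nat_lit 423) ln10_14_3 ln10_14_3_ok))) (M (nat_lit 453) (B (L (nat_lit 424) ln5_14_2_c10 ln5_14_2_c10_ok) (M (nat_lit 485) (B (L (nat_lit 484) ln8_14_1_c10 ln8_14_1_c10_ok) (L (nat_lit 486) ln9_14_1_c10 ln9_14_1_c10_ok)))))))) (M (nat_lit 454) (B (M (nat_lit 422) (B (L (nat_lit 421) ln9_14_3_c10 ln9_14_3_c10_ok) (L (nat_lit 423) ln10_14_3 ln10_14_3_ok))) (M (nat_lit 424) (B (L (nat_lit 453) ln5_14_2_c10 ln5_14_2_c10_ok) (L (nat_lit 487) ln8_11_5_c10 ln8_11_5_c10_ok)))))))))))))))))))))))))) c10_d478))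
noncomputable def c10_d480 : Cert := (B (M (nat_lit 393) (B (M (nat_lit 394) (B (L (nat_lit 362) ln13_11_1 ln13_11_1_ok) (L (nat_lit 426) ln13_13_3 ln13_13_3_ok))) (B (M (nat_lit 361) (B (M (nat_lit 329) (B (M (nat_lit 362) (B (L (nat_lit 328) ln12_11_3 ln12_11_3_ok) (L (nat_lit 330) ln13_11_3 ln13_11_3_ok))) (B (M (nat_lit 362) (B (L (nat_lit 330) ln13_11_3 ln13_11_3_ok) (L (nat_lit 392) ln12_11_1 ln12_11_1_ok))) (B (M (nat_lit 362) (B (L (nat_lit 328) ln12_11_3 ln12_11_3_ok) (L (nat_lit 392) ln12_11_1 ln12_11_1_ok))) (M (nat_lit 425) (B (M (nat_lit 296) (B (L (nat_lit 328) ln9_13_7_c10 ln9_13_7_c10_ok) (M (nat_lit 297) (B (L (nat_lit 264) ln9_12_7_c10 ln9_12_7_c10_ok) (M (nat_lit 298) (B (L (nat_lit 266) ln9_12_6_c10 ln9_12_6_c10_ok) (L (nat_lit 330) ln9_13_6_c10 ln9_13_6_c10_ok))))))) (M (nat_lit 456) (B (L (nat_lit 424) ln9_10_5_c10 ln9_10_5_c10_ok) (M (nat_lit 457) (B (L (nat_lit 488) ln9_11_5_c10 ln9_11_5_c10_ok) (M (nat_lit 458) (B (L (nat_lit 426) ln9_10_4_c10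 ln9_10_4_c10_ok) (L (nat_lit 490) ln9_11_4 ln9_11_4_ok))))))))))))) (B (M (nat_lit 329) (B (M (nat_lit 362) (B (L (nat_lit 328) ln12_11_3 ln12_11_3_ok) (L (nat_lit 330) ln13_11_3 ln13_11_3_ok))) (B (M (nat_lit 362) (B (L (nat_lit 330) ln13_11_3 ln13_11_3_ok) (L (nat_lit 392) ln12_11_1 ln12_11_1_ok))) (B (M (nat_lit 362) (B (L (nat_lit 328) ln12_11_3 ln12_11_3_ok) (L (nat_lit 392) ln12_11_1 ln12_11_1_ok))) (M (nat_lit 297) (B (M (nat_lit 265) (B (M (nat_lit 234) (B (L (nat_lit 266) ln9_11_6_c10 ln9_11_6_c10_ok) (M (nat_lit 233) (B (L (nat_lit 202) ln9_10_6_c10 ln9_10_6_c10_ok) (M (nat_lit 232) (B (L (nat_lit 264) ln9_11_7_c10 ln9_11_7_c10_ok) (L (nat_lit 200) ln9_10_7_c10 ln9_10_7_c10_ok))))))) (B (M (nat_lit 233) (B (M (nat_lit 360) (B (L (nat_lit 392) ln9_8_5_c10 ln9_8_5_c10_ok) (L (nat_lit 328) ln9_7_5_c10 ln9_7_5_c10_ok))) (M (nat_lit 232) (B (L (nat_lit 264) ln9_11_7_c10 ln9_11_7_c10_ok) (L (nat_lit 200) ln9_10_7_c10 ln9_10_7_c10_ok))))) (B (M (nat_lit 233) (B (M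 (nat_lit 360) (B (L (nat_lit 392) ln9_8_5_c10 ln9_8_5_c10_ok) (L (nat_lit 328) ln9_7_5_c10 ln9_7_5_c10_ok))) (M (nat_lit 234) (B (L (nat_lit 266) ln9_11_6_c10 ln9_11_6_c10_ok) (L (nat_lit 202) ln9_10_6_c10 ln9_10_6_c10_ok))))) (M (nat_lit 392) (B (L (nat_lit 424) ln9_9_5_c10 ln9_9_5_c10_ok) (L (nat_lit 360) ln9_8_5_c10 ln9_8_5_c10_ok))))))) (B (M (nat_lit 425) (B (M (nat_lit 296) (B (L (nat_lit 264) ln9_12_7_c10 ln9_12_7_c10_ok) (L (nat_lit 328) ln9_13_7_c10 ln9_13_7_c10_ok))) (M (nat_lit 424) (B (L (nat_lit 392) ln9_9_5_c10 ln9_9_5_c10_ok) (L (nat_lit 456) ln9_10_5_c10 ln9_10_5_c10_ok))))) (B (M (nat_lit 265) (B (M (nat_lit 360) (B (L (nat_lit 392) ln9_8_5_c10 ln9_8_5_c10_ok) (M (nat_lit 232) (B (L (nat_lit 264) ln9_11_7_c10 ln9_11_7_c10_ok) (M (nat_lit 233) (B (L (nat_lit 200) ln9_10_7_c10 ln9_10_7_c10_ok) (L (nat_lit 328) ln9_7_5_c10 ln9_7_5_c10_ok))))))) (B (M (nat_lit 233) (B (M (nat_lit 234) (B (L (nat_lit 202) ln9_10_6_c10 ln9_10_6_c10_ok) (L (nat_lit 266) ln9_11_6_c10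 ln9_11_6_c10_ok))) (M (nat_lit 360) (B (L (nat_lit 328) ln9_7_5_c10 ln9_7_5_c10_ok) (L (nat_lit 392) ln9_8_5_c10 ln9_8_5_c10_ok))))) (M (nat_lit 264) (B (L (nat_lit 232) ln9_11_7_c10 ln9_11_7_c10_ok) (M (nat_lit 266) (B (L (nat_lit 234) ln9_11_6_c10 ln9_11_6_c10_ok) (M (nat_lit 263) (B (L (nat_lit 298) ln9_12_6_c10 ln9_12_6_c10_ok) (M (nat_lit 262) (B (M (nat_lit 230) (B (L (nat_lit 229) ln9_8_3_c10 ln9_8_3_c10_ok) (L (nat_lit 231) ln10_8_3_c10 ln10_8_3_c10_ok))) (M (nat_lit 294) (B (L (nat_lit 293) ln9_8_1_c10 ln9_8_1_c10_ok) (L (nat_lit 295) ln10_8_1_c10 ln10_8_1_c10_ok)))))))))))))) (B (M (nat_lit 264) (B (M (nat_lit 232) (B (L (nat_lit 265) ln9_11_7_c10 ln9_11_7_c10_ok) (L (nat_lit 296) ln9_12_7_c10 ln9_12_7_c10_ok))) (B (M (nat_lit 298) (B (L (nat_lit 296) ln9_12_7_c10 ln9_12_7_c10_ok) (L (nat_lit 266) ln9_12_6_c10 ln9_12_6_c10_ok))) (M (nat_lit 265) (B (L (nat_lit 232) ln9_11_7_c10 ln9_11_7_c10_ok) (M (nat_lit 266) (B (L (nat_lit 234) ln9_11_6_c10 ln9_11_6_c10_ok)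 (L (nat_lit 298) ln9_12_6_c10 ln9_12_6_c10_ok)))))))) (M (nat_lit 265) (B (M (nat_lit 233) (B (M (nat_lit 234) (B (L (nat_lit 202) ln9_10_6_c10 ln9_10_6_c10_ok) (L (nat_lit 266) ln9_11_6_c10 ln9_11_6_c10_ok))) (M (nat_lit 360) (B (L (nat_lit 328) ln9_7_5_c10 ln9_7_5_c10_ok) (L (nat_lit 392) ln9_8_5_c10 ln9_8_5_c10_ok))))) (B (M (nat_lit 266) (B (L (nat_lit 234) ln9_11_6_c10 ln9_11_6_c10_ok) (L (nat_lit 298) ln9_12_6_c10 ln9_12_6_c10_ok))) (B (M (nat_lit 233) (B (M (nat_lit 360) (B (L (nat_lit 328) ln9_7_5_c10 ln9_7_5_c10_ok) (L (nat_lit 392) ln9_8_5_c10 ln9_8_5_c10_ok))) (M (nat_lit 201) (B (M (nat_lit 200) (B (L (nat_lit 168) ln9_9_7_c10 ln9_9_7_c10_ok) (L (nat_lit 232) ln9_10_7_c10 ln9_10_7_c10_ok))) (M (nat_lit 298) (B (L (nat_lit 330) ln9_6_4_c10 ln9_6_4_c10_ok) (L (nat_lit 266) ln9_12_6_c10 ln9_12_6_c10_ok))))))) (M (nat_lit 233) (B (M (nat_lit 360) (B (L (nat_lit 328) ln9_7_5_c10 ln9_7_5_c10_ok) (L (nat_lit 392) ln9_8_5_c10 ln9_8_5_c10_ok))) (M (nat_lit 201) (B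 (M (nat_lit 202) (B (L (nat_lit 170) ln9_9_6_c10 ln9_9_6_c10_ok) (L (nat_lit 234) ln9_10_6_c10 ln9_10_6_c10_ok))) (M (nat_lit 200) (B (L (nat_lit 168) ln9_9_7_c10 ln9_9_7_c10_ok) (L (nat_lit 232) ln9_10_7_c10 ln9_10_7_c10_ok)))))))))))))))))))) (B (M (nat_lit 362) (B (L (nat_lit 392) ln12_11_1 ln12_11_1_ok) (M (nat_lit 329) (B (L (nat_lit 328) ln12_11_3 ln12_11_3_ok) (L (nat_lit 330) ln13_11_3 ln13_11_3_ok))))) c10_d479)))) (B (M (nat_lit 362) (B (L (nat_lit 394) ln13_11_1 ln13_11_1_ok) (M (nat_lit 361) (B (L (nat_lit 392) ln12_11_1 ln12_11_1_ok) (M (nat_lit 329) (B (L (nat_lit 328) ln12_11_3 ln12_11_3_ok) (L (nat_lit 330) ln13_11_3 ln13_11_3_ok))))))) (M (nat_lit 426) (B (L (nat_lit 394) ln13_13_3 ln13_13_3_ok) (L (nat_lit 425) ln9_13_0 ln9_13_0_ok))))))) (B (M (nat_lit 459) (B (M (nat_lit 362) (B (M (nat_lit 334) (B (L (nat_lit 333) ln10_11_2 ln10_11_2_ok) (M (nat_lit 361) (B (M (nat_lit 329) (B (L (nat_lit 328) ln12_11_3 ln12_11_3_ok) (L (nat_lit 330) ln13_11_3 ln13_11_3_ok)))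 (M (nat_lit 393) (B (L (nat_lit 392) ln12_11_1 ln12_11_1_ok) (L (nat_lit 394) ln13_11_1 ln13_11_1_ok))))))) (B (M (nat_lit 395) (B (M (nat_lit 394) (B (L (nat_lit 491) ln11_15_7 ln11_15_7_ok) (L (nat_lit 393) ln13_11_1 ln13_11_1_ok))) (L (nat_lit 492) ln11_11_4 ln11_11_4_ok))) (M (nat_lit 395) (B (L (nat_lit 492) ln11_11_4 ln11_11_4_ok) (L (nat_lit 330) ln11_14_7 ln11_14_7_ok)))))) (B (M (nat_lit 458) (B (L (nat_lit 457) ln9_14_2 ln9_14_2_ok) (M (nat_lit 490) (B (L (nat_lit 489) ln13_14_1 ln13_14_1_ok) (M (nat_lit 462) (B (L (nat_lit 463) ln15_14_3 ln15_14_3_ok) (L (nat_lit 491) ln14_14_1 ln14_14_1_ok))))))) (M (nat_lit 395) (B (M (nat_lit 458) (B (L (nat_lit 457) ln9_14_2 ln9_14_2_ok) (L (nat_lit 490) ln11_11_5 ln11_11_5_ok))) (L (nat_lit 492) ln11_11_4 ln11_11_4_ok)))))) (M (nat_lit 462) (B (L (nat_lit 426) ln10_13_0 ln10_13_0_ok) (L (nat_lit 463) ln15_14_3 ln15_14_3_ok)))))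
noncomputable def c10_d481 : Cert := (B (M (nat_lit 427) (B (M (nat_lit 362) (B (M (nat_lit 395) (B (M (nat_lit 361) (B (M (nat_lit 393) (B (L (nat_lit 392) ln12_11_1 ln12_11_1_ok) (L (nat_lit 394) ln13_11_1 ln13_11_1_ok))) (B (M (nat_lit 394) (B (L (nat_lit 393) ln13_11_1 ln13_11_1_ok) (M (nat_lit 360) (B (L (nat_lit 359) ln7_11_0 ln7_11_0_ok) (L (nat_lit 396) ln8_11_0 ln8_11_0_ok))))) (B (M (nat_lit 360) (B (L (nat_lit 396) ln8_11_0 ln8_11_0_ok) (M (nat_lit 359) (B (L (nat_lit 394) ln7_11_0 ln7_11_0_ok) (M (nat_lit 327) (B (L (nat_lit 326) ln10_11_3 ln10_11_3_ok) (L (nat_lit 328) ln11_11_3 ln11_11_3_ok))))))) (M (nat_lit 360) (B (L (nat_lit 396) ln8_11_0 ln8_11_0_ok) (M (nat_lit 392) (B (L (nat_lit 391) ln11_11_1 ln11_11_1_ok) (L (nat_lit 393) ln12_11_1 ln12_11_1_ok))))))))) (B (M (nat_lit 459) (B (L (nat_lit 330) ln11_14_7 ln11_14_7_ok) (M (nat_lit 491) (B (M (nat_lit 490) (B (L (nat_lit 458) ln11_11_5 ln11_11_5_ok) (L (nat_lit 522) ln11_12_5 ln11_12_5_ok))) (M (nat_lit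 523) (B (L (nat_lit 396) ln11_15_6 ln11_15_6_ok) (M (nat_lit 524) (B (L (nat_lit 492) ln11_12_4 ln11_12_4_ok) (L (nat_lit 556) ln11_13_4 ln11_13_4_ok))))))))) (M (nat_lit 459) (B (M (nat_lit 394) (B (L (nat_lit 491) ln11_15_7 ln11_15_7_ok) (L (nat_lit 393) ln13_11_1 ln13_11_1_ok))) (L (nat_lit 330) ln11_14_7 ln11_14_7_ok)))))) (B (M (nat_lit 361) (B (M (nat_lit 393) (B (L (nat_lit 394) ln13_11_1 ln13_11_1_ok) (L (nat_lit 392) ln12_11_1 ln12_11_1_ok))) (B (M (nat_lit 360) (B (M (nat_lit 328) (B (L (nat_lit 329) ln12_11_3 ln12_11_3_ok) (L (nat_lit 327) ln11_11_3 ln11_11_3_ok))) (M (nat_lit 392) (B (L (nat_lit 393) ln12_11_1 ln12_11_1_ok) (L (nat_lit 391) ln11_11_1 ln11_11_1_ok))))) (B (M (nat_lit 360) (B (M (nat_lit 328) (B (L (nat_lit 329) ln12_11_3 ln12_11_3_ok) (L (nat_lit 327) ln11_11_3 ln11_11_3_ok))) (M (nat_lit 359) (B (M (nat_lit 395) (B (L (nat_lit 396) ln8_11_0 ln8_11_0_ok) (L (nat_lit 394) ln7_11_0 ln7_11_0_ok))) (M (nat_lit 391) (B (L (nat_lit 392) ln11_11_1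 ln11_11_1_ok) (L (nat_lit 390) ln10_11_1 ln10_11_1_ok))))))) (M (nat_lit 360) (B (M (nat_lit 328) (B (L (nat_lit 329) ln12_11_3 ln12_11_3_ok) (L (nat_lit 327) ln11_11_3 ln11_11_3_ok))) (M (nat_lit 395) (B (L (nat_lit 396) ln8_11_0 ln8_11_0_ok) (M (nat_lit 394) (B (L (nat_lit 393) ln13_11_1 ln13_11_1_ok) (L (nat_lit 359) ln7_11_0 ln7_11_0_ok))))))))))) (B (M (nat_lit 333) (B (L (nat_lit 334) ln10_11_2 ln10_11_2_ok) (M (nat_lit 330) (B (L (nat_lit 329) ln13_11_3 ln13_11_3_ok) (M (nat_lit 395) (B (L (nat_lit 459) ln11_14_7 ln11_14_7_ok) (M (nat_lit 298) (B (L (nat_lit 266) ln10_8_4 ln10_8_4_ok) (L (nat_lit 331) ln11_13_7 ln11_13_7_ok))))))))) (M (nat_lit 361) (B (M (nat_lit 393) (B (L (nat_lit 394) ln13_11_1 ln13_11_1_ok) (L (nat_lit 392) ln12_11_1 ln12_11_1_ok))) (M (nat_lit 329) (B (L (nat_lit 330) ln13_11_3 ln13_11_3_ok) (L (nat_lit 328) ln12_11_3 ln12_11_3_ok))))))))) (B (M (nat_lit 426) (B (L (nat_lit 462) ln10_13_0 ln10_13_0_ok) (M (nat_lit 425) (B (M (nat_lit 393)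 (B (L (nat_lit 394) ln13_13_3 ln13_13_3_ok) (L (nat_lit 392) ln12_13_3 ln12_13_3_ok))) (B (M (nat_lit 424) (B (M (nat_lit 456) (B (L (nat_lit 457) ln12_13_1 ln12_13_1_ok) (L (nat_lit 455) ln11_13_1_c10 ln11_13_1_c10_ok))) (M (nat_lit 392) (B (L (nat_lit 393) ln12_13_3 ln12_13_3_ok) (L (nat_lit 391) ln11_13_3 ln11_13_3_ok))))) (B (M (nat_lit 424) (B (M (nat_lit 456) (B (L (nat_lit 457) ln12_13_1 ln12_13_1_ok) (L (nat_lit 455) ln11_13_1_c10 ln11_13_1_c10_ok))) (M (nat_lit 423) (B (M (nat_lit 395) (B (L (nat_lit 396) ln8_13_2 ln8_13_2_ok) (L (nat_lit 394) ln7_13_2 ln7_13_2_ok))) (M (nat_lit 391) (B (L (nat_lit 392) ln11_13_3 ln11_13_3_ok) (L (nat_lit 390) ln10_13_3_c10 ln10_13_3_c10_ok))))))) (M (nat_lit 424) (B (M (nat_lit 456) (B (L (nat_lit 457) ln12_13_1 ln12_13_1_ok) (L (nat_lit 455) ln11_13_1_c10 ln11_13_1_c10_ok))) (M (nat_lit 395) (B (L (nat_lit 396) ln8_13_2 ln8_13_2_ok) (M (nat_lit 394) (B (L (nat_lit 393) ln13_13_3 ln13_13_3_ok) (L (nat_lit 423) ln7_13_2 ln7_13_2_ok)))))))))))))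 (B (M (nat_lit 426) (B (M (nat_lit 458) (B (L (nat_lit 457) ln13_13_1 ln13_13_1_ok) (M (nat_lit 395) (B (L (nat_lit 331) ln11_10_5 ln11_10_5_ok) (M (nat_lit 490) (B (L (nat_lit 522) ln10_16_6 ln10_16_6_ok) (L (nat_lit 459) ln11_11_5 ln11_11_5_ok))))))) (L (nat_lit 462) ln10_13_0 ln10_13_0_ok))) (M (nat_lit 426) (B (L (nat_lit 462) ln10_13_0 ln10_13_0_ok) (M (nat_lit 393) (B (L (nat_lit 394) ln13_13_3 ln13_13_3_ok) (M (nat_lit 457) (B (L (nat_lit 458) ln13_13_1 ln13_13_1_ok) (M (nat_lit 425) (B (L (nat_lit 392) ln12_13_3 ln12_13_3_ok) (L (nat_lit 456) ln12_13_1 ln12_13_1_ok))))))))))))) (B (K (nat_lit 5954262831509113917970671779033862168167677465089648269778033016598694956424787681501984599132935639058289333405543081762115182783130238976) (nat_lit 14699586360760875250371147262434368392591112405266520510392034555821141673283136536660133602502622416947665228000592404641960204154051756032) (nat_lit 14699586360760875250371147262434368392591112405266520510392034555821141673283136536660133602502622416947665228000592404641960204154051756032)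 c10_s92) (B (K (nat_lit 5954262831509113917970671779033862168167677465089648269778033016598694956424787681501984599132935639058289333405543081762115182783130238976) (nat_lit 27459190651710785666865109342079193932125457722187829790530725860667425186997309106495203256817714207976975708281101976130750023171960336447294857510930874368) (nat_lit 27459190651710785666865109342079193932125457722187829790530725860667425186997309106495203256817714207976975708281101976130750023171960336447294857510930874368) c10_s111) (B (K (nat_lit 5954262831509113917970671779033862168167677465089648269778033016598694956424787681501984599132935639058289333405543081762115182783130238976) (nat_lit 173291856033854632531896942250182455330308712881765376795388918307362893135562190597085936158410440960725335734577451510106423296) (nat_lit 173291856033854632531896942250182455330308712881765376795388918307362893135562190597085936158410440960725335734577451510106423296) c10_s122) (M (nat_lit 332) (B (M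 (nat_lit 362) (B (M (nat_lit 394) (B (M (nat_lit 426) (B (M (nat_lit 331) (B (L (nat_lit 458) ln10_14_6 ln10_14_6_ok) (M (nat_lit 299) (B (L (nat_lit 330) ln10_13_6 ln10_13_6_ok) (L (nat_lit 267) ln11_8_5 ln11_8_5_ok))))) (B (M (nat_lit 427) (B (L (nat_lit 462) ln10_13_0 ln10_13_0_ok) (M (nat_lit 458) (B (L (nat_lit 457) ln13_13_1 ln13_13_1_ok) (L (nat_lit 331) ln10_14_6 ln10_14_6_ok))))) (M (nat_lit 330) (B (L (nat_lit 329) ln13_11_3 ln13_11_3_ok) (M (nat_lit 427) (B (L (nat_lit 459) ln10_10_4 ln10_10_4_ok) (L (nat_lit 462) ln10_13_0 ln10_13_0_ok)))))))) (L (nat_lit 393) ln13_11_1 ln13_11_1_ok))) (M (nat_lit 333) (B (L (nat_lit 334) ln10_11_2 ln10_11_2_ok) (L (nat_lit 361) ln9_11_2 ln9_11_2_ok))))) (L (nat_lit 396) ln12_10_4 ln12_10_4_ok)))))))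
noncomputable def c10_d482 : Cert := (B (M (nat_lit 364) (B (M (nat_lit 362) (B (M (nat_lit 330) (B (M (nat_lit 394) (B (M (nat_lit 458) (B (M (nat_lit 459) (B (M (nat_lit 462) (B (M (nat_lit 490) (B (L (nat_lit 489) ln13_14_1 ln13_14_1_ok) (L (nat_lit 491) ln14_14_1 ln14_14_1_ok))) (M (nat_lit 463) (B (L (nat_lit 464) ln16_14_3 ln16_14_3_ok) (M (nat_lit 495) (B (L (nat_lit 494) ln11_14_0 ln11_14_0_ok) (L (nat_lit 496) ln12_14_0 ln12_14_0_ok))))))) (L (nat_lit 457) ln9_14_2 ln9_14_2_ok))) (B (M (nat_lit 426) (B (L (nat_lit 331) ln10_14_6 ln10_14_6_ok) (M (nat_lit 459) (B (L (nat_lit 491) ln10_11_4 ln10_11_4_ok) (M (nat_lit 490) (B (L (nat_lit 395) ln10_15_6 ln10_15_6_ok) (L (nat_lit 489) ln13_14_1 ln13_14_1_ok))))))) (B (M (nat_lit 457) (B (M (nat_lit 426) (B (L (nat_lit 331) ln10_14_6 ln10_14_6_ok) (L (nat_lit 425) ln10_10_5 ln10_10_5_ok))) (L (nat_lit 459) ln9_14_2 ln9_14_2_ok))) (M (nat_lit 426) (B (M (nat_lit 457) (B (L (nat_lit 425) ln10_10_5 ln10_10_5_ok) (L (nat_lit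 489) ln10_11_5 ln10_11_5_ok))) (L (nat_lit 331) ln10_14_6 ln10_14_6_ok))))))) (L (nat_lit 393) ln13_11_1 ln13_11_1_ok))) (L (nat_lit 329) ln13_11_3 ln13_11_3_ok))) (B (M (nat_lit 361) (B (M (nat_lit 360) (B (M (nat_lit 392) (B (L (nat_lit 391) ln11_11_1 ln11_11_1_ok) (L (nat_lit 393) ln12_11_1 ln12_11_1_ok))) (M (nat_lit 332) (B (L (nat_lit 331) ln8_11_2 ln8_11_2_ok) (L (nat_lit 333) ln9_11_2 ln9_11_2_ok))))) (B (M (nat_lit 393) (B (L (nat_lit 392) ln12_11_1 ln12_11_1_ok) (L (nat_lit 394) ln13_11_1 ln13_11_1_ok))) (B (M (nat_lit 360) (B (M (nat_lit 332) (B (L (nat_lit 331) ln8_11_2 ln8_11_2_ok) (L (nat_lit 333) ln9_11_2 ln9_11_2_ok))) (M (nat_lit 359) (B (M (nat_lit 327) (B (L (nat_lit 326) ln10_11_3 ln10_11_3_ok) (L (nat_lit 328) ln11_11_3 ln11_11_3_ok))) (M (nat_lit 394) (B (L (nat_lit 395) ln7_11_0 ln7_11_0_ok) (L (nat_lit 393) ln13_11_1 ln13_11_1_ok))))))) (M (nat_lit 360) (B (M (nat_lit 332) (B (L (nat_lit 331) ln8_11_2 ln8_11_2_ok) (L (nat_lit 333) ln9_11_2 ln9_11_2_ok)))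 (M (nat_lit 359) (B (M (nat_lit 391) (B (L (nat_lit 390) ln10_11_1 ln10_11_1_ok) (L (nat_lit 392) ln11_11_1 ln11_11_1_ok))) (M (nat_lit 327) (B (L (nat_lit 326) ln10_11_3 ln10_11_3_ok) (L (nat_lit 328) ln11_11_3 ln11_11_3_ok))))))))))) (M (nat_lit 361) (B (M (nat_lit 333) (B (L (nat_lit 334) ln10_11_2 ln10_11_2_ok) (L (nat_lit 332) ln9_11_2 ln9_11_2_ok))) (M (nat_lit 329) (B (L (nat_lit 330) ln13_11_3 ln13_11_3_ok) (L (nat_lit 328) ln12_11_3 ln12_11_3_ok)))))))) (B (M (nat_lit 362) (B (M (nat_lit 333) (B (L (nat_lit 334) ln10_11_2 ln10_11_2_ok) (L (nat_lit 396) ln12_14_6 ln12_14_6_ok))) (M (nat_lit 361) (B (M (nat_lit 329) (B (L (nat_lit 328) ln12_11_3 ln12_11_3_ok) (L (nat_lit 330) ln13_11_3 ln13_11_3_ok))) (M (nat_lit 393) (B (L (nat_lit 392) ln12_11_1 ln12_11_1_ok) (L (nat_lit 394) ln13_11_1 ln13_11_1_ok))))))) (M (nat_lit 396) (B (L (nat_lit 332) ln12_10_4 ln12_10_4_ok) (L (nat_lit 331) ln12_14_7 ln12_14_7_ok)))))) (B (M (nat_lit 427) (B (M (nat_lit 426) (B (M (nat_lit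 457) (B (L (nat_lit 458) ln13_13_1 ln13_13_1_ok) (L (nat_lit 425) ln9_13_0 ln9_13_0_ok))) (B (L (nat_lit 425) ln9_13_0 ln9_13_0_ok) (M (nat_lit 458) (B (L (nat_lit 457) ln13_13_1 ln13_13_1_ok) (M (nat_lit 490) (B (M (nat_lit 394) (B (L (nat_lit 393) ln13_13_3 ln13_13_3_ok) (L (nat_lit 395) ln10_15_6 ln10_15_6_ok))) (B (M (nat_lit 395) (B (L (nat_lit 522) ln10_16_6 ln10_16_6_ok) (L (nat_lit 394) ln10_15_6 ln10_15_6_ok))) (B (M (nat_lit 491) (B (M (nat_lit 394) (B (L (nat_lit 393) ln13_13_3 ln13_13_3_ok) (L (nat_lit 523) ln10_12_4 ln10_12_4_ok))) (B (M (nat_lit 459) (B (L (nat_lit 489) ln13_14_1 ln13_14_1_ok) (M (nat_lit 523) (B (L (nat_lit 394) ln10_12_4 ln10_12_4_ok) (L (nat_lit 396) ln11_16_6 ln11_16_6_ok))))) (B (M (nat_lit 459) (B (L (nat_lit 489) ln13_14_1 ln13_14_1_ok) (M (nat_lit 396) (B (L (nat_lit 523) ln11_16_6 ln11_16_6_ok) (L (nat_lit 364) ln12_11_5 ln12_11_5_ok))))) (M (nat_lit 459) (B (L (nat_lit 489) ln13_14_1 ln13_14_1_ok) (M (nat_lit 394) (B (L (nat_lit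 393) ln13_13_3 ln13_13_3_ok) (L (nat_lit 362) ln10_11_4 ln10_11_4_ok))))))))) (M (nat_lit 459) (B (L (nat_lit 395) ln11_11_5 ln11_11_5_ok) (M (nat_lit 491) (B (L (nat_lit 489) ln13_14_1 ln13_14_1_ok) (M (nat_lit 396) (B (L (nat_lit 523) ln11_16_6 ln11_16_6_ok) (L (nat_lit 364) ln12_11_5 ln12_11_5_ok)))))))))))))))) (B (M (nat_lit 426) (B (M (nat_lit 394) (B (L (nat_lit 393) ln13_13_3 ln13_13_3_ok) (M (nat_lit 458) (B (L (nat_lit 457) ln13_13_1 ln13_13_1_ok) (M (nat_lit 362) (B (L (nat_lit 331) ln10_14_6 ln10_14_6_ok) (M (nat_lit 459) (B (L (nat_lit 330) ln10_10_4 ln10_10_4_ok) (L (nat_lit 491) ln10_11_4 ln10_11_4_ok))))))))) (L (nat_lit 425) ln9_13_0 ln9_13_0_ok))) (M (nat_lit 395) (B (M (nat_lit 492) (B (L (nat_lit 396) ln12_15_7 ln12_15_7_ok) (L (nat_lit 524) ln12_16_7 ln12_16_7_ok))) (L (nat_lit 331) ln11_10_4 ln11_10_4_ok)))))) (B (M (nat_lit 462) (B (M (nat_lit 427) (B (L (nat_lit 426) ln10_13_0 ln10_13_0_ok) (L (nat_lit 463) ln15_14_3 ln15_14_3_ok))) (B (M (nat_lit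 463) (B (L (nat_lit 427) ln15_14_3 ln15_14_3_ok) (L (nat_lit 464) ln16_14_3 ln16_14_3_ok))) (B (M (nat_lit 463) (B (L (nat_lit 464) ln16_14_3 ln16_14_3_ok) (M (nat_lit 459) (B (M (nat_lit 491) (B (L (nat_lit 490) ln14_14_1 ln14_14_1_ok) (L (nat_lit 492) ln15_14_1 ln15_14_1_ok))) (M (nat_lit 495) (B (L (nat_lit 494) ln11_14_0 ln11_14_0_ok) (L (nat_lit 496) ln12_14_0 ln12_14_0_ok))))))) (M (nat_lit 459) (B (M (nat_lit 426) (B (L (nat_lit 427) ln10_13_0 ln10_13_0_ok) (M (nat_lit 458) (B (L (nat_lit 457) ln9_14_2 ln9_14_2_ok) (L (nat_lit 425) ln13_14_3 ln13_14_3_ok))))) (B (M (nat_lit 458) (B (M (nat_lit 490) (B (L (nat_lit 489) ln13_14_1 ln13_14_1_ok) (L (nat_lit 491) ln14_14_1 ln14_14_1_ok))) (M (nat_lit 426) (B (L (nat_lit 425) ln13_14_3 ln13_14_3_ok) (L (nat_lit 427) ln10_13_0 ln10_13_0_ok))))) (B (M (nat_lit 490) (B (L (nat_lit 491) ln14_14_1 ln14_14_1_ok) (M (nat_lit 458) (B (L (nat_lit 489) ln13_14_1 ln13_14_1_ok) (L (nat_lit 457) ln9_14_2 ln9_14_2_ok))))) (M (nat_lit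 427) (B (L (nat_lit 426) ln10_13_0 ln10_13_0_ok) (M (nat_lit 491) (B (L (nat_lit 490) ln14_14_1 ln14_14_1_ok) (M (nat_lit 523) (B (L (nat_lit 555) ln11_17_6 ln11_17_6_ok) (L (nat_lit 396) ln11_16_6 ln11_16_6_ok))))))))))))))) (B (M (nat_lit 427) (B (M (nat_lit 462) (B (L (nat_lit 463) ln15_14_3 ln15_14_3_ok) (L (nat_lit 426) ln10_13_0 ln10_13_0_ok))) (M (nat_lit 395) (B (L (nat_lit 331) ln11_10_4 ln11_10_4_ok) (M (nat_lit 492) (B (L (nat_lit 524) ln12_16_7 ln12_16_7_ok) (L (nat_lit 459) ln11_11_4 ln11_11_4_ok))))))) (M (nat_lit 427) (B (M (nat_lit 395) (B (M (nat_lit 492) (B (L (nat_lit 396) ln12_15_7 ln12_15_7_ok) (L (nat_lit 524) ln12_16_7 ln12_16_7_ok))) (L (nat_lit 331) ln11_10_4 ln11_10_4_ok))) (M (nat_lit 462) (B (L (nat_lit 426) ln10_13_0 ln10_13_0_ok) (L (nat_lit 463) ln15_14_3 ln15_14_3_ok)))))))))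
noncomputable def c10_d483 : Cert := (B (M (nat_lit 460) (B (K (nat_lit 8931394246223919741660702096143128740880192478464903044691016872442593480537265575446063142856511203595172621904809346577872911053935869952) (nat_lit 943490606425058863553783600755425751106931713439554578160830367643095220853790867978575098115065140597355275708682093332671903168877930850107781672371233712081559617536) (nat_lit 943490606425058863553783600755425751106931713439554578160830367643095220853790867978575098115065140597355275708682093332671903168877930850107781672371233712081559617536) c10_s7) (B (K (nat_lit 8931394246223919741660702096143128740880192478464903044691016872442593480537265575446063142856511203595172621904809346577872911053935869952) (nat_lit 117936325803132358280073146206843013007679190477221623363617408218589464219417533674716048631552093212757485967795479957003747511300061674941715621948272144294017499136) (nat_lit 117936325803132358280073146206843013007679190477221623363617408218589464219417533674716048631552093212757485967795479957003747511300061674941715621948272144294017499136)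 c10_s110) (M (nat_lit 396) (B (L (nat_lit 332) ln12_10_4 ln12_10_4_ok) (L (nat_lit 331) ln12_14_7 ln12_14_7_ok)))))) (B (M (nat_lit 362) (B (M (nat_lit 361) (B (M (nat_lit 392) (B (L (nat_lit 393) ln12_11_1 ln12_11_1_ok) (M (nat_lit 360) (B (L (nat_lit 391) ln11_11_1 ln11_11_1_ok) (M (nat_lit 328) (B (L (nat_lit 329) ln12_11_3 ln12_11_3_ok) (L (nat_lit 327) ln11_11_3 ln11_11_3_ok))))))) (B (M (nat_lit 360) (B (M (nat_lit 332) (B (L (nat_lit 333) ln9_11_2 ln9_11_2_ok) (L (nat_lit 331) ln8_11_2 ln8_11_2_ok))) (M (nat_lit 328) (B (L (nat_lit 329) ln12_11_3 ln12_11_3_ok) (L (nat_lit 327) ln11_11_3 ln11_11_3_ok))))) (B (M (nat_lit 360) (B (M (nat_lit 332) (B (L (nat_lit 333) ln9_11_2 ln9_11_2_ok) (L (nat_lit 331) ln8_11_2 ln8_11_2_ok))) (M (nat_lit 392) (B (L (nat_lit 393) ln12_11_1 ln12_11_1_ok) (L (nat_lit 391) ln11_11_1 ln11_11_1_ok))))) (M (nat_lit 333) (B (L (nat_lit 334) ln10_11_2 ln10_11_2_ok) (L (nat_lit 332) ln9_11_2 ln9_11_2_ok))))))) (B (M (nat_lit 361) (B (M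 (nat_lit 332) (B (L (nat_lit 333) ln9_11_2 ln9_11_2_ok) (M (nat_lit 328) (B (L (nat_lit 329) ln12_11_3 ln12_11_3_ok) (M (nat_lit 360) (B (L (nat_lit 327) ln11_11_3 ln11_11_3_ok) (L (nat_lit 331) ln8_11_2 ln8_11_2_ok))))))) (B (M (nat_lit 360) (B (M (nat_lit 392) (B (L (nat_lit 391) ln11_11_1 ln11_11_1_ok) (L (nat_lit 393) ln12_11_1 ln12_11_1_ok))) (M (nat_lit 332) (B (L (nat_lit 331) ln8_11_2 ln8_11_2_ok) (L (nat_lit 333) ln9_11_2 ln9_11_2_ok))))) (M (nat_lit 329) (B (L (nat_lit 328) ln12_11_3 ln12_11_3_ok) (M (nat_lit 393) (B (L (nat_lit 392) ln12_11_1 ln12_11_1_ok) (M (nat_lit 297) (B (L (nat_lit 394) ln13_11_1 ln13_11_1_ok) (M (nat_lit 265) (B (M (nat_lit 264) (B (L (nat_lit 232) ln9_11_7_c10 ln9_11_7_c10_ok) (L (nat_lit 296) ln9_12_7_c10 ln9_12_7_c10_ok))) (M (nat_lit 266) (B (L (nat_lit 234) ln9_11_6_c10 ln9_11_6_c10_ok) (L (nat_lit 298) ln9_12_6_c10 ln9_12_6_c10_ok)))))))))))))) (B (M (nat_lit 329) (B (M (nat_lit 328) (B (L (nat_lit 361) ln12_11_3 ln12_11_3_ok)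 (L (nat_lit 330) ln13_11_3 ln13_11_3_ok))) (B (M (nat_lit 394) (B (L (nat_lit 330) ln13_11_3 ln13_11_3_ok) (L (nat_lit 393) ln13_11_1 ln13_11_1_ok))) (M (nat_lit 361) (B (L (nat_lit 328) ln12_11_3 ln12_11_3_ok) (M (nat_lit 393) (B (L (nat_lit 392) ln12_11_1 ln12_11_1_ok) (L (nat_lit 394) ln13_11_1 ln13_11_1_ok)))))))) (B (M (nat_lit 361) (B (M (nat_lit 393) (B (L (nat_lit 392) ln12_11_1 ln12_11_1_ok) (L (nat_lit 394) ln13_11_1 ln13_11_1_ok))) (M (nat_lit 333) (B (L (nat_lit 332) ln9_11_2 ln9_11_2_ok) (L (nat_lit 334) ln10_11_2 ln10_11_2_ok))))) (B (M (nat_lit 361) (B (M (nat_lit 333) (B (L (nat_lit 334) ln10_11_2 ln10_11_2_ok) (L (nat_lit 332) ln9_11_2 ln9_11_2_ok))) (M (nat_lit 329) (B (L (nat_lit 330) ln13_11_3 ln13_11_3_ok) (L (nat_lit 328) ln12_11_3 ln12_11_3_ok))))) (M (nat_lit 330) (B (L (nat_lit 329) ln13_11_3 ln13_11_3_ok) (M (nat_lit 394) (B (L (nat_lit 393) ln13_11_1 ln13_11_1_ok) (M (nat_lit 298) (B (M (nat_lit 267) (B (L (nat_lit 299) ln10_12_6_c10 ln10_12_6_c10_ok)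 (M (nat_lit 266) (B (L (nat_lit 235) ln10_11_6_c10 ln10_11_6_c10_ok) (M (nat_lit 265) (B (L (nat_lit 233) ln10_11_7_c10 ln10_11_7_c10_ok) (L (nat_lit 297) ln10_12_7_c10 ln10_12_7_c10_ok))))))) (B (M (nat_lit 331) (B (M (nat_lit 299) (B (L (nat_lit 267) ln11_8_5 ln11_8_5_ok) (L (nat_lit 426) ln10_13_6 ln10_13_6_ok))) (B (M (nat_lit 426) (B (L (nat_lit 299) ln10_13_6 ln10_13_6_ok) (L (nat_lit 458) ln10_14_6 ln10_14_6_ok))) (M (nat_lit 333) (B (L (nat_lit 334) ln10_11_2 ln10_11_2_ok) (M (nat_lit 297) (B (L (nat_lit 265) ln10_12_7_c10 ln10_12_7_c10_ok) (L (nat_lit 332) ln13_10_3 ln13_10_3_ok)))))))) (B (M (nat_lit 266) (B (M (nat_lit 267) (B (L (nat_lit 235) ln10_11_6_c10 ln10_11_6_c10_ok) (L (nat_lit 299) ln10_12_6_c10 ln10_12_6_c10_ok))) (B (M (nat_lit 331) (B (L (nat_lit 234) ln10_7_4 ln10_7_4_ok) (M (nat_lit 299) (B (L (nat_lit 267) ln11_8_5 ln11_8_5_ok) (L (nat_lit 426) ln10_13_6 ln10_13_6_ok))))) (B (M (nat_lit 331) (B (L (nat_lit 234) ln10_7_4 ln10_7_4_ok) (M (nat_lit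 426) (B (L (nat_lit 299) ln10_13_6 ln10_13_6_ok) (L (nat_lit 458) ln10_14_6 ln10_14_6_ok))))) (M (nat_lit 234) (B (L (nat_lit 331) ln10_7_4 ln10_7_4_ok) (M (nat_lit 235) (B (L (nat_lit 203) ln10_10_6_c10 ln10_10_6_c10_ok) (L (nat_lit 267) ln10_11_6_c10 ln10_11_6_c10_ok))))))))) (B (M (nat_lit 331) (B (M (nat_lit 426) (B (L (nat_lit 299) ln10_13_6 ln10_13_6_ok) (L (nat_lit 458) ln10_14_6 ln10_14_6_ok))) (M (nat_lit 333) (B (L (nat_lit 334) ln10_11_2 ln10_11_2_ok) (M (nat_lit 297) (B (L (nat_lit 265) ln10_12_7_c10 ln10_12_7_c10_ok) (L (nat_lit 332) ln13_10_3 ln13_10_3_ok))))))) (M (nat_lit 266) (B (M (nat_lit 265) (B (L (nat_lit 233) ln10_11_7_c10 ln10_11_7_c10_ok) (L (nat_lit 297) ln10_12_7_c10 ln10_12_7_c10_ok))) (M (nat_lit 234) (B (L (nat_lit 331) ln10_7_4 ln10_7_4_ok) (M (nat_lit 235) (B (L (nat_lit 203) ln10_10_6_c10 ln10_10_6_c10_ok) (L (nat_lit 267) ln10_11_6_c10 ln10_11_6_c10_ok)))))))))))))))))))))) (B (K (nat_lit 5954262831509113917970671779033862168167677465089648269778033016598694956424787681501984599132935639058289333405543081762115182783130238976)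 (nat_lit 2977131414714805823922029329607728521876127709918605933281728865056971390655792805132888277455476930523927448994312274942754780882736775168) (nat_lit 2977131414714805823922029329607728521876127709918605933281728865056971390655792805132888277455476930523927448994312274942754780882736775168) c10_s112) (M (nat_lit 396) (B (M (nat_lit 460) (B (L (nat_lit 333) ln12_14_6 ln12_14_6_ok) (L (nat_lit 331) ln12_14_7 ln12_14_7_ok))) (L (nat_lit 332) ln12_10_4 ln12_10_4_ok))))))
noncomputable def c10_d484 : Cert := (B (M (nat_lit 362) (B (M (nat_lit 427) (B (M (nat_lit 331) (B (L (nat_lit 460) ln11_10_4 ln11_10_4_ok) (M (nat_lit 299) (B (M (nat_lit 298) (B (L (nat_lit 330) ln11_13_7 ln11_13_7_ok) (L (nat_lit 266) ln11_12_7 ln11_12_7_ok))) (B (M (nat_lit 267) (B (M (nat_lit 268) (B (L (nat_lit 300) ln11_12_6 ln11_12_6_ok) (L (nat_lit 236) ln11_11_6 ln11_11_6_ok))) (M (nat_lit 266) (B (L (nat_lit 298) ln11_12_7 ln11_12_7_ok) (L (nat_lit 234) ln11_11_7 ln11_11_7_ok))))) (B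 (M (nat_lit 267) (B (M (nat_lit 268) (B (L (nat_lit 300) ln11_12_6 ln11_12_6_ok) (L (nat_lit 236) ln11_11_6 ln11_11_6_ok))) (M (nat_lit 235) (B (L (nat_lit 394) ln11_8_5 ln11_8_5_ok) (M (nat_lit 234) (B (L (nat_lit 266) ln11_11_7 ln11_11_7_ok) (L (nat_lit 202) ln11_10_7 ln11_10_7_ok))))))) (M (nat_lit 267) (B (M (nat_lit 268) (B (L (nat_lit 300) ln11_12_6 ln11_12_6_ok) (L (nat_lit 236) ln11_11_6 ln11_11_6_ok))) (L (nat_lit 394) ln11_8_5 ln11_8_5_ok))))))))) (B (M (nat_lit 459) (B (M (nat_lit 491) (B (L (nat_lit 394) ln11_15_7 ln11_15_7_ok) (M (nat_lit 492) (B (L (nat_lit 460) ln11_11_4 ln11_11_4_ok) (L (nat_lit 524) ln11_12_4 ln11_12_4_ok))))) (B (M (nat_lit 491) (B (L (nat_lit 394) ln11_15_7 ln11_15_7_ok) (M (nat_lit 490) (B (L (nat_lit 458) ln11_11_5 ln11_11_5_ok) (L (nat_lit 522) ln11_12_5 ln11_12_5_ok))))) (M (nat_lit 460) (B (L (nat_lit 492) ln11_11_4 ln11_11_4_ok) (L (nat_lit 331) ln11_10_4 ln11_10_4_ok)))))) (B (M (nat_lit 459) (B (L (nat_lit 330) ln11_14_7 ln11_14_7_ok)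 (M (nat_lit 492) (B (L (nat_lit 460) ln11_11_4 ln11_11_4_ok) (M (nat_lit 490) (B (L (nat_lit 458) ln11_11_5 ln11_11_5_ok) (M (nat_lit 491) (B (L (nat_lit 524) ln11_12_4 ln11_12_4_ok) (L (nat_lit 522) ln11_12_5 ln11_12_5_ok))))))))) (M (nat_lit 459) (B (M (nat_lit 394) (B (L (nat_lit 491) ln11_15_7 ln11_15_7_ok) (L (nat_lit 393) ln13_11_1 ln13_11_1_ok))) (L (nat_lit 330) ln11_14_7 ln11_14_7_ok))))))) (B (M (nat_lit 361) (B (M (nat_lit 393) (B (L (nat_lit 394) ln13_11_1 ln13_11_1_ok) (L (nat_lit 392) ln12_11_1 ln12_11_1_ok))) (B (M (nat_lit 360) (B (M (nat_lit 392) (B (L (nat_lit 393) ln12_11_1 ln12_11_1_ok) (L (nat_lit 391) ln11_11_1 ln11_11_1_ok))) (M (nat_lit 328) (B (L (nat_lit 329) ln12_11_3 ln12_11_3_ok) (L (nat_lit 327) ln11_11_3 ln11_11_3_ok))))) (B (M (nat_lit 360) (B (M (nat_lit 328) (B (L (nat_lit 329) ln12_11_3 ln12_11_3_ok) (L (nat_lit 327) ln11_11_3 ln11_11_3_ok))) (M (nat_lit 391) (B (L (nat_lit 392) ln11_11_1 ln11_11_1_ok) (M (nat_lit 359) (B (L (nat_lit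 394) ln7_11_0 ln7_11_0_ok) (L (nat_lit 390) ln10_11_1 ln10_11_1_ok))))))) (M (nat_lit 360) (B (M (nat_lit 394) (B (L (nat_lit 393) ln13_11_1 ln13_11_1_ok) (L (nat_lit 359) ln7_11_0 ln7_11_0_ok))) (M (nat_lit 328) (B (L (nat_lit 329) ln12_11_3 ln12_11_3_ok) (L (nat_lit 327) ln11_11_3 ln11_11_3_ok))))))))) (M (nat_lit 330) (B (L (nat_lit 329) ln13_11_3 ln13_11_3_ok) (M (nat_lit 298) (B (L (nat_lit 266) ln10_8_4 ln10_8_4_ok) (M (nat_lit 427) (B (L (nat_lit 331) ln11_13_7 ln11_13_7_ok) (L (nat_lit 459) ln11_14_7 ln11_14_7_ok)))))))))) (B (M (nat_lit 396) (B (M (nat_lit 362) (B (M (nat_lit 393) (B (L (nat_lit 394) ln13_11_1 ln13_11_1_ok) (M (nat_lit 361) (B (L (nat_lit 392) ln12_11_1 ln12_11_1_ok) (L (nat_lit 360) ln8_11_0 ln8_11_0_ok))))) (B (M (nat_lit 331) (B (L (nat_lit 299) ln11_9_4 ln11_9_4_ok) (M (nat_lit 361) (B (L (nat_lit 360) ln8_11_0 ln8_11_0_ok) (M (nat_lit 329) (B (L (nat_lit 328) ln12_11_3 ln12_11_3_ok) (L (nat_lit 330) ln13_11_3 ln13_11_3_ok))))))) (B (M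 (nat_lit 331) (B (L (nat_lit 299) ln11_9_4 ln11_9_4_ok) (M (nat_lit 393) (B (L (nat_lit 394) ln13_11_1 ln13_11_1_ok) (M (nat_lit 361) (B (L (nat_lit 392) ln12_11_1 ln12_11_1_ok) (M (nat_lit 329) (B (L (nat_lit 328) ln12_11_3 ln12_11_3_ok) (L (nat_lit 330) ln13_11_3 ln13_11_3_ok))))))))) (M (nat_lit 394) (B (L (nat_lit 393) ln13_11_1 ln13_11_1_ok) (M (nat_lit 299) (B (L (nat_lit 331) ln11_9_4 ln11_9_4_ok) (M (nat_lit 330) (B (L (nat_lit 329) ln13_11_3 ln13_11_3_ok) (M (nat_lit 298) (B (L (nat_lit 267) ln10_12_6_c10 ln10_12_6_c10_ok) (L (nat_lit 266) ln10_8_4 ln10_8_4_ok))))))))))))) (B (M (nat_lit 393) (B (L (nat_lit 394) ln9_12_0 ln9_12_0_ok) (M (nat_lit 362) (B (M (nat_lit 361) (B (L (nat_lit 360) ln8_11_0 ln8_11_0_ok) (L (nat_lit 392) ln12_11_1 ln12_11_1_ok))) (M (nat_lit 333) (B (L (nat_lit 460) ln12_14_6 ln12_14_6_ok) (L (nat_lit 334) ln10_11_2 ln10_11_2_ok))))))) (M (nat_lit 460) (B (L (nat_lit 333) ln12_14_6 ln12_14_6_ok) (L (nat_lit 331) ln12_14_7 ln12_14_7_ok))))))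 (B (M (nat_lit 362) (B (M (nat_lit 393) (B (L (nat_lit 394) ln13_11_1 ln13_11_1_ok) (M (nat_lit 361) (B (L (nat_lit 392) ln12_11_1 ln12_11_1_ok) (M (nat_lit 329) (B (L (nat_lit 328) ln12_11_3 ln12_11_3_ok) (L (nat_lit 330) ln13_11_3 ln13_11_3_ok))))))) (B (M (nat_lit 394) (B (L (nat_lit 393) ln13_11_1 ln13_11_1_ok) (M (nat_lit 330) (B (L (nat_lit 329) ln13_11_3 ln13_11_3_ok) (M (nat_lit 427) (B (L (nat_lit 298) ln10_9_4 ln10_9_4_ok) (L (nat_lit 459) ln11_14_7 ln11_14_7_ok))))))) (B (M (nat_lit 361) (B (M (nat_lit 393) (B (L (nat_lit 392) ln12_11_1 ln12_11_1_ok) (L (nat_lit 394) ln13_11_1 ln13_11_1_ok))) (B (M (nat_lit 394) (B (L (nat_lit 393) ln13_11_1 ln13_11_1_ok) (M (nat_lit 360) (B (L (nat_lit 359) ln7_11_0 ln7_11_0_ok) (L (nat_lit 396) ln8_11_0 ln8_11_0_ok))))) (B (M (nat_lit 360) (B (L (nat_lit 396) ln8_11_0 ln8_11_0_ok) (M (nat_lit 359) (B (L (nat_lit 394) ln7_11_0 ln7_11_0_ok) (M (nat_lit 327) (B (L (nat_lit 326) ln10_11_3 ln10_11_3_ok) (L (nat_lit 328) ln11_11_3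 ln11_11_3_ok))))))) (M (nat_lit 360) (B (L (nat_lit 396) ln8_11_0 ln8_11_0_ok) (M (nat_lit 392) (B (L (nat_lit 391) ln11_11_1 ln11_11_1_ok) (L (nat_lit 393) ln12_11_1 ln12_11_1_ok))))))))) (B (M (nat_lit 361) (B (M (nat_lit 329) (B (L (nat_lit 328) ln12_11_3 ln12_11_3_ok) (L (nat_lit 330) ln13_11_3 ln13_11_3_ok))) (M (nat_lit 360) (B (L (nat_lit 396) ln8_11_0 ln8_11_0_ok) (M (nat_lit 359) (B (L (nat_lit 394) ln7_11_0 ln7_11_0_ok) (M (nat_lit 391) (B (L (nat_lit 390) ln10_11_1 ln10_11_1_ok) (L (nat_lit 392) ln11_11_1 ln11_11_1_ok))))))))) (M (nat_lit 361) (B (M (nat_lit 329) (B (L (nat_lit 328) ln12_11_3 ln12_11_3_ok) (L (nat_lit 330) ln13_11_3 ln13_11_3_ok))) (M (nat_lit 360) (B (L (nat_lit 396) ln8_11_0 ln8_11_0_ok) (M (nat_lit 392) (B (L (nat_lit 391) ln11_11_1 ln11_11_1_ok) (L (nat_lit 393) ln12_11_1 ln12_11_1_ok)))))))))))) (M (nat_lit 460) (B (M (nat_lit 396) (B (L (nat_lit 333) ln12_14_6 ln12_14_6_ok) (L (nat_lit 331) ln12_14_7 ln12_14_7_ok))) (B (M (nat_lit 396)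 (B (L (nat_lit 331) ln12_14_7 ln12_14_7_ok) (L (nat_lit 492) ln12_15_7 ln12_15_7_ok))) (B (M (nat_lit 396) (B (L (nat_lit 333) ln12_14_6 ln12_14_6_ok) (L (nat_lit 492) ln12_15_7 ln12_15_7_ok))) (M (nat_lit 427) (B (L (nat_lit 331) ln11_10_4 ln11_10_4_ok) (M (nat_lit 492) (B (L (nat_lit 459) ln11_11_4 ln11_11_4_ok) (L (nat_lit 524) ln12_16_7 ln12_16_7_ok))))))))))))
noncomputable def c10_d485 : Cert := (B (M (nat_lit 427) (B (M (nat_lit 395) (B (M (nat_lit 332) (B (M (nat_lit 300) (B (L (nat_lit 331) ln11_13_6 ln11_13_6_ok) (M (nat_lit 364) (B (L (nat_lit 268) ln12_8_5 ln12_8_5_ok) (L (nat_lit 459) ln11_14_6 ln11_14_6_ok))))) (B (M (nat_lit 330) (B (M (nat_lit 331) (B (L (nat_lit 298) ln11_13_7 ln11_13_7_ok) (L (nat_lit 300) ln11_13_6 ln11_13_6_ok))) (M (nat_lit 459) (B (L (nat_lit 362) ln11_14_7 ln11_14_7_ok) (L (nat_lit 364) ln11_14_6 ln11_14_6_ok))))) (B (M (nat_lit 459) (B (L (nat_lit 364) ln11_14_6 ln11_14_6_ok) (M (nat_lit 491) (B (M (nat_lit 362) (B (L (nat_lit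 330) ln11_14_7 ln11_14_7_ok) (L (nat_lit 394) ln11_15_7 ln11_15_7_ok))) (M (nat_lit 490) (B (L (nat_lit 458) ln11_11_5 ln11_11_5_ok) (L (nat_lit 522) ln11_12_5 ln11_12_5_ok))))))) (B (M (nat_lit 331) (B (L (nat_lit 300) ln11_13_6 ln11_13_6_ok) (M (nat_lit 330) (B (L (nat_lit 298) ln11_13_7 ln11_13_7_ok) (M (nat_lit 362) (B (L (nat_lit 459) ln11_14_7 ln11_14_7_ok) (M (nat_lit 361) (B (L (nat_lit 333) ln13_10_1 ln13_10_1_ok) (L (nat_lit 360) ln8_11_2 ln8_11_2_ok))))))))) (M (nat_lit 331) (B (L (nat_lit 300) ln11_13_6 ln11_13_6_ok) (M (nat_lit 362) (B (M (nat_lit 330) (B (L (nat_lit 298) ln11_13_7 ln11_13_7_ok) (M (nat_lit 333) (B (L (nat_lit 361) ln13_10_1 ln13_10_1_ok) (L (nat_lit 334) ln14_10_1 ln14_10_1_ok))))) (B (M (nat_lit 333) (B (L (nat_lit 334) ln14_10_1 ln14_10_1_ok) (M (nat_lit 361) (B (L (nat_lit 330) ln13_10_1 ln13_10_1_ok) (L (nat_lit 360) ln8_11_2 ln8_11_2_ok))))) (B (M (nat_lit 333) (B (L (nat_lit 334) ln14_10_1 ln14_10_1_ok) (M (nat_lit 361) (B (L (nat_lit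 360) ln8_11_2 ln8_11_2_ok) (L (nat_lit 364) ln9_11_2 ln9_11_2_ok))))) (M (nat_lit 299) (B (M (nat_lit 298) (B (L (nat_lit 266) ln11_12_7 ln11_12_7_ok) (L (nat_lit 330) ln11_13_7 ln11_13_7_ok))) (B (M (nat_lit 267) (B (L (nat_lit 394) ln11_8_5 ln11_8_5_ok) (M (nat_lit 235) (B (L (nat_lit 330) ln11_7_5 ln11_7_5_ok) (L (nat_lit 364) ln11_7_4 ln11_7_4_ok))))) (M (nat_lit 267) (B (L (nat_lit 394) ln11_8_5 ln11_8_5_ok) (M (nat_lit 266) (B (L (nat_lit 234) ln11_11_7 ln11_11_7_ok) (L (nat_lit 298) ln11_12_7 ln11_12_7_ok))))))))))))))))))) (B (M (nat_lit 459) (B (M (nat_lit 492) (B (L (nat_lit 460) ln11_11_4 ln11_11_4_ok) (M (nat_lit 491) (B (L (nat_lit 524) ln11_12_4 ln11_12_4_ok) (M (nat_lit 490) (B (L (nat_lit 522) ln11_12_5 ln11_12_5_ok) (L (nat_lit 458) ln11_11_5 ln11_11_5_ok))))))) (B (M (nat_lit 491) (B (M (nat_lit 490) (B (L (nat_lit 522) ln11_12_5 ln11_12_5_ok) (L (nat_lit 458) ln11_11_5 ln11_11_5_ok))) (M (nat_lit 362) (B (L (nat_lit 394) ln11_15_7 ln11_15_7_ok) (L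 (nat_lit 330) ln11_14_7 ln11_14_7_ok))))) (B (M (nat_lit 491) (B (M (nat_lit 492) (B (L (nat_lit 524) ln11_12_4 ln11_12_4_ok) (L (nat_lit 460) ln11_11_4 ln11_11_4_ok))) (M (nat_lit 362) (B (L (nat_lit 394) ln11_15_7 ln11_15_7_ok) (L (nat_lit 330) ln11_14_7 ln11_14_7_ok))))) (M (nat_lit 460) (B (L (nat_lit 492) ln11_11_4 ln11_11_4_ok) (M (nat_lit 458) (B (L (nat_lit 490) ln11_11_5 ln11_11_5_ok) (L (nat_lit 457) ln9_14_2 ln9_14_2_ok))))))))) (B (M (nat_lit 331) (B (L (nat_lit 460) ln11_10_4 ln11_10_4_ok) (M (nat_lit 298) (B (L (nat_lit 330) ln11_13_7 ln11_13_7_ok) (M (nat_lit 300) (B (L (nat_lit 332) ln11_13_6 ln11_13_6_ok) (M (nat_lit 299) (B (L (nat_lit 266) ln11_12_7 ln11_12_7_ok) (L (nat_lit 268) ln11_12_6 ln11_12_6_ok))))))))) (M (nat_lit 460) (B (M (nat_lit 492) (B (L (nat_lit 524) ln12_16_7 ln12_16_7_ok) (L (nat_lit 459) ln11_11_4 ln11_11_4_ok))) (L (nat_lit 331) ln11_10_4 ln11_10_4_ok))))))) (B (M (nat_lit 426) (B (L (nat_lit 462) ln10_13_0 ln10_13_0_ok) (M (nat_lit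 393) (B (L (nat_lit 394) ln13_13_3 ln13_13_3_ok) (M (nat_lit 457) (B (L (nat_lit 458) ln13_13_1 ln13_13_1_ok) (M (nat_lit 425) (B (L (nat_lit 392) ln12_13_3 ln12_13_3_ok) (L (nat_lit 456) ln12_13_1 ln12_13_1_ok))))))))) (M (nat_lit 462) (B (M (nat_lit 463) (B (L (nat_lit 460) ln15_14_3 ln15_14_3_ok) (L (nat_lit 464) ln16_14_3 ln16_14_3_ok))) (L (nat_lit 426) ln10_13_0 ln10_13_0_ok)))))) (M (nat_lit 427) (B (M (nat_lit 395) (B (M (nat_lit 460) (B (L (nat_lit 331) ln11_10_4 ln11_10_4_ok) (M (nat_lit 492) (B (L (nat_lit 396) ln12_15_7 ln12_15_7_ok) (L (nat_lit 524) ln12_16_7 ln12_16_7_ok))))) (B (K (nat_lit 5954262831855697629816468945133803153287929070498065335724184002082907217995040331938266384656443382751649462862302106390506304137389408256) (nat_lit 117936325858050739201492590849913366147264056608024948184396872009767946713367285855013380256241345309842473288486644080363565016952821894612904822304536783740194521088) (nat_lit 117936325858050739201492590849913366147264056608024948184396872009767946713367285855013380256241345309842473288486644080363565016952821894612904822304536783740194521088)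 c10_s124) (B (M (nat_lit 460) (B (L (nat_lit 331) ln11_10_4 ln11_10_4_ok) (M (nat_lit 492) (B (L (nat_lit 459) ln11_11_4 ln11_11_4_ok) (L (nat_lit 524) ln12_16_7 ln12_16_7_ok))))) (M (nat_lit 459) (B (M (nat_lit 362) (B (L (nat_lit 330) ln11_14_7 ln11_14_7_ok) (M (nat_lit 491) (B (L (nat_lit 394) ln11_15_7 ln11_15_7_ok) (M (nat_lit 490) (B (L (nat_lit 458) ln11_11_5 ln11_11_5_ok) (L (nat_lit 522) ln11_12_5 ln11_12_5_ok))))))) (B (M (nat_lit 491) (B (M (nat_lit 490) (B (L (nat_lit 458) ln11_11_5 ln11_11_5_ok) (L (nat_lit 522) ln11_12_5 ln11_12_5_ok))) (M (nat_lit 396) (B (L (nat_lit 364) ln11_15_6 ln11_15_6_ok) (L (nat_lit 523) ln11_16_6 ln11_16_6_ok))))) (B (M (nat_lit 491) (B (M (nat_lit 362) (B (L (nat_lit 330) ln11_14_7 ln11_14_7_ok) (L (nat_lit 394) ln11_15_7 ln11_15_7_ok))) (M (nat_lit 396) (B (L (nat_lit 364) ln11_15_6 ln11_15_6_ok) (L (nat_lit 523) ln11_16_6 ln11_16_6_ok))))) (M (nat_lit 331) (B (M (nat_lit 330) (B (L (nat_lit 298) ln11_13_7 ln11_13_7_ok) (L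 (nat_lit 362) ln11_14_7 ln11_14_7_ok))) (B (M (nat_lit 299) (B (L (nat_lit 396) ln11_9_4 ln11_9_4_ok) (M (nat_lit 267) (B (M (nat_lit 362) (B (L (nat_lit 330) ln11_14_7 ln11_14_7_ok) (L (nat_lit 394) ln11_8_5 ln11_8_5_ok))) (M (nat_lit 268) (B (L (nat_lit 236) ln11_11_6 ln11_11_6_ok) (L (nat_lit 300) ln11_12_6 ln11_12_6_ok))))))) (M (nat_lit 299) (B (L (nat_lit 396) ln11_9_4 ln11_9_4_ok) (M (nat_lit 267) (B (M (nat_lit 266) (B (L (nat_lit 234) ln11_11_7 ln11_11_7_ok) (L (nat_lit 298) ln11_12_7 ln11_12_7_ok))) (M (nat_lit 268) (B (L (nat_lit 236) ln11_11_6 ln11_11_6_ok) (L (nat_lit 300) ln11_12_6 ln11_12_6_ok)))))))))))))))))) (B (M (nat_lit 426) (B (L (nat_lit 462) ln10_13_0 ln10_13_0_ok) (M (nat_lit 393) (B (L (nat_lit 394) ln13_13_3 ln13_13_3_ok) (M (nat_lit 457) (B (L (nat_lit 458) ln13_13_1 ln13_13_1_ok) (M (nat_lit 425) (B (L (nat_lit 392) ln12_13_3 ln12_13_3_ok) (L (nat_lit 456) ln12_13_1 ln12_13_1_ok))))))))) (M (nat_lit 462) (B (M (nat_lit 463) (B (L (nat_lit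 460) ln15_14_3 ln15_14_3_ok) (L (nat_lit 464) ln16_14_3 ln16_14_3_ok))) (L (nat_lit 426) ln10_13_0 ln10_13_0_ok)))))))
noncomputable def c10_d486 : Cert := (B (M (nat_lit 364) (B (M (nat_lit 331) (B (M (nat_lit 362) (B (M (nat_lit 330) (B (M (nat_lit 298) (B (M (nat_lit 266) (B (L (nat_lit 234) ln10_7_4 ln10_7_4_ok) (M (nat_lit 394) (B (M (nat_lit 265) (B (L (nat_lit 233) ln10_11_7_c10 ln10_11_7_c10_ok) (L (nat_lit 297) ln10_12_7_c10 ln10_12_7_c10_ok))) (M (nat_lit 267) (B (L (nat_lit 235) ln10_11_6_c10 ln10_11_6_c10_ok) (L (nat_lit 299) ln11_8_5 ln11_8_5_ok))))))) (B (M (nat_lit 426) (B (M (nat_lit 394) (B (L (nat_lit 458) ln10_14_6 ln10_14_6_ok) (L (nat_lit 299) ln10_13_6 ln10_13_6_ok))) (M (nat_lit 427) (B (L (nat_lit 462) ln10_13_0 ln10_13_0_ok) (L (nat_lit 395) ln11_13_7 ln11_13_7_ok))))) (M (nat_lit 395) (B (L (nat_lit 266) ln10_8_4 ln10_8_4_ok) (L (nat_lit 427) ln11_13_7 ln11_13_7_ok)))))) (L (nat_lit 329) ln13_11_3 ln13_11_3_ok))) (B (M (nat_lit 361) (B (M (nat_lit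 329) (B (L (nat_lit 330) ln13_11_3 ln13_11_3_ok) (L (nat_lit 328) ln12_11_3 ln12_11_3_ok))) (B (M (nat_lit 360) (B (M (nat_lit 328) (B (L (nat_lit 329) ln12_11_3 ln12_11_3_ok) (L (nat_lit 327) ln11_11_3 ln11_11_3_ok))) (M (nat_lit 392) (B (L (nat_lit 393) ln12_11_1 ln12_11_1_ok) (L (nat_lit 391) ln11_11_1 ln11_11_1_ok))))) (B (M (nat_lit 360) (B (M (nat_lit 392) (B (L (nat_lit 393) ln12_11_1 ln12_11_1_ok) (L (nat_lit 391) ln11_11_1 ln11_11_1_ok))) (M (nat_lit 327) (B (L (nat_lit 328) ln11_11_3 ln11_11_3_ok) (M (nat_lit 359) (B (L (nat_lit 330) ln7_11_2 ln7_11_2_ok) (L (nat_lit 326) ln10_11_3 ln10_11_3_ok))))))) (M (nat_lit 360) (B (M (nat_lit 330) (B (L (nat_lit 329) ln13_11_3 ln13_11_3_ok) (L (nat_lit 359) ln7_11_2 ln7_11_2_ok))) (M (nat_lit 392) (B (L (nat_lit 393) ln12_11_1 ln12_11_1_ok) (L (nat_lit 391) ln11_11_1 ln11_11_1_ok))))))))) (M (nat_lit 394) (B (L (nat_lit 393) ln13_11_1 ln13_11_1_ok) (M (nat_lit 426) (B (L (nat_lit 458) ln10_14_6 ln10_14_6_ok) (M (nat_lit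 299) (B (L (nat_lit 395) ln11_9_5 ln11_9_5_ok) (L (nat_lit 267) ln11_8_5 ln11_8_5_ok)))))))))) (B (M (nat_lit 460) (B (M (nat_lit 362) (B (M (nat_lit 361) (B (M (nat_lit 329) (B (L (nat_lit 330) ln13_11_3 ln13_11_3_ok) (L (nat_lit 328) ln12_11_3 ln12_11_3_ok))) (B (M (nat_lit 360) (B (M (nat_lit 328) (B (L (nat_lit 329) ln12_11_3 ln12_11_3_ok) (L (nat_lit 327) ln11_11_3 ln11_11_3_ok))) (M (nat_lit 392) (B (L (nat_lit 393) ln12_11_1 ln12_11_1_ok) (L (nat_lit 391) ln11_11_1 ln11_11_1_ok))))) (B (M (nat_lit 360) (B (M (nat_lit 392) (B (L (nat_lit 393) ln12_11_1 ln12_11_1_ok) (L (nat_lit 391) ln11_11_1 ln11_11_1_ok))) (M (nat_lit 327) (B (L (nat_lit 328) ln11_11_3 ln11_11_3_ok) (M (nat_lit 359) (B (L (nat_lit 330) ln7_11_2 ln7_11_2_ok) (L (nat_lit 326) ln10_11_3 ln10_11_3_ok))))))) (M (nat_lit 360) (B (M (nat_lit 330) (B (L (nat_lit 329) ln13_11_3 ln13_11_3_ok) (L (nat_lit 359) ln7_11_2 ln7_11_2_ok))) (M (nat_lit 392) (B (L (nat_lit 393) ln12_11_1 ln12_11_1_ok) (L (nat_lit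 391) ln11_11_1 ln11_11_1_ok))))))))) (B (M (nat_lit 426) (B (M (nat_lit 427) (B (L (nat_lit 425) ln9_13_0 ln9_13_0_ok) (L (nat_lit 462) ln10_13_0 ln10_13_0_ok))) (M (nat_lit 394) (B (L (nat_lit 458) ln10_14_6 ln10_14_6_ok) (M (nat_lit 299) (B (L (nat_lit 330) ln10_13_6 ln10_13_6_ok) (L (nat_lit 267) ln11_8_5 ln11_8_5_ok))))))) (M (nat_lit 426) (B (M (nat_lit 427) (B (L (nat_lit 462) ln10_13_0 ln10_13_0_ok) (L (nat_lit 425) ln9_13_0 ln9_13_0_ok))) (M (nat_lit 394) (B (L (nat_lit 458) ln10_14_6 ln10_14_6_ok) (L (nat_lit 393) ln13_11_1 ln13_11_1_ok)))))))) (L (nat_lit 396) ln12_14_7 ln12_14_7_ok))) (B (M (nat_lit 460) (B (M (nat_lit 427) (B (M (nat_lit 462) (B (L (nat_lit 426) ln10_13_0 ln10_13_0_ok) (L (nat_lit 463) ln15_14_3 ln15_14_3_ok))) (L (nat_lit 395) ln11_10_4 ln11_10_4_ok))) (L (nat_lit 396) ln12_14_7 ln12_14_7_ok))) (M (nat_lit 396) (B (M (nat_lit 299) (B (L (nat_lit 267) ln11_8_4 ln11_8_4_ok) (L (nat_lit 395) ln11_9_4 ln11_9_4_ok))) (L (nat_lit 460) ln12_14_7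 ln12_14_7_ok))))))) (B (K (nat_lit 5954262831509113917970671779033862168167677465089648269778033016598694956424787681501984599132935639058289333405543081762115182783130238976) (nat_lit 173291856033854632531896942250182455330308712881765376795388918307362893135562190597085936158410440960725335734577451510106423296) (nat_lit 173291856033854632531896942250182455330308712881765376795388918307362893135562190597085936158410440960725335734577451510106423296) c10_s122) (B (K (nat_lit 5954262831509113917970671779033862168167677465089648269778033016598694956424787681501984599132935639058289333405543081762115182783130238976) (nat_lit 2977131414714805823922029329607728521876127709918605933281728865056971390655792805132888277455476930523927448994312274942754780882736775168) (nat_lit 2977131414714805823922029329607728521876127709918605933281728865056971390655792805132888277455476930523927448994312274942754780882736775168) c10_s112) (M (nat_lit 396) (B (M (nat_lit 460) (B (L (nat_lit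 333) ln12_14_6 ln12_14_6_ok) (L (nat_lit 331) ln12_14_7 ln12_14_7_ok))) (L (nat_lit 332) ln12_10_4 ln12_10_4_ok))))))) (B (M (nat_lit 364) (B (K (nat_lit 5954262831509113917970671779033862168167677465089648269778033016598694956424787681501984599132935639058289333405543081762115182783130238976) (nat_lit 173291856033854632531896942250182455330308712881765376795388918307362893135562190597085936158410440960725335734577451510106423296) (nat_lit 173291856033854632531896942250182455330308712881765376795388918307362893135562190597085936158410440960725335734577451510106423296) c10_s122) (B (K (nat_lit 5954262831509113917970671779033862168167677465089648269778033016598694956424787681501984599132935639058289333405543081762115182783130238976) (nat_lit 235872651633723906455844501024882345640149228378756387615330470181321021580930254370118953782443117031057694784684549497976009591269519395912227312378866484279454466048) (nat_lit 235872651633723906455844501024882345640149228378756387615330470181321021580930254370118953782443117031057694784684549497976009591269519395912227312378866484279454466048)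 c10_s94) (B (K (nat_lit 5954262831509113917970671779033862168167677465089648269778033016598694956424787681501984599132935639058289333405543081762115182783130238976) (nat_lit 2977131414714805823922029329607728521876127709918605933281728865056971390655792805132888277455476930523927448994312274942754780882736775168) (nat_lit 2977131414714805823922029329607728521876127709918605933281728865056971390655792805132888277455476930523927448994312274942754780882736775168) c10_s112) (M (nat_lit 396) (B (M (nat_lit 331) (B (M (nat_lit 299) (B (L (nat_lit 267) ln11_8_4 ln11_8_4_ok) (L (nat_lit 395) ln11_9_4 ln11_9_4_ok))) (L (nat_lit 460) ln12_14_7 ln12_14_7_ok))) (L (nat_lit 332) ln12_10_4 ln12_10_4_ok))))))) (B (M (nat_lit 427) (B (M (nat_lit 395) (B (M (nat_lit 460) (B (L (nat_lit 331) ln11_10_4 ln11_10_4_ok) (M (nat_lit 492) (B (L (nat_lit 459) ln11_11_4 ln11_11_4_ok) (L (nat_lit 524) ln12_16_7 ln12_16_7_ok))))) (B (K (nat_lit 5954262831855697629816468945133803153287929070498065335724184002082907217995040331938266384656443382751649462862302106390506304137389408256)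 (nat_lit 117936325858050739201492590849913366147264056608024948184396872009767946713367285855013380256241345309842473288486644080363565016952821894612904822304536783740194521088) (nat_lit 117936325858050739201492590849913366147264056608024948184396872009767946713367285855013380256241345309842473288486644080363565016952821894612904822304536783740194521088) c10_s124) (B (M (nat_lit 460) (B (L (nat_lit 331) ln11_10_4 ln11_10_4_ok) (M (nat_lit 492) (B (L (nat_lit 396) ln12_15_7 ln12_15_7_ok) (L (nat_lit 524) ln12_16_7 ln12_16_7_ok))))) (B (M (nat_lit 459) (B (M (nat_lit 362) (B (L (nat_lit 330) ln11_14_7 ln11_14_7_ok) (M (nat_lit 491) (B (L (nat_lit 394) ln11_15_7 ln11_15_7_ok) (M (nat_lit 490) (B (L (nat_lit 458) ln11_11_5 ln11_11_5_ok) (L (nat_lit 522) ln11_12_5 ln11_12_5_ok))))))) (B (M (nat_lit 491) (B (M (nat_lit 490) (B (L (nat_lit 458) ln11_11_5 ln11_11_5_ok) (L (nat_lit 522) ln11_12_5 ln11_12_5_ok))) (M (nat_lit 523) (B (L (nat_lit 396) ln11_16_6 ln11_16_6_ok) (M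 (nat_lit 524) (B (L (nat_lit 492) ln11_12_4 ln11_12_4_ok) (L (nat_lit 556) ln11_13_4 ln11_13_4_ok))))))) (B (M (nat_lit 491) (B (M (nat_lit 362) (B (L (nat_lit 330) ln11_14_7 ln11_14_7_ok) (L (nat_lit 394) ln11_15_7 ln11_15_7_ok))) (M (nat_lit 523) (B (L (nat_lit 396) ln11_16_6 ln11_16_6_ok) (M (nat_lit 524) (B (L (nat_lit 492) ln11_12_4 ln11_12_4_ok) (L (nat_lit 556) ln11_13_4 ln11_13_4_ok))))))) (M (nat_lit 331) (B (M (nat_lit 330) (B (L (nat_lit 298) ln11_13_7 ln11_13_7_ok) (L (nat_lit 362) ln11_14_7 ln11_14_7_ok))) (M (nat_lit 299) (B (L (nat_lit 396) ln11_9_4 ln11_9_4_ok) (M (nat_lit 300) (B (L (nat_lit 268) ln11_12_6 ln11_12_6_ok) (L (nat_lit 332) ln11_13_6 ln11_13_6_ok))))))))))) (M (nat_lit 331) (B (L (nat_lit 460) ln11_10_4 ln11_10_4_ok) (M (nat_lit 299) (B (L (nat_lit 396) ln11_9_4 ln11_9_4_ok) (M (nat_lit 300) (B (L (nat_lit 268) ln11_12_6 ln11_12_6_ok) (L (nat_lit 332) ln11_13_6 ln11_13_6_ok)))))))))))) (B (M (nat_lit 426) (B (M (nat_lit 458) (B (L (nat_lit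 457) ln13_13_1 ln13_13_1_ok) (M (nat_lit 395) (B (L (nat_lit 331) ln11_10_5 ln11_10_5_ok) (M (nat_lit 490) (B (L (nat_lit 522) ln10_16_6 ln10_16_6_ok) (L (nat_lit 459) ln11_11_5 ln11_11_5_ok))))))) (B (K (nat_lit 5954262832028989485618324565167238146370124327837748531862369232005148957007496058784222747908415495800981769203384749843222053252551933952) (nat_lit 13729595329851230978767378294089803420323579397543628656357384518644704721726467299345883555807669029340437039496586358740141024914453642690190892691888275456) (nat_lit 13729595329851230978767378294089803420323579397543628656357384518644704721726467299345883555807669029340437039496586358740141024914453642690190892691888275456) c10_s89) (B (M (nat_lit 425) (B (M (nat_lit 393) (B (L (nat_lit 392) ln12_13_3 ln12_13_3_ok) (L (nat_lit 394) ln13_13_3 ln13_13_3_ok))) (B (M (nat_lit 394) (B (L (nat_lit 393) ln13_13_3 ln13_13_3_ok) (M (nat_lit 424) (B (M (nat_lit 456) (B (L (nat_lit 455) ln11_13_1_c10 ln11_13_1_c10_ok)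 (L (nat_lit 457) ln12_13_1 ln12_13_1_ok))) (M (nat_lit 395) (B (L (nat_lit 423) ln7_13_2 ln7_13_2_ok) (L (nat_lit 396) ln8_13_2 ln8_13_2_ok))))))) (B (M (nat_lit 424) (B (M (nat_lit 456) (B (L (nat_lit 455) ln11_13_1_c10 ln11_13_1_c10_ok) (L (nat_lit 457) ln12_13_1 ln12_13_1_ok))) (M (nat_lit 423) (B (M (nat_lit 391) (B (L (nat_lit 390) ln10_13_3_c10 ln10_13_3_c10_ok) (L (nat_lit 392) ln11_13_3 ln11_13_3_ok))) (M (nat_lit 395) (B (L (nat_lit 394) ln7_13_2 ln7_13_2_ok) (L (nat_lit 396) ln8_13_2 ln8_13_2_ok))))))) (L (nat_lit 462) ln10_13_0 ln10_13_0_ok))))) (M (nat_lit 425) (B (M (nat_lit 393) (B (L (nat_lit 392) ln12_13_3 ln12_13_3_ok) (L (nat_lit 394) ln13_13_3 ln13_13_3_ok))) (M (nat_lit 457) (B (L (nat_lit 456) ln12_13_1 ln12_13_1_ok) (L (nat_lit 458) ln13_13_1 ln13_13_1_ok))))))))) (M (nat_lit 462) (B (M (nat_lit 463) (B (L (nat_lit 460) ln15_14_3 ln15_14_3_ok) (L (nat_lit 464) ln16_14_3 ln16_14_3_ok))) (L (nat_lit 426) ln10_13_0 ln10_13_0_ok)))))) c10_d485)))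
noncomputable def c10_d487 : Cert := (B (M (nat_lit 364) (B (M (nat_lit 395) c10_d484) (B (M (nat_lit 362) (B (M (nat_lit 361) (B (M (nat_lit 392) (B (L (nat_lit 393) ln12_11_1 ln12_11_1_ok) (M (nat_lit 360) (B (L (nat_lit 391) ln11_11_1 ln11_11_1_ok) (M (nat_lit 328) (B (L (nat_lit 329) ln12_11_3 ln12_11_3_ok) (L (nat_lit 327) ln11_11_3 ln11_11_3_ok))))))) (B (M (nat_lit 360) (B (M (nat_lit 332) (B (L (nat_lit 333) ln9_11_2 ln9_11_2_ok) (L (nat_lit 331) ln8_11_2 ln8_11_2_ok))) (M (nat_lit 328) (B (L (nat_lit 329) ln12_11_3 ln12_11_3_ok) (L (nat_lit 327) ln11_11_3 ln11_11_3_ok))))) (B (M (nat_lit 360) (B (M (nat_lit 332) (B (L (nat_lit 333) ln9_11_2 ln9_11_2_ok) (L (nat_lit 331) ln8_11_2 ln8_11_2_ok))) (M (nat_lit 392) (B (L (nat_lit 393) ln12_11_1 ln12_11_1_ok) (L (nat_lit 391) ln11_11_1 ln11_11_1_ok))))) (M (nat_lit 333) (B (L (nat_lit 334) ln10_11_2 ln10_11_2_ok) (L (nat_lit 332) ln9_11_2 ln9_11_2_ok))))))) (B (M (nat_lit 361) (B (M (nat_lit 393) (B (L (nat_lit 392)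 ln12_11_1 ln12_11_1_ok) (L (nat_lit 394) ln13_11_1 ln13_11_1_ok))) (M (nat_lit 329) (B (L (nat_lit 328) ln12_11_3 ln12_11_3_ok) (L (nat_lit 330) ln13_11_3 ln13_11_3_ok))))) (B (M (nat_lit 361) (B (M (nat_lit 360) (B (M (nat_lit 392) (B (L (nat_lit 391) ln11_11_1 ln11_11_1_ok) (L (nat_lit 393) ln12_11_1 ln12_11_1_ok))) (M (nat_lit 332) (B (L (nat_lit 331) ln8_11_2 ln8_11_2_ok) (L (nat_lit 333) ln9_11_2 ln9_11_2_ok))))) (B (M (nat_lit 393) (B (L (nat_lit 392) ln12_11_1 ln12_11_1_ok) (L (nat_lit 394) ln13_11_1 ln13_11_1_ok))) (B (M (nat_lit 360) (B (M (nat_lit 332) (B (L (nat_lit 331) ln8_11_2 ln8_11_2_ok) (L (nat_lit 333) ln9_11_2 ln9_11_2_ok))) (M (nat_lit 359) (B (M (nat_lit 327) (B (L (nat_lit 326) ln10_11_3 ln10_11_3_ok) (L (nat_lit 328) ln11_11_3 ln11_11_3_ok))) (M (nat_lit 394) (B (L (nat_lit 395) ln7_11_0 ln7_11_0_ok) (L (nat_lit 393) ln13_11_1 ln13_11_1_ok))))))) (M (nat_lit 360) (B (M (nat_lit 332) (B (L (nat_lit 331) ln8_11_2 ln8_11_2_ok) (L (nat_lit 333) ln9_11_2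 ln9_11_2_ok))) (M (nat_lit 359) (B (M (nat_lit 391) (B (L (nat_lit 390) ln10_11_1 ln10_11_1_ok) (L (nat_lit 392) ln11_11_1 ln11_11_1_ok))) (M (nat_lit 327) (B (L (nat_lit 326) ln10_11_3 ln10_11_3_ok) (L (nat_lit 328) ln11_11_3 ln11_11_3_ok))))))))))) (B (M (nat_lit 361) (B (M (nat_lit 393) (B (L (nat_lit 392) ln12_11_1 ln12_11_1_ok) (L (nat_lit 394) ln13_11_1 ln13_11_1_ok))) (M (nat_lit 333) (B (L (nat_lit 332) ln9_11_2 ln9_11_2_ok) (L (nat_lit 334) ln10_11_2 ln10_11_2_ok))))) (B (M (nat_lit 361) (B (M (nat_lit 333) (B (L (nat_lit 334) ln10_11_2 ln10_11_2_ok) (L (nat_lit 332) ln9_11_2 ln9_11_2_ok))) (M (nat_lit 329) (B (L (nat_lit 330) ln13_11_3 ln13_11_3_ok) (L (nat_lit 328) ln12_11_3 ln12_11_3_ok))))) (M (nat_lit 330) (B (L (nat_lit 329) ln13_11_3 ln13_11_3_ok) (M (nat_lit 394) (B (L (nat_lit 393) ln13_11_1 ln13_11_1_ok) (M (nat_lit 298) (B (M (nat_lit 266) (B (L (nat_lit 395) ln10_8_4 ln10_8_4_ok) (M (nat_lit 265) (B (L (nat_lit 297) ln10_12_7_c10 ln10_12_7_c10_ok)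 (L (nat_lit 233) ln10_11_7_c10 ln10_11_7_c10_ok))))) (B (M (nat_lit 266) (B (L (nat_lit 395) ln10_8_4 ln10_8_4_ok) (M (nat_lit 267) (B (L (nat_lit 235) ln10_11_6_c10 ln10_11_6_c10_ok) (L (nat_lit 299) ln10_12_6_c10 ln10_12_6_c10_ok))))) (M (nat_lit 299) (B (L (nat_lit 267) ln10_12_6_c10 ln10_12_6_c10_ok) (M (nat_lit 333) (B (L (nat_lit 334) ln10_11_2 ln10_11_2_ok) (M (nat_lit 297) (B (L (nat_lit 265) ln10_12_7_c10 ln10_12_7_c10_ok) (M (nat_lit 332) (B (L (nat_lit 300) ln9_9_0 ln9_9_0_ok) (L (nat_lit 331) ln13_10_3 ln13_10_3_ok)))))))))))))))))))))) (B (K (nat_lit 5954262831509113917970671779033862168167677465089648269778033016598694956424787681501984599132935639058289333405543081762115182783130238976) (nat_lit 2977131414714805823922029329607728521876127709918605933281728865056971390655792805132888277455476930523927448994312274942754780882736775168) (nat_lit 2977131414714805823922029329607728521876127709918605933281728865056971390655792805132888277455476930523927448994312274942754780882736775168)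 c10_s112) (M (nat_lit 396) (B (M (nat_lit 331) (B (M (nat_lit 299) (B (L (nat_lit 267) ln11_8_4 ln11_8_4_ok) (L (nat_lit 395) ln11_9_4 ln11_9_4_ok))) (L (nat_lit 460) ln12_14_7 ln12_14_7_ok))) (L (nat_lit 332) ln12_10_4 ln12_10_4_ok))))))) (B (M (nat_lit 364) (B (K (nat_lit 5954262831509113917970671779033862168167677465089648269778033016598694956424787681501984599132935639058289333405543081762115182783130238976) (nat_lit 14699586360760875250371147262434368392591112405266520510392034555821141673283136536660133602502622416947665228000592404641960204154051756032) (nat_lit 14699586360760875250371147262434368392591112405266520510392034555821141673283136536660133602502622416947665228000592404641960204154051756032) c10_s92) (B (K (nat_lit 5954262831509113917970671779033862168167677465089648269778033016598694956424787681501984599132935639058289333405543081762115182783130238976) (nat_lit 68647976623682790847611912033988241958312283653824606504117640592599093716284295765739040000251943936220207078795049855488819682483546115022670899889097932800)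 (nat_lit 68647976623682790847611912033988241958312283653824606504117640592599093716284295765739040000251943936220207078795049855488819682483546115022670899889097932800) c10_s100) (B (K (nat_lit 5954262831509113917970671779033862168167677465089648269778033016598694956424787681501984599132935639058289333405543081762115182783130238976) (nat_lit 235872651633723906455844501024882345640149228378756387615330470181321021580930254370118953782443117031057694784684549497976009591269519395912227312378866484279454466048) (nat_lit 235872651633723906455844501024882345640149228378756387615330470181321021580930254370118953782443117031057694784684549497976009591269519395912227312378866484279454466048) c10_s94) (B (M (nat_lit 396) (B (L (nat_lit 332) ln12_10_4 ln12_10_4_ok) (K (nat_lit 5954262831509113918132062396414293955021172413339836511923639628650521425976703891285775075508988213722642167985551696226859131031426957312) (nat_lit 235872651633723906455844501001065294322430781789074754461075905812763032024228461904820731319185867125875249084486344246938500959097280347339689827541613683510666592256)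 (nat_lit 235872651633723906455844501001065294322430781789074754461075905812763032024228461904820731319185867125875249084486344246938500959097280347339689827541613683510666592256) c10_s95))) (M (nat_lit 396) (B (M (nat_lit 460) (B (L (nat_lit 333) ln12_14_6 ln12_14_6_ok) (L (nat_lit 331) ln12_14_7 ln12_14_7_ok))) (L (nat_lit 332) ln12_10_4 ln12_10_4_ok)))))))) (B (M (nat_lit 364) (B (M (nat_lit 396) (B (K (nat_lit 5954262831509113918132062396414293955021172413339836511923639628650521425976703891285775075508988213722642167985551696226859131031426957312) (nat_lit 27459190651710785666865109341732610220369181914132630330319855053120797286936822662950453623958810798097046195104601801688513726694555855814785941643527716864) (nat_lit 27459190651710785666865109341732610220369181914132630330319855053120797286936822662950453623958810798097046195104601801688513726694555855814785941643527716864) c10_s123) (B (M (nat_lit 362) (B (M (nat_lit 333) (B (L (nat_lit 334) ln10_11_2 ln10_11_2_ok)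 (L (nat_lit 460) ln12_14_6 ln12_14_6_ok))) (M (nat_lit 361) (B (M (nat_lit 329) (B (L (nat_lit 328) ln12_11_3 ln12_11_3_ok) (L (nat_lit 330) ln13_11_3 ln13_11_3_ok))) (M (nat_lit 393) (B (L (nat_lit 392) ln12_11_1 ln12_11_1_ok) (L (nat_lit 394) ln13_11_1 ln13_11_1_ok))))))) (M (nat_lit 460) (B (L (nat_lit 333) ln12_14_6 ln12_14_6_ok) (L (nat_lit 331) ln12_14_7 ln12_14_7_ok)))))) (B (M (nat_lit 396) (B (K (nat_lit 5954262831509113918132062396414293955021172413339836511923639628650521425976703891285775075508988213722642167985551696226859131031426957312) (nat_lit 27459190651710785666865109341732610220369181914132630330319855053120797286936822662950453623958810798097046195104601801688513726694555855814785941643527716864) (nat_lit 27459190651710785666865109341732610220369181914132630330319855053120797286936822662950453623958810798097046195104601801688513726694555855814785941643527716864) c10_s123) (L (nat_lit 332) ln12_10_4 ln12_10_4_ok))) (B (K (nat_lit 5954262831509113917970671779033862168167677465089648269778033016598694956424787681501984599132935639058289333405543081762115182783130238976)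 (nat_lit 173291856033854632531896942250182455330308712881765376795388918307362893135562190597085936158410440960725335734577451510106423296) (nat_lit 173291856033854632531896942250182455330308712881765376795388918307362893135562190597085936158410440960725335734577451510106423296) c10_s122) (B (K (nat_lit 5954262831509113917970671779033862168167677465089648269778033016598694956424787681501984599132935639058289333405543081762115182783130238976) (nat_lit 2977131414714805823922029329607728521876127709918605933281728865056971390655792805132888277455476930523927448994312274942754780882736775168) (nat_lit 2977131414714805823922029329607728521876127709918605933281728865056971390655792805132888277455476930523927448994312274942754780882736775168) c10_s112) (M (nat_lit 396) (B (M (nat_lit 460) (B (L (nat_lit 333) ln12_14_6 ln12_14_6_ok) (L (nat_lit 331) ln12_14_7 ln12_14_7_ok))) (L (nat_lit 332) ln12_10_4 ln12_10_4_ok)))))))) c10_d486)))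
noncomputable def c10_d488 : Cert := (B (M (nat_lit 364) (B (K (nat_lit 5954262831509113917970671779033862168167677465089648269778033016598694956424787681501984599132935639058289333405543081762115182783130238976) (nat_lit 1488565707703986623852202942086673995290465625129839772732334323923489785071431389229989476894184230187305106103151088031980704957091282944) (nat_lit 1488565707703986623852202942086673995290465625129839772732334323923489785071431389229989476894184230187305106103151088031980704957091282944) c10_s121) (B (K (nat_lit 5954262831509113917970671779033862168167677465089648269778033016598694956424787681501984599132935639058289333405543081762115182783130238976) (nat_lit 68647976623682790847425841320481920666319772899539512993323513874757450278206072911001256700125491818404479113874132195384113671816576262766252919808445120512) (nat_lit 68647976623682790847425841320481920666319772899539512993323513874757450278206072911001256700125491818404479113874132195384113671816576262766252919808445120512)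 c10_s93) (B (K (nat_lit 5954262831509113917970671779033862168167677465089648269778033016598694956424787681501984599132935639058289333405543081762115182783130238976) (nat_lit 235872651633723906455844501024882345640149228378756387615330470181321021580930254370118953782443117031057694784684549497976009591269519395912227312378866484279454466048) (nat_lit 235872651633723906455844501024882345640149228378756387615330470181321021580930254370118953782443117031057694784684549497976009591269519395912227312378866484279454466048) c10_s94) (B (M (nat_lit 396) (B (L (nat_lit 332) ln12_10_4 ln12_10_4_ok) (K (nat_lit 5954262831509113918132062396414293955021172413339836511923639628650521425976703891285775075508988213722642167985551696226859131031426957312) (nat_lit 235872651633723906455844501001065294322430781789074754461075905812763032024228461904820731319185867125875249084486344246938500959097280347339689827541613683510666592256) (nat_lit 235872651633723906455844501001065294322430781789074754461075905812763032024228461904820731319185867125875249084486344246938500959097280347339689827541613683510666592256)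 c10_s95))) (M (nat_lit 396) (B (M (nat_lit 460) (B (L (nat_lit 333) ln12_14_6 ln12_14_6_ok) (L (nat_lit 331) ln12_14_7 ln12_14_7_ok))) (L (nat_lit 332) ln12_10_4 ln12_10_4_ok)))))))) (B (M (nat_lit 460) (B (M (nat_lit 492) (B (M (nat_lit 524) (B (L (nat_lit 556) ln12_17_6 ln12_17_6_ok) (M (nat_lit 523) (B (L (nat_lit 555) ln12_13_5 ln12_13_5_ok) (M (nat_lit 525) (B (L (nat_lit 557) ln12_13_4 ln12_13_4_ok) (M (nat_lit 522) (B (M (nat_lit 489) (B (L (nat_lit 490) ln13_16_3 ln13_16_3_ok) (M (nat_lit 521) (B (L (nat_lit 488) ln12_16_3 ln12_16_3_ok) (M (nat_lit 553) (B (L (nat_lit 552) ln12_16_1 ln12_16_1_ok) (L (nat_lit 554) ln13_16_1 ln13_16_1_ok))))))) (B (M (nat_lit 491) (B (M (nat_lit 490) (B (L (nat_lit 489) ln9_15_0 ln9_15_0_ok) (L (nat_lit 526) ln14_16_3 ln14_16_3_ok))) (B (M (nat_lit 526) (B (L (nat_lit 490) ln14_16_3 ln14_16_3_ok) (L (nat_lit 527) ln15_16_3 ln15_16_3_ok))) (M (nat_lit 427) (B (L (nat_lit 395) ln12_16_7 ln12_16_7_ok) (M (nat_lit 554) (B (L (nat_lit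 553) ln13_16_1 ln13_16_1_ok) (L (nat_lit 459) ln11_13_5 ln11_13_5_ok)))))))) (B (M (nat_lit 521) (B (M (nat_lit 489) (B (L (nat_lit 488) ln12_16_3 ln12_16_3_ok) (L (nat_lit 490) ln13_16_3 ln13_16_3_ok))) (B (M (nat_lit 491) (B (L (nat_lit 520) ln8_16_2 ln8_16_2_ok) (M (nat_lit 490) (B (L (nat_lit 489) ln9_15_0 ln9_15_0_ok) (L (nat_lit 526) ln14_16_3 ln14_16_3_ok))))) (B (M (nat_lit 491) (B (L (nat_lit 520) ln8_16_2 ln8_16_2_ok) (M (nat_lit 526) (B (L (nat_lit 490) ln14_16_3 ln14_16_3_ok) (L (nat_lit 527) ln15_16_3 ln15_16_3_ok))))) (M (nat_lit 520) (B (L (nat_lit 491) ln8_16_2 ln8_16_2_ok) (M (nat_lit 488) (B (L (nat_lit 487) ln11_16_3_c10 ln11_16_3_c10_ok) (L (nat_lit 489) ln12_16_3 ln12_16_3_ok))))))))) (B (M (nat_lit 491) (B (M (nat_lit 526) (B (L (nat_lit 490) ln14_16_3 ln14_16_3_ok) (L (nat_lit 527) ln15_16_3 ln15_16_3_ok))) (M (nat_lit 427) (B (L (nat_lit 395) ln12_16_7 ln12_16_7_ok) (M (nat_lit 554) (B (L (nat_lit 553) ln13_16_1 ln13_16_1_ok) (L (nat_lit 459)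 ln11_13_5 ln11_13_5_ok))))))) (M (nat_lit 521) (B (M (nat_lit 553) (B (L (nat_lit 552) ln12_16_1 ln12_16_1_ok) (L (nat_lit 554) ln13_16_1 ln13_16_1_ok))) (M (nat_lit 520) (B (L (nat_lit 491) ln8_16_2 ln8_16_2_ok) (M (nat_lit 488) (B (L (nat_lit 487) ln11_16_3_c10 ln11_16_3_c10_ok) (L (nat_lit 489) ln12_16_3 ln12_16_3_ok)))))))))))))))))) (B (M (nat_lit 491) (B (M (nat_lit 396) (B (L (nat_lit 523) ln12_12_5 ln12_12_5_ok) (M (nat_lit 364) (B (L (nat_lit 332) ln12_10_4 ln12_10_4_ok) (L (nat_lit 333) ln12_14_6 ln12_14_6_ok))))) (B (M (nat_lit 396) (B (L (nat_lit 523) ln12_12_5 ln12_12_5_ok) (M (nat_lit 364) (B (L (nat_lit 333) ln12_14_6 ln12_14_6_ok) (L (nat_lit 459) ln12_11_5 ln12_11_5_ok))))) (B (M (nat_lit 396) (B (L (nat_lit 523) ln12_12_5 ln12_12_5_ok) (M (nat_lit 364) (B (L (nat_lit 332) ln12_10_4 ln12_10_4_ok) (L (nat_lit 459) ln12_11_5 ln12_11_5_ok))))) (M (nat_lit 462) (B (L (nat_lit 463) ln15_14_1 ln15_14_1_ok) (M (nat_lit 490) (B (L (nat_lit 459) ln14_14_1 ln14_14_1_ok)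 (L (nat_lit 489) ln9_15_2 ln9_15_2_ok))))))))) (M (nat_lit 395) (B (M (nat_lit 524) (B (L (nat_lit 427) ln12_16_7 ln12_16_7_ok) (L (nat_lit 556) ln12_17_6 ln12_17_6_ok))) (L (nat_lit 396) ln12_15_7 ln12_15_7_ok)))))) c10_d482)) (B (M (nat_lit 364) (B (M (nat_lit 460) (B (K (nat_lit 8931394246223919741660702096143128740880192478464903044691016872442593480537265575446063142856511203595172621904809346577872911053935869952) (nat_lit 943490606425058863553783600755425751106931713439554578160830367643095220853790867978575098115065140597355275708682093332671903168877930850107781672371233712081559617536) (nat_lit 943490606425058863553783600755425751106931713439554578160830367643095220853790867978575098115065140597355275708682093332671903168877930850107781672371233712081559617536) c10_s7) (B (M (nat_lit 362) (B (M (nat_lit 333) (B (L (nat_lit 334) ln10_11_2 ln10_11_2_ok) (L (nat_lit 396) ln12_14_6 ln12_14_6_ok))) (M (nat_lit 361) (B (M (nat_lit 329) (B (L (nat_lit 328) ln12_11_3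 ln12_11_3_ok) (L (nat_lit 330) ln13_11_3 ln13_11_3_ok))) (M (nat_lit 393) (B (L (nat_lit 392) ln12_11_1 ln12_11_1_ok) (L (nat_lit 394) ln13_11_1 ln13_11_1_ok))))))) (M (nat_lit 396) (B (L (nat_lit 333) ln12_14_6 ln12_14_6_ok) (L (nat_lit 331) ln12_14_7 ln12_14_7_ok)))))) c10_d483)) c10_d487)))
theorem c10_s125 : Sem (nat_lit 5954262830815946494440468064101681940807525207584307311385449480368064140488599236619261537828426693130420703785776095047607990577375739904) (nat_lit 316582915757812976161516459168935373792624251972500099642482899511520461968541204915902072230971618616018062211094925102723977708051740426004416981559780586842728990500498440192) (nat_lit 316582915757812976161516459168935373792624251972500099642482899511520461968541204915902072230971618616018062211094925102723977708051740426004416981559780586842728990500498440192) :=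
  sem_of_chk (M (nat_lit 428) (B (M (nat_lit 364) (B (M (nat_lit 460) (B (M (nat_lit 427) c10_d480) (B (K (nat_lit 8931394246223919741660702096143128740880192478464903044691016872442593480537265575446063142856511203595172621904809346577872911053935869952) (nat_lit 117936325803132358280073146206843013007679190477221623363617408218589464219417533674716048631552093212757485967795479957003747511300061674941715621948272144294017499136) (nat_lit 117936325803132358280073146206843013007679190477221623363617408218589464219417533674716048631552093212757485967795479957003747511300061674941715621948272144294017499136) c10_s110) (M (nat_lit 362) (B (M (nat_lit 333) (B (L (nat_lit 334) ln10_11_2 ln10_11_2_ok) (L (nat_lit 396) ln12_14_6 ln12_14_6_ok))) (M (nat_lit 361) (B (M (nat_lit 329) (B (L (nat_lit 328) ln12_11_3 ln12_11_3_ok) (L (nat_lit 330) ln13_11_3 ln13_11_3_ok))) (M (nat_lit 393) (B (L (nat_lit 392) ln12_11_1 ln12_11_1_ok) (L (nat_lit 394) ln13_11_1 ln13_11_1_ok))))))))))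 (B (K (nat_lit 5954262831509113917970671779033862168167677465089648269778033016598694956424787681501984599132935639058289333405543081762115182783130238976) (nat_lit 27459190651710785666865109342079193932125457722187829790530725860667425186997309106495203256817714207976975708281101976130750023171960336447294857510930874368) (nat_lit 27459190651710785666865109342079193932125457722187829790530725860667425186997309106495203256817714207976975708281101976130750023171960336447294857510930874368) c10_s111) (B (M (nat_lit 427) (B (M (nat_lit 459) (B (M (nat_lit 332) (B (L (nat_lit 395) ln11_14_6 ln11_14_6_ok) (L (nat_lit 396) ln12_10_4 ln12_10_4_ok))) (B (M (nat_lit 396) (B (L (nat_lit 332) ln12_10_4 ln12_10_4_ok) (M (nat_lit 491) (B (L (nat_lit 523) ln11_16_6 ln11_16_6_ok) (L (nat_lit 460) ln12_11_5 ln12_11_5_ok))))) (B (M (nat_lit 491) (B (M (nat_lit 396) (B (L (nat_lit 395) ln11_15_6 ln11_15_6_ok) (L (nat_lit 523) ln11_16_6 ln11_16_6_ok))) (B (M (nat_lit 396) (B (L (nat_lit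 523) ln11_16_6 ln11_16_6_ok) (L (nat_lit 460) ln12_11_5 ln12_11_5_ok))) (B (M (nat_lit 396) (B (L (nat_lit 395) ln11_15_6 ln11_15_6_ok) (L (nat_lit 460) ln12_11_5 ln12_11_5_ok))) (M (nat_lit 395) (B (M (nat_lit 362) (B (L (nat_lit 330) ln11_14_7 ln11_14_7_ok) (L (nat_lit 394) ln11_15_7 ln11_15_7_ok))) (M (nat_lit 492) (B (L (nat_lit 460) ln11_11_4 ln11_11_4_ok) (L (nat_lit 524) ln11_12_4 ln11_12_4_ok))))))))) (M (nat_lit 395) (B (L (nat_lit 332) ln11_14_6 ln11_14_6_ok) (M (nat_lit 491) (B (M (nat_lit 362) (B (L (nat_lit 330) ln11_14_7 ln11_14_7_ok) (L (nat_lit 394) ln11_15_7 ln11_15_7_ok))) (M (nat_lit 492) (B (L (nat_lit 460) ln11_11_4 ln11_11_4_ok) (L (nat_lit 524) ln11_12_4 ln11_12_4_ok))))))))))) (B (M (nat_lit 426) (B (L (nat_lit 462) ln10_13_0 ln10_13_0_ok) (M (nat_lit 393) (B (L (nat_lit 394) ln13_13_3 ln13_13_3_ok) (M (nat_lit 457) (B (L (nat_lit 458) ln13_13_1 ln13_13_1_ok) (M (nat_lit 425) (B (L (nat_lit 392) ln12_13_3 ln12_13_3_ok) (L (nat_lit 456) ln12_13_1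 ln12_13_1_ok))))))))) (M (nat_lit 462) (B (M (nat_lit 463) (B (L (nat_lit 460) ln15_14_3 ln15_14_3_ok) (L (nat_lit 464) ln16_14_3 ln16_14_3_ok))) (L (nat_lit 426) ln10_13_0 ln10_13_0_ok)))))) (B (K (nat_lit 5954262831509113917970671779033862168167677465089648269778033016598694956424787681501984599132935639058289333405543081762115182783130238976) (nat_lit 2977131414714805823922029329607728521876127709918605933281728865056971390655792805132888277455476930523927448994312274942754780882736775168) (nat_lit 2977131414714805823922029329607728521876127709918605933281728865056971390655792805132888277455476930523927448994312274942754780882736775168) c10_s112) (M (nat_lit 396) (B (L (nat_lit 332) ln12_10_4 ln12_10_4_ok) (K (nat_lit 5954262831509113918132062396414293955021172413339836511923639628650521425976703891285775075508988213722642167985551696226859131031426957312) (nat_lit 235872651633723906455844501001065294322430781789074754461075905812763032024228461904820731319185867125875249084486344246938500959097280347339689827541613683510666592256)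 (nat_lit 235872651633723906455844501001065294322430781789074754461075905812763032024228461904820731319185867125875249084486344246938500959097280347339689827541613683510666592256) c10_s95)))))))) (B (M (nat_lit 364) (B (K (nat_lit 5954262831509113917970671779033862168167677465089648269778033016598694956424787681501984599132935639058289333405543081762115182783130238976) (nat_lit 1488565707703986623852202942086673995290465625129839772732334323923489785071431389229989476894184230187305106103151088031980704957091282944) (nat_lit 1488565707703986623852202942086673995290465625129839772732334323923489785071431389229989476894184230187305106103151088031980704957091282944) c10_s121) c10_d481)) c10_d488))) (nat_lit 5954262830815946494440468064101681940807525207584307311385449480368064140488599236619261537828426693130420703785776095047607990577375739904) (nat_lit 316582915757812976161516459168935373792624251972500099642482899511520461968541204915902072230971618616018062211094925102723977708051740426004416981559780586842728990500498440192)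 (nat_lit 316582915757812976161516459168935373792624251972500099642482899511520461968541204915902072230971618616018062211094925102723977708051740426004416981559780586842728990500498440192) (by decide +kernel)
noncomputable def c10_d489 : Cert := (B (K (nat_lit 20839919904649913397037227277475566367178313602335007801283750091394436700446175314548354283586149593514889033341045482096437963662708178944) (nat_lit 158291456994384044351321615365628590341222909914417507530188733872527733118566201083988554079780483409094119721227478582265308949980608535800822578235216556648789865614681309184) (nat_lit 158291456994384044351321615365628590341222909914417507530188733872527733118566201083988554079780483409094119721227478582265308949980608535800822578235216556648789865614681309184) c10_s212) (B (M (nat_lit 424) (B (K (nat_lit 20839919904693236361007865009656479088805549285201202130586497225381475443893278772482817183946149193610266214248817219767709894472535900160) (nat_lit 348882588040967242518189041345530454421913611160648173849502977187054753920049571190280267374516964976334703792620843256661591003112669184)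 (nat_lit 348882588040967242518189041345530454421913611160648173849502977187054753920049571190280267374516964976334703792620843256661591003112669184) c10_s186) (B (K (nat_lit 20839919904693236361007865009656479088805549285201202130586497225381475443893278772482817183946149193610266214248817219767709894472535900160) (nat_lit 162811874621291878547649060112478280305724857090331515551541899450050250510014465930262263165296778109301550422667240109723229751705862144) (nat_lit 162811874621291878547649060112478280305724857090331515551541899450050250510014465930262263165296778109301550422667240109723229751705862144) c10_s213) (B (K (nat_lit 20839919904693236361007865009656479088805549285201202130586497225381475443893278772482817183946149193610266214248817219767709894472535900160) (nat_lit 3432398831264056301161174004085613475477076991587298222230268416110288228807935921507988435722563836175888251122457637738503478989216221645550051670309732352) (nat_lit 3432398831264056301161174004085613475477076991587298222230268416110288228807935921507988435722563836175888251122457637738503478989216221645550051670309732352)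 c10_s187) (B (K (nat_lit 20839919904693236361007865009656479088805549285201202130586497225381475443893278772482817183946149193610266214248817219767709894472535900160) (nat_lit 1716199417030571501668734242724057760579248164654205688169727520667871733086561579786291902442091470149943655289166821044159139298099986590543574800560816128) (nat_lit 1716199417030571501668734242724057760579248164654205688169727520667871733086561579786291902442091470149943655289166821044159139298099986590543574800560816128) c10_s188) (B (K (nat_lit 20839919904693236361007865009656479088805549285201202130586497225381475443893278772482817183946149193610266214248817219767709894472535900160) (nat_lit 348882588040967242527015090733522817765464116143080343341840838783639013973669988912831309051332340153291499433715064360202275672941395968) (nat_lit 348882588040967242527015090733522817765464116143080343341840838783639013973669988912831309051332340153291499433715064360202275672941395968) c10_s214) (B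 (K (nat_lit 20839919904693236361007865009656479088805549285201202130586497225381475443893278772482817183946149193610266214248817219767709894472535900160) (nat_lit 3432398830864472486697468159627062580217372803967572674277187775352950106319540446025026171594251954878611979073127778382679454215165027402264764468214890496) (nat_lit 3432398830864472486697468159627062580217372803967572674277187775352950106319540446025026171594251954878611979073127778382679454215165027402264764468214890496) c10_s215) (B (K (nat_lit 20839919904693236361007865009656479088805549285201202130586497225381475443893278772482817183946149193610266214248817219767709894472535900160) (nat_lit 36855101816911260676009585157986042840418733788474607708585466461455651760342515413488559319970721283941857872812403959388100198707426022218198531060949230217039183872) (nat_lit 36855101816911260676009585157986042840418733788474607708585466461455651760342515413488559319970721283941857872812403959388100198707426022218198531060949230217039183872)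 c10_s189) (B (K (nat_lit 20839919904693236361007865009656479088805549285201202130586497225381475443893278772482817183946149193610266214248817219767709894472535900160) (nat_lit 6864797661728944974046183815870989852348854956101813851731170888977178239851020618832727574816994682835494864257983504075366994303267796574737341810976227328) (nat_lit 6864797661728944974046183815870989852348854956101813851731170888977178239851020618832727574816994682835494864257983504075366994303267796574737341810976227328) c10_s216) (K (nat_lit 20839919904693236361007865009656479088805549285201202130586497225381475443893278772482817183946149193610266214248817219767709894472535900160) (nat_lit 6864797661728944974208995690113205795823077439680734504082836048788705315861736561852606515300775399938010617941051167584021003501977199328308407905957183488) (nat_lit 6864797661728944974208995690113205795823077439680734504082836048788705315861736561852606515300775399938010617941051167584021003501977199328308407905957183488)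 c10_s217)))))))))) (B (K (nat_lit 20839919904649913397037227277475566367178313602335007801283750091394436700446175314548354283586149593514889033341045482096437963662708178944) (nat_lit 3432398831264056303394022565511624519141729936427894433263270770187666515863004631326087489382769587827903738531188286663913408113620173763559673410160164864) (nat_lit 3432398831264056303394022565511624519141729936427894433263270770187666515863004631326087489382769587827903738531188286663913408113620173763559673410160164864) c10_s218) (K (nat_lit 20839919904649913397037227277475566367178313602335007801283750091394436700446175314548354283586149593514889033341045482096437963662708178944) (nat_lit 18427550908455630339603127839348170011212577104484362457739038529965578621030138923483384268037860112563619839879097379491187316736573859896556414885000808432576495616) (nat_lit 18427550908455630339603127839348170011212577104484362457739038529965578621030138923483384268037860112563619839879097379491187316736573859896556414885000808432576495616)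 c10_s220))))
noncomputable def c10_d490 : Cert := (B (K (nat_lit 20839919904649913397037227277475566367178313602335007801283750091394436700446175314548354283586149593514889033341045482096437963662708178944) (nat_lit 189949748388469689983087767326521856535318176091319443059551439308494313086782765606479972764764822005056732756436465379662484940823092576427777212166937343775584977274074562560) (nat_lit 189949748388469689983087767326521856535318176091319443059551439308494313086782765606479972764764822005056732756436465379662484940823092576427777212166937343775584977274074562560) c10_s207) (B (K (nat_lit 20839919904649913397037227277475566367178313602335007801283750091394436700446175314548354283586149593514889033341045482096437963662708178944) (nat_lit 18427550908455630339603127839348170011212577104484362457739038529965578621030138923483384268037860112563619839879097379491187316736573859896556414885000808432576495616) (nat_lit 18427550908455630339603127839348170011212577104484362457739038529965578621030138923483384268037860112563619839879097379491187316736573859896556414885000808432576495616)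 c10_s220) (B (K (nat_lit 20839919904649913397037227277475566367178313602335007801283750091394436700446175314548354283586149593514889033341045482096437963662708178944) (nat_lit 6864797664925615491221137442443271864459428960389360166545291554629501887293001971222552502497519111268804262234105827828296316552161925522750008740383031296) (nat_lit 6864797664925615491221137442443271864459428960389360166545291554629501887293001971222552502497519111268804262234105827828296316552161925522750008740383031296) c10_s252) (M (nat_lit 424) (B (K (nat_lit 20839919904693236361007865009656479088805549285201202130586497225381475443893278772482817183946149193610266214248817219767709894472535900160) (nat_lit 348882588040967242518189041345530454421913611160648173849502977187054753920049571190280267374516964976334703792620843256661591003112669184) (nat_lit 348882588040967242518189041345530454421913611160648173849502977187054753920049571190280267374516964976334703792620843256661591003112669184)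 c10_s186) (B (K (nat_lit 20839919904693236361007865009656479088805549285201202130586497225381475443893278772482817183946149193610266214248817219767709894472535900160) (nat_lit 162811874621291878547649060112478280305724857090331515551541899450050250510014465930262263165296778109301550422667240109723229751705862144) (nat_lit 162811874621291878547649060112478280305724857090331515551541899450050250510014465930262263165296778109301550422667240109723229751705862144) c10_s213) (B (K (nat_lit 20839919904693236361007865009656479088805549285201202130586497225381475443893278772482817183946149193610266214248817219767709894472535900160) (nat_lit 3432398831264056301161174004085613475477076991587298222230268416110288228807935921507988435722563836175888251122457637738503478989216221645550051670309732352) (nat_lit 3432398831264056301161174004085613475477076991587298222230268416110288228807935921507988435722563836175888251122457637738503478989216221645550051670309732352) c10_s187) (B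 (K (nat_lit 20839919904693236361007865009656479088805549285201202130586497225381475443893278772482817183946149193610266214248817219767709894472535900160) (nat_lit 1716199417030571501668734242724057760579248164654205688169727520667871733086561579786291902442091470149943655289166821044159139298099986590543574800560816128) (nat_lit 1716199417030571501668734242724057760579248164654205688169727520667871733086561579786291902442091470149943655289166821044159139298099986590543574800560816128) c10_s188) (B (K (nat_lit 20839919904693236361007865009656479088805549285201202130586497225381475443893278772482817183946149193610266214248817219767709894472535900160) (nat_lit 348882588040967242527015090733522817765464116143080343341840838783639013973669988912831309051332340153291499433715064360202275672941395968) (nat_lit 348882588040967242527015090733522817765464116143080343341840838783639013973669988912831309051332340153291499433715064360202275672941395968) c10_s214) (B (K (nat_lit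 20839919904693236361007865009656479088805549285201202130586497225381475443893278772482817183946149193610266214248817219767709894472535900160) (nat_lit 3432398830864472486697468159627062580217372803967572674277187775352950106319540446025026171594251954878611979073127778382679454215165027402264764468214890496) (nat_lit 3432398830864472486697468159627062580217372803967572674277187775352950106319540446025026171594251954878611979073127778382679454215165027402264764468214890496) c10_s215) (B (K (nat_lit 20839919904693236361007865009656479088805549285201202130586497225381475443893278772482817183946149193610266214248817219767709894472535900160) (nat_lit 36855101816911260676009585157986042840418733788474607708585466461455651760342515413488559319970721283941857872812403959388100198707426022218198531060949230217039183872) (nat_lit 36855101816911260676009585157986042840418733788474607708585466461455651760342515413488559319970721283941857872812403959388100198707426022218198531060949230217039183872)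 c10_s189) (B (K (nat_lit 20839919904693236361007865009656479088805549285201202130586497225381475443893278772482817183946149193610266214248817219767709894472535900160) (nat_lit 6864797661728944974046183815870989852348854956101813851731170888977178239851020618832727574816994682835494864257983504075366994303267796574737341810976227328) (nat_lit 6864797661728944974046183815870989852348854956101813851731170888977178239851020618832727574816994682835494864257983504075366994303267796574737341810976227328) c10_s216) (K (nat_lit 20839919904693236361007865009656479088805549285201202130586497225381475443893278772482817183946149193610266214248817219767709894472535900160) (nat_lit 6864797661728944974208995690113205795823077439680734504082836048788705315861736561852606515300775399938010617941051167584021003501977199328308407905957183488) (nat_lit 6864797661728944974208995690113205795823077439680734504082836048788705315861736561852606515300775399938010617941051167584021003501977199328308407905957183488)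 c10_s217)))))))))))))
noncomputable def c10_d491 : Cert := (B (M (nat_lit 490) (B (M (nat_lit 522) (B (L (nat_lit 393) ln10_16_7 ln10_16_7_ok) (M (nat_lit 521) (B (L (nat_lit 489) ln10_12_5 ln10_12_5_ok) (L (nat_lit 553) ln10_13_5 ln10_13_5_ok))))) (B (M (nat_lit 522) (B (M (nat_lit 395) (B (L (nat_lit 363) ln10_15_6 ln10_15_6_ok) (L (nat_lit 427) ln10_16_6 ln10_16_6_ok))) (M (nat_lit 521) (B (L (nat_lit 489) ln10_12_5 ln10_12_5_ok) (L (nat_lit 553) ln10_13_5 ln10_13_5_ok))))) (B (M (nat_lit 522) (B (M (nat_lit 395) (B (L (nat_lit 363) ln10_15_6 ln10_15_6_ok) (L (nat_lit 427) ln10_16_6 ln10_16_6_ok))) (L (nat_lit 393) ln10_16_7 ln10_16_7_ok))) (M (nat_lit 363) (B (L (nat_lit 395) ln10_15_6 ln10_15_6_ok) (M (nat_lit 362) (B (L (nat_lit 331) ln10_14_6 ln10_14_6_ok) (M (nat_lit 361) (B (L (nat_lit 329) ln10_14_7 ln10_14_7_ok) (L (nat_lit 393) ln10_15_7 ln10_15_7_ok))))))))))) (B (M (nat_lit 362) (B (M (nat_lit 457) (B (L (nat_lit 489) ln10_11_5 ln10_11_5_ok) (M (nat_lit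 329) (B (L (nat_lit 361) ln10_14_7 ln10_14_7_ok) (L (nat_lit 330) ln10_10_5 ln10_10_5_ok))))) (B (M (nat_lit 330) (B (M (nat_lit 331) (B (L (nat_lit 299) ln10_13_6 ln10_13_6_ok) (L (nat_lit 363) ln10_14_6 ln10_14_6_ok))) (L (nat_lit 457) ln10_10_5 ln10_10_5_ok))) (M (nat_lit 361) (B (L (nat_lit 329) ln10_14_7 ln10_14_7_ok) (M (nat_lit 363) (B (L (nat_lit 331) ln10_14_6 ln10_14_6_ok) (M (nat_lit 360) (B (M (nat_lit 395) (B (L (nat_lit 359) ln7_11_0 ln7_11_0_ok) (L (nat_lit 396) ln8_11_0 ln8_11_0_ok))) (B (M (nat_lit 364) (B (M (nat_lit 392) (B (L (nat_lit 391) ln11_11_1 ln11_11_1_ok) (L (nat_lit 393) ln12_11_1 ln12_11_1_ok))) (L (nat_lit 396) ln9_11_0 ln9_11_0_ok))) (M (nat_lit 359) (B (M (nat_lit 327) (B (L (nat_lit 326) ln10_11_3 ln10_11_3_ok) (L (nat_lit 328) ln11_11_3 ln11_11_3_ok))) (M (nat_lit 391) (B (L (nat_lit 390) ln10_11_1 ln10_11_1_ok) (L (nat_lit 392) ln11_11_1 ln11_11_1_ok))))))))))))))) (B (M (nat_lit 362) (B (M (nat_lit 330) (B (M (nat_lit 331) (B (L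 (nat_lit 299) ln10_13_6 ln10_13_6_ok) (L (nat_lit 363) ln10_14_6 ln10_14_6_ok))) (M (nat_lit 329) (B (L (nat_lit 297) ln10_13_7_c10 ln10_13_7_c10_ok) (L (nat_lit 361) ln10_14_7 ln10_14_7_ok))))) (B (M (nat_lit 361) (B (L (nat_lit 329) ln10_14_7 ln10_14_7_ok) (M (nat_lit 490) (B (L (nat_lit 393) ln10_15_7 ln10_15_7_ok) (M (nat_lit 363) (B (L (nat_lit 331) ln10_14_6 ln10_14_6_ok) (L (nat_lit 395) ln10_15_6 ln10_15_6_ok))))))) (B (M (nat_lit 361) (B (L (nat_lit 329) ln10_14_7 ln10_14_7_ok) (M (nat_lit 395) (B (M (nat_lit 490) (B (L (nat_lit 363) ln10_15_6 ln10_15_6_ok) (L (nat_lit 393) ln10_15_7 ln10_15_7_ok))) (M (nat_lit 360) (B (L (nat_lit 359) ln7_11_0 ln7_11_0_ok) (L (nat_lit 396) ln13_12_1 ln13_12_1_ok))))))) (B (M (nat_lit 363) (B (L (nat_lit 331) ln10_14_6 ln10_14_6_ok) (M (nat_lit 393) (B (M (nat_lit 490) (B (L (nat_lit 395) ln10_15_6 ln10_15_6_ok) (L (nat_lit 361) ln10_15_7 ln10_15_7_ok))) (L (nat_lit 364) ln13_11_1 ln13_11_1_ok))))) (B (M (nat_lit 330) (B (M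 (nat_lit 329) (B (L (nat_lit 297) ln10_13_7_c10 ln10_13_7_c10_ok) (L (nat_lit 361) ln10_14_7 ln10_14_7_ok))) (M (nat_lit 298) (B (M (nat_lit 299) (B (L (nat_lit 267) ln10_12_6_c10 ln10_12_6_c10_ok) (L (nat_lit 331) ln10_13_6 ln10_13_6_ok))) (L (nat_lit 393) ln10_9_5_c10 ln10_9_5_c10_ok))))) (M (nat_lit 330) (B (M (nat_lit 331) (B (L (nat_lit 299) ln10_13_6 ln10_13_6_ok) (L (nat_lit 363) ln10_14_6 ln10_14_6_ok))) (M (nat_lit 298) (B (M (nat_lit 297) (B (L (nat_lit 265) ln10_12_7_c10 ln10_12_7_c10_ok) (L (nat_lit 329) ln10_13_7_c10 ln10_13_7_c10_ok))) (L (nat_lit 393) ln10_9_5_c10 ln10_9_5_c10_ok))))))))))) (B (M (nat_lit 490) (B (M (nat_lit 362) (B (M (nat_lit 363) (B (L (nat_lit 331) ln10_14_6 ln10_14_6_ok) (L (nat_lit 395) ln10_15_6 ln10_15_6_ok))) (M (nat_lit 489) (B (L (nat_lit 457) ln10_11_5 ln10_11_5_ok) (L (nat_lit 521) ln10_12_5 ln10_12_5_ok))))) (B (M (nat_lit 522) (B (L (nat_lit 393) ln10_16_7 ln10_16_7_ok) (M (nat_lit 521) (B (L (nat_lit 489) ln10_12_5 ln10_12_5_ok)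 (L (nat_lit 553) ln10_13_5 ln10_13_5_ok))))) (B (M (nat_lit 522) (B (L (nat_lit 393) ln10_16_7 ln10_16_7_ok) (M (nat_lit 554) (B (M (nat_lit 553) (B (L (nat_lit 521) ln10_13_5 ln10_13_5_ok) (L (nat_lit 585) ln10_14_5 ln10_14_5_ok))) (M (nat_lit 555) (B (L (nat_lit 523) ln10_13_4 ln10_13_4_ok) (L (nat_lit 587) ln10_14_4 ln10_14_4_ok))))))) (M (nat_lit 362) (B (M (nat_lit 363) (B (L (nat_lit 331) ln10_14_6 ln10_14_6_ok) (L (nat_lit 395) ln10_15_6 ln10_15_6_ok))) (M (nat_lit 457) (B (L (nat_lit 330) ln10_10_5 ln10_10_5_ok) (L (nat_lit 489) ln10_11_5 ln10_11_5_ok))))))))) (B (M (nat_lit 490) (B (M (nat_lit 522) (B (M (nat_lit 521) (B (L (nat_lit 553) ln10_13_5 ln10_13_5_ok) (L (nat_lit 489) ln10_12_5 ln10_12_5_ok))) (L (nat_lit 393) ln10_16_7 ln10_16_7_ok))) (B (M (nat_lit 362) (B (M (nat_lit 489) (B (L (nat_lit 521) ln10_12_5 ln10_12_5_ok) (L (nat_lit 457) ln10_11_5 ln10_11_5_ok))) (M (nat_lit 361) (B (L (nat_lit 393) ln10_15_7 ln10_15_7_ok) (L (nat_lit 329) ln10_14_7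 ln10_14_7_ok))))) (B (M (nat_lit 362) (B (M (nat_lit 361) (B (L (nat_lit 393) ln10_15_7 ln10_15_7_ok) (L (nat_lit 329) ln10_14_7 ln10_14_7_ok))) (B (M (nat_lit 330) (B (L (nat_lit 457) ln10_10_5 ln10_10_5_ok) (M (nat_lit 329) (B (L (nat_lit 361) ln10_14_7 ln10_14_7_ok) (L (nat_lit 297) ln10_13_7_c10 ln10_13_7_c10_ok))))) (M (nat_lit 457) (B (L (nat_lit 489) ln10_11_5 ln10_11_5_ok) (L (nat_lit 330) ln10_10_5 ln10_10_5_ok)))))) (B (M (nat_lit 522) (B (L (nat_lit 393) ln10_16_7 ln10_16_7_ok) (M (nat_lit 554) (B (M (nat_lit 553) (B (L (nat_lit 585) ln10_14_5 ln10_14_5_ok) (L (nat_lit 521) ln10_13_5 ln10_13_5_ok))) (M (nat_lit 555) (B (L (nat_lit 587) ln10_14_4 ln10_14_4_ok) (L (nat_lit 523) ln10_13_4 ln10_13_4_ok))))))) (M (nat_lit 522) (B (M (nat_lit 521) (B (L (nat_lit 553) ln10_13_5 ln10_13_5_ok) (L (nat_lit 489) ln10_12_5 ln10_12_5_ok))) (B (M (nat_lit 489) (B (L (nat_lit 521) ln10_12_5 ln10_12_5_ok) (M (nat_lit 457) (B (L (nat_lit 362) ln10_11_5 ln10_11_5_ok) (L (nat_lit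 554) ln10_17_7 ln10_17_7_ok))))) (M (nat_lit 554) (B (M (nat_lit 555) (B (L (nat_lit 587) ln10_14_4 ln10_14_4_ok) (L (nat_lit 523) ln10_13_4 ln10_13_4_ok))) (L (nat_lit 457) ln10_17_7 ln10_17_7_ok))))))))))) (K (nat_lit 21584202758328614853000082511097990957069816092741368555548397708368367948862273840480321538611056628315198064110864201916563382792483766272) (nat_lit 20594392985986002547809725651550368214408633868016953059010474721871167070265878583653141206319290893636788044646665599645035674975908032712764168146786451456) (nat_lit 20594392985986002547809725651550368214408633868016953059010474721871167070265878583653141206319290893636788044646665599645035674975908032712764168146786451456) c10_s181))))))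
noncomputable def c10_d492 : Cert := (B (K (nat_lit 20839919904649913397037227277475566367178313602335007801283750091394436700446175314548354283586149593514889033341045482096437963662708178944) (nat_lit 189949748388469689983087767326521856535318176091319443059551439308494313086782765606479972764764822005056732756436465379662484940823092576427777212166937343775584977274074562560) (nat_lit 189949748388469689983087767326521856535318176091319443059551439308494313086782765606479972764764822005056732756436465379662484940823092576427777212166937343775584977274074562560) c10_s207) (B (K (nat_lit 20839919904649913397037227277475566367178313602335007801283750091394436700446175314548354283586149593514889033341045482096437963662708178944) (nat_lit 18427550908455630339603127839348170011212577104484362457739038529965578621030138923483384268037860112563619839879097379491187316736573859896556414885000808432576495616) (nat_lit 18427550908455630339603127839348170011212577104484362457739038529965578621030138923483384268037860112563619839879097379491187316736573859896556414885000808432576495616)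 c10_s220) (B (K (nat_lit 20839919904649913397037227277475566367178313602335007801283750091394436700446175314548354283586149593514889033341045482096437963662708178944) (nat_lit 6864797664925615491221137442443271864459428960389360166545291554629501887293001971222552502497519111268804262234105827828296316552161925522750008740383031296) (nat_lit 6864797664925615491221137442443271864459428960389360166545291554629501887293001971222552502497519111268804262234105827828296316552161925522750008740383031296) c10_s252) (M (nat_lit 424) (B (K (nat_lit 20839919904693236361007865009656479088805549285201202130586497225381475443893278772482817183946149193610266214248817219767709894472535900160) (nat_lit 348882588040967242518189041345530454421913611160648173849502977187054753920049571190280267374516964976334703792620843256661591003112669184) (nat_lit 348882588040967242518189041345530454421913611160648173849502977187054753920049571190280267374516964976334703792620843256661591003112669184)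 c10_s186) (B (K (nat_lit 20839919904693236361007865009656479088805549285201202130586497225381475443893278772482817183946149193610266214248817219767709894472535900160) (nat_lit 162811874621291878547649060112478280305724857090331515551541899450050250510014465930262263165296778109301550422667240109723229751705862144) (nat_lit 162811874621291878547649060112478280305724857090331515551541899450050250510014465930262263165296778109301550422667240109723229751705862144) c10_s213) (B (K (nat_lit 20839919904693236361007865009656479088805549285201202130586497225381475443893278772482817183946149193610266214248817219767709894472535900160) (nat_lit 3432398831264056301161174004085613475477076991587298222230268416110288228807935921507988435722563836175888251122457637738503478989216221645550051670309732352) (nat_lit 3432398831264056301161174004085613475477076991587298222230268416110288228807935921507988435722563836175888251122457637738503478989216221645550051670309732352) c10_s187) (B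 (K (nat_lit 20839919904693236361007865009656479088805549285201202130586497225381475443893278772482817183946149193610266214248817219767709894472535900160) (nat_lit 1716199417030571501668734242724057760579248164654205688169727520667871733086561579786291902442091470149943655289166821044159139298099986590543574800560816128) (nat_lit 1716199417030571501668734242724057760579248164654205688169727520667871733086561579786291902442091470149943655289166821044159139298099986590543574800560816128) c10_s188) (B (K (nat_lit 20839919904693236361007865009656479088805549285201202130586497225381475443893278772482817183946149193610266214248817219767709894472535900160) (nat_lit 348882588040967242527015090733522817765464116143080343341840838783639013973669988912831309051332340153291499433715064360202275672941395968) (nat_lit 348882588040967242527015090733522817765464116143080343341840838783639013973669988912831309051332340153291499433715064360202275672941395968) c10_s214) (B (K (nat_lit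 20839919904693236361007865009656479088805549285201202130586497225381475443893278772482817183946149193610266214248817219767709894472535900160) (nat_lit 3432398830864472486697468159627062580217372803967572674277187775352950106319540446025026171594251954878611979073127778382679454215165027402264764468214890496) (nat_lit 3432398830864472486697468159627062580217372803967572674277187775352950106319540446025026171594251954878611979073127778382679454215165027402264764468214890496) c10_s215) (B (K (nat_lit 20839919904693236361007865009656479088805549285201202130586497225381475443893278772482817183946149193610266214248817219767709894472535900160) (nat_lit 36855101816911260676009585157986042840418733788474607708585466461455651760342515413488559319970721283941857872812403959388100198707426022218198531060949230217039183872) (nat_lit 36855101816911260676009585157986042840418733788474607708585466461455651760342515413488559319970721283941857872812403959388100198707426022218198531060949230217039183872)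 c10_s189) (B (K (nat_lit 20839919904693236361007865009656479088805549285201202130586497225381475443893278772482817183946149193610266214248817219767709894472535900160) (nat_lit 6864797661728944974046183815870989852348854956101813851731170888977178239851020618832727574816994682835494864257983504075366994303267796574737341810976227328) (nat_lit 6864797661728944974046183815870989852348854956101813851731170888977178239851020618832727574816994682835494864257983504075366994303267796574737341810976227328) c10_s216) (K (nat_lit 20839919904693236361007865009656479088805549285201202130586497225381475443893278772482817183946149193610266214248817219767709894472535900160) (nat_lit 6864797661728944974208995690113205795823077439680734504082836048788705315861736561852606515300775399938010617941051167584021003501977199328308407905957183488) (nat_lit 6864797661728944974208995690113205795823077439680734504082836048788705315861736561852606515300775399938010617941051167584021003501977199328308407905957183488)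 c10_s217)))))))))))))
noncomputable def c10_d493 : Cert := (B (M (nat_lit 424) (B (K (nat_lit 20839919904693236361007865009656479088805549285201202130586497225381475443893278772482817183946149193610266214248817219767709894472535900160) (nat_lit 348882588040967242518189041345530454421913611160648173849502977187054753920049571190280267374516964976334703792620843256661591003112669184) (nat_lit 348882588040967242518189041345530454421913611160648173849502977187054753920049571190280267374516964976334703792620843256661591003112669184) c10_s186) (B (K (nat_lit 20839919904693236361007865009656479088805549285201202130586497225381475443893278772482817183946149193610266214248817219767709894472535900160) (nat_lit 162811874621291878547649060112478280305724857090331515551541899450050250510014465930262263165296778109301550422667240109723229751705862144) (nat_lit 162811874621291878547649060112478280305724857090331515551541899450050250510014465930262263165296778109301550422667240109723229751705862144)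 c10_s213) (B (K (nat_lit 20839919904693236361007865009656479088805549285201202130586497225381475443893278772482817183946149193610266214248817219767709894472535900160) (nat_lit 3432398831264056301161174004085613475477076991587298222230268416110288228807935921507988435722563836175888251122457637738503478989216221645550051670309732352) (nat_lit 3432398831264056301161174004085613475477076991587298222230268416110288228807935921507988435722563836175888251122457637738503478989216221645550051670309732352) c10_s187) (B (K (nat_lit 20839919904693236361007865009656479088805549285201202130586497225381475443893278772482817183946149193610266214248817219767709894472535900160) (nat_lit 3432398830864472486720726998804522000714951165819988819376504298894944284248548132398806628813880688425050092695968212480623854906565545096137871720330559488) (nat_lit 3432398830864472486720726998804522000714951165819988819376504298894944284248548132398806628813880688425050092695968212480623854906565545096137871720330559488)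 c10_s191) (B (K (nat_lit 20839919904693236361007865009656479088805549285201202130586497225381475443893278772482817183946149193610266214248817219767709894472535900160) (nat_lit 1716199417030571501668734242724057760579248164654205688169727520667871733086561579786291902442091470149943655289166821044159139298099986590543574800560816128) (nat_lit 1716199417030571501668734242724057760579248164654205688169727520667871733086561579786291902442091470149943655289166821044159139298099986590543574800560816128) c10_s188) (B (K (nat_lit 20839919904693236361007865009656479088805549285201202130586497225381475443893278772482817183946149193610266214248817219767709894472535900160) (nat_lit 348882588040967242527015090733522817765464116143080343341840838783639013973669988912831309051332340153291499433715064360202275672941395968) (nat_lit 348882588040967242527015090733522817765464116143080343341840838783639013973669988912831309051332340153291499433715064360202275672941395968) c10_s214) (B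 (K (nat_lit 20839919904693236361007865009656479088805549285201202130586497225381475443893278772482817183946149193610266214248817219767709894472535900160) (nat_lit 3432398830864472486697468159627062580217372803967572674277187775352950106319540446025026171594251954878611979073127778382679454215165027402264764468214890496) (nat_lit 3432398830864472486697468159627062580217372803967572674277187775352950106319540446025026171594251954878611979073127778382679454215165027402264764468214890496) c10_s215) (B (K (nat_lit 20839919904693236361007865009656479088805549285201202130586497225381475443893278772482817183946149193610266214248817219767709894472535900160) (nat_lit 126633165605826663977847697343664183780196930912916041560072511702954816412455519573104607493423239027718908698619619515017740653818693698489708834068896118913637541740409782272) (nat_lit 126633165605826663977847697343664183780196930912916041560072511702954816412455519573104607493423239027718908698619619515017740653818693698489708834068896118913637541740409782272)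 c10_s192) (B (K (nat_lit 20839919904693236361007865009656479088805549285201202130586497225381475443893278772482817183946149193610266214248817219767709894472535900160) (nat_lit 6864797661728944974046183815870989852348854956101813851731170888977178239851020618832727574816994682835494864257983504075366994303267796574737341810976227328) (nat_lit 6864797661728944974046183815870989852348854956101813851731170888977178239851020618832727574816994682835494864257983504075366994303267796574737341810976227328) c10_s216) (K (nat_lit 20839919904693236361007865009656479088805549285201202130586497225381475443893278772482817183946149193610266214248817219767709894472535900160) (nat_lit 6864797661728944974208995690113205795823077439680734504082836048788705315861736561852606515300775399938010617941051167584021003501977199328308407905957183488) (nat_lit 6864797661728944974208995690113205795823077439680734504082836048788705315861736561852606515300775399938010617941051167584021003501977199328308407905957183488)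 c10_s217))))))))))) (M (nat_lit 424) (B (M (nat_lit 459) (B (L (nat_lit 427) ln8_13_0 ln8_13_0_ok) (L (nat_lit 458) ln13_14_3 ln13_14_3_ok))) (B (K (nat_lit 20839919904693236361007865009656479088805549285201202130586497225381475443893278772482817183946149193610266214248817219767709894472535900160) (nat_lit 18427550908455630338004792581586381988355292646812088139151786159282376086556672172675658160788095102322238626578790053359267521481401580289126336982455919632787177472) (nat_lit 18427550908455630338004792581586381988355292646812088139151786159282376086556672172675658160788095102322238626578790053359267521481401580289126336982455919632787177472) c10_s219) (K (nat_lit 20839919904693236361007865009656479088805549285201202130586497225381475443893278772482817183946149193610266214248817219767709894472535900160) (nat_lit 3432398830864472486720726998804522000714951165819988819376504298894944284248548132398806628813880688425050092695968212480623854906565545096137871720330559488)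 (nat_lit 3432398830864472486720726998804522000714951165819988819376504298894944284248548132398806628813880688425050092695968212480623854906565545096137871720330559488) c10_s191)))))
noncomputable def c10_d494 : Cert := (B (K (nat_lit 20839919904649913397037227277475566367178313602335007801283750091394436700446175314548354283586149593514889033341045482096437963662708178944) (nat_lit 126633165605826663977847697343664183781685496620349259659148576473242389724298885845723334832744471758580400577716111516222663129456987600776438228068066564343385866657022869504) (nat_lit 126633165605826663977847697343664183781685496620349259659148576473242389724298885845723334832744471758580400577716111516222663129456987600776438228068066564343385866657022869504) c10_s193) (B (K (nat_lit 20839919904649913397037227277475566367178313602335007801283750091394436700446175314548354283586149593514889033341045482096437963662708178944) (nat_lit 18427550908455630339603127839348170011212577104484362457739038529965578621030138923483384268037860112563619839879097379491187316736573859896556414885000808432576495616)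 (nat_lit 18427550908455630339603127839348170011212577104484362457739038529965578621030138923483384268037860112563619839879097379491187316736573859896556414885000808432576495616) c10_s220) (B (K (nat_lit 20839919904649913397037227277475566367178313602335007801283750091394436700446175314548354283586149593514889033341045482096437963662708178944) (nat_lit 6864797664925615491221137442443271864459428960389360166545291554629501887293001971222552502497519111268804262234105827828296316552161925522750008740383031296) (nat_lit 6864797664925615491221137442443271864459428960389360166545291554629501887293001971222552502497519111268804262234105827828296316552161925522750008740383031296) c10_s252) (B (M (nat_lit 424) (B (K (nat_lit 20839919904693236361007865009656479088805549285201202130586497225381475443893278772482817183946149193610266214248817219767709894472535900160) (nat_lit 2767801862496746973973818179994776931078872465824576489577390375716286828698589729786723845718326819583412863022009069702116339023104442368)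 (nat_lit 2767801862496746973973818179994776931078872465824576489577390375716286828698589729786723845718326819583412863022009069702116339023104442368) c10_s202) (B (K (nat_lit 20839919904693236361007865009656479088805549285201202130586497225381475443893278772482817183946149193610266214248817219767709894472535900160) (nat_lit 2953872575916422337944358161227829105195061219894893147875351453453291332108624835046741849927547006450446016391962672849054700274511249408) (nat_lit 2953872575916422337944358161227829105195061219894893147875351453453291332108624835046741849927547006450446016391962672849054700274511249408) c10_s203) (B (K (nat_lit 20839919904693236361007865009656479088805549285201202130586497225381475443893278772482817183946149193610266214248817219767709894472535900160) (nat_lit 18427550908455630338004792581586381988355292646812088139151786159282376086556672172675658160788095102322238626578790053359267521481401580289126336982455919632787177472) (nat_lit 18427550908455630338004792581586381988355292646812088139151786159282376086556672172675658160788095102322238626578790053359267521481401580289126336982455919632787177472)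 c10_s219) (B (K (nat_lit 20839919904693236361007865009656479088805549285201202130586497225381475443893278772482817183946149193610266214248817219767709894472535900160) (nat_lit 3432398830864472486720726998804522000714951165819988819376504298894944284248548132398806628813880688425050092695968212480623854906565545096137871720330559488) (nat_lit 3432398830864472486720726998804522000714951165819988819376504298894944284248548132398806628813880688425050092695968212480623854906565545096137871720330559488) c10_s191) (B (K (nat_lit 20839919904693236361007865009656479088805549285201202130586497225381475443893278772482817183946149193610266214248817219767709894472535900160) (nat_lit 2930613736738962917456866712961689946774088130618535735080444180332750029235990864611790641078209858269023667861812693559228089787914125312) (nat_lit 2930613736738962917456866712961689946774088130618535735080444180332750029235990864611790641078209858269023667861812693559228089787914125312) c10_s204)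 (B (K (nat_lit 20839919904693236361007865009656479088805549285201202130586497225381475443893278772482817183946149193610266214248817219767709894472535900160) (nat_lit 1716199417030571501668734242724057760577987300455921064834934591384667137444799028129637008148717124761007792192478910304593882777943669290037762704870998016) (nat_lit 1716199417030571501668734242724057760577987300455921064834934591384667137444799028129637008148717124761007792192478910304593882777943669290037762704870998016) c10_s205) (B (K (nat_lit 20839919904693236361007865009656479088805549285201202130586497225381475443893278772482817183946149193610266214248817219767709894472535900160) (nat_lit 126633165605826663977847697343664183780196930912916041560072511702954816412455519573104607493423239027718908698619619515017740653818693698489708834068896118913637541740409782272) (nat_lit 126633165605826663977847697343664183780196930912916041560072511702954816412455519573104607493423239027718908698619619515017740653818693698489708834068896118913637541740409782272)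 c10_s192) (B (K (nat_lit 20839919904693236361007865009656479088805549285201202130586497225381475443893278772482817183946149193610266214248817219767709894472535900160) (nat_lit 17161994154322362434813094629793765205811311345187555970067282228011941959454940757541770266602977115167778693934812502982705374185085792142053854228955267072) (nat_lit 17161994154322362434813094629793765205811311345187555970067282228011941959454940757541770266602977115167778693934812502982705374185085792142053854228955267072) c10_s248) (K (nat_lit 20839919904693236361007865009656479088805549285201202130586497225381475443893278772482817183946149193610266214248817219767709894472535900160) (nat_lit 17161994154322362434650282755551549262337088861608635317715617068200414883444224814521891326119196398065262940251744839474051364986376389388482788133974310912) (nat_lit 17161994154322362434650282755551549262337088861608635317715617068200414883444224814521891326119196398065262940251744839474051364986376389388482788133974310912)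 c10_s249)))))))))) c10_d493))))
noncomputable def c10_d495 : Cert := (B (K (nat_lit 20839919904649913397037227277475566367178313602335007801283750091394436700446175314548354283586149593514889033341045482096437963662708178944) (nat_lit 633165827977536177515123223980649897206942381509220890934654698382347800410367055854896227656410230174679819115563063848434860845431545353662402164716430642226354742083442442240) (nat_lit 633165827977536177515123223980649897206942381509220890934654698382347800410367055854896227656410230174679819115563063848434860845431545353662402164716430642226354742083442442240) c10_s173) (B (K (nat_lit 20839919904649913397037227277475566367178313602335007801283750091394436700446175314548354283586149593514889033341045482096437963662708178944) (nat_lit 3432398831264056303394022565511624519141729936427894433263270770187666515863004631326087489382769587827903738531188286663913408113620173763559673410160164864) (nat_lit 3432398831264056303394022565511624519141729936427894433263270770187666515863004631326087489382769587827903738531188286663913408113620173763559673410160164864)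 c10_s218) (B (M (nat_lit 458) (B (L (nat_lit 459) ln13_14_3 ln13_14_3_ok) (M (nat_lit 394) (B (K (nat_lit 21584202758328614853000082511097990957069816092741368555548397708368367948862273840480321538611056628315198064110864201916563382792483766272) (nat_lit 6864797664925615488639406293322877290213166362617244047640099434836855068090114381418774266393002424797489091480410875270444017638570184387044687489856962560) (nat_lit 6864797664925615488639406293322877290213166362617244047640099434836855068090114381418774266393002424797489091480410875270444017638570184387044687489856962560) c10_s174) (B (K (nat_lit 21584202758328614853000082511097990957069816092741368555548397708368367948862273840480321538611056628315198064110864201916563382792483766272) (nat_lit 147420407267645042704038340629432216729122982892963386991076975762860682532354244128370495960805031604414143124765516075334333846359459607210024318831160180152194826240) (nat_lit 147420407267645042704038340629432216729122982892963386991076975762860682532354244128370495960805031604414143124765516075334333846359459607210024318831160180152194826240)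 c10_s175) (B (K (nat_lit 21584202758328614853000082511097990957069816092741368555548397708368367948862273840480321538611056628315198064110864201916563382792483766272) (nat_lit 3196670515895717471774106291370325222620872282627918220536517642437071305046407863005909249943580129043124915831338256006388484259047031246069694464) (nat_lit 3196670515895717471774106291370325222620872282627918220536517642437071305046407863005909249943580129043124915831338256006388484259047031246069694464) c10_s176) (B (K (nat_lit 21584202758328614853000082511097990957069816092741368555548397708368367948862273840480321538611056628315198064110864201916563382792483766272) (nat_lit 126633165760618091594458917094871992255361168889520338997950379576864812826054941610401031783337105506577755411718442228755121372738875473049168333509619162244106504240002760704) (nat_lit 126633165760618091594458917094871992255361168889520338997950379576864812826054941610401031783337105506577755411718442228755121372738875473049168333509619162244106504240002760704)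 c10_s178) (B (M (nat_lit 490) (B (M (nat_lit 393) (B (L (nat_lit 522) ln10_16_7 ln10_16_7_ok) (L (nat_lit 361) ln10_15_7 ln10_15_7_ok))) (M (nat_lit 362) (B (M (nat_lit 489) (B (L (nat_lit 521) ln10_12_5 ln10_12_5_ok) (L (nat_lit 457) ln10_11_5 ln10_11_5_ok))) (M (nat_lit 363) (B (L (nat_lit 395) ln10_15_6 ln10_15_6_ok) (L (nat_lit 331) ln10_14_6 ln10_14_6_ok))))))) (B (M (nat_lit 490) (B (M (nat_lit 393) (B (L (nat_lit 522) ln10_16_7 ln10_16_7_ok) (L (nat_lit 361) ln10_15_7 ln10_15_7_ok))) (B (M (nat_lit 362) (B (M (nat_lit 363) (B (L (nat_lit 395) ln10_15_6 ln10_15_6_ok) (L (nat_lit 331) ln10_14_6 ln10_14_6_ok))) (M (nat_lit 361) (B (L (nat_lit 393) ln10_15_7 ln10_15_7_ok) (L (nat_lit 329) ln10_14_7 ln10_14_7_ok))))) (M (nat_lit 522) (B (M (nat_lit 395) (B (L (nat_lit 427) ln10_16_6 ln10_16_6_ok) (L (nat_lit 363) ln10_15_6 ln10_15_6_ok))) (M (nat_lit 521) (B (L (nat_lit 553) ln10_13_5 ln10_13_5_ok) (L (nat_lit 489) ln10_12_5 ln10_12_5_ok)))))))) (B (M (nat_lit 490)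 (B (M (nat_lit 522) (B (M (nat_lit 523) (B (L (nat_lit 555) ln10_13_4 ln10_13_4_ok) (L (nat_lit 491) ln10_12_4 ln10_12_4_ok))) (M (nat_lit 521) (B (L (nat_lit 553) ln10_13_5 ln10_13_5_ok) (L (nat_lit 489) ln10_12_5 ln10_12_5_ok))))) (B (M (nat_lit 362) (B (M (nat_lit 489) (B (L (nat_lit 521) ln10_12_5 ln10_12_5_ok) (L (nat_lit 457) ln10_11_5 ln10_11_5_ok))) (M (nat_lit 363) (B (L (nat_lit 395) ln10_15_6 ln10_15_6_ok) (L (nat_lit 331) ln10_14_6 ln10_14_6_ok))))) (B (M (nat_lit 362) (B (M (nat_lit 363) (B (L (nat_lit 395) ln10_15_6 ln10_15_6_ok) (L (nat_lit 331) ln10_14_6 ln10_14_6_ok))) (M (nat_lit 457) (B (L (nat_lit 489) ln10_11_5 ln10_11_5_ok) (L (nat_lit 330) ln10_10_5 ln10_10_5_ok))))) (M (nat_lit 522) (B (M (nat_lit 523) (B (L (nat_lit 555) ln10_13_4 ln10_13_4_ok) (L (nat_lit 491) ln10_12_4 ln10_12_4_ok))) (M (nat_lit 554) (B (L (nat_lit 457) ln10_17_7 ln10_17_7_ok) (M (nat_lit 553) (B (L (nat_lit 585) ln10_14_5 ln10_14_5_ok) (L (nat_lit 521) ln10_13_5 ln10_13_5_ok)))))))))))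 (B (K (nat_lit 21584202758328614853000082511097990957069816092741368555548397708368367948862273840480321538611056628315198064110864201916563382792483766272) (nat_lit 2397502887340447209371432999274473571734468912034403419264048930226535286392471062708668672816624040335259908044050270512796268797527401740462194688) (nat_lit 2397502887340447209371432999274473571734468912034403419264048930226535286392471062708668672816624040335259908044050270512796268797527401740462194688) c10_s253) (K (nat_lit 21584202758328614853000082511097990957069816092741368555548397708368367948862273840480321538611056628315198064110864201916563382792483766272) (nat_lit 20594392985986002547809725651550368214408633868016953059010474721871167070265878583653141206319290893636788044646665599645035674975908032712764168146786451456) (nat_lit 20594392985986002547809725651550368214408633868016953059010474721871167070265878583653141206319290893636788044646665599645035674975908032712764168146786451456) c10_s181))))))))))))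 c10_d494)))
noncomputable def c10_d496 : Cert := (B (K (nat_lit 20839919904563267469136299467468243040968311306576724125601814824542818561135580730608205265846292373090681313944358956363619163917254656000) (nat_lit 3196670516267858898700102947192159167905306185660441332006840142356171188768828656099835872480559539135789623922643772752119376315373635267014426624) (nat_lit 3196670516267858898700102947192159167905306185660441332006840142356171188768828656099835872480559539135789623922643772752119376315373635267014426624) c10_s283) (B (K (nat_lit 20839919904563267469136299467468243040968311306576724125601814824542818561135580730608205265846292373090681313944358956363619163917254656000) (nat_lit 147420407267645042705436883982485735880110016980539080071782319937271812628311188475113637032506468539678948169724683462144572858337051043568730143147507580922631290880) (nat_lit 147420407267645042705436883982485735880110016980539080071782319937271812628311188475113637032506468539678948169724683462144572858337051043568730143147507580922631290880)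 c10_s284) (B (M (nat_lit 330) (B (K (nat_lit 20839919904563267469136299467468243040970498557301507137526187326769936182500933900039098478282718143697091266943558332286842677094277709824) (nat_lit 372141426925996655922703081177734823365770277393130403411104424689174924885297008515389530040343719740010883851804436733305014107385102336) (nat_lit 372141426925996655922703081177734823365770277393130403411104424689174924885297008515389530040343719740010883851804436733305014107385102336) c10_s285) (B (K (nat_lit 20839919904563267469136299467468243040970498557301507137526187326769936182500933900039098478282718143697091266943558332286842677094277709824) (nat_lit 5468126813739936290520358641726472851025471189775306979626491896075545235124534860411960172346343424) (nat_lit 5468126813739936290520358641726472851025471189775306979626491896075545235124534860411960172346343424) c10_s286) (B (M (nat_lit 298) (B (M (nat_lit 299) (B (L (nat_lit 267) ln10_12_6_c10 ln10_12_6_c10_ok) (L (nat_lit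 331) ln10_13_6 ln10_13_6_ok))) (M (nat_lit 425) (B (L (nat_lit 393) ln10_9_5_c10 ln10_9_5_c10_ok) (L (nat_lit 457) ln10_10_5 ln10_10_5_ok))))) (B (M (nat_lit 298) (B (M (nat_lit 425) (B (L (nat_lit 457) ln10_10_5 ln10_10_5_ok) (L (nat_lit 393) ln10_9_5_c10 ln10_9_5_c10_ok))) (M (nat_lit 297) (B (L (nat_lit 329) ln10_13_7_c10 ln10_13_7_c10_ok) (L (nat_lit 265) ln10_12_7_c10 ln10_12_7_c10_ok))))) (M (nat_lit 329) (B (L (nat_lit 297) ln10_13_7_c10 ln10_13_7_c10_ok) (M (nat_lit 331) (B (L (nat_lit 299) ln10_13_6 ln10_13_6_ok) (M (nat_lit 328) (B (M (nat_lit 359) (B (L (nat_lit 360) ln11_10_1_c10 ln11_10_1_c10_ok) (M (nat_lit 327) (B (L (nat_lit 358) ln10_10_1_c10 ln10_10_1_c10_ok) (M (nat_lit 295) (B (L (nat_lit 294) ln10_10_3_c10 ln10_10_3_c10_ok) (L (nat_lit 296) ln11_10_3_c10 ln11_10_3_c10_ok))))))) (B (M (nat_lit 361) (B (M (nat_lit 360) (B (L (nat_lit 359) ln11_10_1_c10 ln11_10_1_c10_ok) (L (nat_lit 332) ln12_10_1 ln12_10_1_ok))) (B (M (nat_lit 332) (B (L (nat_lit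 360) ln12_10_1 ln12_10_1_ok) (L (nat_lit 333) ln13_10_1 ln13_10_1_ok))) (M (nat_lit 425) (B (L (nat_lit 457) ln10_10_5 ln10_10_5_ok) (M (nat_lit 296) (B (L (nat_lit 295) ln11_10_3_c10 ln11_10_3_c10_ok) (L (nat_lit 393) ln9_13_7_c10 ln9_13_7_c10_ok)))))))) (B (M (nat_lit 327) (B (M (nat_lit 359) (B (L (nat_lit 358) ln10_10_1_c10 ln10_10_1_c10_ok) (L (nat_lit 360) ln11_10_1_c10 ln11_10_1_c10_ok))) (B (M (nat_lit 361) (B (L (nat_lit 326) ln6_10_0_c10 ln6_10_0_c10_ok) (M (nat_lit 360) (B (L (nat_lit 359) ln11_10_1_c10 ln11_10_1_c10_ok) (L (nat_lit 332) ln12_10_1 ln12_10_1_ok))))) (B (M (nat_lit 361) (B (L (nat_lit 326) ln6_10_0_c10 ln6_10_0_c10_ok) (M (nat_lit 332) (B (L (nat_lit 360) ln12_10_1 ln12_10_1_ok) (L (nat_lit 333) ln13_10_1 ln13_10_1_ok))))) (M (nat_lit 326) (B (L (nat_lit 361) ln6_10_0_c10 ln6_10_0_c10_ok) (M (nat_lit 358) (B (L (nat_lit 357) ln9_10_1_c10 ln9_10_1_c10_ok) (L (nat_lit 359) ln10_10_1_c10 ln10_10_1_c10_ok))))))))) (B (M (nat_lit 361) (B (M (nat_lit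 332) (B (L (nat_lit 360) ln12_10_1 ln12_10_1_ok) (L (nat_lit 333) ln13_10_1 ln13_10_1_ok))) (M (nat_lit 425) (B (L (nat_lit 457) ln10_10_5 ln10_10_5_ok) (M (nat_lit 296) (B (L (nat_lit 295) ln11_10_3_c10 ln11_10_3_c10_ok) (L (nat_lit 393) ln9_13_7_c10 ln9_13_7_c10_ok))))))) (M (nat_lit 327) (B (M (nat_lit 295) (B (L (nat_lit 294) ln10_10_3_c10 ln10_10_3_c10_ok) (L (nat_lit 296) ln11_10_3_c10 ln11_10_3_c10_ok))) (M (nat_lit 326) (B (L (nat_lit 361) ln6_10_0_c10 ln6_10_0_c10_ok) (M (nat_lit 358) (B (L (nat_lit 357) ln9_10_1_c10 ln9_10_1_c10_ok) (L (nat_lit 359) ln10_10_1_c10 ln10_10_1_c10_ok))))))))))))))))))))) (B (M (nat_lit 330) (B (M (nat_lit 332) (B (L (nat_lit 364) ln13_14_7 ln13_14_7_ok) (M (nat_lit 333) (B (L (nat_lit 300) ln13_13_7 ln13_13_7_ok) (M (nat_lit 302) (B (L (nat_lit 334) ln13_13_6 ln13_13_6_ok) (M (nat_lit 301) (B (L (nat_lit 270) ln13_12_6 ln13_12_6_ok) (L (nat_lit 331) ln10_10_2 ln10_10_2_ok))))))))) (B (M (nat_lit 329) (B (L (nat_lit 297) ln10_13_7_c10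 ln10_13_7_c10_ok) (M (nat_lit 361) (B (L (nat_lit 458) ln10_14_7 ln10_14_7_ok) (M (nat_lit 331) (B (L (nat_lit 299) ln10_13_6 ln10_13_6_ok) (M (nat_lit 332) (B (L (nat_lit 364) ln9_10_0 ln9_10_0_ok) (L (nat_lit 360) ln12_10_1 ln12_10_1_ok))))))))) (B (M (nat_lit 299) (B (L (nat_lit 331) ln10_13_6 ln10_13_6_ok) (M (nat_lit 298) (B (L (nat_lit 267) ln10_12_6_c10 ln10_12_6_c10_ok) (M (nat_lit 297) (B (L (nat_lit 265) ln10_12_7_c10 ln10_12_7_c10_ok) (L (nat_lit 329) ln10_13_7_c10 ln10_13_7_c10_ok))))))) (M (nat_lit 329) (B (L (nat_lit 297) ln10_13_7_c10 ln10_13_7_c10_ok) (M (nat_lit 458) (B (L (nat_lit 361) ln10_14_7 ln10_14_7_ok) (M (nat_lit 490) (B (M (nat_lit 491) (B (L (nat_lit 459) ln10_11_4 ln10_11_4_ok) (L (nat_lit 523) ln10_12_4 ln10_12_4_ok))) (M (nat_lit 489) (B (L (nat_lit 457) ln10_11_5 ln10_11_5_ok) (L (nat_lit 521) ln10_12_5 ln10_12_5_ok))))))))))))) (K (nat_lit 20839919904563267469136299467468243040968311306576724125601814824542818561135580730608205265846292373090681313944358956363619163917254656000)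 (nat_lit 372141426925996655922703081210614419593502340428507259220008932321134832695742115597647172850871430657921632654481598015385718398373593088) (nat_lit 372141426925996655922703081210614419593502340428507259220008932321134832695742115597647172850871430657921632654481598015385718398373593088) c10_s287)))))
noncomputable def c10_d497 : Cert := (B (M (nat_lit 394) (B (M (nat_lit 363) (B (M (nat_lit 364) (B (L (nat_lit 393) ln13_11_1 ln13_11_1_ok) (L (nat_lit 398) ln10_11_0 ln10_11_0_ok))) (M (nat_lit 331) (B (L (nat_lit 458) ln10_14_6 ln10_14_6_ok) (M (nat_lit 299) (B (L (nat_lit 267) ln11_8_5 ln11_8_5_ok) (L (nat_lit 395) ln11_9_5 ln11_9_5_ok))))))) (B (K (nat_lit 20839919904563267469136299467468243040968311306576724125601814824542818561135580730608205265846292373090681313944358956363619163917254656000) (nat_lit 206388570155481626332812630958118201003465224345834051728141312142293198605540165571755912331630652035957189951953103478833272056879861221457198175956115680201554264064)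 (nat_lit 206388570155481626332812630958118201003465224345834051728141312142293198605540165571755912331630652035957189951953103478833272056879861221457198175956115680201554264064) c10_s290) (B (M (nat_lit 458) (B (M (nat_lit 331) (B (L (nat_lit 363) ln10_14_6 ln10_14_6_ok) (M (nat_lit 330) (B (L (nat_lit 299) ln10_13_6 ln10_13_6_ok) (M (nat_lit 329) (B (L (nat_lit 297) ln10_13_7_c10 ln10_13_7_c10_ok) (L (nat_lit 361) ln10_14_7 ln10_14_7_ok))))))) (M (nat_lit 491) (B (L (nat_lit 459) ln10_11_4 ln10_11_4_ok) (M (nat_lit 490) (B (L (nat_lit 523) ln10_12_4 ln10_12_4_ok) (M (nat_lit 489) (B (L (nat_lit 457) ln10_11_5 ln10_11_5_ok) (L (nat_lit 521) ln10_12_5 ln10_12_5_ok))))))))) (B (K (nat_lit 20839919904563267469136299467468243040968311306576724125601814824542818561135580730608205265846292373090681313944358956363619163917254656000) (nat_lit 34323988311841395381847010140640711581616110359529187543187011314117152685785347779043016542861962013716890951766269718309476283972667057305939447640838111232)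 (nat_lit 34323988311841395381847010140640711581616110359529187543187011314117152685785347779043016542861962013716890951766269718309476283972667057305939447640838111232) c10_s281) (K (nat_lit 20839919904563267469136299467468243040968311306576724125601814824542818561135580730608205265846292373090681313944358956363619163917254656000) (nat_lit 558212140410656466111459413985245569428950190539201347697531275290255881811463566699583858051511594624619259095980415868939987494509740032) (nat_lit 558212140410656466111459413985245569428950190539201347697531275290255881811463566699583858051511594624619259095980415868939987494509740032) c10_s291)))))) (B (M (nat_lit 394) (B (M (nat_lit 364) (B (L (nat_lit 332) ln13_14_7 ln13_14_7_ok) (M (nat_lit 363) (B (L (nat_lit 393) ln13_11_1 ln13_11_1_ok) (L (nat_lit 398) ln10_11_0 ln10_11_0_ok))))) (B (K (nat_lit 20839919904563267469136299467468243040968311306576724125601814824542818561135580730608205265846292373090681313944358956363619163917254656000)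 (nat_lit 372141426925996655922703081210614419593502340428507259220008932321134832695742115597647172850871430657921632654481598015385718398373593088) (nat_lit 372141426925996655922703081210614419593502340428507259220008932321134832695742115597647172850871430657921632654481598015385718398373593088) c10_s287) (B (K (nat_lit 20839919904563267469136299467468243040968311306576724125601814824542818561135580730608205265846292373090681313944358956363619163917254656000) (nat_lit 1598335258878212303072075893499311809012424971092662636880909885783461927785587294239617576675763800585487932162692256029772267775055228302690091008) (nat_lit 1598335258878212303072075893499311809012424971092662636880909885783461927785587294239617576675763800585487932162692256029772267775055228302690091008) c10_s288) (K (nat_lit 20839919904563267469136299467468243040968311306576724125601814824542818561135580730608205265846292373090681313944358956363619163917254656000) (nat_lit 34323988311841395381847010140640711581676631841060940718756995795166248566548370466349732663418563782566790245538746069962899729768259438592773561482494345216)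 (nat_lit 34323988311841395381847010140640711581676631841060940718756995795166248566548370466349732663418563782566790245538746069962899729768259438592773561482494345216) c10_s292))))) (B (M (nat_lit 394) (B (M (nat_lit 364) (B (L (nat_lit 332) ln13_14_7 ln13_14_7_ok) (M (nat_lit 363) (B (L (nat_lit 393) ln13_11_1 ln13_11_1_ok) (L (nat_lit 398) ln10_11_0 ln10_11_0_ok))))) (B (M (nat_lit 364) (B (L (nat_lit 332) ln13_14_7 ln13_14_7_ok) (M (nat_lit 363) (B (L (nat_lit 398) ln10_11_0 ln10_11_0_ok) (M (nat_lit 458) (B (L (nat_lit 331) ln10_14_6 ln10_14_6_ok) (M (nat_lit 361) (B (L (nat_lit 396) ln9_11_0 ln9_11_0_ok) (L (nat_lit 329) ln10_14_7 ln10_14_7_ok))))))))) (B (M (nat_lit 458) (B (M (nat_lit 489) (B (L (nat_lit 457) ln10_11_5 ln10_11_5_ok) (M (nat_lit 490) (B (L (nat_lit 521) ln10_12_5 ln10_12_5_ok) (M (nat_lit 491) (B (L (nat_lit 459) ln10_11_4 ln10_11_4_ok) (L (nat_lit 523) ln10_12_4 ln10_12_4_ok))))))) (B (M (nat_lit 490) (B (M (nat_lit 361) (B (L (nat_lit 329)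 ln10_14_7 ln10_14_7_ok) (L (nat_lit 393) ln10_15_7 ln10_15_7_ok))) (M (nat_lit 491) (B (L (nat_lit 459) ln10_11_4 ln10_11_4_ok) (L (nat_lit 523) ln10_12_4 ln10_12_4_ok))))) (B (M (nat_lit 490) (B (M (nat_lit 361) (B (L (nat_lit 329) ln10_14_7 ln10_14_7_ok) (L (nat_lit 393) ln10_15_7 ln10_15_7_ok))) (M (nat_lit 489) (B (L (nat_lit 457) ln10_11_5 ln10_11_5_ok) (L (nat_lit 521) ln10_12_5 ln10_12_5_ok))))) (M (nat_lit 361) (B (L (nat_lit 329) ln10_14_7 ln10_14_7_ok) (M (nat_lit 363) (B (L (nat_lit 331) ln10_14_6 ln10_14_6_ok) (M (nat_lit 360) (B (M (nat_lit 395) (B (L (nat_lit 359) ln7_11_0 ln7_11_0_ok) (L (nat_lit 396) ln8_11_0 ln8_11_0_ok))) (B (M (nat_lit 364) (B (M (nat_lit 392) (B (L (nat_lit 391) ln11_11_1 ln11_11_1_ok) (L (nat_lit 393) ln12_11_1 ln12_11_1_ok))) (L (nat_lit 396) ln9_11_0 ln9_11_0_ok))) (M (nat_lit 359) (B (M (nat_lit 327) (B (L (nat_lit 326) ln10_11_3 ln10_11_3_ok) (L (nat_lit 328) ln11_11_3 ln11_11_3_ok))) (M (nat_lit 391) (B (L (nat_lit 390) ln10_11_1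 ln10_11_1_ok) (L (nat_lit 392) ln11_11_1 ln11_11_1_ok)))))))))))))))) (K (nat_lit 20839919904563267469136299467468243040968311306576724125601814824542818561135580730608205265846292373090681313944358956363619163917254656000) (nat_lit 147420407267645042705436883982485735880110016980539080071782319937271812628311188475113637032506468539678948169724683462144572858337051043568730143147507580922631290880) (nat_lit 147420407267645042705436883982485735880110016980539080071782319937271812628311188475113637032506468539678948169724683462144572858337051043568730143147507580922631290880) c10_s284))))) (M (nat_lit 394) (B (M (nat_lit 364) (B (L (nat_lit 332) ln13_14_7 ln13_14_7_ok) (M (nat_lit 363) (B (L (nat_lit 393) ln13_11_1 ln13_11_1_ok) (L (nat_lit 398) ln10_11_0 ln10_11_0_ok))))) (B (K (nat_lit 20839919904563267469136299467468243040968311306576724125601814824542818561135580730608205265846292373090681313944358956363619163917254656000) (nat_lit 34323988311841395381847010140640711581676631841060940718756995795166248566548370466349732663418563782566790245538746069962899729768259438592773561482494345216)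 (nat_lit 34323988311841395381847010140640711581676631841060940718756995795166248566548370466349732663418563782566790245538746069962899729768259438592773561482494345216) c10_s292) (K (nat_lit 20839919904563267469136299467468243040968311306576724125601814824542818561135580730608205265846292373090681313944358956363619163917254656000) (nat_lit 633165827977536177350368080143109437449543020409924937437680490484456476679378995943956729241357765899458613269738614179460560657661713735577775055182719900123685066310575718400) (nat_lit 633165827977536177350368080143109437449543020409924937437680490484456476679378995943956729241357765899458613269738614179460560657661713735577775055182719900123685066310575718400) c10_s282)))))))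
noncomputable def c10_d498 : Cert := (B (M (nat_lit 394) (B (K (nat_lit 20839919904563267469136299467468243040968311306576724125601814824542818561135580730608205265846292373090681313944358956363619163917254656000) (nat_lit 1598335258878212303072075893499311808998333715596019637513573002202725905621333198946167657451520054756294678012004605368990073784746616084498481152) (nat_lit 1598335258878212303072075893499311808998333715596019637513573002202725905621333198946167657451520054756294678012004605368990073784746616084498481152) c10_s280) (B (K (nat_lit 20839919904563267469136299467468243040968311306576724125601814824542818561135580730608205265846292373090681313944358956363619163917254656000) (nat_lit 34323988311841395381847010140640711581616110359529187543187011314117152685785347779043016542861962013716890951766269718309476283972667057305939447640838111232) (nat_lit 34323988311841395381847010140640711581616110359529187543187011314117152685785347779043016542861962013716890951766269718309476283972667057305939447640838111232)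 c10_s281) (B (K (nat_lit 20839919904563267469136299467468243040968311306576724125601814824542818561135580730608205265846292373090681313944358956363619163917254656000) (nat_lit 633165827977536177350368080143109437449543020409924937437680490484456476679378995943956729241357765899458613269738614179460560657661713735577775055182719900123685066310575718400) (nat_lit 633165827977536177350368080143109437449543020409924937437680490484456476679378995943956729241357765899458613269738614179460560657661713735577775055182719900123685066310575718400) c10_s282) c10_d496)))) (B (M (nat_lit 394) (B (M (nat_lit 458) (B (M (nat_lit 329) (B (L (nat_lit 361) ln10_14_7 ln10_14_7_ok) (M (nat_lit 330) (B (L (nat_lit 297) ln10_13_7_c10 ln10_13_7_c10_ok) (M (nat_lit 331) (B (L (nat_lit 299) ln10_13_6 ln10_13_6_ok) (L (nat_lit 363) ln10_14_6 ln10_14_6_ok))))))) (M (nat_lit 489) (B (L (nat_lit 457) ln10_11_5 ln10_11_5_ok) (M (nat_lit 490) (B (L (nat_lit 521) ln10_12_5 ln10_12_5_ok) (M (nat_lit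 491) (B (L (nat_lit 459) ln10_11_4 ln10_11_4_ok) (L (nat_lit 523) ln10_12_4 ln10_12_4_ok))))))))) (B (M (nat_lit 458) (B (M (nat_lit 330) (B (M (nat_lit 331) (B (L (nat_lit 299) ln10_13_6 ln10_13_6_ok) (L (nat_lit 363) ln10_14_6 ln10_14_6_ok))) (M (nat_lit 457) (B (L (nat_lit 425) ln10_10_5 ln10_10_5_ok) (L (nat_lit 489) ln10_11_5 ln10_11_5_ok))))) (M (nat_lit 490) (B (M (nat_lit 361) (B (L (nat_lit 329) ln10_14_7 ln10_14_7_ok) (L (nat_lit 393) ln10_15_7 ln10_15_7_ok))) (M (nat_lit 491) (B (L (nat_lit 459) ln10_11_4 ln10_11_4_ok) (L (nat_lit 523) ln10_12_4 ln10_12_4_ok))))))) (B (K (nat_lit 20839919904563267469136299467468243040968311306576724125601814824542818561135580730608205265846292373090681313944358956363619163917254656000) (nat_lit 1598335258878212303072075893499311809012424971092662636880909885783461927785587294239617576675763800585487932162692256029772267775055228302690091008) (nat_lit 1598335258878212303072075893499311809012424971092662636880909885783461927785587294239617576675763800585487932162692256029772267775055228302690091008)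 c10_s288) (B (K (nat_lit 20839919904563267469136299467468243040968311306576724125601814824542818561135580730608205265846292373090681313944358956363619163917254656000) (nat_lit 34323988311841395381847010140640711581616110359529187543187011314117152685785347779043016542861962013716890951766269718309476283972667057305939447640838111232) (nat_lit 34323988311841395381847010140640711581616110359529187543187011314117152685785347779043016542861962013716890951766269718309476283972667057305939447640838111232) c10_s281) (B (M (nat_lit 458) (B (M (nat_lit 490) (B (M (nat_lit 491) (B (L (nat_lit 523) ln10_12_4 ln10_12_4_ok) (L (nat_lit 459) ln10_11_4 ln10_11_4_ok))) (M (nat_lit 489) (B (L (nat_lit 521) ln10_12_5 ln10_12_5_ok) (L (nat_lit 457) ln10_11_5 ln10_11_5_ok))))) (B (M (nat_lit 330) (B (M (nat_lit 457) (B (L (nat_lit 489) ln10_11_5 ln10_11_5_ok) (L (nat_lit 425) ln10_10_5 ln10_10_5_ok))) (M (nat_lit 331) (B (L (nat_lit 363) ln10_14_6 ln10_14_6_ok) (L (nat_lit 299) ln10_13_6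 ln10_13_6_ok))))) (B (M (nat_lit 425) (B (M (nat_lit 331) (B (L (nat_lit 363) ln10_14_6 ln10_14_6_ok) (M (nat_lit 330) (B (L (nat_lit 457) ln10_10_5 ln10_10_5_ok) (L (nat_lit 299) ln10_13_6 ln10_13_6_ok))))) (M (nat_lit 490) (B (M (nat_lit 491) (B (L (nat_lit 523) ln10_12_4 ln10_12_4_ok) (L (nat_lit 459) ln10_11_4 ln10_11_4_ok))) (M (nat_lit 393) (B (L (nat_lit 522) ln10_16_7 ln10_16_7_ok) (L (nat_lit 361) ln10_15_7 ln10_15_7_ok))))))) (M (nat_lit 490) (B (M (nat_lit 491) (B (L (nat_lit 523) ln10_12_4 ln10_12_4_ok) (L (nat_lit 459) ln10_11_4 ln10_11_4_ok))) (M (nat_lit 522) (B (M (nat_lit 521) (B (L (nat_lit 553) ln10_13_5 ln10_13_5_ok) (L (nat_lit 489) ln10_12_5 ln10_12_5_ok))) (M (nat_lit 393) (B (L (nat_lit 425) ln10_16_7 ln10_16_7_ok) (L (nat_lit 361) ln10_15_7 ln10_15_7_ok))))))))))) (B (M (nat_lit 330) (B (M (nat_lit 298) (B (M (nat_lit 425) (B (L (nat_lit 457) ln10_10_5 ln10_10_5_ok) (L (nat_lit 393) ln10_9_5_c10 ln10_9_5_c10_ok))) (M (nat_lit 297) (B (L (nat_lit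 329) ln10_13_7_c10 ln10_13_7_c10_ok) (L (nat_lit 265) ln10_12_7_c10 ln10_12_7_c10_ok))))) (B (M (nat_lit 298) (B (M (nat_lit 297) (B (L (nat_lit 329) ln10_13_7_c10 ln10_13_7_c10_ok) (L (nat_lit 265) ln10_12_7_c10 ln10_12_7_c10_ok))) (M (nat_lit 299) (B (L (nat_lit 331) ln10_13_6 ln10_13_6_ok) (L (nat_lit 267) ln10_12_6_c10 ln10_12_6_c10_ok))))) (B (M (nat_lit 298) (B (M (nat_lit 425) (B (L (nat_lit 457) ln10_10_5 ln10_10_5_ok) (L (nat_lit 393) ln10_9_5_c10 ln10_9_5_c10_ok))) (M (nat_lit 299) (B (L (nat_lit 331) ln10_13_6 ln10_13_6_ok) (L (nat_lit 267) ln10_12_6_c10 ln10_12_6_c10_ok))))) (M (nat_lit 458) (B (M (nat_lit 329) (B (L (nat_lit 361) ln10_14_7 ln10_14_7_ok) (L (nat_lit 297) ln10_13_7_c10 ln10_13_7_c10_ok))) (M (nat_lit 331) (B (L (nat_lit 363) ln10_14_6 ln10_14_6_ok) (L (nat_lit 299) ln10_13_6 ln10_13_6_ok))))))))) (B (K (nat_lit 20839919904563267469136299467468243040968311306576724125601814824542818561135580730608205265846292373090681313944358956363619163917254656000)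 (nat_lit 372141426925996655922703081200633113565176453993256711532865323622620503556172741289225465703030520108806613788331156485133432537833537536) (nat_lit 372141426925996655922703081200633113565176453993256711532865323622620503556172741289225465703030520108806613788331156485133432537833537536) c10_s289) (B (K (nat_lit 20839919904563267469136299467468243040968311306576724125601814824542818561135580730608205265846292373090681313944358956363619163917254656000) (nat_lit 3196670516267858898700102947192159167905306185660441332006840142356171188768828656099835872480559539135789623922643772752119376315373635267014426624) (nat_lit 3196670516267858898700102947192159167905306185660441332006840142356171188768828656099835872480559539135789623922643772752119376315373635267014426624) c10_s283) (K (nat_lit 20839919904563267469136299467468243040968311306576724125601814824542818561135580730608205265846292373090681313944358956363619163917254656000) (nat_lit 147420407267645042705436883982485735880110016980539080071782319937271812628311188475113637032506468539678948169724683462144572858337051043568730143147507580922631290880)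 (nat_lit 147420407267645042705436883982485735880110016980539080071782319937271812628311188475113637032506468539678948169724683462144572858337051043568730143147507580922631290880) c10_s284)))))))))) c10_d497))
noncomputable def c10_d499 : Cert := (B (M (nat_lit 496) (B (M (nat_lit 497) (B (L (nat_lit 529) ln16_12_4 ln16_12_4_ok) (M (nat_lit 368) (B (L (nat_lit 465) ln16_11_4 ln16_11_4_ok) (M (nat_lit 495) (B (L (nat_lit 527) ln16_12_5_c10 ln16_12_5_c10_ok) (L (nat_lit 463) ln16_11_5_c10 ln16_11_5_c10_ok))))))) (B (M (nat_lit 368) (B (M (nat_lit 497) (B (L (nat_lit 529) ln16_12_4 ln16_12_4_ok) (L (nat_lit 465) ln16_11_4 ln16_11_4_ok))) (M (nat_lit 367) (B (L (nat_lit 399) ln12_12_2 ln12_12_2_ok) (L (nat_lit 335) ln16_14_7 ln16_14_7_ok))))) (B (M (nat_lit 368) (B (M (nat_lit 495) (B (L (nat_lit 527) ln16_12_5_c10 ln16_12_5_c10_ok) (L (nat_lit 463) ln16_11_5_c10 ln16_11_5_c10_ok))) (M (nat_lit 367) (B (L (nat_lit 399) ln12_12_2 ln12_12_2_ok) (L (nat_lit 335) ln16_14_7 ln16_14_7_ok)))))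 (M (nat_lit 528) (B (M (nat_lit 527) (B (L (nat_lit 559) ln16_13_5_c10 ln16_13_5_c10_ok) (L (nat_lit 495) ln16_12_5_c10 ln16_12_5_c10_ok))) (M (nat_lit 529) (B (L (nat_lit 561) ln16_13_4_c10 ln16_13_4_c10_ok) (L (nat_lit 497) ln16_12_4 ln16_12_4_ok))))))))) (B (M (nat_lit 368) (B (M (nat_lit 367) (B (L (nat_lit 335) ln16_14_7 ln16_14_7_ok) (M (nat_lit 495) (B (L (nat_lit 463) ln16_11_5_c10 ln16_11_5_c10_ok) (M (nat_lit 496) (B (L (nat_lit 527) ln16_12_5_c10 ln16_12_5_c10_ok) (L (nat_lit 399) ln12_12_2 ln12_12_2_ok))))))) (B (M (nat_lit 496) (B (M (nat_lit 497) (B (L (nat_lit 529) ln16_12_4 ln16_12_4_ok) (L (nat_lit 465) ln16_11_4 ln16_11_4_ok))) (M (nat_lit 367) (B (L (nat_lit 399) ln12_12_2 ln12_12_2_ok) (L (nat_lit 335) ln16_14_7 ln16_14_7_ok))))) (B (M (nat_lit 336) (B (M (nat_lit 465) (B (L (nat_lit 497) ln16_11_4 ln16_11_4_ok) (L (nat_lit 433) ln16_10_4_c10 ln16_10_4_c10_ok))) (M (nat_lit 335) (B (L (nat_lit 367) ln16_14_7 ln16_14_7_ok) (L (nat_lit 303) ln16_13_7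 ln16_13_7_ok))))) (M (nat_lit 496) (B (M (nat_lit 495) (B (L (nat_lit 527) ln16_12_5_c10 ln16_12_5_c10_ok) (L (nat_lit 463) ln16_11_5_c10 ln16_11_5_c10_ok))) (M (nat_lit 497) (B (L (nat_lit 529) ln16_12_4 ln16_12_4_ok) (L (nat_lit 465) ln16_11_4 ln16_11_4_ok))))))))) (B (M (nat_lit 496) (B (M (nat_lit 368) (B (M (nat_lit 495) (B (L (nat_lit 527) ln16_12_5_c10 ln16_12_5_c10_ok) (L (nat_lit 463) ln16_11_5_c10 ln16_11_5_c10_ok))) (M (nat_lit 367) (B (L (nat_lit 399) ln12_12_2 ln12_12_2_ok) (L (nat_lit 335) ln16_14_7 ln16_14_7_ok))))) (B (M (nat_lit 368) (B (M (nat_lit 367) (B (L (nat_lit 399) ln12_12_2 ln12_12_2_ok) (L (nat_lit 335) ln16_14_7 ln16_14_7_ok))) (B (M (nat_lit 336) (B (M (nat_lit 465) (B (L (nat_lit 497) ln16_11_4 ln16_11_4_ok) (L (nat_lit 433) ln16_10_4_c10 ln16_10_4_c10_ok))) (M (nat_lit 335) (B (L (nat_lit 367) ln16_14_7 ln16_14_7_ok) (L (nat_lit 303) ln16_13_7 ln16_13_7_ok))))) (M (nat_lit 465) (B (L (nat_lit 497) ln16_11_4 ln16_11_4_ok) (M (nat_lit 433)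 (B (L (nat_lit 336) ln16_10_4_c10 ln16_10_4_c10_ok) (M (nat_lit 528) (B (L (nat_lit 560) ln16_17_6_c10 ln16_17_6_c10_ok) (L (nat_lit 401) ln16_16_6_c10 ln16_16_6_c10_ok)))))))))) (B (M (nat_lit 368) (B (M (nat_lit 495) (B (L (nat_lit 527) ln16_12_5_c10 ln16_12_5_c10_ok) (L (nat_lit 463) ln16_11_5_c10 ln16_11_5_c10_ok))) (M (nat_lit 336) (B (M (nat_lit 465) (B (L (nat_lit 497) ln16_11_4 ln16_11_4_ok) (L (nat_lit 433) ln16_10_4_c10 ln16_10_4_c10_ok))) (M (nat_lit 335) (B (L (nat_lit 367) ln16_14_7 ln16_14_7_ok) (L (nat_lit 303) ln16_13_7 ln16_13_7_ok))))))) (B (M (nat_lit 465) (B (M (nat_lit 368) (B (L (nat_lit 497) ln16_11_4 ln16_11_4_ok) (M (nat_lit 495) (B (L (nat_lit 527) ln16_12_5_c10 ln16_12_5_c10_ok) (L (nat_lit 463) ln16_11_5_c10 ln16_11_5_c10_ok))))) (B (M (nat_lit 433) (B (M (nat_lit 528) (B (L (nat_lit 560) ln16_17_6_c10 ln16_17_6_c10_ok) (L (nat_lit 401) ln16_16_6_c10 ln16_16_6_c10_ok))) (M (nat_lit 368) (B (L (nat_lit 497) ln16_11_4 ln16_11_4_ok) (L (nat_lit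 336) ln16_10_4_c10 ln16_10_4_c10_ok))))) (M (nat_lit 528) (B (M (nat_lit 527) (B (L (nat_lit 559) ln16_13_5_c10 ln16_13_5_c10_ok) (L (nat_lit 495) ln16_12_5_c10 ln16_12_5_c10_ok))) (M (nat_lit 433) (B (L (nat_lit 560) ln16_17_6_c10 ln16_17_6_c10_ok) (L (nat_lit 401) ln16_16_6_c10 ln16_16_6_c10_ok)))))))) (M (nat_lit 528) (B (M (nat_lit 527) (B (L (nat_lit 559) ln16_13_5_c10 ln16_13_5_c10_ok) (L (nat_lit 495) ln16_12_5_c10 ln16_12_5_c10_ok))) (B (M (nat_lit 560) (B (M (nat_lit 433) (B (L (nat_lit 465) ln16_17_6_c10 ln16_17_6_c10_ok) (L (nat_lit 401) ln16_16_6_c10 ln16_16_6_c10_ok))) (M (nat_lit 592) (B (M (nat_lit 593) (B (L (nat_lit 625) ln16_15_4_c10 ln16_15_4_c10_ok) (L (nat_lit 561) ln16_14_4_c10 ln16_14_4_c10_ok))) (M (nat_lit 495) (B (L (nat_lit 463) ln12_14_0 ln12_14_0_ok) (L (nat_lit 527) ln16_12_5_c10 ln16_12_5_c10_ok))))))) (M (nat_lit 560) (B (M (nat_lit 433) (B (L (nat_lit 465) ln16_17_6_c10 ln16_17_6_c10_ok) (L (nat_lit 401) ln16_16_6_c10 ln16_16_6_c10_ok)))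 (M (nat_lit 592) (B (M (nat_lit 591) (B (L (nat_lit 623) ln16_15_5_c10 ln16_15_5_c10_ok) (L (nat_lit 559) ln16_14_5_c10 ln16_14_5_c10_ok))) (M (nat_lit 593) (B (L (nat_lit 625) ln16_15_4_c10 ln16_15_4_c10_ok) (L (nat_lit 561) ln16_14_4_c10 ln16_14_4_c10_ok))))))))))))))) (B (M (nat_lit 433) (B (L (nat_lit 399) ln13_12_0 ln13_12_0_ok) (L (nat_lit 463) ln13_14_2 ln13_14_2_ok))) (M (nat_lit 496) (B (M (nat_lit 528) (B (M (nat_lit 527) (B (L (nat_lit 559) ln16_13_5_c10 ln16_13_5_c10_ok) (L (nat_lit 495) ln16_12_5_c10 ln16_12_5_c10_ok))) (M (nat_lit 529) (B (L (nat_lit 561) ln16_13_4_c10 ln16_13_4_c10_ok) (L (nat_lit 497) ln16_12_4 ln16_12_4_ok))))) (B (M (nat_lit 368) (B (M (nat_lit 497) (B (L (nat_lit 529) ln16_12_4 ln16_12_4_ok) (L (nat_lit 465) ln16_11_4 ln16_11_4_ok))) (M (nat_lit 367) (B (L (nat_lit 399) ln12_12_2 ln12_12_2_ok) (L (nat_lit 335) ln16_14_7 ln16_14_7_ok))))) (B (M (nat_lit 465) (B (M (nat_lit 367) (B (L (nat_lit 399) ln16_15_7 ln16_15_7_ok) (M (nat_lit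 368) (B (L (nat_lit 497) ln16_11_4 ln16_11_4_ok) (L (nat_lit 335) ln16_14_7 ln16_14_7_ok))))) (M (nat_lit 528) (B (M (nat_lit 527) (B (L (nat_lit 559) ln16_13_5_c10 ln16_13_5_c10_ok) (L (nat_lit 495) ln16_12_5_c10 ln16_12_5_c10_ok))) (M (nat_lit 433) (B (L (nat_lit 560) ln16_17_6_c10 ln16_17_6_c10_ok) (L (nat_lit 401) ln16_16_6_c10 ln16_16_6_c10_ok))))))) (M (nat_lit 528) (B (M (nat_lit 527) (B (L (nat_lit 559) ln16_13_5_c10 ln16_13_5_c10_ok) (L (nat_lit 495) ln16_12_5_c10 ln16_12_5_c10_ok))) (M (nat_lit 560) (B (M (nat_lit 561) (B (L (nat_lit 593) ln16_14_4_c10 ln16_14_4_c10_ok) (L (nat_lit 529) ln16_13_4_c10 ln16_13_4_c10_ok))) (M (nat_lit 433) (B (L (nat_lit 465) ln16_17_6_c10 ln16_17_6_c10_ok) (L (nat_lit 401) ln16_16_6_c10 ln16_16_6_c10_ok)))))))))))))))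
noncomputable def c10_d500 : Cert := (B (M (nat_lit 336) (B (M (nat_lit 305) (B (L (nat_lit 337) ln16_13_6_c10 ln16_13_6_c10_ok) (M (nat_lit 304) (B (L (nat_lit 273) ln16_12_6_c10 ln16_12_6_c10_ok) (M (nat_lit 303) (B (L (nat_lit 271) ln16_12_7_c10 ln16_12_7_c10_ok) (L (nat_lit 335) ln16_13_7 ln16_13_7_ok))))))) (B (M (nat_lit 304) (B (M (nat_lit 305) (B (L (nat_lit 273) ln16_12_6_c10 ln16_12_6_c10_ok) (L (nat_lit 337) ln16_13_6_c10 ln16_13_6_c10_ok))) (M (nat_lit 433) (B (L (nat_lit 401) ln16_9_4_c10 ln16_9_4_c10_ok) (L (nat_lit 465) ln16_10_4_c10 ln16_10_4_c10_ok))))) (B (M (nat_lit 337) (B (L (nat_lit 305) ln16_13_6_c10 ln16_13_6_c10_ok) (M (nat_lit 338) (B (M (nat_lit 339) (B (L (nat_lit 367) ln19_10_1_c10 ln19_10_1_c10_ok) (M (nat_lit 340) (B (L (nat_lit 369) ln20_10_1_c10 ln20_10_1_c10_ok) (M (nat_lit 308) (B (L (nat_lit 307) ln16_10_2_c10 ln16_10_2_c10_ok) (L (nat_lit 309) ln17_10_2_c10 ln17_10_2_c10_ok))))))) (B (M (nat_lit 339) (B (M (nat_lit 335) (B (L (nat_lit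 303) ln16_13_7 ln16_13_7_ok) (M (nat_lit 307) (B (L (nat_lit 306) ln15_10_2_c10 ln15_10_2_c10_ok) (L (nat_lit 308) ln16_10_2_c10 ln16_10_2_c10_ok))))) (B (M (nat_lit 340) (B (L (nat_lit 369) ln20_10_1_c10 ln20_10_1_c10_ok) (M (nat_lit 308) (B (L (nat_lit 307) ln16_10_2_c10 ln16_10_2_c10_ok) (L (nat_lit 309) ln17_10_2_c10 ln17_10_2_c10_ok))))) (M (nat_lit 335) (B (L (nat_lit 303) ln16_13_7 ln16_13_7_ok) (M (nat_lit 371) (B (L (nat_lit 370) ln15_10_0_c10 ln15_10_0_c10_ok) (L (nat_lit 372) ln16_10_0_c10 ln16_10_0_c10_ok)))))))) (B (M (nat_lit 339) (B (L (nat_lit 367) ln19_10_1_c10 ln19_10_1_c10_ok) (M (nat_lit 335) (B (L (nat_lit 303) ln16_13_7 ln16_13_7_ok) (M (nat_lit 371) (B (L (nat_lit 370) ln15_10_0_c10 ln15_10_0_c10_ok) (L (nat_lit 372) ln16_10_0_c10 ln16_10_0_c10_ok))))))) (M (nat_lit 335) (B (L (nat_lit 303) ln16_13_7 ln16_13_7_ok) (M (nat_lit 369) (B (M (nat_lit 370) (B (L (nat_lit 334) ln14_10_0 ln14_10_0_ok) (L (nat_lit 371) ln15_10_0_c10 ln15_10_0_c10_ok)))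 (M (nat_lit 433) (B (L (nat_lit 465) ln16_10_4_c10 ln16_10_4_c10_ok) (M (nat_lit 306) (B (L (nat_lit 307) ln15_10_2_c10 ln15_10_2_c10_ok) (L (nat_lit 401) ln17_13_6_c10 ln17_13_6_c10_ok))))))))))))))) (M (nat_lit 304) (B (M (nat_lit 303) (B (L (nat_lit 271) ln16_12_7_c10 ln16_12_7_c10_ok) (L (nat_lit 335) ln16_13_7 ln16_13_7_ok))) (M (nat_lit 433) (B (L (nat_lit 401) ln16_9_4_c10 ln16_9_4_c10_ok) (L (nat_lit 465) ln16_10_4_c10 ln16_10_4_c10_ok))))))))) (B (M (nat_lit 464) (B (K (nat_lit 68474022551437423139774001148213259022027797946875658595047050021597494462497697888843557370092603429474592334872388836367931189360867672064) (nat_lit 9434906065129282733058453800259844819368333816116976418586110606049817137071914623092037757288685885421102465539512658527206815424917958576833256281935980695147239178240) (nat_lit 9434906065129282733058453800259844819368333816116976418586110606049817137071914623092037757288685885421102465539512658527206815424917958576833256281935980695147239178240)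 c10_s316) (B (M (nat_lit 497) (B (M (nat_lit 529) (B (L (nat_lit 496) ln16_12_4 ln16_12_4_ok) (L (nat_lit 465) ln16_11_4 ln16_11_4_ok))) (B (M (nat_lit 463) (B (L (nat_lit 465) ln16_11_4 ln16_11_4_ok) (L (nat_lit 495) ln16_11_5_c10 ln16_11_5_c10_ok))) (M (nat_lit 496) (B (L (nat_lit 529) ln16_12_4 ln16_12_4_ok) (M (nat_lit 495) (B (L (nat_lit 527) ln16_12_5_c10 ln16_12_5_c10_ok) (L (nat_lit 463) ln16_11_5_c10 ln16_11_5_c10_ok)))))))) (B (M (nat_lit 496) (B (M (nat_lit 495) (B (L (nat_lit 527) ln16_12_5_c10 ln16_12_5_c10_ok) (L (nat_lit 463) ln16_11_5_c10 ln16_11_5_c10_ok))) (M (nat_lit 369) (B (L (nat_lit 401) ln16_15_6_c10 ln16_15_6_c10_ok) (L (nat_lit 337) ln16_14_6_c10 ln16_14_6_c10_ok))))) (B (M (nat_lit 496) (B (M (nat_lit 369) (B (L (nat_lit 337) ln16_14_6_c10 ln16_14_6_c10_ok) (L (nat_lit 401) ln16_15_6_c10 ln16_15_6_c10_ok))) (M (nat_lit 497) (B (L (nat_lit 465) ln16_11_4 ln16_11_4_ok) (L (nat_lit 529) ln16_12_4 ln16_12_4_ok))))) (M (nat_lit 465) (B (L (nat_lit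 497) ln16_11_4 ln16_11_4_ok) (M (nat_lit 463) (B (L (nat_lit 495) ln16_11_5_c10 ln16_11_5_c10_ok) (M (nat_lit 466) (B (M (nat_lit 435) (B (L (nat_lit 434) ln15_14_2_c10 ln15_14_2_c10_ok) (M (nat_lit 467) (B (L (nat_lit 436) ln16_14_2_c10 ln16_14_2_c10_ok) (M (nat_lit 499) (B (L (nat_lit 500) ln16_14_0_c10 ln16_14_0_c10_ok) (L (nat_lit 498) ln15_14_0_c10 ln15_14_0_c10_ok))))))) (L (nat_lit 433) ln13_14_2 ln13_14_2_ok)))))))))))) (M (nat_lit 464) (B (M (nat_lit 496) (B (M (nat_lit 528) (B (M (nat_lit 529) (B (L (nat_lit 561) ln16_13_4_c10 ln16_13_4_c10_ok) (L (nat_lit 497) ln16_12_4 ln16_12_4_ok))) (M (nat_lit 401) (B (L (nat_lit 433) ln16_16_6_c10 ln16_16_6_c10_ok) (L (nat_lit 369) ln16_15_6_c10 ln16_15_6_c10_ok))))) (B (M (nat_lit 528) (B (M (nat_lit 527) (B (L (nat_lit 559) ln16_13_5_c10 ln16_13_5_c10_ok) (L (nat_lit 495) ln16_12_5_c10 ln16_12_5_c10_ok))) (M (nat_lit 401) (B (L (nat_lit 433) ln16_16_6_c10 ln16_16_6_c10_ok) (L (nat_lit 369) ln16_15_6_c10 ln16_15_6_c10_ok)))))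 (M (nat_lit 495) (B (L (nat_lit 527) ln16_12_5_c10 ln16_12_5_c10_ok) (M (nat_lit 497) (B (L (nat_lit 529) ln16_12_4 ln16_12_4_ok) (L (nat_lit 463) ln16_11_5_c10 ln16_11_5_c10_ok)))))))) (B (M (nat_lit 496) (B (M (nat_lit 463) (B (L (nat_lit 497) ln13_14_0 ln13_14_0_ok) (L (nat_lit 495) ln16_11_5_c10 ln16_11_5_c10_ok))) (M (nat_lit 369) (B (L (nat_lit 401) ln16_15_6_c10 ln16_15_6_c10_ok) (L (nat_lit 337) ln16_14_6_c10 ln16_14_6_c10_ok))))) (B (M (nat_lit 433) (B (L (nat_lit 463) ln13_14_2 ln13_14_2_ok) (M (nat_lit 336) (B (M (nat_lit 335) (B (L (nat_lit 303) ln16_13_7 ln16_13_7_ok) (L (nat_lit 367) ln16_14_7 ln16_14_7_ok))) (M (nat_lit 304) (B (L (nat_lit 401) ln16_9_4_c10 ln16_9_4_c10_ok) (M (nat_lit 305) (B (L (nat_lit 273) ln16_12_6_c10 ln16_12_6_c10_ok) (L (nat_lit 337) ln16_13_6_c10 ln16_13_6_c10_ok))))))))) (B (K (nat_lit 68474022551437423139774001148213259022027797946875658595047050021597494462497697888843557370092603429474592334872388836367931189360867672064)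 (nat_lit 9434906065129282733058453800259844819368333816116976418586110606049817137071914623092037757288685885421102465539512658527206815424917958576833256281935980695147239178240) (nat_lit 9434906065129282733058453800259844819368333816116976418586110606049817137071914623092037757288685885421102465539512658527206815424917958576833256281935980695147239178240) c10_s316) (M (nat_lit 335) (B (L (nat_lit 367) ln16_14_7 ln16_14_7_ok) (M (nat_lit 336) (B (L (nat_lit 303) ln16_13_7 ln16_13_7_ok) (M (nat_lit 337) (B (L (nat_lit 305) ln16_13_6_c10 ln16_13_6_c10_ok) (L (nat_lit 369) ln16_14_6_c10 ln16_14_6_c10_ok))))))))))))))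
noncomputable def c10_d501 : Cert := (B (M (nat_lit 464) (B (M (nat_lit 336) (B (M (nat_lit 335) (B (L (nat_lit 303) ln16_13_7 ln16_13_7_ok) (L (nat_lit 367) ln16_14_7 ln16_14_7_ok))) (M (nat_lit 465) (B (L (nat_lit 433) ln16_10_4_c10 ln16_10_4_c10_ok) (L (nat_lit 497) ln16_11_4 ln16_11_4_ok))))) (M (nat_lit 496) (B (M (nat_lit 369) (B (L (nat_lit 337) ln16_14_6_c10 ln16_14_6_c10_ok) (L (nat_lit 401) ln16_15_6_c10 ln16_15_6_c10_ok))) (M (nat_lit 495) (B (L (nat_lit 463) ln16_11_5_c10 ln16_11_5_c10_ok) (L (nat_lit 527) ln16_12_5_c10 ln16_12_5_c10_ok))))))) (B (M (nat_lit 336) (B (M (nat_lit 303) (B (L (nat_lit 335) ln16_13_7 ln16_13_7_ok) (M (nat_lit 304) (B (L (nat_lit 271) ln16_12_7_c10 ln16_12_7_c10_ok) (M (nat_lit 305) (B (L (nat_lit 337) ln16_13_6_c10 ln16_13_6_c10_ok) (L (nat_lit 273) ln16_12_6_c10 ln16_12_6_c10_ok))))))) (B (M (nat_lit 304) (B (M (nat_lit 433) (B (L (nat_lit 465) ln16_10_4_c10 ln16_10_4_c10_ok) (L (nat_lit 401) ln16_9_4_c10 ln16_9_4_c10_ok)))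 (M (nat_lit 305) (B (L (nat_lit 337) ln16_13_6_c10 ln16_13_6_c10_ok) (L (nat_lit 273) ln16_12_6_c10 ln16_12_6_c10_ok))))) (B (M (nat_lit 304) (B (M (nat_lit 433) (B (L (nat_lit 465) ln16_10_4_c10 ln16_10_4_c10_ok) (L (nat_lit 401) ln16_9_4_c10 ln16_9_4_c10_ok))) (M (nat_lit 303) (B (L (nat_lit 335) ln16_13_7 ln16_13_7_ok) (L (nat_lit 271) ln16_12_7_c10 ln16_12_7_c10_ok))))) (M (nat_lit 464) (B (M (nat_lit 465) (B (L (nat_lit 497) ln16_11_4 ln16_11_4_ok) (L (nat_lit 433) ln16_10_4_c10 ln16_10_4_c10_ok))) (M (nat_lit 335) (B (L (nat_lit 367) ln16_14_7 ln16_14_7_ok) (L (nat_lit 303) ln16_13_7 ln16_13_7_ok))))))))) (B (M (nat_lit 336) (B (M (nat_lit 304) (B (M (nat_lit 433) (B (L (nat_lit 465) ln16_10_4_c10 ln16_10_4_c10_ok) (L (nat_lit 401) ln16_9_4_c10 ln16_9_4_c10_ok))) (M (nat_lit 303) (B (L (nat_lit 335) ln16_13_7 ln16_13_7_ok) (L (nat_lit 271) ln16_12_7_c10 ln16_12_7_c10_ok))))) (B (M (nat_lit 305) (B (L (nat_lit 337) ln16_13_6_c10 ln16_13_6_c10_ok) (M (nat_lit 304)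 (B (L (nat_lit 273) ln16_12_6_c10 ln16_12_6_c10_ok) (M (nat_lit 303) (B (L (nat_lit 335) ln16_13_7 ln16_13_7_ok) (L (nat_lit 271) ln16_12_7_c10 ln16_12_7_c10_ok))))))) (B (M (nat_lit 304) (B (M (nat_lit 433) (B (L (nat_lit 465) ln16_10_4_c10 ln16_10_4_c10_ok) (L (nat_lit 401) ln16_9_4_c10 ln16_9_4_c10_ok))) (M (nat_lit 305) (B (L (nat_lit 337) ln16_13_6_c10 ln16_13_6_c10_ok) (L (nat_lit 273) ln16_12_6_c10 ln16_12_6_c10_ok))))) (M (nat_lit 464) (B (M (nat_lit 465) (B (L (nat_lit 497) ln16_11_4 ln16_11_4_ok) (L (nat_lit 433) ln16_10_4_c10 ln16_10_4_c10_ok))) (M (nat_lit 337) (B (L (nat_lit 369) ln16_14_6_c10 ln16_14_6_c10_ok) (L (nat_lit 305) ln16_13_6_c10 ln16_13_6_c10_ok))))))))) (B (M (nat_lit 464) (B (M (nat_lit 496) (B (M (nat_lit 369) (B (L (nat_lit 337) ln16_14_6_c10 ln16_14_6_c10_ok) (L (nat_lit 401) ln16_15_6_c10 ln16_15_6_c10_ok))) (M (nat_lit 495) (B (L (nat_lit 463) ln16_11_5_c10 ln16_11_5_c10_ok) (L (nat_lit 527) ln16_12_5_c10 ln16_12_5_c10_ok))))) (B (M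 (nat_lit 497) (B (L (nat_lit 465) ln16_11_4 ln16_11_4_ok) (M (nat_lit 496) (B (L (nat_lit 529) ln16_12_4 ln16_12_4_ok) (M (nat_lit 495) (B (L (nat_lit 463) ln16_11_5_c10 ln16_11_5_c10_ok) (L (nat_lit 527) ln16_12_5_c10 ln16_12_5_c10_ok))))))) (B (M (nat_lit 496) (B (M (nat_lit 369) (B (L (nat_lit 337) ln16_14_6_c10 ln16_14_6_c10_ok) (L (nat_lit 401) ln16_15_6_c10 ln16_15_6_c10_ok))) (M (nat_lit 497) (B (L (nat_lit 465) ln16_11_4 ln16_11_4_ok) (L (nat_lit 529) ln16_12_4 ln16_12_4_ok))))) (M (nat_lit 336) (B (M (nat_lit 337) (B (L (nat_lit 305) ln16_13_6_c10 ln16_13_6_c10_ok) (L (nat_lit 369) ln16_14_6_c10 ln16_14_6_c10_ok))) (M (nat_lit 465) (B (L (nat_lit 433) ln16_10_4_c10 ln16_10_4_c10_ok) (L (nat_lit 497) ln16_11_4 ln16_11_4_ok))))))))) (B (M (nat_lit 464) (B (M (nat_lit 496) (B (M (nat_lit 495) (B (L (nat_lit 527) ln16_12_5_c10 ln16_12_5_c10_ok) (L (nat_lit 463) ln16_11_5_c10 ln16_11_5_c10_ok))) (M (nat_lit 497) (B (L (nat_lit 529) ln16_12_4 ln16_12_4_ok) (L (nat_lit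 465) ln16_11_4 ln16_11_4_ok))))) (B (M (nat_lit 336) (B (M (nat_lit 465) (B (L (nat_lit 497) ln16_11_4 ln16_11_4_ok) (L (nat_lit 433) ln16_10_4_c10 ln16_10_4_c10_ok))) (M (nat_lit 335) (B (L (nat_lit 367) ln16_14_7 ln16_14_7_ok) (L (nat_lit 303) ln16_13_7 ln16_13_7_ok))))) (B (M (nat_lit 433) (B (M (nat_lit 335) (B (L (nat_lit 367) ln16_14_7 ln16_14_7_ok) (M (nat_lit 336) (B (L (nat_lit 465) ln16_10_4_c10 ln16_10_4_c10_ok) (L (nat_lit 303) ln16_13_7 ln16_13_7_ok))))) (M (nat_lit 496) (B (M (nat_lit 495) (B (L (nat_lit 527) ln16_12_5_c10 ln16_12_5_c10_ok) (L (nat_lit 463) ln16_11_5_c10 ln16_11_5_c10_ok))) (M (nat_lit 401) (B (L (nat_lit 528) ln16_16_6_c10 ln16_16_6_c10_ok) (L (nat_lit 369) ln16_15_6_c10 ln16_15_6_c10_ok))))))) (M (nat_lit 496) (B (M (nat_lit 495) (B (L (nat_lit 527) ln16_12_5_c10 ln16_12_5_c10_ok) (L (nat_lit 463) ln16_11_5_c10 ln16_11_5_c10_ok))) (M (nat_lit 528) (B (M (nat_lit 529) (B (L (nat_lit 561) ln16_13_4_c10 ln16_13_4_c10_ok) (L (nat_lit 497)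 ln16_12_4 ln16_12_4_ok))) (M (nat_lit 401) (B (L (nat_lit 433) ln16_16_6_c10 ln16_16_6_c10_ok) (L (nat_lit 369) ln16_15_6_c10 ln16_15_6_c10_ok))))))))))) (B (M (nat_lit 336) (B (M (nat_lit 304) (B (M (nat_lit 433) (B (L (nat_lit 465) ln16_10_4_c10 ln16_10_4_c10_ok) (L (nat_lit 401) ln16_9_4_c10 ln16_9_4_c10_ok))) (M (nat_lit 305) (B (L (nat_lit 337) ln16_13_6_c10 ln16_13_6_c10_ok) (L (nat_lit 273) ln16_12_6_c10 ln16_12_6_c10_ok))))) (B (M (nat_lit 304) (B (M (nat_lit 305) (B (L (nat_lit 337) ln16_13_6_c10 ln16_13_6_c10_ok) (L (nat_lit 273) ln16_12_6_c10 ln16_12_6_c10_ok))) (M (nat_lit 303) (B (L (nat_lit 335) ln16_13_7 ln16_13_7_ok) (L (nat_lit 271) ln16_12_7_c10 ln16_12_7_c10_ok))))) (B (M (nat_lit 304) (B (M (nat_lit 433) (B (L (nat_lit 465) ln16_10_4_c10 ln16_10_4_c10_ok) (L (nat_lit 401) ln16_9_4_c10 ln16_9_4_c10_ok))) (M (nat_lit 303) (B (L (nat_lit 335) ln16_13_7 ln16_13_7_ok) (L (nat_lit 271) ln16_12_7_c10 ln16_12_7_c10_ok))))) (M (nat_lit 464) (B (M (nat_lit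 337) (B (L (nat_lit 369) ln16_14_6_c10 ln16_14_6_c10_ok) (L (nat_lit 305) ln16_13_6_c10 ln16_13_6_c10_ok))) (M (nat_lit 335) (B (L (nat_lit 367) ln16_14_7 ln16_14_7_ok) (L (nat_lit 303) ln16_13_7 ln16_13_7_ok))))))))) c10_d500))))))
noncomputable def c10_d502 : Cert := (B (M (nat_lit 433) (B (L (nat_lit 399) ln13_12_0 ln13_12_0_ok) (M (nat_lit 464) (B (M (nat_lit 434) (B (L (nat_lit 463) ln13_14_2 ln13_14_2_ok) (M (nat_lit 435) (B (M (nat_lit 436) (B (L (nat_lit 465) ln20_13_1_c10 ln20_13_1_c10_ok) (M (nat_lit 468) (B (L (nat_lit 467) ln16_13_0_c10 ln16_13_0_c10_ok) (L (nat_lit 469) ln17_13_0_c10 ln17_13_0_c10_ok))))) (B (M (nat_lit 436) (B (M (nat_lit 468) (B (L (nat_lit 467) ln16_13_0_c10 ln16_13_0_c10_ok) (L (nat_lit 469) ln17_13_0_c10 ln17_13_0_c10_ok))) (M (nat_lit 404) (B (L (nat_lit 403) ln16_13_2_c10 ln16_13_2_c10_ok) (L (nat_lit 405) ln17_13_2_c10 ln17_13_2_c10_ok))))) (B (M (nat_lit 436) (B (L (nat_lit 465) ln20_13_1_c10 ln20_13_1_c10_ok) (M (nat_lit 404)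 (B (L (nat_lit 403) ln16_13_2_c10 ln16_13_2_c10_ok) (L (nat_lit 405) ln17_13_2_c10 ln17_13_2_c10_ok))))) (M (nat_lit 466) (B (M (nat_lit 467) (B (L (nat_lit 468) ln16_13_0_c10 ln16_13_0_c10_ok) (M (nat_lit 403) (B (L (nat_lit 404) ln16_13_2_c10 ln16_13_2_c10_ok) (M (nat_lit 498) (B (L (nat_lit 530) ln18_16_6_c10 ln18_16_6_c10_ok) (L (nat_lit 371) ln19_11_5_c10 ln19_11_5_c10_ok))))))) (B (M (nat_lit 467) (B (L (nat_lit 468) ln16_13_0_c10 ln16_13_0_c10_ok) (M (nat_lit 403) (B (L (nat_lit 404) ln16_13_2_c10 ln16_13_2_c10_ok) (M (nat_lit 371) (B (L (nat_lit 498) ln19_11_5_c10 ln19_11_5_c10_ok) (L (nat_lit 339) ln19_10_5_c10 ln19_10_5_c10_ok))))))) (B (M (nat_lit 467) (B (L (nat_lit 468) ln16_13_0_c10 ln16_13_0_c10_ok) (M (nat_lit 465) (B (M (nat_lit 496) (B (L (nat_lit 495) ln19_14_1_c10 ln19_14_1_c10_ok) (M (nat_lit 528) (B (L (nat_lit 560) ln16_17_6_c10 ln16_17_6_c10_ok) (L (nat_lit 401) ln16_16_6_c10 ln16_16_6_c10_ok))))) (M (nat_lit 499) (B (L (nat_lit 500) ln16_14_0_c10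 ln16_14_0_c10_ok) (M (nat_lit 402) (B (L (nat_lit 531) ln19_16_7_c10 ln19_16_7_c10_ok) (L (nat_lit 370) ln18_11_4_c10 ln18_11_4_c10_ok))))))))) (M (nat_lit 403) (B (L (nat_lit 404) ln16_13_2_c10 ln16_13_2_c10_ok) (M (nat_lit 498) (B (L (nat_lit 530) ln18_16_6_c10 ln18_16_6_c10_ok) (M (nat_lit 371) (B (L (nat_lit 402) ln18_15_6_c10 ln18_15_6_c10_ok) (L (nat_lit 339) ln19_10_5_c10 ln19_10_5_c10_ok))))))))))))))))) (B (M (nat_lit 496) (B (M (nat_lit 401) (B (L (nat_lit 528) ln16_16_6_c10 ln16_16_6_c10_ok) (L (nat_lit 369) ln16_15_6_c10 ln16_15_6_c10_ok))) (B (M (nat_lit 528) (B (L (nat_lit 401) ln16_16_6_c10 ln16_16_6_c10_ok) (M (nat_lit 527) (B (L (nat_lit 495) ln16_12_5_c10 ln16_12_5_c10_ok) (L (nat_lit 559) ln16_13_5_c10 ln16_13_5_c10_ok))))) (B (M (nat_lit 528) (B (M (nat_lit 527) (B (L (nat_lit 495) ln16_12_5_c10 ln16_12_5_c10_ok) (L (nat_lit 559) ln16_13_5_c10 ln16_13_5_c10_ok))) (M (nat_lit 561) (B (L (nat_lit 529) ln16_13_4_c10 ln16_13_4_c10_ok) (M (nat_lit 560)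 (B (L (nat_lit 465) ln16_17_6_c10 ln16_17_6_c10_ok) (L (nat_lit 593) ln16_14_4_c10 ln16_14_4_c10_ok))))))) (M (nat_lit 495) (B (L (nat_lit 527) ln16_12_5_c10 ln16_12_5_c10_ok) (M (nat_lit 401) (B (L (nat_lit 369) ln16_15_6_c10 ln16_15_6_c10_ok) (M (nat_lit 497) (B (L (nat_lit 529) ln16_12_4 ln16_12_4_ok) (M (nat_lit 498) (B (L (nat_lit 463) ln12_14_0 ln12_14_0_ok) (M (nat_lit 530) (B (L (nat_lit 465) ln17_12_4_c10 ln17_12_4_c10_ok) (L (nat_lit 531) ln15_15_0_c10 ln15_15_0_c10_ok))))))))))))))) (B (M (nat_lit 496) (B (M (nat_lit 401) (B (L (nat_lit 528) ln16_16_6_c10 ln16_16_6_c10_ok) (L (nat_lit 369) ln16_15_6_c10 ln16_15_6_c10_ok))) (M (nat_lit 497) (B (L (nat_lit 529) ln16_12_4 ln16_12_4_ok) (L (nat_lit 463) ln13_14_0 ln13_14_0_ok))))) (B (L (nat_lit 463) ln13_14_2 ln13_14_2_ok) (M (nat_lit 496) (B (M (nat_lit 401) (B (L (nat_lit 369) ln16_15_6_c10 ln16_15_6_c10_ok) (L (nat_lit 528) ln16_16_6_c10 ln16_16_6_c10_ok))) (B (M (nat_lit 528) (B (M (nat_lit 465) (B (L (nat_lit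 560) ln16_17_6_c10 ln16_17_6_c10_ok) (L (nat_lit 401) ln16_16_6_c10 ln16_16_6_c10_ok))) (B (L (nat_lit 401) ln16_16_6_c10 ln16_16_6_c10_ok) (M (nat_lit 560) (B (L (nat_lit 465) ln16_17_6_c10 ln16_17_6_c10_ok) (M (nat_lit 561) (B (L (nat_lit 593) ln16_14_4_c10 ln16_14_4_c10_ok) (L (nat_lit 529) ln16_13_4_c10 ln16_13_4_c10_ok)))))))) (B (M (nat_lit 528) (B (M (nat_lit 560) (B (L (nat_lit 465) ln16_17_6_c10 ln16_17_6_c10_ok) (M (nat_lit 561) (B (L (nat_lit 593) ln16_14_4_c10 ln16_14_4_c10_ok) (L (nat_lit 529) ln16_13_4_c10 ln16_13_4_c10_ok))))) (M (nat_lit 527) (B (L (nat_lit 559) ln16_13_5_c10 ln16_13_5_c10_ok) (L (nat_lit 495) ln16_12_5_c10 ln16_12_5_c10_ok))))) (M (nat_lit 401) (B (L (nat_lit 369) ln16_15_6_c10 ln16_15_6_c10_ok) (M (nat_lit 497) (B (L (nat_lit 529) ln16_12_4 ln16_12_4_ok) (M (nat_lit 495) (B (L (nat_lit 527) ln16_12_5_c10 ln16_12_5_c10_ok) (M (nat_lit 498) (B (M (nat_lit 530) (B (L (nat_lit 465) ln17_12_4_c10 ln17_12_4_c10_ok) (L (nat_lit 531) ln15_15_0_c10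 ln15_15_0_c10_ok))) (B (M (nat_lit 466) (B (L (nat_lit 467) ln15_15_2_c10 ln15_15_2_c10_ok) (M (nat_lit 530) (B (L (nat_lit 531) ln15_15_0_c10 ln15_15_0_c10_ok) (L (nat_lit 434) ln18_16_7_c10 ln18_16_7_c10_ok))))) (B (M (nat_lit 499) (B (M (nat_lit 500) (B (L (nat_lit 465) ln20_15_3_c10 ln20_15_3_c10_ok) (M (nat_lit 468) (B (L (nat_lit 469) ln17_15_2_c10 ln17_15_2_c10_ok) (L (nat_lit 467) ln16_15_2_c10 ln16_15_2_c10_ok))))) (B (M (nat_lit 467) (B (L (nat_lit 468) ln16_15_2_c10 ln16_15_2_c10_ok) (L (nat_lit 466) ln15_15_2_c10 ln15_15_2_c10_ok))) (M (nat_lit 500) (B (L (nat_lit 465) ln20_15_3_c10 ln20_15_3_c10_ok) (M (nat_lit 532) (B (L (nat_lit 533) ln17_15_0_c10 ln17_15_0_c10_ok) (L (nat_lit 531) ln16_15_0_c10 ln16_15_0_c10_ok)))))))) (M (nat_lit 499) (B (M (nat_lit 467) (B (L (nat_lit 468) ln16_15_2_c10 ln16_15_2_c10_ok) (L (nat_lit 466) ln15_15_2_c10 ln15_15_2_c10_ok))) (M (nat_lit 465) (B (L (nat_lit 500) ln20_15_3_c10 ln20_15_3_c10_ok) (L (nat_lit 530) ln17_12_4_c10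 ln17_12_4_c10_ok)))))))))))))))))))))))))) (B (M (nat_lit 464) (B (M (nat_lit 497) (B (M (nat_lit 529) (B (L (nat_lit 496) ln16_12_4 ln16_12_4_ok) (M (nat_lit 465) (B (L (nat_lit 433) ln17_16_7_c10 ln17_16_7_c10_ok) (L (nat_lit 368) ln16_11_4 ln16_11_4_ok))))) (B (M (nat_lit 463) (B (M (nat_lit 368) (B (L (nat_lit 465) ln16_11_4 ln16_11_4_ok) (L (nat_lit 495) ln16_11_5_c10 ln16_11_5_c10_ok))) (B (M (nat_lit 495) (B (L (nat_lit 368) ln16_11_5_c10 ln16_11_5_c10_ok) (M (nat_lit 527) (B (L (nat_lit 496) ln16_12_5_c10 ln16_12_5_c10_ok) (L (nat_lit 559) ln15_17_6 ln15_17_6_ok))))) (L (nat_lit 496) ln13_14_0 ln13_14_0_ok)))) (B (M (nat_lit 496) (B (L (nat_lit 529) ln16_12_4 ln16_12_4_ok) (M (nat_lit 495) (B (L (nat_lit 527) ln16_12_5_c10 ln16_12_5_c10_ok) (L (nat_lit 463) ln12_14_0 ln12_14_0_ok))))) (M (nat_lit 465) (B (L (nat_lit 368) ln16_11_4 ln16_11_4_ok) (M (nat_lit 529) (B (L (nat_lit 561) ln17_17_7_c10 ln17_17_7_c10_ok) (L (nat_lit 433) ln17_16_7_c10 ln17_16_7_c10_ok)))))))))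 c10_d499)) (M (nat_lit 368) (B (K (nat_lit 20839919916000529960733516074464993858627557732871582196439308328095118076698051585738300670515394396884459718884128599315807537027977576448) (nat_lit 2196735251957849304438208648995460201833898308352870173903514767816140216545464296209845483087356362146109557013837192180782890342746114536877403956578487369728) (nat_lit 2196735251957849304438208648995460201833898308352870173903514767816140216545464296209845483087356362146109557013837192180782890342746114536877403956578487369728) c10_s315) c10_d501))))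
noncomputable def c10_d503 : Cert := (B (M (nat_lit 368) (B (M (nat_lit 399) (B (L (nat_lit 369) ln13_12_2 ln13_12_2_ok) (L (nat_lit 367) ln12_12_2 ln12_12_2_ok))) (B (M (nat_lit 399) (B (L (nat_lit 367) ln12_12_2 ln12_12_2_ok) (L (nat_lit 433) ln13_12_0 ln13_12_0_ok))) (B (M (nat_lit 399) (B (L (nat_lit 369) ln13_12_2 ln13_12_2_ok) (L (nat_lit 433) ln13_12_0 ln13_12_0_ok))) (M (nat_lit 464) (B (M (nat_lit 337) (B (L (nat_lit 369) ln16_14_6_c10 ln16_14_6_c10_ok) (M (nat_lit 336) (B (L (nat_lit 305) ln16_13_6_c10 ln16_13_6_c10_ok) (M (nat_lit 335) (B (L (nat_lit 303) ln16_13_7 ln16_13_7_ok) (L (nat_lit 367) ln16_14_7 ln16_14_7_ok))))))) (M (nat_lit 497) (B (L (nat_lit 465) ln16_11_4 ln16_11_4_ok) (M (nat_lit 496) (B (L (nat_lit 529) ln16_12_4 ln16_12_4_ok) (M (nat_lit 495) (B (L (nat_lit 463) ln16_11_5_c10 ln16_11_5_c10_ok) (L (nat_lit 527) ln16_12_5_c10 ln16_12_5_c10_ok))))))))))))) (B (M (nat_lit 368) (B (M (nat_lit 399) (B (L (nat_lit 369) ln13_12_2 ln13_12_2_ok)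 (L (nat_lit 367) ln12_12_2 ln12_12_2_ok))) (B (M (nat_lit 399) (B (L (nat_lit 367) ln12_12_2 ln12_12_2_ok) (L (nat_lit 433) ln13_12_0 ln13_12_0_ok))) (B (M (nat_lit 399) (B (L (nat_lit 369) ln13_12_2 ln13_12_2_ok) (L (nat_lit 433) ln13_12_0 ln13_12_0_ok))) (M (nat_lit 336) (B (M (nat_lit 304) (B (M (nat_lit 271) (B (L (nat_lit 303) ln16_12_7_c10 ln16_12_7_c10_ok) (M (nat_lit 272) (B (L (nat_lit 239) ln16_11_7_c10 ln16_11_7_c10_ok) (M (nat_lit 273) (B (L (nat_lit 305) ln16_12_6_c10 ln16_12_6_c10_ok) (L (nat_lit 241) ln16_11_6_c10 ln16_11_6_c10_ok))))))) (B (M (nat_lit 272) (B (M (nat_lit 401) (B (L (nat_lit 433) ln16_9_4_c10 ln16_9_4_c10_ok) (L (nat_lit 369) ln16_8_4_c10 ln16_8_4_c10_ok))) (M (nat_lit 273) (B (L (nat_lit 305) ln16_12_6_c10 ln16_12_6_c10_ok) (L (nat_lit 241) ln16_11_6_c10 ln16_11_6_c10_ok))))) (B (M (nat_lit 272) (B (M (nat_lit 401) (B (L (nat_lit 433) ln16_9_4_c10 ln16_9_4_c10_ok) (L (nat_lit 369) ln16_8_4_c10 ln16_8_4_c10_ok))) (M (nat_lit 271) (B (L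 (nat_lit 303) ln16_12_7_c10 ln16_12_7_c10_ok) (L (nat_lit 239) ln16_11_7_c10 ln16_11_7_c10_ok))))) (M (nat_lit 433) (B (L (nat_lit 465) ln16_10_4_c10 ln16_10_4_c10_ok) (L (nat_lit 401) ln16_9_4_c10 ln16_9_4_c10_ok))))))) (B (M (nat_lit 464) (B (M (nat_lit 337) (B (L (nat_lit 305) ln16_13_6_c10 ln16_13_6_c10_ok) (L (nat_lit 369) ln16_14_6_c10 ln16_14_6_c10_ok))) (M (nat_lit 465) (B (L (nat_lit 433) ln16_10_4_c10 ln16_10_4_c10_ok) (L (nat_lit 497) ln16_11_4 ln16_11_4_ok))))) (B (M (nat_lit 304) (B (M (nat_lit 401) (B (L (nat_lit 433) ln16_9_4_c10 ln16_9_4_c10_ok) (M (nat_lit 273) (B (L (nat_lit 305) ln16_12_6_c10 ln16_12_6_c10_ok) (M (nat_lit 272) (B (L (nat_lit 241) ln16_11_6_c10 ln16_11_6_c10_ok) (L (nat_lit 369) ln16_8_4_c10 ln16_8_4_c10_ok))))))) (B (M (nat_lit 272) (B (M (nat_lit 271) (B (L (nat_lit 239) ln16_11_7_c10 ln16_11_7_c10_ok) (L (nat_lit 303) ln16_12_7_c10 ln16_12_7_c10_ok))) (M (nat_lit 401) (B (L (nat_lit 369) ln16_8_4_c10 ln16_8_4_c10_ok) (L (nat_lit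 433) ln16_9_4_c10 ln16_9_4_c10_ok))))) (M (nat_lit 305) (B (L (nat_lit 273) ln16_12_6_c10 ln16_12_6_c10_ok) (M (nat_lit 303) (B (L (nat_lit 271) ln16_12_7_c10 ln16_12_7_c10_ok) (M (nat_lit 306) (B (L (nat_lit 335) ln16_13_7 ln16_13_7_ok) (M (nat_lit 307) (B (M (nat_lit 275) (B (L (nat_lit 276) ln16_9_2_c10 ln16_9_2_c10_ok) (L (nat_lit 274) ln15_9_2_c10 ln15_9_2_c10_ok))) (M (nat_lit 339) (B (L (nat_lit 340) ln16_9_0_c10 ln16_9_0_c10_ok) (L (nat_lit 338) ln15_9_0_c10 ln15_9_0_c10_ok)))))))))))))) (B (M (nat_lit 305) (B (M (nat_lit 273) (B (L (nat_lit 304) ln16_12_6_c10 ln16_12_6_c10_ok) (L (nat_lit 337) ln16_13_6_c10 ln16_13_6_c10_ok))) (B (M (nat_lit 335) (B (L (nat_lit 337) ln16_13_6_c10 ln16_13_6_c10_ok) (L (nat_lit 303) ln16_13_7 ln16_13_7_ok))) (M (nat_lit 304) (B (L (nat_lit 273) ln16_12_6_c10 ln16_12_6_c10_ok) (M (nat_lit 303) (B (L (nat_lit 271) ln16_12_7_c10 ln16_12_7_c10_ok) (L (nat_lit 335) ln16_13_7 ln16_13_7_ok)))))))) (M (nat_lit 304) (B (M (nat_lit 272)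 (B (M (nat_lit 271) (B (L (nat_lit 239) ln16_11_7_c10 ln16_11_7_c10_ok) (L (nat_lit 303) ln16_12_7_c10 ln16_12_7_c10_ok))) (M (nat_lit 401) (B (L (nat_lit 369) ln16_8_4_c10 ln16_8_4_c10_ok) (L (nat_lit 433) ln16_9_4_c10 ln16_9_4_c10_ok))))) (B (M (nat_lit 303) (B (L (nat_lit 271) ln16_12_7_c10 ln16_12_7_c10_ok) (L (nat_lit 335) ln16_13_7 ln16_13_7_ok))) (B (M (nat_lit 272) (B (M (nat_lit 401) (B (L (nat_lit 369) ln16_8_4_c10 ln16_8_4_c10_ok) (L (nat_lit 433) ln16_9_4_c10 ln16_9_4_c10_ok))) (M (nat_lit 240) (B (M (nat_lit 241) (B (L (nat_lit 209) ln16_10_6_c10 ln16_10_6_c10_ok) (L (nat_lit 273) ln16_11_6_c10 ln16_11_6_c10_ok))) (M (nat_lit 335) (B (L (nat_lit 367) ln16_7_5_c10 ln16_7_5_c10_ok) (L (nat_lit 303) ln16_13_7 ln16_13_7_ok))))))) (M (nat_lit 272) (B (M (nat_lit 401) (B (L (nat_lit 369) ln16_8_4_c10 ln16_8_4_c10_ok) (L (nat_lit 433) ln16_9_4_c10 ln16_9_4_c10_ok))) (M (nat_lit 240) (B (M (nat_lit 239) (B (L (nat_lit 207) ln16_10_7_c10 ln16_10_7_c10_ok) (L (nat_lit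 271) ln16_11_7_c10 ln16_11_7_c10_ok))) (M (nat_lit 241) (B (L (nat_lit 209) ln16_10_6_c10 ln16_10_6_c10_ok) (L (nat_lit 273) ln16_11_6_c10 ln16_11_6_c10_ok)))))))))))))))))))) (B (M (nat_lit 399) (B (L (nat_lit 433) ln13_12_0 ln13_12_0_ok) (M (nat_lit 368) (B (L (nat_lit 369) ln13_12_2 ln13_12_2_ok) (L (nat_lit 367) ln12_12_2 ln12_12_2_ok))))) (B (M (nat_lit 368) (B (M (nat_lit 367) (B (L (nat_lit 399) ln12_12_2 ln12_12_2_ok) (M (nat_lit 335) (B (L (nat_lit 464) ln16_14_7 ln16_14_7_ok) (M (nat_lit 303) (B (L (nat_lit 271) ln15_8_4 ln15_8_4_ok) (L (nat_lit 336) ln16_13_7 ln16_13_7_ok))))))) (B (M (nat_lit 399) (B (L (nat_lit 369) ln13_12_2 ln13_12_2_ok) (L (nat_lit 367) ln12_12_2 ln12_12_2_ok))) (B (M (nat_lit 369) (B (L (nat_lit 399) ln13_12_2 ln13_12_2_ok) (M (nat_lit 337) (B (L (nat_lit 464) ln16_14_6_c10 ln16_14_6_c10_ok) (M (nat_lit 305) (B (L (nat_lit 336) ln16_13_6_c10 ln16_13_6_c10_ok) (L (nat_lit 401) ln17_9_5_c10 ln17_9_5_c10_ok))))))) (K (nat_lit 20839919916000529960733516074464993858627557732871582196439308328095118076698051585738300670515394396884459718884128599315807537027977576448)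 (nat_lit 2196735251957849304438208648995460201833898308352870173903514767816140216545464296209845483087356362146109557013837192180782890342746114536877403956578487369728) (nat_lit 2196735251957849304438208648995460201833898308352870173903514767816140216545464296209845483087356362146109557013837192180782890342746114536877403956578487369728) c10_s315))))) c10_d502))))
noncomputable def c10_d504 : Cert := (B (K (nat_lit 20839919904563267469095951813113740923923842236602619142678255823420359213551968398679428482866150393324134671525502006753894102043052736512) (nat_lit 11679847984920016893213392907279022744127394544147532068362599883532596589898219962363258685148190087087416269068426086589491025709891748350823922753191754974608659929786165228705343615029185871872) (nat_lit 11679847984920016893213392907279022744127394544147532068362599883532596589898219962363258685148190087087416269068426086589491025709891748350823922753191754974608659929786165228705343615029185871872) c10_s279)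 (B (M (nat_lit 459) (B (L (nat_lit 427) ln14_14_3 ln14_14_3_ok) (M (nat_lit 458) (B (L (nat_lit 425) ln13_14_3 ln13_14_3_ok) (M (nat_lit 490) (B (L (nat_lit 489) ln13_14_1 ln13_14_1_ok) (L (nat_lit 491) ln14_14_1 ln14_14_1_ok))))))) (B (M (nat_lit 362) (B (M (nat_lit 364) (B (L (nat_lit 332) ln13_14_7 ln13_14_7_ok) (M (nat_lit 363) (B (L (nat_lit 398) ln10_11_0 ln10_11_0_ok) (M (nat_lit 361) (B (L (nat_lit 396) ln9_11_0 ln9_11_0_ok) (M (nat_lit 329) (B (L (nat_lit 330) ln13_11_3 ln13_11_3_ok) (L (nat_lit 328) ln12_11_3 ln12_11_3_ok))))))))) (B (M (nat_lit 364) (B (L (nat_lit 332) ln13_14_7 ln13_14_7_ok) (M (nat_lit 363) (B (L (nat_lit 398) ln10_11_0 ln10_11_0_ok) (M (nat_lit 393) (B (L (nat_lit 394) ln13_11_1 ln13_11_1_ok) (M (nat_lit 361) (B (L (nat_lit 392) ln12_11_1 ln12_11_1_ok) (M (nat_lit 329) (B (L (nat_lit 328) ln12_11_3 ln12_11_3_ok) (L (nat_lit 330) ln13_11_3 ln13_11_3_ok))))))))))) c10_d498))) (B (K (nat_lit 20839919904563267469095951813113740923923842236602619142678255823420359213551968398679428482866150393324134671525502006753894102043052736512)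 (nat_lit 206388570155481626333611798587278201085250825182292669546331102288215485137492531417791539586582219248158799521210985734061987667995157806379204295648705789010018041856) (nat_lit 206388570155481626333611798587278201085250825182292669546331102288215485137492531417791539586582219248158799521210985734061987667995157806379204295648705789010018041856) c10_s314) (B (M (nat_lit 427) (B (L (nat_lit 459) ln14_14_3 ln14_14_3_ok) (M (nat_lit 333) (B (M (nat_lit 300) (B (M (nat_lit 268) (B (L (nat_lit 301) ln13_12_7 ln13_12_7_ok) (L (nat_lit 332) ln13_13_7 ln13_13_7_ok))) (B (M (nat_lit 334) (B (L (nat_lit 332) ln13_13_7 ln13_13_7_ok) (L (nat_lit 302) ln13_13_6 ln13_13_6_ok))) (M (nat_lit 301) (B (L (nat_lit 268) ln13_12_7 ln13_12_7_ok) (M (nat_lit 302) (B (L (nat_lit 270) ln13_12_6 ln13_12_6_ok) (L (nat_lit 334) ln13_13_6 ln13_13_6_ok)))))))) (B (M (nat_lit 301) (B (M (nat_lit 269) (B (M (nat_lit 270) (B (L (nat_lit 238) ln13_11_6 ln13_11_6_ok) (L (nat_lit 302) ln13_12_6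 ln13_12_6_ok))) (M (nat_lit 268) (B (L (nat_lit 236) ln13_11_7 ln13_11_7_ok) (L (nat_lit 300) ln13_12_7 ln13_12_7_ok))))) (B (M (nat_lit 300) (B (L (nat_lit 268) ln13_12_7 ln13_12_7_ok) (L (nat_lit 332) ln13_13_7 ln13_13_7_ok))) (M (nat_lit 269) (B (M (nat_lit 270) (B (L (nat_lit 238) ln13_11_6 ln13_11_6_ok) (L (nat_lit 302) ln13_12_6 ln13_12_6_ok))) (M (nat_lit 364) (B (L (nat_lit 396) ln13_8_5 ln13_8_5_ok) (L (nat_lit 332) ln13_14_7 ln13_14_7_ok)))))))) (B (M (nat_lit 332) (B (L (nat_lit 300) ln13_13_7 ln13_13_7_ok) (L (nat_lit 364) ln13_14_7 ln13_14_7_ok))) (B (M (nat_lit 302) (B (L (nat_lit 334) ln13_13_6 ln13_13_6_ok) (M (nat_lit 301) (B (L (nat_lit 270) ln13_12_6 ln13_12_6_ok) (M (nat_lit 268) (B (L (nat_lit 300) ln13_12_7 ln13_12_7_ok) (M (nat_lit 269) (B (L (nat_lit 236) ln13_11_7 ln13_11_7_ok) (M (nat_lit 396) (B (L (nat_lit 364) ln13_8_5 ln13_8_5_ok) (M (nat_lit 395) (B (L (nat_lit 398) ln14_12_1 ln14_12_1_ok) (M (nat_lit 425) (B (L (nat_lit 424) ln8_13_2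 ln8_13_2_ok) (L (nat_lit 394) ln13_12_1 ln13_12_1_ok))))))))))))))) (M (nat_lit 302) (B (L (nat_lit 334) ln13_13_6 ln13_13_6_ok) (M (nat_lit 301) (B (L (nat_lit 270) ln13_12_6 ln13_12_6_ok) (M (nat_lit 364) (B (L (nat_lit 332) ln13_14_7 ln13_14_7_ok) (M (nat_lit 396) (B (L (nat_lit 269) ln13_8_5 ln13_8_5_ok) (M (nat_lit 395) (B (L (nat_lit 398) ln14_12_1 ln14_12_1_ok) (M (nat_lit 425) (B (L (nat_lit 424) ln8_13_2 ln8_13_2_ok) (L (nat_lit 394) ln13_12_1 ln13_12_1_ok)))))))))))))))))))) (M (nat_lit 427) (B (L (nat_lit 459) ln14_14_3 ln14_14_3_ok) (M (nat_lit 396) (B (M (nat_lit 364) (B (L (nat_lit 332) ln13_14_7 ln13_14_7_ok) (M (nat_lit 398) (B (L (nat_lit 395) ln14_12_1 ln14_12_1_ok) (M (nat_lit 399) (B (L (nat_lit 400) ln16_12_3 ln16_12_3_ok) (L (nat_lit 363) ln15_12_3 ln15_12_3_ok))))))) (B (M (nat_lit 364) (B (L (nat_lit 332) ln13_14_7 ln13_14_7_ok) (M (nat_lit 398) (B (L (nat_lit 395) ln14_12_1 ln14_12_1_ok) (M (nat_lit 363) (B (L (nat_lit 362) ln10_11_0 ln10_11_0_ok)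 (L (nat_lit 399) ln15_12_3 ln15_12_3_ok))))))) (B (M (nat_lit 333) (B (M (nat_lit 332) (B (L (nat_lit 364) ln13_14_7 ln13_14_7_ok) (L (nat_lit 300) ln13_13_7 ln13_13_7_ok))) (B (M (nat_lit 301) (B (M (nat_lit 300) (B (L (nat_lit 332) ln13_13_7 ln13_13_7_ok) (L (nat_lit 268) ln13_12_7 ln13_12_7_ok))) (M (nat_lit 302) (B (L (nat_lit 334) ln13_13_6 ln13_13_6_ok) (L (nat_lit 270) ln13_12_6 ln13_12_6_ok))))) (B (M (nat_lit 301) (B (M (nat_lit 302) (B (L (nat_lit 334) ln13_13_6 ln13_13_6_ok) (L (nat_lit 270) ln13_12_6 ln13_12_6_ok))) (M (nat_lit 268) (B (L (nat_lit 300) ln13_12_7 ln13_12_7_ok) (M (nat_lit 269) (B (L (nat_lit 364) ln13_8_5 ln13_8_5_ok) (L (nat_lit 236) ln13_11_7 ln13_11_7_ok))))))) (M (nat_lit 301) (B (M (nat_lit 364) (B (L (nat_lit 332) ln13_14_7 ln13_14_7_ok) (L (nat_lit 269) ln13_8_5 ln13_8_5_ok))) (M (nat_lit 302) (B (L (nat_lit 334) ln13_13_6 ln13_13_6_ok) (L (nat_lit 270) ln13_12_6 ln13_12_6_ok))))))))) (M (nat_lit 398) (B (L (nat_lit 395) ln14_12_1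 ln14_12_1_ok) (M (nat_lit 432) (B (M (nat_lit 431) (B (L (nat_lit 399) ln12_12_0 ln12_12_0_ok) (L (nat_lit 463) ln12_14_2 ln12_14_2_ok))) (B (M (nat_lit 400) c10_d503) (B (M (nat_lit 399) (B (L (nat_lit 431) ln12_12_0 ln12_12_0_ok) (M (nat_lit 400) (B (L (nat_lit 433) ln13_12_0 ln13_12_0_ok) (M (nat_lit 368) (B (L (nat_lit 369) ln13_12_2 ln13_12_2_ok) (L (nat_lit 367) ln12_12_2 ln12_12_2_ok))))))) (M (nat_lit 463) (B (L (nat_lit 431) ln12_14_2 ln12_14_2_ok) (M (nat_lit 464) (B (L (nat_lit 433) ln13_14_2 ln13_14_2_ok) (M (nat_lit 496) (B (L (nat_lit 497) ln13_14_0 ln13_14_0_ok) (L (nat_lit 495) ln12_14_0 ln12_14_0_ok))))))))))))))))))))))))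
noncomputable def c10_d505 : Cert := (B (M (nat_lit 425) (B (K (nat_lit 20839919904649913397037227277475566367178313602335007801283750091394436700446175314548354283586149593514889033341045482096437963662708178944) (nat_lit 633165827977536177515123223980649897206942381509220890934654698382347800410367055854896227656410230174679819115563063848434860845431545353662402164716430642226354742083442442240) (nat_lit 633165827977536177515123223980649897206942381509220890934654698382347800410367055854896227656410230174679819115563063848434860845431545353662402164716430642226354742083442442240) c10_s173) (B (K (nat_lit 20839919904649913397037227277475566367178313602335007801283750091394436700446175314548354283586149593514889033341045482096437963662708178944) (nat_lit 3432398831264056303394022565511624519141729936427894433263270770187666515863004631326087489382769587827903738531188286663913408113620173763559673410160164864) (nat_lit 3432398831264056303394022565511624519141729936427894433263270770187666515863004631326087489382769587827903738531188286663913408113620173763559673410160164864)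 c10_s218) (B (M (nat_lit 458) (B (L (nat_lit 459) ln13_14_3 ln13_14_3_ok) (M (nat_lit 394) (B (M (nat_lit 362) (B (M (nat_lit 331) (B (L (nat_lit 363) ln10_14_6 ln10_14_6_ok) (M (nat_lit 330) (B (L (nat_lit 299) ln10_13_6 ln10_13_6_ok) (M (nat_lit 329) (B (L (nat_lit 361) ln10_14_7 ln10_14_7_ok) (L (nat_lit 297) ln10_13_7_c10 ln10_13_7_c10_ok))))))) (B (M (nat_lit 330) (B (L (nat_lit 457) ln10_10_5 ln10_10_5_ok) (M (nat_lit 329) (B (L (nat_lit 361) ln10_14_7 ln10_14_7_ok) (L (nat_lit 297) ln10_13_7_c10 ln10_13_7_c10_ok))))) (B (M (nat_lit 330) (B (L (nat_lit 457) ln10_10_5 ln10_10_5_ok) (M (nat_lit 331) (B (L (nat_lit 363) ln10_14_6 ln10_14_6_ok) (L (nat_lit 299) ln10_13_6 ln10_13_6_ok))))) (M (nat_lit 490) (B (M (nat_lit 489) (B (L (nat_lit 521) ln10_12_5 ln10_12_5_ok) (L (nat_lit 457) ln10_11_5 ln10_11_5_ok))) (M (nat_lit 363) (B (L (nat_lit 395) ln10_15_6 ln10_15_6_ok) (L (nat_lit 331) ln10_14_6 ln10_14_6_ok))))))))) (B (M (nat_lit 362) (B (M (nat_lit 330) (B (L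 (nat_lit 457) ln10_10_5 ln10_10_5_ok) (M (nat_lit 331) (B (L (nat_lit 363) ln10_14_6 ln10_14_6_ok) (L (nat_lit 299) ln10_13_6 ln10_13_6_ok))))) (B (M (nat_lit 329) (B (L (nat_lit 361) ln10_14_7 ln10_14_7_ok) (M (nat_lit 330) (B (L (nat_lit 297) ln10_13_7_c10 ln10_13_7_c10_ok) (M (nat_lit 331) (B (L (nat_lit 363) ln10_14_6 ln10_14_6_ok) (L (nat_lit 299) ln10_13_6 ln10_13_6_ok))))))) (B (M (nat_lit 330) (B (L (nat_lit 457) ln10_10_5 ln10_10_5_ok) (M (nat_lit 329) (B (L (nat_lit 361) ln10_14_7 ln10_14_7_ok) (L (nat_lit 297) ln10_13_7_c10 ln10_13_7_c10_ok))))) (M (nat_lit 490) (B (M (nat_lit 489) (B (L (nat_lit 521) ln10_12_5 ln10_12_5_ok) (L (nat_lit 457) ln10_11_5 ln10_11_5_ok))) (M (nat_lit 361) (B (L (nat_lit 393) ln10_15_7 ln10_15_7_ok) (L (nat_lit 329) ln10_14_7 ln10_14_7_ok))))))))) c10_d491))))) (B (K (nat_lit 20839919904649913397037227277475566367178313602335007801283750091394436700446175314548354283586149593514889033341045482096437963662708178944) (nat_lit 36855101816911260676009585159474608547851951887550672478873039773299018032961115438061271145451821385182824287882260718251789979978490657439284327659462346589515808768)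 (nat_lit 36855101816911260676009585159474608547851951887550672478873039773299018032961115438061271145451821385182824287882260718251789979978490657439284327659462346589515808768) c10_s190) c10_d492))))) (B (M (nat_lit 425) (B (M (nat_lit 459) (B (L (nat_lit 458) ln13_14_3 ln13_14_3_ok) (L (nat_lit 427) ln14_14_3 ln14_14_3_ok))) (B (K (nat_lit 20839919904649913397037227277475566367178313602335007801283750091394436700446175314548354283586149593514889033341045482096437963662708178944) (nat_lit 633165827977536177515123223980649897206942381509220890934654698382347800410367055854896227656410230174679819115563063848434860845431545353662402164716430642226354742083442442240) (nat_lit 633165827977536177515123223980649897206942381509220890934654698382347800410367055854896227656410230174679819115563063848434860845431545353662402164716430642226354742083442442240) c10_s173) (B (K (nat_lit 20839919904649913397037227277475566367178313602335007801283750091394436700446175314548354283586149593514889033341045482096437963662708178944)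 (nat_lit 36855101816911260676009585159474608547851951887550672478873039773299018032961115438061271145451821385182824287882260718251789979978490657439284327659462346589515808768) (nat_lit 36855101816911260676009585159474608547851951887550672478873039773299018032961115438061271145451821385182824287882260718251789979978490657439284327659462346589515808768) c10_s190) (M (nat_lit 424) (B (K (nat_lit 20839919904693236361007865009656479088805549285201202130586497225381475443893278772482817183946149193610266214248817219767709894472535900160) (nat_lit 348882588040967242518189041345530454421913611160648173849502977187054753920049571190280267374516964976334703792620843256661591003112669184) (nat_lit 348882588040967242518189041345530454421913611160648173849502977187054753920049571190280267374516964976334703792620843256661591003112669184) c10_s186) (B (K (nat_lit 20839919904693236361007865009656479088805549285201202130586497225381475443893278772482817183946149193610266214248817219767709894472535900160)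 (nat_lit 162811874621291878547649060112478280305724857090331515551541899450050250510014465930262263165296778109301550422667240109723229751705862144) (nat_lit 162811874621291878547649060112478280305724857090331515551541899450050250510014465930262263165296778109301550422667240109723229751705862144) c10_s213) (B (K (nat_lit 20839919904693236361007865009656479088805549285201202130586497225381475443893278772482817183946149193610266214248817219767709894472535900160) (nat_lit 3432398831264056301161174004085613475477076991587298222230268416110288228807935921507988435722563836175888251122457637738503478989216221645550051670309732352) (nat_lit 3432398831264056301161174004085613475477076991587298222230268416110288228807935921507988435722563836175888251122457637738503478989216221645550051670309732352) c10_s187) (B (K (nat_lit 20839919904693236361007865009656479088805549285201202130586497225381475443893278772482817183946149193610266214248817219767709894472535900160) (nat_lit 1716199417030571501668734242724057760579248164654205688169727520667871733086561579786291902442091470149943655289166821044159139298099986590543574800560816128)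 (nat_lit 1716199417030571501668734242724057760579248164654205688169727520667871733086561579786291902442091470149943655289166821044159139298099986590543574800560816128) c10_s188) (B (K (nat_lit 20839919904693236361007865009656479088805549285201202130586497225381475443893278772482817183946149193610266214248817219767709894472535900160) (nat_lit 348882588040967242527015090733522817765464116143080343341840838783639013973669988912831309051332340153291499433715064360202275672941395968) (nat_lit 348882588040967242527015090733522817765464116143080343341840838783639013973669988912831309051332340153291499433715064360202275672941395968) c10_s214) (B (K (nat_lit 20839919904693236361007865009656479088805549285201202130586497225381475443893278772482817183946149193610266214248817219767709894472535900160) (nat_lit 3432398830864472486697468159627062580217372803967572674277187775352950106319540446025026171594251954878611979073127778382679454215165027402264764468214890496) (nat_lit 3432398830864472486697468159627062580217372803967572674277187775352950106319540446025026171594251954878611979073127778382679454215165027402264764468214890496)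 c10_s215) (B (K (nat_lit 20839919904693236361007865009656479088805549285201202130586497225381475443893278772482817183946149193610266214248817219767709894472535900160) (nat_lit 36855101816911260676009585157986042840418733788474607708585466461455651760342515413488559319970721283941857872812403959388100198707426022218198531060949230217039183872) (nat_lit 36855101816911260676009585157986042840418733788474607708585466461455651760342515413488559319970721283941857872812403959388100198707426022218198531060949230217039183872) c10_s189) (B (K (nat_lit 20839919904693236361007865009656479088805549285201202130586497225381475443893278772482817183946149193610266214248817219767709894472535900160) (nat_lit 6864797661728944974046183815870989852348854956101813851731170888977178239851020618832727574816994682835494864257983504075366994303267796574737341810976227328) (nat_lit 6864797661728944974046183815870989852348854956101813851731170888977178239851020618832727574816994682835494864257983504075366994303267796574737341810976227328)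 c10_s216) (K (nat_lit 20839919904693236361007865009656479088805549285201202130586497225381475443893278772482817183946149193610266214248817219767709894472535900160) (nat_lit 6864797661728944974208995690113205795823077439680734504082836048788705315861736561852606515300775399938010617941051167584021003501977199328308407905957183488) (nat_lit 6864797661728944974208995690113205795823077439680734504082836048788705315861736561852606515300775399938010617941051167584021003501977199328308407905957183488) c10_s217)))))))))))))) (B (M (nat_lit 425) c10_d495) c10_d504)))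
noncomputable def c10_d506 : Cert := (B (M (nat_lit 425) (B (K (nat_lit 20839919904649913397037227277475566367178313602335007801283750091394436700446175314548354283586149593514889033341045482096437963662708178944) (nat_lit 633165827977536177515123223980649897206942381509220890934654698382347800410367055854896227656410230174679819115563063848434860845431545353662402164716430642226354742083442442240) (nat_lit 633165827977536177515123223980649897206942381509220890934654698382347800410367055854896227656410230174679819115563063848434860845431545353662402164716430642226354742083442442240) c10_s173) (B (K (nat_lit 20839919904649913397037227277475566367178313602335007801283750091394436700446175314548354283586149593514889033341045482096437963662708178944) (nat_lit 126633165760618091594458917095671159886800535210621147855596411318717348825432262284367994573982915108664366075440069278117511244570443879541203828402964207251484884079327838208) (nat_lit 126633165760618091594458917095671159886800535210621147855596411318717348825432262284367994573982915108664366075440069278117511244570443879541203828402964207251484884079327838208)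 c10_s182) (B (K (nat_lit 20839919904649913397037227277475566367178313602335007801283750091394436700446175314548354283586149593514889033341045482096437963662708178944) (nat_lit 506532662423306655911390789381050076151555769670017829474021363880975210119572578872006294701128963846275959467018177706450826948685784372300995671177246430584875619987700580352) (nat_lit 506532662423306655911390789381050076151555769670017829474021363880975210119572578872006294701128963846275959467018177706450826948685784372300995671177246430584875619987700580352) c10_s183) (B (K (nat_lit 20839919904649913397037227277475566367178313602335007801283750091394436700446175314548354283586149593514889033341045482096437963662708178944) (nat_lit 36855101816911260676009585159474608547851951887550672478873039773299018032961115438061271145451821385182824287882260718251789979978490657439284327659462346589515808768) (nat_lit 36855101816911260676009585159474608547851951887550672478873039773299018032961115438061271145451821385182824287882260718251789979978490657439284327659462346589515808768)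 c10_s190) (B (K (nat_lit 20839919904649913397037227277475566367178313602335007801283750091394436700446175314548354283586149593514889033341045482096437963662708178944) (nat_lit 126633165605826663977847697343664183781685496620349259659148576473242389724298885845723334832744471758580400577716111516222663129456987600776438228068066564343385866657022869504) (nat_lit 126633165605826663977847697343664183781685496620349259659148576473242389724298885845723334832744471758580400577716111516222663129456987600776438228068066564343385866657022869504) c10_s193) (B (K (nat_lit 20839919904649913397037227277475566367178313602335007801283750091394436700446175314548354283586149593514889033341045482096437963662708178944) (nat_lit 189949748388469689983087767326521856535318176091319443059551439308494313086782765606479972764764822005056732756436465379662484940823092576427777212166937343775584977274074562560) (nat_lit 189949748388469689983087767326521856535318176091319443059551439308494313086782765606479972764764822005056732756436465379662484940823092576427777212166937343775584977274074562560)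 c10_s207) (B (K (nat_lit 20839919904649913397037227277475566367178313602335007801283750091394436700446175314548354283586149593514889033341045482096437963662708178944) (nat_lit 12013395908025653705255328013670094550182488382413232063953026043649691217183922692240069386457706308502182398952578817530015760810858971604532958394314653696) (nat_lit 12013395908025653705255328013670094550182488382413232063953026043649691217183922692240069386457706308502182398952578817530015760810858971604532958394314653696) c10_s208) (B (K (nat_lit 20839919904649913397037227277475566367178313602335007801283750091394436700446175314548354283586149593514889033341045482096437963662708178944) (nat_lit 199017549792785853965381943683538802438328344809513888106948983881914983941348647620851767285381796809977147785444818346459749514692711951070492933676368749687170138112) (nat_lit 199017549792785853965381943683538802438328344809513888106948983881914983941348647620851767285381796809977147785444818346459749514692711951070492933676368749687170138112)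 c10_s211) c10_d489))))))))) (B (K (nat_lit 20839919904563267469095951813113740923923842236602619142678255823420359213551968398679428482866150393324134671525502006753894102043052736512) (nat_lit 728140702170849644789710194598512792926563851283568818843491149286363329706786968807877787900491069026138586445484499163217899191340916664521868816519010602366543456653937737728) (nat_lit 728140702170849644789710194598512792926563851283568818843491149286363329706786968807877787900491069026138586445484499163217899191340916664521868816519010602366543456653937737728) c10_s250) (B (M (nat_lit 425) (B (K (nat_lit 20839919904649913397037227277475566367178313602335007801283750091394436700446175314548354283586149593514889033341045482096437963662708178944) (nat_lit 633165827977536177515123223980649897206942381509220890934654698382347800410367055854896227656410230174679819115563063848434860845431545353662402164716430642226354742083442442240) (nat_lit 633165827977536177515123223980649897206942381509220890934654698382347800410367055854896227656410230174679819115563063848434860845431545353662402164716430642226354742083442442240)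 c10_s173) (B (K (nat_lit 20839919904649913397037227277475566367178313602335007801283750091394436700446175314548354283586149593514889033341045482096437963662708178944) (nat_lit 126633165760618091594458917095671159886800535210621147855596411318717348825432262284367994573982915108664366075440069278117511244570443879541203828402964207251484884079327838208) (nat_lit 126633165760618091594458917095671159886800535210621147855596411318717348825432262284367994573982915108664366075440069278117511244570443879541203828402964207251484884079327838208) c10_s182) (B (K (nat_lit 20839919904649913397037227277475566367178313602335007801283750091394436700446175314548354283586149593514889033341045482096437963662708178944) (nat_lit 3432398831264056303394022565511624519141729936427894433263270770187666515863004631326087489382769587827903738531188286663913408113620173763559673410160164864) (nat_lit 3432398831264056303394022565511624519141729936427894433263270770187666515863004631326087489382769587827903738531188286663913408113620173763559673410160164864)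 c10_s218) (B (K (nat_lit 20839919904649913397037227277475566367178313602335007801283750091394436700446175314548354283586149593514889033341045482096437963662708178944) (nat_lit 36855101816911260676009585159474608547851951887550672478873039773299018032961115438061271145451821385182824287882260718251789979978490657439284327659462346589515808768) (nat_lit 36855101816911260676009585159474608547851951887550672478873039773299018032961115438061271145451821385182824287882260718251789979978490657439284327659462346589515808768) c10_s190) c10_d490))))) c10_d505)))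
theorem c10_s317 : Sem (nat_lit 20839919904389975613213400884390090037414899505137841825467267287472204239763554566941576881426151992942625947894415056068806378803741851648) (nat_lit 11679848158963314436143293987386980414574610729742723305806834446397046734936389307522753692933107913417436131383856981630445748301815013260173576088151903028154861148912927544643742934672485646336) (nat_lit 11679848158963314436143293987386980414574610729742723305806834446397046734936389307522753692933107913417436131383856981630445748301815013260173576088151903028154861148912927544643742934672485646336) :=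
  sem_of_chk (M (nat_lit 426) c10_d506) (nat_lit 20839919904389975613213400884390090037414899505137841825467267287472204239763554566941576881426151992942625947894415056068806378803741851648) (nat_lit 11679848158963314436143293987386980414574610729742723305806834446397046734936389307522753692933107913417436131383856981630445748301815013260173576088151903028154861148912927544643742934672485646336) (nat_lit 11679848158963314436143293987386980414574610729742723305806834446397046734936389307522753692933107913417436131383856981630445748301815013260173576088151903028154861148912927544643742934672485646336) (by decide +kernel)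
noncomputable def c10_d507 : Cert := (B (M (nat_lit 432) (B (M (nat_lit 400) (B (M (nat_lit 367) (B (L (nat_lit 399) ln16_15_7 ln16_15_7_ok) (M (nat_lit 368) (B (L (nat_lit 335) ln16_14_7 ln16_14_7_ok) (M (nat_lit 369) (B (L (nat_lit 401) ln16_15_6_c10 ln16_15_6_c10_ok) (L (nat_lit 337) ln16_14_6_c10 ln16_14_6_c10_ok))))))) (B (M (nat_lit 368) (B (M (nat_lit 497) (B (L (nat_lit 529) ln16_12_4 ln16_12_4_ok) (L (nat_lit 465) ln16_11_4 ln16_11_4_ok))) (M (nat_lit 369) (B (L (nat_lit 401) ln16_15_6_c10 ln16_15_6_c10_ok) (L (nat_lit 337) ln16_14_6_c10 ln16_14_6_c10_ok))))) (B (M (nat_lit 368) (B (M (nat_lit 497) (B (L (nat_lit 529) ln16_12_4 ln16_12_4_ok) (L (nat_lit 465) ln16_11_4 ln16_11_4_ok))) (M (nat_lit 367) (B (L (nat_lit 399) ln16_15_7 ln16_15_7_ok) (L (nat_lit 335) ln16_14_7 ln16_14_7_ok))))) (M (nat_lit 529) (B (L (nat_lit 561) ln16_13_4_c10 ln16_13_4_c10_ok) (L (nat_lit 497) ln16_12_4 ln16_12_4_ok))))))) (B (M (nat_lit 400) (B (M (nat_lit 399) (B (L (nat_lit 367)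 ln16_15_7 ln16_15_7_ok) (L (nat_lit 431) ln16_16_7 ln16_16_7_ok))) (M (nat_lit 401) (B (L (nat_lit 369) ln16_15_6_c10 ln16_15_6_c10_ok) (L (nat_lit 433) ln16_16_6_c10 ln16_16_6_c10_ok))))) (B (M (nat_lit 400) (B (M (nat_lit 368) (B (M (nat_lit 367) (B (L (nat_lit 335) ln16_14_7 ln16_14_7_ok) (L (nat_lit 399) ln16_15_7 ln16_15_7_ok))) (M (nat_lit 497) (B (L (nat_lit 465) ln16_11_4 ln16_11_4_ok) (L (nat_lit 529) ln16_12_4 ln16_12_4_ok))))) (B (M (nat_lit 399) (B (L (nat_lit 367) ln16_15_7 ln16_15_7_ok) (L (nat_lit 431) ln16_16_7 ln16_16_7_ok))) (B (M (nat_lit 368) (B (M (nat_lit 497) (B (L (nat_lit 465) ln16_11_4 ln16_11_4_ok) (L (nat_lit 529) ln16_12_4 ln16_12_4_ok))) (M (nat_lit 336) (B (M (nat_lit 337) (B (L (nat_lit 305) ln16_13_6_c10 ln16_13_6_c10_ok) (L (nat_lit 369) ln16_14_6_c10 ln16_14_6_c10_ok))) (M (nat_lit 431) (B (L (nat_lit 463) ln16_10_5 ln16_10_5_ok) (L (nat_lit 399) ln16_16_7 ln16_16_7_ok))))))) (M (nat_lit 368) (B (M (nat_lit 497) (B (L (nat_lit 465)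 ln16_11_4 ln16_11_4_ok) (L (nat_lit 529) ln16_12_4 ln16_12_4_ok))) (M (nat_lit 336) (B (M (nat_lit 335) (B (L (nat_lit 303) ln16_13_7 ln16_13_7_ok) (L (nat_lit 367) ln16_14_7 ln16_14_7_ok))) (M (nat_lit 337) (B (L (nat_lit 305) ln16_13_6_c10 ln16_13_6_c10_ok) (L (nat_lit 369) ln16_14_6_c10 ln16_14_6_c10_ok))))))))))) (B (M (nat_lit 400) (B (M (nat_lit 399) (B (L (nat_lit 367) ln16_15_7 ln16_15_7_ok) (L (nat_lit 431) ln16_16_7 ln16_16_7_ok))) (M (nat_lit 529) (B (L (nat_lit 497) ln16_12_4 ln16_12_4_ok) (L (nat_lit 561) ln16_13_4_c10 ln16_13_4_c10_ok))))) (B (M (nat_lit 400) (B (M (nat_lit 529) (B (L (nat_lit 561) ln16_13_4_c10 ln16_13_4_c10_ok) (L (nat_lit 497) ln16_12_4 ln16_12_4_ok))) (M (nat_lit 401) (B (L (nat_lit 433) ln16_16_6_c10 ln16_16_6_c10_ok) (L (nat_lit 369) ln16_15_6_c10 ln16_15_6_c10_ok))))) (M (nat_lit 433) (B (L (nat_lit 401) ln16_16_6_c10 ln16_16_6_c10_ok) (M (nat_lit 431) (B (L (nat_lit 399) ln16_16_7 ln16_16_7_ok) (M (nat_lit 434) (B (M (nat_lit 435)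 (B (L (nat_lit 463) ln19_13_1_c10 ln19_13_1_c10_ok) (M (nat_lit 403) (B (L (nat_lit 402) ln15_13_2_c10 ln15_13_2_c10_ok) (L (nat_lit 404) ln16_13_2_c10 ln16_13_2_c10_ok))))) (B (M (nat_lit 435) (B (L (nat_lit 463) ln19_13_1_c10 ln19_13_1_c10_ok) (M (nat_lit 467) (B (L (nat_lit 468) ln16_13_0_c10 ln16_13_0_c10_ok) (L (nat_lit 466) ln15_13_0_c10 ln15_13_0_c10_ok))))) (M (nat_lit 466) (B (L (nat_lit 467) ln15_13_0_c10 ln15_13_0_c10_ok) (M (nat_lit 529) (B (L (nat_lit 561) ln16_13_4_c10 ln16_13_4_c10_ok) (M (nat_lit 402) (B (L (nat_lit 403) ln15_13_2_c10 ln15_13_2_c10_ok) (M (nat_lit 497) (B (L (nat_lit 498) ln18_12_5_c10 ln18_12_5_c10_ok) (L (nat_lit 465) ln17_16_6_c10 ln17_16_6_c10_ok)))))))))))))))))))))) (M (nat_lit 560) (B (M (nat_lit 591) (B (L (nat_lit 559) ln16_14_5_c10 ln16_14_5_c10_ok) (M (nat_lit 592) (B (L (nat_lit 623) ln16_15_5_c10 ln16_15_5_c10_ok) (M (nat_lit 593) (B (L (nat_lit 625) ln16_15_4_c10 ln16_15_4_c10_ok) (L (nat_lit 561) ln16_14_4_c10 ln16_14_4_c10_ok)))))))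 (B (M (nat_lit 592) (B (M (nat_lit 591) (B (L (nat_lit 623) ln16_15_5_c10 ln16_15_5_c10_ok) (L (nat_lit 559) ln16_14_5_c10 ln16_14_5_c10_ok))) (M (nat_lit 465) (B (L (nat_lit 497) ln16_18_6_c10 ln16_18_6_c10_ok) (L (nat_lit 433) ln16_17_6_c10 ln16_17_6_c10_ok))))) (B (M (nat_lit 592) (B (M (nat_lit 465) (B (L (nat_lit 433) ln16_17_6_c10 ln16_17_6_c10_ok) (L (nat_lit 497) ln16_18_6_c10 ln16_18_6_c10_ok))) (M (nat_lit 593) (B (L (nat_lit 561) ln16_14_4_c10 ln16_14_4_c10_ok) (L (nat_lit 625) ln16_15_4_c10 ln16_15_4_c10_ok))))) (M (nat_lit 465) (B (L (nat_lit 433) ln16_17_6_c10 ln16_17_6_c10_ok) (M (nat_lit 463) (B (L (nat_lit 431) ln16_17_7_c10 ln16_17_7_c10_ok) (M (nat_lit 561) (B (L (nat_lit 593) ln16_14_4_c10 ln16_14_4_c10_ok) (M (nat_lit 559) (B (L (nat_lit 591) ln16_14_5_c10 ln16_14_5_c10_ok) (M (nat_lit 466) (B (M (nat_lit 434) (B (L (nat_lit 435) ln15_14_2_c10 ln15_14_2_c10_ok) (M (nat_lit 529) (B (L (nat_lit 497) ln17_17_6_c10 ln17_17_6_c10_ok) (M (nat_lit 530)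 (B (L (nat_lit 531) ln19_16_1_c10 ln19_16_1_c10_ok) (L (nat_lit 498) ln18_13_5_c10 ln18_13_5_c10_ok))))))) (B (M (nat_lit 467) (B (M (nat_lit 435) (B (L (nat_lit 434) ln15_14_2_c10 ln15_14_2_c10_ok) (L (nat_lit 436) ln16_14_2_c10 ln16_14_2_c10_ok))) (M (nat_lit 500) (B (L (nat_lit 499) ln16_14_0_c10 ln16_14_0_c10_ok) (M (nat_lit 468) (B (L (nat_lit 497) ln20_14_1_c10 ln20_14_1_c10_ok) (L (nat_lit 501) ln17_14_0_c10 ln17_14_0_c10_ok))))))) (B (M (nat_lit 467) (B (M (nat_lit 499) (B (L (nat_lit 498) ln15_14_0_c10 ln15_14_0_c10_ok) (L (nat_lit 500) ln16_14_0_c10 ln16_14_0_c10_ok))) (M (nat_lit 436) (B (L (nat_lit 435) ln16_14_2_c10 ln16_14_2_c10_ok) (M (nat_lit 468) (B (L (nat_lit 437) ln17_14_2_c10 ln17_14_2_c10_ok) (L (nat_lit 497) ln20_14_1_c10 ln20_14_1_c10_ok))))))) (B (M (nat_lit 435) (B (L (nat_lit 434) ln15_14_2_c10 ln15_14_2_c10_ok) (M (nat_lit 467) (B (L (nat_lit 436) ln16_14_2_c10 ln16_14_2_c10_ok) (M (nat_lit 499) (B (L (nat_lit 500) ln16_14_0_c10 ln16_14_0_c10_ok)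 (L (nat_lit 498) ln15_14_0_c10 ln15_14_0_c10_ok))))))) (M (nat_lit 499) (B (L (nat_lit 498) ln15_14_0_c10 ln15_14_0_c10_ok) (M (nat_lit 467) (B (L (nat_lit 500) ln16_14_0_c10 ln16_14_0_c10_ok) (M (nat_lit 468) (B (L (nat_lit 497) ln20_14_1_c10 ln20_14_1_c10_ok) (M (nat_lit 436) (B (L (nat_lit 437) ln17_14_2_c10 ln17_14_2_c10_ok) (M (nat_lit 531) (B (L (nat_lit 563) ln19_17_6_c10 ln19_17_6_c10_ok) (M (nat_lit 530) (B (L (nat_lit 529) ln19_16_1_c10 ln19_16_1_c10_ok) (L (nat_lit 562) ln15_17_2_c10 ln15_17_2_c10_ok)))))))))))))))))))))))))))))))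
noncomputable def c10_d508 : Cert := (B (M (nat_lit 560) (B (M (nat_lit 592) (B (M (nat_lit 465) (B (L (nat_lit 433) ln16_17_6_c10 ln16_17_6_c10_ok) (L (nat_lit 497) ln16_18_6_c10 ln16_18_6_c10_ok))) (M (nat_lit 591) (B (L (nat_lit 559) ln16_14_5_c10 ln16_14_5_c10_ok) (L (nat_lit 623) ln16_15_5_c10 ln16_15_5_c10_ok))))) (B (M (nat_lit 593) (B (L (nat_lit 561) ln16_14_4_c10 ln16_14_4_c10_ok) (M (nat_lit 592) (B (L (nat_lit 625) ln16_15_4_c10 ln16_15_4_c10_ok) (M (nat_lit 591) (B (L (nat_lit 559) ln16_14_5_c10 ln16_14_5_c10_ok) (L (nat_lit 623) ln16_15_5_c10 ln16_15_5_c10_ok))))))) (B (M (nat_lit 592) (B (M (nat_lit 465) (B (L (nat_lit 433) ln16_17_6_c10 ln16_17_6_c10_ok) (L (nat_lit 497) ln16_18_6_c10 ln16_18_6_c10_ok))) (M (nat_lit 593) (B (L (nat_lit 561) ln16_14_4_c10 ln16_14_4_c10_ok) (L (nat_lit 625) ln16_15_4_c10 ln16_15_4_c10_ok))))) (M (nat_lit 432) (B (M (nat_lit 433) (B (L (nat_lit 401) ln16_16_6_c10 ln16_16_6_c10_ok) (L (nat_lit 465) ln16_17_6_c10 ln16_17_6_c10_ok)))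 (M (nat_lit 561) (B (L (nat_lit 529) ln16_13_4_c10 ln16_13_4_c10_ok) (L (nat_lit 593) ln16_14_4_c10 ln16_14_4_c10_ok))))))))) (B (M (nat_lit 560) (B (M (nat_lit 592) (B (M (nat_lit 591) (B (L (nat_lit 623) ln16_15_5_c10 ln16_15_5_c10_ok) (L (nat_lit 559) ln16_14_5_c10 ln16_14_5_c10_ok))) (M (nat_lit 593) (B (L (nat_lit 625) ln16_15_4_c10 ln16_15_4_c10_ok) (L (nat_lit 561) ln16_14_4_c10 ln16_14_4_c10_ok))))) (B (M (nat_lit 432) (B (M (nat_lit 561) (B (L (nat_lit 593) ln16_14_4_c10 ln16_14_4_c10_ok) (L (nat_lit 529) ln16_13_4_c10 ln16_13_4_c10_ok))) (M (nat_lit 431) (B (L (nat_lit 463) ln16_17_7_c10 ln16_17_7_c10_ok) (L (nat_lit 399) ln16_16_7 ln16_16_7_ok))))) (B (M (nat_lit 529) (B (M (nat_lit 431) (B (L (nat_lit 463) ln16_17_7_c10 ln16_17_7_c10_ok) (M (nat_lit 432) (B (L (nat_lit 561) ln16_13_4_c10 ln16_13_4_c10_ok) (L (nat_lit 399) ln16_16_7 ln16_16_7_ok))))) (M (nat_lit 592) (B (M (nat_lit 591) (B (L (nat_lit 623) ln16_15_5_c10 ln16_15_5_c10_ok) (L (nat_lit 559)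 ln16_14_5_c10 ln16_14_5_c10_ok))) (M (nat_lit 497) (B (L (nat_lit 624) ln16_19_6_c10 ln16_19_6_c10_ok) (L (nat_lit 465) ln16_18_6_c10 ln16_18_6_c10_ok))))))) (M (nat_lit 592) (B (M (nat_lit 591) (B (L (nat_lit 623) ln16_15_5_c10 ln16_15_5_c10_ok) (L (nat_lit 559) ln16_14_5_c10 ln16_14_5_c10_ok))) (M (nat_lit 624) (B (M (nat_lit 625) (B (L (nat_lit 657) ln16_16_4_c10 ln16_16_4_c10_ok) (L (nat_lit 593) ln16_15_4_c10 ln16_15_4_c10_ok))) (M (nat_lit 497) (B (L (nat_lit 529) ln16_19_6_c10 ln16_19_6_c10_ok) (L (nat_lit 465) ln16_18_6_c10 ln16_18_6_c10_ok))))))))))) (B (M (nat_lit 432) (B (M (nat_lit 400) (B (M (nat_lit 529) (B (L (nat_lit 561) ln16_13_4_c10 ln16_13_4_c10_ok) (L (nat_lit 497) ln16_12_4 ln16_12_4_ok))) (M (nat_lit 401) (B (L (nat_lit 433) ln16_16_6_c10 ln16_16_6_c10_ok) (L (nat_lit 369) ln16_15_6_c10 ln16_15_6_c10_ok))))) (B (M (nat_lit 400) (B (M (nat_lit 401) (B (L (nat_lit 433) ln16_16_6_c10 ln16_16_6_c10_ok) (L (nat_lit 369) ln16_15_6_c10 ln16_15_6_c10_ok)))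 (M (nat_lit 399) (B (L (nat_lit 431) ln16_16_7 ln16_16_7_ok) (L (nat_lit 367) ln16_15_7 ln16_15_7_ok))))) (B (M (nat_lit 400) (B (M (nat_lit 529) (B (L (nat_lit 561) ln16_13_4_c10 ln16_13_4_c10_ok) (L (nat_lit 497) ln16_12_4 ln16_12_4_ok))) (M (nat_lit 399) (B (L (nat_lit 431) ln16_16_7 ln16_16_7_ok) (L (nat_lit 367) ln16_15_7 ln16_15_7_ok))))) (M (nat_lit 560) (B (M (nat_lit 433) (B (L (nat_lit 465) ln16_17_6_c10 ln16_17_6_c10_ok) (L (nat_lit 401) ln16_16_6_c10 ln16_16_6_c10_ok))) (M (nat_lit 431) (B (L (nat_lit 463) ln16_17_7_c10 ln16_17_7_c10_ok) (L (nat_lit 399) ln16_16_7 ln16_16_7_ok))))))))) (B (M (nat_lit 432) (B (M (nat_lit 401) (B (L (nat_lit 433) ln16_16_6_c10 ln16_16_6_c10_ok) (M (nat_lit 400) (B (L (nat_lit 369) ln16_15_6_c10 ln16_15_6_c10_ok) (M (nat_lit 399) (B (L (nat_lit 367) ln16_15_7 ln16_15_7_ok) (L (nat_lit 431) ln16_16_7 ln16_16_7_ok))))))) (B (M (nat_lit 560) (B (M (nat_lit 433) (B (L (nat_lit 401) ln16_16_6_c10 ln16_16_6_c10_ok) (L (nat_lit 465)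 ln16_17_6_c10 ln16_17_6_c10_ok))) (M (nat_lit 431) (B (L (nat_lit 399) ln16_16_7 ln16_16_7_ok) (L (nat_lit 463) ln16_17_7_c10 ln16_17_7_c10_ok))))) (B (M (nat_lit 400) (B (M (nat_lit 399) (B (L (nat_lit 431) ln16_16_7 ln16_16_7_ok) (L (nat_lit 367) ln16_15_7 ln16_15_7_ok))) (M (nat_lit 368) (B (M (nat_lit 497) (B (L (nat_lit 529) ln16_12_4 ln16_12_4_ok) (L (nat_lit 465) ln16_11_4 ln16_11_4_ok))) (M (nat_lit 369) (B (L (nat_lit 401) ln16_15_6_c10 ln16_15_6_c10_ok) (L (nat_lit 337) ln16_14_6_c10 ln16_14_6_c10_ok))))))) (B (M (nat_lit 400) (B (M (nat_lit 399) (B (L (nat_lit 367) ln16_15_7 ln16_15_7_ok) (L (nat_lit 431) ln16_16_7 ln16_16_7_ok))) (B (M (nat_lit 368) (B (M (nat_lit 497) (B (L (nat_lit 465) ln16_11_4 ln16_11_4_ok) (L (nat_lit 529) ln16_12_4 ln16_12_4_ok))) (M (nat_lit 336) (B (M (nat_lit 337) (B (L (nat_lit 305) ln16_13_6_c10 ln16_13_6_c10_ok) (L (nat_lit 369) ln16_14_6_c10 ln16_14_6_c10_ok))) (M (nat_lit 431) (B (L (nat_lit 463) ln16_10_5 ln16_10_5_ok) (L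 (nat_lit 399) ln16_16_7 ln16_16_7_ok))))))) (M (nat_lit 368) (B (M (nat_lit 497) (B (L (nat_lit 465) ln16_11_4 ln16_11_4_ok) (L (nat_lit 529) ln16_12_4 ln16_12_4_ok))) (M (nat_lit 336) (B (M (nat_lit 335) (B (L (nat_lit 303) ln16_13_7 ln16_13_7_ok) (L (nat_lit 367) ln16_14_7 ln16_14_7_ok))) (M (nat_lit 337) (B (L (nat_lit 305) ln16_13_6_c10 ln16_13_6_c10_ok) (L (nat_lit 369) ln16_14_6_c10 ln16_14_6_c10_ok)))))))))) (B (M (nat_lit 400) (B (M (nat_lit 401) (B (L (nat_lit 369) ln16_15_6_c10 ln16_15_6_c10_ok) (L (nat_lit 433) ln16_16_6_c10 ln16_16_6_c10_ok))) (M (nat_lit 368) (B (M (nat_lit 367) (B (L (nat_lit 335) ln16_14_7 ln16_14_7_ok) (L (nat_lit 399) ln16_15_7 ln16_15_7_ok))) (M (nat_lit 497) (B (L (nat_lit 465) ln16_11_4 ln16_11_4_ok) (L (nat_lit 529) ln16_12_4 ln16_12_4_ok))))))) (M (nat_lit 400) (B (M (nat_lit 401) (B (L (nat_lit 433) ln16_16_6_c10 ln16_16_6_c10_ok) (L (nat_lit 369) ln16_15_6_c10 ln16_15_6_c10_ok))) (B (M (nat_lit 368) (B (M (nat_lit 497) (B (L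 (nat_lit 529) ln16_12_4 ln16_12_4_ok) (L (nat_lit 465) ln16_11_4 ln16_11_4_ok))) (M (nat_lit 369) (B (L (nat_lit 401) ln16_15_6_c10 ln16_15_6_c10_ok) (L (nat_lit 337) ln16_14_6_c10 ln16_14_6_c10_ok))))) (M (nat_lit 497) (B (L (nat_lit 529) ln16_12_4 ln16_12_4_ok) (M (nat_lit 465) (B (L (nat_lit 368) ln16_11_4 ln16_11_4_ok) (M (nat_lit 560) (B (L (nat_lit 592) ln16_18_6_c10 ln16_18_6_c10_ok) (L (nat_lit 433) ln16_17_6_c10 ln16_17_6_c10_ok)))))))))))))))) c10_d507))))
noncomputable def c10_d509 : Cert := (B (M (nat_lit 527) (B (M (nat_lit 528) (B (L (nat_lit 529) ln17_16_3 ln17_16_3_ok) (M (nat_lit 496) (B (L (nat_lit 497) ln13_16_2 ln13_16_2_ok) (M (nat_lit 524) (B (L (nat_lit 495) ln16_15_1 ln16_15_1_ok) (M (nat_lit 560) (B (L (nat_lit 559) ln12_16_0 ln12_16_0_ok) (L (nat_lit 561) ln13_16_0 ln13_16_0_ok))))))))) (B (M (nat_lit 528) (B (L (nat_lit 529) ln17_16_3 ln17_16_3_ok) (M (nat_lit 496) (B (L (nat_lit 497) ln13_16_2 ln13_16_2_ok) (M (nat_lit 495) (B (L (nat_lit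 524) ln16_15_1 ln16_15_1_ok) (M (nat_lit 560) (B (L (nat_lit 561) ln13_16_0 ln13_16_0_ok) (M (nat_lit 592) (B (L (nat_lit 624) ln16_19_7_c10 ln16_19_7_c10_ok) (L (nat_lit 463) ln16_18_7_c10 ln16_18_7_c10_ok))))))))))) (B (M (nat_lit 528) (B (L (nat_lit 529) ln17_16_3 ln17_16_3_ok) (M (nat_lit 496) (B (L (nat_lit 497) ln13_16_2 ln13_16_2_ok) (M (nat_lit 495) (B (L (nat_lit 524) ln16_15_1 ln16_15_1_ok) (M (nat_lit 464) (B (L (nat_lit 465) ln13_15_2 ln13_15_2_ok) (M (nat_lit 559) (B (L (nat_lit 591) ln15_18_6_c10 ln15_18_6_c10_ok) (L (nat_lit 432) ln16_13_5_c10 ln16_13_5_c10_ok))))))))))) (B (M (nat_lit 528) (B (L (nat_lit 529) ln17_16_3 ln17_16_3_ok) (M (nat_lit 496) (B (L (nat_lit 497) ln13_16_2 ln13_16_2_ok) (M (nat_lit 495) (B (M (nat_lit 560) (B (L (nat_lit 561) ln13_16_0 ln13_16_0_ok) (M (nat_lit 592) (B (L (nat_lit 624) ln16_19_7_c10 ln16_19_7_c10_ok) (L (nat_lit 463) ln16_18_7_c10 ln16_18_7_c10_ok))))) (M (nat_lit 464) (B (L (nat_lit 465) ln13_15_2 ln13_15_2_ok)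 (M (nat_lit 559) (B (L (nat_lit 591) ln15_18_6_c10 ln15_18_6_c10_ok) (L (nat_lit 432) ln16_13_5_c10 ln16_13_5_c10_ok))))))))))) (B (M (nat_lit 495) (B (M (nat_lit 524) (B (L (nat_lit 523) ln11_16_2 ln11_16_2_ok) (L (nat_lit 496) ln16_15_1 ln16_15_1_ok))) (B (M (nat_lit 496) (B (L (nat_lit 524) ln16_15_1 ln16_15_1_ok) (L (nat_lit 497) ln17_15_1 ln17_15_1_ok))) (B (M (nat_lit 496) (B (L (nat_lit 497) ln17_15_1 ln17_15_1_ok) (M (nat_lit 464) (B (L (nat_lit 465) ln13_15_2 ln13_15_2_ok) (M (nat_lit 559) (B (L (nat_lit 591) ln15_18_6_c10 ln15_18_6_c10_ok) (M (nat_lit 432) (B (L (nat_lit 463) ln15_17_6 ln15_17_6_ok) (L (nat_lit 400) ln16_12_5_c10 ln16_12_5_c10_ok))))))))) (M (nat_lit 559) (B (M (nat_lit 591) (B (L (nat_lit 623) ln15_19_7 ln15_19_7_ok) (L (nat_lit 462) ln15_18_7 ln15_18_7_ok))) (M (nat_lit 524) (B (L (nat_lit 560) ln12_16_0 ln12_16_0_ok) (L (nat_lit 523) ln11_16_2 ln11_16_2_ok))))))))) (B (M (nat_lit 528) (B (L (nat_lit 529) ln17_16_3 ln17_16_3_ok) (M (nat_lit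 496) (B (L (nat_lit 497) ln13_16_2 ln13_16_2_ok) (M (nat_lit 560) (B (L (nat_lit 561) ln13_16_0 ln13_16_0_ok) (M (nat_lit 559) (B (L (nat_lit 524) ln12_16_0 ln12_16_0_ok) (M (nat_lit 591) (B (L (nat_lit 623) ln15_19_6_c10 ln15_19_6_c10_ok) (L (nat_lit 464) ln16_14_5_c10 ln16_14_5_c10_ok))))))))))) (M (nat_lit 528) (B (L (nat_lit 529) ln17_16_3 ln17_16_3_ok) (M (nat_lit 560) (B (L (nat_lit 561) ln13_16_0 ln13_16_0_ok) (M (nat_lit 559) (B (L (nat_lit 524) ln12_16_0 ln12_16_0_ok) (M (nat_lit 495) (B (M (nat_lit 591) (B (L (nat_lit 623) ln15_19_7 ln15_19_7_ok) (L (nat_lit 462) ln15_18_7 ln15_18_7_ok))) (M (nat_lit 592) (B (L (nat_lit 624) ln16_19_7_c10 ln16_19_7_c10_ok) (L (nat_lit 463) ln15_14_4_c10 ln15_14_4_c10_ok)))))))))))))))))) (M (nat_lit 589) (B (L (nat_lit 621) ln13_19_6_c10 ln13_19_6_c10_ok) (M (nat_lit 524) (B (M (nat_lit 523) (B (L (nat_lit 522) ln10_16_2 ln10_16_2_ok) (M (nat_lit 527) (B (M (nat_lit 491) (B (L (nat_lit 490) ln14_16_3 ln14_16_3_ok) (L (nat_lit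 492) ln11_15_0 ln11_15_0_ok))) (L (nat_lit 495) ln11_16_2 ln11_16_2_ok))))) (B (M (nat_lit 527) (B (M (nat_lit 492) (B (L (nat_lit 528) ln16_16_3 ln16_16_3_ok) (L (nat_lit 491) ln11_15_0 ln11_15_0_ok))) (B (M (nat_lit 523) (B (L (nat_lit 495) ln11_16_2 ln11_16_2_ok) (M (nat_lit 491) (B (L (nat_lit 492) ln11_15_0 ln11_15_0_ok) (L (nat_lit 490) ln14_16_3 ln14_16_3_ok))))) (M (nat_lit 528) (B (M (nat_lit 560) (B (L (nat_lit 561) ln13_16_0 ln13_16_0_ok) (L (nat_lit 559) ln12_16_0 ln12_16_0_ok))) (M (nat_lit 496) (B (L (nat_lit 497) ln13_16_2 ln13_16_2_ok) (L (nat_lit 495) ln16_15_1 ln16_15_1_ok)))))))) (B (M (nat_lit 527) (B (M (nat_lit 496) (B (L (nat_lit 495) ln16_15_1 ln16_15_1_ok) (M (nat_lit 528) (B (L (nat_lit 497) ln13_16_2 ln13_16_2_ok) (M (nat_lit 560) (B (L (nat_lit 559) ln12_16_0 ln12_16_0_ok) (L (nat_lit 561) ln13_16_0 ln13_16_0_ok))))))) (B (M (nat_lit 523) (B (L (nat_lit 522) ln10_16_2 ln10_16_2_ok) (L (nat_lit 495) ln11_16_2 ln11_16_2_ok))) (M (nat_lit 528)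 (B (M (nat_lit 560) (B (L (nat_lit 559) ln12_16_0 ln12_16_0_ok) (L (nat_lit 561) ln13_16_0 ln13_16_0_ok))) (L (nat_lit 529) ln17_16_3 ln17_16_3_ok)))))) (B (M (nat_lit 527) (B (M (nat_lit 492) (B (L (nat_lit 528) ln16_16_3 ln16_16_3_ok) (L (nat_lit 491) ln11_15_0 ln11_15_0_ok))) (B (M (nat_lit 523) (B (M (nat_lit 491) (B (L (nat_lit 492) ln11_15_0 ln11_15_0_ok) (L (nat_lit 490) ln14_16_3 ln14_16_3_ok))) (L (nat_lit 522) ln10_16_2 ln10_16_2_ok))) (M (nat_lit 528) (B (M (nat_lit 560) (B (L (nat_lit 561) ln13_16_0 ln13_16_0_ok) (L (nat_lit 559) ln12_16_0 ln12_16_0_ok))) (L (nat_lit 529) ln17_16_3 ln17_16_3_ok)))))) (B (M (nat_lit 523) (B (L (nat_lit 495) ln11_16_2 ln11_16_2_ok) (L (nat_lit 522) ln10_16_2 ln10_16_2_ok))) (M (nat_lit 496) (B (L (nat_lit 495) ln16_15_1 ln16_15_1_ok) (M (nat_lit 588) (B (L (nat_lit 620) ln13_15_5_c10 ln13_15_5_c10_ok) (M (nat_lit 528) (B (M (nat_lit 527) (B (L (nat_lit 529) ln17_16_3 ln17_16_3_ok) (M (nat_lit 560) (B (L (nat_lit 559) ln12_16_0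 ln12_16_0_ok) (L (nat_lit 561) ln13_16_0 ln13_16_0_ok))))) (B (M (nat_lit 527) (B (L (nat_lit 492) ln16_16_3 ln16_16_3_ok) (M (nat_lit 560) (B (L (nat_lit 559) ln12_16_0 ln12_16_0_ok) (L (nat_lit 561) ln13_16_0 ln13_16_0_ok))))) (B (M (nat_lit 527) (B (L (nat_lit 497) ln13_16_2 ln13_16_2_ok) (L (nat_lit 492) ln16_16_3 ln16_16_3_ok))) (M (nat_lit 464) (B (M (nat_lit 560) (B (M (nat_lit 431) (B (L (nat_lit 463) ln16_17_7_c10 ln16_17_7_c10_ok) (M (nat_lit 432) (B (L (nat_lit 399) ln16_16_7 ln16_16_7_ok) (M (nat_lit 433) (B (L (nat_lit 401) ln16_16_6_c10 ln16_16_6_c10_ok) (L (nat_lit 465) ln16_17_6_c10 ln16_17_6_c10_ok))))))) (M (nat_lit 591) (B (L (nat_lit 559) ln16_14_5_c10 ln16_14_5_c10_ok) (M (nat_lit 592) (B (L (nat_lit 623) ln16_15_5_c10 ln16_15_5_c10_ok) (M (nat_lit 593) (B (L (nat_lit 561) ln16_14_4_c10 ln16_14_4_c10_ok) (L (nat_lit 625) ln16_15_4_c10 ln16_15_4_c10_ok))))))))) (B (M (nat_lit 560) (B (M (nat_lit 432) (B (M (nat_lit 431) (B (L (nat_lit 399) ln16_16_7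 ln16_16_7_ok) (L (nat_lit 463) ln16_17_7_c10 ln16_17_7_c10_ok))) (M (nat_lit 561) (B (L (nat_lit 529) ln16_13_4_c10 ln16_13_4_c10_ok) (L (nat_lit 593) ln16_14_4_c10 ln16_14_4_c10_ok))))) (M (nat_lit 592) (B (M (nat_lit 465) (B (L (nat_lit 433) ln16_17_6_c10 ln16_17_6_c10_ok) (L (nat_lit 497) ln16_18_6_c10 ln16_18_6_c10_ok))) (M (nat_lit 591) (B (L (nat_lit 559) ln16_14_5_c10 ln16_14_5_c10_ok) (L (nat_lit 623) ln16_15_5_c10 ln16_15_5_c10_ok))))))) (B (M (nat_lit 432) (B (M (nat_lit 399) (B (L (nat_lit 431) ln16_16_7 ln16_16_7_ok) (M (nat_lit 400) (B (L (nat_lit 367) ln16_15_7 ln16_15_7_ok) (M (nat_lit 401) (B (L (nat_lit 433) ln16_16_6_c10 ln16_16_6_c10_ok) (L (nat_lit 369) ln16_15_6_c10 ln16_15_6_c10_ok))))))) (B (M (nat_lit 400) (B (M (nat_lit 529) (B (L (nat_lit 561) ln16_13_4_c10 ln16_13_4_c10_ok) (L (nat_lit 497) ln16_12_4 ln16_12_4_ok))) (M (nat_lit 401) (B (L (nat_lit 433) ln16_16_6_c10 ln16_16_6_c10_ok) (L (nat_lit 369) ln16_15_6_c10 ln16_15_6_c10_ok))))) (B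 (M (nat_lit 400) (B (M (nat_lit 529) (B (L (nat_lit 561) ln16_13_4_c10 ln16_13_4_c10_ok) (L (nat_lit 497) ln16_12_4 ln16_12_4_ok))) (M (nat_lit 399) (B (L (nat_lit 431) ln16_16_7 ln16_16_7_ok) (L (nat_lit 367) ln16_15_7 ln16_15_7_ok))))) (M (nat_lit 560) (B (M (nat_lit 561) (B (L (nat_lit 593) ln16_14_4_c10 ln16_14_4_c10_ok) (L (nat_lit 529) ln16_13_4_c10 ln16_13_4_c10_ok))) (M (nat_lit 431) (B (L (nat_lit 463) ln16_17_7_c10 ln16_17_7_c10_ok) (L (nat_lit 399) ln16_16_7 ln16_16_7_ok))))))))) (B (M (nat_lit 432) (B (M (nat_lit 400) (B (M (nat_lit 529) (B (L (nat_lit 561) ln16_13_4_c10 ln16_13_4_c10_ok) (L (nat_lit 497) ln16_12_4 ln16_12_4_ok))) (M (nat_lit 399) (B (L (nat_lit 431) ln16_16_7 ln16_16_7_ok) (L (nat_lit 367) ln16_15_7 ln16_15_7_ok))))) (B (M (nat_lit 401) (B (L (nat_lit 433) ln16_16_6_c10 ln16_16_6_c10_ok) (M (nat_lit 400) (B (L (nat_lit 369) ln16_15_6_c10 ln16_15_6_c10_ok) (M (nat_lit 399) (B (L (nat_lit 431) ln16_16_7 ln16_16_7_ok) (L (nat_lit 367) ln16_15_7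 ln16_15_7_ok))))))) (B (M (nat_lit 400) (B (M (nat_lit 529) (B (L (nat_lit 561) ln16_13_4_c10 ln16_13_4_c10_ok) (L (nat_lit 497) ln16_12_4 ln16_12_4_ok))) (M (nat_lit 401) (B (L (nat_lit 433) ln16_16_6_c10 ln16_16_6_c10_ok) (L (nat_lit 369) ln16_15_6_c10 ln16_15_6_c10_ok))))) (M (nat_lit 560) (B (M (nat_lit 561) (B (L (nat_lit 593) ln16_14_4_c10 ln16_14_4_c10_ok) (L (nat_lit 529) ln16_13_4_c10 ln16_13_4_c10_ok))) (M (nat_lit 433) (B (L (nat_lit 465) ln16_17_6_c10 ln16_17_6_c10_ok) (L (nat_lit 401) ln16_16_6_c10 ln16_16_6_c10_ok))))))))) c10_d508))))))))))))))))))))))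
noncomputable def c10_d510 : Cert := (B (M (nat_lit 557) (B (K (nat_lit 471745303212529431617857442193386895340211435029272104790018930303222451192294239345893258764852856991824633796569317721443457359206950307872383534307218333799242792960) (nat_lit 93438783879360135144947344263270438302547073792522948074981783728210723703681086374960360216701645432528127264321153449106758372121184146557842859939491790443522076370759345182584502126084936957952) (nat_lit 93438783879360135144947344263270438302547073792522948074981783728210723703681086374960360216701645432528127264321153449106758372121184146557842859939491790443522076370759345182584502126084936957952) c10_s505) (B (M (nat_lit 589) (B (M (nat_lit 621) (B (M (nat_lit 622) (B (L (nat_lit 654) ln13_16_4_c10 ln13_16_4_c10_ok) (L (nat_lit 590) ln13_15_4_c10 ln13_15_4_c10_ok))) (M (nat_lit 620) (B (L (nat_lit 652) ln13_16_5_c10 ln13_16_5_c10_ok) (L (nat_lit 588) ln13_15_5_c10 ln13_15_5_c10_ok))))) (B (M (nat_lit 620) (B (L (nat_lit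 588) ln13_15_5_c10 ln13_15_5_c10_ok) (M (nat_lit 621) (B (L (nat_lit 652) ln13_16_5_c10 ln13_16_5_c10_ok) (M (nat_lit 494) (B (L (nat_lit 526) ln13_19_6_c10 ln13_19_6_c10_ok) (L (nat_lit 462) ln13_18_6 ln13_18_6_ok))))))) (B (M (nat_lit 621) (B (M (nat_lit 622) (B (L (nat_lit 654) ln13_16_4_c10 ln13_16_4_c10_ok) (L (nat_lit 590) ln13_15_4_c10 ln13_15_4_c10_ok))) (M (nat_lit 494) (B (L (nat_lit 526) ln13_19_6_c10 ln13_19_6_c10_ok) (L (nat_lit 462) ln13_18_6 ln13_18_6_ok))))) (M (nat_lit 588) (B (L (nat_lit 620) ln13_15_5_c10 ln13_15_5_c10_ok) (M (nat_lit 590) (B (L (nat_lit 622) ln13_15_4_c10 ln13_15_4_c10_ok) (M (nat_lit 591) (B (L (nat_lit 556) ln13_14_5 ln13_14_5_ok) (M (nat_lit 592) (B (M (nat_lit 624) (B (L (nat_lit 625) ln13_18_0_c10 ln13_18_0_c10_ok) (L (nat_lit 623) ln12_18_0_c10 ln12_18_0_c10_ok))) (M (nat_lit 560) (B (L (nat_lit 561) ln13_18_2_c10 ln13_18_2_c10_ok) (L (nat_lit 559) ln12_18_2_c10 ln12_18_2_c10_ok))))))))))))))) (B (M (nat_lit 589) (B (M (nat_lit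 494) (B (L (nat_lit 462) ln13_18_6 ln13_18_6_ok) (M (nat_lit 621) (B (L (nat_lit 526) ln13_19_6_c10 ln13_19_6_c10_ok) (M (nat_lit 622) (B (L (nat_lit 654) ln13_16_4_c10 ln13_16_4_c10_ok) (L (nat_lit 590) ln13_15_4_c10 ln13_15_4_c10_ok))))))) (M (nat_lit 588) (B (L (nat_lit 620) ln13_15_5_c10 ln13_15_5_c10_ok) (L (nat_lit 556) ln13_14_5 ln13_14_5_ok))))) (B (M (nat_lit 589) (B (M (nat_lit 588) (B (L (nat_lit 620) ln13_15_5_c10 ln13_15_5_c10_ok) (L (nat_lit 556) ln13_14_5 ln13_14_5_ok))) (B (M (nat_lit 621) (B (M (nat_lit 494) (B (L (nat_lit 526) ln13_19_6_c10 ln13_19_6_c10_ok) (L (nat_lit 462) ln13_18_6 ln13_18_6_ok))) (M (nat_lit 653) (B (M (nat_lit 654) (B (L (nat_lit 686) ln13_17_4_c10 ln13_17_4_c10_ok) (L (nat_lit 622) ln13_16_4_c10 ln13_16_4_c10_ok))) (M (nat_lit 556) (B (L (nat_lit 524) ln13_13_5 ln13_13_5_ok) (L (nat_lit 588) ln13_14_5 ln13_14_5_ok))))))) (M (nat_lit 621) (B (M (nat_lit 494) (B (L (nat_lit 526) ln13_19_6_c10 ln13_19_6_c10_ok) (L (nat_lit 462)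 ln13_18_6 ln13_18_6_ok))) (M (nat_lit 653) (B (M (nat_lit 652) (B (L (nat_lit 684) ln13_17_5_c10 ln13_17_5_c10_ok) (L (nat_lit 620) ln13_16_5_c10 ln13_16_5_c10_ok))) (M (nat_lit 654) (B (L (nat_lit 686) ln13_17_4_c10 ln13_17_4_c10_ok) (L (nat_lit 622) ln13_16_4_c10 ln13_16_4_c10_ok)))))))))) (B (M (nat_lit 524) (B (L (nat_lit 556) ln13_13_5 ln13_13_5_ok) (M (nat_lit 494) (B (M (nat_lit 523) (B (L (nat_lit 522) ln10_16_2 ln10_16_2_ok) (M (nat_lit 495) (B (L (nat_lit 526) ln11_16_2 ln11_16_2_ok) (L (nat_lit 496) ln16_15_1 ln16_15_1_ok))))) (B (M (nat_lit 523) (B (L (nat_lit 522) ln10_16_2 ln10_16_2_ok) (M (nat_lit 495) (B (L (nat_lit 496) ln16_15_1 ln16_15_1_ok) (L (nat_lit 492) ln15_15_1 ln15_15_1_ok))))) (M (nat_lit 589) (B (L (nat_lit 462) ln13_18_6 ln13_18_6_ok) (M (nat_lit 621) (B (L (nat_lit 526) ln13_19_6_c10 ln13_19_6_c10_ok) (L (nat_lit 492) ln13_19_7 ln13_19_7_ok)))))))))) (B (M (nat_lit 556) (B (L (nat_lit 588) ln13_14_5 ln13_14_5_ok) (L (nat_lit 524) ln13_13_5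 ln13_13_5_ok))) (K (nat_lit 471745303212529431617857442193386895340211435029272104790018930303222451192294239345893258764852856991824633796569317721443457359206950307872383534307218333799242792960) (nat_lit 2382688988421133424652586988134979993987292027401769036023173337482900336619478552488134469204475562257564428907985929686131405276910905358857837384287567231176587411575284823259055503845504386596864) (nat_lit 2382688988421133424652586988134979993987292027401769036023173337482900336619478552488134469204475562257564428907985929686131405276910905358857837384287567231176587411575284823259055503845504386596864) c10_s504)))))))) (B (M (nat_lit 524) (B (L (nat_lit 556) ln13_13_5 ln13_13_5_ok) (M (nat_lit 526) (B (L (nat_lit 558) ln13_13_4 ln13_13_4_ok) (M (nat_lit 523) (B (M (nat_lit 494) (B (L (nat_lit 522) ln10_16_2 ln10_16_2_ok) (L (nat_lit 495) ln11_16_2 ln11_16_2_ok))) (B (M (nat_lit 527) (B (M (nat_lit 491) (B (L (nat_lit 490) ln14_16_3 ln14_16_3_ok) (L (nat_lit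 492) ln15_16_3 ln15_16_3_ok))) (M (nat_lit 495) (B (L (nat_lit 494) ln11_16_2 ln11_16_2_ok) (L (nat_lit 496) ln12_16_2 ln12_16_2_ok))))) (M (nat_lit 522) (B (M (nat_lit 554) (B (L (nat_lit 553) ln13_16_1 ln13_16_1_ok) (L (nat_lit 555) ln14_16_1 ln14_16_1_ok))) (M (nat_lit 490) (B (L (nat_lit 489) ln13_16_3 ln13_16_3_ok) (L (nat_lit 491) ln14_16_3 ln14_16_3_ok)))))))))))) (B (M (nat_lit 557) (B (M (nat_lit 558) (B (L (nat_lit 526) ln13_13_4 ln13_13_4_ok) (L (nat_lit 590) ln13_14_4 ln13_14_4_ok))) (B (M (nat_lit 589) (B (M (nat_lit 588) (B (L (nat_lit 556) ln13_14_5 ln13_14_5_ok) (L (nat_lit 620) ln13_15_5_c10 ln13_15_5_c10_ok))) (M (nat_lit 590) (B (L (nat_lit 558) ln13_14_4 ln13_14_4_ok) (L (nat_lit 622) ln13_15_4_c10 ln13_15_4_c10_ok))))) (B (M (nat_lit 589) (B (M (nat_lit 588) (B (L (nat_lit 556) ln13_14_5 ln13_14_5_ok) (L (nat_lit 620) ln13_15_5_c10 ln13_15_5_c10_ok))) (M (nat_lit 621) (B (M (nat_lit 494) (B (L (nat_lit 462) ln13_18_6 ln13_18_6_ok) (L (nat_lit 526)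 ln13_19_6_c10 ln13_19_6_c10_ok))) (M (nat_lit 622) (B (L (nat_lit 590) ln13_15_4_c10 ln13_15_4_c10_ok) (L (nat_lit 654) ln13_16_4_c10 ln13_16_4_c10_ok))))))) (M (nat_lit 589) (B (M (nat_lit 588) (B (L (nat_lit 556) ln13_14_5 ln13_14_5_ok) (L (nat_lit 620) ln13_15_5_c10 ln13_15_5_c10_ok))) (M (nat_lit 494) (B (L (nat_lit 462) ln13_18_6 ln13_18_6_ok) (M (nat_lit 526) (B (L (nat_lit 558) ln13_13_4 ln13_13_4_ok) (L (nat_lit 621) ln13_19_6_c10 ln13_19_6_c10_ok))))))))))) (M (nat_lit 557) (B (M (nat_lit 556) (B (L (nat_lit 588) ln13_14_5 ln13_14_5_ok) (L (nat_lit 524) ln13_13_5 ln13_13_5_ok))) (M (nat_lit 558) (B (L (nat_lit 590) ln13_14_4 ln13_14_4_ok) (L (nat_lit 526) ln13_13_4 ln13_13_4_ok))))))))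
noncomputable def c10_d511 : Cert := (B (M (nat_lit 492) (B (M (nat_lit 462) (B (L (nat_lit 490) ln10_15_2 ln10_15_2_ok) (M (nat_lit 463) (B (L (nat_lit 464) ln16_14_1 ln16_14_1_ok) (L (nat_lit 494) ln11_15_2 ln11_15_2_ok))))) (B (M (nat_lit 462) (B (L (nat_lit 490) ln10_15_2 ln10_15_2_ok) (M (nat_lit 463) (B (L (nat_lit 460) ln15_14_1 ln15_14_1_ok) (L (nat_lit 494) ln11_15_2 ln11_15_2_ok))))) (B (M (nat_lit 460) (B (M (nat_lit 396) (B (L (nat_lit 364) ln12_11_4 ln12_11_4_ok) (L (nat_lit 523) ln12_12_5 ln12_12_5_ok))) (M (nat_lit 490) (B (L (nat_lit 462) ln10_15_2 ln10_15_2_ok) (L (nat_lit 489) ln9_15_2 ln9_15_2_ok))))) (B (M (nat_lit 490) (B (M (nat_lit 489) (B (L (nat_lit 460) ln9_15_2 ln9_15_2_ok) (M (nat_lit 457) (B (L (nat_lit 458) ln13_15_3 ln13_15_3_ok) (L (nat_lit 456) ln12_15_3 ln12_15_3_ok))))) (B (M (nat_lit 489) (B (M (nat_lit 457) (B (L (nat_lit 458) ln13_15_3 ln13_15_3_ok) (L (nat_lit 456) ln12_15_3 ln12_15_3_ok))) (M (nat_lit 521) (B (L (nat_lit 522)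 ln13_15_1 ln13_15_1_ok) (L (nat_lit 520) ln12_15_1 ln12_15_1_ok))))) (B (M (nat_lit 489) (B (L (nat_lit 460) ln9_15_2 ln9_15_2_ok) (M (nat_lit 521) (B (L (nat_lit 522) ln13_15_1 ln13_15_1_ok) (L (nat_lit 520) ln12_15_1 ln12_15_1_ok))))) (M (nat_lit 494) (B (M (nat_lit 522) (B (L (nat_lit 523) ln14_15_1 ln14_15_1_ok) (L (nat_lit 521) ln13_15_1 ln13_15_1_ok))) (M (nat_lit 495) (B (M (nat_lit 527) (B (L (nat_lit 528) ln12_15_0 ln12_15_0_ok) (L (nat_lit 526) ln11_15_0 ln11_15_0_ok))) (M (nat_lit 464) (B (L (nat_lit 463) ln12_15_2 ln12_15_2_ok) (M (nat_lit 496) (B (L (nat_lit 465) ln13_15_2 ln13_15_2_ok) (L (nat_lit 460) ln16_15_3 ln16_15_3_ok))))))))))))) (M (nat_lit 494) (B (M (nat_lit 462) (B (L (nat_lit 463) ln11_15_2 ln11_15_2_ok) (M (nat_lit 526) (B (L (nat_lit 558) ln14_17_7 ln14_17_7_ok) (L (nat_lit 527) ln11_15_0 ln11_15_0_ok))))) (B (M (nat_lit 527) (B (L (nat_lit 526) ln11_15_0 ln11_15_0_ok) (M (nat_lit 460) (B (M (nat_lit 523) (B (L (nat_lit 396) ln12_12_5 ln12_12_5_ok)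 (L (nat_lit 522) ln14_15_1 ln14_15_1_ok))) (M (nat_lit 495) (B (L (nat_lit 496) ln16_15_3 ln16_15_3_ok) (L (nat_lit 528) ln12_15_0 ln12_15_0_ok))))))) (M (nat_lit 463) (B (L (nat_lit 462) ln11_15_2 ln11_15_2_ok) (M (nat_lit 460) (B (M (nat_lit 523) (B (L (nat_lit 396) ln12_12_5 ln12_12_5_ok) (L (nat_lit 522) ln14_15_1 ln14_15_1_ok))) (M (nat_lit 495) (B (L (nat_lit 464) ln12_15_2 ln12_15_2_ok) (L (nat_lit 496) ln16_15_3 ln16_15_3_ok))))))))))))))) (B (M (nat_lit 459) (B (M (nat_lit 396) (B (L (nat_lit 523) ln11_16_6 ln11_16_6_ok) (M (nat_lit 364) (B (L (nat_lit 332) ln12_10_4 ln12_10_4_ok) (L (nat_lit 460) ln12_11_4 ln12_11_4_ok))))) (B (M (nat_lit 396) (B (L (nat_lit 523) ln11_16_6 ln11_16_6_ok) (M (nat_lit 364) (B (L (nat_lit 395) ln11_15_6 ln11_15_6_ok) (L (nat_lit 460) ln12_11_4 ln12_11_4_ok))))) (B (M (nat_lit 460) (B (M (nat_lit 523) (B (L (nat_lit 396) ln11_16_6 ln11_16_6_ok) (L (nat_lit 555) ln11_17_6 ln11_17_6_ok))) (M (nat_lit 458) (B (L (nat_lit 457) ln9_14_2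 ln9_14_2_ok) (L (nat_lit 494) ln10_14_0 ln10_14_0_ok))))) (B (M (nat_lit 494) (B (M (nat_lit 458) (B (L (nat_lit 460) ln10_14_0 ln10_14_0_ok) (L (nat_lit 492) ln14_15_3 ln14_15_3_ok))) (B (M (nat_lit 492) (B (L (nat_lit 458) ln14_15_3 ln14_15_3_ok) (M (nat_lit 462) (B (L (nat_lit 463) ln11_15_2 ln11_15_2_ok) (M (nat_lit 526) (B (L (nat_lit 558) ln14_17_7 ln14_17_7_ok) (L (nat_lit 527) ln11_15_0 ln11_15_0_ok))))))) (B (M (nat_lit 460) (B (M (nat_lit 462) (B (L (nat_lit 463) ln15_14_3 ln15_14_3_ok) (L (nat_lit 495) ln11_14_0 ln11_14_0_ok))) (B (M (nat_lit 495) (B (L (nat_lit 462) ln11_14_0 ln11_14_0_ok) (L (nat_lit 496) ln16_15_3 ln16_15_3_ok))) (B (M (nat_lit 495) (B (L (nat_lit 496) ln16_15_3 ln16_15_3_ok) (L (nat_lit 492) ln15_15_3 ln15_15_3_ok))) (M (nat_lit 523) (B (L (nat_lit 555) ln11_17_6 ln11_17_6_ok) (M (nat_lit 522) (B (L (nat_lit 554) ln11_13_5 ln11_13_5_ok) (L (nat_lit 492) ln14_15_1 ln14_15_1_ok))))))))) (M (nat_lit 460) (B (L (nat_lit 458) ln10_14_0 ln10_14_0_ok)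 (M (nat_lit 462) (B (L (nat_lit 463) ln15_14_3 ln15_14_3_ok) (L (nat_lit 495) ln11_14_0 ln11_14_0_ok))))))))) (B (M (nat_lit 396) (B (L (nat_lit 523) ln11_16_6 ln11_16_6_ok) (M (nat_lit 364) (B (L (nat_lit 332) ln12_10_4 ln12_10_4_ok) (L (nat_lit 395) ln11_15_6 ln11_15_6_ok))))) (M (nat_lit 460) (B (M (nat_lit 458) (B (L (nat_lit 457) ln9_14_2 ln9_14_2_ok) (L (nat_lit 494) ln10_14_0 ln10_14_0_ok))) (M (nat_lit 395) (B (M (nat_lit 364) (B (L (nat_lit 396) ln12_11_4 ln12_11_4_ok) (M (nat_lit 363) (B (L (nat_lit 332) ln11_14_6 ln11_14_6_ok) (L (nat_lit 492) ln11_11_4 ln11_11_4_ok))))) (B (M (nat_lit 396) (B (L (nat_lit 364) ln12_11_4 ln12_11_4_ok) (M (nat_lit 394) (B (L (nat_lit 362) ln11_15_7 ln11_15_7_ok) (L (nat_lit 393) ln9_12_0 ln9_12_0_ok))))) (M (nat_lit 363) (B (L (nat_lit 492) ln11_11_4 ln11_11_4_ok) (M (nat_lit 362) (B (L (nat_lit 330) ln11_14_7 ln11_14_7_ok) (L (nat_lit 394) ln11_15_7 ln11_15_7_ok)))))))))))))))) (M (nat_lit 492) (B (M (nat_lit 462) (B (L (nat_lit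 490) ln10_15_2 ln10_15_2_ok) (M (nat_lit 463) (B (L (nat_lit 464) ln16_14_1 ln16_14_1_ok) (L (nat_lit 494) ln11_15_2 ln11_15_2_ok))))) (B (M (nat_lit 462) (B (L (nat_lit 490) ln10_15_2 ln10_15_2_ok) (M (nat_lit 463) (B (L (nat_lit 460) ln15_14_1 ln15_14_1_ok) (L (nat_lit 494) ln11_15_2 ln11_15_2_ok))))) (B (M (nat_lit 490) (B (L (nat_lit 462) ln10_15_2 ln10_15_2_ok) (M (nat_lit 489) (B (L (nat_lit 460) ln9_15_2 ln9_15_2_ok) (M (nat_lit 457) (B (L (nat_lit 458) ln13_15_3 ln13_15_3_ok) (L (nat_lit 456) ln12_15_3 ln12_15_3_ok))))))) (B (M (nat_lit 490) (B (M (nat_lit 489) (B (L (nat_lit 460) ln9_15_2 ln9_15_2_ok) (M (nat_lit 457) (B (L (nat_lit 458) ln13_15_3 ln13_15_3_ok) (L (nat_lit 456) ln12_15_3 ln12_15_3_ok))))) (B (M (nat_lit 489) (B (M (nat_lit 457) (B (L (nat_lit 458) ln13_15_3 ln13_15_3_ok) (L (nat_lit 456) ln12_15_3 ln12_15_3_ok))) (M (nat_lit 521) (B (L (nat_lit 522) ln13_15_1 ln13_15_1_ok) (L (nat_lit 520) ln12_15_1 ln12_15_1_ok))))) (B (M (nat_lit 489) (B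 (L (nat_lit 460) ln9_15_2 ln9_15_2_ok) (M (nat_lit 521) (B (L (nat_lit 522) ln13_15_1 ln13_15_1_ok) (L (nat_lit 520) ln12_15_1 ln12_15_1_ok))))) (M (nat_lit 459) (B (M (nat_lit 522) (B (L (nat_lit 395) ln11_12_5 ln11_12_5_ok) (L (nat_lit 521) ln13_15_1 ln13_15_1_ok))) (M (nat_lit 458) (B (L (nat_lit 494) ln14_15_3 ln14_15_3_ok) (L (nat_lit 457) ln13_15_3 ln13_15_3_ok))))))))) (K (nat_lit 44753387223284327460942275516050605795561548529795254685974266163969136462682126611307457725736300406154407618971374053662892018561020440042939613184) (nat_lit 943490607743100014287672319229478895490241780661838165954570574446745259699903895348054294699024337295208678292101419204858068588086463247438379023645824197318695452672) (nat_lit 943490607743100014287672319229478895490241780661838165954570574446745259699903895348054294699024337295208678292101419204858068588086463247438379023645824197318695452672) c10_s536))))))))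
noncomputable def c10_d512 : Cert := (B (M (nat_lit 492) (B (M (nat_lit 462) (B (L (nat_lit 490) ln10_15_2 ln10_15_2_ok) (M (nat_lit 463) (B (L (nat_lit 464) ln16_14_1 ln16_14_1_ok) (L (nat_lit 494) ln11_15_2 ln11_15_2_ok))))) (B (M (nat_lit 462) (B (L (nat_lit 490) ln10_15_2 ln10_15_2_ok) (M (nat_lit 463) (B (L (nat_lit 460) ln15_14_1 ln15_14_1_ok) (L (nat_lit 494) ln11_15_2 ln11_15_2_ok))))) (B (M (nat_lit 459) (B (M (nat_lit 458) (B (L (nat_lit 494) ln14_15_3 ln14_15_3_ok) (M (nat_lit 457) (B (L (nat_lit 460) ln9_14_0 ln9_14_0_ok) (L (nat_lit 456) ln8_14_0 ln8_14_0_ok))))) (B (M (nat_lit 458) (B (L (nat_lit 494) ln14_15_3 ln14_15_3_ok) (M (nat_lit 457) (B (L (nat_lit 456) ln8_14_0 ln8_14_0_ok) (L (nat_lit 490) ln13_15_3 ln13_15_3_ok))))) (M (nat_lit 490) (B (L (nat_lit 462) ln10_15_2 ln10_15_2_ok) (M (nat_lit 522) (B (L (nat_lit 395) ln11_12_5 ln11_12_5_ok) (L (nat_lit 521) ln13_15_1 ln13_15_1_ok)))))))) (B (M (nat_lit 459) (B (M (nat_lit 458) (B (L (nat_lit 494)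 ln14_15_3 ln14_15_3_ok) (M (nat_lit 457) (B (L (nat_lit 460) ln9_14_0 ln9_14_0_ok) (L (nat_lit 456) ln8_14_0 ln8_14_0_ok))))) (B (M (nat_lit 458) (B (L (nat_lit 494) ln14_15_3 ln14_15_3_ok) (M (nat_lit 457) (B (L (nat_lit 456) ln8_14_0 ln8_14_0_ok) (L (nat_lit 490) ln13_15_3 ln13_15_3_ok))))) (B (M (nat_lit 523) (B (L (nat_lit 396) ln11_16_6 ln11_16_6_ok) (M (nat_lit 522) (B (L (nat_lit 554) ln11_13_5 ln11_13_5_ok) (L (nat_lit 494) ln14_15_1 ln14_15_1_ok))))) (M (nat_lit 522) (B (M (nat_lit 523) (B (L (nat_lit 396) ln11_16_6 ln11_16_6_ok) (L (nat_lit 554) ln11_13_5 ln11_13_5_ok))) (M (nat_lit 490) (B (L (nat_lit 395) ln11_12_5 ln11_12_5_ok) (L (nat_lit 521) ln13_15_1 ln13_15_1_ok))))))))) (B (M (nat_lit 462) (B (L (nat_lit 490) ln10_15_2 ln10_15_2_ok) (M (nat_lit 463) (B (L (nat_lit 464) ln16_14_1 ln16_14_1_ok) (L (nat_lit 460) ln15_14_1 ln15_14_1_ok))))) (M (nat_lit 494) (B (M (nat_lit 462) (B (L (nat_lit 463) ln11_15_2 ln11_15_2_ok) (M (nat_lit 526) (B (L (nat_lit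 558) ln14_17_7 ln14_17_7_ok) (L (nat_lit 527) ln11_15_0 ln11_15_0_ok))))) (M (nat_lit 459) (B (L (nat_lit 458) ln14_15_3 ln14_15_3_ok) (M (nat_lit 523) (B (L (nat_lit 396) ln11_16_6 ln11_16_6_ok) (L (nat_lit 522) ln14_15_1 ln14_15_1_ok))))))))))))) (B (M (nat_lit 492) (B (M (nat_lit 462) (B (L (nat_lit 490) ln10_15_2 ln10_15_2_ok) (M (nat_lit 463) (B (L (nat_lit 464) ln16_14_1 ln16_14_1_ok) (L (nat_lit 494) ln11_15_2 ln11_15_2_ok))))) (B (M (nat_lit 462) (B (L (nat_lit 490) ln10_15_2 ln10_15_2_ok) (M (nat_lit 463) (B (L (nat_lit 460) ln15_14_1 ln15_14_1_ok) (L (nat_lit 494) ln11_15_2 ln11_15_2_ok))))) (B (M (nat_lit 490) (B (L (nat_lit 462) ln10_15_2 ln10_15_2_ok) (M (nat_lit 489) (B (L (nat_lit 460) ln9_15_2 ln9_15_2_ok) (M (nat_lit 457) (B (L (nat_lit 458) ln13_15_3 ln13_15_3_ok) (L (nat_lit 456) ln12_15_3 ln12_15_3_ok))))))) (B (M (nat_lit 490) (B (M (nat_lit 489) (B (L (nat_lit 460) ln9_15_2 ln9_15_2_ok) (M (nat_lit 457) (B (L (nat_lit 458) ln13_15_3 ln13_15_3_ok)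 (L (nat_lit 456) ln12_15_3 ln12_15_3_ok))))) (B (M (nat_lit 494) (B (M (nat_lit 458) (B (L (nat_lit 459) ln14_15_3 ln14_15_3_ok) (L (nat_lit 457) ln13_15_3 ln13_15_3_ok))) (M (nat_lit 522) (B (L (nat_lit 523) ln14_15_1 ln14_15_1_ok) (L (nat_lit 521) ln13_15_1 ln13_15_1_ok))))) (M (nat_lit 489) (B (L (nat_lit 460) ln9_15_2 ln9_15_2_ok) (M (nat_lit 521) (B (L (nat_lit 522) ln13_15_1 ln13_15_1_ok) (L (nat_lit 520) ln12_15_1 ln12_15_1_ok)))))))) (K (nat_lit 44753387223284327460942275516050605795561548529795254685974266163969136462682126611307457725736300406154407618971374053662892018561020440042939613184) (nat_lit 943490607743100014287672319229478895490241780661838165954570574446745259699903895348054294699024337295208678292101419204858068588086463247438379023645824197318695452672) (nat_lit 943490607743100014287672319229478895490241780661838165954570574446745259699903895348054294699024337295208678292101419204858068588086463247438379023645824197318695452672) c10_s536))))))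 (B (M (nat_lit 492) (B (M (nat_lit 490) (B (L (nat_lit 462) ln10_15_2 ln10_15_2_ok) (M (nat_lit 489) (B (L (nat_lit 460) ln9_15_2 ln9_15_2_ok) (M (nat_lit 521) (B (L (nat_lit 522) ln13_15_1 ln13_15_1_ok) (L (nat_lit 520) ln12_15_1 ln12_15_1_ok))))))) (B (M (nat_lit 459) (B (M (nat_lit 458) (B (L (nat_lit 494) ln14_15_3 ln14_15_3_ok) (M (nat_lit 457) (B (L (nat_lit 456) ln8_14_0 ln8_14_0_ok) (L (nat_lit 490) ln13_15_3 ln13_15_3_ok))))) (M (nat_lit 396) (B (L (nat_lit 523) ln11_16_6 ln11_16_6_ok) (M (nat_lit 364) (B (L (nat_lit 332) ln12_10_4 ln12_10_4_ok) (L (nat_lit 395) ln11_15_6 ln11_15_6_ok))))))) (M (nat_lit 459) (B (M (nat_lit 396) (B (L (nat_lit 523) ln11_16_6 ln11_16_6_ok) (M (nat_lit 364) (B (L (nat_lit 332) ln12_10_4 ln12_10_4_ok) (L (nat_lit 395) ln11_15_6 ln11_15_6_ok))))) (M (nat_lit 458) (B (L (nat_lit 494) ln14_15_3 ln14_15_3_ok) (M (nat_lit 457) (B (L (nat_lit 460) ln9_14_0 ln9_14_0_ok) (L (nat_lit 456) ln8_14_0 ln8_14_0_ok)))))))))) (B (M (nat_lit 459)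 (B (M (nat_lit 396) (B (L (nat_lit 523) ln11_16_6 ln11_16_6_ok) (M (nat_lit 364) (B (L (nat_lit 332) ln12_10_4 ln12_10_4_ok) (L (nat_lit 460) ln12_11_4 ln12_11_4_ok))))) (B (M (nat_lit 396) (B (L (nat_lit 523) ln11_16_6 ln11_16_6_ok) (M (nat_lit 364) (B (L (nat_lit 395) ln11_15_6 ln11_15_6_ok) (L (nat_lit 460) ln12_11_4 ln12_11_4_ok))))) (B (M (nat_lit 458) (B (M (nat_lit 457) (B (L (nat_lit 460) ln9_14_2 ln9_14_2_ok) (L (nat_lit 456) ln8_14_2 ln8_14_2_ok))) (B (M (nat_lit 457) (B (L (nat_lit 456) ln8_14_2 ln8_14_2_ok) (M (nat_lit 492) (B (L (nat_lit 494) ln14_15_3 ln14_15_3_ok) (L (nat_lit 490) ln13_15_3 ln13_15_3_ok))))) (M (nat_lit 494) (B (L (nat_lit 460) ln10_14_0 ln10_14_0_ok) (L (nat_lit 492) ln14_15_3 ln14_15_3_ok)))))) (M (nat_lit 396) (B (L (nat_lit 523) ln11_16_6 ln11_16_6_ok) (M (nat_lit 364) (B (L (nat_lit 332) ln12_10_4 ln12_10_4_ok) (L (nat_lit 395) ln11_15_6 ln11_15_6_ok))))))))) (B (M (nat_lit 492) (B (M (nat_lit 462) (B (L (nat_lit 490) ln10_15_2 ln10_15_2_ok)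 (M (nat_lit 463) (B (L (nat_lit 464) ln16_14_1 ln16_14_1_ok) (L (nat_lit 494) ln11_15_2 ln11_15_2_ok))))) (B (M (nat_lit 462) (B (L (nat_lit 490) ln10_15_2 ln10_15_2_ok) (M (nat_lit 494) (B (L (nat_lit 463) ln11_15_2 ln11_15_2_ok) (M (nat_lit 526) (B (L (nat_lit 558) ln14_17_7 ln14_17_7_ok) (L (nat_lit 527) ln11_15_0 ln11_15_0_ok))))))) (B (M (nat_lit 490) (B (L (nat_lit 462) ln10_15_2 ln10_15_2_ok) (M (nat_lit 489) (B (M (nat_lit 457) (B (L (nat_lit 458) ln13_15_3 ln13_15_3_ok) (L (nat_lit 456) ln12_15_3 ln12_15_3_ok))) (M (nat_lit 521) (B (L (nat_lit 522) ln13_15_1 ln13_15_1_ok) (L (nat_lit 520) ln12_15_1 ln12_15_1_ok))))))) (B (M (nat_lit 459) (B (M (nat_lit 458) (B (L (nat_lit 494) ln14_15_3 ln14_15_3_ok) (M (nat_lit 457) (B (L (nat_lit 456) ln8_14_0 ln8_14_0_ok) (L (nat_lit 490) ln13_15_3 ln13_15_3_ok))))) (M (nat_lit 396) (B (L (nat_lit 523) ln11_16_6 ln11_16_6_ok) (M (nat_lit 364) (B (L (nat_lit 332) ln12_10_4 ln12_10_4_ok) (L (nat_lit 395) ln11_15_6 ln11_15_6_ok)))))))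 (M (nat_lit 494) (B (M (nat_lit 462) (B (L (nat_lit 463) ln11_15_2 ln11_15_2_ok) (M (nat_lit 526) (B (L (nat_lit 558) ln14_17_7 ln14_17_7_ok) (L (nat_lit 527) ln11_15_0 ln11_15_0_ok))))) (M (nat_lit 459) (B (L (nat_lit 458) ln14_15_3 ln14_15_3_ok) (M (nat_lit 523) (B (L (nat_lit 396) ln11_16_6 ln11_16_6_ok) (L (nat_lit 522) ln14_15_1 ln14_15_1_ok)))))))))))) c10_d511)))))
noncomputable def c10_d513 : Cert := (B (M (nat_lit 525) (B (M (nat_lit 558) (B (L (nat_lit 526) ln13_13_4 ln13_13_4_ok) (M (nat_lit 557) (B (L (nat_lit 590) ln13_14_4 ln13_14_4_ok) (M (nat_lit 556) (B (L (nat_lit 588) ln13_14_5 ln13_14_5_ok) (L (nat_lit 524) ln13_13_5 ln13_13_5_ok))))))) (B (M (nat_lit 557) (B (M (nat_lit 558) (B (L (nat_lit 590) ln13_14_4 ln13_14_4_ok) (L (nat_lit 526) ln13_13_4 ln13_13_4_ok))) (B (M (nat_lit 526) (B (L (nat_lit 558) ln13_13_4 ln13_13_4_ok) (M (nat_lit 589) (B (L (nat_lit 621) ln13_19_6_c10 ln13_19_6_c10_ok) (L (nat_lit 462) ln13_18_6 ln13_18_6_ok))))) (B (M (nat_lit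 589) (B (L (nat_lit 462) ln13_18_6 ln13_18_6_ok) (M (nat_lit 621) (B (L (nat_lit 526) ln13_19_6_c10 ln13_19_6_c10_ok) (M (nat_lit 524) (B (L (nat_lit 492) ln13_19_7 ln13_19_7_ok) (L (nat_lit 556) ln13_13_5 ln13_13_5_ok))))))) (M (nat_lit 589) (B (L (nat_lit 462) ln13_18_6 ln13_18_6_ok) (M (nat_lit 590) (B (L (nat_lit 622) ln13_15_4_c10 ln13_15_4_c10_ok) (L (nat_lit 558) ln13_14_4 ln13_14_4_ok))))))))) (B (M (nat_lit 526) (B (L (nat_lit 558) ln13_13_4 ln13_13_4_ok) (M (nat_lit 557) (B (M (nat_lit 556) (B (L (nat_lit 588) ln13_14_5 ln13_14_5_ok) (L (nat_lit 524) ln13_13_5 ln13_13_5_ok))) (M (nat_lit 589) (B (L (nat_lit 621) ln13_19_6_c10 ln13_19_6_c10_ok) (L (nat_lit 462) ln13_18_6 ln13_18_6_ok))))))) (B (K (nat_lit 109836762638809847818230500694552371490148287996378174741942318228952060461629508686468550969192182110316089564454738719959477338321223886407590594801326620672) (nat_lit 18687756800238088682730388676656228493417904746168375930040507384017610883770247467598579323028551430542433129138867439378564264315189884688668320942760532621218072662326722046381851649412436066304)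 (nat_lit 18687756800238088682730388676656228493417904746168375930040507384017610883770247467598579323028551430542433129138867439378564264315189884688668320942760532621218072662326722046381851649412436066304) c10_s561) (B (M (nat_lit 526) (B (L (nat_lit 558) ln13_13_4 ln13_13_4_ok) (M (nat_lit 524) (B (L (nat_lit 556) ln13_13_5 ln13_13_5_ok) (M (nat_lit 527) (B (M (nat_lit 492) (B (L (nat_lit 491) ln11_15_0 ln11_15_0_ok) (L (nat_lit 528) ln16_16_3 ln16_16_3_ok))) (B (M (nat_lit 491) (B (L (nat_lit 492) ln11_15_0 ln11_15_0_ok) (M (nat_lit 523) (B (L (nat_lit 522) ln10_16_2 ln10_16_2_ok) (L (nat_lit 490) ln14_16_3 ln14_16_3_ok))))) (B (M (nat_lit 528) (B (L (nat_lit 492) ln16_16_3 ln16_16_3_ok) (L (nat_lit 529) ln17_16_3 ln17_16_3_ok))) (M (nat_lit 560) (B (L (nat_lit 559) ln12_16_0 ln12_16_0_ok) (M (nat_lit 528) (B (L (nat_lit 561) ln13_16_0 ln13_16_0_ok) (L (nat_lit 529) ln17_16_3 ln17_16_3_ok))))))))))))) (B (K (nat_lit 109836762638809847818230500694552371490148287996378174741942318228952060461629508686468550969192182110316089564454738719959477338321223886407590594801326620672)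 (nat_lit 18687756782833758930058303088352839500460218839194909162672182394469438017230720218321098916777713343655811523960953851752045888591743835936229858086003083488945620921414060437241327828055705518080) (nat_lit 18687756782833758930058303088352839500460218839194909162672182394469438017230720218321098916777713343655811523960953851752045888591743835936229858086003083488945620921414060437241327828055705518080) c10_s562) (M (nat_lit 557) (B (M (nat_lit 556) (B (L (nat_lit 588) ln13_14_5 ln13_14_5_ok) (L (nat_lit 524) ln13_13_5 ln13_13_5_ok))) (M (nat_lit 589) (B (L (nat_lit 462) ln13_18_6 ln13_18_6_ok) (M (nat_lit 590) (B (L (nat_lit 622) ln13_15_4_c10 ln13_15_4_c10_ok) (L (nat_lit 558) ln13_14_4 ln13_14_4_ok)))))))))))))) (B (M (nat_lit 495) (B (M (nat_lit 460) (B (L (nat_lit 496) ln16_15_3 ln16_15_3_ok) (M (nat_lit 459) (B (L (nat_lit 462) ln11_14_0 ln11_14_0_ok) (L (nat_lit 492) ln15_15_3 ln15_15_3_ok))))) (B (M (nat_lit 492) (B (M (nat_lit 524) (B (L (nat_lit 523)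 ln15_15_1 ln15_15_1_ok) (M (nat_lit 556) (B (L (nat_lit 525) ln13_13_5 ln13_13_5_ok) (L (nat_lit 588) ln12_18_6 ln12_18_6_ok))))) (B (M (nat_lit 524) (B (L (nat_lit 523) ln15_15_1 ln15_15_1_ok) (M (nat_lit 556) (B (L (nat_lit 588) ln12_18_6 ln12_18_6_ok) (L (nat_lit 460) ln12_17_6 ln12_17_6_ok))))) (B (M (nat_lit 524) (B (L (nat_lit 523) ln15_15_1 ln15_15_1_ok) (M (nat_lit 556) (B (L (nat_lit 525) ln13_13_5 ln13_13_5_ok) (L (nat_lit 460) ln12_17_6 ln12_17_6_ok))))) (M (nat_lit 491) (B (M (nat_lit 463) (B (L (nat_lit 464) ln12_15_2 ln12_15_2_ok) (L (nat_lit 462) ln11_15_2 ln11_15_2_ok))) (M (nat_lit 459) (B (L (nat_lit 460) ln15_15_3 ln15_15_3_ok) (L (nat_lit 458) ln14_15_3 ln14_15_3_ok))))))))) (B (M (nat_lit 460) (B (L (nat_lit 496) ln16_15_3 ln16_15_3_ok) (M (nat_lit 459) (B (L (nat_lit 492) ln15_15_3 ln15_15_3_ok) (L (nat_lit 458) ln10_14_0 ln10_14_0_ok))))) (B (M (nat_lit 460) (B (L (nat_lit 496) ln16_15_3 ln16_15_3_ok) (M (nat_lit 459) (B (L (nat_lit 462) ln11_14_0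 ln11_14_0_ok) (L (nat_lit 458) ln10_14_0 ln10_14_0_ok))))) (M (nat_lit 492) (B (M (nat_lit 524) (B (L (nat_lit 523) ln15_15_1 ln15_15_1_ok) (M (nat_lit 525) (B (L (nat_lit 496) ln16_15_1 ln16_15_1_ok) (L (nat_lit 556) ln13_13_5 ln13_13_5_ok))))) (B (M (nat_lit 524) (B (L (nat_lit 523) ln15_15_1 ln15_15_1_ok) (M (nat_lit 556) (B (L (nat_lit 525) ln13_13_5 ln13_13_5_ok) (L (nat_lit 588) ln12_18_6 ln12_18_6_ok))))) (M (nat_lit 496) (B (M (nat_lit 528) (B (L (nat_lit 529) ln13_15_0 ln13_15_0_ok) (L (nat_lit 527) ln12_15_0 ln12_15_0_ok))) (M (nat_lit 464) (B (L (nat_lit 465) ln13_15_2 ln13_15_2_ok) (L (nat_lit 463) ln12_15_2 ln12_15_2_ok))))))))))))) (M (nat_lit 525) (B (M (nat_lit 558) (B (L (nat_lit 526) ln13_13_4 ln13_13_4_ok) (M (nat_lit 557) (B (L (nat_lit 590) ln13_14_4 ln13_14_4_ok) (M (nat_lit 556) (B (L (nat_lit 588) ln13_14_5 ln13_14_5_ok) (L (nat_lit 524) ln13_13_5 ln13_13_5_ok))))))) (B (M (nat_lit 526) (B (L (nat_lit 558) ln13_13_4 ln13_13_4_ok) (M (nat_lit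 524) (B (L (nat_lit 556) ln13_13_5 ln13_13_5_ok) (M (nat_lit 495) (B (L (nat_lit 523) ln11_16_2 ln11_16_2_ok) (L (nat_lit 496) ln16_15_1 ln16_15_1_ok))))))) (B (K (nat_lit 109836762638809847818230500694552371490148287996378174741942318228952060461629508686468550969192182110316089564454738719959477338321223886407590594801326620672) (nat_lit 18687756800238088682730388676656228493417904746168375930040507384017610883770247467598579323028551430542433129138867439378564264315189884688668320942760532621218072662326722046381851649412436066304) (nat_lit 18687756800238088682730388676656228493417904746168375930040507384017610883770247467598579323028551430542433129138867439378564264315189884688668320942760532621218072662326722046381851649412436066304) c10_s561) (B (M (nat_lit 557) (B (M (nat_lit 556) (B (L (nat_lit 588) ln13_14_5 ln13_14_5_ok) (L (nat_lit 524) ln13_13_5 ln13_13_5_ok))) (M (nat_lit 589) (B (L (nat_lit 462) ln13_18_6 ln13_18_6_ok) (M (nat_lit 621) (B (L (nat_lit 526)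 ln13_19_6_c10 ln13_19_6_c10_ok) (M (nat_lit 622) (B (L (nat_lit 654) ln13_16_4_c10 ln13_16_4_c10_ok) (L (nat_lit 590) ln13_15_4_c10 ln13_15_4_c10_ok))))))))) (M (nat_lit 557) (B (M (nat_lit 556) (B (L (nat_lit 588) ln13_14_5 ln13_14_5_ok) (L (nat_lit 524) ln13_13_5 ln13_13_5_ok))) (M (nat_lit 589) (B (L (nat_lit 462) ln13_18_6 ln13_18_6_ok) (M (nat_lit 590) (B (L (nat_lit 622) ln13_15_4_c10 ln13_15_4_c10_ok) (L (nat_lit 558) ln13_14_4 ln13_14_4_ok))))))))))))))
noncomputable def c10_d514 : Cert := (B (M (nat_lit 525) (B (M (nat_lit 558) (B (L (nat_lit 526) ln13_13_4 ln13_13_4_ok) (M (nat_lit 557) (B (L (nat_lit 590) ln13_14_4 ln13_14_4_ok) (M (nat_lit 556) (B (L (nat_lit 588) ln13_14_5 ln13_14_5_ok) (L (nat_lit 524) ln13_13_5 ln13_13_5_ok))))))) (B (M (nat_lit 492) (B (M (nat_lit 526) (B (L (nat_lit 558) ln13_13_4 ln13_13_4_ok) (M (nat_lit 491) (B (L (nat_lit 490) ln10_15_0 ln10_15_0_ok) (L (nat_lit 527) ln11_15_0 ln11_15_0_ok))))) (B (M (nat_lit 463) (B (M (nat_lit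 462) (B (L (nat_lit 491) ln11_15_2 ln11_15_2_ok) (L (nat_lit 464) ln16_14_1 ln16_14_1_ok))) (B (M (nat_lit 464) (B (L (nat_lit 495) ln12_15_2 ln12_15_2_ok) (L (nat_lit 462) ln16_14_1 ln16_14_1_ok))) (B (M (nat_lit 524) (B (L (nat_lit 556) ln13_13_5 ln13_13_5_ok) (M (nat_lit 495) (B (L (nat_lit 496) ln16_15_1 ln16_15_1_ok) (L (nat_lit 464) ln12_15_2 ln12_15_2_ok))))) (M (nat_lit 491) (B (L (nat_lit 462) ln11_15_2 ln11_15_2_ok) (M (nat_lit 526) (B (L (nat_lit 490) ln10_15_0 ln10_15_0_ok) (L (nat_lit 527) ln11_15_0 ln11_15_0_ok))))))))) (B (M (nat_lit 491) (B (M (nat_lit 462) (B (L (nat_lit 490) ln10_15_2 ln10_15_2_ok) (L (nat_lit 463) ln11_15_2 ln11_15_2_ok))) (B (M (nat_lit 495) (B (M (nat_lit 524) (B (L (nat_lit 556) ln13_13_5 ln13_13_5_ok) (L (nat_lit 496) ln16_15_1 ln16_15_1_ok))) (M (nat_lit 463) (B (L (nat_lit 462) ln11_15_2 ln11_15_2_ok) (L (nat_lit 464) ln12_15_2 ln12_15_2_ok))))) (M (nat_lit 490) (B (M (nat_lit 524) (B (L (nat_lit 556) ln13_13_5 ln13_13_5_ok)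 (L (nat_lit 489) ln9_15_0 ln9_15_0_ok))) (M (nat_lit 458) (B (L (nat_lit 457) ln13_15_3 ln13_15_3_ok) (L (nat_lit 459) ln14_15_3 ln14_15_3_ok)))))))) (B (M (nat_lit 558) (B (L (nat_lit 526) ln13_13_4 ln13_13_4_ok) (M (nat_lit 462) (B (M (nat_lit 557) (B (L (nat_lit 589) ln13_18_6 ln13_18_6_ok) (L (nat_lit 590) ln13_14_4 ln13_14_4_ok))) (M (nat_lit 463) (B (L (nat_lit 491) ln11_15_2 ln11_15_2_ok) (L (nat_lit 464) ln16_14_1 ln16_14_1_ok))))))) (M (nat_lit 524) (B (L (nat_lit 556) ln13_13_5 ln13_13_5_ok) (M (nat_lit 557) (B (M (nat_lit 589) (B (L (nat_lit 621) ln13_19_7 ln13_19_7_ok) (L (nat_lit 462) ln13_18_6 ln13_18_6_ok))) (M (nat_lit 558) (B (L (nat_lit 590) ln13_14_4 ln13_14_4_ok) (L (nat_lit 526) ln13_13_4 ln13_13_4_ok)))))))))))) (B (M (nat_lit 526) (B (L (nat_lit 558) ln13_13_4 ln13_13_4_ok) (M (nat_lit 557) (B (M (nat_lit 556) (B (L (nat_lit 588) ln13_14_5 ln13_14_5_ok) (L (nat_lit 524) ln13_13_5 ln13_13_5_ok))) (M (nat_lit 589) (B (L (nat_lit 621) ln13_19_6_c10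 ln13_19_6_c10_ok) (L (nat_lit 462) ln13_18_6 ln13_18_6_ok))))))) (B (K (nat_lit 109836762638809847818230500694552371490148287996378174741942318228952060461629508686468550969192182110316089564454738719959477338321223886407590594801326620672) (nat_lit 18687756800238088682730388676656228493417904746168375930040507384017610883770247467598579323028551430542433129138867439378564264315189884688668320942760532621218072662326722046381851649412436066304) (nat_lit 18687756800238088682730388676656228493417904746168375930040507384017610883770247467598579323028551430542433129138867439378564264315189884688668320942760532621218072662326722046381851649412436066304) c10_s561) (B (M (nat_lit 526) (B (L (nat_lit 558) ln13_13_4 ln13_13_4_ok) (M (nat_lit 495) (B (M (nat_lit 524) (B (L (nat_lit 556) ln13_13_5 ln13_13_5_ok) (L (nat_lit 496) ln16_15_1 ln16_15_1_ok))) (B (M (nat_lit 496) (B (L (nat_lit 524) ln16_15_1 ln16_15_1_ok) (L (nat_lit 497) ln17_15_1 ln17_15_1_ok))) (B (M (nat_lit 496)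 (B (L (nat_lit 497) ln17_15_1 ln17_15_1_ok) (M (nat_lit 492) (B (M (nat_lit 528) (B (L (nat_lit 527) ln12_15_0 ln12_15_0_ok) (L (nat_lit 529) ln13_15_0 ln13_15_0_ok))) (M (nat_lit 464) (B (L (nat_lit 463) ln12_15_2 ln12_15_2_ok) (L (nat_lit 465) ln13_15_2 ln13_15_2_ok))))))) (M (nat_lit 527) (B (M (nat_lit 492) (B (L (nat_lit 528) ln12_15_0 ln12_15_0_ok) (L (nat_lit 491) ln11_15_0 ln11_15_0_ok))) (M (nat_lit 559) (B (M (nat_lit 591) (B (L (nat_lit 623) ln15_19_7 ln15_19_7_ok) (L (nat_lit 462) ln15_18_7 ln15_18_7_ok))) (M (nat_lit 524) (B (L (nat_lit 556) ln13_13_5 ln13_13_5_ok) (L (nat_lit 560) ln12_16_0 ln12_16_0_ok))))))))))))) (B (K (nat_lit 109836762638809847818230500694552371490148287996378174741942318228952060461629508686468550969192182110316089564454738719959477338321223886407590594801326620672) (nat_lit 18687756782833758930058303088352839500460218839194909162672182394469438017230720218321098916777713343655811523960953851752045888591743835936229858086003083488945620921414060437241327828055705518080)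 (nat_lit 18687756782833758930058303088352839500460218839194909162672182394469438017230720218321098916777713343655811523960953851752045888591743835936229858086003083488945620921414060437241327828055705518080) c10_s562) (M (nat_lit 557) (B (M (nat_lit 556) (B (L (nat_lit 588) ln13_14_5 ln13_14_5_ok) (L (nat_lit 524) ln13_13_5 ln13_13_5_ok))) (M (nat_lit 589) (B (L (nat_lit 462) ln13_18_6 ln13_18_6_ok) (M (nat_lit 590) (B (L (nat_lit 622) ln13_15_4_c10 ln13_15_4_c10_ok) (L (nat_lit 558) ln13_14_4 ln13_14_4_ok)))))))))))))) (B (M (nat_lit 495) (B (M (nat_lit 460) (B (L (nat_lit 496) ln16_15_3 ln16_15_3_ok) (M (nat_lit 459) (B (L (nat_lit 492) ln15_15_3 ln15_15_3_ok) (L (nat_lit 458) ln10_14_0 ln10_14_0_ok))))) (B (M (nat_lit 492) (B (M (nat_lit 460) (B (L (nat_lit 459) ln15_15_3 ln15_15_3_ok) (M (nat_lit 524) (B (L (nat_lit 523) ln15_15_1 ln15_15_1_ok) (L (nat_lit 556) ln12_17_6 ln12_17_6_ok))))) (B (M (nat_lit 491) (B (M (nat_lit 527) (B (L (nat_lit 528) ln12_15_0 ln12_15_0_ok)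 (L (nat_lit 526) ln11_15_0 ln11_15_0_ok))) (M (nat_lit 459) (B (L (nat_lit 460) ln15_15_3 ln15_15_3_ok) (L (nat_lit 458) ln14_15_3 ln14_15_3_ok))))) (M (nat_lit 491) (B (M (nat_lit 527) (B (L (nat_lit 528) ln12_15_0 ln12_15_0_ok) (L (nat_lit 526) ln11_15_0 ln11_15_0_ok))) (M (nat_lit 523) (B (L (nat_lit 524) ln15_15_1 ln15_15_1_ok) (L (nat_lit 522) ln14_15_1 ln14_15_1_ok)))))))) (B (M (nat_lit 496) (B (L (nat_lit 460) ln16_15_3 ln16_15_3_ok) (M (nat_lit 497) (B (M (nat_lit 529) (B (L (nat_lit 530) ln14_15_0 ln14_15_0_ok) (L (nat_lit 528) ln13_15_0 ln13_15_0_ok))) (M (nat_lit 465) (B (L (nat_lit 466) ln14_15_2_c10 ln14_15_2_c10_ok) (L (nat_lit 464) ln13_15_2 ln13_15_2_ok))))))) (M (nat_lit 464) (B (M (nat_lit 465) (B (L (nat_lit 496) ln13_15_2 ln13_15_2_ok) (M (nat_lit 463) (B (L (nat_lit 466) ln18_14_1_c10 ln18_14_1_c10_ok) (L (nat_lit 492) ln12_15_2 ln12_15_2_ok))))) (B (M (nat_lit 528) (B (M (nat_lit 496) (B (L (nat_lit 529) ln13_15_0 ln13_15_0_ok) (L (nat_lit 465)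 ln13_15_2 ln13_15_2_ok))) (M (nat_lit 492) (B (L (nat_lit 527) ln12_15_0 ln12_15_0_ok) (L (nat_lit 463) ln12_15_2 ln12_15_2_ok))))) (B (M (nat_lit 492) (B (L (nat_lit 463) ln12_15_2 ln12_15_2_ok) (M (nat_lit 491) (B (M (nat_lit 527) (B (L (nat_lit 528) ln12_15_0 ln12_15_0_ok) (L (nat_lit 526) ln11_15_0 ln11_15_0_ok))) (M (nat_lit 523) (B (L (nat_lit 524) ln15_15_1 ln15_15_1_ok) (L (nat_lit 522) ln14_15_1 ln14_15_1_ok))))))) (B (M (nat_lit 496) (B (L (nat_lit 465) ln13_15_2 ln13_15_2_ok) (M (nat_lit 528) (B (L (nat_lit 529) ln13_15_0 ln13_15_0_ok) (M (nat_lit 527) (B (L (nat_lit 492) ln12_15_0 ln12_15_0_ok) (M (nat_lit 559) (B (L (nat_lit 432) ln16_13_5_c10 ln16_13_5_c10_ok) (L (nat_lit 591) ln15_18_6_c10 ln15_18_6_c10_ok))))))))) (M (nat_lit 496) (B (L (nat_lit 465) ln13_15_2 ln13_15_2_ok) (M (nat_lit 527) (B (M (nat_lit 528) (B (L (nat_lit 529) ln13_15_0 ln13_15_0_ok) (M (nat_lit 432) (B (L (nat_lit 559) ln16_13_5_c10 ln16_13_5_c10_ok) (L (nat_lit 400) ln16_12_5_c10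 ln16_12_5_c10_ok))))) (B (M (nat_lit 432) (B (L (nat_lit 400) ln16_12_5_c10 ln16_12_5_c10_ok) (M (nat_lit 559) (B (L (nat_lit 528) ln16_13_5_c10 ln16_13_5_c10_ok) (L (nat_lit 591) ln15_18_6_c10 ln15_18_6_c10_ok))))) (B (M (nat_lit 432) (B (L (nat_lit 400) ln16_12_5_c10 ln16_12_5_c10_ok) (M (nat_lit 559) (B (L (nat_lit 591) ln15_18_6_c10 ln15_18_6_c10_ok) (L (nat_lit 463) ln15_17_6 ln15_17_6_ok))))) (M (nat_lit 497) (B (M (nat_lit 529) (B (L (nat_lit 530) ln14_15_0 ln14_15_0_ok) (L (nat_lit 528) ln13_15_0 ln13_15_0_ok))) (B (M (nat_lit 498) (B (L (nat_lit 526) ln18_15_1_c10 ln18_15_1_c10_ok) (M (nat_lit 499) (B (L (nat_lit 528) ln19_15_1_c10 ln19_15_1_c10_ok) (L (nat_lit 463) ln19_15_3_c10 ln19_15_3_c10_ok))))) (M (nat_lit 498) (B (L (nat_lit 526) ln18_15_1_c10 ln18_15_1_c10_ok) (M (nat_lit 530) (B (L (nat_lit 531) ln15_15_0_c10 ln15_15_0_c10_ok) (L (nat_lit 529) ln14_15_0 ln14_15_0_ok))))))))))))))))))))))) c10_d513))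
noncomputable def c10_d515 : Cert := (B (M (nat_lit 557) (B (M (nat_lit 590) (B (L (nat_lit 558) ln13_14_4 ln13_14_4_ok) (M (nat_lit 589) (B (L (nat_lit 622) ln13_15_4_c10 ln13_15_4_c10_ok) (M (nat_lit 588) (B (L (nat_lit 556) ln13_14_5 ln13_14_5_ok) (L (nat_lit 620) ln13_15_5_c10 ln13_15_5_c10_ok))))))) (B (M (nat_lit 589) (B (M (nat_lit 460) (B (L (nat_lit 428) ln13_17_7 ln13_17_7_ok) (L (nat_lit 492) ln13_18_7 ln13_18_7_ok))) (M (nat_lit 588) (B (L (nat_lit 556) ln13_14_5 ln13_14_5_ok) (L (nat_lit 620) ln13_15_5_c10 ln13_15_5_c10_ok))))) (B (M (nat_lit 589) (B (M (nat_lit 460) (B (L (nat_lit 428) ln13_17_7 ln13_17_7_ok) (L (nat_lit 492) ln13_18_7 ln13_18_7_ok))) (M (nat_lit 590) (B (L (nat_lit 558) ln13_14_4 ln13_14_4_ok) (L (nat_lit 622) ln13_15_4_c10 ln13_15_4_c10_ok))))) (M (nat_lit 428) (B (L (nat_lit 396) ln13_16_7 ln13_16_7_ok) (L (nat_lit 460) ln13_17_7 ln13_17_7_ok))))))) (B (M (nat_lit 558) (B (M (nat_lit 590) (B (L (nat_lit 557) ln13_14_4 ln13_14_4_ok)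 (L (nat_lit 526) ln13_13_4 ln13_13_4_ok))) (B (M (nat_lit 524) (B (L (nat_lit 526) ln13_13_4 ln13_13_4_ok) (L (nat_lit 556) ln13_13_5 ln13_13_5_ok))) (M (nat_lit 557) (B (L (nat_lit 590) ln13_14_4 ln13_14_4_ok) (M (nat_lit 556) (B (L (nat_lit 588) ln13_14_5 ln13_14_5_ok) (L (nat_lit 524) ln13_13_5 ln13_13_5_ok)))))))) (B (M (nat_lit 557) (B (M (nat_lit 589) (B (M (nat_lit 590) (B (L (nat_lit 622) ln13_15_4_c10 ln13_15_4_c10_ok) (L (nat_lit 558) ln13_14_4 ln13_14_4_ok))) (M (nat_lit 460) (B (L (nat_lit 492) ln13_18_7 ln13_18_7_ok) (L (nat_lit 428) ln13_17_7 ln13_17_7_ok))))) (B (M (nat_lit 558) (B (L (nat_lit 590) ln13_14_4 ln13_14_4_ok) (L (nat_lit 526) ln13_13_4 ln13_13_4_ok))) (M (nat_lit 589) (B (M (nat_lit 460) (B (L (nat_lit 492) ln13_18_7 ln13_18_7_ok) (L (nat_lit 428) ln13_17_7 ln13_17_7_ok))) (M (nat_lit 621) (B (M (nat_lit 494) (B (L (nat_lit 526) ln13_19_6_c10 ln13_19_6_c10_ok) (L (nat_lit 462) ln13_18_6 ln13_18_6_ok))) (M (nat_lit 620) (B (L (nat_lit 652)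 ln13_16_5_c10 ln13_16_5_c10_ok) (L (nat_lit 588) ln13_15_5_c10 ln13_15_5_c10_ok)))))))))) (B (M (nat_lit 524) (B (L (nat_lit 556) ln13_13_5 ln13_13_5_ok) (M (nat_lit 526) (B (L (nat_lit 558) ln13_13_4 ln13_13_4_ok) (M (nat_lit 523) (B (M (nat_lit 494) (B (L (nat_lit 495) ln11_16_2 ln11_16_2_ok) (L (nat_lit 522) ln10_16_2 ln10_16_2_ok))) (B (M (nat_lit 522) (B (L (nat_lit 494) ln10_16_2 ln10_16_2_ok) (M (nat_lit 554) (B (L (nat_lit 555) ln14_16_1 ln14_16_1_ok) (L (nat_lit 553) ln13_16_1 ln13_16_1_ok))))) (B (M (nat_lit 522) (B (M (nat_lit 554) (B (L (nat_lit 555) ln14_16_1 ln14_16_1_ok) (L (nat_lit 553) ln13_16_1 ln13_16_1_ok))) (M (nat_lit 489) (B (L (nat_lit 490) ln13_16_3 ln13_16_3_ok) (M (nat_lit 521) (B (L (nat_lit 492) ln9_16_2 ln9_16_2_ok) (L (nat_lit 488) ln12_16_3 ln12_16_3_ok))))))) (M (nat_lit 527) (B (M (nat_lit 495) (B (L (nat_lit 496) ln12_16_2 ln12_16_2_ok) (L (nat_lit 494) ln11_16_2 ln11_16_2_ok))) (M (nat_lit 528) (B (L (nat_lit 492) ln16_16_3 ln16_16_3_ok)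 (M (nat_lit 560) (B (L (nat_lit 561) ln13_16_0 ln13_16_0_ok) (L (nat_lit 559) ln12_16_0 ln12_16_0_ok))))))))))))))) (M (nat_lit 557) (B (M (nat_lit 556) (B (L (nat_lit 588) ln13_14_5 ln13_14_5_ok) (M (nat_lit 428) (B (L (nat_lit 460) ln13_17_7 ln13_17_7_ok) (L (nat_lit 396) ln13_16_7 ln13_16_7_ok))))) (B (M (nat_lit 460) (B (L (nat_lit 428) ln13_17_7 ln13_17_7_ok) (M (nat_lit 589) (B (L (nat_lit 492) ln13_18_7 ln13_18_7_ok) (M (nat_lit 588) (B (L (nat_lit 556) ln13_14_5 ln13_14_5_ok) (L (nat_lit 620) ln13_15_5_c10 ln13_15_5_c10_ok))))))) (B (M (nat_lit 589) (B (M (nat_lit 588) (B (L (nat_lit 556) ln13_14_5 ln13_14_5_ok) (L (nat_lit 620) ln13_15_5_c10 ln13_15_5_c10_ok))) (M (nat_lit 621) (B (M (nat_lit 494) (B (L (nat_lit 462) ln13_18_6 ln13_18_6_ok) (L (nat_lit 526) ln13_19_6_c10 ln13_19_6_c10_ok))) (M (nat_lit 492) (B (L (nat_lit 460) ln13_18_7 ln13_18_7_ok) (L (nat_lit 524) ln13_19_7 ln13_19_7_ok))))))) (B (M (nat_lit 524) (B (L (nat_lit 556) ln13_13_5 ln13_13_5_ok)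 (M (nat_lit 494) (B (M (nat_lit 495) (B (L (nat_lit 496) ln16_15_1 ln16_15_1_ok) (M (nat_lit 523) (B (L (nat_lit 492) ln15_15_1 ln15_15_1_ok) (L (nat_lit 522) ln10_16_2 ln10_16_2_ok))))) (B (M (nat_lit 523) (B (L (nat_lit 522) ln10_16_2 ln10_16_2_ok) (M (nat_lit 495) (B (L (nat_lit 492) ln15_15_1 ln15_15_1_ok) (L (nat_lit 526) ln11_16_2 ln11_16_2_ok))))) (B (M (nat_lit 589) (B (L (nat_lit 462) ln13_18_6 ln13_18_6_ok) (M (nat_lit 621) (B (L (nat_lit 526) ln13_19_6_c10 ln13_19_6_c10_ok) (L (nat_lit 492) ln13_19_7 ln13_19_7_ok))))) (M (nat_lit 495) (B (L (nat_lit 496) ln16_15_1 ln16_15_1_ok) (M (nat_lit 523) (B (L (nat_lit 526) ln11_16_2 ln11_16_2_ok) (L (nat_lit 522) ln10_16_2 ln10_16_2_ok))))))))))) (M (nat_lit 494) (B (M (nat_lit 589) (B (L (nat_lit 462) ln13_18_6 ln13_18_6_ok) (M (nat_lit 460) (B (L (nat_lit 428) ln13_17_7 ln13_17_7_ok) (L (nat_lit 492) ln13_18_7 ln13_18_7_ok))))) (B (M (nat_lit 589) (B (L (nat_lit 462) ln13_18_6 ln13_18_6_ok) (M (nat_lit 621) (B (L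 (nat_lit 526) ln13_19_6_c10 ln13_19_6_c10_ok) (M (nat_lit 492) (B (L (nat_lit 460) ln13_18_7 ln13_18_7_ok) (L (nat_lit 524) ln13_19_7 ln13_19_7_ok))))))) (B (M (nat_lit 460) (B (L (nat_lit 428) ln13_17_7 ln13_17_7_ok) (M (nat_lit 459) (B (L (nat_lit 458) ln10_14_0 ln10_14_0_ok) (M (nat_lit 495) (B (L (nat_lit 496) ln16_15_3 ln16_15_3_ok) (L (nat_lit 492) ln15_15_3 ln15_15_3_ok))))))) (B (M (nat_lit 524) (B (M (nat_lit 589) (B (L (nat_lit 462) ln13_18_6 ln13_18_6_ok) (M (nat_lit 621) (B (L (nat_lit 526) ln13_19_6_c10 ln13_19_6_c10_ok) (L (nat_lit 492) ln13_19_7 ln13_19_7_ok))))) (B (M (nat_lit 495) (B (L (nat_lit 496) ln16_15_1 ln16_15_1_ok) (M (nat_lit 523) (B (L (nat_lit 526) ln11_16_2 ln11_16_2_ok) (L (nat_lit 522) ln10_16_2 ln10_16_2_ok))))) (M (nat_lit 495) (B (L (nat_lit 496) ln16_15_1 ln16_15_1_ok) (M (nat_lit 523) (B (L (nat_lit 492) ln15_15_1 ln15_15_1_ok) (L (nat_lit 522) ln10_16_2 ln10_16_2_ok)))))))) (M (nat_lit 462) (B (L (nat_lit 589) ln13_18_6 ln13_18_6_ok)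 (M (nat_lit 460) (B (L (nat_lit 428) ln13_17_7 ln13_17_7_ok) (M (nat_lit 495) (B (L (nat_lit 459) ln11_14_0 ln11_14_0_ok) (L (nat_lit 496) ln16_15_3 ln16_15_3_ok)))))))))))))))))))))
noncomputable def c10_d516 : Cert := (B (M (nat_lit 492) (B (M (nat_lit 462) (B (L (nat_lit 490) ln10_15_2 ln10_15_2_ok) (M (nat_lit 463) (B (L (nat_lit 494) ln11_15_2 ln11_15_2_ok) (L (nat_lit 460) ln15_14_1 ln15_14_1_ok))))) (B (M (nat_lit 460) (B (M (nat_lit 524) (B (L (nat_lit 556) ln12_17_6 ln12_17_6_ok) (L (nat_lit 395) ln12_16_7 ln12_16_7_ok))) (M (nat_lit 396) (B (L (nat_lit 523) ln12_12_5 ln12_12_5_ok) (L (nat_lit 364) ln12_11_4 ln12_11_4_ok))))) (M (nat_lit 462) (B (L (nat_lit 490) ln10_15_2 ln10_15_2_ok) (M (nat_lit 463) (B (L (nat_lit 494) ln11_15_2 ln11_15_2_ok) (L (nat_lit 464) ln16_14_1 ln16_14_1_ok)))))))) (B (M (nat_lit 459) (B (M (nat_lit 396) (B (L (nat_lit 523) ln11_16_6 ln11_16_6_ok) (M (nat_lit 364) (B (L (nat_lit 460) ln12_11_4 ln12_11_4_ok) (L (nat_lit 395) ln11_15_6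 ln11_15_6_ok))))) (B (M (nat_lit 460) (B (M (nat_lit 458) (B (L (nat_lit 494) ln10_14_0 ln10_14_0_ok) (L (nat_lit 457) ln9_14_2 ln9_14_2_ok))) (M (nat_lit 462) (B (L (nat_lit 490) ln14_14_1 ln14_14_1_ok) (L (nat_lit 463) ln15_14_3 ln15_14_3_ok))))) (M (nat_lit 396) (B (L (nat_lit 523) ln11_16_6 ln11_16_6_ok) (M (nat_lit 364) (B (L (nat_lit 395) ln11_15_6 ln11_15_6_ok) (L (nat_lit 332) ln12_10_4 ln12_10_4_ok)))))))) (B (M (nat_lit 492) (B (M (nat_lit 462) (B (L (nat_lit 490) ln10_15_2 ln10_15_2_ok) (M (nat_lit 463) (B (L (nat_lit 494) ln11_15_2 ln11_15_2_ok) (L (nat_lit 460) ln15_14_1 ln15_14_1_ok))))) (B (M (nat_lit 494) (B (M (nat_lit 462) (B (L (nat_lit 463) ln11_15_2 ln11_15_2_ok) (M (nat_lit 526) (B (L (nat_lit 558) ln14_17_7 ln14_17_7_ok) (L (nat_lit 527) ln11_15_0 ln11_15_0_ok))))) (M (nat_lit 524) (B (M (nat_lit 556) (B (L (nat_lit 588) ln12_18_6 ln12_18_6_ok) (L (nat_lit 460) ln12_17_6 ln12_17_6_ok))) (B (M (nat_lit 460) (B (L (nat_lit 556) ln12_17_6 ln12_17_6_ok)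 (L (nat_lit 395) ln12_16_7 ln12_16_7_ok))) (M (nat_lit 459) (B (L (nat_lit 395) ln11_12_4 ln11_12_4_ok) (L (nat_lit 458) ln14_15_3 ln14_15_3_ok)))))))) (B (M (nat_lit 462) (B (L (nat_lit 490) ln10_15_2 ln10_15_2_ok) (M (nat_lit 463) (B (L (nat_lit 460) ln15_14_1 ln15_14_1_ok) (L (nat_lit 464) ln16_14_1 ln16_14_1_ok))))) (B (M (nat_lit 462) (B (L (nat_lit 490) ln10_15_2 ln10_15_2_ok) (M (nat_lit 463) (B (L (nat_lit 494) ln11_15_2 ln11_15_2_ok) (L (nat_lit 464) ln16_14_1 ln16_14_1_ok))))) (M (nat_lit 459) (B (M (nat_lit 524) (B (L (nat_lit 395) ln11_12_4 ln11_12_4_ok) (M (nat_lit 556) (B (L (nat_lit 588) ln12_18_6 ln12_18_6_ok) (L (nat_lit 460) ln12_17_6 ln12_17_6_ok))))) (M (nat_lit 458) (B (L (nat_lit 494) ln14_15_3 ln14_15_3_ok) (M (nat_lit 457) (B (L (nat_lit 490) ln13_15_3 ln13_15_3_ok) (L (nat_lit 456) ln8_14_0 ln8_14_0_ok)))))))))))) (B (M (nat_lit 459) (B (M (nat_lit 396) (B (L (nat_lit 523) ln11_16_6 ln11_16_6_ok) (M (nat_lit 364) (B (L (nat_lit 460) ln12_11_4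 ln12_11_4_ok) (L (nat_lit 395) ln11_15_6 ln11_15_6_ok))))) (B (M (nat_lit 395) (B (M (nat_lit 396) (B (L (nat_lit 364) ln11_15_6 ln11_15_6_ok) (M (nat_lit 394) (B (L (nat_lit 362) ln11_15_7 ln11_15_7_ok) (L (nat_lit 393) ln9_12_0 ln9_12_0_ok))))) (M (nat_lit 460) (B (M (nat_lit 492) (B (L (nat_lit 524) ln11_12_4 ln11_12_4_ok) (L (nat_lit 363) ln11_11_4 ln11_11_4_ok))) (M (nat_lit 458) (B (L (nat_lit 494) ln10_14_0 ln10_14_0_ok) (L (nat_lit 457) ln9_14_2 ln9_14_2_ok))))))) (B (M (nat_lit 396) (B (L (nat_lit 523) ln11_16_6 ln11_16_6_ok) (M (nat_lit 364) (B (L (nat_lit 395) ln11_15_6 ln11_15_6_ok) (L (nat_lit 332) ln12_10_4 ln12_10_4_ok))))) (B (M (nat_lit 396) (B (L (nat_lit 523) ln11_16_6 ln11_16_6_ok) (M (nat_lit 364) (B (L (nat_lit 460) ln12_11_4 ln12_11_4_ok) (L (nat_lit 332) ln12_10_4 ln12_10_4_ok))))) (M (nat_lit 492) (B (M (nat_lit 524) (B (L (nat_lit 395) ln11_12_4 ln11_12_4_ok) (M (nat_lit 556) (B (L (nat_lit 588) ln12_18_6 ln12_18_6_ok) (L (nat_lit 460) ln12_17_6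 ln12_17_6_ok))))) (B (M (nat_lit 524) (B (L (nat_lit 395) ln11_12_4 ln11_12_4_ok) (M (nat_lit 556) (B (L (nat_lit 523) ln11_13_4 ln11_13_4_ok) (L (nat_lit 460) ln12_17_6 ln12_17_6_ok))))) (B (M (nat_lit 458) (B (L (nat_lit 494) ln14_15_3 ln14_15_3_ok) (M (nat_lit 457) (B (L (nat_lit 456) ln8_14_0 ln8_14_0_ok) (L (nat_lit 460) ln9_14_0 ln9_14_0_ok))))) (M (nat_lit 524) (B (L (nat_lit 395) ln11_12_4 ln11_12_4_ok) (M (nat_lit 556) (B (L (nat_lit 588) ln12_18_6 ln12_18_6_ok) (L (nat_lit 523) ln11_13_4 ln11_13_4_ok)))))))))))))) (B (M (nat_lit 460) (B (M (nat_lit 462) (B (L (nat_lit 463) ln15_14_3 ln15_14_3_ok) (M (nat_lit 490) (B (L (nat_lit 492) ln10_15_2 ln10_15_2_ok) (L (nat_lit 459) ln14_14_1 ln14_14_1_ok))))) (B (M (nat_lit 396) (B (L (nat_lit 364) ln12_11_4 ln12_11_4_ok) (M (nat_lit 523) (B (L (nat_lit 492) ln12_12_5 ln12_12_5_ok) (L (nat_lit 459) ln11_16_6 ln11_16_6_ok))))) (B (M (nat_lit 459) (B (M (nat_lit 523) (B (L (nat_lit 555) ln11_17_6 ln11_17_6_ok) (L (nat_lit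 396) ln11_16_6 ln11_16_6_ok))) (M (nat_lit 462) (B (L (nat_lit 490) ln14_14_1 ln14_14_1_ok) (L (nat_lit 463) ln15_14_3 ln15_14_3_ok))))) (M (nat_lit 492) (B (M (nat_lit 396) (B (L (nat_lit 523) ln12_12_5 ln12_12_5_ok) (L (nat_lit 364) ln12_11_4 ln12_11_4_ok))) (M (nat_lit 462) (B (L (nat_lit 490) ln10_15_2 ln10_15_2_ok) (L (nat_lit 463) ln15_14_1 ln15_14_1_ok))))))))) (M (nat_lit 492) (B (M (nat_lit 462) (B (L (nat_lit 490) ln10_15_2 ln10_15_2_ok) (M (nat_lit 463) (B (L (nat_lit 494) ln11_15_2 ln11_15_2_ok) (L (nat_lit 464) ln16_14_1 ln16_14_1_ok))))) (B (M (nat_lit 494) (B (M (nat_lit 462) (B (L (nat_lit 463) ln11_15_2 ln11_15_2_ok) (M (nat_lit 526) (B (L (nat_lit 558) ln14_17_7 ln14_17_7_ok) (L (nat_lit 527) ln11_15_0 ln11_15_0_ok))))) (M (nat_lit 523) (B (L (nat_lit 522) ln14_15_1 ln14_15_1_ok) (M (nat_lit 459) (B (L (nat_lit 396) ln11_16_6 ln11_16_6_ok) (L (nat_lit 458) ln14_15_3 ln14_15_3_ok))))))) (B (M (nat_lit 490) (B (L (nat_lit 462) ln10_15_2 ln10_15_2_ok)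 (M (nat_lit 489) (B (M (nat_lit 521) (B (L (nat_lit 520) ln12_15_1 ln12_15_1_ok) (L (nat_lit 522) ln13_15_1 ln13_15_1_ok))) (M (nat_lit 457) (B (L (nat_lit 456) ln12_15_3 ln12_15_3_ok) (L (nat_lit 458) ln13_15_3 ln13_15_3_ok))))))) (M (nat_lit 459) (B (M (nat_lit 524) (B (L (nat_lit 395) ln11_12_4 ln11_12_4_ok) (M (nat_lit 523) (B (L (nat_lit 556) ln11_13_4 ln11_13_4_ok) (L (nat_lit 396) ln11_16_6 ln11_16_6_ok))))) (M (nat_lit 458) (B (L (nat_lit 494) ln14_15_3 ln14_15_3_ok) (M (nat_lit 457) (B (L (nat_lit 490) ln13_15_3 ln13_15_3_ok) (L (nat_lit 456) ln8_14_0 ln8_14_0_ok))))))))))))))))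
noncomputable def c10_d517 : Cert := (B (M (nat_lit 462) (B (M (nat_lit 463) (B (L (nat_lit 464) ln16_14_1 ln16_14_1_ok) (L (nat_lit 460) ln15_14_3 ln15_14_3_ok))) (B (M (nat_lit 463) (B (L (nat_lit 464) ln16_14_1 ln16_14_1_ok) (M (nat_lit 491) (B (L (nat_lit 490) ln10_15_2 ln10_15_2_ok) (L (nat_lit 494) ln11_15_2 ln11_15_2_ok))))) (M (nat_lit 494) (B (M (nat_lit 491) (B (L (nat_lit 490) ln10_15_2 ln10_15_2_ok) (M (nat_lit 526) (B (L (nat_lit 558) ln14_17_7 ln14_17_7_ok) (L (nat_lit 527) ln11_15_0 ln11_15_0_ok))))) (M (nat_lit 460) (B (M (nat_lit 524) (B (L (nat_lit 556) ln12_17_6 ln12_17_6_ok) (L (nat_lit 395) ln12_16_7 ln12_16_7_ok))) (M (nat_lit 459) (B (L (nat_lit 495) ln11_14_0 ln11_14_0_ok) (L (nat_lit 458) ln10_14_0 ln10_14_0_ok)))))))))) (B (M (nat_lit 491) (B (M (nat_lit 462) (B (L (nat_lit 490) ln10_15_2 ln10_15_2_ok) (M (nat_lit 463) (B (L (nat_lit 494) ln11_15_2 ln11_15_2_ok) (L (nat_lit 460) ln15_14_1 ln15_14_1_ok))))) (B (M (nat_lit 494) (B (M (nat_lit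 462) (B (L (nat_lit 463) ln11_15_2 ln11_15_2_ok) (M (nat_lit 526) (B (L (nat_lit 558) ln14_17_7 ln14_17_7_ok) (L (nat_lit 527) ln11_15_0 ln11_15_0_ok))))) (B (M (nat_lit 495) (B (M (nat_lit 523) (B (L (nat_lit 522) ln14_15_1 ln14_15_1_ok) (L (nat_lit 524) ln15_15_1 ln15_15_1_ok))) (M (nat_lit 463) (B (L (nat_lit 462) ln11_15_2 ln11_15_2_ok) (L (nat_lit 464) ln12_15_2 ln12_15_2_ok))))) (M (nat_lit 526) (B (L (nat_lit 527) ln11_15_0 ln11_15_0_ok) (M (nat_lit 558) (B (L (nat_lit 590) ln14_18_7 ln14_18_7_ok) (L (nat_lit 525) ln13_13_4 ln13_13_4_ok)))))))) (B (M (nat_lit 462) (B (L (nat_lit 490) ln10_15_2 ln10_15_2_ok) (M (nat_lit 463) (B (L (nat_lit 460) ln15_14_1 ln15_14_1_ok) (L (nat_lit 464) ln16_14_1 ln16_14_1_ok))))) (M (nat_lit 494) (B (M (nat_lit 526) (B (L (nat_lit 527) ln11_15_0 ln11_15_0_ok) (M (nat_lit 558) (B (L (nat_lit 590) ln14_18_7 ln14_18_7_ok) (L (nat_lit 525) ln13_13_4 ln13_13_4_ok))))) (M (nat_lit 495) (B (M (nat_lit 523) (B (L (nat_lit 522) ln14_15_1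 ln14_15_1_ok) (L (nat_lit 524) ln15_15_1 ln15_15_1_ok))) (M (nat_lit 459) (B (L (nat_lit 458) ln14_15_3 ln14_15_3_ok) (L (nat_lit 460) ln15_15_3 ln15_15_3_ok))))))))))) (B (M (nat_lit 491) (B (M (nat_lit 462) (B (L (nat_lit 490) ln10_15_2 ln10_15_2_ok) (M (nat_lit 463) (B (L (nat_lit 494) ln11_15_2 ln11_15_2_ok) (L (nat_lit 460) ln15_14_1 ln15_14_1_ok))))) (B (M (nat_lit 494) (B (M (nat_lit 462) (B (L (nat_lit 463) ln11_15_2 ln11_15_2_ok) (M (nat_lit 526) (B (L (nat_lit 558) ln14_17_7 ln14_17_7_ok) (L (nat_lit 527) ln11_15_0 ln11_15_0_ok))))) (B (M (nat_lit 495) (B (M (nat_lit 459) (B (L (nat_lit 458) ln14_15_3 ln14_15_3_ok) (L (nat_lit 460) ln15_15_3 ln15_15_3_ok))) (M (nat_lit 463) (B (L (nat_lit 462) ln11_15_2 ln11_15_2_ok) (L (nat_lit 464) ln12_15_2 ln12_15_2_ok))))) (M (nat_lit 526) (B (L (nat_lit 527) ln11_15_0 ln11_15_0_ok) (M (nat_lit 558) (B (L (nat_lit 590) ln14_18_7 ln14_18_7_ok) (L (nat_lit 525) ln13_13_4 ln13_13_4_ok)))))))) (B (M (nat_lit 462) (B (L (nat_lit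 490) ln10_15_2 ln10_15_2_ok) (M (nat_lit 463) (B (L (nat_lit 460) ln15_14_1 ln15_14_1_ok) (L (nat_lit 464) ln16_14_1 ln16_14_1_ok))))) (B (M (nat_lit 462) (B (L (nat_lit 490) ln10_15_2 ln10_15_2_ok) (M (nat_lit 463) (B (L (nat_lit 494) ln11_15_2 ln11_15_2_ok) (L (nat_lit 464) ln16_14_1 ln16_14_1_ok))))) (M (nat_lit 494) (B (M (nat_lit 526) (B (L (nat_lit 527) ln11_15_0 ln11_15_0_ok) (M (nat_lit 558) (B (L (nat_lit 590) ln14_18_7 ln14_18_7_ok) (L (nat_lit 525) ln13_13_4 ln13_13_4_ok))))) (B (M (nat_lit 526) (B (L (nat_lit 527) ln11_15_0 ln11_15_0_ok) (M (nat_lit 525) (B (L (nat_lit 558) ln13_13_4 ln13_13_4_ok) (L (nat_lit 490) ln10_15_0 ln10_15_0_ok))))) (B (M (nat_lit 490) (B (M (nat_lit 522) (B (L (nat_lit 521) ln13_15_1 ln13_15_1_ok) (L (nat_lit 523) ln14_15_1 ln14_15_1_ok))) (M (nat_lit 526) (B (L (nat_lit 525) ln10_15_0 ln10_15_0_ok) (L (nat_lit 527) ln11_15_0 ln11_15_0_ok))))) (M (nat_lit 490) (B (M (nat_lit 522) (B (L (nat_lit 521) ln13_15_1 ln13_15_1_ok) (L (nat_lit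 523) ln14_15_1 ln14_15_1_ok))) (M (nat_lit 458) (B (L (nat_lit 457) ln13_15_3 ln13_15_3_ok) (L (nat_lit 459) ln14_15_3 ln14_15_3_ok)))))))))))))) (B (M (nat_lit 524) (B (M (nat_lit 556) (B (L (nat_lit 588) ln12_18_6 ln12_18_6_ok) (L (nat_lit 525) ln13_13_5 ln13_13_5_ok))) (B (M (nat_lit 556) (B (L (nat_lit 525) ln13_13_5 ln13_13_5_ok) (L (nat_lit 460) ln12_17_6 ln12_17_6_ok))) (B (M (nat_lit 523) (B (M (nat_lit 460) (B (L (nat_lit 555) ln12_13_5 ln12_13_5_ok) (L (nat_lit 395) ln12_16_7 ln12_16_7_ok))) (M (nat_lit 522) (B (L (nat_lit 521) ln9_16_2 ln9_16_2_ok) (M (nat_lit 494) (B (L (nat_lit 525) ln10_16_2 ln10_16_2_ok) (L (nat_lit 495) ln15_15_1 ln15_15_1_ok))))))) (M (nat_lit 460) (B (L (nat_lit 556) ln12_17_6 ln12_17_6_ok) (L (nat_lit 395) ln12_16_7 ln12_16_7_ok))))))) (B (M (nat_lit 524) (B (M (nat_lit 556) (B (L (nat_lit 588) ln12_18_6 ln12_18_6_ok) (L (nat_lit 525) ln13_13_5 ln13_13_5_ok))) (B (M (nat_lit 556) (B (L (nat_lit 525) ln13_13_5 ln13_13_5_ok) (L (nat_lit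 460) ln12_17_6 ln12_17_6_ok))) (B (M (nat_lit 491) (B (M (nat_lit 395) (B (L (nat_lit 459) ln11_12_4 ln11_12_4_ok) (L (nat_lit 460) ln12_16_7 ln12_16_7_ok))) (B (M (nat_lit 490) (B (L (nat_lit 462) ln10_15_2 ln10_15_2_ok) (M (nat_lit 460) (B (L (nat_lit 395) ln12_16_7 ln12_16_7_ok) (L (nat_lit 489) ln9_15_2 ln9_15_2_ok))))) (M (nat_lit 490) (B (L (nat_lit 462) ln10_15_2 ln10_15_2_ok) (M (nat_lit 525) (B (L (nat_lit 489) ln9_15_0 ln9_15_0_ok) (L (nat_lit 526) ln10_15_0 ln10_15_0_ok)))))))) (M (nat_lit 460) (B (L (nat_lit 556) ln12_17_6 ln12_17_6_ok) (L (nat_lit 395) ln12_16_7 ln12_16_7_ok))))))) (M (nat_lit 491) (B (M (nat_lit 462) (B (L (nat_lit 490) ln10_15_2 ln10_15_2_ok) (M (nat_lit 463) (B (L (nat_lit 494) ln11_15_2 ln11_15_2_ok) (L (nat_lit 464) ln16_14_1 ln16_14_1_ok))))) (B (M (nat_lit 524) (B (M (nat_lit 556) (B (L (nat_lit 588) ln12_18_6 ln12_18_6_ok) (L (nat_lit 525) ln13_13_5 ln13_13_5_ok))) (B (M (nat_lit 459) (B (L (nat_lit 395) ln11_12_4 ln11_12_4_ok)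 (M (nat_lit 556) (B (L (nat_lit 523) ln11_13_4 ln11_13_4_ok) (L (nat_lit 525) ln13_13_5 ln13_13_5_ok))))) (M (nat_lit 494) (B (M (nat_lit 523) (B (L (nat_lit 522) ln14_15_1 ln14_15_1_ok) (L (nat_lit 495) ln15_15_1 ln15_15_1_ok))) (M (nat_lit 459) (B (L (nat_lit 395) ln11_12_4 ln11_12_4_ok) (L (nat_lit 458) ln14_15_3 ln14_15_3_ok)))))))) (M (nat_lit 490) (B (L (nat_lit 462) ln10_15_2 ln10_15_2_ok) (M (nat_lit 525) (B (L (nat_lit 526) ln10_15_0 ln10_15_0_ok) (M (nat_lit 524) (B (L (nat_lit 556) ln13_13_5 ln13_13_5_ok) (L (nat_lit 489) ln9_15_0 ln9_15_0_ok)))))))))))))))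
noncomputable def c10_d518 : Cert := (B (M (nat_lit 492) (B (M (nat_lit 524) (B (L (nat_lit 556) ln13_13_5 ln13_13_5_ok) (M (nat_lit 526) (B (L (nat_lit 558) ln13_13_4 ln13_13_4_ok) (M (nat_lit 527) (B (L (nat_lit 528) ln16_16_3 ln16_16_3_ok) (L (nat_lit 491) ln15_16_3 ln15_16_3_ok))))))) (B (M (nat_lit 428) (B (L (nat_lit 396) ln13_16_7 ln13_16_7_ok) (M (nat_lit 427) (B (M (nat_lit 462) (B (L (nat_lit 426) ln10_13_0 ln10_13_0_ok) (M (nat_lit 463) (B (L (nat_lit 464) ln16_14_1 ln16_14_1_ok) (L (nat_lit 460) ln15_14_3 ln15_14_3_ok))))) (B (M (nat_lit 524) (B (L (nat_lit 556) ln13_13_5 ln13_13_5_ok) (M (nat_lit 460) (B (L (nat_lit 395) ln12_16_7 ln12_16_7_ok) (M (nat_lit 495) (B (M (nat_lit 494) (B (L (nat_lit 496) ln16_15_1 ln16_15_1_ok) (L (nat_lit 459) ln15_15_3 ln15_15_3_ok))) (B (M (nat_lit 494) (B (L (nat_lit 496) ln16_15_1 ln16_15_1_ok) (M (nat_lit 463) (B (L (nat_lit 462) ln15_14_3 ln15_14_3_ok) (L (nat_lit 464) ln12_15_2 ln12_15_2_ok))))) (B (M (nat_lit 494)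 (B (L (nat_lit 459) ln15_15_3 ln15_15_3_ok) (M (nat_lit 463) (B (L (nat_lit 462) ln15_14_3 ln15_14_3_ok) (L (nat_lit 464) ln12_15_2 ln12_15_2_ok))))) (M (nat_lit 526) (B (L (nat_lit 558) ln13_13_4 ln13_13_4_ok) (M (nat_lit 527) (B (L (nat_lit 496) ln12_16_2 ln12_16_2_ok) (L (nat_lit 528) ln16_16_3 ln16_16_3_ok))))))))))))) (B (M (nat_lit 460) (B (M (nat_lit 524) (B (L (nat_lit 395) ln12_16_7 ln12_16_7_ok) (L (nat_lit 556) ln13_13_5 ln13_13_5_ok))) (M (nat_lit 426) (B (L (nat_lit 462) ln10_13_0 ln10_13_0_ok) (L (nat_lit 425) ln9_13_0 ln9_13_0_ok))))) (B (M (nat_lit 426) (B (M (nat_lit 460) (B (L (nat_lit 425) ln9_13_0 ln9_13_0_ok) (M (nat_lit 524) (B (L (nat_lit 395) ln12_16_7 ln12_16_7_ok) (L (nat_lit 556) ln13_13_5 ln13_13_5_ok))))) (B (M (nat_lit 425) (B (L (nat_lit 460) ln9_13_0 ln9_13_0_ok) (M (nat_lit 393) (B (L (nat_lit 394) ln13_13_3 ln13_13_3_ok) (L (nat_lit 392) ln12_13_3 ln12_13_3_ok))))) (B (M (nat_lit 458) (B (L (nat_lit 457) ln13_13_1 ln13_13_1_ok) (M (nat_lit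 395) (B (M (nat_lit 524) (B (L (nat_lit 460) ln12_16_7 ln12_16_7_ok) (L (nat_lit 556) ln13_13_5 ln13_13_5_ok))) (M (nat_lit 363) (B (L (nat_lit 331) ln11_10_5 ln11_10_5_ok) (M (nat_lit 490) (B (L (nat_lit 459) ln11_11_5 ln11_11_5_ok) (L (nat_lit 522) ln10_16_6 ln10_16_6_ok))))))))) (M (nat_lit 425) (B (M (nat_lit 393) (B (L (nat_lit 394) ln13_13_3 ln13_13_3_ok) (L (nat_lit 392) ln12_13_3 ln12_13_3_ok))) (M (nat_lit 457) (B (L (nat_lit 458) ln13_13_1 ln13_13_1_ok) (L (nat_lit 456) ln12_13_1 ln12_13_1_ok))))))))) (M (nat_lit 426) (B (L (nat_lit 462) ln10_13_0 ln10_13_0_ok) (M (nat_lit 425) (B (M (nat_lit 393) (B (L (nat_lit 394) ln13_13_3 ln13_13_3_ok) (L (nat_lit 392) ln12_13_3 ln12_13_3_ok))) (M (nat_lit 457) (B (L (nat_lit 458) ln13_13_1 ln13_13_1_ok) (L (nat_lit 456) ln12_13_1 ln12_13_1_ok)))))))))))))) (B (M (nat_lit 524) (B (L (nat_lit 556) ln13_13_5 ln13_13_5_ok) (M (nat_lit 526) (B (L (nat_lit 558) ln13_13_4 ln13_13_4_ok) (M (nat_lit 491) (B (L (nat_lit 490) ln10_15_0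 ln10_15_0_ok) (L (nat_lit 527) ln15_16_3 ln15_16_3_ok))))))) (B (M (nat_lit 428) (B (L (nat_lit 396) ln13_16_7 ln13_16_7_ok) (M (nat_lit 427) (B (M (nat_lit 462) (B (L (nat_lit 426) ln10_13_0 ln10_13_0_ok) (M (nat_lit 463) (B (L (nat_lit 464) ln16_14_1 ln16_14_1_ok) (L (nat_lit 460) ln15_14_3 ln15_14_3_ok))))) (B (M (nat_lit 524) (B (L (nat_lit 556) ln13_13_5 ln13_13_5_ok) (M (nat_lit 491) (B (M (nat_lit 395) (B (L (nat_lit 460) ln12_16_7 ln12_16_7_ok) (L (nat_lit 459) ln11_12_4 ln11_12_4_ok))) (M (nat_lit 526) (B (L (nat_lit 558) ln13_13_4 ln13_13_4_ok) (L (nat_lit 490) ln10_15_0 ln10_15_0_ok))))))) (M (nat_lit 462) (B (L (nat_lit 426) ln10_13_0 ln10_13_0_ok) (M (nat_lit 463) (B (L (nat_lit 464) ln16_14_1 ln16_14_1_ok) (M (nat_lit 491) (B (L (nat_lit 494) ln11_15_2 ln11_15_2_ok) (L (nat_lit 490) ln10_15_2 ln10_15_2_ok)))))))))))) (B (M (nat_lit 462) (B (M (nat_lit 463) (B (L (nat_lit 464) ln16_14_1 ln16_14_1_ok) (M (nat_lit 491) (B (L (nat_lit 460) ln15_14_1 ln15_14_1_ok)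 (L (nat_lit 494) ln11_15_2 ln11_15_2_ok))))) (B (M (nat_lit 491) (B (L (nat_lit 490) ln10_15_2 ln10_15_2_ok) (M (nat_lit 463) (B (L (nat_lit 460) ln15_14_1 ln15_14_1_ok) (L (nat_lit 494) ln11_15_2 ln11_15_2_ok))))) (B (M (nat_lit 491) (B (L (nat_lit 490) ln10_15_2 ln10_15_2_ok) (M (nat_lit 459) (B (M (nat_lit 458) (B (L (nat_lit 494) ln14_15_3 ln14_15_3_ok) (M (nat_lit 457) (B (L (nat_lit 460) ln9_14_0 ln9_14_0_ok) (L (nat_lit 456) ln8_14_0 ln8_14_0_ok))))) (M (nat_lit 427) (B (M (nat_lit 524) (B (L (nat_lit 395) ln11_12_4 ln11_12_4_ok) (L (nat_lit 556) ln13_13_5 ln13_13_5_ok))) (M (nat_lit 428) (B (L (nat_lit 396) ln13_16_7 ln13_16_7_ok) (L (nat_lit 426) ln10_13_0 ln10_13_0_ok))))))))) (B (M (nat_lit 463) (B (L (nat_lit 464) ln16_14_1 ln16_14_1_ok) (M (nat_lit 491) (B (L (nat_lit 494) ln11_15_2 ln11_15_2_ok) (L (nat_lit 490) ln10_15_2 ln10_15_2_ok))))) (B (M (nat_lit 463) (B (L (nat_lit 464) ln16_14_1 ln16_14_1_ok) (M (nat_lit 491) (B (L (nat_lit 460) ln15_14_1 ln15_14_1_ok)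 (L (nat_lit 490) ln10_15_2 ln10_15_2_ok))))) (M (nat_lit 428) (B (L (nat_lit 396) ln13_16_7 ln13_16_7_ok) (M (nat_lit 427) (B (L (nat_lit 426) ln10_13_0 ln10_13_0_ok) (M (nat_lit 463) (B (L (nat_lit 464) ln16_14_1 ln16_14_1_ok) (L (nat_lit 460) ln15_14_3 ln15_14_3_ok))))))))))))) (M (nat_lit 526) (B (L (nat_lit 558) ln13_13_4 ln13_13_4_ok) (M (nat_lit 491) (B (L (nat_lit 490) ln10_15_0 ln10_15_0_ok) (M (nat_lit 527) (B (L (nat_lit 494) ln11_15_0 ln11_15_0_ok) (L (nat_lit 528) ln16_16_3 ln16_16_3_ok))))))))))))) (B (M (nat_lit 526) (B (L (nat_lit 558) ln13_13_4 ln13_13_4_ok) (M (nat_lit 524) (B (L (nat_lit 556) ln13_13_5 ln13_13_5_ok) (M (nat_lit 428) (B (L (nat_lit 396) ln13_16_7 ln13_16_7_ok) (M (nat_lit 492) (B (M (nat_lit 527) (B (L (nat_lit 528) ln16_16_3 ln16_16_3_ok) (L (nat_lit 491) ln15_16_3 ln15_16_3_ok))) (M (nat_lit 523) (B (M (nat_lit 494) (B (L (nat_lit 495) ln15_15_1 ln15_15_1_ok) (L (nat_lit 522) ln10_16_2 ln10_16_2_ok))) (M (nat_lit 555) (B (L (nat_lit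 460) ln12_13_5 ln12_13_5_ok) (L (nat_lit 554) ln14_16_1 ln14_16_1_ok))))))))))))) (M (nat_lit 428) (B (L (nat_lit 396) ln13_16_7 ln13_16_7_ok) (M (nat_lit 557) (B (L (nat_lit 460) ln13_17_7 ln13_17_7_ok) (M (nat_lit 558) (B (L (nat_lit 590) ln13_14_4 ln13_14_4_ok) (L (nat_lit 526) ln13_13_4 ln13_13_4_ok)))))))))
noncomputable def c10_d519 : Cert := (B (M (nat_lit 557) (B (M (nat_lit 558) (B (L (nat_lit 590) ln13_14_4 ln13_14_4_ok) (L (nat_lit 526) ln13_13_4 ln13_13_4_ok))) (M (nat_lit 428) (B (L (nat_lit 460) ln13_17_7 ln13_17_7_ok) (L (nat_lit 396) ln13_16_7 ln13_16_7_ok))))) (B (M (nat_lit 428) (B (L (nat_lit 396) ln13_16_7 ln13_16_7_ok) (M (nat_lit 556) (B (L (nat_lit 524) ln13_13_5 ln13_13_5_ok) (M (nat_lit 557) (B (L (nat_lit 588) ln13_14_5 ln13_14_5_ok) (L (nat_lit 460) ln13_17_7 ln13_17_7_ok))))))) (B (M (nat_lit 492) (B (M (nat_lit 526) (B (L (nat_lit 558) ln13_13_4 ln13_13_4_ok) (M (nat_lit 524) (B (L (nat_lit 556) ln13_13_5 ln13_13_5_ok) (M (nat_lit 527) (B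 (L (nat_lit 491) ln15_16_3 ln15_16_3_ok) (L (nat_lit 528) ln16_16_3 ln16_16_3_ok))))))) (B (M (nat_lit 526) (B (L (nat_lit 558) ln13_13_4 ln13_13_4_ok) (M (nat_lit 527) (B (L (nat_lit 528) ln16_16_3 ln16_16_3_ok) (M (nat_lit 491) (B (L (nat_lit 524) ln15_16_3 ln15_16_3_ok) (L (nat_lit 490) ln10_15_0 ln10_15_0_ok))))))) (B (M (nat_lit 462) (B (M (nat_lit 463) (B (L (nat_lit 464) ln16_14_1 ln16_14_1_ok) (M (nat_lit 491) (B (L (nat_lit 490) ln10_15_2 ln10_15_2_ok) (L (nat_lit 460) ln15_14_1 ln15_14_1_ok))))) (B (M (nat_lit 463) (B (L (nat_lit 464) ln16_14_1 ln16_14_1_ok) (M (nat_lit 491) (B (L (nat_lit 494) ln11_15_2 ln11_15_2_ok) (L (nat_lit 460) ln15_14_1 ln15_14_1_ok))))) (B (M (nat_lit 463) (B (L (nat_lit 464) ln16_14_1 ln16_14_1_ok) (M (nat_lit 428) (B (L (nat_lit 396) ln13_16_7 ln13_16_7_ok) (M (nat_lit 427) (B (L (nat_lit 460) ln15_14_3 ln15_14_3_ok) (L (nat_lit 426) ln10_13_0 ln10_13_0_ok))))))) (B (M (nat_lit 463) (B (L (nat_lit 464) ln16_14_1 ln16_14_1_ok) (M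 (nat_lit 491) (B (L (nat_lit 490) ln10_15_2 ln10_15_2_ok) (L (nat_lit 494) ln11_15_2 ln11_15_2_ok))))) (M (nat_lit 428) (B (L (nat_lit 396) ln13_16_7 ln13_16_7_ok) (M (nat_lit 524) (B (L (nat_lit 556) ln13_13_5 ln13_13_5_ok) (M (nat_lit 427) (B (L (nat_lit 426) ln10_13_0 ln10_13_0_ok) (M (nat_lit 491) (B (L (nat_lit 490) ln10_15_2 ln10_15_2_ok) (M (nat_lit 395) (B (L (nat_lit 459) ln11_12_4 ln11_12_4_ok) (L (nat_lit 460) ln12_16_7 ln12_16_7_ok)))))))))))))))) (B (M (nat_lit 526) (B (L (nat_lit 558) ln13_13_4 ln13_13_4_ok) (M (nat_lit 527) (B (L (nat_lit 528) ln16_16_3 ln16_16_3_ok) (M (nat_lit 491) (B (L (nat_lit 490) ln10_15_0 ln10_15_0_ok) (L (nat_lit 494) ln11_15_0 ln11_15_0_ok))))))) (M (nat_lit 495) (B (M (nat_lit 526) (B (L (nat_lit 558) ln13_13_4 ln13_13_4_ok) (M (nat_lit 524) (B (L (nat_lit 556) ln13_13_5 ln13_13_5_ok) (M (nat_lit 527) (B (L (nat_lit 496) ln12_16_2 ln12_16_2_ok) (L (nat_lit 528) ln16_16_3 ln16_16_3_ok))))))) (B (M (nat_lit 526) (B (L (nat_lit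 558) ln13_13_4 ln13_13_4_ok) (M (nat_lit 496) (B (M (nat_lit 527) (B (L (nat_lit 524) ln12_16_2 ln12_16_2_ok) (L (nat_lit 528) ln16_16_3 ln16_16_3_ok))) (M (nat_lit 494) (B (L (nat_lit 497) ln17_15_1 ln17_15_1_ok) (L (nat_lit 460) ln16_15_3 ln16_15_3_ok))))))) (B (M (nat_lit 524) (B (L (nat_lit 556) ln13_13_5 ln13_13_5_ok) (M (nat_lit 527) (B (M (nat_lit 496) (B (L (nat_lit 526) ln12_16_2 ln12_16_2_ok) (L (nat_lit 494) ln16_15_1 ln16_15_1_ok))) (B (M (nat_lit 494) (B (L (nat_lit 496) ln16_15_1 ln16_15_1_ok) (L (nat_lit 528) ln12_15_0 ln12_15_0_ok))) (B (M (nat_lit 526) (B (L (nat_lit 496) ln12_16_2 ln12_16_2_ok) (L (nat_lit 528) ln16_16_3 ln16_16_3_ok))) (M (nat_lit 528) (B (L (nat_lit 526) ln16_16_3 ln16_16_3_ok) (L (nat_lit 494) ln12_15_0 ln12_15_0_ok))))))))) (B (M (nat_lit 494) (B (M (nat_lit 460) (B (L (nat_lit 459) ln15_15_3 ln15_15_3_ok) (L (nat_lit 496) ln16_15_3 ln16_15_3_ok))) (M (nat_lit 527) (B (L (nat_lit 528) ln12_15_0 ln12_15_0_ok) (M (nat_lit 559) (B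 (M (nat_lit 591) (B (L (nat_lit 462) ln15_18_7 ln15_18_7_ok) (M (nat_lit 526) (B (L (nat_lit 623) ln15_19_7 ln15_19_7_ok) (L (nat_lit 558) ln13_13_4 ln13_13_4_ok))))) (B (M (nat_lit 558) (B (L (nat_lit 526) ln13_13_4 ln13_13_4_ok) (M (nat_lit 463) (B (L (nat_lit 590) ln15_14_5_c10 ln15_14_5_c10_ok) (L (nat_lit 464) ln12_15_2 ln12_15_2_ok))))) (M (nat_lit 592) (B (M (nat_lit 591) (B (L (nat_lit 624) ln15_15_4_c10 ln15_15_4_c10_ok) (L (nat_lit 462) ln15_18_7 ln15_18_7_ok))) (M (nat_lit 463) (B (L (nat_lit 560) ln15_14_4_c10 ln15_14_4_c10_ok) (L (nat_lit 464) ln12_15_2 ln12_15_2_ok)))))))))))) (B (M (nat_lit 460) (B (M (nat_lit 494) (B (L (nat_lit 459) ln15_15_3 ln15_15_3_ok) (L (nat_lit 496) ln16_15_3 ln16_15_3_ok))) (M (nat_lit 428) (B (L (nat_lit 396) ln12_12_4 ln12_12_4_ok) (M (nat_lit 427) (B (M (nat_lit 524) (B (L (nat_lit 556) ln13_13_5 ln13_13_5_ok) (L (nat_lit 395) ln12_16_7 ln12_16_7_ok))) (M (nat_lit 426) (B (L (nat_lit 425) ln9_13_0 ln9_13_0_ok) (L (nat_lit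 462) ln10_13_0 ln10_13_0_ok))))))))) (M (nat_lit 527) (B (M (nat_lit 526) (B (L (nat_lit 558) ln13_13_4 ln13_13_4_ok) (L (nat_lit 528) ln16_16_3 ln16_16_3_ok))) (B (M (nat_lit 528) (B (L (nat_lit 526) ln16_16_3 ln16_16_3_ok) (L (nat_lit 494) ln12_15_0 ln12_15_0_ok))) (B (M (nat_lit 460) (B (M (nat_lit 494) (B (L (nat_lit 528) ln12_15_0 ln12_15_0_ok) (L (nat_lit 459) ln15_15_3 ln15_15_3_ok))) (M (nat_lit 428) (B (L (nat_lit 396) ln12_12_4 ln12_12_4_ok) (M (nat_lit 427) (B (M (nat_lit 524) (B (L (nat_lit 556) ln13_13_5 ln13_13_5_ok) (L (nat_lit 395) ln12_16_7 ln12_16_7_ok))) (M (nat_lit 426) (B (L (nat_lit 425) ln9_13_0 ln9_13_0_ok) (L (nat_lit 462) ln10_13_0 ln10_13_0_ok))))))))) (M (nat_lit 463) (B (M (nat_lit 464) (B (L (nat_lit 494) ln12_15_2 ln12_15_2_ok) (L (nat_lit 462) ln16_14_1 ln16_14_1_ok))) (M (nat_lit 559) (B (M (nat_lit 558) (B (L (nat_lit 590) ln15_14_5_c10 ln15_14_5_c10_ok) (L (nat_lit 526) ln13_13_4 ln13_13_4_ok))) (B (M (nat_lit 560) (B (L (nat_lit 592)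 ln15_14_4_c10 ln15_14_4_c10_ok) (M (nat_lit 524) (B (L (nat_lit 556) ln13_13_5 ln13_13_5_ok) (L (nat_lit 526) ln12_16_0 ln12_16_0_ok))))) (M (nat_lit 591) (B (M (nat_lit 590) (B (L (nat_lit 622) ln15_15_5_c10 ln15_15_5_c10_ok) (L (nat_lit 558) ln15_14_5_c10 ln15_14_5_c10_ok))) (M (nat_lit 592) (B (L (nat_lit 624) ln15_15_4_c10 ln15_15_4_c10_ok) (L (nat_lit 560) ln15_14_4_c10 ln15_14_4_c10_ok))))))))))))))))))))))))) (M (nat_lit 557) (B (M (nat_lit 556) (B (L (nat_lit 588) ln13_14_5 ln13_14_5_ok) (L (nat_lit 524) ln13_13_5 ln13_13_5_ok))) (M (nat_lit 558) (B (L (nat_lit 590) ln13_14_4 ln13_14_4_ok) (L (nat_lit 526) ln13_13_4 ln13_13_4_ok))))))))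
noncomputable def c10_d520 : Cert := (B (M (nat_lit 525) (B (M (nat_lit 557) (B (M (nat_lit 590) (B (L (nat_lit 558) ln13_14_4 ln13_14_4_ok) (M (nat_lit 589) (B (L (nat_lit 622) ln13_15_4_c10 ln13_15_4_c10_ok) (M (nat_lit 588) (B (L (nat_lit 556) ln13_14_5 ln13_14_5_ok) (L (nat_lit 620) ln13_15_5_c10 ln13_15_5_c10_ok))))))) (B (M (nat_lit 589) (B (M (nat_lit 460) (B (L (nat_lit 428) ln13_17_7 ln13_17_7_ok) (L (nat_lit 492) ln13_18_7 ln13_18_7_ok))) (M (nat_lit 588) (B (L (nat_lit 556) ln13_14_5 ln13_14_5_ok) (L (nat_lit 620) ln13_15_5_c10 ln13_15_5_c10_ok))))) (B (M (nat_lit 589) (B (M (nat_lit 460) (B (L (nat_lit 428) ln13_17_7 ln13_17_7_ok) (L (nat_lit 492) ln13_18_7 ln13_18_7_ok))) (M (nat_lit 590) (B (L (nat_lit 558) ln13_14_4 ln13_14_4_ok) (L (nat_lit 622) ln13_15_4_c10 ln13_15_4_c10_ok))))) (M (nat_lit 428) (B (L (nat_lit 396) ln13_16_7 ln13_16_7_ok) (L (nat_lit 460) ln13_17_7 ln13_17_7_ok))))))) (B (M (nat_lit 557) (B (M (nat_lit 460) (B (L (nat_lit 428) ln13_17_7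 ln13_17_7_ok) (M (nat_lit 588) (B (L (nat_lit 556) ln13_14_5 ln13_14_5_ok) (M (nat_lit 589) (B (L (nat_lit 620) ln13_15_5_c10 ln13_15_5_c10_ok) (L (nat_lit 492) ln13_18_7 ln13_18_7_ok))))))) (B (M (nat_lit 589) (B (M (nat_lit 590) (B (L (nat_lit 622) ln13_15_4_c10 ln13_15_4_c10_ok) (L (nat_lit 558) ln13_14_4 ln13_14_4_ok))) (M (nat_lit 460) (B (L (nat_lit 492) ln13_18_7 ln13_18_7_ok) (L (nat_lit 428) ln13_17_7 ln13_17_7_ok))))) (M (nat_lit 556) (B (L (nat_lit 588) ln13_14_5 ln13_14_5_ok) (M (nat_lit 558) (B (L (nat_lit 590) ln13_14_4 ln13_14_4_ok) (M (nat_lit 555) (B (L (nat_lit 526) ln13_13_4 ln13_13_4_ok) (M (nat_lit 554) (B (M (nat_lit 586) (B (L (nat_lit 585) ln13_17_1 ln13_17_1_ok) (L (nat_lit 587) ln14_17_1 ln14_17_1_ok))) (M (nat_lit 522) (B (L (nat_lit 521) ln13_17_3 ln13_17_3_ok) (L (nat_lit 523) ln14_17_3 ln14_17_3_ok)))))))))))))) (B (M (nat_lit 556) (B (M (nat_lit 588) (B (L (nat_lit 557) ln13_14_5 ln13_14_5_ok) (L (nat_lit 524) ln13_13_5 ln13_13_5_ok)))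 (B (M (nat_lit 526) (B (L (nat_lit 524) ln13_13_5 ln13_13_5_ok) (L (nat_lit 558) ln13_13_4 ln13_13_4_ok))) (M (nat_lit 557) (B (L (nat_lit 588) ln13_14_5 ln13_14_5_ok) (M (nat_lit 558) (B (L (nat_lit 590) ln13_14_4 ln13_14_4_ok) (L (nat_lit 526) ln13_13_4 ln13_13_4_ok)))))))) (B (M (nat_lit 557) (B (M (nat_lit 558) (B (L (nat_lit 590) ln13_14_4 ln13_14_4_ok) (L (nat_lit 526) ln13_13_4 ln13_13_4_ok))) (M (nat_lit 428) (B (L (nat_lit 460) ln13_17_7 ln13_17_7_ok) (L (nat_lit 396) ln13_16_7 ln13_16_7_ok))))) (B (M (nat_lit 557) (B (M (nat_lit 428) (B (L (nat_lit 396) ln13_16_7 ln13_16_7_ok) (L (nat_lit 460) ln13_17_7 ln13_17_7_ok))) (M (nat_lit 556) (B (L (nat_lit 524) ln13_13_5 ln13_13_5_ok) (L (nat_lit 588) ln13_14_5 ln13_14_5_ok))))) (M (nat_lit 524) (B (L (nat_lit 556) ln13_13_5 ln13_13_5_ok) (M (nat_lit 526) (B (L (nat_lit 558) ln13_13_4 ln13_13_4_ok) (M (nat_lit 523) (B (M (nat_lit 490) (B (L (nat_lit 491) ln14_16_3 ln14_16_3_ok) (M (nat_lit 522) (B (L (nat_lit 489)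 ln13_16_3 ln13_16_3_ok) (M (nat_lit 554) (B (L (nat_lit 553) ln13_16_1 ln13_16_1_ok) (L (nat_lit 555) ln14_16_1 ln14_16_1_ok))))))) (B (M (nat_lit 492) (B (M (nat_lit 491) (B (L (nat_lit 490) ln10_15_0 ln10_15_0_ok) (L (nat_lit 527) ln15_16_3 ln15_16_3_ok))) (B (M (nat_lit 527) (B (L (nat_lit 491) ln15_16_3 ln15_16_3_ok) (L (nat_lit 528) ln16_16_3 ln16_16_3_ok))) (M (nat_lit 428) (B (L (nat_lit 396) ln13_16_7 ln13_16_7_ok) (M (nat_lit 555) (B (L (nat_lit 554) ln14_16_1 ln14_16_1_ok) (L (nat_lit 460) ln12_13_5 ln12_13_5_ok)))))))) (B (M (nat_lit 522) (B (M (nat_lit 490) (B (L (nat_lit 489) ln13_16_3 ln13_16_3_ok) (L (nat_lit 491) ln14_16_3 ln14_16_3_ok))) (B (M (nat_lit 492) (B (L (nat_lit 521) ln9_16_2 ln9_16_2_ok) (M (nat_lit 491) (B (L (nat_lit 490) ln10_15_0 ln10_15_0_ok) (L (nat_lit 527) ln15_16_3 ln15_16_3_ok))))) (B (M (nat_lit 492) (B (L (nat_lit 521) ln9_16_2 ln9_16_2_ok) (M (nat_lit 527) (B (L (nat_lit 491) ln15_16_3 ln15_16_3_ok) (L (nat_lit 528) ln16_16_3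 ln16_16_3_ok))))) (M (nat_lit 521) (B (L (nat_lit 492) ln9_16_2 ln9_16_2_ok) (M (nat_lit 489) (B (L (nat_lit 488) ln12_16_3 ln12_16_3_ok) (L (nat_lit 490) ln13_16_3 ln13_16_3_ok))))))))) (B (M (nat_lit 492) (B (M (nat_lit 527) (B (L (nat_lit 491) ln15_16_3 ln15_16_3_ok) (L (nat_lit 528) ln16_16_3 ln16_16_3_ok))) (M (nat_lit 428) (B (L (nat_lit 396) ln13_16_7 ln13_16_7_ok) (M (nat_lit 555) (B (L (nat_lit 554) ln14_16_1 ln14_16_1_ok) (L (nat_lit 460) ln12_13_5 ln12_13_5_ok))))))) (M (nat_lit 522) (B (M (nat_lit 554) (B (L (nat_lit 553) ln13_16_1 ln13_16_1_ok) (L (nat_lit 555) ln14_16_1 ln14_16_1_ok))) (M (nat_lit 521) (B (L (nat_lit 492) ln9_16_2 ln9_16_2_ok) (M (nat_lit 489) (B (L (nat_lit 488) ln12_16_3 ln12_16_3_ok) (L (nat_lit 490) ln13_16_3 ln13_16_3_ok)))))))))))))))))))))) (B (M (nat_lit 525) (B (M (nat_lit 557) (B (M (nat_lit 556) (B (L (nat_lit 588) ln13_14_5 ln13_14_5_ok) (L (nat_lit 524) ln13_13_5 ln13_13_5_ok))) (M (nat_lit 558) (B (L (nat_lit 590) ln13_14_4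 ln13_14_4_ok) (L (nat_lit 526) ln13_13_4 ln13_13_4_ok))))) (B (M (nat_lit 558) (B (L (nat_lit 526) ln13_13_4 ln13_13_4_ok) (M (nat_lit 557) (B (L (nat_lit 590) ln13_14_4 ln13_14_4_ok) (M (nat_lit 428) (B (L (nat_lit 460) ln13_17_7 ln13_17_7_ok) (L (nat_lit 396) ln13_16_7 ln13_16_7_ok))))))) (B (M (nat_lit 557) (B (M (nat_lit 556) (B (L (nat_lit 588) ln13_14_5 ln13_14_5_ok) (L (nat_lit 524) ln13_13_5 ln13_13_5_ok))) (M (nat_lit 428) (B (L (nat_lit 460) ln13_17_7 ln13_17_7_ok) (L (nat_lit 396) ln13_16_7 ln13_16_7_ok))))) (M (nat_lit 526) (B (L (nat_lit 558) ln13_13_4 ln13_13_4_ok) (M (nat_lit 524) (B (L (nat_lit 556) ln13_13_5 ln13_13_5_ok) (M (nat_lit 523) (B (M (nat_lit 494) (B (L (nat_lit 522) ln10_16_2 ln10_16_2_ok) (L (nat_lit 495) ln11_16_2 ln11_16_2_ok))) (B (M (nat_lit 527) (B (M (nat_lit 495) (B (L (nat_lit 494) ln11_16_2 ln11_16_2_ok) (L (nat_lit 496) ln12_16_2 ln12_16_2_ok))) (B (M (nat_lit 528) (B (M (nat_lit 560) (B (L (nat_lit 559) ln12_16_0 ln12_16_0_ok)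 (L (nat_lit 561) ln13_16_0 ln13_16_0_ok))) (M (nat_lit 496) (B (L (nat_lit 495) ln12_16_2 ln12_16_2_ok) (L (nat_lit 497) ln13_16_2 ln13_16_2_ok))))) (B (M (nat_lit 528) (B (M (nat_lit 560) (B (L (nat_lit 559) ln12_16_0 ln12_16_0_ok) (L (nat_lit 561) ln13_16_0 ln13_16_0_ok))) (M (nat_lit 529) (B (L (nat_lit 494) ln17_16_3 ln17_16_3_ok) (M (nat_lit 497) (B (L (nat_lit 496) ln13_16_2 ln13_16_2_ok) (L (nat_lit 498) ln14_16_2 ln14_16_2_ok))))))) (M (nat_lit 528) (B (M (nat_lit 560) (B (L (nat_lit 559) ln12_16_0 ln12_16_0_ok) (L (nat_lit 561) ln13_16_0 ln13_16_0_ok))) (M (nat_lit 494) (B (L (nat_lit 495) ln11_16_2 ln11_16_2_ok) (L (nat_lit 529) ln17_16_3 ln17_16_3_ok))))))))) (M (nat_lit 522) (B (M (nat_lit 554) (B (L (nat_lit 553) ln13_16_1 ln13_16_1_ok) (L (nat_lit 555) ln14_16_1 ln14_16_1_ok))) (M (nat_lit 490) (B (L (nat_lit 489) ln13_16_3 ln13_16_3_ok) (L (nat_lit 491) ln14_16_3 ln14_16_3_ok)))))))))))))))) (M (nat_lit 525) (B (M (nat_lit 428) (B (L (nat_lit 396) ln13_16_7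 ln13_16_7_ok) (M (nat_lit 557) (B (L (nat_lit 460) ln13_17_7 ln13_17_7_ok) (M (nat_lit 558) (B (L (nat_lit 526) ln13_13_4 ln13_13_4_ok) (L (nat_lit 590) ln13_14_4 ln13_14_4_ok))))))) (B (M (nat_lit 558) (B (L (nat_lit 526) ln13_13_4 ln13_13_4_ok) (M (nat_lit 557) (B (L (nat_lit 590) ln13_14_4 ln13_14_4_ok) (M (nat_lit 556) (B (L (nat_lit 524) ln13_13_5 ln13_13_5_ok) (L (nat_lit 588) ln13_14_5 ln13_14_5_ok))))))) (B (M (nat_lit 557) (B (M (nat_lit 428) (B (L (nat_lit 396) ln13_16_7 ln13_16_7_ok) (L (nat_lit 460) ln13_17_7 ln13_17_7_ok))) (M (nat_lit 556) (B (L (nat_lit 524) ln13_13_5 ln13_13_5_ok) (L (nat_lit 588) ln13_14_5 ln13_14_5_ok))))) (M (nat_lit 526) (B (L (nat_lit 558) ln13_13_4 ln13_13_4_ok) (M (nat_lit 524) (B (L (nat_lit 556) ln13_13_5 ln13_13_5_ok) (M (nat_lit 428) (B (L (nat_lit 396) ln13_16_7 ln13_16_7_ok) (M (nat_lit 492) (B (M (nat_lit 527) (B (L (nat_lit 528) ln16_16_3 ln16_16_3_ok) (L (nat_lit 491) ln15_16_3 ln15_16_3_ok))) (M (nat_lit 523) (B (M (nat_lit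 494) (B (L (nat_lit 495) ln15_15_1 ln15_15_1_ok) (L (nat_lit 522) ln10_16_2 ln10_16_2_ok))) (M (nat_lit 555) (B (L (nat_lit 460) ln12_13_5 ln12_13_5_ok) (L (nat_lit 554) ln14_16_1 ln14_16_1_ok)))))))))))))))))))
noncomputable def c10_d521 : Cert := (B (M (nat_lit 428) (B (M (nat_lit 396) (B (L (nat_lit 525) ln13_16_7 ln13_16_7_ok) (M (nat_lit 364) (B (L (nat_lit 460) ln12_11_4 ln12_11_4_ok) (L (nat_lit 332) ln12_10_4 ln12_10_4_ok))))) (B (M (nat_lit 427) (B (M (nat_lit 462) (B (L (nat_lit 426) ln10_13_0 ln10_13_0_ok) (M (nat_lit 463) (B (L (nat_lit 460) ln15_14_3 ln15_14_3_ok) (L (nat_lit 464) ln16_14_3 ln16_14_3_ok))))) (B (M (nat_lit 426) (B (L (nat_lit 462) ln10_13_0 ln10_13_0_ok) (M (nat_lit 425) (B (M (nat_lit 457) (B (L (nat_lit 456) ln12_13_1 ln12_13_1_ok) (L (nat_lit 458) ln13_13_1 ln13_13_1_ok))) (M (nat_lit 393) (B (L (nat_lit 392) ln12_13_3 ln12_13_3_ok) (L (nat_lit 394) ln13_13_3 ln13_13_3_ok))))))) (B (K (nat_lit 25573364130142871191333742136201392013042161541261671935095605804030852499373486641288297028514205735348430954161451762593259655987473215121092771840)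 (nat_lit 58968162929025369651893023676311031207562860924508002123714292895338961015354062585640141845917231885917544348969832941140328075408317931964949137580507236103272529920) (nat_lit 58968162929025369651893023676311031207562860924508002123714292895338961015354062585640141845917231885917544348969832941140328075408317931964949137580507236103272529920) c10_s563) (M (nat_lit 491) c10_d516))))) (B (M (nat_lit 525) (B (L (nat_lit 396) ln13_16_7 ln13_16_7_ok) (M (nat_lit 526) (B (L (nat_lit 558) ln13_13_4 ln13_13_4_ok) (M (nat_lit 524) (B (L (nat_lit 556) ln13_13_5 ln13_13_5_ok) (M (nat_lit 527) (B (M (nat_lit 492) (B (L (nat_lit 491) ln15_16_3 ln15_16_3_ok) (L (nat_lit 528) ln16_16_3 ln16_16_3_ok))) (B (M (nat_lit 523) (B (M (nat_lit 491) (B (L (nat_lit 490) ln14_16_3 ln14_16_3_ok) (L (nat_lit 492) ln15_16_3 ln15_16_3_ok))) (M (nat_lit 495) (B (L (nat_lit 494) ln11_16_2 ln11_16_2_ok) (L (nat_lit 496) ln12_16_2 ln12_16_2_ok))))) (B (M (nat_lit 528) (B (L (nat_lit 492)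 ln16_16_3 ln16_16_3_ok) (M (nat_lit 560) (B (L (nat_lit 559) ln12_16_0 ln12_16_0_ok) (L (nat_lit 561) ln13_16_0 ln13_16_0_ok))))) (M (nat_lit 528) (B (M (nat_lit 560) (B (L (nat_lit 559) ln12_16_0 ln12_16_0_ok) (L (nat_lit 561) ln13_16_0 ln13_16_0_ok))) (M (nat_lit 496) (B (L (nat_lit 495) ln12_16_2 ln12_16_2_ok) (L (nat_lit 497) ln13_16_2 ln13_16_2_ok))))))))))))))) (M (nat_lit 427) (B (M (nat_lit 462) (B (L (nat_lit 426) ln10_13_0 ln10_13_0_ok) (M (nat_lit 463) (B (L (nat_lit 460) ln15_14_3 ln15_14_3_ok) (L (nat_lit 464) ln16_14_3 ln16_14_3_ok))))) (B (M (nat_lit 426) (B (L (nat_lit 462) ln10_13_0 ln10_13_0_ok) (M (nat_lit 425) (B (M (nat_lit 457) (B (L (nat_lit 456) ln12_13_1 ln12_13_1_ok) (L (nat_lit 458) ln13_13_1 ln13_13_1_ok))) (M (nat_lit 393) (B (L (nat_lit 392) ln12_13_3 ln12_13_3_ok) (L (nat_lit 394) ln13_13_3 ln13_13_3_ok))))))) (B (K (nat_lit 25573364130142871191333742136201392013042161541261671935095605804030852499373486641288297028514205735348430954161451762593259655987473215121092771840)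 (nat_lit 58968162929025369651893023676311031207562860924508002123714292895338961015354062585640141845917231885917544348969832941140328075408317931964949137580507236103272529920) (nat_lit 58968162929025369651893023676311031207562860924508002123714292895338961015354062585640141845917231885917544348969832941140328075408317931964949137580507236103272529920) c10_s563) (M (nat_lit 492) (B (M (nat_lit 491) (B (M (nat_lit 462) (B (L (nat_lit 490) ln10_15_2 ln10_15_2_ok) (M (nat_lit 463) (B (L (nat_lit 494) ln11_15_2 ln11_15_2_ok) (L (nat_lit 460) ln15_14_1 ln15_14_1_ok))))) (B (M (nat_lit 524) (B (M (nat_lit 556) (B (L (nat_lit 588) ln12_18_6 ln12_18_6_ok) (L (nat_lit 525) ln13_13_5 ln13_13_5_ok))) (M (nat_lit 395) (B (L (nat_lit 459) ln11_12_4 ln11_12_4_ok) (L (nat_lit 460) ln12_16_7 ln12_16_7_ok))))) (M (nat_lit 462) (B (L (nat_lit 490) ln10_15_2 ln10_15_2_ok) (M (nat_lit 463) (B (L (nat_lit 494) ln11_15_2 ln11_15_2_ok) (L (nat_lit 464) ln16_14_1 ln16_14_1_ok)))))))) c10_d517))))))))))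 (B (M (nat_lit 525) (B (M (nat_lit 524) (B (L (nat_lit 556) ln13_13_5 ln13_13_5_ok) (M (nat_lit 526) (B (L (nat_lit 558) ln13_13_4 ln13_13_4_ok) (M (nat_lit 523) (B (M (nat_lit 494) (B (L (nat_lit 522) ln10_16_2 ln10_16_2_ok) (L (nat_lit 495) ln11_16_2 ln11_16_2_ok))) (B (M (nat_lit 527) (B (M (nat_lit 491) (B (L (nat_lit 490) ln14_16_3 ln14_16_3_ok) (L (nat_lit 492) ln15_16_3 ln15_16_3_ok))) (M (nat_lit 495) (B (L (nat_lit 494) ln11_16_2 ln11_16_2_ok) (L (nat_lit 496) ln12_16_2 ln12_16_2_ok))))) (M (nat_lit 522) (B (M (nat_lit 554) (B (L (nat_lit 553) ln13_16_1 ln13_16_1_ok) (L (nat_lit 555) ln14_16_1 ln14_16_1_ok))) (M (nat_lit 490) (B (L (nat_lit 489) ln13_16_3 ln13_16_3_ok) (L (nat_lit 491) ln14_16_3 ln14_16_3_ok)))))))))))) (B (M (nat_lit 526) (B (L (nat_lit 558) ln13_13_4 ln13_13_4_ok) (M (nat_lit 524) (B (L (nat_lit 556) ln13_13_5 ln13_13_5_ok) (M (nat_lit 527) (B (M (nat_lit 492) (B (L (nat_lit 528) ln16_16_3 ln16_16_3_ok) (L (nat_lit 491) ln15_16_3 ln15_16_3_ok)))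 (B (M (nat_lit 523) (B (M (nat_lit 495) (B (L (nat_lit 496) ln12_16_2 ln12_16_2_ok) (L (nat_lit 494) ln11_16_2 ln11_16_2_ok))) (M (nat_lit 491) (B (L (nat_lit 492) ln15_16_3 ln15_16_3_ok) (L (nat_lit 490) ln14_16_3 ln14_16_3_ok))))) (M (nat_lit 528) (B (M (nat_lit 560) (B (L (nat_lit 561) ln13_16_0 ln13_16_0_ok) (L (nat_lit 559) ln12_16_0 ln12_16_0_ok))) (M (nat_lit 496) (B (L (nat_lit 497) ln13_16_2 ln13_16_2_ok) (L (nat_lit 495) ln12_16_2 ln12_16_2_ok)))))))))))) (B (M (nat_lit 428) (B (L (nat_lit 396) ln13_16_7 ln13_16_7_ok) (M (nat_lit 460) (B (L (nat_lit 557) ln13_17_7 ln13_17_7_ok) (M (nat_lit 462) (B (M (nat_lit 463) (B (L (nat_lit 427) ln15_14_3 ln15_14_3_ok) (L (nat_lit 464) ln16_14_3 ln16_14_3_ok))) (B (M (nat_lit 459) (B (M (nat_lit 494) (B (L (nat_lit 458) ln10_14_0 ln10_14_0_ok) (L (nat_lit 495) ln11_14_0 ln11_14_0_ok))) (B (M (nat_lit 458) (B (L (nat_lit 457) ln9_14_2 ln9_14_2_ok) (M (nat_lit 490) (B (L (nat_lit 489) ln13_14_1 ln13_14_1_ok) (L (nat_lit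 491) ln14_14_1 ln14_14_1_ok))))) (M (nat_lit 491) (B (L (nat_lit 490) ln14_14_1 ln14_14_1_ok) (M (nat_lit 523) (B (L (nat_lit 555) ln11_17_6 ln11_17_6_ok) (M (nat_lit 522) (B (M (nat_lit 427) (B (L (nat_lit 554) ln11_13_5 ln11_13_5_ok) (L (nat_lit 426) ln10_13_0 ln10_13_0_ok))) (M (nat_lit 494) (B (L (nat_lit 524) ln10_16_2 ln10_16_2_ok) (L (nat_lit 495) ln11_14_0 ln11_14_0_ok)))))))))))) (M (nat_lit 459) (B (M (nat_lit 494) (B (L (nat_lit 458) ln10_14_0 ln10_14_0_ok) (L (nat_lit 495) ln11_14_0 ln11_14_0_ok))) (B (M (nat_lit 458) (B (L (nat_lit 457) ln9_14_2 ln9_14_2_ok) (M (nat_lit 490) (B (L (nat_lit 489) ln13_14_1 ln13_14_1_ok) (L (nat_lit 491) ln14_14_1 ln14_14_1_ok))))) (M (nat_lit 495) (B (L (nat_lit 494) ln11_14_0 ln11_14_0_ok) (M (nat_lit 463) (B (L (nat_lit 496) ln12_14_0 ln12_14_0_ok) (L (nat_lit 464) ln16_14_3 ln16_14_3_ok))))))))))))))) (B (M (nat_lit 524) (B (L (nat_lit 556) ln13_13_5 ln13_13_5_ok) (M (nat_lit 523) (B (M (nat_lit 522) (B (L (nat_lit 494)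 ln10_16_2 ln10_16_2_ok) (M (nat_lit 521) (B (L (nat_lit 492) ln9_16_2 ln9_16_2_ok) (M (nat_lit 553) (B (L (nat_lit 554) ln13_16_1 ln13_16_1_ok) (L (nat_lit 552) ln12_16_1 ln12_16_1_ok))))))) (B (M (nat_lit 522) (B (M (nat_lit 526) (B (L (nat_lit 558) ln13_13_4 ln13_13_4_ok) (M (nat_lit 554) (B (L (nat_lit 555) ln14_16_1 ln14_16_1_ok) (L (nat_lit 553) ln13_16_1 ln13_16_1_ok))))) (B (M (nat_lit 521) (B (L (nat_lit 492) ln9_16_2 ln9_16_2_ok) (M (nat_lit 553) (B (L (nat_lit 554) ln13_16_1 ln13_16_1_ok) (L (nat_lit 552) ln12_16_1 ln12_16_1_ok))))) (M (nat_lit 526) (B (L (nat_lit 558) ln13_13_4 ln13_13_4_ok) (M (nat_lit 490) (B (L (nat_lit 491) ln14_16_3 ln14_16_3_ok) (L (nat_lit 489) ln13_16_3 ln13_16_3_ok)))))))) (B (M (nat_lit 522) (B (L (nat_lit 494) ln10_16_2 ln10_16_2_ok) (M (nat_lit 526) (B (L (nat_lit 558) ln13_13_4 ln13_13_4_ok) (M (nat_lit 490) (B (L (nat_lit 491) ln14_16_3 ln14_16_3_ok) (L (nat_lit 489) ln13_16_3 ln13_16_3_ok))))))) (M (nat_lit 526) (B (L (nat_lit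 558) ln13_13_4 ln13_13_4_ok) (M (nat_lit 492) (B (M (nat_lit 491) (B (L (nat_lit 527) ln15_16_3 ln15_16_3_ok) (L (nat_lit 490) ln10_15_0 ln10_15_0_ok))) (M (nat_lit 428) (B (L (nat_lit 396) ln13_16_7 ln13_16_7_ok) (M (nat_lit 555) (B (L (nat_lit 554) ln14_16_1 ln14_16_1_ok) (L (nat_lit 460) ln12_13_5 ln12_13_5_ok))))))))))))))) (B (M (nat_lit 524) (B (L (nat_lit 556) ln13_13_5 ln13_13_5_ok) (M (nat_lit 526) (B (L (nat_lit 558) ln13_13_4 ln13_13_4_ok) (M (nat_lit 527) (B (M (nat_lit 492) (B (L (nat_lit 528) ln16_16_3 ln16_16_3_ok) (L (nat_lit 491) ln15_16_3 ln15_16_3_ok))) (B (M (nat_lit 523) (B (M (nat_lit 491) (B (L (nat_lit 492) ln15_16_3 ln15_16_3_ok) (L (nat_lit 490) ln14_16_3 ln14_16_3_ok))) (B (M (nat_lit 522) (B (M (nat_lit 554) (B (L (nat_lit 555) ln14_16_1 ln14_16_1_ok) (L (nat_lit 553) ln13_16_1 ln13_16_1_ok))) (M (nat_lit 490) (B (L (nat_lit 491) ln14_16_3 ln14_16_3_ok) (L (nat_lit 489) ln13_16_3 ln13_16_3_ok))))) (B (M (nat_lit 522) (B (M (nat_lit 554) (B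 (L (nat_lit 555) ln14_16_1 ln14_16_1_ok) (L (nat_lit 553) ln13_16_1 ln13_16_1_ok))) (M (nat_lit 521) (B (L (nat_lit 492) ln9_16_2 ln9_16_2_ok) (M (nat_lit 489) (B (L (nat_lit 490) ln13_16_3 ln13_16_3_ok) (L (nat_lit 488) ln12_16_3 ln12_16_3_ok))))))) (M (nat_lit 522) (B (M (nat_lit 554) (B (L (nat_lit 555) ln14_16_1 ln14_16_1_ok) (L (nat_lit 553) ln13_16_1 ln13_16_1_ok))) (M (nat_lit 492) (B (L (nat_lit 491) ln15_16_3 ln15_16_3_ok) (L (nat_lit 521) ln9_16_2 ln9_16_2_ok))))))))) (M (nat_lit 528) (B (M (nat_lit 560) (B (L (nat_lit 561) ln13_16_0 ln13_16_0_ok) (L (nat_lit 559) ln12_16_0 ln12_16_0_ok))) (M (nat_lit 496) (B (L (nat_lit 497) ln13_16_2 ln13_16_2_ok) (L (nat_lit 495) ln12_16_2 ln12_16_2_ok)))))))))))) c10_d518)))))) (B (M (nat_lit 525) c10_d519) c10_d520)))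
noncomputable def c10_d522 : Cert := (B (K (nat_lit 25573364130142871190293991000906086440700256222208015546306941900764921283684556798557814038087096126708440551872399420806737951876946875685227462656) (nat_lit 32703574354730289598066216813825679870048659784323189579821436680922460699973741364672202018903605944284541066126234188635861024162453571626363094594693324976870582650449467006358216902783065391104) (nat_lit 32703574354730289598066216813825679870048659784323189579821436680922460699973741364672202018903605944284541066126234188635861024162453571626363094594693324976870582650449467006358216902783065391104) c10_s560) (B (M (nat_lit 494) (B (M (nat_lit 558) (B (M (nat_lit 526) (B (L (nat_lit 462) ln14_17_7 ln14_17_7_ok) (L (nat_lit 590) ln14_18_7 ln14_18_7_ok))) (B (M (nat_lit 526) (B (L (nat_lit 525) ln13_13_4 ln13_13_4_ok) (L (nat_lit 462) ln14_17_7 ln14_17_7_ok))) (B (M (nat_lit 526) (B (L (nat_lit 590) ln14_18_7 ln14_18_7_ok) (L (nat_lit 525) ln13_13_4 ln13_13_4_ok)))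 (M (nat_lit 495) (B (M (nat_lit 460) (B (M (nat_lit 459) (B (L (nat_lit 462) ln11_14_0 ln11_14_0_ok) (L (nat_lit 492) ln15_15_3 ln15_15_3_ok))) (L (nat_lit 496) ln16_15_3 ln16_15_3_ok))) (B (M (nat_lit 496) (B (M (nat_lit 462) (B (L (nat_lit 497) ln17_15_3 ln17_15_3_ok) (L (nat_lit 460) ln16_15_3 ln16_15_3_ok))) (B (L (nat_lit 460) ln16_15_3 ln16_15_3_ok) (M (nat_lit 497) (B (L (nat_lit 462) ln17_15_3 ln17_15_3_ok) (M (nat_lit 465) (B (L (nat_lit 466) ln14_15_2_c10 ln14_15_2_c10_ok) (L (nat_lit 464) ln13_15_2 ln13_15_2_ok)))))))) (B (M (nat_lit 460) (B (L (nat_lit 496) ln16_15_3 ln16_15_3_ok) (M (nat_lit 459) (B (L (nat_lit 458) ln10_14_0 ln10_14_0_ok) (L (nat_lit 492) ln15_15_3 ln15_15_3_ok))))) (B (M (nat_lit 496) (B (M (nat_lit 497) (B (L (nat_lit 462) ln17_15_3 ln17_15_3_ok) (M (nat_lit 465) (B (L (nat_lit 466) ln14_15_2_c10 ln14_15_2_c10_ok) (L (nat_lit 464) ln13_15_2 ln13_15_2_ok))))) (B (M (nat_lit 492) (B (M (nat_lit 528) (B (L (nat_lit 529) ln13_15_0 ln13_15_0_ok)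 (L (nat_lit 527) ln12_15_0 ln12_15_0_ok))) (M (nat_lit 464) (B (L (nat_lit 465) ln13_15_2 ln13_15_2_ok) (L (nat_lit 463) ln12_15_2 ln12_15_2_ok))))) (M (nat_lit 497) (B (L (nat_lit 462) ln17_15_3 ln17_15_3_ok) (M (nat_lit 529) (B (L (nat_lit 530) ln14_15_0 ln14_15_0_ok) (L (nat_lit 528) ln13_15_0 ln13_15_0_ok)))))))) (M (nat_lit 492) (B (M (nat_lit 491) (B (M (nat_lit 459) (B (L (nat_lit 460) ln15_15_3 ln15_15_3_ok) (L (nat_lit 458) ln14_15_3 ln14_15_3_ok))) (B (M (nat_lit 490) (B (M (nat_lit 458) (B (L (nat_lit 459) ln14_15_3 ln14_15_3_ok) (L (nat_lit 457) ln13_15_3 ln13_15_3_ok))) (M (nat_lit 522) (B (L (nat_lit 523) ln14_15_1 ln14_15_1_ok) (L (nat_lit 521) ln13_15_1 ln13_15_1_ok))))) (B (M (nat_lit 490) (B (M (nat_lit 522) (B (L (nat_lit 523) ln14_15_1 ln14_15_1_ok) (L (nat_lit 521) ln13_15_1 ln13_15_1_ok))) (M (nat_lit 457) (B (L (nat_lit 458) ln13_15_3 ln13_15_3_ok) (M (nat_lit 489) (B (L (nat_lit 460) ln9_15_2 ln9_15_2_ok) (L (nat_lit 456) ln12_15_3 ln12_15_3_ok)))))))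 (M (nat_lit 490) (B (M (nat_lit 460) (B (L (nat_lit 459) ln15_15_3 ln15_15_3_ok) (L (nat_lit 489) ln9_15_2 ln9_15_2_ok))) (M (nat_lit 522) (B (L (nat_lit 523) ln14_15_1 ln14_15_1_ok) (L (nat_lit 521) ln13_15_1 ln13_15_1_ok))))))))) (B (M (nat_lit 491) (B (M (nat_lit 462) (B (L (nat_lit 490) ln10_15_2 ln10_15_2_ok) (L (nat_lit 463) ln11_15_2 ln11_15_2_ok))) (B (M (nat_lit 463) (B (L (nat_lit 462) ln11_15_2 ln11_15_2_ok) (L (nat_lit 464) ln12_15_2 ln12_15_2_ok))) (M (nat_lit 490) (B (M (nat_lit 522) (B (L (nat_lit 521) ln13_15_1 ln13_15_1_ok) (L (nat_lit 523) ln14_15_1 ln14_15_1_ok))) (M (nat_lit 458) (B (L (nat_lit 457) ln13_15_3 ln13_15_3_ok) (L (nat_lit 459) ln14_15_3 ln14_15_3_ok)))))))) (B (M (nat_lit 491) (B (M (nat_lit 459) (B (L (nat_lit 458) ln14_15_3 ln14_15_3_ok) (L (nat_lit 460) ln15_15_3 ln15_15_3_ok))) (M (nat_lit 462) (B (L (nat_lit 490) ln10_15_2 ln10_15_2_ok) (L (nat_lit 463) ln11_15_2 ln11_15_2_ok))))) (B (M (nat_lit 491) (B (M (nat_lit 463) (B (L (nat_lit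 464) ln12_15_2 ln12_15_2_ok) (L (nat_lit 462) ln11_15_2 ln11_15_2_ok))) (B (M (nat_lit 462) (B (L (nat_lit 463) ln11_15_2 ln11_15_2_ok) (L (nat_lit 490) ln10_15_2 ln10_15_2_ok))) (B (M (nat_lit 490) (B (L (nat_lit 462) ln10_15_2 ln10_15_2_ok) (M (nat_lit 522) (B (L (nat_lit 523) ln14_15_1 ln14_15_1_ok) (L (nat_lit 521) ln13_15_1 ln13_15_1_ok))))) (M (nat_lit 490) (B (M (nat_lit 522) (B (L (nat_lit 523) ln14_15_1 ln14_15_1_ok) (L (nat_lit 521) ln13_15_1 ln13_15_1_ok))) (M (nat_lit 457) (B (L (nat_lit 458) ln13_15_3 ln13_15_3_ok) (M (nat_lit 489) (B (L (nat_lit 460) ln9_15_2 ln9_15_2_ok) (L (nat_lit 456) ln12_15_3 ln12_15_3_ok))))))))))) (B (M (nat_lit 491) (B (M (nat_lit 463) (B (L (nat_lit 464) ln12_15_2 ln12_15_2_ok) (L (nat_lit 462) ln11_15_2 ln11_15_2_ok))) (B (M (nat_lit 462) (B (L (nat_lit 463) ln11_15_2 ln11_15_2_ok) (L (nat_lit 490) ln10_15_2 ln10_15_2_ok))) (B (M (nat_lit 460) (B (L (nat_lit 459) ln15_15_3 ln15_15_3_ok) (M (nat_lit 490) (B (L (nat_lit 462) ln10_15_2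 ln10_15_2_ok) (L (nat_lit 489) ln9_15_2 ln9_15_2_ok))))) (M (nat_lit 490) (B (M (nat_lit 460) (B (L (nat_lit 489) ln9_15_2 ln9_15_2_ok) (L (nat_lit 459) ln15_15_3 ln15_15_3_ok))) (M (nat_lit 522) (B (L (nat_lit 523) ln14_15_1 ln14_15_1_ok) (L (nat_lit 521) ln13_15_1 ln13_15_1_ok))))))))) (B (M (nat_lit 491) (B (M (nat_lit 463) (B (L (nat_lit 464) ln12_15_2 ln12_15_2_ok) (L (nat_lit 462) ln11_15_2 ln11_15_2_ok))) (M (nat_lit 459) (B (L (nat_lit 460) ln15_15_3 ln15_15_3_ok) (L (nat_lit 458) ln14_15_3 ln14_15_3_ok))))) (M (nat_lit 460) (B (L (nat_lit 459) ln15_15_3 ln15_15_3_ok) (M (nat_lit 463) (B (L (nat_lit 464) ln12_15_2 ln12_15_2_ok) (M (nat_lit 527) (B (L (nat_lit 528) ln12_15_0 ln12_15_0_ok) (M (nat_lit 559) (B (L (nat_lit 590) ln15_14_5_c10 ln15_14_5_c10_ok) (M (nat_lit 591) (B (L (nat_lit 462) ln15_18_7 ln15_18_7_ok) (M (nat_lit 592) (B (L (nat_lit 560) ln15_14_4_c10 ln15_14_4_c10_ok) (L (nat_lit 624) ln15_15_4_c10 ln15_15_4_c10_ok)))))))))))))))))))))))))))))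 c10_d514)) (B (M (nat_lit 525) (B (M (nat_lit 557) (B (M (nat_lit 589) (B (M (nat_lit 460) (B (L (nat_lit 428) ln13_17_7 ln13_17_7_ok) (L (nat_lit 492) ln13_18_7 ln13_18_7_ok))) (M (nat_lit 621) (B (M (nat_lit 494) (B (L (nat_lit 462) ln13_18_6 ln13_18_6_ok) (L (nat_lit 526) ln13_19_6_c10 ln13_19_6_c10_ok))) (M (nat_lit 620) (B (L (nat_lit 588) ln13_15_5_c10 ln13_15_5_c10_ok) (L (nat_lit 652) ln13_16_5_c10 ln13_16_5_c10_ok))))))) (B (M (nat_lit 556) (B (L (nat_lit 588) ln13_14_5 ln13_14_5_ok) (L (nat_lit 524) ln13_13_5 ln13_13_5_ok))) (M (nat_lit 558) (B (L (nat_lit 590) ln13_14_4 ln13_14_4_ok) (L (nat_lit 526) ln13_13_4 ln13_13_4_ok)))))) c10_d515)) c10_d521)))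
noncomputable def c10_d523 : Cert := (B (K (nat_lit 25573364130142871190293991000906086440700256222208015546306941900764921283684556798557814038087096126708440551872399420806737951876946875685227462656) (nat_lit 93438784123020751682609808835284828122708348143091718097555656497824880399711282967988894757603985859500148113489510207557572942926909980880709402943985187316945885729446486832418198194285516423168) (nat_lit 93438784123020751682609808835284828122708348143091718097555656497824880399711282967988894757603985859500148113489510207557572942926909980880709402943985187316945885729446486832418198194285516423168) c10_s507) (B (M (nat_lit 428) (B (M (nat_lit 396) (B (L (nat_lit 525) ln13_16_7 ln13_16_7_ok) (M (nat_lit 364) (B (L (nat_lit 332) ln12_10_4 ln12_10_4_ok) (L (nat_lit 460) ln12_11_4 ln12_11_4_ok))))) (B (M (nat_lit 525) (B (L (nat_lit 396) ln13_16_7 ln13_16_7_ok) (M (nat_lit 557) (B (M (nat_lit 558) (B (L (nat_lit 526) ln13_13_4 ln13_13_4_ok) (L (nat_lit 590)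 ln13_14_4 ln13_14_4_ok))) (B (M (nat_lit 589) (B (M (nat_lit 590) (B (L (nat_lit 558) ln13_14_4 ln13_14_4_ok) (L (nat_lit 622) ln13_15_4_c10 ln13_15_4_c10_ok))) (M (nat_lit 588) (B (L (nat_lit 556) ln13_14_5 ln13_14_5_ok) (L (nat_lit 620) ln13_15_5_c10 ln13_15_5_c10_ok))))) (B (M (nat_lit 589) (B (M (nat_lit 588) (B (L (nat_lit 556) ln13_14_5 ln13_14_5_ok) (L (nat_lit 620) ln13_15_5_c10 ln13_15_5_c10_ok))) (M (nat_lit 621) (B (M (nat_lit 494) (B (L (nat_lit 462) ln13_18_6 ln13_18_6_ok) (L (nat_lit 526) ln13_19_6_c10 ln13_19_6_c10_ok))) (M (nat_lit 622) (B (L (nat_lit 590) ln13_15_4_c10 ln13_15_4_c10_ok) (L (nat_lit 654) ln13_16_4_c10 ln13_16_4_c10_ok))))))) (M (nat_lit 589) (B (M (nat_lit 588) (B (L (nat_lit 556) ln13_14_5 ln13_14_5_ok) (L (nat_lit 620) ln13_15_5_c10 ln13_15_5_c10_ok))) (M (nat_lit 494) (B (L (nat_lit 462) ln13_18_6 ln13_18_6_ok) (M (nat_lit 526) (B (L (nat_lit 558) ln13_13_4 ln13_13_4_ok) (L (nat_lit 621) ln13_19_6_c10 ln13_19_6_c10_ok)))))))))))))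 (B (K (nat_lit 25573364130142871190987158424436290155594859768243786472166051169608875427477176693711469365038502532468434153398434315331085754617297768642471002112) (nat_lit 20683696007019331629715133982810853095772680697838040880450186578862157036270578299830764118822245957147924323735273905297530942651666924283135457340104863151589613325292965054571125017806434507219906923396860926230528) (nat_lit 20683696007019331629715133982810853095772680697838040880450186578862157036270578299830764118822245957147924323735273905297530942651666924283135457340104863151589613325292965054571125017806434507219906923396860926230528) c10_s535) (M (nat_lit 427) (B (M (nat_lit 462) (B (L (nat_lit 426) ln10_13_0 ln10_13_0_ok) (M (nat_lit 463) (B (L (nat_lit 464) ln16_14_3 ln16_14_3_ok) (L (nat_lit 460) ln15_14_3 ln15_14_3_ok))))) (B (M (nat_lit 491) (B (M (nat_lit 459) (B (M (nat_lit 396) (B (L (nat_lit 523) ln11_16_6 ln11_16_6_ok) (M (nat_lit 364) (B (L (nat_lit 332) ln12_10_4 ln12_10_4_ok)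 (L (nat_lit 460) ln12_11_4 ln12_11_4_ok))))) (B (M (nat_lit 396) (B (L (nat_lit 523) ln11_16_6 ln11_16_6_ok) (M (nat_lit 364) (B (L (nat_lit 395) ln11_15_6 ln11_15_6_ok) (L (nat_lit 460) ln12_11_4 ln12_11_4_ok))))) (B (M (nat_lit 460) (B (M (nat_lit 462) (B (L (nat_lit 463) ln15_14_3 ln15_14_3_ok) (L (nat_lit 490) ln14_14_1 ln14_14_1_ok))) (M (nat_lit 458) (B (L (nat_lit 457) ln9_14_2 ln9_14_2_ok) (L (nat_lit 494) ln10_14_0 ln10_14_0_ok))))) (M (nat_lit 396) (B (L (nat_lit 523) ln11_16_6 ln11_16_6_ok) (M (nat_lit 364) (B (L (nat_lit 332) ln12_10_4 ln12_10_4_ok) (L (nat_lit 395) ln11_15_6 ln11_15_6_ok))))))))) (B (M (nat_lit 460) (B (M (nat_lit 462) (B (L (nat_lit 463) ln15_14_3 ln15_14_3_ok) (M (nat_lit 490) (B (L (nat_lit 459) ln14_14_1 ln14_14_1_ok) (L (nat_lit 492) ln10_15_2 ln10_15_2_ok))))) (B (M (nat_lit 396) (B (L (nat_lit 364) ln12_11_4 ln12_11_4_ok) (M (nat_lit 523) (B (L (nat_lit 459) ln11_16_6 ln11_16_6_ok) (L (nat_lit 492) ln12_12_5 ln12_12_5_ok))))) (B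 (M (nat_lit 492) (B (M (nat_lit 396) (B (L (nat_lit 364) ln12_11_4 ln12_11_4_ok) (L (nat_lit 523) ln12_12_5 ln12_12_5_ok))) (M (nat_lit 462) (B (L (nat_lit 463) ln15_14_1 ln15_14_1_ok) (L (nat_lit 490) ln10_15_2 ln10_15_2_ok))))) (M (nat_lit 459) (B (M (nat_lit 396) (B (L (nat_lit 364) ln12_11_4 ln12_11_4_ok) (L (nat_lit 523) ln11_16_6 ln11_16_6_ok))) (M (nat_lit 462) (B (L (nat_lit 463) ln15_14_3 ln15_14_3_ok) (L (nat_lit 490) ln14_14_1 ln14_14_1_ok))))))))) c10_d512))) (B (M (nat_lit 426) (B (L (nat_lit 462) ln10_13_0 ln10_13_0_ok) (M (nat_lit 425) (B (L (nat_lit 460) ln9_13_0 ln9_13_0_ok) (M (nat_lit 393) (B (L (nat_lit 394) ln13_13_3 ln13_13_3_ok) (L (nat_lit 392) ln12_13_3 ln12_13_3_ok))))))) (B (M (nat_lit 426) (B (M (nat_lit 425) (B (L (nat_lit 460) ln9_13_0 ln9_13_0_ok) (M (nat_lit 393) (B (L (nat_lit 394) ln13_13_3 ln13_13_3_ok) (L (nat_lit 392) ln12_13_3 ln12_13_3_ok))))) (B (M (nat_lit 425) (B (L (nat_lit 460) ln9_13_0 ln9_13_0_ok) (M (nat_lit 457) (B (L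 (nat_lit 458) ln13_13_1 ln13_13_1_ok) (L (nat_lit 456) ln12_13_1 ln12_13_1_ok))))) (B (M (nat_lit 458) (B (L (nat_lit 457) ln13_13_1 ln13_13_1_ok) (M (nat_lit 459) (B (M (nat_lit 394) (B (L (nat_lit 393) ln13_13_3 ln13_13_3_ok) (M (nat_lit 362) (B (L (nat_lit 330) ln10_10_4 ln10_10_4_ok) (L (nat_lit 491) ln10_11_4 ln10_11_4_ok))))) (M (nat_lit 490) (B (M (nat_lit 395) (B (L (nat_lit 363) ln11_11_5 ln11_11_5_ok) (L (nat_lit 522) ln10_16_6 ln10_16_6_ok))) (M (nat_lit 460) (B (L (nat_lit 494) ln10_14_0 ln10_14_0_ok) (L (nat_lit 489) ln13_14_1 ln13_14_1_ok))))))))) (M (nat_lit 425) (B (M (nat_lit 393) (B (L (nat_lit 394) ln13_13_3 ln13_13_3_ok) (L (nat_lit 392) ln12_13_3 ln12_13_3_ok))) (M (nat_lit 457) (B (L (nat_lit 458) ln13_13_1 ln13_13_1_ok) (L (nat_lit 456) ln12_13_1 ln12_13_1_ok))))))))) (M (nat_lit 426) (B (L (nat_lit 462) ln10_13_0 ln10_13_0_ok) (M (nat_lit 425) (B (M (nat_lit 393) (B (L (nat_lit 394) ln13_13_3 ln13_13_3_ok) (L (nat_lit 392) ln12_13_3 ln12_13_3_ok)))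 (M (nat_lit 457) (B (L (nat_lit 458) ln13_13_1 ln13_13_1_ok) (L (nat_lit 456) ln12_13_1 ln12_13_1_ok)))))))))))))))) (B (K (nat_lit 25573364130142871190293991000906086440700256222208015546306941900764921283684556798557814038087096126708440551872399420806737951876946875685227462656) (nat_lit 7614394266920670611063498936783212694436450568738310985187132646781384076229522497083618471801404447944235950628252025938656754774767387627887667210090976390026638922874830861347885940736) (nat_lit 7614394266920670611063498936783212694436450568738310985187132646781384076229522497083618471801404447944235950628252025938656754774767387627887667210090976390026638922874830861347885940736) c10_s548) c10_d522)))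
theorem c10_s564 : Sem (nat_lit 5954262830815946494440468064007740237496571878468728087513875999273036838532266441790969898967138332125836366047228135112217242456098340864) (nat_lit 20683696007099594933881615820491883460567066829369972280590297678874879536455724457666344847030206539780355025711829316663979806703507095964941386544294567849054119736159502945718090909905306358095370495774808380276736) (nat_lit 20683696007099594933881615820491883460567066829369972280590297678874879536455724457666344847030206539780355025711829316663979806703507095964941386544294567849054119736159502945718090909905306358095370495774808380276736) :=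
  sem_of_chk (M (nat_lit 493) (B (M (nat_lit 525) (B (M (nat_lit 557) (B (M (nat_lit 589) (B (M (nat_lit 621) (B (M (nat_lit 620) (B (L (nat_lit 652) ln13_16_5_c10 ln13_16_5_c10_ok) (L (nat_lit 588) ln13_15_5_c10 ln13_15_5_c10_ok))) (M (nat_lit 622) (B (L (nat_lit 654) ln13_16_4_c10 ln13_16_4_c10_ok) (L (nat_lit 590) ln13_15_4_c10 ln13_15_4_c10_ok))))) (B (M (nat_lit 590) (B (L (nat_lit 622) ln13_15_4_c10 ln13_15_4_c10_ok) (L (nat_lit 558) ln13_14_4 ln13_14_4_ok))) (M (nat_lit 621) (B (M (nat_lit 620) (B (L (nat_lit 652) ln13_16_5_c10 ln13_16_5_c10_ok) (L (nat_lit 588) ln13_15_5_c10 ln13_15_5_c10_ok))) (M (nat_lit 526) (B (L (nat_lit 494) ln13_19_6_c10 ln13_19_6_c10_ok) (L (nat_lit 558) ln13_13_4 ln13_13_4_ok)))))))) (B (M (nat_lit 558) (B (L (nat_lit 590) ln13_14_4 ln13_14_4_ok) (L (nat_lit 526) ln13_13_4 ln13_13_4_ok))) (B (K (nat_lit 471745303212529431617857442193386895340211435029272104790018930303222451192294239345893258764852856991824633796569317721443457359206950307872383534307218333799242792960)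 (nat_lit 18687756804045285840440975185117156117590194638570230053162074453516498502753334659950588816070952479380407741488554950815314405451369220180978093241713010375791482481027517600124941446936879169536) (nat_lit 18687756804045285840440975185117156117590194638570230053162074453516498502753334659950588816070952479380407741488554950815314405451369220180978093241713010375791482481027517600124941446936879169536) c10_s503) (B (K (nat_lit 471745303212529431617857442193386895340211435029272104790018930303222451192294239345893258764852856991824633796569317721443457359206950307872383534307218333799242792960) (nat_lit 2382688988421133424652586988134979993987292027401769036023173337482900336619478552488134469204475562257564428907985929686131405276910905358857837384287567231176587411575284823259055503845504386596864) (nat_lit 2382688988421133424652586988134979993987292027401769036023173337482900336619478552488134469204475562257564428907985929686131405276910905358857837384287567231176587411575284823259055503845504386596864)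 c10_s504) (M (nat_lit 428) (B (L (nat_lit 396) ln13_16_7 ln13_16_7_ok) (M (nat_lit 526) (B (L (nat_lit 558) ln13_13_4 ln13_13_4_ok) (M (nat_lit 494) (B (M (nat_lit 589) (B (L (nat_lit 621) ln13_19_6_c10 ln13_19_6_c10_ok) (L (nat_lit 462) ln13_18_6 ln13_18_6_ok))) c10_d509))))))))))) (B (M (nat_lit 557) (B (M (nat_lit 588) (B (M (nat_lit 620) (B (L (nat_lit 589) ln13_15_5_c10 ln13_15_5_c10_ok) (L (nat_lit 556) ln13_14_5 ln13_14_5_ok))) (B (M (nat_lit 558) (B (L (nat_lit 556) ln13_14_5 ln13_14_5_ok) (L (nat_lit 590) ln13_14_4 ln13_14_4_ok))) (M (nat_lit 589) (B (L (nat_lit 620) ln13_15_5_c10 ln13_15_5_c10_ok) (M (nat_lit 590) (B (L (nat_lit 622) ln13_15_4_c10 ln13_15_4_c10_ok) (L (nat_lit 558) ln13_14_4 ln13_14_4_ok)))))))) (B (K (nat_lit 471745303212529431617857442193386895340211435029272104790018930303222451192294239345893258764852856991824633796569317721443457359206950307872383534307218333799242792960) (nat_lit 93438783879360135144947344263270438302547073792522948074981783728210723703681086374960360216701645432528127264321153449106758372121184146557842859939491790443522076370759345182584502126084936957952)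 (nat_lit 93438783879360135144947344263270438302547073792522948074981783728210723703681086374960360216701645432528127264321153449106758372121184146557842859939491790443522076370759345182584502126084936957952) c10_s505) (B (M (nat_lit 556) (B (L (nat_lit 588) ln13_14_5 ln13_14_5_ok) (L (nat_lit 524) ln13_13_5 ln13_13_5_ok))) (B (M (nat_lit 590) (B (L (nat_lit 558) ln13_14_4 ln13_14_4_ok) (M (nat_lit 589) (B (L (nat_lit 622) ln13_15_4_c10 ln13_15_4_c10_ok) (M (nat_lit 524) (B (L (nat_lit 556) ln13_13_5 ln13_13_5_ok) (M (nat_lit 494) (B (L (nat_lit 462) ln13_18_6 ln13_18_6_ok) (M (nat_lit 492) (B (L (nat_lit 621) ln13_19_7 ln13_19_7_ok) (M (nat_lit 523) (B (L (nat_lit 522) ln10_16_2 ln10_16_2_ok) (L (nat_lit 495) ln15_15_1 ln15_15_1_ok))))))))))))) (K (nat_lit 471745303212529431617857442193386895340211435029272104790018930303222451192294239345893258764852856991824633796569317721443457359206950307872383534307218333799242792960) (nat_lit 18687756804045285840440975185117156117590194638570230053162074453516498502753334659950588816070952479380407741488554950815314405451369220180978093241713010375791482481027517600124941446936879169536)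 (nat_lit 18687756804045285840440975185117156117590194638570230053162074453516498502753334659950588816070952479380407741488554950815314405451369220180978093241713010375791482481027517600124941446936879169536) c10_s503)))))) c10_d510))) c10_d523)) (nat_lit 5954262830815946494440468064007740237496571878468728087513875999273036838532266441790969898967138332125836366047228135112217242456098340864) (nat_lit 20683696007099594933881615820491883460567066829369972280590297678874879536455724457666344847030206539780355025711829316663979806703507095964941386544294567849054119736159502945718090909905306358095370495774808380276736) (nat_lit 20683696007099594933881615820491883460567066829369972280590297678874879536455724457666344847030206539780355025711829316663979806703507095964941386544294567849054119736159502945718090909905306358095370495774808380276736) (by decide +kernel)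

end Vale.Agent.Lib.P062.Data
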