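import Vale.Agent.Lib.P062.Data.c10_lines
import Vale.Agent.Lib.P062.Data.c10_l0_0
import Vale.Agent.Lib.P062.Data.c10_l0_1
import Vale.Agent.Lib.P062.Data.c10_l0_2
import Vale.Agent.Lib.P062.Data.c10_l0_3
import Vale.Agent.Lib.P062.Data.c10_l1_0
import Vale.Agent.Lib.P062.Data.c10_l1_1
import Vale.Agent.Lib.P062.Data.c10_l1_2
import Vale.Agent.Lib.P062.Data.c10_l1_3
import Vale.Agent.Lib.P062.Data.c10_l1_4

namespace Vale.Agent.Lib.P062.Data
noncomputable def c10_d396 : Cert := (B (M (nat_lit 460) (B (M (nat_lit 362) (B (M (nat_lit 394) (B (M (nat_lit 426) (B (M (nat_lit 458) (B (M (nat_lit 489) (B (L (nat_lit 457) ln10_11_5 ln10_11_5_ok) (M (nat_lit 490) (B (L (nat_lit 459) ln13_14_1 ln13_14_1_ok) (L (nat_lit 521) ln10_12_5 ln10_12_5_ok))))) (B (M (nat_lit 459) (B (L (nat_lit 491) ln10_11_4 ln10_11_4_ok) (M (nat_lit 489) (B (L (nat_lit 490) ln13_14_1 ln13_14_1_ok) (L (nat_lit 457) ln10_11_5 ln10_11_5_ok))))) (B (M (nat_lit 459)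 (B (L (nat_lit 425) ln13_14_3 ln13_14_3_ok) (L (nat_lit 491) ln10_11_4 ln10_11_4_ok))) (M (nat_lit 489) (B (L (nat_lit 457) ln10_11_5 ln10_11_5_ok) (M (nat_lit 490) (B (L (nat_lit 521) ln10_12_5 ln10_12_5_ok) (M (nat_lit 491) (B (L (nat_lit 523) ln10_12_4 ln10_12_4_ok) (L (nat_lit 492) ln9_15_2 ln9_15_2_ok))))))))))) (B (M (nat_lit 458) (B (L (nat_lit 331) ln10_14_6 ln10_14_6_ok) (M (nat_lit 489) (B (L (nat_lit 457) ln10_11_5 ln10_11_5_ok) (M (nat_lit 491) (B (L (nat_lit 459) ln10_11_4 ln10_11_4_ok) (M (nat_lit 490) (B (L (nat_lit 521) ln10_12_5 ln10_12_5_ok) (L (nat_lit 523) ln10_12_4 ln10_12_4_ok))))))))) (B (M (nat_lit 330) (B (M (nat_lit 425) (B (L (nat_lit 427) ln9_13_0 ln9_13_0_ok) (L (nat_lit 457) ln10_10_5 ln10_10_5_ok))) (M (nat_lit 331) (B (L (nat_lit 366) ln14_11_3 ln14_11_3_ok) (L (nat_lit 299) ln10_13_6 ln10_13_6_ok))))) (M (nat_lit 459) (B (M (nat_lit 427) (B (L (nat_lit 425) ln9_13_0 ln9_13_0_ok) (L (nat_lit 330)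 ln10_10_4 ln10_10_4_ok))) (M (nat_lit 458) (B (L (nat_lit 331) ln10_14_6 ln10_14_6_ok) (L (nat_lit 491) ln10_11_4 ln10_11_4_ok))))))))) (L (nat_lit 393) ln13_11_1 ln13_11_1_ok))) (B (M (nat_lit 458) (B (M (nat_lit 457) (B (M (nat_lit 393) (B (L (nat_lit 394) ln13_11_1 ln13_11_1_ok) (M (nat_lit 361) (B (L (nat_lit 392) ln12_11_1 ln12_11_1_ok) (M (nat_lit 328) (B (L (nat_lit 329) ln12_11_3 ln12_11_3_ok) (M (nat_lit 360) (B (L (nat_lit 327) ln11_11_3 ln11_11_3_ok) (L (nat_lit 425) ln9_14_7_c10 ln9_14_7_c10_ok))))))))) (L (nat_lit 459) ln9_14_2 ln9_14_2_ok))) (B (M (nat_lit 426) (B (M (nat_lit 457) (B (L (nat_lit 427) ln13_13_1 ln13_13_1_ok) (L (nat_lit 459) ln9_14_2 ln9_14_2_ok))) (M (nat_lit 394) (B (L (nat_lit 393) ln13_11_1 ln13_11_1_ok) (L (nat_lit 331) ln10_14_6 ln10_14_6_ok))))) (B (M (nat_lit 426) (B (M (nat_lit 427) (B (L (nat_lit 425) ln9_13_0 ln9_13_0_ok) (L (nat_lit 457) ln13_13_1 ln13_13_1_ok))) (M (nat_lit 394) (B (L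 (nat_lit 393) ln13_11_1 ln13_11_1_ok) (L (nat_lit 331) ln10_14_6 ln10_14_6_ok))))) (B (M (nat_lit 426) (B (M (nat_lit 425) (B (L (nat_lit 427) ln9_13_0 ln9_13_0_ok) (L (nat_lit 459) ln13_14_3 ln13_14_3_ok))) (M (nat_lit 394) (B (L (nat_lit 393) ln13_11_1 ln13_11_1_ok) (L (nat_lit 331) ln10_14_6 ln10_14_6_ok))))) (M (nat_lit 426) (B (M (nat_lit 457) (B (L (nat_lit 427) ln13_13_1 ln13_13_1_ok) (L (nat_lit 459) ln9_14_2 ln9_14_2_ok))) (B (M (nat_lit 425) (B (L (nat_lit 427) ln9_13_0 ln9_13_0_ok) (L (nat_lit 459) ln13_14_3 ln13_14_3_ok))) (B (M (nat_lit 427) (B (L (nat_lit 425) ln9_13_0 ln9_13_0_ok) (L (nat_lit 457) ln13_13_1 ln13_13_1_ok))) (M (nat_lit 459) (B (L (nat_lit 425) ln13_14_3 ln13_14_3_ok) (L (nat_lit 457) ln9_14_2 ln9_14_2_ok)))))))))))) (B (M (nat_lit 330) (B (L (nat_lit 329) ln13_11_3 ln13_11_3_ok) (M (nat_lit 366) (B (L (nat_lit 331) ln14_11_3 ln14_11_3_ok) (M (nat_lit 367) (B (M (nat_lit 399) (B (L (nat_lit 398) ln11_11_0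 ln11_11_0_ok) (L (nat_lit 400) ln12_11_0 ln12_11_0_ok))) (M (nat_lit 335) (B (L (nat_lit 334) ln11_11_2 ln11_11_2_ok) (L (nat_lit 336) ln12_11_2 ln12_11_2_ok))))))))) (M (nat_lit 361) (B (M (nat_lit 393) (B (L (nat_lit 394) ln13_11_1 ln13_11_1_ok) (L (nat_lit 392) ln12_11_1 ln12_11_1_ok))) (M (nat_lit 329) (B (L (nat_lit 330) ln13_11_3 ln13_11_3_ok) (L (nat_lit 328) ln12_11_3 ln12_11_3_ok))))))))) (B (M (nat_lit 362) (B (M (nat_lit 333) (B (L (nat_lit 334) ln10_11_2 ln10_11_2_ok) (L (nat_lit 396) ln12_14_6 ln12_14_6_ok))) (M (nat_lit 361) (B (M (nat_lit 329) (B (L (nat_lit 328) ln12_11_3 ln12_11_3_ok) (L (nat_lit 330) ln13_11_3 ln13_11_3_ok))) (M (nat_lit 393) (B (L (nat_lit 392) ln12_11_1 ln12_11_1_ok) (L (nat_lit 394) ln13_11_1 ln13_11_1_ok))))))) (M (nat_lit 396) (B (L (nat_lit 333) ln12_14_6 ln12_14_6_ok) (L (nat_lit 331) ln12_14_7 ln12_14_7_ok)))))) (B (M (nat_lit 362) (B (M (nat_lit 366) (B (M (nat_lit 394) (B (M (nat_lit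 426) (B (M (nat_lit 462) (B (M (nat_lit 463) (B (M (nat_lit 399) (B (L (nat_lit 398) ln11_11_0 ln11_11_0_ok) (M (nat_lit 367) (B (L (nat_lit 400) ln12_11_0 ln12_11_0_ok) (M (nat_lit 336) (B (L (nat_lit 335) ln12_11_2 ln12_11_2_ok) (M (nat_lit 368) (B (L (nat_lit 337) ln13_11_2 ln13_11_2_ok) (L (nat_lit 431) ln15_14_6 ln15_14_6_ok))))))))) (L (nat_lit 464) ln16_14_3 ln16_14_3_ok))) (L (nat_lit 427) ln10_13_0 ln10_13_0_ok))) (M (nat_lit 458) (B (L (nat_lit 331) ln10_14_6 ln10_14_6_ok) (M (nat_lit 489) (B (L (nat_lit 457) ln10_11_5 ln10_11_5_ok) (M (nat_lit 491) (B (L (nat_lit 459) ln10_11_4 ln10_11_4_ok) (M (nat_lit 490) (B (L (nat_lit 521) ln10_12_5 ln10_12_5_ok) (L (nat_lit 523) ln10_12_4 ln10_12_4_ok))))))))))) (L (nat_lit 393) ln13_11_1 ln13_11_1_ok))) (B (M (nat_lit 334) (B (M (nat_lit 399) (B (M (nat_lit 367) (B (M (nat_lit 394) (B (M (nat_lit 426) (B (M (nat_lit 458) (B (L (nat_lit 331) ln10_14_6 ln10_14_6_ok) (M (nat_lit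 489) (B (L (nat_lit 457) ln10_11_5 ln10_11_5_ok) (M (nat_lit 491) (B (L (nat_lit 459) ln10_11_4 ln10_11_4_ok) (M (nat_lit 490) (B (L (nat_lit 521) ln10_12_5 ln10_12_5_ok) (L (nat_lit 523) ln10_12_4 ln10_12_4_ok))))))))) (M (nat_lit 463) (B (M (nat_lit 462) (B (L (nat_lit 427) ln10_13_0 ln10_13_0_ok) (L (nat_lit 464) ln16_14_3 ln16_14_3_ok))) (L (nat_lit 431) ln15_14_7 ln15_14_7_ok))))) (L (nat_lit 393) ln13_11_1 ln13_11_1_ok))) (L (nat_lit 400) ln12_11_0 ln12_11_0_ok))) (L (nat_lit 398) ln11_11_0 ln11_11_0_ok))) (L (nat_lit 333) ln10_11_2 ln10_11_2_ok))) (M (nat_lit 334) (B (L (nat_lit 333) ln10_11_2 ln10_11_2_ok) (L (nat_lit 335) ln11_11_2 ln11_11_2_ok)))))) (B (M (nat_lit 330) (B (L (nat_lit 329) ln13_11_3 ln13_11_3_ok) (M (nat_lit 366) (B (L (nat_lit 331) ln14_11_3 ln14_11_3_ok) (M (nat_lit 367) (B (M (nat_lit 399) (B (L (nat_lit 398) ln11_11_0 ln11_11_0_ok) (L (nat_lit 400) ln12_11_0 ln12_11_0_ok))) (M (nat_lit 335) (B (L (nat_lit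 334) ln11_11_2 ln11_11_2_ok) (L (nat_lit 336) ln12_11_2 ln12_11_2_ok))))))))) (M (nat_lit 361) (B (M (nat_lit 329) (B (L (nat_lit 328) ln12_11_3 ln12_11_3_ok) (L (nat_lit 330) ln13_11_3 ln13_11_3_ok))) (M (nat_lit 393) (B (L (nat_lit 394) ln13_11_1 ln13_11_1_ok) (L (nat_lit 392) ln12_11_1 ln12_11_1_ok)))))))) (B (M (nat_lit 460) (B (M (nat_lit 462) (B (K (nat_lit 20839919905083143036420823364580195031730252531965922144342952295818187576987177151222377317750813461742705775901874405840903824137158393856) (nat_lit 11188346806937506145753621062967021212924392259469256030954017615820488859900612855211531288033606181315255636784554086139481476476886522102944890880) (nat_lit 11188346806937506145753621062967021212924392259469256030954017615820488859900612855211531288033606181315255636784554086139481476476886522102944890880) c10_s6) (B (M (nat_lit 463) (B (L (nat_lit 464) ln16_14_3 ln16_14_3_ok) (M (nat_lit 459) (B (M (nat_lit 491) (B (L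 (nat_lit 490) ln14_14_1 ln14_14_1_ok) (L (nat_lit 492) ln15_14_1 ln15_14_1_ok))) (M (nat_lit 495) (B (L (nat_lit 494) ln11_14_0 ln11_14_0_ok) (L (nat_lit 496) ln12_14_0 ln12_14_0_ok))))))) (M (nat_lit 463) (B (L (nat_lit 464) ln16_14_3 ln16_14_3_ok) (L (nat_lit 427) ln15_14_3 ln15_14_3_ok)))))) (B (M (nat_lit 362) (B (M (nat_lit 333) (B (L (nat_lit 334) ln10_11_2 ln10_11_2_ok) (L (nat_lit 396) ln12_14_6 ln12_14_6_ok))) (M (nat_lit 361) (B (M (nat_lit 329) (B (L (nat_lit 328) ln12_11_3 ln12_11_3_ok) (L (nat_lit 330) ln13_11_3 ln13_11_3_ok))) (M (nat_lit 393) (B (L (nat_lit 392) ln12_11_1 ln12_11_1_ok) (L (nat_lit 394) ln13_11_1 ln13_11_1_ok))))))) (M (nat_lit 396) (B (L (nat_lit 333) ln12_14_6 ln12_14_6_ok) (L (nat_lit 331) ln12_14_7 ln12_14_7_ok)))))) (M (nat_lit 460) (B (M (nat_lit 463) (B (M (nat_lit 362) (B (M (nat_lit 329) (B (L (nat_lit 330) ln13_11_3 ln13_11_3_ok) (M (nat_lit 361) (B (L (nat_lit 328) ln12_11_3 ln12_11_3_ok)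 (M (nat_lit 393) (B (L (nat_lit 392) ln12_11_1 ln12_11_1_ok) (L (nat_lit 394) ln13_11_1 ln13_11_1_ok))))))) (B (M (nat_lit 366) (B (M (nat_lit 330) (B (L (nat_lit 329) ln13_11_3 ln13_11_3_ok) (L (nat_lit 331) ln14_11_3 ln14_11_3_ok))) (M (nat_lit 334) (B (L (nat_lit 333) ln10_11_2 ln10_11_2_ok) (L (nat_lit 335) ln11_11_2 ln11_11_2_ok))))) (M (nat_lit 334) (B (L (nat_lit 333) ln10_11_2 ln10_11_2_ok) (M (nat_lit 366) (B (L (nat_lit 335) ln11_11_2 ln11_11_2_ok) (M (nat_lit 399) (B (L (nat_lit 398) ln11_11_0 ln11_11_0_ok) (M (nat_lit 367) (B (L (nat_lit 400) ln12_11_0 ln12_11_0_ok) (L (nat_lit 431) ln15_14_7 ln15_14_7_ok)))))))))))) (M (nat_lit 462) (B (L (nat_lit 464) ln16_14_3 ln16_14_3_ok) (L (nat_lit 427) ln15_14_3 ln15_14_3_ok))))) (B (M (nat_lit 362) (B (M (nat_lit 333) (B (L (nat_lit 334) ln10_11_2 ln10_11_2_ok) (L (nat_lit 396) ln12_14_6 ln12_14_6_ok))) (M (nat_lit 361) (B (M (nat_lit 329) (B (L (nat_lit 328) ln12_11_3 ln12_11_3_ok)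 (L (nat_lit 330) ln13_11_3 ln13_11_3_ok))) (M (nat_lit 393) (B (L (nat_lit 392) ln12_11_1 ln12_11_1_ok) (L (nat_lit 394) ln13_11_1 ln13_11_1_ok))))))) (B (M (nat_lit 366) (B (M (nat_lit 331) (B (L (nat_lit 330) ln14_11_3 ln14_11_3_ok) (L (nat_lit 396) ln12_14_7 ln12_14_7_ok))) (M (nat_lit 367) (B (M (nat_lit 335) (B (L (nat_lit 336) ln12_11_2 ln12_11_2_ok) (L (nat_lit 334) ln11_11_2 ln11_11_2_ok))) (M (nat_lit 399) (B (L (nat_lit 400) ln12_11_0 ln12_11_0_ok) (L (nat_lit 398) ln11_11_0 ln11_11_0_ok))))))) (M (nat_lit 396) (B (L (nat_lit 333) ln12_14_6 ln12_14_6_ok) (L (nat_lit 331) ln12_14_7 ln12_14_7_ok))))))))))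
theorem c10_s9 : Sem (nat_lit 5954262830815946494440468064139258622131906539230539000934078872806075061271132354550578193372942037532254438881195279021764289825886699520) (nat_lit 344728266524137510402434499354379170964440561339356860303318163716471329896373728313815168605558726580159496631755975209073653187647439652421990634898266318141996714889153870129268120082891256833643113139008589266944) (nat_lit 344728266524137510402434499354379170964440561339356860303318163716471329896373728313815168605558726580159496631755975209073653187647439652421990634898266318141996714889153870129268120082891256833643113139008589266944) :=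
  sem_of_chk (M (nat_lit 428) (B (M (nat_lit 460) (B (K (nat_lit 8931394246223919741660702096143128740880192478464903044691016872442593480537265575446063142856511203595172621904809346577872911053935869952) (nat_lit 344728266524137510402434499354379170964440561339356860303318163716471329896370751182399760632308046534766331168330842117286309959844707633087538765873985161393202650593689944847796166184884705047922182317512375402496) (nat_lit 344728266524137510402434499354379170964440561339356860303318163716471329896370751182399760632308046534766331168330842117286309959844707633087538765873985161393202650593689944847796166184884705047922182317512375402496) c10_s2) (M (nat_lit 362) (B (M (nat_lit 333) (B (L (nat_lit 334) ln10_11_2 ln10_11_2_ok) (L (nat_lit 396) ln12_14_6 ln12_14_6_ok))) (M (nat_lit 361) (B (M (nat_lit 329) (B (L (nat_lit 328) ln12_11_3 ln12_11_3_ok) (L (nat_lit 330) ln13_11_3 ln13_11_3_ok))) (M (nat_lit 393) (B (L (nat_lit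 392) ln12_11_1 ln12_11_1_ok) (L (nat_lit 394) ln13_11_1 ln13_11_1_ok))))))))) (B (M (nat_lit 460) (B (K (nat_lit 8931394246223919741660702096143128740880192478464903044691016872442593480537265575446063142856511203595172621904809346577872911053935869952) (nat_lit 344728266524137510402434499354379170964440561339356860303318163716471329896370751182399760632308046534766331168330842117286309959844707633087538765873985161393202650593689944847796166184884705047922182317512375402496) (nat_lit 344728266524137510402434499354379170964440561339356860303318163716471329896370751182399760632308046534766331168330842117286309959844707633087538765873985161393202650593689944847796166184884705047922182317512375402496) c10_s2) (M (nat_lit 396) (B (L (nat_lit 333) ln12_14_6 ln12_14_6_ok) (L (nat_lit 331) ln12_14_7 ln12_14_7_ok))))) (B (M (nat_lit 460) (B (K (nat_lit 8931394246223919741660702096143128740880192478464903044691016872442593480537265575446063142856511203595172621904809346577872911053935869952)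 (nat_lit 943490606425058863553783600755425751106931713439554578160830367643095220853790867978575098115065140597355275708682093332671903168877930850107781672371233712081559617536) (nat_lit 943490606425058863553783600755425751106931713439554578160830367643095220853790867978575098115065140597355275708682093332671903168877930850107781672371233712081559617536) c10_s7) (B (M (nat_lit 462) (B (M (nat_lit 427) (B (L (nat_lit 426) ln10_13_0 ln10_13_0_ok) (L (nat_lit 463) ln15_14_3 ln15_14_3_ok))) (B (M (nat_lit 463) (B (L (nat_lit 427) ln15_14_3 ln15_14_3_ok) (L (nat_lit 464) ln16_14_3 ln16_14_3_ok))) (B (M (nat_lit 459) (B (M (nat_lit 490) (B (L (nat_lit 491) ln14_14_1 ln14_14_1_ok) (M (nat_lit 458) (B (L (nat_lit 489) ln13_14_1 ln13_14_1_ok) (L (nat_lit 457) ln9_14_2 ln9_14_2_ok))))) (M (nat_lit 495) (B (L (nat_lit 494) ln11_14_0 ln11_14_0_ok) (M (nat_lit 463) (B (L (nat_lit 496) ln12_14_0 ln12_14_0_ok) (L (nat_lit 464) ln16_14_3 ln16_14_3_ok)))))))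 (K (nat_lit 20839919905083143036420823364580195031730252531965922144342952295818187576987177151222377317750813461742705775901874405840903824137158393856) (nat_lit 117936325803132357909259366322748512183232982070149308022516462404323110661256299685012344043955895117237664791067450430494749517942165302949367864018476070889087565824) (nat_lit 117936325803132357909259366322748512183232982070149308022516462404323110661256299685012344043955895117237664791067450430494749517942165302949367864018476070889087565824) c10_s8))))) (M (nat_lit 366) (B (M (nat_lit 331) (B (L (nat_lit 330) ln14_11_3 ln14_11_3_ok) (L (nat_lit 396) ln12_14_7 ln12_14_7_ok))) (M (nat_lit 367) (B (M (nat_lit 335) (B (L (nat_lit 336) ln12_11_2 ln12_11_2_ok) (L (nat_lit 334) ln11_11_2 ln11_11_2_ok))) (M (nat_lit 399) (B (L (nat_lit 400) ln12_11_0 ln12_11_0_ok) (L (nat_lit 398) ln11_11_0 ln11_11_0_ok)))))))))) (B (M (nat_lit 362) (B (M (nat_lit 333) (B (M (nat_lit 394)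 (B (M (nat_lit 460) (B (M (nat_lit 458) (B (M (nat_lit 459) (B (M (nat_lit 462) (B (M (nat_lit 490) (B (L (nat_lit 489) ln13_14_1 ln13_14_1_ok) (L (nat_lit 491) ln14_14_1 ln14_14_1_ok))) (M (nat_lit 463) (B (L (nat_lit 464) ln16_14_3 ln16_14_3_ok) (M (nat_lit 495) (B (L (nat_lit 494) ln11_14_0 ln11_14_0_ok) (L (nat_lit 496) ln12_14_0 ln12_14_0_ok))))))) (L (nat_lit 457) ln9_14_2 ln9_14_2_ok))) (B (M (nat_lit 426) (B (M (nat_lit 489) (B (M (nat_lit 490) (B (M (nat_lit 491) (B (L (nat_lit 492) ln9_15_2 ln9_15_2_ok) (L (nat_lit 523) ln10_12_4 ln10_12_4_ok))) (L (nat_lit 521) ln10_12_5 ln10_12_5_ok))) (L (nat_lit 457) ln10_11_5 ln10_11_5_ok))) (L (nat_lit 331) ln10_14_6 ln10_14_6_ok))) (B (M (nat_lit 459) (B (M (nat_lit 426) (B (L (nat_lit 425) ln13_14_3 ln13_14_3_ok) (L (nat_lit 331) ln10_14_6 ln10_14_6_ok))) (L (nat_lit 457) ln9_14_2 ln9_14_2_ok))) (M (nat_lit 426) (B (M (nat_lit 459) (B (L (nat_lit 425) ln13_14_3 ln13_14_3_ok) (L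 (nat_lit 491) ln10_11_4 ln10_11_4_ok))) (L (nat_lit 331) ln10_14_6 ln10_14_6_ok))))))) (L (nat_lit 396) ln12_14_6 ln12_14_6_ok))) (L (nat_lit 393) ln13_11_1 ln13_11_1_ok))) (L (nat_lit 334) ln10_11_2 ln10_11_2_ok))) (B (M (nat_lit 330) (B (L (nat_lit 329) ln13_11_3 ln13_11_3_ok) (M (nat_lit 366) (B (L (nat_lit 331) ln14_11_3 ln14_11_3_ok) (M (nat_lit 367) (B (M (nat_lit 399) (B (L (nat_lit 398) ln11_11_0 ln11_11_0_ok) (L (nat_lit 400) ln12_11_0 ln12_11_0_ok))) (M (nat_lit 335) (B (L (nat_lit 334) ln11_11_2 ln11_11_2_ok) (L (nat_lit 336) ln12_11_2 ln12_11_2_ok))))))))) (M (nat_lit 361) (B (M (nat_lit 329) (B (L (nat_lit 328) ln12_11_3 ln12_11_3_ok) (L (nat_lit 330) ln13_11_3 ln13_11_3_ok))) (M (nat_lit 393) (B (L (nat_lit 394) ln13_11_1 ln13_11_1_ok) (L (nat_lit 392) ln12_11_1 ln12_11_1_ok)))))))) c10_d396))))) (nat_lit 5954262830815946494440468064139258622131906539230539000934078872806075061271132354550578193372942037532254438881195279021764289825886699520)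 (nat_lit 344728266524137510402434499354379170964440561339356860303318163716471329896373728313815168605558726580159496631755975209073653187647439652421990634898266318141996714889153870129268120082891256833643113139008589266944) (nat_lit 344728266524137510402434499354379170964440561339356860303318163716471329896373728313815168605558726580159496631755975209073653187647439652421990634898266318141996714889153870129268120082891256833643113139008589266944) (by decide +kernel)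
noncomputable def c10_d397 : Cert := (B (M (nat_lit 331) (B (M (nat_lit 299) (B (M (nat_lit 396) (B (L (nat_lit 428) ln11_9_4 ln11_9_4_ok) (M (nat_lit 300) (B (L (nat_lit 268) ln11_12_6 ln11_12_6_ok) (M (nat_lit 298) (B (L (nat_lit 266) ln11_12_7 ln11_12_7_ok) (M (nat_lit 301) (B (M (nat_lit 366) (B (L (nat_lit 367) ln15_11_1 ln15_11_1_ok) (M (nat_lit 334) (B (L (nat_lit 335) ln11_11_2 ln11_11_2_ok) (M (nat_lit 398) (B (L (nat_lit 399) ln11_11_0 ln11_11_0_ok) (M (nat_lit 302) (B (L (nat_lit 269) ln14_12_7 ln14_12_7_ok) (M (nat_lit 271) (B (L (nat_lit 303) ln14_12_6 ln14_12_6_ok) (L (nat_lit 270) ln11_9_2 ln11_9_2_ok))))))))))) (B (M (nat_lit 366) (B (M (nat_lit 332) (B (L (nat_lit 367) ln15_11_1 ln15_11_1_ok) (L (nat_lit 269) ln12_12_6 ln12_12_6_ok))) (B (M (nat_lit 334) (B (L (nat_lit 335) ln11_11_2 ln11_11_2_ok) (M (nat_lit 269) (B (L (nat_lit 332) ln12_12_6 ln12_12_6_ok) (M (nat_lit 398) (B (L (nat_lit 399) ln11_11_0 ln11_11_0_ok)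 (L (nat_lit 302) ln14_12_7 ln14_12_7_ok))))))) (M (nat_lit 335) (B (L (nat_lit 334) ln11_11_2 ln11_11_2_ok) (L (nat_lit 367) ln15_11_1 ln15_11_1_ok)))))) (B (M (nat_lit 335) (B (M (nat_lit 334) (B (L (nat_lit 302) ln11_9_0_c10 ln11_9_0_c10_ok) (L (nat_lit 366) ln11_11_2 ln11_11_2_ok))) (B (M (nat_lit 366) (B (L (nat_lit 334) ln11_11_2 ln11_11_2_ok) (L (nat_lit 367) ln15_11_1 ln15_11_1_ok))) (B (M (nat_lit 303) (B (M (nat_lit 302) (B (L (nat_lit 336) ln12_9_0 ln12_9_0_ok) (L (nat_lit 332) ln15_9_1_c10 ln15_9_1_c10_ok))) (B (M (nat_lit 302) (B (L (nat_lit 332) ln15_9_1_c10 ln15_9_1_c10_ok) (M (nat_lit 271) (B (L (nat_lit 272) ln12_9_2 ln12_9_2_ok) (L (nat_lit 270) ln11_9_2 ln11_9_2_ok))))) (M (nat_lit 367) (B (L (nat_lit 366) ln15_11_1 ln15_11_1_ok) (M (nat_lit 271) (B (M (nat_lit 239) (B (M (nat_lit 240) (B (L (nat_lit 208) ln15_10_6_c10 ln15_10_6_c10_ok) (L (nat_lit 272) ln15_11_6 ln15_11_6_ok))) (M (nat_lit 238) (B (L (nat_lit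 206) ln15_10_7_c10 ln15_10_7_c10_ok) (L (nat_lit 270) ln15_11_7 ln15_11_7_ok))))) (B (M (nat_lit 239) (B (M (nat_lit 368) (B (L (nat_lit 336) ln15_7_4_c10 ln15_7_4_c10_ok) (L (nat_lit 400) ln15_8_4 ln15_8_4_ok))) (M (nat_lit 238) (B (L (nat_lit 206) ln15_10_7_c10 ln15_10_7_c10_ok) (L (nat_lit 270) ln15_11_7 ln15_11_7_ok))))) (M (nat_lit 399) (B (M (nat_lit 272) (B (L (nat_lit 240) ln15_11_6 ln15_11_6_ok) (L (nat_lit 304) ln15_12_6 ln15_12_6_ok))) (M (nat_lit 400) (B (L (nat_lit 368) ln15_8_4 ln15_8_4_ok) (L (nat_lit 432) ln15_9_4 ln15_9_4_ok))))))))))))) (M (nat_lit 302) (B (L (nat_lit 334) ln11_9_0_c10 ln11_9_0_c10_ok) (M (nat_lit 303) (B (L (nat_lit 336) ln12_9_0 ln12_9_0_ok) (L (nat_lit 332) ln15_9_1_c10 ln15_9_1_c10_ok))))))))) (M (nat_lit 269) (B (L (nat_lit 332) ln12_12_6 ln12_12_6_ok) (L (nat_lit 270) ln10_9_2 ln10_9_2_ok))))))))))))) (B (M (nat_lit 267) (B (M (nat_lit 235) (B (M (nat_lit 234) (B (L (nat_lit 202) ln11_10_7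 ln11_10_7_ok) (L (nat_lit 266) ln11_11_7 ln11_11_7_ok))) (M (nat_lit 236) (B (L (nat_lit 204) ln11_10_6 ln11_10_6_ok) (L (nat_lit 268) ln11_11_6 ln11_11_6_ok))))) (B (M (nat_lit 268) (B (L (nat_lit 236) ln11_11_6 ln11_11_6_ok) (L (nat_lit 300) ln11_12_6 ln11_12_6_ok))) (B (M (nat_lit 266) (B (L (nat_lit 234) ln11_11_7 ln11_11_7_ok) (M (nat_lit 300) (B (L (nat_lit 298) ln11_12_7 ln11_12_7_ok) (M (nat_lit 265) (B (L (nat_lit 264) ln8_8_0_c10 ln8_8_0_c10_ok) (L (nat_lit 268) ln11_12_6 ln11_12_6_ok))))))) (M (nat_lit 235) (B (M (nat_lit 234) (B (L (nat_lit 202) ln11_10_7 ln11_10_7_ok) (L (nat_lit 266) ln11_11_7 ln11_11_7_ok))) (M (nat_lit 203) (B (M (nat_lit 204) (B (L (nat_lit 172) ln11_9_6_c10 ln11_9_6_c10_ok) (L (nat_lit 236) ln11_10_6 ln11_10_6_ok))) (L (nat_lit 332) ln11_7_4 ln11_7_4_ok))))))))) (M (nat_lit 396) (B (L (nat_lit 428) ln11_9_4 ln11_9_4_ok) (L (nat_lit 267) ln11_8_4 ln11_8_4_ok)))))) (B (M (nat_lit 299) (B (M (nat_lit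 396) (B (L (nat_lit 267) ln11_8_4 ln11_8_4_ok) (L (nat_lit 428) ln11_9_4 ln11_9_4_ok))) (B (M (nat_lit 300) (B (L (nat_lit 268) ln11_12_6 ln11_12_6_ok) (M (nat_lit 301) (B (M (nat_lit 330) (B (L (nat_lit 302) ln14_9_1_c10 ln14_9_1_c10_ok) (M (nat_lit 329) (B (L (nat_lit 328) ln8_10_0 ln8_10_0_ok) (L (nat_lit 298) ln13_9_1 ln13_9_1_ok))))) (B (M (nat_lit 330) (B (L (nat_lit 302) ln14_9_1_c10 ln14_9_1_c10_ok) (M (nat_lit 329) (B (L (nat_lit 298) ln13_9_1 ln13_9_1_ok) (L (nat_lit 332) ln9_10_0 ln9_10_0_ok))))) (B (M (nat_lit 396) (B (L (nat_lit 428) ln11_9_4 ln11_9_4_ok) (M (nat_lit 298) (B (L (nat_lit 266) ln11_12_7 ln11_12_7_ok) (M (nat_lit 269) (B (L (nat_lit 270) ln10_9_2 ln10_9_2_ok) (L (nat_lit 332) ln12_12_6 ln12_12_6_ok))))))) (M (nat_lit 330) (B (L (nat_lit 302) ln14_9_1_c10 ln14_9_1_c10_ok) (M (nat_lit 329) (B (L (nat_lit 328) ln8_10_0 ln8_10_0_ok) (L (nat_lit 332) ln9_10_0 ln9_10_0_ok))))))))))) (M (nat_lit 267) (B (M (nat_lit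 235) (B (L (nat_lit 332) ln11_7_4 ln11_7_4_ok) (M (nat_lit 236) (B (L (nat_lit 204) ln11_10_6 ln11_10_6_ok) (L (nat_lit 268) ln11_11_6 ln11_11_6_ok))))) (M (nat_lit 266) (B (L (nat_lit 234) ln11_11_7 ln11_11_7_ok) (L (nat_lit 298) ln11_12_7 ln11_12_7_ok)))))))) (M (nat_lit 366) (B (L (nat_lit 330) ln14_11_3 ln14_11_3_ok) (M (nat_lit 399) (B (L (nat_lit 398) ln11_11_0 ln11_11_0_ok) (M (nat_lit 335) (B (L (nat_lit 334) ln11_11_2 ln11_11_2_ok) (M (nat_lit 367) (B (L (nat_lit 400) ln12_11_0 ln12_11_0_ok) (L (nat_lit 336) ln12_11_2 ln12_11_2_ok)))))))))))) (B (M (nat_lit 362) (B (M (nat_lit 393) (B (L (nat_lit 394) ln13_11_1 ln13_11_1_ok) (M (nat_lit 361) (B (L (nat_lit 392) ln12_11_1 ln12_11_1_ok) (M (nat_lit 329) (B (L (nat_lit 328) ln12_11_3 ln12_11_3_ok) (L (nat_lit 330) ln13_11_3 ln13_11_3_ok))))))) (B (M (nat_lit 361) (B (M (nat_lit 393) (B (L (nat_lit 392) ln12_11_1 ln12_11_1_ok) (L (nat_lit 394) ln13_11_1 ln13_11_1_ok))) (B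 (M (nat_lit 394) (B (L (nat_lit 393) ln13_11_1 ln13_11_1_ok) (M (nat_lit 360) (B (L (nat_lit 359) ln7_11_0 ln7_11_0_ok) (L (nat_lit 396) ln8_11_0 ln8_11_0_ok))))) (B (M (nat_lit 360) (B (L (nat_lit 396) ln8_11_0 ln8_11_0_ok) (M (nat_lit 359) (B (L (nat_lit 394) ln7_11_0 ln7_11_0_ok) (M (nat_lit 330) (B (L (nat_lit 331) ln7_11_2 ln7_11_2_ok) (L (nat_lit 329) ln13_11_3 ln13_11_3_ok))))))) (M (nat_lit 360) (B (L (nat_lit 396) ln8_11_0 ln8_11_0_ok) (M (nat_lit 392) (B (L (nat_lit 391) ln11_11_1 ln11_11_1_ok) (L (nat_lit 393) ln12_11_1 ln12_11_1_ok))))))))) (B (M (nat_lit 394) (B (L (nat_lit 393) ln13_11_1 ln13_11_1_ok) (M (nat_lit 361) (B (M (nat_lit 329) (B (L (nat_lit 328) ln12_11_3 ln12_11_3_ok) (L (nat_lit 330) ln13_11_3 ln13_11_3_ok))) (M (nat_lit 360) (B (L (nat_lit 359) ln7_11_0 ln7_11_0_ok) (L (nat_lit 396) ln8_11_0 ln8_11_0_ok))))))) (B (K (nat_lit 5954262830815946494521163372838868685889749346267191044394039526941491026242723738925302595447097160964889289945054382247675338762162798592)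 (nat_lit 237042469285729085981736043732169730457035360771298975422898064293433561018626225266473709778660325955849651465245163520) (nat_lit 237042469285729085981736043732169730457035360771298975422898064293433561018626225266473709778660325955849651465245163520) c10_s165) (B (M (nat_lit 394) (B (L (nat_lit 393) ln13_11_1 ln13_11_1_ok) (M (nat_lit 330) (B (L (nat_lit 329) ln13_11_3 ln13_11_3_ok) (M (nat_lit 426) (B (M (nat_lit 331) (B (L (nat_lit 299) ln11_9_5 ln11_9_5_ok) (L (nat_lit 458) ln10_14_6 ln10_14_6_ok))) (B (M (nat_lit 299) (B (L (nat_lit 331) ln11_9_5 ln11_9_5_ok) (M (nat_lit 298) (B (L (nat_lit 266) ln10_8_4 ln10_8_4_ok) (L (nat_lit 267) ln10_12_6_c10 ln10_12_6_c10_ok))))) (B (M (nat_lit 458) (B (L (nat_lit 331) ln10_14_6 ln10_14_6_ok) (L (nat_lit 490) ln10_15_6 ln10_15_6_ok))) (M (nat_lit 457) (B (L (nat_lit 425) ln10_10_5 ln10_10_5_ok) (M (nat_lit 458) (B (L (nat_lit 489) ln10_11_5 ln10_11_5_ok) (L (nat_lit 490) ln10_15_6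 ln10_15_6_ok))))))))))))) (B (K (nat_lit 5954262830815946494521163372838868685889749346267191044394039526941491026242723738925302595447097160964889289945054382247675338762162798592) (nat_lit 201738271733759632615189401339181594222987672179873609987152486411355637838854921681081362711481257272969208905510944768) (nat_lit 201738271733759632615189401339181594222987672179873609987152486411355637838854921681081362711481257272969208905510944768) c10_s166) (M (nat_lit 361) (B (M (nat_lit 329) (B (L (nat_lit 328) ln12_11_3 ln12_11_3_ok) (L (nat_lit 330) ln13_11_3 ln13_11_3_ok))) (M (nat_lit 360) (B (L (nat_lit 396) ln8_11_0 ln8_11_0_ok) (M (nat_lit 392) (B (L (nat_lit 391) ln11_11_1 ln11_11_1_ok) (L (nat_lit 393) ln12_11_1 ln12_11_1_ok)))))))))))))) (B (M (nat_lit 366) (B (L (nat_lit 394) ln14_11_1 ln14_11_1_ok) (M (nat_lit 367) (B (M (nat_lit 331) (B (L (nat_lit 330) ln14_11_3 ln14_11_3_ok) (L (nat_lit 332) ln15_11_3 ln15_11_3_ok))) (M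 (nat_lit 399) (B (L (nat_lit 398) ln11_11_0 ln11_11_0_ok) (L (nat_lit 400) ln12_11_0 ln12_11_0_ok))))))) (M (nat_lit 394) (B (M (nat_lit 393) (B (L (nat_lit 362) ln13_11_1 ln13_11_1_ok) (L (nat_lit 396) ln9_12_2 ln9_12_2_ok))) (L (nat_lit 366) ln14_11_1 ln14_11_1_ok))))))
noncomputable def c10_d398 : Cert := (B (M (nat_lit 425) (B (M (nat_lit 424) (B (L (nat_lit 396) ln12_12_1 ln12_12_1_ok) (M (nat_lit 423) (B (L (nat_lit 426) ln7_13_2 ln7_13_2_ok) (L (nat_lit 422) ln6_13_2_c10 ln6_13_2_c10_ok))))) (B (M (nat_lit 457) (B (M (nat_lit 362) (B (L (nat_lit 489) ln9_15_6 ln9_15_6_ok) (M (nat_lit 330) (B (L (nat_lit 298) ln10_9_5_c10 ln10_9_5_c10_ok) (L (nat_lit 361) ln9_14_6_c10 ln9_14_6_c10_ok))))) (B (M (nat_lit 362) (B (L (nat_lit 489) ln9_15_6 ln9_15_6_ok) (M (nat_lit 330) (B (L (nat_lit 426) ln10_10_5 ln10_10_5_ok) (L (nat_lit 361) ln9_14_6_c10 ln9_14_6_c10_ok))))) (B (M (nat_lit 489) (B (L (nat_lit 362) ln9_15_6 ln9_15_6_ok) (M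 (nat_lit 521) (B (L (nat_lit 426) ln9_16_6 ln9_16_6_ok) (M (nat_lit 522) (B (L (nat_lit 490) ln9_12_4 ln9_12_4_ok) (L (nat_lit 554) ln9_13_4 ln9_13_4_ok))))))) (B (M (nat_lit 361) (B (M (nat_lit 456) (B (L (nat_lit 488) ln9_11_5_c10 ln9_11_5_c10_ok) (M (nat_lit 329) (B (L (nat_lit 424) ln9_10_5_c10 ln9_10_5_c10_ok) (M (nat_lit 328) (B (L (nat_lit 296) ln9_13_7_c10 ln9_13_7_c10_ok) (L (nat_lit 360) ln9_14_7_c10 ln9_14_7_c10_ok))))))) (B (M (nat_lit 489) (B (M (nat_lit 488) (B (L (nat_lit 456) ln9_11_5_c10 ln9_11_5_c10_ok) (L (nat_lit 520) ln9_12_5_c10 ln9_12_5_c10_ok))) (M (nat_lit 522) (B (L (nat_lit 490) ln9_12_4 ln9_12_4_ok) (M (nat_lit 521) (B (L (nat_lit 426) ln9_16_6 ln9_16_6_ok) (L (nat_lit 554) ln9_13_4 ln9_13_4_ok))))))) (M (nat_lit 329) (B (M (nat_lit 328) (B (L (nat_lit 296) ln9_13_7_c10 ln9_13_7_c10_ok) (L (nat_lit 360) ln9_14_7_c10 ln9_14_7_c10_ok))) (M (nat_lit 297) (B (L (nat_lit 426) ln9_9_4_c10 ln9_9_4_c10_ok) (M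 (nat_lit 298) (B (L (nat_lit 266) ln9_12_6_c10 ln9_12_6_c10_ok) (L (nat_lit 330) ln9_13_6_c10 ln9_13_6_c10_ok)))))))))) (M (nat_lit 361) (B (M (nat_lit 360) (B (L (nat_lit 328) ln9_14_7_c10 ln9_14_7_c10_ok) (M (nat_lit 362) (B (L (nat_lit 359) ln7_11_0 ln7_11_0_ok) (L (nat_lit 330) ln9_14_6_c10 ln9_14_6_c10_ok))))) (B (M (nat_lit 456) (B (L (nat_lit 488) ln9_11_5_c10 ln9_11_5_c10_ok) (M (nat_lit 329) (B (L (nat_lit 424) ln9_10_5_c10 ln9_10_5_c10_ok) (M (nat_lit 328) (B (L (nat_lit 296) ln9_13_7_c10 ln9_13_7_c10_ok) (L (nat_lit 360) ln9_14_7_c10 ln9_14_7_c10_ok))))))) (M (nat_lit 329) (B (M (nat_lit 330) (B (L (nat_lit 298) ln9_13_6_c10 ln9_13_6_c10_ok) (L (nat_lit 362) ln9_14_6_c10 ln9_14_6_c10_ok))) (M (nat_lit 456) (B (L (nat_lit 424) ln9_10_5_c10 ln9_10_5_c10_ok) (L (nat_lit 488) ln9_11_5_c10 ln9_11_5_c10_ok))))))))))))) (B (M (nat_lit 361) (B (M (nat_lit 396) (B (L (nat_lit 360) ln12_12_3 ln12_12_3_ok) (L (nat_lit 424) ln12_12_1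 ln12_12_1_ok))) (B (M (nat_lit 457) (B (M (nat_lit 362) (B (L (nat_lit 330) ln9_14_6_c10 ln9_14_6_c10_ok) (L (nat_lit 489) ln9_15_6 ln9_15_6_ok))) (M (nat_lit 456) (B (L (nat_lit 488) ln9_11_5_c10 ln9_11_5_c10_ok) (M (nat_lit 329) (B (L (nat_lit 424) ln9_10_5_c10 ln9_10_5_c10_ok) (M (nat_lit 328) (B (L (nat_lit 296) ln9_13_7_c10 ln9_13_7_c10_ok) (L (nat_lit 360) ln9_14_7_c10 ln9_14_7_c10_ok))))))))) (B (M (nat_lit 329) (B (M (nat_lit 424) (B (L (nat_lit 396) ln12_12_1 ln12_12_1_ok) (L (nat_lit 456) ln9_10_5_c10 ln9_10_5_c10_ok))) (M (nat_lit 297) (B (M (nat_lit 298) (B (L (nat_lit 266) ln9_12_6_c10 ln9_12_6_c10_ok) (L (nat_lit 330) ln9_13_6_c10 ln9_13_6_c10_ok))) (M (nat_lit 296) (B (L (nat_lit 264) ln9_12_7_c10 ln9_12_7_c10_ok) (L (nat_lit 328) ln9_13_7_c10 ln9_13_7_c10_ok))))))) (M (nat_lit 360) (B (L (nat_lit 396) ln12_12_3 ln12_12_3_ok) (M (nat_lit 359) (B (L (nat_lit 362) ln7_11_0 ln7_11_0_ok) (L (nat_lit 358) ln6_11_0_c10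 ln6_11_0_c10_ok))))))))) (M (nat_lit 361) (B (M (nat_lit 360) (B (L (nat_lit 396) ln12_12_3 ln12_12_3_ok) (M (nat_lit 359) (B (L (nat_lit 362) ln7_11_0 ln7_11_0_ok) (L (nat_lit 358) ln6_11_0_c10 ln6_11_0_c10_ok))))) (B (M (nat_lit 329) (B (M (nat_lit 297) (B (L (nat_lit 426) ln9_9_4_c10 ln9_9_4_c10_ok) (M (nat_lit 298) (B (L (nat_lit 266) ln9_12_6_c10 ln9_12_6_c10_ok) (L (nat_lit 330) ln9_13_6_c10 ln9_13_6_c10_ok))))) (B (M (nat_lit 297) (B (L (nat_lit 426) ln9_9_4_c10 ln9_9_4_c10_ok) (M (nat_lit 296) (B (L (nat_lit 264) ln9_12_7_c10 ln9_12_7_c10_ok) (L (nat_lit 328) ln9_13_7_c10 ln9_13_7_c10_ok))))) (M (nat_lit 457) (B (M (nat_lit 330) (B (L (nat_lit 298) ln9_13_6_c10 ln9_13_6_c10_ok) (L (nat_lit 362) ln9_14_6_c10 ln9_14_6_c10_ok))) (M (nat_lit 328) (B (L (nat_lit 296) ln9_13_7_c10 ln9_13_7_c10_ok) (L (nat_lit 360) ln9_14_7_c10 ln9_14_7_c10_ok)))))))) (B (M (nat_lit 360) (B (L (nat_lit 396) ln12_12_3 ln12_12_3_ok) (M (nat_lit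 328) (B (L (nat_lit 457) ln9_14_7_c10 ln9_14_7_c10_ok) (M (nat_lit 296) (B (L (nat_lit 329) ln9_13_7_c10 ln9_13_7_c10_ok) (L (nat_lit 264) ln8_8_4_c10 ln8_8_4_c10_ok))))))) (M (nat_lit 457) (B (M (nat_lit 362) (B (L (nat_lit 330) ln9_14_6_c10 ln9_14_6_c10_ok) (L (nat_lit 489) ln9_15_6 ln9_15_6_ok))) (B (M (nat_lit 489) (B (L (nat_lit 362) ln9_15_6 ln9_15_6_ok) (M (nat_lit 488) (B (L (nat_lit 456) ln9_11_5_c10 ln9_11_5_c10_ok) (L (nat_lit 520) ln9_12_5_c10 ln9_12_5_c10_ok))))) (B (M (nat_lit 489) (B (M (nat_lit 488) (B (L (nat_lit 456) ln9_11_5_c10 ln9_11_5_c10_ok) (L (nat_lit 520) ln9_12_5_c10 ln9_12_5_c10_ok))) (M (nat_lit 522) (B (L (nat_lit 490) ln9_12_4 ln9_12_4_ok) (M (nat_lit 521) (B (L (nat_lit 426) ln9_16_6 ln9_16_6_ok) (L (nat_lit 554) ln9_13_4 ln9_13_4_ok))))))) (M (nat_lit 329) (B (M (nat_lit 330) (B (L (nat_lit 298) ln9_13_6_c10 ln9_13_6_c10_ok) (L (nat_lit 362) ln9_14_6_c10 ln9_14_6_c10_ok))) (M (nat_lit 297) (B (L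 (nat_lit 426) ln9_9_4_c10 ln9_9_4_c10_ok) (M (nat_lit 296) (B (L (nat_lit 264) ln9_12_7_c10 ln9_12_7_c10_ok) (L (nat_lit 328) ln9_13_7_c10 ln9_13_7_c10_ok))))))))))))))))))) (B (M (nat_lit 392) (B (M (nat_lit 424) (B (L (nat_lit 423) ln11_12_1 ln11_12_1_ok) (M (nat_lit 428) (B (L (nat_lit 427) ln8_12_0 ln8_12_0_ok) (L (nat_lit 396) ln9_12_0 ln9_12_0_ok))))) (B (M (nat_lit 427) (B (L (nat_lit 428) ln8_12_0 ln8_12_0_ok) (M (nat_lit 391) (B (L (nat_lit 426) ln7_12_0_c10 ln7_12_0_c10_ok) (M (nat_lit 423) (B (L (nat_lit 424) ln11_12_1 ln11_12_1_ok) (L (nat_lit 422) ln10_12_1_c10 ln10_12_1_c10_ok))))))) (B (M (nat_lit 391) (B (M (nat_lit 423) (B (L (nat_lit 424) ln11_12_1 ln11_12_1_ok) (L (nat_lit 422) ln10_12_1_c10 ln10_12_1_c10_ok))) (M (nat_lit 390) (B (L (nat_lit 362) ln7_12_2_c10 ln7_12_2_c10_ok) (M (nat_lit 426) (B (L (nat_lit 427) ln7_12_0_c10 ln7_12_0_c10_ok) (L (nat_lit 425) ln6_12_0_c10 ln6_12_0_c10_ok))))))) (B (M (nat_lit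 425) (B (M (nat_lit 424) (B (L (nat_lit 396) ln12_12_1 ln12_12_1_ok) (L (nat_lit 423) ln11_12_1 ln11_12_1_ok))) (M (nat_lit 362) (B (M (nat_lit 330) (B (L (nat_lit 298) ln10_9_5_c10 ln10_9_5_c10_ok) (M (nat_lit 457) (B (L (nat_lit 426) ln10_10_5 ln10_10_5_ok) (L (nat_lit 489) ln9_15_6 ln9_15_6_ok))))) (B (M (nat_lit 457) (B (L (nat_lit 489) ln9_15_6 ln9_15_6_ok) (M (nat_lit 330) (B (L (nat_lit 426) ln10_10_5 ln10_10_5_ok) (L (nat_lit 361) ln9_14_6_c10 ln9_14_6_c10_ok))))) (L (nat_lit 391) ln7_12_2_c10 ln7_12_2_c10_ok)))))) (M (nat_lit 362) (B (L (nat_lit 391) ln7_12_2_c10 ln7_12_2_c10_ok) (M (nat_lit 427) (B (L (nat_lit 428) ln8_12_0 ln8_12_0_ok) (M (nat_lit 459) (B (L (nat_lit 491) ln11_15_7 ln11_15_7_ok) (L (nat_lit 330) ln11_14_7 ln11_14_7_ok)))))))))))) (M (nat_lit 392) (B (M (nat_lit 360) (B (L (nat_lit 359) ln11_12_3 ln11_12_3_ok) (M (nat_lit 396) (B (L (nat_lit 361) ln12_12_3 ln12_12_3_ok) (L (nat_lit 428) ln9_12_0 ln9_12_0_ok)))))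 (B (M (nat_lit 427) (B (L (nat_lit 428) ln8_12_0 ln8_12_0_ok) (M (nat_lit 391) (B (L (nat_lit 426) ln7_12_0_c10 ln7_12_0_c10_ok) (M (nat_lit 359) (B (L (nat_lit 360) ln11_12_3 ln11_12_3_ok) (L (nat_lit 358) ln10_12_3_c10 ln10_12_3_c10_ok))))))) (B (M (nat_lit 391) (B (M (nat_lit 359) (B (L (nat_lit 360) ln11_12_3 ln11_12_3_ok) (L (nat_lit 358) ln10_12_3_c10 ln10_12_3_c10_ok))) (M (nat_lit 390) (B (M (nat_lit 426) (B (L (nat_lit 427) ln7_12_0_c10 ln7_12_0_c10_ok) (L (nat_lit 425) ln6_12_0_c10 ln6_12_0_c10_ok))) (L (nat_lit 362) ln7_12_2_c10 ln7_12_2_c10_ok))))) (M (nat_lit 362) (B (L (nat_lit 391) ln7_12_2_c10 ln7_12_2_c10_ok) (M (nat_lit 427) (B (L (nat_lit 428) ln8_12_0 ln8_12_0_ok) (M (nat_lit 459) (B (L (nat_lit 491) ln11_15_7 ln11_15_7_ok) (L (nat_lit 330) ln11_14_7 ln11_14_7_ok)))))))))))))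
noncomputable def c10_d399 : Cert := (B (M (nat_lit 392) (B (M (nat_lit 427) (B (L (nat_lit 428) ln8_12_0 ln8_12_0_ok) (M (nat_lit 423) (B (L (nat_lit 424) ln11_12_1 ln11_12_1_ok) (M (nat_lit 391) (B (L (nat_lit 422) ln10_12_1_c10 ln10_12_1_c10_ok) (L (nat_lit 426) ln7_12_0_c10 ln7_12_0_c10_ok))))))) (B (M (nat_lit 391) (B (M (nat_lit 359) (B (L (nat_lit 358) ln10_12_3_c10 ln10_12_3_c10_ok) (L (nat_lit 360) ln11_12_3 ln11_12_3_ok))) (M (nat_lit 427) (B (L (nat_lit 426) ln7_12_0_c10 ln7_12_0_c10_ok) (L (nat_lit 428) ln8_12_0 ln8_12_0_ok))))) (M (nat_lit 424) (B (L (nat_lit 423) ln11_12_1 ln11_12_1_ok) (M (nat_lit 360) (B (L (nat_lit 359) ln11_12_3 ln11_12_3_ok) (M (nat_lit 456) (B (M (nat_lit 361) (B (L (nat_lit 488) ln8_15_6_c10 ln8_15_6_c10_ok) (L (nat_lit 329) ln8_14_6_c10 ln8_14_6_c10_ok))) (B (M (nat_lit 328) (B (M (nat_lit 457) (B (L (nat_lit 489) ln8_11_4_c10 ln8_11_4_c10_ok) (L (nat_lit 425) ln8_10_4_c10 ln8_10_4_c10_ok)))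 (M (nat_lit 329) (B (L (nat_lit 361) ln8_14_6_c10 ln8_14_6_c10_ok) (L (nat_lit 297) ln8_13_6_c10 ln8_13_6_c10_ok))))) (M (nat_lit 488) (B (M (nat_lit 487) (B (L (nat_lit 519) ln8_12_5_c10 ln8_12_5_c10_ok) (L (nat_lit 455) ln8_11_5_c10 ln8_11_5_c10_ok))) (M (nat_lit 489) (B (L (nat_lit 521) ln8_12_4_c10 ln8_12_4_c10_ok) (L (nat_lit 457) ln8_11_4_c10 ln8_11_4_c10_ok))))))))))))))) (B (M (nat_lit 360) (B (M (nat_lit 359) (B (L (nat_lit 392) ln11_12_3 ln11_12_3_ok) (M (nat_lit 361) (B (L (nat_lit 362) ln7_11_0 ln7_11_0_ok) (L (nat_lit 396) ln12_12_3 ln12_12_3_ok))))) (B (M (nat_lit 425) (B (M (nat_lit 396) (B (L (nat_lit 361) ln12_12_3 ln12_12_3_ok) (L (nat_lit 424) ln12_12_1 ln12_12_1_ok))) (B (M (nat_lit 424) (B (L (nat_lit 396) ln12_12_1 ln12_12_1_ok) (M (nat_lit 423) (B (L (nat_lit 392) ln11_12_1 ln11_12_1_ok) (L (nat_lit 422) ln6_13_2_c10 ln6_13_2_c10_ok))))) (B (M (nat_lit 457) (B (M (nat_lit 489) (B (L (nat_lit 392) ln9_15_7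 ln9_15_7_ok) (L (nat_lit 362) ln9_15_6 ln9_15_6_ok))) (B (M (nat_lit 328) (B (L (nat_lit 361) ln9_14_7_c10 ln9_14_7_c10_ok) (M (nat_lit 392) (B (L (nat_lit 296) ln8_9_4_c10 ln8_9_4_c10_ok) (L (nat_lit 489) ln9_15_7 ln9_15_7_ok))))) (B (M (nat_lit 361) (B (L (nat_lit 328) ln9_14_7_c10 ln9_14_7_c10_ok) (M (nat_lit 362) (B (L (nat_lit 330) ln9_14_6_c10 ln9_14_6_c10_ok) (L (nat_lit 489) ln9_15_6 ln9_15_6_ok))))) (M (nat_lit 328) (B (L (nat_lit 361) ln9_14_7_c10 ln9_14_7_c10_ok) (M (nat_lit 392) (B (L (nat_lit 296) ln8_9_4_c10 ln8_9_4_c10_ok) (L (nat_lit 424) ln8_10_4_c10 ln8_10_4_c10_ok))))))))) (M (nat_lit 457) (B (M (nat_lit 361) (B (L (nat_lit 328) ln9_14_7_c10 ln9_14_7_c10_ok) (L (nat_lit 396) ln12_12_3 ln12_12_3_ok))) (M (nat_lit 489) (B (L (nat_lit 392) ln9_15_7 ln9_15_7_ok) (L (nat_lit 362) ln9_15_6 ln9_15_6_ok))))))))) (B (M (nat_lit 392) (B (L (nat_lit 359) ln11_12_3 ln11_12_3_ok) (M (nat_lit 424) (B (L (nat_lit 423) ln11_12_1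 ln11_12_1_ok) (M (nat_lit 425) (B (L (nat_lit 396) ln12_12_1 ln12_12_1_ok) (M (nat_lit 457) (B (L (nat_lit 328) ln8_10_4_c10 ln8_10_4_c10_ok) (L (nat_lit 489) ln9_15_7 ln9_15_7_ok))))))))) (B (M (nat_lit 361) (B (L (nat_lit 396) ln12_12_3 ln12_12_3_ok) (M (nat_lit 359) (B (L (nat_lit 358) ln6_11_0_c10 ln6_11_0_c10_ok) (L (nat_lit 362) ln7_11_0 ln7_11_0_ok))))) (M (nat_lit 359) (B (L (nat_lit 392) ln11_12_3 ln11_12_3_ok) (M (nat_lit 361) (B (L (nat_lit 358) ln6_11_0_c10 ln6_11_0_c10_ok) (L (nat_lit 362) ln7_11_0 ln7_11_0_ok)))))))))) (B (M (nat_lit 392) (B (M (nat_lit 391) (B (M (nat_lit 359) (B (L (nat_lit 358) ln10_12_3_c10 ln10_12_3_c10_ok) (L (nat_lit 360) ln11_12_3 ln11_12_3_ok))) (M (nat_lit 427) (B (L (nat_lit 426) ln7_12_0_c10 ln7_12_0_c10_ok) (L (nat_lit 428) ln8_12_0 ln8_12_0_ok))))) (B (M (nat_lit 396) (B (M (nat_lit 424) (B (L (nat_lit 423) ln11_12_1 ln11_12_1_ok) (L (nat_lit 425) ln12_12_1 ln12_12_1_ok))) (L (nat_lit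 428) ln9_12_0 ln9_12_0_ok))) (M (nat_lit 396) (B (M (nat_lit 424) (B (L (nat_lit 423) ln11_12_1 ln11_12_1_ok) (L (nat_lit 425) ln12_12_1 ln12_12_1_ok))) (M (nat_lit 360) (B (L (nat_lit 359) ln11_12_3 ln11_12_3_ok) (L (nat_lit 361) ln12_12_3 ln12_12_3_ok)))))))) (B (M (nat_lit 424) (B (M (nat_lit 425) (B (L (nat_lit 396) ln12_12_1 ln12_12_1_ok) (M (nat_lit 423) (B (L (nat_lit 422) ln6_13_2_c10 ln6_13_2_c10_ok) (L (nat_lit 392) ln11_12_1 ln11_12_1_ok))))) (B (M (nat_lit 392) (B (L (nat_lit 423) ln11_12_1 ln11_12_1_ok) (M (nat_lit 360) (B (L (nat_lit 359) ln11_12_3 ln11_12_3_ok) (M (nat_lit 361) (B (L (nat_lit 396) ln12_12_3 ln12_12_3_ok) (M (nat_lit 456) (B (L (nat_lit 488) ln8_15_6_c10 ln8_15_6_c10_ok) (L (nat_lit 329) ln8_14_6_c10 ln8_14_6_c10_ok))))))))) (B (M (nat_lit 361) (B (M (nat_lit 396) (B (L (nat_lit 425) ln12_12_1 ln12_12_1_ok) (L (nat_lit 360) ln12_12_3 ln12_12_3_ok))) (B (M (nat_lit 360) (B (L (nat_lit 396) ln12_12_3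 ln12_12_3_ok) (M (nat_lit 392) (B (L (nat_lit 359) ln11_12_3 ln11_12_3_ok) (M (nat_lit 329) (B (L (nat_lit 456) ln8_14_6_c10 ln8_14_6_c10_ok) (L (nat_lit 297) ln9_9_5_c10 ln9_9_5_c10_ok))))))) (B (M (nat_lit 329) (B (M (nat_lit 297) (B (L (nat_lit 426) ln9_9_4_c10 ln9_9_4_c10_ok) (L (nat_lit 392) ln9_9_5_c10 ln9_9_5_c10_ok))) (B (M (nat_lit 392) (B (L (nat_lit 297) ln9_9_5_c10 ln9_9_5_c10_ok) (M (nat_lit 456) (B (L (nat_lit 425) ln9_10_5_c10 ln9_10_5_c10_ok) (L (nat_lit 360) ln8_14_6_c10 ln8_14_6_c10_ok))))) (B (M (nat_lit 426) (B (L (nat_lit 297) ln9_9_4_c10 ln9_9_4_c10_ok) (M (nat_lit 425) (B (L (nat_lit 458) ln9_10_4_c10 ln9_10_4_c10_ok) (L (nat_lit 456) ln9_10_5_c10 ln9_10_5_c10_ok))))) (M (nat_lit 456) (B (L (nat_lit 425) ln9_10_5_c10 ln9_10_5_c10_ok) (M (nat_lit 392) (B (L (nat_lit 488) ln8_15_6_c10 ln8_15_6_c10_ok) (L (nat_lit 360) ln8_14_6_c10 ln8_14_6_c10_ok))))))))) (M (nat_lit 329) (B (M (nat_lit 425) (B (L (nat_lit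 456) ln9_10_5_c10 ln9_10_5_c10_ok) (L (nat_lit 396) ln12_12_1 ln12_12_1_ok))) (M (nat_lit 297) (B (L (nat_lit 426) ln9_9_4_c10 ln9_9_4_c10_ok) (L (nat_lit 392) ln9_9_5_c10 ln9_9_5_c10_ok))))))))) (B (M (nat_lit 423) (B (L (nat_lit 392) ln11_12_1 ln11_12_1_ok) (M (nat_lit 425) (B (L (nat_lit 426) ln7_13_2 ln7_13_2_ok) (L (nat_lit 422) ln6_13_2_c10 ln6_13_2_c10_ok))))) (M (nat_lit 425) (B (L (nat_lit 396) ln12_12_1 ln12_12_1_ok) (M (nat_lit 423) (B (L (nat_lit 426) ln7_13_2 ln7_13_2_ok) (L (nat_lit 422) ln6_13_2_c10 ln6_13_2_c10_ok)))))))))) c10_d398))))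
noncomputable def c10_d400 : Cert := (B (M (nat_lit 427) (B (M (nat_lit 426) (B (L (nat_lit 458) ln11_10_5 ln11_10_5_ok) (M (nat_lit 299) (B (L (nat_lit 394) ln11_9_5 ln11_9_5_ok) (M (nat_lit 428) (B (L (nat_lit 460) ln11_10_4 ln11_10_4_ok) (L (nat_lit 396) ln11_9_4 ln11_9_4_ok))))))) (B (M (nat_lit 299) (B (M (nat_lit 426) (B (L (nat_lit 458) ln11_10_5 ln11_10_5_ok) (L (nat_lit 394) ln11_9_5 ln11_9_5_ok))) (M (nat_lit 300) (B (L (nat_lit 332) ln11_13_6 ln11_13_6_ok) (L (nat_lit 268) ln11_12_6 ln11_12_6_ok))))) (B (M (nat_lit 299) (B (M (nat_lit 428) (B (L (nat_lit 460) ln11_10_4 ln11_10_4_ok) (L (nat_lit 396) ln11_9_4 ln11_9_4_ok))) (M (nat_lit 300) (B (L (nat_lit 332) ln11_13_6 ln11_13_6_ok) (L (nat_lit 268) ln11_12_6 ln11_12_6_ok))))) (M (nat_lit 459) (B (M (nat_lit 460) (B (L (nat_lit 492) ln11_11_4 ln11_11_4_ok) (L (nat_lit 428) ln11_10_4 ln11_10_4_ok))) (M (nat_lit 458) (B (L (nat_lit 490) ln11_11_5 ln11_11_5_ok) (L (nat_lit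 426) ln11_10_5 ln11_10_5_ok))))))))) (B (M (nat_lit 299) (B (M (nat_lit 298) (B (L (nat_lit 266) ln11_12_7 ln11_12_7_ok) (M (nat_lit 427) (B (L (nat_lit 330) ln11_13_7 ln11_13_7_ok) (M (nat_lit 300) (B (L (nat_lit 268) ln11_12_6 ln11_12_6_ok) (L (nat_lit 332) ln11_13_6 ln11_13_6_ok))))))) (B (M (nat_lit 427) (B (M (nat_lit 298) (B (L (nat_lit 266) ln11_12_7 ln11_12_7_ok) (L (nat_lit 330) ln11_13_7 ln11_13_7_ok))) (M (nat_lit 428) (B (L (nat_lit 396) ln11_9_4 ln11_9_4_ok) (L (nat_lit 460) ln11_10_4 ln11_10_4_ok))))) (B (M (nat_lit 427) (B (M (nat_lit 300) (B (L (nat_lit 268) ln11_12_6 ln11_12_6_ok) (L (nat_lit 332) ln11_13_6 ln11_13_6_ok))) (M (nat_lit 428) (B (L (nat_lit 396) ln11_9_4 ln11_9_4_ok) (L (nat_lit 460) ln11_10_4 ln11_10_4_ok))))) (M (nat_lit 267) (B (M (nat_lit 268) (B (L (nat_lit 236) ln11_11_6 ln11_11_6_ok) (L (nat_lit 300) ln11_12_6 ln11_12_6_ok))) (M (nat_lit 266) (B (L (nat_lit 234) ln11_11_7 ln11_11_7_ok) (L (nat_lit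 298) ln11_12_7 ln11_12_7_ok))))))))) (B (M (nat_lit 427) (B (M (nat_lit 458) (B (L (nat_lit 426) ln11_10_5 ln11_10_5_ok) (M (nat_lit 459) (B (L (nat_lit 490) ln11_11_5 ln11_11_5_ok) (M (nat_lit 460) (B (L (nat_lit 492) ln11_11_4 ln11_11_4_ok) (L (nat_lit 428) ln11_10_4 ln11_10_4_ok))))))) (B (M (nat_lit 459) (B (M (nat_lit 458) (B (L (nat_lit 490) ln11_11_5 ln11_11_5_ok) (L (nat_lit 426) ln11_10_5 ln11_10_5_ok))) (M (nat_lit 330) (B (L (nat_lit 362) ln11_14_7 ln11_14_7_ok) (L (nat_lit 298) ln11_13_7 ln11_13_7_ok))))) (B (M (nat_lit 426) (B (L (nat_lit 458) ln11_10_5 ln11_10_5_ok) (M (nat_lit 425) (B (M (nat_lit 424) (B (L (nat_lit 396) ln8_13_2 ln8_13_2_ok) (M (nat_lit 423) (B (L (nat_lit 394) ln7_13_2 ln7_13_2_ok) (M (nat_lit 455) (B (L (nat_lit 456) ln11_13_1_c10 ln11_13_1_c10_ok) (L (nat_lit 454) ln10_13_1_c10 ln10_13_1_c10_ok))))))) (B (M (nat_lit 424) (B (M (nat_lit 428) (B (L (nat_lit 460) ln11_10_4 ln11_10_4_ok) (M (nat_lit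 456) (B (L (nat_lit 457) ln12_13_1 ln12_13_1_ok) (L (nat_lit 455) ln11_13_1_c10 ln11_13_1_c10_ok))))) (B (M (nat_lit 423) (B (L (nat_lit 394) ln7_13_2 ln7_13_2_ok) (M (nat_lit 455) (B (L (nat_lit 456) ln11_13_1_c10 ln11_13_1_c10_ok) (L (nat_lit 454) ln10_13_1_c10 ln10_13_1_c10_ok))))) (M (nat_lit 428) (B (L (nat_lit 460) ln11_10_4 ln11_10_4_ok) (M (nat_lit 392) (B (L (nat_lit 393) ln12_13_3 ln12_13_3_ok) (L (nat_lit 391) ln11_13_3 ln11_13_3_ok)))))))) (B (M (nat_lit 424) (B (L (nat_lit 396) ln8_13_2 ln8_13_2_ok) (M (nat_lit 428) (B (L (nat_lit 460) ln11_10_4 ln11_10_4_ok) (M (nat_lit 392) (B (L (nat_lit 393) ln12_13_3 ln12_13_3_ok) (L (nat_lit 391) ln11_13_3 ln11_13_3_ok))))))) (M (nat_lit 428) (B (L (nat_lit 460) ln11_10_4 ln11_10_4_ok) (M (nat_lit 394) (B (L (nat_lit 393) ln13_13_3 ln13_13_3_ok) (M (nat_lit 330) (B (L (nat_lit 298) ln11_13_7 ln11_13_7_ok) (M (nat_lit 457) (B (L (nat_lit 456) ln12_13_1 ln12_13_1_ok) (L (nat_lit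 362) ln10_10_5 ln10_10_5_ok))))))))))))))) (M (nat_lit 459) (B (M (nat_lit 460) (B (L (nat_lit 492) ln11_11_4 ln11_11_4_ok) (L (nat_lit 428) ln11_10_4 ln11_10_4_ok))) (M (nat_lit 330) (B (L (nat_lit 362) ln11_14_7 ln11_14_7_ok) (L (nat_lit 298) ln11_13_7 ln11_13_7_ok))))))))) (M (nat_lit 299) (B (M (nat_lit 266) (B (L (nat_lit 298) ln11_12_7 ln11_12_7_ok) (M (nat_lit 267) (B (L (nat_lit 234) ln11_11_7 ln11_11_7_ok) (M (nat_lit 268) (B (L (nat_lit 236) ln11_11_6 ln11_11_6_ok) (L (nat_lit 300) ln11_12_6 ln11_12_6_ok))))))) (B (M (nat_lit 267) (B (M (nat_lit 266) (B (L (nat_lit 234) ln11_11_7 ln11_11_7_ok) (L (nat_lit 298) ln11_12_7 ln11_12_7_ok))) (M (nat_lit 394) (B (L (nat_lit 362) ln11_8_5 ln11_8_5_ok) (L (nat_lit 426) ln11_9_5 ln11_9_5_ok))))) (B (M (nat_lit 298) (B (L (nat_lit 266) ln11_12_7 ln11_12_7_ok) (M (nat_lit 297) (B (M (nat_lit 296) (B (L (nat_lit 332) ln8_9_0 ln8_9_0_ok) (M (nat_lit 295) (B (L (nat_lit 330) ln7_9_0_c10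 ln7_9_0_c10_ok) (M (nat_lit 263) (B (L (nat_lit 264) ln11_9_3 ln11_9_3_ok) (L (nat_lit 262) ln10_9_3_c10 ln10_9_3_c10_ok))))))) (B (M (nat_lit 296) (B (M (nat_lit 300) (B (L (nat_lit 268) ln11_12_6 ln11_12_6_ok) (M (nat_lit 264) (B (L (nat_lit 265) ln12_9_3 ln12_9_3_ok) (L (nat_lit 263) ln11_9_3 ln11_9_3_ok))))) (B (M (nat_lit 295) (B (L (nat_lit 330) ln7_9_0_c10 ln7_9_0_c10_ok) (M (nat_lit 263) (B (L (nat_lit 264) ln11_9_3 ln11_9_3_ok) (L (nat_lit 262) ln10_9_3_c10 ln10_9_3_c10_ok))))) (M (nat_lit 300) (B (L (nat_lit 268) ln11_12_6 ln11_12_6_ok) (M (nat_lit 328) (B (L (nat_lit 329) ln12_9_1 ln12_9_1_ok) (L (nat_lit 327) ln11_9_1 ln11_9_1_ok)))))))) (B (M (nat_lit 296) (B (L (nat_lit 332) ln8_9_0 ln8_9_0_ok) (M (nat_lit 300) (B (L (nat_lit 268) ln11_12_6 ln11_12_6_ok) (M (nat_lit 328) (B (L (nat_lit 329) ln12_9_1 ln12_9_1_ok) (L (nat_lit 327) ln11_9_1 ln11_9_1_ok))))))) (M (nat_lit 300) (B (L (nat_lit 268) ln11_12_6 ln11_12_6_ok)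 (M (nat_lit 330) (B (M (nat_lit 329) (B (L (nat_lit 301) ln13_9_1 ln13_9_1_ok) (L (nat_lit 328) ln12_9_1 ln12_9_1_ok))) (M (nat_lit 394) (B (L (nat_lit 426) ln11_9_5 ln11_9_5_ok) (M (nat_lit 265) (B (L (nat_lit 264) ln12_9_3 ln12_9_3_ok) (L (nat_lit 362) ln10_12_7_c10 ln10_12_7_c10_ok))))))))))))))) (M (nat_lit 267) (B (M (nat_lit 268) (B (L (nat_lit 236) ln11_11_6 ln11_11_6_ok) (L (nat_lit 300) ln11_12_6 ln11_12_6_ok))) (M (nat_lit 394) (B (L (nat_lit 362) ln11_8_5 ln11_8_5_ok) (L (nat_lit 426) ln11_9_5 ln11_9_5_ok))))))))))))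
noncomputable def c10_d401 : Cert := (B (M (nat_lit 362) (B (M (nat_lit 393) (B (L (nat_lit 394) ln13_11_1 ln13_11_1_ok) (M (nat_lit 361) (B (L (nat_lit 392) ln12_11_1 ln12_11_1_ok) (M (nat_lit 329) (B (L (nat_lit 328) ln12_11_3 ln12_11_3_ok) (L (nat_lit 330) ln13_11_3 ln13_11_3_ok))))))) (B (M (nat_lit 331) (B (M (nat_lit 394) (B (L (nat_lit 393) ln13_11_1 ln13_11_1_ok) (M (nat_lit 299) (B (L (nat_lit 267) ln11_8_5 ln11_8_5_ok) (L (nat_lit 426) ln11_9_5 ln11_9_5_ok))))) (B (M (nat_lit 428) (B (M (nat_lit 396) (B (L (nat_lit 299) ln11_9_4 ln11_9_4_ok) (L (nat_lit 460) ln12_14_7 ln12_14_7_ok))) (B (M (nat_lit 460) (B (L (nat_lit 427) ln11_10_4 ln11_10_4_ok) (L (nat_lit 396) ln12_14_7 ln12_14_7_ok))) (B (M (nat_lit 330) (B (L (nat_lit 329) ln13_11_3 ln13_11_3_ok) (M (nat_lit 427) (B (L (nat_lit 459) ln11_14_7 ln11_14_7_ok) (L (nat_lit 460) ln11_10_4 ln11_10_4_ok))))) (M (nat_lit 299) (B (L (nat_lit 396) ln11_9_4 ln11_9_4_ok) (M (nat_lit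 394) (B (L (nat_lit 267) ln11_8_5 ln11_8_5_ok) (L (nat_lit 426) ln11_9_5 ln11_9_5_ok))))))))) (B (M (nat_lit 299) (B (M (nat_lit 396) (B (L (nat_lit 267) ln11_8_4 ln11_8_4_ok) (L (nat_lit 428) ln11_9_4 ln11_9_4_ok))) (B (M (nat_lit 427) (B (M (nat_lit 330) (B (L (nat_lit 329) ln13_11_3 ln13_11_3_ok) (L (nat_lit 459) ln11_14_7 ln11_14_7_ok))) (M (nat_lit 428) (B (L (nat_lit 396) ln11_9_4 ln11_9_4_ok) (L (nat_lit 460) ln11_10_4 ln11_10_4_ok))))) (M (nat_lit 267) (B (M (nat_lit 330) (B (L (nat_lit 329) ln13_11_3 ln13_11_3_ok) (L (nat_lit 235) ln11_7_5 ln11_7_5_ok))) (M (nat_lit 268) (B (L (nat_lit 236) ln11_11_6 ln11_11_6_ok) (L (nat_lit 300) ln11_12_6 ln11_12_6_ok)))))))) (B (M (nat_lit 393) (B (L (nat_lit 394) ln13_11_1 ln13_11_1_ok) (M (nat_lit 396) (B (M (nat_lit 361) (B (L (nat_lit 360) ln8_11_0 ln8_11_0_ok) (L (nat_lit 392) ln12_11_1 ln12_11_1_ok))) (M (nat_lit 428) (B (L (nat_lit 299) ln11_9_4 ln11_9_4_ok) (L (nat_lit 460)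 ln12_14_7 ln12_14_7_ok))))))) (M (nat_lit 330) (B (L (nat_lit 329) ln13_11_3 ln13_11_3_ok) (M (nat_lit 361) (B (M (nat_lit 360) (B (L (nat_lit 359) ln7_11_2 ln7_11_2_ok) (L (nat_lit 396) ln8_11_0 ln8_11_0_ok))) (M (nat_lit 393) (B (L (nat_lit 392) ln12_11_1 ln12_11_1_ok) (L (nat_lit 394) ln13_11_1 ln13_11_1_ok)))))))))))) (B (M (nat_lit 394) (B (L (nat_lit 393) ln13_11_1 ln13_11_1_ok) (M (nat_lit 361) (B (M (nat_lit 329) (B (L (nat_lit 328) ln12_11_3 ln12_11_3_ok) (L (nat_lit 330) ln13_11_3 ln13_11_3_ok))) (M (nat_lit 360) (B (L (nat_lit 359) ln7_11_0 ln7_11_0_ok) (L (nat_lit 396) ln8_11_0 ln8_11_0_ok))))))) (B (K (nat_lit 5954262830815946494521163372838868685889749346267191044394039526941491026242723738925302595447097160964889289945054382247675338762162798592) (nat_lit 237042469285729085981736043732169730457035360771298975422898064293433561018626225266473709778660325955849651465245163520) (nat_lit 237042469285729085981736043732169730457035360771298975422898064293433561018626225266473709778660325955849651465245163520)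 c10_s165) (B (M (nat_lit 394) (B (L (nat_lit 393) ln13_11_1 ln13_11_1_ok) (M (nat_lit 427) (B (M (nat_lit 330) (B (L (nat_lit 329) ln13_11_3 ln13_11_3_ok) (L (nat_lit 459) ln11_14_7 ln11_14_7_ok))) (B (M (nat_lit 459) (B (L (nat_lit 330) ln11_14_7 ln11_14_7_ok) (L (nat_lit 491) ln11_15_7 ln11_15_7_ok))) (B (M (nat_lit 459) (B (L (nat_lit 491) ln11_15_7 ln11_15_7_ok) (M (nat_lit 331) (B (M (nat_lit 458) (B (L (nat_lit 426) ln11_10_5 ln11_10_5_ok) (L (nat_lit 490) ln11_11_5 ln11_11_5_ok))) (M (nat_lit 460) (B (L (nat_lit 428) ln11_10_4 ln11_10_4_ok) (L (nat_lit 492) ln11_11_4 ln11_11_4_ok))))))) (M (nat_lit 426) (B (M (nat_lit 331) (B (L (nat_lit 458) ln11_10_5 ln11_10_5_ok) (L (nat_lit 299) ln11_9_5 ln11_9_5_ok))) (M (nat_lit 425) (B (M (nat_lit 424) (B (L (nat_lit 423) ln7_13_2 ln7_13_2_ok) (L (nat_lit 396) ln8_13_2 ln8_13_2_ok))) (M (nat_lit 330) (B (L (nat_lit 329) ln13_11_3 ln13_11_3_ok) (L (nat_lit 457) ln10_10_5 ln10_10_5_ok)))))))))))))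 (B (K (nat_lit 5954262830815946494521163372838868685889749346267191044394039526941491026242723738925302595447097160964889289945054382247675338762162798592) (nat_lit 201738271733759632615189401339181594222987672179873609987152486411355637838854921681081362711481257272969208905510944768) (nat_lit 201738271733759632615189401339181594222987672179873609987152486411355637838854921681081362711481257272969208905510944768) c10_s166) (M (nat_lit 361) (B (M (nat_lit 329) (B (L (nat_lit 328) ln12_11_3 ln12_11_3_ok) (L (nat_lit 330) ln13_11_3 ln13_11_3_ok))) (M (nat_lit 360) (B (L (nat_lit 396) ln8_11_0 ln8_11_0_ok) (M (nat_lit 392) (B (L (nat_lit 391) ln11_11_1 ln11_11_1_ok) (L (nat_lit 393) ln12_11_1 ln12_11_1_ok)))))))))))))) (B (M (nat_lit 331) (B (M (nat_lit 330) (B (L (nat_lit 366) ln14_11_3 ln14_11_3_ok) (M (nat_lit 329) (B (L (nat_lit 328) ln8_10_0 ln8_10_0_ok) (L (nat_lit 362) ln13_11_3 ln13_11_3_ok))))) (B (M (nat_lit 330) (B (L (nat_lit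 366) ln14_11_3 ln14_11_3_ok) (M (nat_lit 329) (B (L (nat_lit 332) ln9_10_0 ln9_10_0_ok) (L (nat_lit 362) ln13_11_3 ln13_11_3_ok))))) (B (M (nat_lit 427) (B (M (nat_lit 332) (B (L (nat_lit 300) ln11_13_6 ln11_13_6_ok) (L (nat_lit 459) ln11_14_6 ln11_14_6_ok))) (B (M (nat_lit 459) (B (L (nat_lit 332) ln11_14_6 ln11_14_6_ok) (M (nat_lit 330) (B (L (nat_lit 366) ln14_11_3 ln14_11_3_ok) (L (nat_lit 362) ln11_14_7 ln11_14_7_ok))))) (B (M (nat_lit 459) (B (M (nat_lit 330) (B (L (nat_lit 366) ln14_11_3 ln14_11_3_ok) (L (nat_lit 362) ln11_14_7 ln11_14_7_ok))) (M (nat_lit 460) (B (L (nat_lit 428) ln11_10_4 ln11_10_4_ok) (L (nat_lit 492) ln11_11_4 ln11_11_4_ok))))) (M (nat_lit 299) (B (M (nat_lit 300) (B (L (nat_lit 268) ln11_12_6 ln11_12_6_ok) (L (nat_lit 332) ln11_13_6 ln11_13_6_ok))) (M (nat_lit 428) (B (L (nat_lit 396) ln11_9_4 ln11_9_4_ok) (L (nat_lit 460) ln11_10_4 ln11_10_4_ok))))))))) (M (nat_lit 427) (B (M (nat_lit 332) (B (L (nat_lit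 300) ln11_13_6 ln11_13_6_ok) (L (nat_lit 459) ln11_14_6 ln11_14_6_ok))) (B (M (nat_lit 459) (B (L (nat_lit 332) ln11_14_6 ln11_14_6_ok) (M (nat_lit 458) (B (L (nat_lit 426) ln11_10_5 ln11_10_5_ok) (L (nat_lit 490) ln11_11_5 ln11_11_5_ok))))) (B (M (nat_lit 459) (B (M (nat_lit 458) (B (L (nat_lit 426) ln11_10_5 ln11_10_5_ok) (L (nat_lit 490) ln11_11_5 ln11_11_5_ok))) (M (nat_lit 460) (B (L (nat_lit 428) ln11_10_4 ln11_10_4_ok) (L (nat_lit 492) ln11_11_4 ln11_11_4_ok))))) (M (nat_lit 299) (B (M (nat_lit 300) (B (L (nat_lit 268) ln11_12_6 ln11_12_6_ok) (L (nat_lit 332) ln11_13_6 ln11_13_6_ok))) (M (nat_lit 428) (B (L (nat_lit 396) ln11_9_4 ln11_9_4_ok) (L (nat_lit 460) ln11_10_4 ln11_10_4_ok))))))))))))) (B (M (nat_lit 366) (B (L (nat_lit 394) ln14_11_1 ln14_11_1_ok) (M (nat_lit 367) (B (M (nat_lit 331) (B (L (nat_lit 330) ln14_11_3 ln14_11_3_ok) (L (nat_lit 332) ln15_11_3 ln15_11_3_ok))) (M (nat_lit 399) (B (L (nat_lit 398) ln11_11_0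 ln11_11_0_ok) (L (nat_lit 400) ln12_11_0 ln12_11_0_ok))))))) (M (nat_lit 394) (B (M (nat_lit 393) (B (L (nat_lit 362) ln13_11_1 ln13_11_1_ok) (L (nat_lit 396) ln9_12_2 ln9_12_2_ok))) (L (nat_lit 366) ln14_11_1 ln14_11_1_ok))))))
noncomputable def c10_d402 : Cert := (B (M (nat_lit 299) (B (M (nat_lit 267) (B (M (nat_lit 394) (B (L (nat_lit 426) ln11_9_5 ln11_9_5_ok) (L (nat_lit 362) ln11_8_5 ln11_8_5_ok))) (M (nat_lit 268) (B (L (nat_lit 300) ln11_12_6 ln11_12_6_ok) (L (nat_lit 236) ln11_11_6 ln11_11_6_ok))))) (B (M (nat_lit 266) (B (L (nat_lit 298) ln11_12_7 ln11_12_7_ok) (M (nat_lit 267) (B (L (nat_lit 234) ln11_11_7 ln11_11_7_ok) (M (nat_lit 268) (B (L (nat_lit 300) ln11_12_6 ln11_12_6_ok) (L (nat_lit 236) ln11_11_6 ln11_11_6_ok))))))) (B (M (nat_lit 267) (B (M (nat_lit 394) (B (L (nat_lit 426) ln11_9_5 ln11_9_5_ok) (L (nat_lit 362) ln11_8_5 ln11_8_5_ok))) (M (nat_lit 266) (B (L (nat_lit 298) ln11_12_7 ln11_12_7_ok) (L (nat_lit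 234) ln11_11_7 ln11_11_7_ok))))) (M (nat_lit 427) (B (M (nat_lit 426) (B (L (nat_lit 458) ln11_10_5 ln11_10_5_ok) (L (nat_lit 394) ln11_9_5 ln11_9_5_ok))) (M (nat_lit 298) (B (L (nat_lit 330) ln11_13_7 ln11_13_7_ok) (L (nat_lit 266) ln11_12_7 ln11_12_7_ok))))))))) (B (M (nat_lit 299) (B (M (nat_lit 267) (B (M (nat_lit 396) (B (L (nat_lit 428) ln11_9_4 ln11_9_4_ok) (L (nat_lit 364) ln11_8_4 ln11_8_4_ok))) (M (nat_lit 268) (B (L (nat_lit 300) ln11_12_6 ln11_12_6_ok) (L (nat_lit 236) ln11_11_6 ln11_11_6_ok))))) (B (M (nat_lit 267) (B (M (nat_lit 394) (B (L (nat_lit 426) ln11_9_5 ln11_9_5_ok) (L (nat_lit 362) ln11_8_5 ln11_8_5_ok))) (M (nat_lit 268) (B (L (nat_lit 300) ln11_12_6 ln11_12_6_ok) (L (nat_lit 236) ln11_11_6 ln11_11_6_ok))))) (B (M (nat_lit 267) (B (M (nat_lit 394) (B (L (nat_lit 426) ln11_9_5 ln11_9_5_ok) (L (nat_lit 362) ln11_8_5 ln11_8_5_ok))) (M (nat_lit 396) (B (L (nat_lit 428) ln11_9_4 ln11_9_4_ok) (L (nat_lit 364)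 ln11_8_4 ln11_8_4_ok))))) (M (nat_lit 426) (B (L (nat_lit 394) ln11_9_5 ln11_9_5_ok) (M (nat_lit 427) (B (L (nat_lit 458) ln11_10_5 ln11_10_5_ok) (M (nat_lit 428) (B (L (nat_lit 460) ln11_10_4 ln11_10_4_ok) (L (nat_lit 396) ln11_9_4 ln11_9_4_ok))))))))))) (B (M (nat_lit 299) (B (M (nat_lit 267) (B (M (nat_lit 236) (B (L (nat_lit 268) ln11_11_6 ln11_11_6_ok) (M (nat_lit 235) (B (L (nat_lit 204) ln11_10_6 ln11_10_6_ok) (M (nat_lit 234) (B (L (nat_lit 266) ln11_11_7 ln11_11_7_ok) (L (nat_lit 202) ln11_10_7 ln11_10_7_ok))))))) (B (M (nat_lit 235) (B (M (nat_lit 362) (B (L (nat_lit 394) ln11_8_5 ln11_8_5_ok) (L (nat_lit 330) ln11_7_5 ln11_7_5_ok))) (M (nat_lit 234) (B (L (nat_lit 266) ln11_11_7 ln11_11_7_ok) (L (nat_lit 202) ln11_10_7 ln11_10_7_ok))))) (B (M (nat_lit 235) (B (M (nat_lit 362) (B (L (nat_lit 394) ln11_8_5 ln11_8_5_ok) (L (nat_lit 330) ln11_7_5 ln11_7_5_ok))) (M (nat_lit 236) (B (L (nat_lit 268) ln11_11_6 ln11_11_6_ok)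 (L (nat_lit 204) ln11_10_6 ln11_10_6_ok))))) (M (nat_lit 394) (B (L (nat_lit 426) ln11_9_5 ln11_9_5_ok) (L (nat_lit 362) ln11_8_5 ln11_8_5_ok))))))) (B (M (nat_lit 266) (B (M (nat_lit 234) (B (L (nat_lit 267) ln11_11_7 ln11_11_7_ok) (L (nat_lit 298) ln11_12_7 ln11_12_7_ok))) (B (M (nat_lit 300) (B (L (nat_lit 298) ln11_12_7 ln11_12_7_ok) (L (nat_lit 268) ln11_12_6 ln11_12_6_ok))) (M (nat_lit 267) (B (L (nat_lit 234) ln11_11_7 ln11_11_7_ok) (M (nat_lit 268) (B (L (nat_lit 236) ln11_11_6 ln11_11_6_ok) (L (nat_lit 300) ln11_12_6 ln11_12_6_ok)))))))) (B (M (nat_lit 267) (B (M (nat_lit 268) (B (L (nat_lit 236) ln11_11_6 ln11_11_6_ok) (L (nat_lit 300) ln11_12_6 ln11_12_6_ok))) (M (nat_lit 394) (B (L (nat_lit 362) ln11_8_5 ln11_8_5_ok) (L (nat_lit 426) ln11_9_5 ln11_9_5_ok))))) (B (M (nat_lit 267) (B (M (nat_lit 394) (B (L (nat_lit 426) ln11_9_5 ln11_9_5_ok) (L (nat_lit 362) ln11_8_5 ln11_8_5_ok))) (M (nat_lit 266) (B (L (nat_lit 298)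 ln11_12_7 ln11_12_7_ok) (L (nat_lit 234) ln11_11_7 ln11_11_7_ok))))) (M (nat_lit 298) (B (L (nat_lit 266) ln11_12_7 ln11_12_7_ok) (M (nat_lit 300) (B (L (nat_lit 268) ln11_12_6 ln11_12_6_ok) (M (nat_lit 297) (B (M (nat_lit 328) (B (L (nat_lit 329) ln12_9_1 ln12_9_1_ok) (M (nat_lit 296) (B (L (nat_lit 327) ln11_9_1 ln11_9_1_ok) (M (nat_lit 264) (B (L (nat_lit 263) ln11_9_3 ln11_9_3_ok) (L (nat_lit 265) ln12_9_3 ln12_9_3_ok))))))) (B (M (nat_lit 330) (B (M (nat_lit 329) (B (L (nat_lit 328) ln12_9_1 ln12_9_1_ok) (L (nat_lit 301) ln13_9_1 ln13_9_1_ok))) (B (M (nat_lit 301) (B (L (nat_lit 329) ln13_9_1 ln13_9_1_ok) (L (nat_lit 302) ln14_9_1_c10 ln14_9_1_c10_ok))) (M (nat_lit 394) (B (L (nat_lit 426) ln11_9_5 ln11_9_5_ok) (M (nat_lit 265) (B (L (nat_lit 264) ln12_9_3 ln12_9_3_ok) (L (nat_lit 362) ln10_12_7_c10 ln10_12_7_c10_ok)))))))) (B (M (nat_lit 296) (B (M (nat_lit 328) (B (L (nat_lit 327) ln11_9_1 ln11_9_1_ok) (L (nat_lit 329) ln12_9_1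 ln12_9_1_ok))) (B (M (nat_lit 330) (B (L (nat_lit 295) ln7_9_0_c10 ln7_9_0_c10_ok) (M (nat_lit 329) (B (L (nat_lit 328) ln12_9_1 ln12_9_1_ok) (L (nat_lit 301) ln13_9_1 ln13_9_1_ok))))) (B (M (nat_lit 330) (B (L (nat_lit 295) ln7_9_0_c10 ln7_9_0_c10_ok) (M (nat_lit 301) (B (L (nat_lit 329) ln13_9_1 ln13_9_1_ok) (L (nat_lit 302) ln14_9_1_c10 ln14_9_1_c10_ok))))) (M (nat_lit 295) (B (L (nat_lit 330) ln7_9_0_c10 ln7_9_0_c10_ok) (M (nat_lit 327) (B (L (nat_lit 326) ln10_9_1_c10 ln10_9_1_c10_ok) (L (nat_lit 328) ln11_9_1 ln11_9_1_ok))))))))) (B (M (nat_lit 330) (B (M (nat_lit 301) (B (L (nat_lit 329) ln13_9_1 ln13_9_1_ok) (L (nat_lit 302) ln14_9_1_c10 ln14_9_1_c10_ok))) (M (nat_lit 394) (B (L (nat_lit 426) ln11_9_5 ln11_9_5_ok) (M (nat_lit 265) (B (L (nat_lit 264) ln12_9_3 ln12_9_3_ok) (L (nat_lit 362) ln10_12_7_c10 ln10_12_7_c10_ok))))))) (M (nat_lit 296) (B (M (nat_lit 264) (B (L (nat_lit 263) ln11_9_3 ln11_9_3_ok) (L (nat_lit 265)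 ln12_9_3 ln12_9_3_ok))) (M (nat_lit 295) (B (L (nat_lit 330) ln7_9_0_c10 ln7_9_0_c10_ok) (M (nat_lit 327) (B (L (nat_lit 326) ln10_9_1_c10 ln10_9_1_c10_ok) (L (nat_lit 328) ln11_9_1 ln11_9_1_ok))))))))))))))))))))) (M (nat_lit 427) (B (M (nat_lit 459) (B (M (nat_lit 330) (B (L (nat_lit 298) ln11_13_7 ln11_13_7_ok) (L (nat_lit 362) ln11_14_7 ln11_14_7_ok))) (M (nat_lit 458) (B (L (nat_lit 426) ln11_10_5 ln11_10_5_ok) (L (nat_lit 490) ln11_11_5 ln11_11_5_ok))))) (B (M (nat_lit 459) (B (M (nat_lit 458) (B (L (nat_lit 426) ln11_10_5 ln11_10_5_ok) (L (nat_lit 490) ln11_11_5 ln11_11_5_ok))) (M (nat_lit 460) (B (L (nat_lit 428) ln11_10_4 ln11_10_4_ok) (L (nat_lit 492) ln11_11_4 ln11_11_4_ok))))) (B (M (nat_lit 459) (B (M (nat_lit 330) (B (L (nat_lit 298) ln11_13_7 ln11_13_7_ok) (L (nat_lit 362) ln11_14_7 ln11_14_7_ok))) (M (nat_lit 460) (B (L (nat_lit 428) ln11_10_4 ln11_10_4_ok) (L (nat_lit 492) ln11_11_4 ln11_11_4_ok))))) (M (nat_lit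 330) (B (L (nat_lit 298) ln11_13_7 ln11_13_7_ok) (M (nat_lit 364) (B (L (nat_lit 366) ln14_11_3 ln14_11_3_ok) (M (nat_lit 329) (B (L (nat_lit 328) ln8_10_0 ln8_10_0_ok) (L (nat_lit 362) ln13_11_3 ln13_11_3_ok))))))))))))))
noncomputable def c10_d403 : Cert := (B (M (nat_lit 364) (B (K (nat_lit 5954262830815946494521163372829474515558654013355633122006882178831988296047090459442473431560968324864430856171199586254136263950035058688) (nat_lit 68647976623682790763694020282321174298648569254426210075243266647476457123797123618210931914437916474865460637400261317357224572780533141330353462358870851584) (nat_lit 68647976623682790763694020282321174298648569254426210075243266647476457123797123618210931914437916474865460637400261317357224572780533141330353462358870851584) c10_s107) (M (nat_lit 366) (B (L (nat_lit 394) ln14_11_1 ln14_11_1_ok) (M (nat_lit 335) (B (L (nat_lit 334) ln11_11_2 ln11_11_2_ok) (M (nat_lit 399) (B (L (nat_lit 398)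 ln11_11_0 ln11_11_0_ok) (M (nat_lit 367) (B (L (nat_lit 336) ln12_11_2 ln12_11_2_ok) (L (nat_lit 400) ln12_11_0 ln12_11_0_ok))))))))))) (B (M (nat_lit 364) (B (K (nat_lit 5954262830815946494521163372829474515558654013355633122006882178831988296047090459442473431560968324864430856171199586254136263950035058688) (nat_lit 1488565707703986623849681213693627562363258660172476099018779792703864542475956807612899152442527620886608880214597878984291607408707371008) (nat_lit 1488565707703986623849681213693627562363258660172476099018779792703864542475956807612899152442527620886608880214597878984291607408707371008) c10_s167) (B (M (nat_lit 427) (B (M (nat_lit 332) (B (L (nat_lit 459) ln11_14_6 ln11_14_6_ok) (M (nat_lit 300) (B (L (nat_lit 396) ln12_9_5 ln12_9_5_ok) (L (nat_lit 331) ln11_13_6 ln11_13_6_ok))))) (B (M (nat_lit 331) (B (M (nat_lit 330) (B (L (nat_lit 298) ln11_13_7 ln11_13_7_ok) (L (nat_lit 366) ln14_11_3 ln14_11_3_ok))) (M (nat_lit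 299) (B (M (nat_lit 300) (B (L (nat_lit 332) ln11_13_6 ln11_13_6_ok) (L (nat_lit 268) ln11_12_6 ln11_12_6_ok))) (M (nat_lit 396) (B (L (nat_lit 428) ln11_9_4 ln11_9_4_ok) (L (nat_lit 267) ln11_8_4 ln11_8_4_ok))))))) (B (M (nat_lit 332) (B (L (nat_lit 459) ln11_14_6 ln11_14_6_ok) (M (nat_lit 300) (B (L (nat_lit 331) ln11_13_6 ln11_13_6_ok) (L (nat_lit 268) ln12_8_5 ln12_8_5_ok))))) (B (M (nat_lit 332) (B (L (nat_lit 459) ln11_14_6 ln11_14_6_ok) (M (nat_lit 300) (B (L (nat_lit 396) ln12_9_5 ln12_9_5_ok) (L (nat_lit 268) ln12_8_5 ln12_8_5_ok))))) (M (nat_lit 330) (B (M (nat_lit 362) (B (L (nat_lit 459) ln11_14_7 ln11_14_7_ok) (L (nat_lit 329) ln13_11_3 ln13_11_3_ok))) (M (nat_lit 331) (B (L (nat_lit 298) ln11_13_7 ln11_13_7_ok) (L (nat_lit 366) ln14_11_3 ln14_11_3_ok)))))))))) (B (M (nat_lit 366) (B (L (nat_lit 394) ln14_11_1 ln14_11_1_ok) (M (nat_lit 367) (B (M (nat_lit 331) (B (L (nat_lit 330) ln14_11_3 ln14_11_3_ok) (L (nat_lit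 332) ln15_11_3 ln15_11_3_ok))) (M (nat_lit 399) (B (L (nat_lit 398) ln11_11_0 ln11_11_0_ok) (L (nat_lit 400) ln12_11_0 ln12_11_0_ok))))))) (M (nat_lit 394) (B (M (nat_lit 393) (B (L (nat_lit 362) ln13_11_1 ln13_11_1_ok) (L (nat_lit 396) ln9_12_2 ln9_12_2_ok))) (L (nat_lit 366) ln14_11_1 ln14_11_1_ok))))))) (M (nat_lit 331) (B (M (nat_lit 330) (B (M (nat_lit 364) (B (L (nat_lit 366) ln14_11_3 ln14_11_3_ok) (M (nat_lit 329) (B (L (nat_lit 362) ln13_11_3 ln13_11_3_ok) (L (nat_lit 328) ln8_10_0 ln8_10_0_ok))))) (B (M (nat_lit 364) (B (L (nat_lit 366) ln14_11_3 ln14_11_3_ok) (M (nat_lit 329) (B (L (nat_lit 328) ln8_10_0 ln8_10_0_ok) (L (nat_lit 332) ln9_10_0 ln9_10_0_ok))))) (M (nat_lit 298) (B (L (nat_lit 427) ln11_13_7 ln11_13_7_ok) (M (nat_lit 266) (B (L (nat_lit 362) ln10_8_4 ln10_8_4_ok) (L (nat_lit 299) ln11_12_7 ln11_12_7_ok)))))))) (B (M (nat_lit 299) (B (M (nat_lit 267) (B (M (nat_lit 394) (B (L (nat_lit 426) ln11_9_5 ln11_9_5_ok)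 (L (nat_lit 362) ln11_8_5 ln11_8_5_ok))) (M (nat_lit 266) (B (L (nat_lit 298) ln11_12_7 ln11_12_7_ok) (L (nat_lit 234) ln11_11_7 ln11_11_7_ok))))) (B (M (nat_lit 267) (B (M (nat_lit 266) (B (L (nat_lit 298) ln11_12_7 ln11_12_7_ok) (L (nat_lit 234) ln11_11_7 ln11_11_7_ok))) (M (nat_lit 268) (B (L (nat_lit 300) ln11_12_6 ln11_12_6_ok) (L (nat_lit 236) ln11_11_6 ln11_11_6_ok))))) (B (M (nat_lit 267) (B (M (nat_lit 394) (B (L (nat_lit 426) ln11_9_5 ln11_9_5_ok) (L (nat_lit 362) ln11_8_5 ln11_8_5_ok))) (M (nat_lit 268) (B (L (nat_lit 300) ln11_12_6 ln11_12_6_ok) (L (nat_lit 236) ln11_11_6 ln11_11_6_ok))))) (M (nat_lit 394) (B (L (nat_lit 426) ln11_9_5 ln11_9_5_ok) (M (nat_lit 364) (B (L (nat_lit 366) ln14_11_1 ln14_11_1_ok) (M (nat_lit 393) (B (L (nat_lit 392) ln8_12_2 ln8_12_2_ok) (L (nat_lit 362) ln13_11_1 ln13_11_1_ok))))))))))) (B (M (nat_lit 330) (B (M (nat_lit 364) (B (L (nat_lit 366) ln14_11_3 ln14_11_3_ok) (M (nat_lit 329) (B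 (L (nat_lit 328) ln8_10_0 ln8_10_0_ok) (L (nat_lit 332) ln9_10_0 ln9_10_0_ok))))) (M (nat_lit 298) (B (L (nat_lit 427) ln11_13_7 ln11_13_7_ok) (M (nat_lit 266) (B (L (nat_lit 299) ln11_12_7 ln11_12_7_ok) (L (nat_lit 234) ln10_7_4 ln10_7_4_ok))))))) (B (M (nat_lit 427) (B (M (nat_lit 459) (B (M (nat_lit 460) (B (L (nat_lit 492) ln11_11_4 ln11_11_4_ok) (L (nat_lit 428) ln11_10_4 ln11_10_4_ok))) (M (nat_lit 330) (B (L (nat_lit 362) ln11_14_7 ln11_14_7_ok) (L (nat_lit 298) ln11_13_7 ln11_13_7_ok))))) (B (M (nat_lit 459) (B (M (nat_lit 458) (B (L (nat_lit 490) ln11_11_5 ln11_11_5_ok) (L (nat_lit 426) ln11_10_5 ln11_10_5_ok))) (M (nat_lit 330) (B (L (nat_lit 362) ln11_14_7 ln11_14_7_ok) (L (nat_lit 298) ln11_13_7 ln11_13_7_ok))))) (M (nat_lit 299) (B (M (nat_lit 426) (B (L (nat_lit 458) ln11_10_5 ln11_10_5_ok) (L (nat_lit 394) ln11_9_5 ln11_9_5_ok))) (M (nat_lit 300) (B (L (nat_lit 332) ln11_13_6 ln11_13_6_ok) (L (nat_lit 268) ln11_12_6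 ln11_12_6_ok)))))))) (B (M (nat_lit 394) (B (M (nat_lit 426) (B (L (nat_lit 299) ln11_9_5 ln11_9_5_ok) (M (nat_lit 458) (B (L (nat_lit 490) ln10_15_6 ln10_15_6_ok) (L (nat_lit 362) ln10_14_6 ln10_14_6_ok))))) (B (M (nat_lit 426) (B (L (nat_lit 299) ln11_9_5 ln11_9_5_ok) (M (nat_lit 458) (B (L (nat_lit 427) ln11_10_5 ln11_10_5_ok) (L (nat_lit 362) ln10_14_6 ln10_14_6_ok))))) (B (M (nat_lit 364) (B (L (nat_lit 366) ln14_11_1 ln14_11_1_ok) (M (nat_lit 393) (B (L (nat_lit 392) ln8_12_2 ln8_12_2_ok) (L (nat_lit 362) ln13_11_1 ln13_11_1_ok))))) (M (nat_lit 426) (B (L (nat_lit 299) ln11_9_5 ln11_9_5_ok) (M (nat_lit 458) (B (L (nat_lit 490) ln10_15_6 ln10_15_6_ok) (L (nat_lit 427) ln11_10_5 ln11_10_5_ok))))))))) (M (nat_lit 330) (B (M (nat_lit 298) (B (L (nat_lit 427) ln11_13_7 ln11_13_7_ok) (M (nat_lit 266) (B (L (nat_lit 362) ln10_8_4 ln10_8_4_ok) (L (nat_lit 234) ln10_7_4 ln10_7_4_ok))))) (B (M (nat_lit 364) (B (L (nat_lit 366) ln14_11_3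 ln14_11_3_ok) (M (nat_lit 329) (B (L (nat_lit 362) ln13_11_3 ln13_11_3_ok) (L (nat_lit 328) ln8_10_0 ln8_10_0_ok))))) (M (nat_lit 364) (B (L (nat_lit 366) ln14_11_3 ln14_11_3_ok) (M (nat_lit 329) (B (L (nat_lit 328) ln8_10_0 ln8_10_0_ok) (L (nat_lit 332) ln9_10_0 ln9_10_0_ok))))))))))))))))
noncomputable def c10_d404 : Cert := (B (M (nat_lit 331) (B (M (nat_lit 299) (B (M (nat_lit 426) (B (L (nat_lit 394) ln11_9_5 ln11_9_5_ok) (M (nat_lit 427) (B (L (nat_lit 458) ln11_10_5 ln11_10_5_ok) (M (nat_lit 428) (B (L (nat_lit 460) ln11_10_4 ln11_10_4_ok) (L (nat_lit 396) ln11_9_4 ln11_9_4_ok))))))) (M (nat_lit 266) (B (L (nat_lit 298) ln11_12_7 ln11_12_7_ok) (M (nat_lit 267) (B (L (nat_lit 234) ln11_11_7 ln11_11_7_ok) (M (nat_lit 268) (B (L (nat_lit 300) ln11_12_6 ln11_12_6_ok) (L (nat_lit 236) ln11_11_6 ln11_11_6_ok))))))))) (B (M (nat_lit 299) (B (M (nat_lit 427) (B (M (nat_lit 428) (B (L (nat_lit 460) ln11_10_4 ln11_10_4_ok) (L (nat_lit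 396) ln11_9_4 ln11_9_4_ok))) (M (nat_lit 298) (B (L (nat_lit 330) ln11_13_7 ln11_13_7_ok) (L (nat_lit 266) ln11_12_7 ln11_12_7_ok))))) (M (nat_lit 267) (B (M (nat_lit 394) (B (L (nat_lit 426) ln11_9_5 ln11_9_5_ok) (L (nat_lit 362) ln11_8_5 ln11_8_5_ok))) (M (nat_lit 268) (B (L (nat_lit 300) ln11_12_6 ln11_12_6_ok) (L (nat_lit 236) ln11_11_6 ln11_11_6_ok))))))) (B (M (nat_lit 299) (B (M (nat_lit 267) (B (M (nat_lit 396) (B (L (nat_lit 428) ln11_9_4 ln11_9_4_ok) (L (nat_lit 364) ln11_8_4 ln11_8_4_ok))) (M (nat_lit 268) (B (L (nat_lit 300) ln11_12_6 ln11_12_6_ok) (L (nat_lit 236) ln11_11_6 ln11_11_6_ok))))) (B (M (nat_lit 267) (B (M (nat_lit 394) (B (L (nat_lit 426) ln11_9_5 ln11_9_5_ok) (L (nat_lit 362) ln11_8_5 ln11_8_5_ok))) (M (nat_lit 268) (B (L (nat_lit 300) ln11_12_6 ln11_12_6_ok) (L (nat_lit 236) ln11_11_6 ln11_11_6_ok))))) (B (M (nat_lit 267) (B (M (nat_lit 394) (B (L (nat_lit 426) ln11_9_5 ln11_9_5_ok) (L (nat_lit 362) ln11_8_5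 ln11_8_5_ok))) (M (nat_lit 396) (B (L (nat_lit 428) ln11_9_4 ln11_9_4_ok) (L (nat_lit 364) ln11_8_4 ln11_8_4_ok))))) (M (nat_lit 427) (B (M (nat_lit 426) (B (L (nat_lit 458) ln11_10_5 ln11_10_5_ok) (L (nat_lit 394) ln11_9_5 ln11_9_5_ok))) (M (nat_lit 298) (B (L (nat_lit 330) ln11_13_7 ln11_13_7_ok) (L (nat_lit 266) ln11_12_7 ln11_12_7_ok))))))))) (B (M (nat_lit 299) (B (M (nat_lit 266) (B (L (nat_lit 298) ln11_12_7 ln11_12_7_ok) (M (nat_lit 267) (B (L (nat_lit 234) ln11_11_7 ln11_11_7_ok) (M (nat_lit 268) (B (L (nat_lit 300) ln11_12_6 ln11_12_6_ok) (L (nat_lit 236) ln11_11_6 ln11_11_6_ok))))))) (B (M (nat_lit 267) (B (M (nat_lit 396) (B (L (nat_lit 428) ln11_9_4 ln11_9_4_ok) (L (nat_lit 364) ln11_8_4 ln11_8_4_ok))) (M (nat_lit 268) (B (L (nat_lit 300) ln11_12_6 ln11_12_6_ok) (L (nat_lit 236) ln11_11_6 ln11_11_6_ok))))) (B (M (nat_lit 267) (B (M (nat_lit 396) (B (L (nat_lit 428) ln11_9_4 ln11_9_4_ok) (L (nat_lit 364) ln11_8_4 ln11_8_4_ok)))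 (M (nat_lit 266) (B (L (nat_lit 298) ln11_12_7 ln11_12_7_ok) (L (nat_lit 234) ln11_11_7 ln11_11_7_ok))))) (M (nat_lit 427) (B (M (nat_lit 428) (B (L (nat_lit 460) ln11_10_4 ln11_10_4_ok) (L (nat_lit 396) ln11_9_4 ln11_9_4_ok))) (M (nat_lit 298) (B (L (nat_lit 330) ln11_13_7 ln11_13_7_ok) (L (nat_lit 266) ln11_12_7 ln11_12_7_ok))))))))) (B (M (nat_lit 427) (B (M (nat_lit 460) (B (L (nat_lit 428) ln11_10_4 ln11_10_4_ok) (M (nat_lit 459) (B (L (nat_lit 492) ln11_11_4 ln11_11_4_ok) (M (nat_lit 458) (B (L (nat_lit 426) ln11_10_5 ln11_10_5_ok) (L (nat_lit 490) ln11_11_5 ln11_11_5_ok))))))) (B (M (nat_lit 459) (B (M (nat_lit 330) (B (L (nat_lit 298) ln11_13_7 ln11_13_7_ok) (L (nat_lit 362) ln11_14_7 ln11_14_7_ok))) (M (nat_lit 458) (B (L (nat_lit 426) ln11_10_5 ln11_10_5_ok) (L (nat_lit 490) ln11_11_5 ln11_11_5_ok))))) (B (M (nat_lit 459) (B (M (nat_lit 330) (B (L (nat_lit 298) ln11_13_7 ln11_13_7_ok) (L (nat_lit 362) ln11_14_7 ln11_14_7_ok)))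 (M (nat_lit 460) (B (L (nat_lit 428) ln11_10_4 ln11_10_4_ok) (L (nat_lit 492) ln11_11_4 ln11_11_4_ok))))) (M (nat_lit 299) (B (M (nat_lit 298) (B (L (nat_lit 266) ln11_12_7 ln11_12_7_ok) (L (nat_lit 330) ln11_13_7 ln11_13_7_ok))) (M (nat_lit 428) (B (L (nat_lit 396) ln11_9_4 ln11_9_4_ok) (L (nat_lit 460) ln11_10_4 ln11_10_4_ok))))))))) c10_d402)))))) (B (M (nat_lit 364) (B (M (nat_lit 331) (B (M (nat_lit 366) (B (L (nat_lit 330) ln14_11_3 ln14_11_3_ok) (M (nat_lit 367) (B (L (nat_lit 396) ln15_11_1 ln15_11_1_ok) (L (nat_lit 332) ln15_11_3 ln15_11_3_ok))))) (B (M (nat_lit 427) (B (M (nat_lit 332) (B (L (nat_lit 459) ln11_14_6 ln11_14_6_ok) (L (nat_lit 300) ln11_13_6 ln11_13_6_ok))) (B (M (nat_lit 299) (B (M (nat_lit 300) (B (L (nat_lit 332) ln11_13_6 ln11_13_6_ok) (L (nat_lit 268) ln11_12_6 ln11_12_6_ok))) (M (nat_lit 267) (B (L (nat_lit 396) ln11_8_4 ln11_8_4_ok) (M (nat_lit 266) (B (L (nat_lit 298) ln11_12_7 ln11_12_7_ok) (L (nat_lit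 234) ln11_11_7 ln11_11_7_ok))))))) (M (nat_lit 459) (B (M (nat_lit 458) (B (L (nat_lit 490) ln11_11_5 ln11_11_5_ok) (L (nat_lit 426) ln11_10_5 ln11_10_5_ok))) (M (nat_lit 491) (B (L (nat_lit 396) ln11_15_6 ln11_15_6_ok) (M (nat_lit 492) (B (L (nat_lit 524) ln11_12_4 ln11_12_4_ok) (L (nat_lit 460) ln11_11_4 ln11_11_4_ok)))))))))) (B (M (nat_lit 427) (B (M (nat_lit 330) (B (L (nat_lit 298) ln11_13_7 ln11_13_7_ok) (L (nat_lit 366) ln14_11_3 ln14_11_3_ok))) (M (nat_lit 332) (B (L (nat_lit 459) ln11_14_6 ln11_14_6_ok) (L (nat_lit 300) ln11_13_6 ln11_13_6_ok))))) (M (nat_lit 366) (B (L (nat_lit 330) ln14_11_3 ln14_11_3_ok) (M (nat_lit 399) (B (L (nat_lit 398) ln11_11_0 ln11_11_0_ok) (M (nat_lit 367) (B (L (nat_lit 396) ln15_11_1 ln15_11_1_ok) (L (nat_lit 400) ln12_11_0 ln12_11_0_ok))))))))))) (B (K (nat_lit 5954262830815946494521163372829474515558654013355633122006882178831988296047090459442473431560968324864430856171199586254136263950035058688)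 (nat_lit 1488565707703986623849681213693627562363258660172476099018779792703864542475956807612899152442527620886608880214597878984291607408707371008) (nat_lit 1488565707703986623849681213693627562363258660172476099018779792703864542475956807612899152442527620886608880214597878984291607408707371008) c10_s167) (B (M (nat_lit 394) (B (L (nat_lit 366) ln14_11_1 ln14_11_1_ok) (M (nat_lit 362) (B (L (nat_lit 393) ln13_11_1 ln13_11_1_ok) (M (nat_lit 330) (B (L (nat_lit 329) ln13_11_3 ln13_11_3_ok) (M (nat_lit 427) (B (L (nat_lit 298) ln10_9_4 ln10_9_4_ok) (L (nat_lit 459) ln11_14_7 ln11_14_7_ok))))))))) (M (nat_lit 394) (B (M (nat_lit 393) (B (L (nat_lit 362) ln13_11_1 ln13_11_1_ok) (L (nat_lit 396) ln9_12_2 ln9_12_2_ok))) (L (nat_lit 366) ln14_11_1 ln14_11_1_ok))))))) c10_d403))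
noncomputable def c10_d405 : Cert := (B (M (nat_lit 331) (B (M (nat_lit 299) (B (M (nat_lit 426) (B (L (nat_lit 394) ln11_9_5 ln11_9_5_ok) (M (nat_lit 427) (B (L (nat_lit 458) ln11_10_5 ln11_10_5_ok) (M (nat_lit 428) (B (L (nat_lit 460) ln11_10_4 ln11_10_4_ok) (L (nat_lit 396) ln11_9_4 ln11_9_4_ok))))))) (M (nat_lit 266) (B (L (nat_lit 298) ln11_12_7 ln11_12_7_ok) (M (nat_lit 267) (B (L (nat_lit 234) ln11_11_7 ln11_11_7_ok) (M (nat_lit 268) (B (L (nat_lit 300) ln11_12_6 ln11_12_6_ok) (L (nat_lit 236) ln11_11_6 ln11_11_6_ok))))))))) (B (M (nat_lit 427) (B (M (nat_lit 298) (B (L (nat_lit 330) ln11_13_7 ln11_13_7_ok) (M (nat_lit 299) (B (L (nat_lit 266) ln11_12_7 ln11_12_7_ok) (M (nat_lit 300) (B (L (nat_lit 268) ln11_12_6 ln11_12_6_ok) (L (nat_lit 332) ln11_13_6 ln11_13_6_ok))))))) (M (nat_lit 458) (B (L (nat_lit 426) ln11_10_5 ln11_10_5_ok) (M (nat_lit 459) (B (L (nat_lit 490) ln11_11_5 ln11_11_5_ok) (M (nat_lit 460) (B (L (nat_lit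 428) ln11_10_4 ln11_10_4_ok) (L (nat_lit 492) ln11_11_4 ln11_11_4_ok))))))))) (B (M (nat_lit 299) (B (M (nat_lit 427) (B (M (nat_lit 428) (B (L (nat_lit 460) ln11_10_4 ln11_10_4_ok) (L (nat_lit 396) ln11_9_4 ln11_9_4_ok))) (M (nat_lit 298) (B (L (nat_lit 330) ln11_13_7 ln11_13_7_ok) (L (nat_lit 266) ln11_12_7 ln11_12_7_ok))))) (M (nat_lit 267) (B (M (nat_lit 394) (B (L (nat_lit 426) ln11_9_5 ln11_9_5_ok) (L (nat_lit 362) ln11_8_5 ln11_8_5_ok))) (M (nat_lit 268) (B (L (nat_lit 300) ln11_12_6 ln11_12_6_ok) (L (nat_lit 236) ln11_11_6 ln11_11_6_ok))))))) (B (M (nat_lit 427) (B (M (nat_lit 299) (B (M (nat_lit 300) (B (L (nat_lit 268) ln11_12_6 ln11_12_6_ok) (L (nat_lit 332) ln11_13_6 ln11_13_6_ok))) (M (nat_lit 426) (B (L (nat_lit 394) ln11_9_5 ln11_9_5_ok) (L (nat_lit 458) ln11_10_5 ln11_10_5_ok))))) (M (nat_lit 459) (B (M (nat_lit 330) (B (L (nat_lit 298) ln11_13_7 ln11_13_7_ok) (L (nat_lit 362) ln11_14_7 ln11_14_7_ok))) (M (nat_lit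 460) (B (L (nat_lit 428) ln11_10_4 ln11_10_4_ok) (L (nat_lit 492) ln11_11_4 ln11_11_4_ok))))))) (B (M (nat_lit 299) (B (M (nat_lit 268) (B (L (nat_lit 300) ln11_12_6 ln11_12_6_ok) (M (nat_lit 267) (B (L (nat_lit 236) ln11_11_6 ln11_11_6_ok) (M (nat_lit 266) (B (L (nat_lit 298) ln11_12_7 ln11_12_7_ok) (L (nat_lit 234) ln11_11_7 ln11_11_7_ok))))))) (B (M (nat_lit 267) (B (M (nat_lit 394) (B (L (nat_lit 426) ln11_9_5 ln11_9_5_ok) (L (nat_lit 362) ln11_8_5 ln11_8_5_ok))) (M (nat_lit 266) (B (L (nat_lit 298) ln11_12_7 ln11_12_7_ok) (L (nat_lit 234) ln11_11_7 ln11_11_7_ok))))) (B (M (nat_lit 267) (B (M (nat_lit 394) (B (L (nat_lit 426) ln11_9_5 ln11_9_5_ok) (L (nat_lit 362) ln11_8_5 ln11_8_5_ok))) (M (nat_lit 268) (B (L (nat_lit 300) ln11_12_6 ln11_12_6_ok) (L (nat_lit 236) ln11_11_6 ln11_11_6_ok))))) (M (nat_lit 427) (B (M (nat_lit 426) (B (L (nat_lit 458) ln11_10_5 ln11_10_5_ok) (L (nat_lit 394) ln11_9_5 ln11_9_5_ok))) (M (nat_lit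 300) (B (L (nat_lit 332) ln11_13_6 ln11_13_6_ok) (L (nat_lit 268) ln11_12_6 ln11_12_6_ok))))))))) (B (M (nat_lit 427) (B (M (nat_lit 460) (B (L (nat_lit 428) ln11_10_4 ln11_10_4_ok) (M (nat_lit 459) (B (L (nat_lit 492) ln11_11_4 ln11_11_4_ok) (M (nat_lit 458) (B (L (nat_lit 426) ln11_10_5 ln11_10_5_ok) (L (nat_lit 490) ln11_11_5 ln11_11_5_ok))))))) (B (M (nat_lit 459) (B (M (nat_lit 330) (B (L (nat_lit 298) ln11_13_7 ln11_13_7_ok) (L (nat_lit 362) ln11_14_7 ln11_14_7_ok))) (M (nat_lit 458) (B (L (nat_lit 426) ln11_10_5 ln11_10_5_ok) (L (nat_lit 490) ln11_11_5 ln11_11_5_ok))))) (B (M (nat_lit 459) (B (M (nat_lit 330) (B (L (nat_lit 298) ln11_13_7 ln11_13_7_ok) (L (nat_lit 362) ln11_14_7 ln11_14_7_ok))) (M (nat_lit 460) (B (L (nat_lit 428) ln11_10_4 ln11_10_4_ok) (L (nat_lit 492) ln11_11_4 ln11_11_4_ok))))) (M (nat_lit 299) (B (M (nat_lit 298) (B (L (nat_lit 266) ln11_12_7 ln11_12_7_ok) (L (nat_lit 330) ln11_13_7 ln11_13_7_ok)))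 (M (nat_lit 428) (B (L (nat_lit 396) ln11_9_4 ln11_9_4_ok) (L (nat_lit 460) ln11_10_4 ln11_10_4_ok))))))))) c10_d400))))))) (B (M (nat_lit 427) (B (K (nat_lit 5954262831162530206286265230239199607252158144638956066880229858290287322841385004986859978896449781225614568337954303650155411180145868800) (nat_lit 235872651619994311854834147636101539680499351824960565631039512253437782751791182384106664487747204783138906854834492128092631021925656004665193737540476931237298044928) (nat_lit 235872651619994311854834147636101539680499351824960565631039512253437782751791182384106664487747204783138906854834492128092631021925656004665193737540476931237298044928) c10_s80) (B (M (nat_lit 331) (B (M (nat_lit 298) (B (L (nat_lit 330) ln11_13_7 ln11_13_7_ok) (M (nat_lit 299) (B (L (nat_lit 266) ln11_12_7 ln11_12_7_ok) (M (nat_lit 300) (B (L (nat_lit 268) ln11_12_6 ln11_12_6_ok) (L (nat_lit 332) ln11_13_6 ln11_13_6_ok))))))) (B (M (nat_lit 299) (B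 (M (nat_lit 298) (B (L (nat_lit 266) ln11_12_7 ln11_12_7_ok) (L (nat_lit 330) ln11_13_7 ln11_13_7_ok))) (M (nat_lit 428) (B (L (nat_lit 396) ln11_9_4 ln11_9_4_ok) (L (nat_lit 460) ln11_10_4 ln11_10_4_ok))))) (B (M (nat_lit 299) (B (M (nat_lit 428) (B (L (nat_lit 460) ln11_10_4 ln11_10_4_ok) (L (nat_lit 396) ln11_9_4 ln11_9_4_ok))) (M (nat_lit 300) (B (L (nat_lit 332) ln11_13_6 ln11_13_6_ok) (L (nat_lit 268) ln11_12_6 ln11_12_6_ok))))) (M (nat_lit 330) (B (L (nat_lit 298) ln11_13_7 ln11_13_7_ok) (M (nat_lit 332) (B (L (nat_lit 300) ln11_13_6 ln11_13_6_ok) (M (nat_lit 329) (B (L (nat_lit 364) ln9_10_0 ln9_10_0_ok) (M (nat_lit 360) (B (L (nat_lit 361) ln12_10_1 ln12_10_1_ok) (M (nat_lit 328) (B (L (nat_lit 359) ln11_10_1_c10 ln11_10_1_c10_ok) (M (nat_lit 296) (B (L (nat_lit 295) ln11_10_3_c10 ln11_10_3_c10_ok) (L (nat_lit 297) ln12_10_3 ln12_10_3_ok))))))))))))))))) (M (nat_lit 331) (B (M (nat_lit 332) (B (L (nat_lit 300) ln11_13_6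 ln11_13_6_ok) (M (nat_lit 459) (B (L (nat_lit 364) ln11_14_6 ln11_14_6_ok) (M (nat_lit 330) (B (L (nat_lit 298) ln11_13_7 ln11_13_7_ok) (L (nat_lit 362) ln11_14_7 ln11_14_7_ok))))))) (B (M (nat_lit 459) (B (M (nat_lit 332) (B (L (nat_lit 300) ln11_13_6 ln11_13_6_ok) (L (nat_lit 364) ln11_14_6 ln11_14_6_ok))) (M (nat_lit 458) (B (L (nat_lit 426) ln11_10_5 ln11_10_5_ok) (L (nat_lit 490) ln11_11_5 ln11_11_5_ok))))) (B (M (nat_lit 459) (B (M (nat_lit 330) (B (L (nat_lit 298) ln11_13_7 ln11_13_7_ok) (L (nat_lit 362) ln11_14_7 ln11_14_7_ok))) (M (nat_lit 458) (B (L (nat_lit 426) ln11_10_5 ln11_10_5_ok) (L (nat_lit 490) ln11_11_5 ln11_11_5_ok))))) (M (nat_lit 299) (B (M (nat_lit 298) (B (L (nat_lit 266) ln11_12_7 ln11_12_7_ok) (L (nat_lit 330) ln11_13_7 ln11_13_7_ok))) (M (nat_lit 300) (B (L (nat_lit 268) ln11_12_6 ln11_12_6_ok) (L (nat_lit 332) ln11_13_6 ln11_13_6_ok)))))))))))) (B (M (nat_lit 364) c10_d401) c10_d404)))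
theorem c10_s168 : Sem (nat_lit 5954262830815946494440468064101681940807525207584307311385449480368064140488599236619261537828426693130420703785776095047607990577375739904) (nat_lit 294840814519844291391634091667042461714619422588343786495061350464910957323665318400937611320225769052718404660436747689146423544133655328650022219089455824726474620928) (nat_lit 294840814519844291391634091667042461714619422588343786495061350464910957323665318400937611320225769052718404660436747689146423544133655328650022219089455824726474620928) :=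
  sem_of_chk (M (nat_lit 395) (B (M (nat_lit 364) c10_d397) (B (M (nat_lit 394) (B (M (nat_lit 393) (B (M (nat_lit 392) (B (M (nat_lit 359) (B (L (nat_lit 360) ln11_12_3 ln11_12_3_ok) (M (nat_lit 391) (B (L (nat_lit 358) ln10_12_3_c10 ln10_12_3_c10_ok) (M (nat_lit 423) (B (L (nat_lit 424) ln11_12_1 ln11_12_1_ok) (L (nat_lit 422) ln10_12_1_c10 ln10_12_1_c10_ok))))))) (B (M (nat_lit 391) (B (M (nat_lit 427) (B (L (nat_lit 428) ln8_12_0 ln8_12_0_ok) (L (nat_lit 426) ln7_12_0_c10 ln7_12_0_c10_ok))) (M (nat_lit 423) (B (L (nat_lit 424) ln11_12_1 ln11_12_1_ok) (L (nat_lit 422) ln10_12_1_c10 ln10_12_1_c10_ok))))) (B (M (nat_lit 391) (B (M (nat_lit 427) (B (L (nat_lit 428) ln8_12_0 ln8_12_0_ok) (L (nat_lit 426) ln7_12_0_c10 ln7_12_0_c10_ok))) (M (nat_lit 359) (B (L (nat_lit 360) ln11_12_3 ln11_12_3_ok) (L (nat_lit 358) ln10_12_3_c10 ln10_12_3_c10_ok))))) (M (nat_lit 396) (B (L (nat_lit 428) ln9_12_0 ln9_12_0_ok) (M (nat_lit 360) (B (L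 (nat_lit 361) ln12_12_3 ln12_12_3_ok) (L (nat_lit 359) ln11_12_3 ln11_12_3_ok))))))))) (B (M (nat_lit 392) (B (M (nat_lit 391) (B (M (nat_lit 427) (B (L (nat_lit 428) ln8_12_0 ln8_12_0_ok) (L (nat_lit 426) ln7_12_0_c10 ln7_12_0_c10_ok))) (M (nat_lit 359) (B (L (nat_lit 360) ln11_12_3 ln11_12_3_ok) (L (nat_lit 358) ln10_12_3_c10 ln10_12_3_c10_ok))))) (B (M (nat_lit 423) (B (L (nat_lit 424) ln11_12_1 ln11_12_1_ok) (M (nat_lit 391) (B (L (nat_lit 422) ln10_12_1_c10 ln10_12_1_c10_ok) (M (nat_lit 359) (B (L (nat_lit 360) ln11_12_3 ln11_12_3_ok) (L (nat_lit 358) ln10_12_3_c10 ln10_12_3_c10_ok))))))) (B (M (nat_lit 391) (B (M (nat_lit 427) (B (L (nat_lit 428) ln8_12_0 ln8_12_0_ok) (L (nat_lit 426) ln7_12_0_c10 ln7_12_0_c10_ok))) (M (nat_lit 423) (B (L (nat_lit 424) ln11_12_1 ln11_12_1_ok) (L (nat_lit 422) ln10_12_1_c10 ln10_12_1_c10_ok))))) (M (nat_lit 396) (B (L (nat_lit 428) ln9_12_0 ln9_12_0_ok) (M (nat_lit 424) (B (L (nat_lit 425)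 ln12_12_1 ln12_12_1_ok) (L (nat_lit 423) ln11_12_1 ln11_12_1_ok))))))))) c10_d399))) (B (M (nat_lit 427) (B (K (nat_lit 5954262831162530206326612884584307553965531881701503127416631511303243940229364057432807597990462924891702776982956457266341398242220048384) (nat_lit 4795005789287445422512304300767593723741649389930782005514523996755627690063696218466201995485653276640510952185907879856893413127851204268383010816) (nat_lit 4795005789287445422512304300767593723741649389930782005514523996755627690063696218466201995485653276640510952185907879856893413127851204268383010816) c10_s65) (B (M (nat_lit 362) (B (M (nat_lit 330) (B (L (nat_lit 298) ln10_9_4 ln10_9_4_ok) (L (nat_lit 459) ln11_14_7 ln11_14_7_ok))) (B (M (nat_lit 459) (B (L (nat_lit 330) ln11_14_7 ln11_14_7_ok) (L (nat_lit 491) ln11_15_7 ln11_15_7_ok))) (B (M (nat_lit 459) (B (L (nat_lit 491) ln11_15_7 ln11_15_7_ok) (M (nat_lit 458) (B (L (nat_lit 490) ln11_11_5 ln11_11_5_ok)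 (M (nat_lit 426) (B (M (nat_lit 457) (B (L (nat_lit 489) ln10_11_5 ln10_11_5_ok) (L (nat_lit 428) ln13_13_1 ln13_13_1_ok))) (M (nat_lit 361) (B (L (nat_lit 329) ln10_14_7 ln10_14_7_ok) (M (nat_lit 360) (B (L (nat_lit 359) ln7_11_0 ln7_11_0_ok) (L (nat_lit 396) ln8_11_0 ln8_11_0_ok))))))))))) (M (nat_lit 426) (B (M (nat_lit 458) (B (L (nat_lit 490) ln10_15_6 ln10_15_6_ok) (M (nat_lit 361) (B (L (nat_lit 329) ln10_14_7 ln10_14_7_ok) (M (nat_lit 360) (B (L (nat_lit 359) ln7_11_0 ln7_11_0_ok) (L (nat_lit 396) ln8_11_0 ln8_11_0_ok))))))) (B (M (nat_lit 425) (B (M (nat_lit 330) (B (L (nat_lit 298) ln10_9_4 ln10_9_4_ok) (L (nat_lit 457) ln10_10_5 ln10_10_5_ok))) (M (nat_lit 424) (B (L (nat_lit 423) ln7_13_2 ln7_13_2_ok) (L (nat_lit 396) ln8_13_2 ln8_13_2_ok))))) (M (nat_lit 329) (B (M (nat_lit 330) (B (L (nat_lit 297) ln10_13_7_c10 ln10_13_7_c10_ok) (L (nat_lit 298) ln10_9_4 ln10_9_4_ok))) (M (nat_lit 458) (B (L (nat_lit 361) ln10_14_7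 ln10_14_7_ok) (L (nat_lit 490) ln10_15_6 ln10_15_6_ok)))))))))))) (B (M (nat_lit 459) (B (M (nat_lit 364) (B (L (nat_lit 332) ln11_14_6 ln11_14_6_ok) (L (nat_lit 366) ln14_11_1 ln14_11_1_ok))) (M (nat_lit 491) (B (M (nat_lit 490) (B (L (nat_lit 522) ln11_12_5 ln11_12_5_ok) (L (nat_lit 458) ln11_11_5 ln11_11_5_ok))) (M (nat_lit 492) (B (L (nat_lit 524) ln11_12_4 ln11_12_4_ok) (L (nat_lit 460) ln11_11_4 ln11_11_4_ok))))))) (M (nat_lit 459) (B (M (nat_lit 491) (B (M (nat_lit 492) (B (L (nat_lit 460) ln11_11_4 ln11_11_4_ok) (L (nat_lit 524) ln11_12_4 ln11_12_4_ok))) (L (nat_lit 362) ln11_15_7 ln11_15_7_ok))) (M (nat_lit 364) (B (L (nat_lit 366) ln14_11_1 ln14_11_1_ok) (L (nat_lit 332) ln11_14_6 ln11_14_6_ok))))))))) (B (M (nat_lit 364) (B (L (nat_lit 366) ln14_11_1 ln14_11_1_ok) (M (nat_lit 362) (B (L (nat_lit 393) ln13_11_1 ln13_11_1_ok) (M (nat_lit 330) (B (L (nat_lit 329) ln13_11_3 ln13_11_3_ok) (M (nat_lit 427) (B (L (nat_lit 459)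 ln11_14_7 ln11_14_7_ok) (L (nat_lit 298) ln10_9_4 ln10_9_4_ok))))))))) (M (nat_lit 364) (B (M (nat_lit 393) (B (L (nat_lit 396) ln9_12_2 ln9_12_2_ok) (L (nat_lit 392) ln8_12_2 ln8_12_2_ok))) (L (nat_lit 366) ln14_11_1 ln14_11_1_ok))))))) c10_d405))) (nat_lit 5954262830815946494440468064101681940807525207584307311385449480368064140488599236619261537828426693130420703785776095047607990577375739904) (nat_lit 294840814519844291391634091667042461714619422588343786495061350464910957323665318400937611320225769052718404660436747689146423544133655328650022219089455824726474620928) (nat_lit 294840814519844291391634091667042461714619422588343786495061350464910957323665318400937611320225769052718404660436747689146423544133655328650022219089455824726474620928) (by decide +kernel)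
noncomputable def c10_d406 : Cert := (B (M (nat_lit 423) (B (M (nat_lit 458) (B (L (nat_lit 459) ln7_13_0 ln7_13_0_ok) (M (nat_lit 422) (B (L (nat_lit 457) ln6_13_0_c10 ln6_13_0_c10_ok) (M (nat_lit 394) (B (L (nat_lit 395) ln7_13_2 ln7_13_2_ok) (L (nat_lit 393) ln6_13_2_c10 ln6_13_2_c10_ok))))))) (B (M (nat_lit 422) (B (M (nat_lit 394) (B (L (nat_lit 395) ln7_13_2 ln7_13_2_ok) (L (nat_lit 393) ln6_13_2_c10 ln6_13_2_c10_ok))) (M (nat_lit 454) (B (L (nat_lit 455) ln10_13_1_c10 ln10_13_1_c10_ok) (L (nat_lit 453) ln9_13_1_c10 ln9_13_1_c10_ok))))) (B (M (nat_lit 422) (B (M (nat_lit 458) (B (L (nat_lit 459) ln7_13_0 ln7_13_0_ok) (L (nat_lit 457) ln6_13_0_c10 ln6_13_0_c10_ok))) (M (nat_lit 454) (B (L (nat_lit 455) ln10_13_1_c10 ln10_13_1_c10_ok) (L (nat_lit 453) ln9_13_1_c10 ln9_13_1_c10_ok))))) (M (nat_lit 455) (B (L (nat_lit 454) ln10_13_1_c10 ln10_13_1_c10_ok) (M (nat_lit 391) (B (L (nat_lit 390) ln10_13_3_c10 ln10_13_3_c10_ok) (M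 (nat_lit 487) (B (M (nat_lit 392) (B (L (nat_lit 519) ln7_16_6_c10 ln7_16_6_c10_ok) (L (nat_lit 360) ln7_15_6_c10 ln7_15_6_c10_ok))) (B (M (nat_lit 519) (B (M (nat_lit 520) (B (L (nat_lit 552) ln7_13_4_c10 ln7_13_4_c10_ok) (L (nat_lit 488) ln7_12_4_c10 ln7_12_4_c10_ok))) (M (nat_lit 518) (B (L (nat_lit 550) ln7_13_5_c10 ln7_13_5_c10_ok) (L (nat_lit 486) ln7_12_5_c10 ln7_12_5_c10_ok))))) (M (nat_lit 359) (B (M (nat_lit 488) (B (L (nat_lit 520) ln7_12_4_c10 ln7_12_4_c10_ok) (L (nat_lit 456) ln7_11_4_c10 ln7_11_4_c10_ok))) (M (nat_lit 360) (B (L (nat_lit 392) ln7_15_6_c10 ln7_15_6_c10_ok) (L (nat_lit 328) ln7_14_6_c10 ln7_14_6_c10_ok)))))))))))))))) (B (M (nat_lit 423) (B (M (nat_lit 422) (B (M (nat_lit 458) (B (L (nat_lit 459) ln7_13_0 ln7_13_0_ok) (L (nat_lit 457) ln6_13_0_c10 ln6_13_0_c10_ok))) (M (nat_lit 390) (B (L (nat_lit 391) ln10_13_3_c10 ln10_13_3_c10_ok) (L (nat_lit 389) ln9_13_3_c10 ln9_13_3_c10_ok))))) (B (M (nat_lit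 422) (B (M (nat_lit 454) (B (L (nat_lit 455) ln10_13_1_c10 ln10_13_1_c10_ok) (L (nat_lit 453) ln9_13_1_c10 ln9_13_1_c10_ok))) (M (nat_lit 390) (B (L (nat_lit 391) ln10_13_3_c10 ln10_13_3_c10_ok) (L (nat_lit 389) ln9_13_3_c10 ln9_13_3_c10_ok))))) (B (M (nat_lit 422) (B (M (nat_lit 458) (B (L (nat_lit 459) ln7_13_0 ln7_13_0_ok) (L (nat_lit 457) ln6_13_0_c10 ln6_13_0_c10_ok))) (M (nat_lit 454) (B (L (nat_lit 455) ln10_13_1_c10 ln10_13_1_c10_ok) (L (nat_lit 453) ln9_13_1_c10 ln9_13_1_c10_ok))))) (M (nat_lit 427) (B (M (nat_lit 455) (B (L (nat_lit 456) ln11_13_1_c10 ln11_13_1_c10_ok) (L (nat_lit 454) ln10_13_1_c10 ln10_13_1_c10_ok))) (M (nat_lit 391) (B (L (nat_lit 392) ln11_13_3 ln11_13_3_ok) (L (nat_lit 390) ln10_13_3_c10 ln10_13_3_c10_ok))))))))) (B (M (nat_lit 423) (B (M (nat_lit 422) (B (M (nat_lit 458) (B (L (nat_lit 459) ln7_13_0 ln7_13_0_ok) (L (nat_lit 457) ln6_13_0_c10 ln6_13_0_c10_ok))) (M (nat_lit 454) (B (L (nat_lit 455)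 ln10_13_1_c10 ln10_13_1_c10_ok) (L (nat_lit 453) ln9_13_1_c10 ln9_13_1_c10_ok))))) (B (M (nat_lit 422) (B (M (nat_lit 454) (B (L (nat_lit 455) ln10_13_1_c10 ln10_13_1_c10_ok) (L (nat_lit 453) ln9_13_1_c10 ln9_13_1_c10_ok))) (M (nat_lit 390) (B (L (nat_lit 391) ln10_13_3_c10 ln10_13_3_c10_ok) (L (nat_lit 389) ln9_13_3_c10 ln9_13_3_c10_ok))))) (B (M (nat_lit 422) (B (M (nat_lit 458) (B (L (nat_lit 459) ln7_13_0 ln7_13_0_ok) (L (nat_lit 457) ln6_13_0_c10 ln6_13_0_c10_ok))) (M (nat_lit 390) (B (L (nat_lit 391) ln10_13_3_c10 ln10_13_3_c10_ok) (L (nat_lit 389) ln9_13_3_c10 ln9_13_3_c10_ok))))) (M (nat_lit 427) (B (M (nat_lit 395) (B (L (nat_lit 396) ln8_13_2 ln8_13_2_ok) (L (nat_lit 394) ln7_13_2 ln7_13_2_ok))) (M (nat_lit 391) (B (L (nat_lit 392) ln11_13_3 ln11_13_3_ok) (L (nat_lit 390) ln10_13_3_c10 ln10_13_3_c10_ok))))))))) (B (M (nat_lit 423) (B (M (nat_lit 427) (B (M (nat_lit 395) (B (L (nat_lit 396) ln8_13_2 ln8_13_2_ok) (L (nat_lit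 394) ln7_13_2 ln7_13_2_ok))) (M (nat_lit 455) (B (L (nat_lit 456) ln11_13_1_c10 ln11_13_1_c10_ok) (L (nat_lit 454) ln10_13_1_c10 ln10_13_1_c10_ok))))) (M (nat_lit 422) (B (M (nat_lit 458) (B (L (nat_lit 459) ln7_13_0 ln7_13_0_ok) (L (nat_lit 457) ln6_13_0_c10 ln6_13_0_c10_ok))) (M (nat_lit 390) (B (L (nat_lit 391) ln10_13_3_c10 ln10_13_3_c10_ok) (L (nat_lit 389) ln9_13_3_c10 ln9_13_3_c10_ok))))))) (B (M (nat_lit 423) (B (M (nat_lit 458) (B (L (nat_lit 459) ln7_13_0 ln7_13_0_ok) (M (nat_lit 422) (B (L (nat_lit 457) ln6_13_0_c10 ln6_13_0_c10_ok) (M (nat_lit 394) (B (L (nat_lit 395) ln7_13_2 ln7_13_2_ok) (L (nat_lit 393) ln6_13_2_c10 ln6_13_2_c10_ok))))))) (B (M (nat_lit 422) (B (M (nat_lit 394) (B (L (nat_lit 395) ln7_13_2 ln7_13_2_ok) (L (nat_lit 393) ln6_13_2_c10 ln6_13_2_c10_ok))) (M (nat_lit 390) (B (L (nat_lit 391) ln10_13_3_c10 ln10_13_3_c10_ok) (L (nat_lit 389) ln9_13_3_c10 ln9_13_3_c10_ok))))) (B (M (nat_lit 422) (B (M (nat_lit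 458) (B (L (nat_lit 459) ln7_13_0 ln7_13_0_ok) (L (nat_lit 457) ln6_13_0_c10 ln6_13_0_c10_ok))) (M (nat_lit 390) (B (L (nat_lit 391) ln10_13_3_c10 ln10_13_3_c10_ok) (L (nat_lit 389) ln9_13_3_c10 ln9_13_3_c10_ok))))) (M (nat_lit 427) (B (M (nat_lit 395) (B (L (nat_lit 396) ln8_13_2 ln8_13_2_ok) (L (nat_lit 394) ln7_13_2 ln7_13_2_ok))) (M (nat_lit 391) (B (L (nat_lit 392) ln11_13_3 ln11_13_3_ok) (L (nat_lit 390) ln10_13_3_c10 ln10_13_3_c10_ok))))))))) (B (K (nat_lit 20839919904693236361007865009656479088805549285201202130586497225381475443893278772482817183946149193610266214248817219767709894472535900160) (nat_lit 158291456994384044337592020035777359362455531620338534850726684031388943475135516987463481152738143727655371788671129817527835672398172496908950547649396341895864910997666922496) (nat_lit 158291456994384044337592020035777359362455531620338534850726684031388943475135516987463481152738143727655371788671129817527835672398172496908950547649396341895864910997666922496)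 c10_s221) (M (nat_lit 423) (B (M (nat_lit 458) (B (L (nat_lit 459) ln7_13_0 ln7_13_0_ok) (M (nat_lit 422) (B (L (nat_lit 457) ln6_13_0_c10 ln6_13_0_c10_ok) (M (nat_lit 394) (B (L (nat_lit 395) ln7_13_2 ln7_13_2_ok) (L (nat_lit 393) ln6_13_2_c10 ln6_13_2_c10_ok))))))) (B (M (nat_lit 422) (B (M (nat_lit 394) (B (L (nat_lit 395) ln7_13_2 ln7_13_2_ok) (L (nat_lit 393) ln6_13_2_c10 ln6_13_2_c10_ok))) (M (nat_lit 454) (B (L (nat_lit 455) ln10_13_1_c10 ln10_13_1_c10_ok) (L (nat_lit 453) ln9_13_1_c10 ln9_13_1_c10_ok))))) (B (M (nat_lit 422) (B (M (nat_lit 458) (B (L (nat_lit 459) ln7_13_0 ln7_13_0_ok) (L (nat_lit 457) ln6_13_0_c10 ln6_13_0_c10_ok))) (M (nat_lit 454) (B (L (nat_lit 455) ln10_13_1_c10 ln10_13_1_c10_ok) (L (nat_lit 453) ln9_13_1_c10 ln9_13_1_c10_ok))))) (M (nat_lit 427) (B (M (nat_lit 395) (B (L (nat_lit 396) ln8_13_2 ln8_13_2_ok) (L (nat_lit 394) ln7_13_2 ln7_13_2_ok))) (M (nat_lit 455) (B (L (nat_lit 456) ln11_13_1_c10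 ln11_13_1_c10_ok) (L (nat_lit 454) ln10_13_1_c10 ln10_13_1_c10_ok)))))))))))))))
noncomputable def c10_d407 : Cert := (B (M (nat_lit 394) (B (M (nat_lit 395) (B (L (nat_lit 423) ln7_13_2 ln7_13_2_ok) (L (nat_lit 396) ln13_12_1 ln13_12_1_ok))) (B (M (nat_lit 423) (B (L (nat_lit 395) ln7_13_2 ln7_13_2_ok) (M (nat_lit 422) (B (L (nat_lit 393) ln6_13_2_c10 ln6_13_2_c10_ok) (M (nat_lit 454) (B (L (nat_lit 455) ln10_13_1_c10 ln10_13_1_c10_ok) (L (nat_lit 453) ln9_13_1_c10 ln9_13_1_c10_ok))))))) (B (M (nat_lit 458) (B (M (nat_lit 423) (B (L (nat_lit 459) ln7_13_0 ln7_13_0_ok) (M (nat_lit 422) (B (L (nat_lit 457) ln6_13_0_c10 ln6_13_0_c10_ok) (L (nat_lit 393) ln6_13_2_c10 ln6_13_2_c10_ok))))) (B (M (nat_lit 362) (B (M (nat_lit 457) (B (L (nat_lit 489) ln10_11_5 ln10_11_5_ok) (L (nat_lit 330) ln10_10_5 ln10_10_5_ok))) (B (M (nat_lit 490) (B (M (nat_lit 489) (B (L (nat_lit 521) ln10_12_5 ln10_12_5_ok) (L (nat_lit 457) ln10_11_5 ln10_11_5_ok)))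 (M (nat_lit 361) (B (L (nat_lit 393) ln10_15_7 ln10_15_7_ok) (L (nat_lit 329) ln10_14_7 ln10_14_7_ok))))) (B (M (nat_lit 330) (B (L (nat_lit 457) ln10_10_5 ln10_10_5_ok) (M (nat_lit 331) (B (L (nat_lit 363) ln10_14_6 ln10_14_6_ok) (L (nat_lit 299) ln10_13_6 ln10_13_6_ok))))) (M (nat_lit 330) (B (M (nat_lit 331) (B (L (nat_lit 363) ln10_14_6 ln10_14_6_ok) (L (nat_lit 299) ln10_13_6 ln10_13_6_ok))) (M (nat_lit 329) (B (L (nat_lit 361) ln10_14_7 ln10_14_7_ok) (L (nat_lit 297) ln10_13_7_c10 ln10_13_7_c10_ok))))))))) (B (M (nat_lit 393) (B (M (nat_lit 361) (B (L (nat_lit 490) ln10_15_7 ln10_15_7_ok) (L (nat_lit 329) ln9_10_4_c10 ln9_10_4_c10_ok))) (M (nat_lit 423) (B (L (nat_lit 459) ln7_13_0 ln7_13_0_ok) (L (nat_lit 422) ln6_13_2_c10 ln6_13_2_c10_ok))))) (M (nat_lit 457) (B (M (nat_lit 423) (B (L (nat_lit 459) ln7_13_0 ln7_13_0_ok) (L (nat_lit 422) ln6_13_0_c10 ln6_13_0_c10_ok))) (M (nat_lit 489) (B (L (nat_lit 362) ln10_11_5 ln10_11_5_ok)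 (L (nat_lit 521) ln9_16_6 ln9_16_6_ok))))))))) (M (nat_lit 458) (B (M (nat_lit 362) (B (M (nat_lit 457) (B (L (nat_lit 489) ln10_11_5 ln10_11_5_ok) (L (nat_lit 330) ln10_10_5 ln10_10_5_ok))) (M (nat_lit 395) (B (L (nat_lit 396) ln13_12_1 ln13_12_1_ok) (M (nat_lit 363) (B (L (nat_lit 490) ln10_15_6 ln10_15_6_ok) (L (nat_lit 331) ln10_14_6 ln10_14_6_ok))))))) (B (M (nat_lit 362) (B (M (nat_lit 457) (B (L (nat_lit 489) ln10_11_5 ln10_11_5_ok) (L (nat_lit 330) ln10_10_5 ln10_10_5_ok))) (M (nat_lit 490) (B (M (nat_lit 491) (B (L (nat_lit 523) ln10_12_4 ln10_12_4_ok) (L (nat_lit 459) ln10_11_4 ln10_11_4_ok))) (M (nat_lit 361) (B (L (nat_lit 393) ln10_15_7 ln10_15_7_ok) (L (nat_lit 329) ln10_14_7 ln10_14_7_ok))))))) (B (M (nat_lit 362) (B (M (nat_lit 457) (B (L (nat_lit 489) ln10_11_5 ln10_11_5_ok) (L (nat_lit 330) ln10_10_5 ln10_10_5_ok))) (B (M (nat_lit 457) (B (L (nat_lit 489) ln10_11_5 ln10_11_5_ok) (L (nat_lit 459) ln12_14_3 ln12_14_3_ok)))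 (B (M (nat_lit 457) (B (L (nat_lit 330) ln10_10_5 ln10_10_5_ok) (L (nat_lit 459) ln12_14_3 ln12_14_3_ok))) (M (nat_lit 330) (B (M (nat_lit 331) (B (L (nat_lit 363) ln10_14_6 ln10_14_6_ok) (L (nat_lit 299) ln10_13_6 ln10_13_6_ok))) (M (nat_lit 329) (B (L (nat_lit 361) ln10_14_7 ln10_14_7_ok) (L (nat_lit 297) ln10_13_7_c10 ln10_13_7_c10_ok))))))))) (B (M (nat_lit 490) (B (M (nat_lit 393) (B (L (nat_lit 522) ln10_16_7 ln10_16_7_ok) (L (nat_lit 361) ln10_15_7 ln10_15_7_ok))) (B (M (nat_lit 393) (B (L (nat_lit 361) ln10_15_7 ln10_15_7_ok) (M (nat_lit 395) (B (L (nat_lit 396) ln12_12_1 ln12_12_1_ok) (L (nat_lit 363) ln10_15_6 ln10_15_6_ok))))) (M (nat_lit 522) (B (M (nat_lit 523) (B (L (nat_lit 555) ln10_13_4 ln10_13_4_ok) (L (nat_lit 491) ln10_12_4 ln10_12_4_ok))) (M (nat_lit 521) (B (L (nat_lit 553) ln10_13_5 ln10_13_5_ok) (L (nat_lit 489) ln10_12_5 ln10_12_5_ok)))))))) (M (nat_lit 362) (B (M (nat_lit 457) (B (L (nat_lit 330) ln10_10_5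 ln10_10_5_ok) (L (nat_lit 459) ln12_14_3 ln12_14_3_ok))) (B (M (nat_lit 330) (B (L (nat_lit 457) ln10_10_5 ln10_10_5_ok) (M (nat_lit 331) (B (L (nat_lit 363) ln10_14_6 ln10_14_6_ok) (L (nat_lit 299) ln10_13_6 ln10_13_6_ok))))) (L (nat_lit 459) ln13_14_3 ln13_14_3_ok))))))))))))) (B (M (nat_lit 423) (B (M (nat_lit 427) (B (M (nat_lit 395) (B (L (nat_lit 396) ln8_13_2 ln8_13_2_ok) (L (nat_lit 394) ln7_13_2 ln7_13_2_ok))) (M (nat_lit 391) (B (L (nat_lit 392) ln11_13_3 ln11_13_3_ok) (L (nat_lit 390) ln10_13_3_c10 ln10_13_3_c10_ok))))) (B (M (nat_lit 427) (B (L (nat_lit 459) ln8_13_0 ln8_13_0_ok) (M (nat_lit 391) (B (L (nat_lit 392) ln11_13_3 ln11_13_3_ok) (L (nat_lit 390) ln10_13_3_c10 ln10_13_3_c10_ok))))) (B (M (nat_lit 422) (B (M (nat_lit 458) (B (L (nat_lit 459) ln7_13_0 ln7_13_0_ok) (L (nat_lit 457) ln6_13_0_c10 ln6_13_0_c10_ok))) (M (nat_lit 390) (B (L (nat_lit 391) ln10_13_3_c10 ln10_13_3_c10_ok) (L (nat_lit 389) ln9_13_3_c10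 ln9_13_3_c10_ok))))) (M (nat_lit 427) (B (L (nat_lit 459) ln8_13_0 ln8_13_0_ok) (M (nat_lit 395) (B (L (nat_lit 396) ln8_13_2 ln8_13_2_ok) (L (nat_lit 394) ln7_13_2 ln7_13_2_ok))))))))) (M (nat_lit 456) (B (M (nat_lit 455) (B (L (nat_lit 427) ln11_13_1_c10 ln11_13_1_c10_ok) (M (nat_lit 454) (B (L (nat_lit 457) ln6_14_2_c10 ln6_14_2_c10_ok) (L (nat_lit 453) ln5_14_2_c10 ln5_14_2_c10_ok))))) (B (M (nat_lit 488) (B (M (nat_lit 393) (B (L (nat_lit 520) ln8_16_6_c10 ln8_16_6_c10_ok) (M (nat_lit 361) (B (L (nat_lit 457) ln9_11_5_c10 ln9_11_5_c10_ok) (L (nat_lit 329) ln9_10_5_c10 ln9_10_5_c10_ok))))) (B (M (nat_lit 393) (B (L (nat_lit 520) ln8_16_6_c10 ln8_16_6_c10_ok) (M (nat_lit 361) (B (L (nat_lit 329) ln9_10_5_c10 ln9_10_5_c10_ok) (L (nat_lit 392) ln8_15_6_c10 ln8_15_6_c10_ok))))) (B (M (nat_lit 392) (B (M (nat_lit 489) (B (L (nat_lit 521) ln8_12_4_c10 ln8_12_4_c10_ok) (M (nat_lit 360) (B (L (nat_lit 457) ln8_11_4_c10 ln8_11_4_c10_ok)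 (M (nat_lit 359) (B (L (nat_lit 391) ln8_15_7_c10 ln8_15_7_c10_ok) (L (nat_lit 327) ln8_14_7_c10 ln8_14_7_c10_ok))))))) (B (M (nat_lit 455) (B (M (nat_lit 454) (B (L (nat_lit 457) ln6_14_2_c10 ln6_14_2_c10_ok) (L (nat_lit 453) ln5_14_2_c10 ln5_14_2_c10_ok))) (M (nat_lit 487) (B (L (nat_lit 519) ln8_12_5_c10 ln8_12_5_c10_ok) (L (nat_lit 360) ln8_11_5_c10 ln8_11_5_c10_ok))))) (B (M (nat_lit 360) (B (M (nat_lit 487) (B (L (nat_lit 519) ln8_12_5_c10 ln8_12_5_c10_ok) (L (nat_lit 455) ln8_11_5_c10 ln8_11_5_c10_ok))) (M (nat_lit 359) (B (L (nat_lit 391) ln8_15_7_c10 ln8_15_7_c10_ok) (L (nat_lit 327) ln8_14_7_c10 ln8_14_7_c10_ok))))) (M (nat_lit 521) (B (L (nat_lit 489) ln8_12_4_c10 ln8_12_4_c10_ok) (M (nat_lit 520) (B (L (nat_lit 553) ln8_13_4_c10 ln8_13_4_c10_ok) (M (nat_lit 519) (B (L (nat_lit 551) ln8_13_5_c10 ln8_13_5_c10_ok) (L (nat_lit 487) ln8_12_5_c10 ln8_12_5_c10_ok))))))))))) (M (nat_lit 392) (B (M (nat_lit 391) (B (L (nat_lit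 359) ln8_15_7_c10 ln8_15_7_c10_ok) (M (nat_lit 393) (B (L (nat_lit 390) ln6_12_0_c10 ln6_12_0_c10_ok) (L (nat_lit 361) ln8_15_6_c10 ln8_15_6_c10_ok))))) (M (nat_lit 455) (B (M (nat_lit 454) (B (L (nat_lit 457) ln6_14_2_c10 ln6_14_2_c10_ok) (L (nat_lit 453) ln5_14_2_c10 ln5_14_2_c10_ok))) (M (nat_lit 487) (B (L (nat_lit 519) ln8_12_5_c10 ln8_12_5_c10_ok) (L (nat_lit 360) ln8_11_5_c10 ln8_11_5_c10_ok))))))))))) (B (M (nat_lit 392) (B (M (nat_lit 427) (B (L (nat_lit 455) ln11_13_1_c10 ln11_13_1_c10_ok) (L (nat_lit 391) ln11_13_3 ln11_13_3_ok))) (B (M (nat_lit 488) (B (M (nat_lit 393) (B (L (nat_lit 520) ln8_16_6_c10 ln8_16_6_c10_ok) (L (nat_lit 361) ln8_15_6_c10 ln8_15_6_c10_ok))) (M (nat_lit 360) (B (M (nat_lit 487) (B (L (nat_lit 519) ln8_12_5_c10 ln8_12_5_c10_ok) (L (nat_lit 455) ln8_11_5_c10 ln8_11_5_c10_ok))) (M (nat_lit 359) (B (L (nat_lit 391) ln8_15_7_c10 ln8_15_7_c10_ok) (L (nat_lit 327) ln8_14_7_c10 ln8_14_7_c10_ok)))))))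 (B (M (nat_lit 393) (B (M (nat_lit 391) (B (L (nat_lit 427) ln11_13_3 ln11_13_3_ok) (L (nat_lit 390) ln6_12_0_c10 ln6_12_0_c10_ok))) (M (nat_lit 488) (B (L (nat_lit 520) ln8_16_6_c10 ln8_16_6_c10_ok) (L (nat_lit 361) ln8_15_6_c10 ln8_15_6_c10_ok))))) (M (nat_lit 455) (B (L (nat_lit 427) ln11_13_1_c10 ln11_13_1_c10_ok) (M (nat_lit 487) (B (L (nat_lit 360) ln8_11_5_c10 ln8_11_5_c10_ok) (M (nat_lit 519) (B (L (nat_lit 488) ln8_12_5_c10 ln8_12_5_c10_ok) (L (nat_lit 551) ln7_17_6_c10 ln7_17_6_c10_ok))))))))))) (M (nat_lit 392) (B (M (nat_lit 391) (B (L (nat_lit 427) ln11_13_3 ln11_13_3_ok) (M (nat_lit 390) (B (L (nat_lit 393) ln6_12_0_c10 ln6_12_0_c10_ok) (L (nat_lit 389) ln5_12_0_c10 ln5_12_0_c10_ok))))) (B (M (nat_lit 488) (B (M (nat_lit 393) (B (L (nat_lit 520) ln8_16_6_c10 ln8_16_6_c10_ok) (L (nat_lit 361) ln8_15_6_c10 ln8_15_6_c10_ok))) (B (M (nat_lit 520) (B (M (nat_lit 521) (B (L (nat_lit 553) ln8_13_4_c10 ln8_13_4_c10_ok) (L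 (nat_lit 489) ln8_12_4_c10 ln8_12_4_c10_ok))) (M (nat_lit 519) (B (L (nat_lit 551) ln8_13_5_c10 ln8_13_5_c10_ok) (L (nat_lit 487) ln8_12_5_c10 ln8_12_5_c10_ok))))) (M (nat_lit 360) (B (M (nat_lit 489) (B (L (nat_lit 521) ln8_12_4_c10 ln8_12_4_c10_ok) (L (nat_lit 457) ln8_11_4_c10 ln8_11_4_c10_ok))) (M (nat_lit 361) (B (L (nat_lit 393) ln8_15_6_c10 ln8_15_6_c10_ok) (L (nat_lit 329) ln8_14_6_c10 ln8_14_6_c10_ok)))))))) (M (nat_lit 391) (B (L (nat_lit 427) ln11_13_3 ln11_13_3_ok) (M (nat_lit 359) (B (L (nat_lit 488) ln8_15_7_c10 ln8_15_7_c10_ok) (M (nat_lit 327) (B (L (nat_lit 360) ln8_14_7_c10 ln8_14_7_c10_ok) (L (nat_lit 295) ln7_9_4_c10 ln7_9_4_c10_ok))))))))))))))))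
noncomputable def c10_d408 : Cert := (B (M (nat_lit 423) (B (M (nat_lit 427) (B (M (nat_lit 391) (B (L (nat_lit 392) ln11_13_3 ln11_13_3_ok) (L (nat_lit 390) ln10_13_3_c10 ln10_13_3_c10_ok))) (M (nat_lit 455) (B (L (nat_lit 456) ln11_13_1_c10 ln11_13_1_c10_ok) (L (nat_lit 454) ln10_13_1_c10 ln10_13_1_c10_ok))))) (B (M (nat_lit 422) (B (M (nat_lit 394) (B (L (nat_lit 395) ln7_13_2 ln7_13_2_ok) (L (nat_lit 393) ln6_13_2_c10 ln6_13_2_c10_ok))) (M (nat_lit 454) (B (L (nat_lit 455) ln10_13_1_c10 ln10_13_1_c10_ok) (L (nat_lit 453) ln9_13_1_c10 ln9_13_1_c10_ok))))) (M (nat_lit 427) (B (M (nat_lit 395) (B (L (nat_lit 396) ln8_13_2 ln8_13_2_ok) (L (nat_lit 394) ln7_13_2 ln7_13_2_ok))) (M (nat_lit 391) (B (L (nat_lit 392) ln11_13_3 ln11_13_3_ok) (L (nat_lit 390) ln10_13_3_c10 ln10_13_3_c10_ok)))))))) (B (M (nat_lit 423) (B (M (nat_lit 427) (B (L (nat_lit 459) ln8_13_0 ln8_13_0_ok) (M (nat_lit 455) (B (L (nat_lit 456) ln11_13_1_c10 ln11_13_1_c10_ok)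 (L (nat_lit 454) ln10_13_1_c10 ln10_13_1_c10_ok))))) (B (M (nat_lit 427) (B (M (nat_lit 391) (B (L (nat_lit 392) ln11_13_3 ln11_13_3_ok) (L (nat_lit 390) ln10_13_3_c10 ln10_13_3_c10_ok))) (M (nat_lit 455) (B (L (nat_lit 456) ln11_13_1_c10 ln11_13_1_c10_ok) (L (nat_lit 454) ln10_13_1_c10 ln10_13_1_c10_ok))))) (M (nat_lit 422) (B (M (nat_lit 458) (B (L (nat_lit 459) ln7_13_0 ln7_13_0_ok) (L (nat_lit 457) ln6_13_0_c10 ln6_13_0_c10_ok))) (M (nat_lit 390) (B (L (nat_lit 391) ln10_13_3_c10 ln10_13_3_c10_ok) (L (nat_lit 389) ln9_13_3_c10 ln9_13_3_c10_ok)))))))) (B (M (nat_lit 458) (B (L (nat_lit 459) ln13_14_3 ln13_14_3_ok) (M (nat_lit 394) (B (M (nat_lit 423) (B (L (nat_lit 395) ln7_13_2 ln7_13_2_ok) (M (nat_lit 422) (B (L (nat_lit 393) ln6_13_2_c10 ln6_13_2_c10_ok) (L (nat_lit 457) ln6_13_0_c10 ln6_13_0_c10_ok))))) (B (M (nat_lit 490) (B (M (nat_lit 393) (B (L (nat_lit 361) ln10_15_7 ln10_15_7_ok) (L (nat_lit 522) ln10_16_7 ln10_16_7_ok)))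 (B (M (nat_lit 362) (B (M (nat_lit 361) (B (L (nat_lit 329) ln10_14_7 ln10_14_7_ok) (L (nat_lit 393) ln10_15_7 ln10_15_7_ok))) (M (nat_lit 489) (B (L (nat_lit 457) ln10_11_5 ln10_11_5_ok) (L (nat_lit 521) ln10_12_5 ln10_12_5_ok))))) (B (M (nat_lit 522) (B (L (nat_lit 393) ln10_16_7 ln10_16_7_ok) (M (nat_lit 523) (B (L (nat_lit 491) ln10_12_4 ln10_12_4_ok) (L (nat_lit 555) ln10_13_4 ln10_13_4_ok))))) (M (nat_lit 522) (B (M (nat_lit 523) (B (L (nat_lit 491) ln10_12_4 ln10_12_4_ok) (L (nat_lit 555) ln10_13_4 ln10_13_4_ok))) (M (nat_lit 521) (B (L (nat_lit 489) ln10_12_5 ln10_12_5_ok) (L (nat_lit 553) ln10_13_5 ln10_13_5_ok))))))))) (B (M (nat_lit 457) (B (M (nat_lit 489) (B (L (nat_lit 362) ln10_11_5 ln10_11_5_ok) (L (nat_lit 521) ln9_16_6 ln9_16_6_ok))) (M (nat_lit 423) (B (L (nat_lit 395) ln7_13_2 ln7_13_2_ok) (L (nat_lit 422) ln6_13_0_c10 ln6_13_0_c10_ok))))) (M (nat_lit 393) (B (M (nat_lit 423) (B (L (nat_lit 395) ln7_13_2 ln7_13_2_ok)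 (L (nat_lit 422) ln6_13_2_c10 ln6_13_2_c10_ok))) (M (nat_lit 361) (B (L (nat_lit 490) ln10_15_7 ln10_15_7_ok) (L (nat_lit 329) ln9_10_4_c10 ln9_10_4_c10_ok))))))))))) (M (nat_lit 392) (B (M (nat_lit 391) (B (L (nat_lit 427) ln11_13_3 ln11_13_3_ok) (M (nat_lit 390) (B (L (nat_lit 393) ln6_12_0_c10 ln6_12_0_c10_ok) (L (nat_lit 389) ln5_12_0_c10 ln5_12_0_c10_ok))))) (B (M (nat_lit 360) (B (M (nat_lit 457) (B (L (nat_lit 328) ln8_10_4_c10 ln8_10_4_c10_ok) (M (nat_lit 489) (B (L (nat_lit 393) ln9_15_7 ln9_15_7_ok) (L (nat_lit 521) ln9_16_7 ln9_16_7_ok))))) (B (M (nat_lit 457) (B (L (nat_lit 328) ln8_10_4_c10 ln8_10_4_c10_ok) (M (nat_lit 489) (B (L (nat_lit 521) ln9_16_7 ln9_16_7_ok) (L (nat_lit 456) ln8_11_4_c10 ln8_11_4_c10_ok))))) (B (M (nat_lit 456) (B (M (nat_lit 361) (B (L (nat_lit 329) ln8_14_6_c10 ln8_14_6_c10_ok) (M (nat_lit 488) (B (L (nat_lit 393) ln8_15_6_c10 ln8_15_6_c10_ok) (M (nat_lit 487) (B (L (nat_lit 455) ln8_11_5_c10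 ln8_11_5_c10_ok) (L (nat_lit 519) ln8_12_5_c10 ln8_12_5_c10_ok))))))) (B (M (nat_lit 391) (B (M (nat_lit 390) (B (L (nat_lit 393) ln6_12_0_c10 ln6_12_0_c10_ok) (L (nat_lit 389) ln5_12_0_c10 ln5_12_0_c10_ok))) (M (nat_lit 359) (B (L (nat_lit 327) ln8_14_7_c10 ln8_14_7_c10_ok) (L (nat_lit 488) ln8_15_7_c10 ln8_15_7_c10_ok))))) (B (M (nat_lit 488) (B (M (nat_lit 359) (B (L (nat_lit 327) ln8_14_7_c10 ln8_14_7_c10_ok) (L (nat_lit 391) ln8_15_7_c10 ln8_15_7_c10_ok))) (M (nat_lit 487) (B (L (nat_lit 455) ln8_11_5_c10 ln8_11_5_c10_ok) (L (nat_lit 519) ln8_12_5_c10 ln8_12_5_c10_ok))))) (M (nat_lit 329) (B (L (nat_lit 361) ln8_14_6_c10 ln8_14_6_c10_ok) (M (nat_lit 328) (B (L (nat_lit 297) ln8_13_6_c10 ln8_13_6_c10_ok) (M (nat_lit 327) (B (L (nat_lit 295) ln8_13_7_c10 ln8_13_7_c10_ok) (L (nat_lit 359) ln8_14_7_c10 ln8_14_7_c10_ok))))))))))) (M (nat_lit 456) (B (M (nat_lit 455) (B (L (nat_lit 487) ln8_11_5_c10 ln8_11_5_c10_ok) (M (nat_lit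 457) (B (L (nat_lit 454) ln6_14_2_c10 ln6_14_2_c10_ok) (L (nat_lit 489) ln8_11_4_c10 ln8_11_4_c10_ok))))) (M (nat_lit 391) (B (M (nat_lit 390) (B (L (nat_lit 393) ln6_12_0_c10 ln6_12_0_c10_ok) (L (nat_lit 389) ln5_12_0_c10 ln5_12_0_c10_ok))) (M (nat_lit 359) (B (L (nat_lit 327) ln8_14_7_c10 ln8_14_7_c10_ok) (L (nat_lit 488) ln8_15_7_c10 ln8_15_7_c10_ok))))))))))) (B (K (nat_lit 20839919904693236361017951923242756075483892719466838895720597638634714598240273535594304088719652479526788266410067758171756391238054445056) (nat_lit 1716199417829739130526369414758625748909532004803017721387963871152080294274089107315921667895477669923981697467296649476579349628002887434581297900065652736) (nat_lit 1716199417829739130526369414758625748909532004803017721387963871152080294274089107315921667895477669923981697467296649476579349628002887434581297900065652736) c10_s246) (M (nat_lit 456) (B (M (nat_lit 455) (B (L (nat_lit 427) ln11_13_1_c10 ln11_13_1_c10_ok)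 (M (nat_lit 454) (B (L (nat_lit 457) ln6_14_2_c10 ln6_14_2_c10_ok) (L (nat_lit 453) ln5_14_2_c10 ln5_14_2_c10_ok))))) (B (K (nat_lit 21025990618112911724998578818062085236278424907802792319152659129624958255997303403965808997702375952310343471941271899722741249254979796992) (nat_lit 6864797662528112601996724259621810617732014639777660976948534808930672709916156238518627513376576013233213143973427041946188525139964071549585426822081806336) (nat_lit 6864797662528112601996724259621810617732014639777660976948534808930672709916156238518627513376576013233213143973427041946188525139964071549585426822081806336) c10_s247) (M (nat_lit 455) (B (L (nat_lit 427) ln11_13_1_c10 ln11_13_1_c10_ok) (M (nat_lit 487) (B (L (nat_lit 360) ln8_11_5_c10 ln8_11_5_c10_ok) (M (nat_lit 519) (B (L (nat_lit 488) ln8_12_5_c10 ln8_12_5_c10_ok) (L (nat_lit 551) ln7_17_6_c10 ln7_17_6_c10_ok)))))))))))))))))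
noncomputable def c10_d409 : Cert := (B (M (nat_lit 330) (B (L (nat_lit 298) ln10_9_5_c10 ln10_9_5_c10_ok) (M (nat_lit 458) (B (M (nat_lit 490) (B (L (nat_lit 361) ln10_15_7 ln10_15_7_ok) (L (nat_lit 522) ln10_16_7 ln10_16_7_ok))) (M (nat_lit 331) (B (L (nat_lit 299) ln10_13_6 ln10_13_6_ok) (L (nat_lit 363) ln10_14_6 ln10_14_6_ok))))))) (B (M (nat_lit 330) (B (L (nat_lit 298) ln10_9_5_c10 ln10_9_5_c10_ok) (M (nat_lit 329) (B (L (nat_lit 297) ln10_13_7_c10 ln10_13_7_c10_ok) (M (nat_lit 331) (B (L (nat_lit 299) ln10_13_6 ln10_13_6_ok) (M (nat_lit 363) (B (L (nat_lit 458) ln10_14_6 ln10_14_6_ok) (M (nat_lit 328) (B (L (nat_lit 327) ln7_10_0_c10 ln7_10_0_c10_ok) (L (nat_lit 364) ln8_10_0 ln8_10_0_ok))))))))))) (B (M (nat_lit 330) (B (M (nat_lit 331) (B (L (nat_lit 299) ln10_13_6 ln10_13_6_ok) (M (nat_lit 458) (B (L (nat_lit 363) ln10_14_6 ln10_14_6_ok) (M (nat_lit 329) (B (L (nat_lit 297) ln10_13_7_c10 ln10_13_7_c10_ok) (L (nat_lit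 361) ln9_10_4_c10 ln9_10_4_c10_ok))))))) (B (M (nat_lit 458) (B (M (nat_lit 361) (B (L (nat_lit 329) ln9_10_4_c10 ln9_10_4_c10_ok) (L (nat_lit 490) ln10_15_7 ln10_15_7_ok))) (M (nat_lit 331) (B (L (nat_lit 299) ln10_13_6 ln10_13_6_ok) (L (nat_lit 363) ln10_14_6 ln10_14_6_ok))))) (B (M (nat_lit 458) (B (M (nat_lit 490) (B (L (nat_lit 361) ln10_15_7 ln10_15_7_ok) (L (nat_lit 522) ln10_16_7 ln10_16_7_ok))) (M (nat_lit 331) (B (L (nat_lit 299) ln10_13_6 ln10_13_6_ok) (L (nat_lit 363) ln10_14_6 ln10_14_6_ok))))) (B (M (nat_lit 329) (B (L (nat_lit 297) ln10_13_7_c10 ln10_13_7_c10_ok) (M (nat_lit 331) (B (L (nat_lit 299) ln10_13_6 ln10_13_6_ok) (M (nat_lit 363) (B (L (nat_lit 458) ln10_14_6 ln10_14_6_ok) (M (nat_lit 328) (B (L (nat_lit 327) ln7_10_0_c10 ln7_10_0_c10_ok) (L (nat_lit 364) ln8_10_0 ln8_10_0_ok))))))))) (B (M (nat_lit 331) (B (L (nat_lit 299) ln10_13_6 ln10_13_6_ok) (M (nat_lit 329) (B (L (nat_lit 297) ln10_13_7_c10 ln10_13_7_c10_ok)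 (M (nat_lit 328) (B (M (nat_lit 296) (B (L (nat_lit 295) ln11_10_3_c10 ln11_10_3_c10_ok) (L (nat_lit 361) ln9_13_7_c10 ln9_13_7_c10_ok))) (M (nat_lit 363) (B (L (nat_lit 327) ln7_10_0_c10 ln7_10_0_c10_ok) (L (nat_lit 364) ln8_10_0 ln8_10_0_ok))))))))) (B (M (nat_lit 329) (B (L (nat_lit 297) ln10_13_7_c10 ln10_13_7_c10_ok) (M (nat_lit 361) (B (L (nat_lit 458) ln9_10_4_c10 ln9_10_4_c10_ok) (M (nat_lit 328) (B (L (nat_lit 296) ln9_13_7_c10 ln9_13_7_c10_ok) (M (nat_lit 327) (B (L (nat_lit 326) ln6_10_0_c10 ln6_10_0_c10_ok) (L (nat_lit 363) ln7_10_0_c10 ln7_10_0_c10_ok))))))))) (M (nat_lit 329) (B (L (nat_lit 297) ln10_13_7_c10 ln10_13_7_c10_ok) (M (nat_lit 361) (B (L (nat_lit 458) ln9_10_4_c10 ln9_10_4_c10_ok) (M (nat_lit 331) (B (L (nat_lit 299) ln10_13_6 ln10_13_6_ok) (M (nat_lit 360) (B (L (nat_lit 359) ln7_11_2 ln7_11_2_ok) (L (nat_lit 332) ln12_10_1 ln12_10_1_ok)))))))))))))))) (B (M (nat_lit 361) (B (M (nat_lit 329) (B (L (nat_lit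 297) ln9_9_4_c10 ln9_9_4_c10_ok) (L (nat_lit 458) ln9_10_4_c10 ln9_10_4_c10_ok))) (B (M (nat_lit 458) (B (L (nat_lit 329) ln9_10_4_c10 ln9_10_4_c10_ok) (L (nat_lit 490) ln10_15_7 ln10_15_7_ok))) (B (M (nat_lit 363) (B (L (nat_lit 364) ln13_11_1 ln13_11_1_ok) (M (nat_lit 458) (B (L (nat_lit 490) ln10_15_7 ln10_15_7_ok) (L (nat_lit 331) ln10_14_6 ln10_14_6_ok))))) (M (nat_lit 329) (B (L (nat_lit 297) ln9_9_4_c10 ln9_9_4_c10_ok) (M (nat_lit 328) (B (L (nat_lit 296) ln9_13_7_c10 ln9_13_7_c10_ok) (M (nat_lit 363) (B (L (nat_lit 364) ln12_11_3 ln12_11_3_ok) (M (nat_lit 327) (B (L (nat_lit 326) ln6_10_0_c10 ln6_10_0_c10_ok) (L (nat_lit 360) ln11_11_3 ln11_11_3_ok))))))))))))) (B (M (nat_lit 361) (B (M (nat_lit 329) (B (L (nat_lit 297) ln9_9_4_c10 ln9_9_4_c10_ok) (M (nat_lit 330) (B (L (nat_lit 298) ln10_9_5_c10 ln10_9_5_c10_ok) (M (nat_lit 328) (B (L (nat_lit 296) ln9_13_7_c10 ln9_13_7_c10_ok) (M (nat_lit 327) (B (L (nat_lit 326) ln6_10_0_c10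 ln6_10_0_c10_ok) (L (nat_lit 363) ln7_10_0_c10 ln7_10_0_c10_ok))))))))) (B (M (nat_lit 329) (B (L (nat_lit 297) ln9_9_4_c10 ln9_9_4_c10_ok) (M (nat_lit 330) (B (L (nat_lit 298) ln10_9_5_c10 ln10_9_5_c10_ok) (M (nat_lit 328) (B (L (nat_lit 296) ln9_13_7_c10 ln9_13_7_c10_ok) (M (nat_lit 363) (B (L (nat_lit 327) ln7_10_0_c10 ln7_10_0_c10_ok) (L (nat_lit 364) ln12_11_3 ln12_11_3_ok))))))))) (B (M (nat_lit 329) (B (L (nat_lit 297) ln9_9_4_c10 ln9_9_4_c10_ok) (M (nat_lit 330) (B (L (nat_lit 298) ln10_9_5_c10 ln10_9_5_c10_ok) (M (nat_lit 331) (B (L (nat_lit 299) ln10_13_6 ln10_13_6_ok) (M (nat_lit 360) (B (L (nat_lit 359) ln7_11_2 ln7_11_2_ok) (L (nat_lit 332) ln12_10_1 ln12_10_1_ok))))))))) (B (M (nat_lit 330) (B (L (nat_lit 298) ln10_9_5_c10 ln10_9_5_c10_ok) (M (nat_lit 331) (B (L (nat_lit 299) ln10_13_6 ln10_13_6_ok) (M (nat_lit 360) (B (L (nat_lit 359) ln7_11_2 ln7_11_2_ok) (M (nat_lit 332) (B (L (nat_lit 329) ln12_10_1 ln12_10_1_ok)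 (L (nat_lit 363) ln8_11_2 ln8_11_2_ok))))))))) (B (M (nat_lit 330) (B (L (nat_lit 298) ln10_9_5_c10 ln10_9_5_c10_ok) (M (nat_lit 331) (B (L (nat_lit 299) ln10_13_6 ln10_13_6_ok) (M (nat_lit 363) (B (M (nat_lit 360) (B (L (nat_lit 359) ln7_11_2 ln7_11_2_ok) (L (nat_lit 332) ln8_11_2 ln8_11_2_ok))) (L (nat_lit 364) ln13_11_1 ln13_11_1_ok))))))) (M (nat_lit 329) (B (L (nat_lit 297) ln9_9_4_c10 ln9_9_4_c10_ok) (M (nat_lit 328) (B (L (nat_lit 296) ln9_13_7_c10 ln9_13_7_c10_ok) (M (nat_lit 363) (B (L (nat_lit 364) ln12_11_3 ln12_11_3_ok) (M (nat_lit 327) (B (L (nat_lit 326) ln6_10_0_c10 ln6_10_0_c10_ok) (L (nat_lit 360) ln11_11_3 ln11_11_3_ok))))))))))))))) (B (M (nat_lit 330) (B (L (nat_lit 298) ln10_9_5_c10 ln10_9_5_c10_ok) (M (nat_lit 329) (B (L (nat_lit 297) ln10_13_7_c10 ln10_13_7_c10_ok) (M (nat_lit 361) (B (L (nat_lit 458) ln9_10_4_c10 ln9_10_4_c10_ok) (M (nat_lit 328) (B (L (nat_lit 296) ln9_13_7_c10 ln9_13_7_c10_ok) (M (nat_lit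 327) (B (L (nat_lit 326) ln6_10_0_c10 ln6_10_0_c10_ok) (L (nat_lit 363) ln7_10_0_c10 ln7_10_0_c10_ok))))))))))) (M (nat_lit 330) (B (L (nat_lit 298) ln10_9_5_c10 ln10_9_5_c10_ok) (M (nat_lit 329) (B (L (nat_lit 297) ln10_13_7_c10 ln10_13_7_c10_ok) (M (nat_lit 361) (B (L (nat_lit 458) ln9_10_4_c10 ln9_10_4_c10_ok) (M (nat_lit 331) (B (L (nat_lit 299) ln10_13_6 ln10_13_6_ok) (M (nat_lit 360) (B (L (nat_lit 359) ln7_11_2 ln7_11_2_ok) (L (nat_lit 332) ln12_10_1 ln12_10_1_ok)))))))))))))))))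
noncomputable def c10_d410 : Cert := (B (M (nat_lit 359) (B (M (nat_lit 363) (B (L (nat_lit 331) ln10_14_6 ln10_14_6_ok) (M (nat_lit 327) (B (L (nat_lit 326) ln10_11_3 ln10_11_3_ok) (L (nat_lit 328) ln11_11_3 ln11_11_3_ok))))) (M (nat_lit 358) (B (L (nat_lit 393) ln6_11_0_c10 ln6_11_0_c10_ok) (M (nat_lit 390) (B (L (nat_lit 389) ln9_11_1_c10 ln9_11_1_c10_ok) (L (nat_lit 391) ln10_11_1 ln10_11_1_ok))))))) (B (M (nat_lit 359) (B (M (nat_lit 393) (B (L (nat_lit 358) ln6_11_0_c10 ln6_11_0_c10_ok) (M (nat_lit 457) (B (L (nat_lit 328) ln9_14_7_c10 ln9_14_7_c10_ok) (L (nat_lit 489) ln10_11_5 ln10_11_5_ok))))) (B (M (nat_lit 423) (B (M (nat_lit 422) (B (L (nat_lit 393) ln6_13_2_c10 ln6_13_2_c10_ok) (L (nat_lit 457) ln6_13_0_c10 ln6_13_0_c10_ok))) (M (nat_lit 391) (B (L (nat_lit 390) ln10_11_1 ln10_11_1_ok) (M (nat_lit 327) (B (L (nat_lit 326) ln10_11_3 ln10_11_3_ok) (L (nat_lit 456) ln7_10_4_c10 ln7_10_4_c10_ok))))))) (B (M (nat_lit 423)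 (B (M (nat_lit 457) (B (L (nat_lit 422) ln6_13_0_c10 ln6_13_0_c10_ok) (L (nat_lit 489) ln10_11_5 ln10_11_5_ok))) (M (nat_lit 391) (B (L (nat_lit 390) ln10_11_1 ln10_11_1_ok) (M (nat_lit 327) (B (L (nat_lit 326) ln10_11_3 ln10_11_3_ok) (L (nat_lit 456) ln7_10_4_c10 ln7_10_4_c10_ok))))))) (M (nat_lit 358) (B (L (nat_lit 393) ln6_11_0_c10 ln6_11_0_c10_ok) (M (nat_lit 390) (B (L (nat_lit 389) ln9_11_1_c10 ln9_11_1_c10_ok) (L (nat_lit 391) ln10_11_1 ln10_11_1_ok))))))))) (B (M (nat_lit 393) (B (M (nat_lit 457) (B (L (nat_lit 328) ln9_14_7_c10 ln9_14_7_c10_ok) (L (nat_lit 489) ln10_11_5 ln10_11_5_ok))) (M (nat_lit 390) (B (M (nat_lit 359) (B (L (nat_lit 358) ln6_11_0_c10 ln6_11_0_c10_ok) (L (nat_lit 391) ln10_11_1 ln10_11_1_ok))) (B (M (nat_lit 391) (B (L (nat_lit 359) ln10_11_1 ln10_11_1_ok) (L (nat_lit 423) ln10_13_3_c10 ln10_13_3_c10_ok))) (B (M (nat_lit 423) (B (L (nat_lit 391) ln10_13_3_c10 ln10_13_3_c10_ok) (L (nat_lit 422) ln6_13_2_c10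 ln6_13_2_c10_ok))) (M (nat_lit 358) (B (L (nat_lit 359) ln6_11_0_c10 ln6_11_0_c10_ok) (M (nat_lit 422) (B (L (nat_lit 423) ln6_13_2_c10 ln6_13_2_c10_ok) (M (nat_lit 326) (B (M (nat_lit 293) (B (L (nat_lit 325) ln6_13_7_c10 ln6_13_7_c10_ok) (M (nat_lit 294) (B (L (nat_lit 261) ln6_12_7_c10 ln6_12_7_c10_ok) (M (nat_lit 421) (B (L (nat_lit 389) ln6_9_5_c10 ln6_9_5_c10_ok) (L (nat_lit 453) ln6_10_5_c10 ln6_10_5_c10_ok))))))) (B (M (nat_lit 453) (B (L (nat_lit 421) ln6_10_5_c10 ln6_10_5_c10_ok) (M (nat_lit 325) (B (L (nat_lit 293) ln6_13_7_c10 ln6_13_7_c10_ok) (M (nat_lit 454) (B (L (nat_lit 357) ln6_14_7_c10 ln6_14_7_c10_ok) (L (nat_lit 485) ln6_11_5_c10 ln6_11_5_c10_ok))))))) (B (M (nat_lit 454) (B (M (nat_lit 453) (B (L (nat_lit 421) ln6_10_5_c10 ln6_10_5_c10_ok) (L (nat_lit 485) ln6_11_5_c10 ln6_11_5_c10_ok))) (B (M (nat_lit 486) (B (M (nat_lit 357) (B (L (nat_lit 325) ln6_14_7_c10 ln6_14_7_c10_ok) (L (nat_lit 389) ln6_15_7_c10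 ln6_15_7_c10_ok))) (M (nat_lit 485) (B (L (nat_lit 453) ln6_11_5_c10 ln6_11_5_c10_ok) (L (nat_lit 517) ln6_12_5_c10 ln6_12_5_c10_ok))))) (B (M (nat_lit 486) (B (M (nat_lit 357) (B (L (nat_lit 325) ln6_14_7_c10 ln6_14_7_c10_ok) (L (nat_lit 389) ln6_15_7_c10 ln6_15_7_c10_ok))) (M (nat_lit 518) (B (M (nat_lit 517) (B (L (nat_lit 485) ln6_12_5_c10 ln6_12_5_c10_ok) (L (nat_lit 549) ln6_13_5_c10 ln6_13_5_c10_ok))) (M (nat_lit 519) (B (L (nat_lit 487) ln6_12_4_c10 ln6_12_4_c10_ok) (L (nat_lit 551) ln6_13_4_c10 ln6_13_4_c10_ok))))))) (M (nat_lit 389) (B (M (nat_lit 357) (B (L (nat_lit 325) ln6_14_7_c10 ln6_14_7_c10_ok) (L (nat_lit 486) ln6_15_7_c10 ln6_15_7_c10_ok))) (M (nat_lit 421) (B (L (nat_lit 294) ln6_9_5_c10 ln6_9_5_c10_ok) (L (nat_lit 453) ln6_10_5_c10 ln6_10_5_c10_ok))))))))) (B (M (nat_lit 294) (B (M (nat_lit 421) (B (L (nat_lit 389) ln6_9_5_c10 ln6_9_5_c10_ok) (L (nat_lit 453) ln6_10_5_c10 ln6_10_5_c10_ok))) (M (nat_lit 262)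 (B (M (nat_lit 261) (B (L (nat_lit 229) ln6_11_7_c10 ln6_11_7_c10_ok) (L (nat_lit 293) ln6_12_7_c10 ln6_12_7_c10_ok))) (M (nat_lit 263) (B (L (nat_lit 231) ln6_11_6_c10 ln6_11_6_c10_ok) (L (nat_lit 295) ln6_12_6_c10 ln6_12_6_c10_ok))))))) (M (nat_lit 294) (B (M (nat_lit 293) (B (L (nat_lit 261) ln6_12_7_c10 ln6_12_7_c10_ok) (L (nat_lit 325) ln6_13_7_c10 ln6_13_7_c10_ok))) (B (M (nat_lit 325) (B (L (nat_lit 293) ln6_13_7_c10 ln6_13_7_c10_ok) (M (nat_lit 357) (B (L (nat_lit 454) ln6_14_7_c10 ln6_14_7_c10_ok) (M (nat_lit 262) (B (L (nat_lit 230) ln6_7_5_c10 ln6_7_5_c10_ok) (L (nat_lit 389) ln6_8_5_c10 ln6_8_5_c10_ok))))))) (B (M (nat_lit 262) (B (M (nat_lit 263) (B (L (nat_lit 231) ln6_11_6_c10 ln6_11_6_c10_ok) (L (nat_lit 295) ln6_12_6_c10 ln6_12_6_c10_ok))) (M (nat_lit 357) (B (L (nat_lit 389) ln6_8_5_c10 ln6_8_5_c10_ok) (M (nat_lit 325) (B (L (nat_lit 230) ln6_7_5_c10 ln6_7_5_c10_ok) (L (nat_lit 454) ln6_14_7_c10 ln6_14_7_c10_ok)))))))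 (M (nat_lit 262) (B (M (nat_lit 261) (B (L (nat_lit 229) ln6_11_7_c10 ln6_11_7_c10_ok) (L (nat_lit 293) ln6_12_7_c10 ln6_12_7_c10_ok))) (M (nat_lit 263) (B (L (nat_lit 231) ln6_11_6_c10 ln6_11_6_c10_ok) (L (nat_lit 295) ln6_12_6_c10 ln6_12_6_c10_ok)))))))))))))))))))))))) (B (M (nat_lit 423) (B (M (nat_lit 457) (B (L (nat_lit 422) ln6_13_0_c10 ln6_13_0_c10_ok) (L (nat_lit 489) ln10_11_5 ln10_11_5_ok))) (M (nat_lit 391) (B (L (nat_lit 390) ln10_13_3_c10 ln10_13_3_c10_ok) (M (nat_lit 327) (B (M (nat_lit 359) (B (L (nat_lit 326) ln10_11_3 ln10_11_3_ok) (L (nat_lit 456) ln7_10_4_c10 ln7_10_4_c10_ok))) (M (nat_lit 363) (B (L (nat_lit 328) ln11_11_3 ln11_11_3_ok) (L (nat_lit 331) ln10_14_6 ln10_14_6_ok))))))))) (M (nat_lit 423) (B (M (nat_lit 422) (B (L (nat_lit 393) ln6_13_2_c10 ln6_13_2_c10_ok) (L (nat_lit 457) ln6_13_0_c10 ln6_13_0_c10_ok))) (B (M (nat_lit 359) (B (M (nat_lit 358) (B (L (nat_lit 393) ln6_11_0_c10 ln6_11_0_c10_ok)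 (M (nat_lit 390) (B (L (nat_lit 389) ln9_11_1_c10 ln9_11_1_c10_ok) (L (nat_lit 391) ln10_11_1 ln10_11_1_ok))))) (B (M (nat_lit 358) (B (L (nat_lit 393) ln6_11_0_c10 ln6_11_0_c10_ok) (M (nat_lit 326) (B (L (nat_lit 325) ln9_11_3_c10 ln9_11_3_c10_ok) (L (nat_lit 327) ln10_11_3 ln10_11_3_ok))))) (M (nat_lit 391) (B (L (nat_lit 390) ln10_11_1 ln10_11_1_ok) (M (nat_lit 327) (B (L (nat_lit 326) ln10_11_3 ln10_11_3_ok) (L (nat_lit 456) ln7_10_4_c10 ln7_10_4_c10_ok)))))))) (M (nat_lit 457) (B (L (nat_lit 422) ln6_13_0_c10 ln6_13_0_c10_ok) (L (nat_lit 489) ln10_11_5 ln10_11_5_ok))))))))))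
noncomputable def c10_d411 : Cert := (B (M (nat_lit 362) (B (M (nat_lit 457) (B (L (nat_lit 330) ln10_10_5 ln10_10_5_ok) (M (nat_lit 489) (B (L (nat_lit 393) ln9_15_6 ln9_15_6_ok) (L (nat_lit 521) ln9_16_6 ln9_16_6_ok))))) (B (M (nat_lit 458) (B (M (nat_lit 490) (B (M (nat_lit 361) (B (L (nat_lit 329) ln10_14_7 ln10_14_7_ok) (L (nat_lit 393) ln10_15_7 ln10_15_7_ok))) (M (nat_lit 489) (B (L (nat_lit 457) ln10_11_5 ln10_11_5_ok) (L (nat_lit 521) ln10_12_5 ln10_12_5_ok))))) (B (M (nat_lit 490) (B (M (nat_lit 361) (B (L (nat_lit 329) ln10_14_7 ln10_14_7_ok) (L (nat_lit 393) ln10_15_7 ln10_15_7_ok))) (B (M (nat_lit 393) (B (L (nat_lit 361) ln10_15_7 ln10_15_7_ok) (L (nat_lit 522) ln10_16_7 ln10_16_7_ok))) (B (M (nat_lit 522) (B (L (nat_lit 393) ln10_16_7 ln10_16_7_ok) (M (nat_lit 521) (B (L (nat_lit 489) ln10_12_5 ln10_12_5_ok) (L (nat_lit 553) ln10_13_5 ln10_13_5_ok))))) (M (nat_lit 522) (B (M (nat_lit 521) (B (L (nat_lit 489) ln10_12_5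 ln10_12_5_ok) (L (nat_lit 553) ln10_13_5 ln10_13_5_ok))) (M (nat_lit 523) (B (L (nat_lit 491) ln10_12_4 ln10_12_4_ok) (L (nat_lit 555) ln10_13_4 ln10_13_4_ok))))))))) (B (M (nat_lit 490) (B (M (nat_lit 361) (B (L (nat_lit 329) ln10_14_7 ln10_14_7_ok) (L (nat_lit 393) ln10_15_7 ln10_15_7_ok))) (B (M (nat_lit 393) (B (L (nat_lit 361) ln10_15_7 ln10_15_7_ok) (L (nat_lit 522) ln10_16_7 ln10_16_7_ok))) (B (M (nat_lit 522) (B (L (nat_lit 393) ln10_16_7 ln10_16_7_ok) (M (nat_lit 523) (B (L (nat_lit 491) ln10_12_4 ln10_12_4_ok) (L (nat_lit 555) ln10_13_4 ln10_13_4_ok))))) (M (nat_lit 522) (B (M (nat_lit 523) (B (L (nat_lit 491) ln10_12_4 ln10_12_4_ok) (L (nat_lit 555) ln10_13_4 ln10_13_4_ok))) (M (nat_lit 553) (B (L (nat_lit 521) ln10_13_5 ln10_13_5_ok) (M (nat_lit 554) (B (L (nat_lit 457) ln10_17_7 ln10_17_7_ok) (L (nat_lit 585) ln10_14_5 ln10_14_5_ok))))))))))) (B (M (nat_lit 490) (B (M (nat_lit 489) (B (L (nat_lit 457) ln10_11_5 ln10_11_5_ok)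 (L (nat_lit 521) ln10_12_5 ln10_12_5_ok))) (M (nat_lit 522) (B (L (nat_lit 393) ln10_16_7 ln10_16_7_ok) (M (nat_lit 523) (B (L (nat_lit 491) ln10_12_4 ln10_12_4_ok) (L (nat_lit 555) ln10_13_4 ln10_13_4_ok))))))) (B (M (nat_lit 361) (B (L (nat_lit 329) ln10_14_7 ln10_14_7_ok) (M (nat_lit 360) (B (M (nat_lit 328) (B (M (nat_lit 363) (B (L (nat_lit 327) ln11_11_3 ln11_11_3_ok) (L (nat_lit 331) ln10_14_6 ln10_14_6_ok))) (M (nat_lit 457) (B (L (nat_lit 393) ln9_14_7_c10 ln9_14_7_c10_ok) (L (nat_lit 489) ln10_11_5 ln10_11_5_ok))))) c10_d410)))) (M (nat_lit 490) (B (M (nat_lit 489) (B (L (nat_lit 457) ln10_11_5 ln10_11_5_ok) (L (nat_lit 521) ln10_12_5 ln10_12_5_ok))) (B (M (nat_lit 522) (B (M (nat_lit 521) (B (L (nat_lit 489) ln10_12_5 ln10_12_5_ok) (L (nat_lit 553) ln10_13_5 ln10_13_5_ok))) (M (nat_lit 523) (B (L (nat_lit 491) ln10_12_4 ln10_12_4_ok) (L (nat_lit 555) ln10_13_4 ln10_13_4_ok))))) (B (M (nat_lit 522) (B (M (nat_lit 523)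 (B (L (nat_lit 491) ln10_12_4 ln10_12_4_ok) (L (nat_lit 555) ln10_13_4 ln10_13_4_ok))) (M (nat_lit 553) (B (L (nat_lit 521) ln10_13_5 ln10_13_5_ok) (M (nat_lit 554) (B (L (nat_lit 457) ln10_17_7 ln10_17_7_ok) (L (nat_lit 585) ln10_14_5 ln10_14_5_ok))))))) (M (nat_lit 522) (B (M (nat_lit 457) (B (L (nat_lit 554) ln10_17_7 ln10_17_7_ok) (L (nat_lit 489) ln10_11_5 ln10_11_5_ok))) (M (nat_lit 523) (B (L (nat_lit 491) ln10_12_4 ln10_12_4_ok) (L (nat_lit 555) ln10_13_4 ln10_13_4_ok))))))))))))))) (B (M (nat_lit 330) (B (M (nat_lit 298) (B (L (nat_lit 393) ln10_9_5_c10 ln10_9_5_c10_ok) (M (nat_lit 297) (B (L (nat_lit 265) ln10_12_7_c10 ln10_12_7_c10_ok) (L (nat_lit 329) ln10_13_7_c10 ln10_13_7_c10_ok))))) (B (M (nat_lit 298) (B (L (nat_lit 393) ln10_9_5_c10 ln10_9_5_c10_ok) (M (nat_lit 299) (B (L (nat_lit 267) ln10_12_6_c10 ln10_12_6_c10_ok) (L (nat_lit 331) ln10_13_6 ln10_13_6_ok))))) (M (nat_lit 458) (B (M (nat_lit 329) (B (L (nat_lit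 297) ln10_13_7_c10 ln10_13_7_c10_ok) (L (nat_lit 361) ln10_14_7 ln10_14_7_ok))) (M (nat_lit 331) (B (L (nat_lit 299) ln10_13_6 ln10_13_6_ok) (L (nat_lit 363) ln10_14_6 ln10_14_6_ok)))))))) (M (nat_lit 457) (B (L (nat_lit 330) ln10_10_5 ln10_10_5_ok) (M (nat_lit 489) (B (L (nat_lit 521) ln9_16_6 ln9_16_6_ok) (L (nat_lit 458) ln10_11_5 ln10_11_5_ok))))))))) (M (nat_lit 362) (B (M (nat_lit 457) (B (L (nat_lit 330) ln10_10_5 ln10_10_5_ok) (M (nat_lit 489) (B (L (nat_lit 393) ln9_15_6 ln9_15_6_ok) (L (nat_lit 521) ln9_16_6 ln9_16_6_ok))))) (B (M (nat_lit 457) (B (L (nat_lit 330) ln10_10_5 ln10_10_5_ok) (M (nat_lit 489) (B (L (nat_lit 521) ln9_16_6 ln9_16_6_ok) (L (nat_lit 458) ln10_11_5 ln10_11_5_ok))))) (B (M (nat_lit 330) (B (M (nat_lit 298) (B (L (nat_lit 393) ln10_9_5_c10 ln10_9_5_c10_ok) (M (nat_lit 299) (B (L (nat_lit 267) ln10_12_6_c10 ln10_12_6_c10_ok) (L (nat_lit 331) ln10_13_6 ln10_13_6_ok))))) (B (M (nat_lit 458) (B (M (nat_lit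 329) (B (L (nat_lit 297) ln10_13_7_c10 ln10_13_7_c10_ok) (L (nat_lit 361) ln10_14_7 ln10_14_7_ok))) (M (nat_lit 331) (B (L (nat_lit 299) ln10_13_6 ln10_13_6_ok) (L (nat_lit 363) ln10_14_6 ln10_14_6_ok))))) (M (nat_lit 395) (B (M (nat_lit 393) (B (L (nat_lit 396) ln12_12_1 ln12_12_1_ok) (L (nat_lit 298) ln10_9_5_c10 ln10_9_5_c10_ok))) (B (M (nat_lit 427) (B (L (nat_lit 396) ln13_12_1 ln13_12_1_ok) (L (nat_lit 298) ln10_9_4 ln10_9_4_ok))) (B (L (nat_lit 396) ln13_12_1 ln13_12_1_ok) (M (nat_lit 298) (B (L (nat_lit 393) ln10_9_5_c10 ln10_9_5_c10_ok) (L (nat_lit 427) ln10_9_4 ln10_9_4_ok)))))))))) (M (nat_lit 361) (B (M (nat_lit 329) (B (L (nat_lit 458) ln10_14_7 ln10_14_7_ok) (M (nat_lit 393) (B (L (nat_lit 456) ln9_10_5_c10 ln9_10_5_c10_ok) (L (nat_lit 297) ln9_9_4_c10 ln9_9_4_c10_ok))))) (B (M (nat_lit 458) (B (L (nat_lit 329) ln10_14_7 ln10_14_7_ok) (M (nat_lit 489) (B (L (nat_lit 457) ln10_11_5 ln10_11_5_ok) (M (nat_lit 490) (B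 (L (nat_lit 393) ln10_15_7 ln10_15_7_ok) (L (nat_lit 521) ln10_12_5 ln10_12_5_ok))))))) (B (M (nat_lit 458) (B (M (nat_lit 489) (B (L (nat_lit 457) ln10_11_5 ln10_11_5_ok) (M (nat_lit 490) (B (L (nat_lit 393) ln10_15_7 ln10_15_7_ok) (L (nat_lit 521) ln10_12_5 ln10_12_5_ok))))) (B (M (nat_lit 490) (B (M (nat_lit 489) (B (L (nat_lit 457) ln10_11_5 ln10_11_5_ok) (L (nat_lit 521) ln10_12_5 ln10_12_5_ok))) (M (nat_lit 363) (B (L (nat_lit 331) ln10_14_6 ln10_14_6_ok) (L (nat_lit 395) ln10_15_6 ln10_15_6_ok))))) (B (M (nat_lit 490) (B (L (nat_lit 393) ln10_15_7 ln10_15_7_ok) (M (nat_lit 363) (B (L (nat_lit 331) ln10_14_6 ln10_14_6_ok) (L (nat_lit 395) ln10_15_6 ln10_15_6_ok))))) (M (nat_lit 360) (B (M (nat_lit 395) (B (L (nat_lit 359) ln7_11_0 ln7_11_0_ok) (M (nat_lit 363) (B (L (nat_lit 396) ln8_11_0 ln8_11_0_ok) (L (nat_lit 331) ln10_14_6 ln10_14_6_ok))))) (B (M (nat_lit 328) (B (M (nat_lit 363) (B (L (nat_lit 327) ln11_11_3 ln11_11_3_ok)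 (L (nat_lit 331) ln10_14_6 ln10_14_6_ok))) (M (nat_lit 457) (B (L (nat_lit 393) ln9_14_7_c10 ln9_14_7_c10_ok) (L (nat_lit 489) ln10_11_5 ln10_11_5_ok))))) (M (nat_lit 395) (B (L (nat_lit 359) ln7_11_0 ln7_11_0_ok) (L (nat_lit 396) ln13_12_1 ln13_12_1_ok)))))))))) (B (M (nat_lit 395) (B (L (nat_lit 396) ln13_12_1 ln13_12_1_ok) (M (nat_lit 458) (B (L (nat_lit 329) ln10_14_7 ln10_14_7_ok) (M (nat_lit 363) (B (L (nat_lit 331) ln10_14_6 ln10_14_6_ok) (L (nat_lit 490) ln10_15_6 ln10_15_6_ok))))))) (M (nat_lit 393) (B (M (nat_lit 329) (B (L (nat_lit 456) ln9_10_5_c10 ln9_10_5_c10_ok) (L (nat_lit 297) ln9_9_4_c10 ln9_9_4_c10_ok))) (M (nat_lit 360) (B (M (nat_lit 395) (B (L (nat_lit 359) ln7_11_0 ln7_11_0_ok) (L (nat_lit 396) ln12_12_1 ln12_12_1_ok))) (M (nat_lit 457) (B (L (nat_lit 328) ln9_14_7_c10 ln9_14_7_c10_ok) (L (nat_lit 489) ln9_15_6 ln9_15_6_ok)))))))))))))))))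
noncomputable def c10_d412 : Cert := (B (K (nat_lit 20839919904693236361007865009656479088805549285201202130586497225381475443893278772482817183946149193610266214248817219767709894472535900160) (nat_lit 3432398831264056301161174004085613475477076991587298222230268416110288228807935921507988435722563836175888251122457637738503478989216221645550051670309732352) (nat_lit 3432398831264056301161174004085613475477076991587298222230268416110288228807935921507988435722563836175888251122457637738503478989216221645550051670309732352) c10_s187) (B (K (nat_lit 20839919904693236361007865009656479088805549285201202130586497225381475443893278772482817183946149193610266214248817219767709894472535900160) (nat_lit 3432398830864472486720726998804522000714951165819988819376504298894944284248548132398806628813880688425050092695968212480623854906565545096137871720330559488) (nat_lit 3432398830864472486720726998804522000714951165819988819376504298894944284248548132398806628813880688425050092695968212480623854906565545096137871720330559488)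 c10_s191) (B (K (nat_lit 20839919904693236361007865009656479088805549285201202130586497225381475443893278772482817183946149193610266214248817219767709894472535900160) (nat_lit 1716199417030571501668734242724057760579248164654205688169727520667871733086561579786291902442091470149943655289166821044159139298099986590543574800560816128) (nat_lit 1716199417030571501668734242724057760579248164654205688169727520667871733086561579786291902442091470149943655289166821044159139298099986590543574800560816128) c10_s188) (B (K (nat_lit 20839919904693236361007865009656479088805549285201202130586497225381475443893278772482817183946149193610266214248817219767709894472535900160) (nat_lit 348882588040967242527015090733522817765464116143080343341840838783639013973669988912831309051332340153291499433715064360202275672941395968) (nat_lit 348882588040967242527015090733522817765464116143080343341840838783639013973669988912831309051332340153291499433715064360202275672941395968)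 c10_s214) (B (K (nat_lit 20839919904693236361007865009656479088805549285201202130586497225381475443893278772482817183946149193610266214248817219767709894472535900160) (nat_lit 3432398830864472486697468159627062580217372803967572674277187775352950106319540446025026171594251954878611979073127778382679454215165027402264764468214890496) (nat_lit 3432398830864472486697468159627062580217372803967572674277187775352950106319540446025026171594251954878611979073127778382679454215165027402264764468214890496) c10_s215) (B (M (nat_lit 423) (B (M (nat_lit 427) (B (M (nat_lit 455) (B (L (nat_lit 454) ln10_13_1_c10 ln10_13_1_c10_ok) (L (nat_lit 456) ln11_13_1_c10 ln11_13_1_c10_ok))) (M (nat_lit 395) (B (L (nat_lit 394) ln7_13_2 ln7_13_2_ok) (L (nat_lit 396) ln8_13_2 ln8_13_2_ok))))) (B (M (nat_lit 394) (B (L (nat_lit 395) ln7_13_2 ln7_13_2_ok) (M (nat_lit 393) (B (L (nat_lit 422) ln6_13_2_c10 ln6_13_2_c10_ok) (M (nat_lit 362) (B (M (nat_lit 330)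 (B (L (nat_lit 298) ln10_9_5_c10 ln10_9_5_c10_ok) (M (nat_lit 331) (B (L (nat_lit 299) ln10_13_6 ln10_13_6_ok) (M (nat_lit 458) (B (L (nat_lit 363) ln10_14_6 ln10_14_6_ok) (M (nat_lit 329) (B (L (nat_lit 297) ln10_13_7_c10 ln10_13_7_c10_ok) (L (nat_lit 361) ln9_10_4_c10 ln9_10_4_c10_ok))))))))) (B (M (nat_lit 330) (B (L (nat_lit 298) ln10_9_5_c10 ln10_9_5_c10_ok) (M (nat_lit 458) (B (M (nat_lit 361) (B (L (nat_lit 329) ln9_10_4_c10 ln9_10_4_c10_ok) (L (nat_lit 490) ln10_15_7 ln10_15_7_ok))) (M (nat_lit 331) (B (L (nat_lit 299) ln10_13_6 ln10_13_6_ok) (L (nat_lit 363) ln10_14_6 ln10_14_6_ok))))))) c10_d409))))))) (M (nat_lit 455) (B (L (nat_lit 454) ln10_13_1_c10 ln10_13_1_c10_ok) (M (nat_lit 456) (B (L (nat_lit 427) ln11_13_1_c10 ln11_13_1_c10_ok) (M (nat_lit 392) (B (M (nat_lit 487) (B (L (nat_lit 519) ln7_16_6_c10 ln7_16_6_c10_ok) (L (nat_lit 360) ln8_11_5_c10 ln8_11_5_c10_ok))) (B (M (nat_lit 488) (B (M (nat_lit 520) (B (L (nat_lit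 552) ln8_17_7_c10 ln8_17_7_c10_ok) (L (nat_lit 393) ln8_16_6_c10 ln8_16_6_c10_ok))) (B (M (nat_lit 361) (B (L (nat_lit 393) ln8_15_6_c10 ln8_15_6_c10_ok) (M (nat_lit 360) (B (L (nat_lit 328) ln8_10_5_c10 ln8_10_5_c10_ok) (L (nat_lit 329) ln8_14_6_c10 ln8_14_6_c10_ok))))) (M (nat_lit 520) (B (L (nat_lit 552) ln8_17_7_c10 ln8_17_7_c10_ok) (M (nat_lit 521) (B (L (nat_lit 489) ln8_12_4_c10 ln8_12_4_c10_ok) (L (nat_lit 553) ln8_13_4_c10 ln8_13_4_c10_ok)))))))) (M (nat_lit 488) (B (M (nat_lit 520) (B (L (nat_lit 552) ln8_17_7_c10 ln8_17_7_c10_ok) (L (nat_lit 393) ln8_16_6_c10 ln8_16_6_c10_ok))) (B (M (nat_lit 489) (B (L (nat_lit 521) ln8_12_4_c10 ln8_12_4_c10_ok) (M (nat_lit 490) (B (L (nat_lit 491) ln11_15_3 ln11_15_3_ok) (M (nat_lit 522) (B (M (nat_lit 487) (B (L (nat_lit 519) ln8_12_5_c10 ln8_12_5_c10_ok) (L (nat_lit 523) ln7_15_0 ln7_15_0_ok))) (M (nat_lit 393) (B (L (nat_lit 361) ln8_15_6_c10 ln8_15_6_c10_ok) (L (nat_lit 458) ln10_16_7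 ln10_16_7_ok))))))))) (M (nat_lit 520) (B (L (nat_lit 552) ln8_17_7_c10 ln8_17_7_c10_ok) (M (nat_lit 521) (B (L (nat_lit 489) ln8_12_4_c10 ln8_12_4_c10_ok) (L (nat_lit 553) ln8_13_4_c10 ln8_13_4_c10_ok)))))))))))))))))) (B (M (nat_lit 394) (B (M (nat_lit 395) (B (L (nat_lit 423) ln7_13_2 ln7_13_2_ok) (L (nat_lit 396) ln13_12_1 ln13_12_1_ok))) c10_d411)) (B (K (nat_lit 20839919904693236361007865009656479088805549285201202130586497225381475443893278772482817183946149193610266214248817219767709894472535900160) (nat_lit 126633165605826663977847697343664183780196930912916041560072511702954816412455519573104607493423239027718908698619619515017740653818693698489708834068896118913637541740409782272) (nat_lit 126633165605826663977847697343664183780196930912916041560072511702954816412455519573104607493423239027718908698619619515017740653818693698489708834068896118913637541740409782272) c10_s192) (K (nat_lit 20839919904693236361007865009656479088805549285201202130586497225381475443893278772482817183946149193610266214248817219767709894472535900160)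 (nat_lit 6864797661728944974046183815870989852348854956101813851731170888977178239851020618832727574816994682835494864257983504075366994303267796574737341810976227328) (nat_lit 6864797661728944974046183815870989852348854956101813851731170888977178239851020618832727574816994682835494864257983504075366994303267796574737341810976227328) c10_s216)))))))))
noncomputable def c10_d413 : Cert := (B (M (nat_lit 424) (B (K (nat_lit 20839919904693236361007865009656479088805549285201202130586497225381475443893278772482817183946149193610266214248817219767709894472535900160) (nat_lit 2767801862496746973973818179994776931078872465824576489577390375716286828698589729786723845718326819583412863022009069702116339023104442368) (nat_lit 2767801862496746973973818179994776931078872465824576489577390375716286828698589729786723845718326819583412863022009069702116339023104442368) c10_s202) (B (K (nat_lit 20839919904693236361007865009656479088805549285201202130586497225381475443893278772482817183946149193610266214248817219767709894472535900160)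 (nat_lit 2953872575916422337944358161227829105195061219894893147875351453453291332108624835046741849927547006450446016391962672849054700274511249408) (nat_lit 2953872575916422337944358161227829105195061219894893147875351453453291332108624835046741849927547006450446016391962672849054700274511249408) c10_s203) (B (K (nat_lit 20839919904693236361007865009656479088805549285201202130586497225381475443893278772482817183946149193610266214248817219767709894472535900160) (nat_lit 18427550908455630338004792581586381988355292646812088139151786159282376086556672172675658160788095102322238626578790053359267521481401580289126336982455919632787177472) (nat_lit 18427550908455630338004792581586381988355292646812088139151786159282376086556672172675658160788095102322238626578790053359267521481401580289126336982455919632787177472) c10_s219) (B (K (nat_lit 20839919904693236361007865009656479088805549285201202130586497225381475443893278772482817183946149193610266214248817219767709894472535900160)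 (nat_lit 3432398830864472486720726998804522000714951165819988819376504298894944284248548132398806628813880688425050092695968212480623854906565545096137871720330559488) (nat_lit 3432398830864472486720726998804522000714951165819988819376504298894944284248548132398806628813880688425050092695968212480623854906565545096137871720330559488) c10_s191) (B (K (nat_lit 20839919904693236361007865009656479088805549285201202130586497225381475443893278772482817183946149193610266214248817219767709894472535900160) (nat_lit 2930613736738962917456866712961689946774088130618535735080444180332750029235990864611790641078209858269023667861812693559228089787914125312) (nat_lit 2930613736738962917456866712961689946774088130618535735080444180332750029235990864611790641078209858269023667861812693559228089787914125312) c10_s204) (B (K (nat_lit 20839919904693236361007865009656479088805549285201202130586497225381475443893278772482817183946149193610266214248817219767709894472535900160)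 (nat_lit 1716199417030571501668734242724057760577987300455921064834934591384667137444799028129637008148717124761007792192478910304593882777943669290037762704870998016) (nat_lit 1716199417030571501668734242724057760577987300455921064834934591384667137444799028129637008148717124761007792192478910304593882777943669290037762704870998016) c10_s205) (B (K (nat_lit 20839919904693236361007865009656479088805549285201202130586497225381475443893278772482817183946149193610266214248817219767709894472535900160) (nat_lit 126633165605826663977847697343664183780196930912916041560072511702954816412455519573104607493423239027718908698619619515017740653818693698489708834068896118913637541740409782272) (nat_lit 126633165605826663977847697343664183780196930912916041560072511702954816412455519573104607493423239027718908698619619515017740653818693698489708834068896118913637541740409782272) c10_s192) (B (K (nat_lit 20839919904693236361007865009656479088805549285201202130586497225381475443893278772482817183946149193610266214248817219767709894472535900160)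 (nat_lit 17161994154322362434813094629793765205811311345187555970067282228011941959454940757541770266602977115167778693934812502982705374185085792142053854228955267072) (nat_lit 17161994154322362434813094629793765205811311345187555970067282228011941959454940757541770266602977115167778693934812502982705374185085792142053854228955267072) c10_s248) (K (nat_lit 20839919904693236361007865009656479088805549285201202130586497225381475443893278772482817183946149193610266214248817219767709894472535900160) (nat_lit 17161994154322362434650282755551549262337088861608635317715617068200414883444224814521891326119196398065262940251744839474051364986376389388482788133974310912) (nat_lit 17161994154322362434650282755551549262337088861608635317715617068200414883444224814521891326119196398065262940251744839474051364986376389388482788133974310912) c10_s249)))))))))) (B (K (nat_lit 20839919904649913397037227277475566367178313602335007801283750091394436700446175314548354283586149593514889033341045482096437963662708178944)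 (nat_lit 506532662423306655911390789381050076151555769670017829474021363880975210119572578872006294701128963846275959467018177706450826948685784372300995671177246430584875619987700580352) (nat_lit 506532662423306655911390789381050076151555769670017829474021363880975210119572578872006294701128963846275959467018177706450826948685784372300995671177246430584875619987700580352) c10_s183) (B (K (nat_lit 20839919904649913397037227277475566367178313602335007801283750091394436700446175314548354283586149593514889033341045482096437963662708178944) (nat_lit 36855101816911260676009585159474608547851951887550672478873039773299018032961115438061271145451821385182824287882260718251789979978490657439284327659462346589515808768) (nat_lit 36855101816911260676009585159474608547851951887550672478873039773299018032961115438061271145451821385182824287882260718251789979978490657439284327659462346589515808768) c10_s190) (B (K (nat_lit 20839919904649913397037227277475566367178313602335007801283750091394436700446175314548354283586149593514889033341045482096437963662708178944)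 (nat_lit 126633165605826663977847697343664183781685496620349259659148576473242389724298885845723334832744471758580400577716111516222663129456987600776438228068066564343385866657022869504) (nat_lit 126633165605826663977847697343664183781685496620349259659148576473242389724298885845723334832744471758580400577716111516222663129456987600776438228068066564343385866657022869504) c10_s193) (B (K (nat_lit 20839919904649913397037227277475566367178313602335007801283750091394436700446175314548354283586149593514889033341045482096437963662708178944) (nat_lit 189949748388469689983087767326521856535318176091319443059551439308494313086782765606479972764764822005056732756436465379662484940823092576427777212166937343775584977274074562560) (nat_lit 189949748388469689983087767326521856535318176091319443059551439308494313086782765606479972764764822005056732756436465379662484940823092576427777212166937343775584977274074562560) c10_s207) (B (K (nat_lit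 20839919904649913397037227277475566367178313602335007801283750091394436700446175314548354283586149593514889033341045482096437963662708178944) (nat_lit 18427550908455630339603127839348170011212577104484362457739038529965578621030138923483384268037860112563619839879097379491187316736573859896556414885000808432576495616) (nat_lit 18427550908455630339603127839348170011212577104484362457739038529965578621030138923483384268037860112563619839879097379491187316736573859896556414885000808432576495616) c10_s220) (K (nat_lit 20839919904649913397037227277475566367178313602335007801283750091394436700446175314548354283586149593514889033341045482096437963662708178944) (nat_lit 3432398831264056303394022565511624519141729936427894433263270770187666515863004631326087489382769587827903738531188286663913408113620173763559673410160164864) (nat_lit 3432398831264056303394022565511624519141729936427894433263270770187666515863004631326087489382769587827903738531188286663913408113620173763559673410160164864)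 c10_s218)))))))
noncomputable def c10_d414 : Cert := (B (M (nat_lit 424) (B (M (nat_lit 459) (B (L (nat_lit 427) ln8_13_0 ln8_13_0_ok) (M (nat_lit 423) (B (L (nat_lit 458) ln7_13_0 ln7_13_0_ok) (M (nat_lit 422) (B (M (nat_lit 394) (B (L (nat_lit 395) ln7_13_2 ln7_13_2_ok) (L (nat_lit 393) ln6_13_2_c10 ln6_13_2_c10_ok))) (M (nat_lit 390) (B (L (nat_lit 391) ln10_13_3_c10 ln10_13_3_c10_ok) (L (nat_lit 389) ln9_13_3_c10 ln9_13_3_c10_ok))))))))) (B (M (nat_lit 423) (B (M (nat_lit 427) (B (M (nat_lit 455) (B (L (nat_lit 456) ln11_13_1_c10 ln11_13_1_c10_ok) (L (nat_lit 454) ln10_13_1_c10 ln10_13_1_c10_ok))) (M (nat_lit 395) (B (L (nat_lit 396) ln8_13_2 ln8_13_2_ok) (L (nat_lit 394) ln7_13_2 ln7_13_2_ok))))) (B (M (nat_lit 427) (B (L (nat_lit 459) ln8_13_0 ln8_13_0_ok) (M (nat_lit 395) (B (L (nat_lit 396) ln8_13_2 ln8_13_2_ok) (L (nat_lit 394) ln7_13_2 ln7_13_2_ok))))) (M (nat_lit 422) (B (M (nat_lit 458) (B (L (nat_lit 459) ln7_13_0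 ln7_13_0_ok) (L (nat_lit 457) ln6_13_0_c10 ln6_13_0_c10_ok))) (M (nat_lit 390) (B (L (nat_lit 391) ln10_13_3_c10 ln10_13_3_c10_ok) (L (nat_lit 389) ln9_13_3_c10 ln9_13_3_c10_ok)))))))) (B (M (nat_lit 423) (B (M (nat_lit 427) (B (M (nat_lit 455) (B (L (nat_lit 456) ln11_13_1_c10 ln11_13_1_c10_ok) (L (nat_lit 454) ln10_13_1_c10 ln10_13_1_c10_ok))) (M (nat_lit 391) (B (L (nat_lit 392) ln11_13_3 ln11_13_3_ok) (L (nat_lit 390) ln10_13_3_c10 ln10_13_3_c10_ok))))) (B (M (nat_lit 427) (B (M (nat_lit 395) (B (L (nat_lit 396) ln8_13_2 ln8_13_2_ok) (L (nat_lit 394) ln7_13_2 ln7_13_2_ok))) (M (nat_lit 391) (B (L (nat_lit 392) ln11_13_3 ln11_13_3_ok) (L (nat_lit 390) ln10_13_3_c10 ln10_13_3_c10_ok))))) (B (M (nat_lit 394) (B (L (nat_lit 395) ln7_13_2 ln7_13_2_ok) (M (nat_lit 422) (B (L (nat_lit 393) ln6_13_2_c10 ln6_13_2_c10_ok) (M (nat_lit 390) (B (L (nat_lit 391) ln10_13_3_c10 ln10_13_3_c10_ok) (L (nat_lit 389) ln9_13_3_c10 ln9_13_3_c10_ok)))))))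 (M (nat_lit 427) (B (M (nat_lit 455) (B (L (nat_lit 456) ln11_13_1_c10 ln11_13_1_c10_ok) (L (nat_lit 454) ln10_13_1_c10 ln10_13_1_c10_ok))) (M (nat_lit 395) (B (L (nat_lit 396) ln8_13_2 ln8_13_2_ok) (L (nat_lit 394) ln7_13_2 ln7_13_2_ok))))))))) (B (M (nat_lit 394) (B (M (nat_lit 395) (B (L (nat_lit 423) ln7_13_2 ln7_13_2_ok) (L (nat_lit 396) ln13_12_1 ln13_12_1_ok))) (B (M (nat_lit 458) (B (M (nat_lit 490) (B (M (nat_lit 393) (B (L (nat_lit 522) ln10_16_7 ln10_16_7_ok) (L (nat_lit 361) ln10_15_7 ln10_15_7_ok))) (M (nat_lit 362) (B (M (nat_lit 489) (B (L (nat_lit 521) ln10_12_5 ln10_12_5_ok) (L (nat_lit 457) ln10_11_5 ln10_11_5_ok))) (M (nat_lit 363) (B (L (nat_lit 395) ln10_15_6 ln10_15_6_ok) (L (nat_lit 331) ln10_14_6 ln10_14_6_ok))))))) (B (M (nat_lit 362) (B (M (nat_lit 457) (B (L (nat_lit 489) ln10_11_5 ln10_11_5_ok) (L (nat_lit 330) ln10_10_5 ln10_10_5_ok))) (B (M (nat_lit 330) (B (L (nat_lit 457) ln10_10_5 ln10_10_5_ok)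 (M (nat_lit 331) (B (L (nat_lit 363) ln10_14_6 ln10_14_6_ok) (L (nat_lit 299) ln10_13_6 ln10_13_6_ok))))) (M (nat_lit 490) (B (M (nat_lit 491) (B (L (nat_lit 523) ln10_12_4 ln10_12_4_ok) (L (nat_lit 459) ln10_11_4 ln10_11_4_ok))) (M (nat_lit 363) (B (L (nat_lit 395) ln10_15_6 ln10_15_6_ok) (L (nat_lit 331) ln10_14_6 ln10_14_6_ok)))))))) (B (M (nat_lit 362) (B (M (nat_lit 457) (B (L (nat_lit 489) ln10_11_5 ln10_11_5_ok) (L (nat_lit 330) ln10_10_5 ln10_10_5_ok))) (L (nat_lit 459) ln13_14_3 ln13_14_3_ok))) (L (nat_lit 459) ln13_14_3 ln13_14_3_ok))))) (M (nat_lit 458) (B (M (nat_lit 423) (B (L (nat_lit 459) ln7_13_0 ln7_13_0_ok) (M (nat_lit 422) (B (L (nat_lit 457) ln6_13_0_c10 ln6_13_0_c10_ok) (L (nat_lit 393) ln6_13_2_c10 ln6_13_2_c10_ok))))) (B (M (nat_lit 490) (B (M (nat_lit 393) (B (L (nat_lit 522) ln10_16_7 ln10_16_7_ok) (L (nat_lit 361) ln10_15_7 ln10_15_7_ok))) (B (M (nat_lit 362) (B (M (nat_lit 489) (B (L (nat_lit 521) ln10_12_5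 ln10_12_5_ok) (L (nat_lit 457) ln10_11_5 ln10_11_5_ok))) (M (nat_lit 361) (B (L (nat_lit 393) ln10_15_7 ln10_15_7_ok) (L (nat_lit 329) ln10_14_7 ln10_14_7_ok))))) (M (nat_lit 522) (B (M (nat_lit 523) (B (L (nat_lit 555) ln10_13_4 ln10_13_4_ok) (L (nat_lit 491) ln10_12_4 ln10_12_4_ok))) (M (nat_lit 521) (B (L (nat_lit 553) ln10_13_5 ln10_13_5_ok) (L (nat_lit 489) ln10_12_5 ln10_12_5_ok)))))))) (B (M (nat_lit 393) (B (M (nat_lit 490) (B (L (nat_lit 522) ln10_16_7 ln10_16_7_ok) (L (nat_lit 361) ln10_15_7 ln10_15_7_ok))) (M (nat_lit 423) (B (L (nat_lit 459) ln7_13_0 ln7_13_0_ok) (L (nat_lit 422) ln6_13_2_c10 ln6_13_2_c10_ok))))) (M (nat_lit 457) (B (M (nat_lit 489) (B (L (nat_lit 521) ln9_16_6 ln9_16_6_ok) (L (nat_lit 362) ln10_11_5 ln10_11_5_ok))) (M (nat_lit 423) (B (L (nat_lit 459) ln7_13_0 ln7_13_0_ok) (L (nat_lit 422) ln6_13_0_c10 ln6_13_0_c10_ok)))))))))))) (M (nat_lit 427) (B (L (nat_lit 459) ln8_13_0 ln8_13_0_ok) (M (nat_lit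 392) (B (L (nat_lit 391) ln11_13_3 ln11_13_3_ok) (M (nat_lit 456) (B (L (nat_lit 455) ln11_13_1_c10 ln11_13_1_c10_ok) (M (nat_lit 488) (B (M (nat_lit 393) (B (L (nat_lit 520) ln8_16_6_c10 ln8_16_6_c10_ok) (L (nat_lit 361) ln8_15_6_c10 ln8_15_6_c10_ok))) (B (M (nat_lit 360) (B (M (nat_lit 489) (B (L (nat_lit 521) ln8_12_4_c10 ln8_12_4_c10_ok) (L (nat_lit 457) ln8_11_4_c10 ln8_11_4_c10_ok))) (M (nat_lit 361) (B (L (nat_lit 393) ln8_15_6_c10 ln8_15_6_c10_ok) (L (nat_lit 329) ln8_14_6_c10 ln8_14_6_c10_ok))))) (M (nat_lit 520) (B (M (nat_lit 521) (B (L (nat_lit 553) ln8_13_4_c10 ln8_13_4_c10_ok) (L (nat_lit 489) ln8_12_4_c10 ln8_12_4_c10_ok))) (M (nat_lit 519) (B (L (nat_lit 551) ln8_13_5_c10 ln8_13_5_c10_ok) (L (nat_lit 487) ln8_12_5_c10 ln8_12_5_c10_ok))))))))))))))))))) (B (M (nat_lit 424) (B (K (nat_lit 20839919904693236361007865009656479088805549285201202130586497225381475443893278772482817183946149193610266214248817219767709894472535900160)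 (nat_lit 348882588040967242518189041345530454421913611160648173849502977187054753920049571190280267374516964976334703792620843256661591003112669184) (nat_lit 348882588040967242518189041345530454421913611160648173849502977187054753920049571190280267374516964976334703792620843256661591003112669184) c10_s186) (B (K (nat_lit 20839919904693236361007865009656479088805549285201202130586497225381475443893278772482817183946149193610266214248817219767709894472535900160) (nat_lit 162811874621291878547649060112478280305724857090331515551541899450050250510014465930262263165296778109301550422667240109723229751705862144) (nat_lit 162811874621291878547649060112478280305724857090331515551541899450050250510014465930262263165296778109301550422667240109723229751705862144) c10_s213) c10_d412))) c10_d413))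
noncomputable def c10_d415 : Cert := (B (M (nat_lit 424) (B (M (nat_lit 423) (B (M (nat_lit 458) (B (L (nat_lit 459) ln7_13_0 ln7_13_0_ok) (M (nat_lit 422) (B (L (nat_lit 457) ln6_13_0_c10 ln6_13_0_c10_ok) (M (nat_lit 394) (B (L (nat_lit 395) ln7_13_2 ln7_13_2_ok) (L (nat_lit 393) ln6_13_2_c10 ln6_13_2_c10_ok))))))) (M (nat_lit 427) (B (M (nat_lit 455) (B (L (nat_lit 456) ln11_13_1_c10 ln11_13_1_c10_ok) (L (nat_lit 454) ln10_13_1_c10 ln10_13_1_c10_ok))) (M (nat_lit 391) (B (L (nat_lit 392) ln11_13_3 ln11_13_3_ok) (L (nat_lit 390) ln10_13_3_c10 ln10_13_3_c10_ok))))))) (B (M (nat_lit 423) (B (M (nat_lit 422) (B (M (nat_lit 394) (B (L (nat_lit 395) ln7_13_2 ln7_13_2_ok) (L (nat_lit 393) ln6_13_2_c10 ln6_13_2_c10_ok))) (M (nat_lit 454) (B (L (nat_lit 455) ln10_13_1_c10 ln10_13_1_c10_ok) (L (nat_lit 453) ln9_13_1_c10 ln9_13_1_c10_ok))))) (B (M (nat_lit 422) (B (M (nat_lit 454) (B (L (nat_lit 455) ln10_13_1_c10 ln10_13_1_c10_ok) (L (nat_lit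 453) ln9_13_1_c10 ln9_13_1_c10_ok))) (M (nat_lit 390) (B (L (nat_lit 391) ln10_13_3_c10 ln10_13_3_c10_ok) (L (nat_lit 389) ln9_13_3_c10 ln9_13_3_c10_ok))))) (B (M (nat_lit 422) (B (M (nat_lit 394) (B (L (nat_lit 395) ln7_13_2 ln7_13_2_ok) (L (nat_lit 393) ln6_13_2_c10 ln6_13_2_c10_ok))) (M (nat_lit 390) (B (L (nat_lit 391) ln10_13_3_c10 ln10_13_3_c10_ok) (L (nat_lit 389) ln9_13_3_c10 ln9_13_3_c10_ok))))) (M (nat_lit 427) (B (M (nat_lit 455) (B (L (nat_lit 456) ln11_13_1_c10 ln11_13_1_c10_ok) (L (nat_lit 454) ln10_13_1_c10 ln10_13_1_c10_ok))) (M (nat_lit 391) (B (L (nat_lit 392) ln11_13_3 ln11_13_3_ok) (L (nat_lit 390) ln10_13_3_c10 ln10_13_3_c10_ok))))))))) c10_d406))) (B (K (nat_lit 20839919904649913397037227277475566367178313602335007801283750091394436700446175314548354283586149593514889033341045482096437963662708178944) (nat_lit 12013395908025653705255328013670094550182488382413232063953026043649691217183922692240069386457706308502182398952578817530015760810858971604532958394314653696)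 (nat_lit 12013395908025653705255328013670094550182488382413232063953026043649691217183922692240069386457706308502182398952578817530015760810858971604532958394314653696) c10_s208) (B (K (nat_lit 20839919904649913397037227277475566367178313602335007801283750091394436700446175314548354283586149593514889033341045482096437963662708178944) (nat_lit 106879795260804898766353062991730000583918392767111390172002507046542190531335172435177075499921156413512762071761020551416264072137994846175707486005193828985103974400) (nat_lit 106879795260804898766353062991730000583918392767111390172002507046542190531335172435177075499921156413512762071761020551416264072137994846175707486005193828985103974400) c10_s244) (B (K (nat_lit 20839919904649913397037227277475566367178313602335007801283750091394436700446175314548354283586149593514889033341045482096437963662708178944) (nat_lit 158291456994384044351321615365628590341222909914417507530188733872527733118566201083988554079780483409094119721227478582265308949980608535800822578235216556648789865614681309184)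 (nat_lit 158291456994384044351321615365628590341222909914417507530188733872527733118566201083988554079780483409094119721227478582265308949980608535800822578235216556648789865614681309184) c10_s212) (B (K (nat_lit 20839919904649913397037227277475566367178313602335007801283750091394436700446175314548354283586149593514889033341045482096437963662708178944) (nat_lit 199017549792785853965381943683538802438328344809513888106948983881914983941348647620851767285381796809977147785444818346459749514692711951070492933676368749687170138112) (nat_lit 199017549792785853965381943683538802438328344809513888106948983881914983941348647620851767285381796809977147785444818346459749514692711951070492933676368749687170138112) c10_s211) (B (M (nat_lit 424) (B (M (nat_lit 423) (B (M (nat_lit 422) (B (M (nat_lit 458) (B (L (nat_lit 459) ln7_13_0 ln7_13_0_ok) (L (nat_lit 457) ln6_13_0_c10 ln6_13_0_c10_ok))) (M (nat_lit 394) (B (L (nat_lit 395) ln7_13_2 ln7_13_2_ok)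 (L (nat_lit 393) ln6_13_2_c10 ln6_13_2_c10_ok))))) (B (M (nat_lit 422) (B (M (nat_lit 394) (B (L (nat_lit 395) ln7_13_2 ln7_13_2_ok) (L (nat_lit 393) ln6_13_2_c10 ln6_13_2_c10_ok))) (M (nat_lit 454) (B (L (nat_lit 455) ln10_13_1_c10 ln10_13_1_c10_ok) (L (nat_lit 453) ln9_13_1_c10 ln9_13_1_c10_ok))))) (B (M (nat_lit 422) (B (M (nat_lit 458) (B (L (nat_lit 459) ln7_13_0 ln7_13_0_ok) (L (nat_lit 457) ln6_13_0_c10 ln6_13_0_c10_ok))) (M (nat_lit 454) (B (L (nat_lit 455) ln10_13_1_c10 ln10_13_1_c10_ok) (L (nat_lit 453) ln9_13_1_c10 ln9_13_1_c10_ok))))) (M (nat_lit 427) (B (M (nat_lit 395) (B (L (nat_lit 396) ln8_13_2 ln8_13_2_ok) (L (nat_lit 394) ln7_13_2 ln7_13_2_ok))) (M (nat_lit 455) (B (L (nat_lit 456) ln11_13_1_c10 ln11_13_1_c10_ok) (L (nat_lit 454) ln10_13_1_c10 ln10_13_1_c10_ok))))))))) (B (M (nat_lit 423) (B (M (nat_lit 427) (B (M (nat_lit 455) (B (L (nat_lit 456) ln11_13_1_c10 ln11_13_1_c10_ok) (L (nat_lit 454) ln10_13_1_c10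 ln10_13_1_c10_ok))) (M (nat_lit 391) (B (L (nat_lit 392) ln11_13_3 ln11_13_3_ok) (L (nat_lit 390) ln10_13_3_c10 ln10_13_3_c10_ok))))) (B (M (nat_lit 422) (B (M (nat_lit 458) (B (L (nat_lit 459) ln7_13_0 ln7_13_0_ok) (L (nat_lit 457) ln6_13_0_c10 ln6_13_0_c10_ok))) (M (nat_lit 390) (B (L (nat_lit 391) ln10_13_3_c10 ln10_13_3_c10_ok) (L (nat_lit 389) ln9_13_3_c10 ln9_13_3_c10_ok))))) (M (nat_lit 427) (B (L (nat_lit 459) ln8_13_0 ln8_13_0_ok) (M (nat_lit 455) (B (L (nat_lit 456) ln11_13_1_c10 ln11_13_1_c10_ok) (L (nat_lit 454) ln10_13_1_c10 ln10_13_1_c10_ok)))))))) (B (M (nat_lit 423) (B (M (nat_lit 427) (B (M (nat_lit 395) (B (L (nat_lit 396) ln8_13_2 ln8_13_2_ok) (L (nat_lit 394) ln7_13_2 ln7_13_2_ok))) (M (nat_lit 391) (B (L (nat_lit 392) ln11_13_3 ln11_13_3_ok) (L (nat_lit 390) ln10_13_3_c10 ln10_13_3_c10_ok))))) (B (M (nat_lit 427) (B (M (nat_lit 455) (B (L (nat_lit 456) ln11_13_1_c10 ln11_13_1_c10_ok) (L (nat_lit 454) ln10_13_1_c10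 ln10_13_1_c10_ok))) (M (nat_lit 391) (B (L (nat_lit 392) ln11_13_3 ln11_13_3_ok) (L (nat_lit 390) ln10_13_3_c10 ln10_13_3_c10_ok))))) (M (nat_lit 422) (B (M (nat_lit 394) (B (L (nat_lit 395) ln7_13_2 ln7_13_2_ok) (L (nat_lit 393) ln6_13_2_c10 ln6_13_2_c10_ok))) (M (nat_lit 454) (B (L (nat_lit 455) ln10_13_1_c10 ln10_13_1_c10_ok) (L (nat_lit 453) ln9_13_1_c10 ln9_13_1_c10_ok)))))))) c10_d407)))) (B (M (nat_lit 424) (B (K (nat_lit 20839919904693236361007865009656479088805549285201202130586497225381475443893278772482817183946149193610266214248817219767709894472535900160) (nat_lit 2604989988254531030631986437235741728880464880749531955951742356645171789019115278522473717187489783729110788439712983501655542975554387968) (nat_lit 2604989988254531030631986437235741728880464880749531955951742356645171789019115278522473717187489783729110788439712983501655542975554387968) c10_s245) c10_d408)) c10_d414)))))))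
theorem c10_s250 : Sem (nat_lit 20839919904563267469095951813113740923923842236602619142678255823420359213551968398679428482866150393324134671525502006753894102043052736512) (nat_lit 728140702170849644789710194598512792926563851283568818843491149286363329706786968807877787900491069026138586445484499163217899191340916664521868816519010602366543456653937737728) (nat_lit 728140702170849644789710194598512792926563851283568818843491149286363329706786968807877787900491069026138586445484499163217899191340916664521868816519010602366543456653937737728) :=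
  sem_of_chk (M (nat_lit 425) c10_d415) (nat_lit 20839919904563267469095951813113740923923842236602619142678255823420359213551968398679428482866150393324134671525502006753894102043052736512) (nat_lit 728140702170849644789710194598512792926563851283568818843491149286363329706786968807877787900491069026138586445484499163217899191340916664521868816519010602366543456653937737728) (nat_lit 728140702170849644789710194598512792926563851283568818843491149286363329706786968807877787900491069026138586445484499163217899191340916664521868816519010602366543456653937737728) (by decide +kernel)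
noncomputable def c10_d416 : Cert := (B (M (nat_lit 401) (B (M (nat_lit 436) (B (L (nat_lit 400) ln20_13_3_c10 ln20_13_3_c10_ok) (M (nat_lit 437) (B (L (nat_lit 402) ln21_13_3_c10 ln21_13_3_c10_ok) (M (nat_lit 465) (B (L (nat_lit 464) ln20_13_1_c10 ln20_13_1_c10_ok) (L (nat_lit 466) ln21_13_1_c10 ln21_13_1_c10_ok))))))) (B (M (nat_lit 465) (B (M (nat_lit 436) (B (L (nat_lit 464) ln20_13_1_c10 ln20_13_1_c10_ok) (M (nat_lit 437) (B (L (nat_lit 402) ln21_13_3_c10 ln21_13_3_c10_ok) (L (nat_lit 466) ln21_13_1_c10 ln21_13_1_c10_ok))))) (B (M (nat_lit 369) (B (M (nat_lit 466) (B (L (nat_lit 337) ln17_10_4_c10 ln17_10_4_c10_ok) (L (nat_lit 498) ln17_11_4_c10 ln17_11_4_c10_ok))) (B (M (nat_lit 497) (B (M (nat_lit 370) (B (L (nat_lit 338) ln17_14_6_c10 ln17_14_6_c10_ok) (L (nat_lit 402) ln17_15_6_c10 ln17_15_6_c10_ok))) (M (nat_lit 498) (B (L (nat_lit 466) ln17_11_4_c10 ln17_11_4_c10_ok) (L (nat_lit 530) ln17_12_4_c10 ln17_12_4_c10_ok)))))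 (M (nat_lit 337) (B (M (nat_lit 336) (B (L (nat_lit 304) ln17_13_7_c10 ln17_13_7_c10_ok) (L (nat_lit 368) ln17_14_7_c10 ln17_14_7_c10_ok))) (M (nat_lit 338) (B (L (nat_lit 306) ln17_13_6_c10 ln17_13_6_c10_ok) (L (nat_lit 370) ln17_14_6_c10 ln17_14_6_c10_ok)))))))) (B (M (nat_lit 466) (B (M (nat_lit 369) (B (L (nat_lit 337) ln17_10_4_c10 ln17_10_4_c10_ok) (L (nat_lit 498) ln17_11_4_c10 ln17_11_4_c10_ok))) (M (nat_lit 436) (B (L (nat_lit 464) ln20_13_1_c10 ln20_13_1_c10_ok) (L (nat_lit 437) ln21_13_1_c10 ln21_13_1_c10_ok))))) (M (nat_lit 402) (B (M (nat_lit 436) (B (L (nat_lit 464) ln20_13_1_c10 ln20_13_1_c10_ok) (L (nat_lit 437) ln21_13_3_c10 ln21_13_3_c10_ok))) (M (nat_lit 370) (B (L (nat_lit 497) ln17_15_6_c10 ln17_15_6_c10_ok) (L (nat_lit 338) ln18_10_5_c10 ln18_10_5_c10_ok))))))))) (B (M (nat_lit 436) (B (L (nat_lit 400) ln20_13_3_c10 ln20_13_3_c10_ok) (M (nat_lit 437) (B (L (nat_lit 402) ln21_13_3_c10 ln21_13_3_c10_ok) (M (nat_lit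 405) (B (L (nat_lit 404) ln17_13_2_c10 ln17_13_2_c10_ok) (L (nat_lit 406) ln18_13_2_c10 ln18_13_2_c10_ok))))))) (B (M (nat_lit 436) (B (L (nat_lit 400) ln20_13_3_c10 ln20_13_3_c10_ok) (M (nat_lit 437) (B (M (nat_lit 465) (B (L (nat_lit 464) ln20_13_1_c10 ln20_13_1_c10_ok) (L (nat_lit 466) ln21_13_1_c10 ln21_13_1_c10_ok))) (M (nat_lit 469) (B (L (nat_lit 468) ln17_13_0_c10 ln17_13_0_c10_ok) (L (nat_lit 470) ln18_13_0_c10 ln18_13_0_c10_ok))))))) (M (nat_lit 369) (B (M (nat_lit 466) (B (L (nat_lit 337) ln17_10_4_c10 ln17_10_4_c10_ok) (M (nat_lit 498) (B (L (nat_lit 465) ln17_11_4_c10 ln17_11_4_c10_ok) (L (nat_lit 402) ln18_15_7_c10 ln18_15_7_c10_ok))))) (B (M (nat_lit 465) (B (M (nat_lit 466) (B (L (nat_lit 498) ln17_11_4_c10 ln17_11_4_c10_ok) (M (nat_lit 464) (B (L (nat_lit 463) ln19_13_1_c10 ln19_13_1_c10_ok) (L (nat_lit 496) ln17_11_5_c10 ln17_11_5_c10_ok))))) (M (nat_lit 497) (B (M (nat_lit 368) (B (L (nat_lit 336) ln17_14_7_c10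 ln17_14_7_c10_ok) (L (nat_lit 400) ln17_15_7_c10 ln17_15_7_c10_ok))) (M (nat_lit 370) (B (L (nat_lit 338) ln17_14_6_c10 ln17_14_6_c10_ok) (L (nat_lit 402) ln17_15_6_c10 ln17_15_6_c10_ok))))))) (B (M (nat_lit 466) (B (L (nat_lit 337) ln17_10_4_c10 ln17_10_4_c10_ok) (M (nat_lit 498) (B (L (nat_lit 402) ln18_15_7_c10 ln18_15_7_c10_ok) (L (nat_lit 530) ln18_16_7_c10 ln18_16_7_c10_ok))))) (B (M (nat_lit 466) (B (L (nat_lit 337) ln17_10_4_c10 ln17_10_4_c10_ok) (M (nat_lit 498) (B (L (nat_lit 465) ln17_11_4_c10 ln17_11_4_c10_ok) (L (nat_lit 530) ln18_16_7_c10 ln18_16_7_c10_ok))))) (M (nat_lit 465) (B (M (nat_lit 497) (B (M (nat_lit 496) (B (L (nat_lit 464) ln17_11_5_c10 ln17_11_5_c10_ok) (L (nat_lit 528) ln17_12_5_c10 ln17_12_5_c10_ok))) (M (nat_lit 370) (B (L (nat_lit 338) ln17_14_6_c10 ln17_14_6_c10_ok) (L (nat_lit 402) ln17_15_6_c10 ln17_15_6_c10_ok))))) (B (M (nat_lit 497) (B (M (nat_lit 368) (B (L (nat_lit 336) ln17_14_7_c10 ln17_14_7_c10_ok)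 (L (nat_lit 400) ln17_15_7_c10 ln17_15_7_c10_ok))) (M (nat_lit 370) (B (L (nat_lit 338) ln17_14_6_c10 ln17_14_6_c10_ok) (L (nat_lit 402) ln17_15_6_c10 ln17_15_6_c10_ok))))) (B (M (nat_lit 337) (B (M (nat_lit 336) (B (L (nat_lit 304) ln17_13_7_c10 ln17_13_7_c10_ok) (L (nat_lit 368) ln17_14_7_c10 ln17_14_7_c10_ok))) (M (nat_lit 338) (B (L (nat_lit 306) ln17_13_6_c10 ln17_13_6_c10_ok) (L (nat_lit 370) ln17_14_6_c10 ln17_14_6_c10_ok))))) (M (nat_lit 368) (B (L (nat_lit 336) ln17_14_7_c10 ln17_14_7_c10_ok) (M (nat_lit 497) (B (L (nat_lit 400) ln17_15_7_c10 ln17_15_7_c10_ok) (M (nat_lit 496) (B (L (nat_lit 464) ln17_11_5_c10 ln17_11_5_c10_ok) (L (nat_lit 528) ln17_12_5_c10 ln17_12_5_c10_ok))))))))))))))))))))) (B (M (nat_lit 436) (B (M (nat_lit 437) (B (M (nat_lit 401) (B (L (nat_lit 400) ln20_13_3_c10 ln20_13_3_c10_ok) (L (nat_lit 402) ln21_13_3_c10 ln21_13_3_c10_ok))) (M (nat_lit 405) (B (L (nat_lit 404) ln17_13_2_c10 ln17_13_2_c10_ok)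 (L (nat_lit 406) ln18_13_2_c10 ln18_13_2_c10_ok))))) (B (M (nat_lit 437) (B (M (nat_lit 405) (B (L (nat_lit 404) ln17_13_2_c10 ln17_13_2_c10_ok) (L (nat_lit 406) ln18_13_2_c10 ln18_13_2_c10_ok))) (M (nat_lit 469) (B (L (nat_lit 468) ln17_13_0_c10 ln17_13_0_c10_ok) (L (nat_lit 470) ln18_13_0_c10 ln18_13_0_c10_ok))))) (B (M (nat_lit 437) (B (M (nat_lit 401) (B (L (nat_lit 400) ln20_13_3_c10 ln20_13_3_c10_ok) (L (nat_lit 402) ln21_13_3_c10 ln21_13_3_c10_ok))) (M (nat_lit 469) (B (L (nat_lit 468) ln17_13_0_c10 ln17_13_0_c10_ok) (L (nat_lit 470) ln18_13_0_c10 ln18_13_0_c10_ok))))) (M (nat_lit 404) (B (L (nat_lit 403) ln16_13_2_c10 ln16_13_2_c10_ok) (L (nat_lit 405) ln17_13_2_c10 ln17_13_2_c10_ok))))))) (B (M (nat_lit 436) (B (M (nat_lit 437) (B (M (nat_lit 401) (B (L (nat_lit 400) ln20_13_3_c10 ln20_13_3_c10_ok) (L (nat_lit 402) ln21_13_3_c10 ln21_13_3_c10_ok))) (M (nat_lit 465) (B (L (nat_lit 464) ln20_13_1_c10 ln20_13_1_c10_ok) (L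 (nat_lit 466) ln21_13_1_c10 ln21_13_1_c10_ok))))) (B (M (nat_lit 437) (B (M (nat_lit 465) (B (L (nat_lit 464) ln20_13_1_c10 ln20_13_1_c10_ok) (L (nat_lit 466) ln21_13_1_c10 ln21_13_1_c10_ok))) (M (nat_lit 469) (B (L (nat_lit 468) ln17_13_0_c10 ln17_13_0_c10_ok) (L (nat_lit 470) ln18_13_0_c10 ln18_13_0_c10_ok))))) (B (M (nat_lit 437) (B (M (nat_lit 401) (B (L (nat_lit 400) ln20_13_3_c10 ln20_13_3_c10_ok) (L (nat_lit 402) ln21_13_3_c10 ln21_13_3_c10_ok))) (M (nat_lit 469) (B (L (nat_lit 468) ln17_13_0_c10 ln17_13_0_c10_ok) (L (nat_lit 470) ln18_13_0_c10 ln18_13_0_c10_ok))))) (M (nat_lit 464) (B (L (nat_lit 463) ln19_13_1_c10 ln19_13_1_c10_ok) (L (nat_lit 465) ln20_13_1_c10 ln20_13_1_c10_ok))))))) (M (nat_lit 403) (B (L (nat_lit 404) ln16_13_2_c10 ln16_13_2_c10_ok) (M (nat_lit 467) (B (L (nat_lit 468) ln16_13_0_c10 ln16_13_0_c10_ok) (M (nat_lit 371) (B (M (nat_lit 466) (B (L (nat_lit 339) ln19_10_5_c10 ln19_10_5_c10_ok) (L (nat_lit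 498) ln19_11_5_c10 ln19_11_5_c10_ok))) (B (M (nat_lit 339) (B (M (nat_lit 338) (B (L (nat_lit 306) ln19_13_7_c10 ln19_13_7_c10_ok) (L (nat_lit 370) ln19_14_7_c10 ln19_14_7_c10_ok))) (M (nat_lit 340) (B (L (nat_lit 308) ln19_13_6_c10 ln19_13_6_c10_ok) (L (nat_lit 372) ln19_14_6_c10 ln19_14_6_c10_ok))))) (M (nat_lit 499) (B (M (nat_lit 370) (B (L (nat_lit 338) ln19_14_7_c10 ln19_14_7_c10_ok) (L (nat_lit 402) ln19_15_7_c10 ln19_15_7_c10_ok))) (M (nat_lit 498) (B (L (nat_lit 466) ln19_11_5_c10 ln19_11_5_c10_ok) (L (nat_lit 530) ln19_12_5_c10 ln19_12_5_c10_ok)))))))))))))))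
noncomputable def c10_d417 : Cert := (B (M (nat_lit 436) (B (M (nat_lit 464) (B (L (nat_lit 463) ln19_13_1_c10 ln19_13_1_c10_ok) (L (nat_lit 465) ln20_13_1_c10 ln20_13_1_c10_ok))) (M (nat_lit 404) (B (L (nat_lit 403) ln16_13_2_c10 ln16_13_2_c10_ok) (L (nat_lit 405) ln17_13_2_c10 ln17_13_2_c10_ok))))) (B (M (nat_lit 436) (B (M (nat_lit 401) (B (L (nat_lit 400) ln20_13_3_c10 ln20_13_3_c10_ok) (M (nat_lit 437) (B (L (nat_lit 402) ln21_13_3_c10 ln21_13_3_c10_ok) (M (nat_lit 465) (B (L (nat_lit 464) ln20_13_1_c10 ln20_13_1_c10_ok) (L (nat_lit 466) ln21_13_1_c10 ln21_13_1_c10_ok))))))) (B (M (nat_lit 437) (B (M (nat_lit 401) (B (L (nat_lit 400) ln20_13_3_c10 ln20_13_3_c10_ok) (L (nat_lit 402) ln21_13_3_c10 ln21_13_3_c10_ok))) (M (nat_lit 405) (B (L (nat_lit 404) ln17_13_2_c10 ln17_13_2_c10_ok) (L (nat_lit 406) ln18_13_2_c10 ln18_13_2_c10_ok))))) (M (nat_lit 464) (B (L (nat_lit 463) ln19_13_1_c10 ln19_13_1_c10_ok) (L (nat_lit 465) ln20_13_1_c10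 ln20_13_1_c10_ok)))))) (B (K (nat_lit 8931394411890933966347733660179601942563841450823800216946752822532690858398586298637961994434524399700878818060857112348965568452155670528) (nat_lit 3514776403214393652365225129365030297384068139806457226853753318654658940692968167810137199459738974785575495968738095928622937341541348464262460057933555171328) (nat_lit 3514776403214393652365225129365030297384068139806457226853753318654658940692968167810137199459738974785575495968738095928622937341541348464262460057933555171328) c10_s344) (B (K (nat_lit 8931394411890933966347733660179601942563841450823800216946752822532690858398586298637961994434524399700878818060857112348965568452155670528) (nat_lit 22643774576168765235189781138324362769892025778225426427278870000269590156654357331354565783994751787152232176923317907639520784976663232481234341946824372980417912897536) (nat_lit 22643774576168765235189781138324362769892025778225426427278870000269590156654357331354565783994751787152232176923317907639520784976663232481234341946824372980417912897536)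 c10_s349) (B (K (nat_lit 8931394411890933966347733660179601942563841450823800216946752822532690858398586298637961994434524399700878818060857112348965568452155670528) (nat_lit 5272164604207829739352957630767622825710645779226785107100422820357161867074175295183490620991925482244572736840037502905628012671494953754846384776470721462272) (nat_lit 5272164604207829739352957630767622825710645779226785107100422820357161867074175295183490620991925482244572736840037502905628012671494953754846384776470721462272) c10_s345) (M (nat_lit 403) (B (L (nat_lit 404) ln16_13_2_c10 ln16_13_2_c10_ok) (M (nat_lit 402) (B (L (nat_lit 431) ln15_13_2_c10 ln15_13_2_c10_ok) (M (nat_lit 371) (B (M (nat_lit 339) (B (L (nat_lit 307) ln19_9_5_c10 ln19_9_5_c10_ok) (M (nat_lit 338) (B (L (nat_lit 306) ln19_13_7_c10 ln19_13_7_c10_ok) (M (nat_lit 467) (B (L (nat_lit 370) ln18_10_4_c10 ln18_10_4_c10_ok) (M (nat_lit 340) (B (L (nat_lit 372) ln19_14_6_c10 ln19_14_6_c10_ok)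 (L (nat_lit 308) ln19_13_6_c10 ln19_13_6_c10_ok))))))))) (B (M (nat_lit 339) (B (L (nat_lit 307) ln19_9_5_c10 ln19_9_5_c10_ok) (M (nat_lit 338) (B (L (nat_lit 306) ln19_13_7_c10 ln19_13_7_c10_ok) (M (nat_lit 370) (B (L (nat_lit 467) ln18_10_4_c10 ln18_10_4_c10_ok) (M (nat_lit 340) (B (L (nat_lit 308) ln19_13_6_c10 ln19_13_6_c10_ok) (M (nat_lit 341) (B (L (nat_lit 342) ln22_10_1_c10 ln22_10_1_c10_ok) (L (nat_lit 369) ln21_10_1_c10 ln21_10_1_c10_ok))))))))))) (B (M (nat_lit 339) (B (L (nat_lit 307) ln19_9_5_c10 ln19_9_5_c10_ok) (M (nat_lit 338) (B (L (nat_lit 306) ln19_13_7_c10 ln19_13_7_c10_ok) (M (nat_lit 370) (B (L (nat_lit 467) ln18_10_4_c10 ln18_10_4_c10_ok) (M (nat_lit 337) (B (L (nat_lit 305) ln18_13_7_c10 ln18_13_7_c10_ok) (M (nat_lit 372) (B (L (nat_lit 373) ln21_11_3_c10 ln21_11_3_c10_ok) (L (nat_lit 336) ln16_10_0_c10 ln16_10_0_c10_ok))))))))))) (B (M (nat_lit 339) (B (L (nat_lit 307) ln19_9_5_c10 ln19_9_5_c10_ok) (M (nat_lit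 338) (B (L (nat_lit 306) ln19_13_7_c10 ln19_13_7_c10_ok) (M (nat_lit 370) (B (M (nat_lit 340) (B (L (nat_lit 308) ln19_13_6_c10 ln19_13_6_c10_ok) (M (nat_lit 341) (B (L (nat_lit 342) ln22_10_1_c10 ln22_10_1_c10_ok) (L (nat_lit 369) ln21_10_1_c10 ln21_10_1_c10_ok))))) (M (nat_lit 337) (B (L (nat_lit 305) ln18_13_7_c10 ln18_13_7_c10_ok) (M (nat_lit 372) (B (L (nat_lit 373) ln21_11_3_c10 ln21_11_3_c10_ok) (L (nat_lit 336) ln16_10_0_c10 ln16_10_0_c10_ok))))))))))) (B (M (nat_lit 370) (B (M (nat_lit 467) (B (L (nat_lit 499) ln19_15_7_c10 ln19_15_7_c10_ok) (L (nat_lit 338) ln18_10_4_c10 ln18_10_4_c10_ok))) (B (M (nat_lit 338) (B (L (nat_lit 467) ln18_10_4_c10 ln18_10_4_c10_ok) (L (nat_lit 306) ln18_9_4_c10 ln18_9_4_c10_ok))) (B (M (nat_lit 338) (B (L (nat_lit 306) ln18_9_4_c10 ln18_9_4_c10_ok) (M (nat_lit 337) (B (L (nat_lit 305) ln18_13_7_c10 ln18_13_7_c10_ok) (M (nat_lit 372) (B (L (nat_lit 373) ln21_11_3_c10 ln21_11_3_c10_ok) (M (nat_lit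 336) (B (L (nat_lit 369) ln20_11_3_c10 ln20_11_3_c10_ok) (L (nat_lit 335) ln15_10_0_c10 ln15_10_0_c10_ok))))))))) (M (nat_lit 372) (B (M (nat_lit 373) (B (L (nat_lit 374) ln22_11_1_c10 ln22_11_1_c10_ok) (L (nat_lit 401) ln21_11_1_c10 ln21_11_1_c10_ok))) (M (nat_lit 467) (B (L (nat_lit 340) ln19_14_6_c10 ln19_14_6_c10_ok) (L (nat_lit 499) ln19_15_7_c10 ln19_15_7_c10_ok))))))))) (B (M (nat_lit 339) (B (L (nat_lit 307) ln19_9_5_c10 ln19_9_5_c10_ok) (M (nat_lit 338) (B (L (nat_lit 306) ln19_13_7_c10 ln19_13_7_c10_ok) (M (nat_lit 340) (B (L (nat_lit 308) ln19_13_6_c10 ln19_13_6_c10_ok) (M (nat_lit 372) (B (L (nat_lit 467) ln19_14_6_c10 ln19_14_6_c10_ok) (M (nat_lit 373) (B (L (nat_lit 374) ln22_11_1_c10 ln22_11_1_c10_ok) (L (nat_lit 337) ln17_10_0_c10 ln17_10_0_c10_ok))))))))))) (M (nat_lit 339) (B (L (nat_lit 307) ln19_9_5_c10 ln19_9_5_c10_ok) (M (nat_lit 340) (B (L (nat_lit 308) ln19_13_6_c10 ln19_13_6_c10_ok) (M (nat_lit 372) (B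 (L (nat_lit 467) ln19_14_6_c10 ln19_14_6_c10_ok) (M (nat_lit 370) (B (M (nat_lit 373) (B (L (nat_lit 374) ln22_11_1_c10 ln22_11_1_c10_ok) (L (nat_lit 401) ln21_11_1_c10 ln21_11_1_c10_ok))) (M (nat_lit 341) (B (L (nat_lit 342) ln22_10_1_c10 ln22_10_1_c10_ok) (L (nat_lit 369) ln17_11_2_c10 ln17_11_2_c10_ok)))))))))))))))))))))))))))
noncomputable def c10_d418 : Cert := (B (K (nat_lit 8931394323165503754481658153670348049985162940857813804920622417077344278730704448857942057155343404368412318944338361584051269924982620160) (nat_lit 37739624260517130932233815203992693640787242550884232796548580410252810875245112558803146053664845070755352894582892599572400205525288089531275415718134158180682083336192) (nat_lit 37739624260517130932233815203992693640787242550884232796548580410252810875245112558803146053664845070755352894582892599572400205525288089531275415718134158180682083336192) c10_s326) (B (M (nat_lit 435) (B (K (nat_lit 8931394411890933966347733660179601942563841450823800216946752822532690858398586298637961994434524399700878818060857112348965568452155670528)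 (nat_lit 18869812130258565466116907606188147852841647787001992712215262604566256498808153042498012800067536020381103077098317583468498229605658159351679598404583571012626163957760) (nat_lit 18869812130258565466116907606188147852841647787001992712215262604566256498808153042498012800067536020381103077098317583468498229605658159351679598404583571012626163957760) c10_s341) (B (K (nat_lit 8931394411890933966347733660179601942563841450823800216946752822532690858398586298637961994434524399700878818060857112348965568452155670528) (nat_lit 3514776403214393657700244624533962333436602468066262925154580222623115497337035237482403354669299360733364246321385507578717790332226495014100309119217245880320) (nat_lit 3514776403214393657700244624533962333436602468066262925154580222623115497337035237482403354669299360733364246321385507578717790332226495014100309119217245880320) c10_s342) (B (M (nat_lit 436) (B (M (nat_lit 437) (B (M (nat_lit 469) (B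 (L (nat_lit 470) ln18_13_0_c10 ln18_13_0_c10_ok) (L (nat_lit 468) ln17_13_0_c10 ln17_13_0_c10_ok))) (M (nat_lit 405) (B (L (nat_lit 406) ln18_13_2_c10 ln18_13_2_c10_ok) (L (nat_lit 404) ln17_13_2_c10 ln17_13_2_c10_ok))))) (B (M (nat_lit 405) (B (L (nat_lit 404) ln17_13_2_c10 ln17_13_2_c10_ok) (M (nat_lit 437) (B (L (nat_lit 406) ln18_13_2_c10 ln18_13_2_c10_ok) (M (nat_lit 465) (B (L (nat_lit 466) ln21_13_1_c10 ln21_13_1_c10_ok) (L (nat_lit 464) ln20_13_1_c10 ln20_13_1_c10_ok))))))) (B (M (nat_lit 437) (B (M (nat_lit 469) (B (L (nat_lit 470) ln18_13_0_c10 ln18_13_0_c10_ok) (L (nat_lit 468) ln17_13_0_c10 ln17_13_0_c10_ok))) (M (nat_lit 465) (B (L (nat_lit 466) ln21_13_1_c10 ln21_13_1_c10_ok) (L (nat_lit 464) ln20_13_1_c10 ln20_13_1_c10_ok))))) (M (nat_lit 404) (B (L (nat_lit 405) ln17_13_2_c10 ln17_13_2_c10_ok) (M (nat_lit 468) (B (L (nat_lit 469) ln17_13_0_c10 ln17_13_0_c10_ok) (M (nat_lit 500) (B (L (nat_lit 403) ln16_13_2_c10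 ln16_13_2_c10_ok) (M (nat_lit 532) (B (M (nat_lit 533) (B (L (nat_lit 565) ln20_13_4_c10 ln20_13_4_c10_ok) (L (nat_lit 501) ln20_12_4_c10 ln20_12_4_c10_ok))) (M (nat_lit 531) (B (L (nat_lit 563) ln20_13_5_c10 ln20_13_5_c10_ok) (L (nat_lit 499) ln20_12_5_c10 ln20_12_5_c10_ok))))))))))))))) (B (M (nat_lit 436) (B (M (nat_lit 401) (B (L (nat_lit 400) ln20_13_3_c10 ln20_13_3_c10_ok) (M (nat_lit 405) (B (L (nat_lit 404) ln17_13_2_c10 ln17_13_2_c10_ok) (M (nat_lit 437) (B (L (nat_lit 406) ln18_13_2_c10 ln18_13_2_c10_ok) (L (nat_lit 402) ln21_13_3_c10 ln21_13_3_c10_ok))))))) (B (M (nat_lit 437) (B (M (nat_lit 469) (B (L (nat_lit 470) ln18_13_0_c10 ln18_13_0_c10_ok) (L (nat_lit 468) ln17_13_0_c10 ln17_13_0_c10_ok))) (M (nat_lit 401) (B (L (nat_lit 402) ln21_13_3_c10 ln21_13_3_c10_ok) (L (nat_lit 400) ln20_13_3_c10 ln20_13_3_c10_ok))))) (M (nat_lit 404) (B (L (nat_lit 405) ln17_13_2_c10 ln17_13_2_c10_ok) (L (nat_lit 403) ln16_13_2_c10 ln16_13_2_c10_ok))))))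 (B (K (nat_lit 8931394411890933966347733660179601942563841450823800216946752822532690858398586298637961994434524399700878818060857112348965568452155670528) (nat_lit 18869812130258565466116907606188147852841647786712780725869528842524793551543815712573085751270662986944069229165765049802612015807137879784304161283762415751678444699648) (nat_lit 18869812130258565466116907606188147852841647786712780725869528842524793551543815712573085751270662986944069229165765049802612015807137879784304161283762415751678444699648) c10_s343) (B (K (nat_lit 8931394411890933966347733660179601942563841450823800216946752822532690858398586298637961994434524399700878818060857112348965568452155670528) (nat_lit 3514776403214393652365225129365030297384068139806457226853753318654658940692968167810137199459738974785575495968738095928622937341541348464262460057933555171328) (nat_lit 3514776403214393652365225129365030297384068139806457226853753318654658940692968167810137199459738974785575495968738095928622937341541348464262460057933555171328)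 c10_s344) (K (nat_lit 8931394411890933966347733660179601942563841450823800216946752822532690858398586298637961994434524399700878818060857112348965568452155670528) (nat_lit 5272164604207829739352957630767622825710645779226785107100422820357161867074175295183490620991925482244572736840037502905628012671494953754846384776470721462272) (nat_lit 5272164604207829739352957630767622825710645779226785107100422820357161867074175295183490620991925482244572736840037502905628012671494953754846384776470721462272) c10_s345)))))))) (B (K (nat_lit 8931394323165503754481658153670348049985162940857813804920622417077344278730704448857942057155343404368412318944338361584051269924982620160) (nat_lit 26417736987370548026561108898890891893698318989696112810988604714383220837427802361057368215871172497537632438013884185588337103425658931922892519790987964700620251725824) (nat_lit 26417736987370548026561108898890891893698318989696112810988604714383220837427802361057368215871172497537632438013884185588337103425658931922892519790987964700620251725824)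 c10_s348) (B (M (nat_lit 435) c10_d417) (K (nat_lit 8931394323165503754481658153670348049985162940857813804920622417077344278730704448857942057155343404368412318944338361584051269924982620160) (nat_lit 116992835281501279758904573971886685273455131208274396479626926143890502311748657421542169708054835601204261811239623164347157357210747775713194370859455619923084243369984) (nat_lit 116992835281501279758904573971886685273455131208274396479626926143890502311748657421542169708054835601204261811239623164347157357210747775713194370859455619923084243369984) c10_s350)))))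
noncomputable def c10_d419 : Cert := (B (M (nat_lit 435) (B (K (nat_lit 8931394411890933966347733660179601942563841450823800216946752822532690858398586298637961994434524399700878818060857112348965568452155670528) (nat_lit 5692275265467061316455746405697706972423263723897620378030708963603139091018098872252310828889037779165035926172671647953139417505891123986432) (nat_lit 5692275265467061316455746405697706972423263723897620378030708963603139091018098872252310828889037779165035926172671647953139417505891123986432) c10_s330) (B (K (nat_lit 8931394411890933966347733660179601942563841450823800216946752822532690858398586298637961994434524399700878818060857112348965568452155670528) (nat_lit 150958497042068523728935260809825975323687782206828410561419240454074018291486089845201978615236240838939330898401561687588445474259320386507605291302537933278845048193024) (nat_lit 150958497042068523728935260809825975323687782206828410561419240454074018291486089845201978615236240838939330898401561687588445474259320386507605291302537933278845048193024)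 c10_s331) (B (K (nat_lit 8931394411890933966347733660179601942563841450823800216946752822532690858398586298637961994434524399700878818060857112348965568452155670528) (nat_lit 2667509747761916878594605308315788237956302282636328916108549320045480287482632880639730681883825174714972499277263329336859330758170051084288) (nat_lit 2667509747761916878594605308315788237956302282636328916108549320045480287482632880639730681883825174714972499277263329336859330758170051084288) c10_s332) (B (K (nat_lit 8931394411890933966347733660179601942563841450823800216946752822532690858398586298637961994434524399700878818060857112348965568452155670528) (nat_lit 64836180869436462896362965551756112383914101467181601579112969193657015459861335409106557226789896726000396243173416671096503103783712521481036708691424121498782584829579836260352) (nat_lit 64836180869436462896362965551756112383914101467181601579112969193657015459861335409106557226789896726000396243173416671096503103783712521481036708691424121498782584829579836260352)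 c10_s333) (B (K (nat_lit 8931394411890933966347733660179601942563841450823800216946752822532690858398586298637961994434524399700878818060857112348965568452155670528) (nat_lit 8786941007013049571185269778842786781952065056608487193491964057428541375824303783853509717332752649530951880165212117498910970506356329806921559655622580895744) (nat_lit 8786941007013049571185269778842786781952065056608487193491964057428541375824303783853509717332752649530951880165212117498910970506356329806921559655622580895744) c10_s334) (K (nat_lit 8931394411890933966347733660179601942563841450823800216946752822532690858398586298637961994434524399700878818060857112348965568452155670528) (nat_lit 8786941007013049565826433232356136299599222472157541124650899980617420110905859892131365407367326288364163035128662315131041330775052490259378804029120164397056) (nat_lit 8786941007013049565826433232356136299599222472157541124650899980617420110905859892131365407367326288364163035128662315131041330775052490259378804029120164397056)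 c10_s335))))))) (B (K (nat_lit 8931394323165503754481658153670348049985162940857813804920622417077344278730704448857942057155343404368412318944338361584051269924982620160) (nat_lit 75479248521034261864467630405103524072385638676130367221011828010505451258460682163641396478310370132872640804430323330840803516660413748823871210158860690077786090504192) (nat_lit 75479248521034261864467630405103524072385638676130367221011828010505451258460682163641396478310370132872640804430323330840803516660413748823871210158860690077786090504192) c10_s336) (B (K (nat_lit 8931394323165503754481658153670348049985162940857813804920622417077344278730704448857942057155343404368412318944338361584051269924982620160) (nat_lit 7029552806019613481029869450508948361856703989967823963373201306549228913779275157935294531269300559572710493300911117032603956149764202372018976358843908358144) (nat_lit 7029552806019613481029869450508948361856703989967823963373201306549228913779275157935294531269300559572710493300911117032603956149764202372018976358843908358144)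 c10_s323) (B (K (nat_lit 8931394323165503754481658153670348049985162940857813804920622417077344278730704448857942057155343404368412318944338361584051269924982620160) (nat_lit 3514776402805219828902814834853455111951486963825495474757298621329577105044376796039635890888125159604706566097768145831658483676991846621905834619249469947904) (nat_lit 3514776402805219828902814834853455111951486963825495474757298621329577105044376796039635890888125159604706566097768145831658483676991846621905834619249469947904) c10_s337) (B (K (nat_lit 8931394323165503754481658153670348049985162940857813804920622417077344278730704448857942057155343404368412318944338361584051269924982620160) (nat_lit 7029552806019613481029869450508948361774071993869042888504211893045132533800724572564759378858719460163409769396372198804455304844799791766070074855715988570112) (nat_lit 7029552806019613481029869450508948361774071993869042888504211893045132533800724572564759378858719460163409769396372198804455304844799791766070074855715988570112)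 c10_s338) (B (K (nat_lit 8931394323165503754481658153670348049985162940857813804920622417077344278730704448857942057155343404368412318944338361584051269924982620160) (nat_lit 3514776402805219827378523550519474530222191441465550989528490934481446660288929061847559846542536477905338351711297456788774239965367519036237877744596986888192) (nat_lit 3514776402805219827378523550519474530222191441465550989528490934481446660288929061847559846542536477905338351711297456788774239965367519036237877744596986888192) c10_s325) (B (K (nat_lit 8931394323165503754481658153670348049985162940857813804920622417077344278730704448857942057155343404368412318944338361584051269924982620160) (nat_lit 75479248521034261864467630404912987661843891103414205280726454580274251535620280469004679003389433380152093683662616517487519219395513522952446044117303669539807239864320) (nat_lit 75479248521034261864467630404912987661843891103414205280726454580274251535620280469004679003389433380152093683662616517487519219395513522952446044117303669539807239864320)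 c10_s339) (B (K (nat_lit 8931394323165503754481658153670348049985162940857813804920622417077344278730704448857942057155343404368412318944338361584051269924982620160) (nat_lit 818347654998800985125261771244416439653536635664075810350827750052421878776062674837069937303713274278883001932745871332594632445291772906629186453504) (nat_lit 818347654998800985125261771244416439653536635664075810350827750052421878776062674837069937303713274278883001932745871332594632445291772906629186453504) c10_s340) c10_d418))))))))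
theorem c10_s351 : Sem (nat_lit 8931394278802788648548620400415721103695823685874820598907557214349670988896763523967932088515752906702179069386078986201594120661396094976) (nat_lit 64836181001525147852546975900808713548080762161629049539427780988249205572367002142219686432436084060755223437216775147789110703067327211670365443603158786991405048277069316751360) (nat_lit 64836181001525147852546975900808713548080762161629049539427780988249205572367002142219686432436084060755223437216775147789110703067327211670365443603158786991405048277069316751360) :=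
  sem_of_chk (M (nat_lit 434) (B (M (nat_lit 435) (B (M (nat_lit 436) (B (M (nat_lit 401) (B (L (nat_lit 400) ln20_13_3_c10 ln20_13_3_c10_ok) (M (nat_lit 437) (B (L (nat_lit 402) ln21_13_3_c10 ln21_13_3_c10_ok) (M (nat_lit 465) (B (L (nat_lit 464) ln20_13_1_c10 ln20_13_1_c10_ok) (L (nat_lit 466) ln21_13_1_c10 ln21_13_1_c10_ok))))))) (M (nat_lit 404) (B (L (nat_lit 403) ln16_13_2_c10 ln16_13_2_c10_ok) (L (nat_lit 405) ln17_13_2_c10 ln17_13_2_c10_ok))))) (B (M (nat_lit 436) (B (M (nat_lit 437) (B (M (nat_lit 465) (B (L (nat_lit 464) ln20_13_1_c10 ln20_13_1_c10_ok) (L (nat_lit 466) ln21_13_1_c10 ln21_13_1_c10_ok))) (M (nat_lit 405) (B (L (nat_lit 404) ln17_13_2_c10 ln17_13_2_c10_ok) (L (nat_lit 406) ln18_13_2_c10 ln18_13_2_c10_ok))))) (B (M (nat_lit 437) (B (M (nat_lit 405) (B (L (nat_lit 404) ln17_13_2_c10 ln17_13_2_c10_ok) (L (nat_lit 406) ln18_13_2_c10 ln18_13_2_c10_ok))) (M (nat_lit 469) (B (L (nat_lit 468) ln17_13_0_c10 ln17_13_0_c10_ok)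 (L (nat_lit 470) ln18_13_0_c10 ln18_13_0_c10_ok))))) (B (M (nat_lit 437) (B (M (nat_lit 465) (B (L (nat_lit 464) ln20_13_1_c10 ln20_13_1_c10_ok) (L (nat_lit 466) ln21_13_1_c10 ln21_13_1_c10_ok))) (M (nat_lit 469) (B (L (nat_lit 468) ln17_13_0_c10 ln17_13_0_c10_ok) (L (nat_lit 470) ln18_13_0_c10 ln18_13_0_c10_ok))))) (M (nat_lit 404) (B (L (nat_lit 403) ln16_13_2_c10 ln16_13_2_c10_ok) (L (nat_lit 405) ln17_13_2_c10 ln17_13_2_c10_ok))))))) (B (M (nat_lit 436) (B (M (nat_lit 401) (B (L (nat_lit 400) ln20_13_3_c10 ln20_13_3_c10_ok) (M (nat_lit 437) (B (L (nat_lit 402) ln21_13_3_c10 ln21_13_3_c10_ok) (M (nat_lit 465) (B (L (nat_lit 464) ln20_13_1_c10 ln20_13_1_c10_ok) (L (nat_lit 466) ln21_13_1_c10 ln21_13_1_c10_ok))))))) (B (M (nat_lit 437) (B (M (nat_lit 465) (B (L (nat_lit 464) ln20_13_1_c10 ln20_13_1_c10_ok) (L (nat_lit 466) ln21_13_1_c10 ln21_13_1_c10_ok))) (M (nat_lit 405) (B (L (nat_lit 404) ln17_13_2_c10 ln17_13_2_c10_ok) (L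 (nat_lit 406) ln18_13_2_c10 ln18_13_2_c10_ok))))) (B (M (nat_lit 437) (B (M (nat_lit 401) (B (L (nat_lit 400) ln20_13_3_c10 ln20_13_3_c10_ok) (L (nat_lit 402) ln21_13_3_c10 ln21_13_3_c10_ok))) (M (nat_lit 405) (B (L (nat_lit 404) ln17_13_2_c10 ln17_13_2_c10_ok) (L (nat_lit 406) ln18_13_2_c10 ln18_13_2_c10_ok))))) (M (nat_lit 404) (B (L (nat_lit 405) ln17_13_2_c10 ln17_13_2_c10_ok) (M (nat_lit 468) (B (L (nat_lit 469) ln17_13_0_c10 ln17_13_0_c10_ok) (M (nat_lit 372) (B (L (nat_lit 467) ln16_13_0_c10 ln16_13_0_c10_ok) (M (nat_lit 340) (B (M (nat_lit 339) (B (L (nat_lit 307) ln20_13_7_c10 ln20_13_7_c10_ok) (L (nat_lit 371) ln20_14_7_c10 ln20_14_7_c10_ok))) (M (nat_lit 341) (B (L (nat_lit 309) ln20_13_6_c10 ln20_13_6_c10_ok) (L (nat_lit 373) ln20_14_6_c10 ln20_14_6_c10_ok))))))))))))))) (B (M (nat_lit 436) (B (M (nat_lit 437) (B (M (nat_lit 401) (B (L (nat_lit 400) ln20_13_3_c10 ln20_13_3_c10_ok) (L (nat_lit 402) ln21_13_3_c10 ln21_13_3_c10_ok)))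 (M (nat_lit 469) (B (L (nat_lit 468) ln17_13_0_c10 ln17_13_0_c10_ok) (L (nat_lit 470) ln18_13_0_c10 ln18_13_0_c10_ok))))) (B (M (nat_lit 437) (B (M (nat_lit 405) (B (L (nat_lit 404) ln17_13_2_c10 ln17_13_2_c10_ok) (L (nat_lit 406) ln18_13_2_c10 ln18_13_2_c10_ok))) (M (nat_lit 469) (B (L (nat_lit 468) ln17_13_0_c10 ln17_13_0_c10_ok) (L (nat_lit 470) ln18_13_0_c10 ln18_13_0_c10_ok))))) (B (M (nat_lit 437) (B (M (nat_lit 401) (B (L (nat_lit 400) ln20_13_3_c10 ln20_13_3_c10_ok) (L (nat_lit 402) ln21_13_3_c10 ln21_13_3_c10_ok))) (M (nat_lit 405) (B (L (nat_lit 404) ln17_13_2_c10 ln17_13_2_c10_ok) (L (nat_lit 406) ln18_13_2_c10 ln18_13_2_c10_ok))))) (M (nat_lit 404) (B (L (nat_lit 403) ln16_13_2_c10 ln16_13_2_c10_ok) (L (nat_lit 405) ln17_13_2_c10 ln17_13_2_c10_ok))))))) (B (M (nat_lit 436) (B (M (nat_lit 464) (B (L (nat_lit 463) ln19_13_1_c10 ln19_13_1_c10_ok) (L (nat_lit 465) ln20_13_1_c10 ln20_13_1_c10_ok))) (M (nat_lit 437) (B (M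 (nat_lit 401) (B (L (nat_lit 400) ln20_13_3_c10 ln20_13_3_c10_ok) (L (nat_lit 402) ln21_13_3_c10 ln21_13_3_c10_ok))) (M (nat_lit 469) (B (L (nat_lit 468) ln17_13_0_c10 ln17_13_0_c10_ok) (L (nat_lit 470) ln18_13_0_c10 ln18_13_0_c10_ok))))))) (M (nat_lit 403) (B (L (nat_lit 404) ln16_13_2_c10 ln16_13_2_c10_ok) (M (nat_lit 467) (B (L (nat_lit 468) ln16_13_0_c10 ln16_13_0_c10_ok) (M (nat_lit 371) (B (M (nat_lit 466) (B (L (nat_lit 339) ln19_10_5_c10 ln19_10_5_c10_ok) (L (nat_lit 498) ln19_11_5_c10 ln19_11_5_c10_ok))) (B (M (nat_lit 339) (B (M (nat_lit 338) (B (L (nat_lit 306) ln19_13_7_c10 ln19_13_7_c10_ok) (L (nat_lit 370) ln19_14_7_c10 ln19_14_7_c10_ok))) (M (nat_lit 340) (B (L (nat_lit 308) ln19_13_6_c10 ln19_13_6_c10_ok) (L (nat_lit 372) ln19_14_6_c10 ln19_14_6_c10_ok))))) (M (nat_lit 499) (B (M (nat_lit 370) (B (L (nat_lit 338) ln19_14_7_c10 ln19_14_7_c10_ok) (L (nat_lit 402) ln19_15_7_c10 ln19_15_7_c10_ok))) (M (nat_lit 498)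 (B (L (nat_lit 466) ln19_11_5_c10 ln19_11_5_c10_ok) (L (nat_lit 530) ln19_12_5_c10 ln19_12_5_c10_ok)))))))))))))))))) (B (M (nat_lit 435) (B (M (nat_lit 436) (B (M (nat_lit 437) (B (M (nat_lit 401) (B (L (nat_lit 400) ln20_13_3_c10 ln20_13_3_c10_ok) (L (nat_lit 402) ln21_13_3_c10 ln21_13_3_c10_ok))) (M (nat_lit 465) (B (L (nat_lit 464) ln20_13_1_c10 ln20_13_1_c10_ok) (L (nat_lit 466) ln21_13_1_c10 ln21_13_1_c10_ok))))) (M (nat_lit 404) (B (L (nat_lit 403) ln16_13_2_c10 ln16_13_2_c10_ok) (L (nat_lit 405) ln17_13_2_c10 ln17_13_2_c10_ok))))) (B (M (nat_lit 436) (B (M (nat_lit 404) (B (L (nat_lit 403) ln16_13_2_c10 ln16_13_2_c10_ok) (L (nat_lit 405) ln17_13_2_c10 ln17_13_2_c10_ok))) (M (nat_lit 437) (B (M (nat_lit 465) (B (L (nat_lit 464) ln20_13_1_c10 ln20_13_1_c10_ok) (L (nat_lit 466) ln21_13_1_c10 ln21_13_1_c10_ok))) (M (nat_lit 469) (B (L (nat_lit 468) ln17_13_0_c10 ln17_13_0_c10_ok) (L (nat_lit 470) ln18_13_0_c10 ln18_13_0_c10_ok)))))))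 c10_d416))) c10_d419))) (nat_lit 8931394278802788648548620400415721103695823685874820598907557214349670988896763523967932088515752906702179069386078986201594120661396094976) (nat_lit 64836181001525147852546975900808713548080762161629049539427780988249205572367002142219686432436084060755223437216775147789110703067327211670365443603158786991405048277069316751360) (nat_lit 64836181001525147852546975900808713548080762161629049539427780988249205572367002142219686432436084060755223437216775147789110703067327211670365443603158786991405048277069316751360) (by decide +kernel)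
noncomputable def c10_d420 : Cert := (B (M (nat_lit 400) (B (K (nat_lit 20839919915480654392278910201391882264833254797226309034078309659991520807573229041605793484315136322418169375090824674936824626068561330176) (nat_lit 95268205293055143926540988310982715826348507650890199107008057378140319461134281230757158921221443588312565372403221519776461407074115387392) (nat_lit 95268205293055143926540988310982715826348507650890199107008057378140319461134281230757158921221443588312565372403221519776461407074115387392) c10_s483) (B (K (nat_lit 20839919915480654392278910201391882264833254797226309034078309659991520807573229041605793484315136322418169375090824674936824626068561330176) (nat_lit 1886981215486200028575344638426209345490710109348476761097858108934937570891846352561445466106864819453559820064456948756251275744400324072773313786214803639990115893248) (nat_lit 1886981215486200028575344638426209345490710109348476761097858108934937570891846352561445466106864819453559820064456948756251275744400324072773313786214803639990115893248)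 c10_s485) (B (K (nat_lit 20839919915480654392278910201391882264833254797226309034078309659991520807573229041605793484315136322418169375090824674936824626068561330176) (nat_lit 1886981215486200028575344638426209345446347394206230834434006329945002051747244782111034042700410436211369590624517703926137904326233181212431773261827659177242006650880) (nat_lit 1886981215486200028575344638426209345446347394206230834434006329945002051747244782111034042700410436211369590624517703926137904326233181212431773261827659177242006650880) c10_s486) (B (K (nat_lit 20839919915480654392278910201391882264833254797226309034078309659991520807573229041605793484315136322418169375090824674936824626068561330176) (nat_lit 1757388201607196826158795513126347108255771006634882027317982008270292732334466511352681035784459304676199671705166794746034232672662689522076625475933151690752) (nat_lit 1757388201607196826158795513126347108255771006634882027317982008270292732334466511352681035784459304676199671705166794746034232672662689522076625475933151690752)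 c10_s487) (B (K (nat_lit 20839919915480654392278910201391882264833254797226309034078309659991520807573229041605793484315136322418169375090824674936824626068561330176) (nat_lit 409173826129920041685686088588235122539627078011959481014658647323252466365272147415686690092213348288885836317830886059952399241510935545841792843776) (nat_lit 409173826129920041685686088588235122539627078011959481014658647323252466365272147415686690092213348288885836317830886059952399241510935545841792843776) c10_s488) (B (M (nat_lit 337) (B (M (nat_lit 305) (B (L (nat_lit 336) ln16_13_6_c10 ln16_13_6_c10_ok) (M (nat_lit 369) (B (L (nat_lit 401) ln17_9_5_c10 ln17_9_5_c10_ok) (L (nat_lit 464) ln16_14_6_c10 ln16_14_6_c10_ok))))) (B (M (nat_lit 367) (B (M (nat_lit 464) (B (L (nat_lit 369) ln16_14_6_c10 ln16_14_6_c10_ok) (L (nat_lit 335) ln16_14_7 ln16_14_7_ok))) (B (M (nat_lit 335) (B (L (nat_lit 464) ln16_14_7 ln16_14_7_ok) (M (nat_lit 303) (B (L (nat_lit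 336) ln16_13_7 ln16_13_7_ok) (L (nat_lit 271) ln15_8_4 ln15_8_4_ok))))) (M (nat_lit 366) (B (L (nat_lit 336) ln13_11_2 ln13_11_2_ok) (M (nat_lit 369) (B (L (nat_lit 338) ln14_11_2 ln14_11_2_ok) (L (nat_lit 401) ln13_11_0 ln13_11_0_ok)))))))) (B (M (nat_lit 336) (B (L (nat_lit 305) ln16_13_6_c10 ln16_13_6_c10_ok) (M (nat_lit 335) (B (L (nat_lit 303) ln16_13_7 ln16_13_7_ok) (M (nat_lit 367) (B (L (nat_lit 464) ln16_14_7 ln16_14_7_ok) (L (nat_lit 366) ln13_11_2 ln13_11_2_ok))))))) (B (M (nat_lit 369) (B (L (nat_lit 464) ln16_14_6_c10 ln16_14_6_c10_ok) (M (nat_lit 305) (B (L (nat_lit 273) ln17_8_5_c10 ln17_8_5_c10_ok) (L (nat_lit 401) ln17_9_5_c10 ln17_9_5_c10_ok))))) (M (nat_lit 305) (B (L (nat_lit 336) ln16_13_6_c10 ln16_13_6_c10_ok) (M (nat_lit 369) (B (L (nat_lit 273) ln17_8_5_c10 ln17_8_5_c10_ok) (L (nat_lit 401) ln17_9_5_c10 ln17_9_5_c10_ok)))))))))) (K (nat_lit 20839919915480654392278910201391882264833254797226309034078309659991520807573229041605793484315136322418169375090824674936824626068561330176)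 (nat_lit 409173826129920041680140749198702367882328635700910474074066053310815177471736103683275282399105008190997776072825565465506487307280751877554016616448) (nat_lit 409173826129920041680140749198702367882328635700910474074066053310815177471736103683275282399105008190997776072825565465506487307280751877554016616448) c10_s489)))))))) (B (M (nat_lit 334) (B (L (nat_lit 366) ln13_14_6 ln13_14_6_ok) (M (nat_lit 333) (B (L (nat_lit 302) ln13_13_6 ln13_13_6_ok) (M (nat_lit 300) (B (L (nat_lit 332) ln13_13_7 ln13_13_7_ok) (M (nat_lit 301) (B (L (nat_lit 268) ln13_12_7 ln13_12_7_ok) (M (nat_lit 336) (B (L (nat_lit 335) ln16_10_3 ln16_10_3_ok) (M (nat_lit 299) (B (L (nat_lit 298) ln10_9_0 ln10_9_0_ok) (M (nat_lit 400) (B (M (nat_lit 304) (B (M (nat_lit 272) (B (M (nat_lit 401) (B (L (nat_lit 433) ln16_9_4_c10 ln16_9_4_c10_ok) (L (nat_lit 369) ln16_8_4_c10 ln16_8_4_c10_ok))) (M (nat_lit 271) (B (L (nat_lit 303) ln16_12_7_c10 ln16_12_7_c10_ok)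 (L (nat_lit 239) ln16_11_7_c10 ln16_11_7_c10_ok))))) (B (M (nat_lit 273) (B (L (nat_lit 305) ln16_12_6_c10 ln16_12_6_c10_ok) (M (nat_lit 272) (B (L (nat_lit 241) ln16_11_6_c10 ln16_11_6_c10_ok) (M (nat_lit 271) (B (L (nat_lit 303) ln16_12_7_c10 ln16_12_7_c10_ok) (L (nat_lit 239) ln16_11_7_c10 ln16_11_7_c10_ok))))))) (B (M (nat_lit 272) (B (M (nat_lit 401) (B (L (nat_lit 433) ln16_9_4_c10 ln16_9_4_c10_ok) (L (nat_lit 369) ln16_8_4_c10 ln16_8_4_c10_ok))) (M (nat_lit 273) (B (L (nat_lit 305) ln16_12_6_c10 ln16_12_6_c10_ok) (L (nat_lit 241) ln16_11_6_c10 ln16_11_6_c10_ok))))) (M (nat_lit 433) (B (L (nat_lit 465) ln16_10_4_c10 ln16_10_4_c10_ok) (L (nat_lit 401) ln16_9_4_c10 ln16_9_4_c10_ok))))))) (B (M (nat_lit 304) (B (M (nat_lit 272) (B (M (nat_lit 273) (B (L (nat_lit 241) ln16_11_6_c10 ln16_11_6_c10_ok) (L (nat_lit 305) ln16_12_6_c10 ln16_12_6_c10_ok))) (M (nat_lit 401) (B (L (nat_lit 369) ln16_8_4_c10 ln16_8_4_c10_ok) (L (nat_lit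 433) ln16_9_4_c10 ln16_9_4_c10_ok))))) (B (M (nat_lit 305) (B (L (nat_lit 273) ln16_12_6_c10 ln16_12_6_c10_ok) (L (nat_lit 337) ln16_13_6_c10 ln16_13_6_c10_ok))) (M (nat_lit 433) (B (L (nat_lit 401) ln16_9_4_c10 ln16_9_4_c10_ok) (L (nat_lit 465) ln16_10_4_c10 ln16_10_4_c10_ok)))))) (B (M (nat_lit 464) (B (M (nat_lit 337) (B (L (nat_lit 305) ln16_13_6_c10 ln16_13_6_c10_ok) (L (nat_lit 369) ln16_14_6_c10 ln16_14_6_c10_ok))) (M (nat_lit 465) (B (L (nat_lit 433) ln16_10_4_c10 ln16_10_4_c10_ok) (L (nat_lit 497) ln16_11_4 ln16_11_4_ok))))) (B (M (nat_lit 304) (B (M (nat_lit 433) (B (L (nat_lit 465) ln16_10_4_c10 ln16_10_4_c10_ok) (L (nat_lit 401) ln16_9_4_c10 ln16_9_4_c10_ok))) (M (nat_lit 305) (B (L (nat_lit 337) ln16_13_6_c10 ln16_13_6_c10_ok) (L (nat_lit 273) ln16_12_6_c10 ln16_12_6_c10_ok))))) (B (M (nat_lit 304) (B (M (nat_lit 305) (B (L (nat_lit 273) ln16_12_6_c10 ln16_12_6_c10_ok) (L (nat_lit 337) ln16_13_6_c10 ln16_13_6_c10_ok)))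 (M (nat_lit 272) (B (M (nat_lit 271) (B (L (nat_lit 239) ln16_11_7_c10 ln16_11_7_c10_ok) (L (nat_lit 303) ln16_12_7_c10 ln16_12_7_c10_ok))) (M (nat_lit 401) (B (L (nat_lit 369) ln16_8_4_c10 ln16_8_4_c10_ok) (L (nat_lit 433) ln16_9_4_c10 ln16_9_4_c10_ok))))))) (B (M (nat_lit 433) (B (L (nat_lit 465) ln16_10_4_c10 ln16_10_4_c10_ok) (M (nat_lit 399) (B (M (nat_lit 304) (B (L (nat_lit 431) ln16_9_5 ln16_9_5_ok) (L (nat_lit 401) ln16_9_4_c10 ln16_9_4_c10_ok))) (M (nat_lit 434) (B (L (nat_lit 435) ln19_13_3_c10 ln19_13_3_c10_ok) (L (nat_lit 398) ln13_12_0 ln13_12_0_ok))))))) (M (nat_lit 304) (B (M (nat_lit 305) (B (L (nat_lit 273) ln16_12_6_c10 ln16_12_6_c10_ok) (L (nat_lit 337) ln16_13_6_c10 ln16_13_6_c10_ok))) (B (M (nat_lit 337) (B (L (nat_lit 305) ln16_13_6_c10 ln16_13_6_c10_ok) (M (nat_lit 369) (B (L (nat_lit 464) ln16_14_6_c10 ln16_14_6_c10_ok) (M (nat_lit 272) (B (L (nat_lit 240) ln16_7_4_c10 ln16_7_4_c10_ok) (L (nat_lit 401)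 ln16_8_4_c10 ln16_8_4_c10_ok))))))) (B (M (nat_lit 272) (B (M (nat_lit 271) (B (L (nat_lit 239) ln16_11_7_c10 ln16_11_7_c10_ok) (L (nat_lit 303) ln16_12_7_c10 ln16_12_7_c10_ok))) (M (nat_lit 369) (B (L (nat_lit 401) ln16_8_4_c10 ln16_8_4_c10_ok) (M (nat_lit 337) (B (L (nat_lit 240) ln16_7_4_c10 ln16_7_4_c10_ok) (L (nat_lit 464) ln16_14_6_c10 ln16_14_6_c10_ok))))))) (M (nat_lit 272) (B (M (nat_lit 273) (B (L (nat_lit 241) ln16_11_6_c10 ln16_11_6_c10_ok) (L (nat_lit 305) ln16_12_6_c10 ln16_12_6_c10_ok))) (M (nat_lit 271) (B (L (nat_lit 239) ln16_11_7_c10 ln16_11_7_c10_ok) (L (nat_lit 303) ln16_12_7_c10 ln16_12_7_c10_ok)))))))))))))))))))))))))))) (B (M (nat_lit 366) (B (L (nat_lit 334) ln13_14_6 ln13_14_6_ok) (M (nat_lit 367) (B (L (nat_lit 396) ln16_11_1 ln16_11_1_ok) (M (nat_lit 400) (B (L (nat_lit 401) ln13_11_0 ln13_11_0_ok) (M (nat_lit 369) (B (L (nat_lit 398) ln17_11_1 ln17_11_1_ok) (M (nat_lit 337) (B (L (nat_lit 338) ln14_11_2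 ln14_11_2_ok) (L (nat_lit 464) ln16_14_6_c10 ln16_14_6_c10_ok))))))))))) (B (M (nat_lit 366) (B (L (nat_lit 334) ln13_14_6 ln13_14_6_ok) (M (nat_lit 367) (B (L (nat_lit 396) ln16_11_1 ln16_11_1_ok) (M (nat_lit 400) (B (L (nat_lit 401) ln13_11_0 ln13_11_0_ok) (M (nat_lit 335) (B (L (nat_lit 464) ln16_14_7 ln16_14_7_ok) (M (nat_lit 303) (B (L (nat_lit 336) ln16_13_7 ln16_13_7_ok) (L (nat_lit 271) ln15_8_4 ln15_8_4_ok))))))))))) (M (nat_lit 366) (B (L (nat_lit 334) ln13_14_6 ln13_14_6_ok) (M (nat_lit 367) (B (L (nat_lit 396) ln16_11_1 ln16_11_1_ok) (M (nat_lit 369) (B (L (nat_lit 398) ln17_11_1 ln17_11_1_ok) (M (nat_lit 337) (B (L (nat_lit 336) ln13_11_2 ln13_11_2_ok) (L (nat_lit 338) ln14_11_2 ln14_11_2_ok)))))))))))))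
noncomputable def c10_d421 : Cert := (M (nat_lit 400) (B (M (nat_lit 368) (B (M (nat_lit 336) (B (M (nat_lit 335) (B (L (nat_lit 303) ln16_13_7 ln16_13_7_ok) (L (nat_lit 367) ln16_14_7 ln16_14_7_ok))) (M (nat_lit 337) (B (L (nat_lit 305) ln16_13_6_c10 ln16_13_6_c10_ok) (L (nat_lit 369) ln16_14_6_c10 ln16_14_6_c10_ok))))) (B (M (nat_lit 401) (B (M (nat_lit 369) (B (L (nat_lit 337) ln16_14_6_c10 ln16_14_6_c10_ok) (M (nat_lit 367) (B (L (nat_lit 335) ln16_14_7 ln16_14_7_ok) (L (nat_lit 366) ln13_11_0 ln13_11_0_ok))))) (B (M (nat_lit 336) (B (M (nat_lit 337) (B (L (nat_lit 305) ln16_13_6_c10 ln16_13_6_c10_ok) (L (nat_lit 369) ln16_14_6_c10 ln16_14_6_c10_ok))) (M (nat_lit 433) (B (L (nat_lit 304) ln16_9_4_c10 ln16_9_4_c10_ok) (L (nat_lit 465) ln16_10_4_c10 ln16_10_4_c10_ok))))) (M (nat_lit 367) (B (L (nat_lit 335) ln16_14_7 ln16_14_7_ok) (L (nat_lit 366) ln13_11_0 ln13_11_0_ok)))))) (B (M (nat_lit 369) (B (L (nat_lit 337) ln16_14_6_c10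 ln16_14_6_c10_ok) (M (nat_lit 367) (B (L (nat_lit 335) ln16_14_7 ln16_14_7_ok) (M (nat_lit 370) (B (M (nat_lit 399) (B (L (nat_lit 398) ln18_11_1 ln18_11_1_ok) (L (nat_lit 371) ln19_11_1_c10 ln19_11_1_c10_ok))) (B (M (nat_lit 366) (B (L (nat_lit 398) ln17_11_1 ln17_11_1_ok) (M (nat_lit 402) (B (L (nat_lit 401) ln13_11_0 ln13_11_0_ok) (L (nat_lit 403) ln15_11_0_c10 ln15_11_0_c10_ok))))) (M (nat_lit 371) (B (L (nat_lit 399) ln19_11_1_c10 ln19_11_1_c10_ok) (M (nat_lit 339) (B (L (nat_lit 338) ln15_11_2_c10 ln15_11_2_c10_ok) (L (nat_lit 340) ln16_11_2_c10 ln16_11_2_c10_ok)))))))))))) (B (M (nat_lit 399) (B (M (nat_lit 369) (B (L (nat_lit 337) ln16_14_6_c10 ln16_14_6_c10_ok) (L (nat_lit 398) ln13_12_2 ln13_12_2_ok))) (B (M (nat_lit 398) (B (L (nat_lit 369) ln13_12_2 ln13_12_2_ok) (L (nat_lit 433) ln13_12_0 ln13_12_0_ok))) (B (M (nat_lit 433) (B (M (nat_lit 434) (B (L (nat_lit 435) ln19_13_3_c10 ln19_13_3_c10_ok) (L (nat_lit 398) ln13_12_0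 ln13_12_0_ok))) (M (nat_lit 336) (B (L (nat_lit 465) ln16_10_4_c10 ln16_10_4_c10_ok) (M (nat_lit 304) (B (L (nat_lit 401) ln16_9_4_c10 ln16_9_4_c10_ok) (M (nat_lit 305) (B (L (nat_lit 273) ln16_12_6_c10 ln16_12_6_c10_ok) (L (nat_lit 337) ln16_13_6_c10 ln16_13_6_c10_ok))))))))) (M (nat_lit 336) (B (M (nat_lit 337) (B (L (nat_lit 305) ln16_13_6_c10 ln16_13_6_c10_ok) (L (nat_lit 369) ln16_14_6_c10 ln16_14_6_c10_ok))) (M (nat_lit 304) (B (M (nat_lit 433) (B (L (nat_lit 401) ln16_9_4_c10 ln16_9_4_c10_ok) (L (nat_lit 465) ln16_10_4_c10 ln16_10_4_c10_ok))) (M (nat_lit 272) (B (L (nat_lit 367) ln16_8_5 ln16_8_5_ok) (M (nat_lit 271) (B (L (nat_lit 239) ln16_11_7_c10 ln16_11_7_c10_ok) (L (nat_lit 303) ln16_12_7_c10 ln16_12_7_c10_ok))))))))))))) (B (M (nat_lit 336) (B (M (nat_lit 335) (B (L (nat_lit 303) ln16_13_7 ln16_13_7_ok) (L (nat_lit 367) ln16_14_7 ln16_14_7_ok))) (B (M (nat_lit 304) (B (M (nat_lit 433) (B (L (nat_lit 401) ln16_9_4_c10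 ln16_9_4_c10_ok) (L (nat_lit 465) ln16_10_4_c10 ln16_10_4_c10_ok))) (M (nat_lit 272) (B (M (nat_lit 273) (B (L (nat_lit 241) ln16_11_6_c10 ln16_11_6_c10_ok) (L (nat_lit 305) ln16_12_6_c10 ln16_12_6_c10_ok))) (M (nat_lit 367) (B (L (nat_lit 399) ln16_8_5 ln16_8_5_ok) (L (nat_lit 335) ln16_14_7 ln16_14_7_ok))))))) (M (nat_lit 304) (B (M (nat_lit 433) (B (L (nat_lit 401) ln16_9_4_c10 ln16_9_4_c10_ok) (L (nat_lit 465) ln16_10_4_c10 ln16_10_4_c10_ok))) (M (nat_lit 272) (B (M (nat_lit 271) (B (L (nat_lit 239) ln16_11_7_c10 ln16_11_7_c10_ok) (L (nat_lit 303) ln16_12_7_c10 ln16_12_7_c10_ok))) (M (nat_lit 273) (B (L (nat_lit 241) ln16_11_6_c10 ln16_11_6_c10_ok) (L (nat_lit 305) ln16_12_6_c10 ln16_12_6_c10_ok)))))))))) (M (nat_lit 336) (B (M (nat_lit 337) (B (L (nat_lit 305) ln16_13_6_c10 ln16_13_6_c10_ok) (L (nat_lit 369) ln16_14_6_c10 ln16_14_6_c10_ok))) (M (nat_lit 304) (B (M (nat_lit 303) (B (L (nat_lit 271) ln16_12_7_c10 ln16_12_7_c10_ok)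 (L (nat_lit 335) ln16_13_7 ln16_13_7_ok))) (M (nat_lit 433) (B (L (nat_lit 401) ln16_9_4_c10 ln16_9_4_c10_ok) (L (nat_lit 465) ln16_10_4_c10 ln16_10_4_c10_ok))))))))))))) (B (K (nat_lit 68474022550917547571319395274538920527043393704890678399907981074485722460852345457809983695180099844578962229552377968402447490425276071936) (nat_lit 204586912993508866898005713611792653059415641731665716606800055856210092699287228725302520850443767157713128367308232093671964734862850849782221504512) (nat_lit 204586912993508866898005713611792653059415641731665716606800055856210092699287228725302520850443767157713128367308232093671964734862850849782221504512) c10_s490) (B (M (nat_lit 368) (B (M (nat_lit 369) (B (L (nat_lit 337) ln16_14_6_c10 ln16_14_6_c10_ok) (M (nat_lit 496) (B (L (nat_lit 401) ln16_15_6_c10 ln16_15_6_c10_ok) (M (nat_lit 367) (B (L (nat_lit 335) ln16_14_7 ln16_14_7_ok) (L (nat_lit 399) ln16_15_7 ln16_15_7_ok))))))) (B (M (nat_lit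 496) (B (M (nat_lit 369) (B (L (nat_lit 337) ln16_14_6_c10 ln16_14_6_c10_ok) (L (nat_lit 401) ln16_15_6_c10 ln16_15_6_c10_ok))) (M (nat_lit 495) (B (L (nat_lit 463) ln16_11_5_c10 ln16_11_5_c10_ok) (L (nat_lit 527) ln16_12_5_c10 ln16_12_5_c10_ok))))) (B (M (nat_lit 496) (B (M (nat_lit 367) (B (L (nat_lit 335) ln16_14_7 ln16_14_7_ok) (L (nat_lit 399) ln16_15_7 ln16_15_7_ok))) (M (nat_lit 495) (B (L (nat_lit 463) ln16_11_5_c10 ln16_11_5_c10_ok) (L (nat_lit 527) ln16_12_5_c10 ln16_12_5_c10_ok))))) (M (nat_lit 336) (B (M (nat_lit 335) (B (L (nat_lit 303) ln16_13_7 ln16_13_7_ok) (L (nat_lit 367) ln16_14_7 ln16_14_7_ok))) (M (nat_lit 337) (B (L (nat_lit 305) ln16_13_6_c10 ln16_13_6_c10_ok) (L (nat_lit 369) ln16_14_6_c10 ln16_14_6_c10_ok))))))))) (B (M (nat_lit 463) (B (L (nat_lit 433) ln13_14_2 ln13_14_2_ok) (M (nat_lit 495) (B (L (nat_lit 368) ln16_11_5_c10 ln16_11_5_c10_ok) (M (nat_lit 527) (B (L (nat_lit 559) ln15_17_6 ln15_17_6_ok)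 (L (nat_lit 496) ln16_12_5_c10 ln16_12_5_c10_ok))))))) (M (nat_lit 433) (B (L (nat_lit 463) ln13_14_2 ln13_14_2_ok) (M (nat_lit 496) (B (M (nat_lit 399) (B (L (nat_lit 398) ln13_12_0 ln13_12_0_ok) (L (nat_lit 367) ln16_15_7 ln16_15_7_ok))) (M (nat_lit 401) (B (L (nat_lit 369) ln16_15_6_c10 ln16_15_6_c10_ok) (L (nat_lit 528) ln16_16_6_c10 ln16_16_6_c10_ok))))))))))))
noncomputable def c10_d422 : Cert := (B (M (nat_lit 400) (B (M (nat_lit 368) (B (M (nat_lit 465) (B (L (nat_lit 497) ln16_11_4 ln16_11_4_ok) (M (nat_lit 337) (B (L (nat_lit 369) ln16_14_6_c10 ln16_14_6_c10_ok) (M (nat_lit 336) (B (L (nat_lit 305) ln16_13_6_c10 ln16_13_6_c10_ok) (L (nat_lit 433) ln16_10_4_c10 ln16_10_4_c10_ok))))))) (B (M (nat_lit 336) (B (M (nat_lit 335) (B (L (nat_lit 303) ln16_13_7 ln16_13_7_ok) (L (nat_lit 367) ln16_14_7 ln16_14_7_ok))) (M (nat_lit 465) (B (L (nat_lit 433) ln16_10_4_c10 ln16_10_4_c10_ok) (L (nat_lit 497) ln16_11_4 ln16_11_4_ok)))))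 (M (nat_lit 369) (B (L (nat_lit 337) ln16_14_6_c10 ln16_14_6_c10_ok) (M (nat_lit 367) (B (L (nat_lit 335) ln16_14_7 ln16_14_7_ok) (M (nat_lit 370) (B (M (nat_lit 399) (B (L (nat_lit 371) ln19_11_1_c10 ln19_11_1_c10_ok) (L (nat_lit 398) ln18_11_1 ln18_11_1_ok))) (B (M (nat_lit 366) (B (M (nat_lit 402) (B (L (nat_lit 403) ln15_11_0_c10 ln15_11_0_c10_ok) (L (nat_lit 401) ln13_11_0 ln13_11_0_ok))) (L (nat_lit 398) ln17_11_1 ln17_11_1_ok))) (M (nat_lit 371) (B (M (nat_lit 339) (B (L (nat_lit 340) ln16_11_2_c10 ln16_11_2_c10_ok) (L (nat_lit 338) ln15_11_2_c10 ln15_11_2_c10_ok))) (M (nat_lit 403) (B (L (nat_lit 404) ln16_11_0_c10 ln16_11_0_c10_ok) (L (nat_lit 402) ln15_11_0_c10 ln15_11_0_c10_ok))))))))))))))) (B (M (nat_lit 399) (B (M (nat_lit 496) (B (L (nat_lit 367) ln16_15_7 ln16_15_7_ok) (M (nat_lit 529) (B (L (nat_lit 497) ln16_12_4 ln16_12_4_ok) (M (nat_lit 527) (B (L (nat_lit 495) ln16_12_5_c10 ln16_12_5_c10_ok) (M (nat_lit 528)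 (B (L (nat_lit 561) ln16_13_4_c10 ln16_13_4_c10_ok) (L (nat_lit 559) ln16_13_5_c10 ln16_13_5_c10_ok))))))))) (M (nat_lit 398) (B (M (nat_lit 366) (B (L (nat_lit 401) ln17_12_3 ln17_12_3_ok) (L (nat_lit 334) ln13_14_6 ln13_14_6_ok))) (L (nat_lit 433) ln13_12_0 ln13_12_0_ok))))) (B (M (nat_lit 496) (B (M (nat_lit 369) (B (L (nat_lit 401) ln16_15_6_c10 ln16_15_6_c10_ok) (M (nat_lit 368) (B (L (nat_lit 337) ln16_14_6_c10 ln16_14_6_c10_ok) (M (nat_lit 367) (B (L (nat_lit 335) ln16_14_7 ln16_14_7_ok) (L (nat_lit 399) ln16_15_7 ln16_15_7_ok))))))) (M (nat_lit 529) (B (L (nat_lit 497) ln16_12_4 ln16_12_4_ok) (M (nat_lit 528) (B (L (nat_lit 561) ln16_13_4_c10 ln16_13_4_c10_ok) (M (nat_lit 527) (B (L (nat_lit 495) ln16_12_5_c10 ln16_12_5_c10_ok) (L (nat_lit 559) ln16_13_5_c10 ln16_13_5_c10_ok))))))))) (B (K (nat_lit 68474022550917547571319395274538920527043393704890678399907981074485722460852345457809983695180099844578962229552377968402447490425276071936)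 (nat_lit 204586912993508866898005713611792653059415641731665716606800055856210092699287228725302520850443767157713128367308232093671964734862850849782221504512) (nat_lit 204586912993508866898005713611792653059415641731665716606800055856210092699287228725302520850443767157713128367308232093671964734862850849782221504512) c10_s490) (B (M (nat_lit 368) (B (M (nat_lit 335) (B (L (nat_lit 367) ln16_14_7 ln16_14_7_ok) (M (nat_lit 336) (B (L (nat_lit 303) ln16_13_7 ln16_13_7_ok) (M (nat_lit 337) (B (L (nat_lit 369) ln16_14_6_c10 ln16_14_6_c10_ok) (L (nat_lit 305) ln16_13_6_c10 ln16_13_6_c10_ok))))))) (B (M (nat_lit 336) (B (M (nat_lit 465) (B (L (nat_lit 497) ln16_11_4 ln16_11_4_ok) (L (nat_lit 433) ln16_10_4_c10 ln16_10_4_c10_ok))) (M (nat_lit 337) (B (L (nat_lit 369) ln16_14_6_c10 ln16_14_6_c10_ok) (L (nat_lit 305) ln16_13_6_c10 ln16_13_6_c10_ok))))) (B (M (nat_lit 336) (B (M (nat_lit 465) (B (L (nat_lit 497) ln16_11_4 ln16_11_4_ok)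 (L (nat_lit 433) ln16_10_4_c10 ln16_10_4_c10_ok))) (M (nat_lit 335) (B (L (nat_lit 367) ln16_14_7 ln16_14_7_ok) (L (nat_lit 303) ln16_13_7 ln16_13_7_ok))))) (M (nat_lit 496) (B (M (nat_lit 497) (B (L (nat_lit 529) ln16_12_4 ln16_12_4_ok) (L (nat_lit 465) ln16_11_4 ln16_11_4_ok))) (M (nat_lit 367) (B (L (nat_lit 399) ln16_15_7 ln16_15_7_ok) (L (nat_lit 335) ln16_14_7 ln16_14_7_ok))))))))) (M (nat_lit 496) (B (M (nat_lit 528) (B (M (nat_lit 401) (B (L (nat_lit 369) ln16_15_6_c10 ln16_15_6_c10_ok) (L (nat_lit 433) ln16_16_6_c10 ln16_16_6_c10_ok))) (M (nat_lit 527) (B (L (nat_lit 495) ln16_12_5_c10 ln16_12_5_c10_ok) (L (nat_lit 559) ln16_13_5_c10 ln16_13_5_c10_ok))))) (B (M (nat_lit 529) (B (L (nat_lit 497) ln16_12_4 ln16_12_4_ok) (M (nat_lit 528) (B (L (nat_lit 561) ln16_13_4_c10 ln16_13_4_c10_ok) (M (nat_lit 527) (B (L (nat_lit 495) ln16_12_5_c10 ln16_12_5_c10_ok) (L (nat_lit 559) ln16_13_5_c10 ln16_13_5_c10_ok))))))) (B (M (nat_lit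 528) (B (M (nat_lit 401) (B (L (nat_lit 369) ln16_15_6_c10 ln16_15_6_c10_ok) (L (nat_lit 433) ln16_16_6_c10 ln16_16_6_c10_ok))) (M (nat_lit 529) (B (L (nat_lit 497) ln16_12_4 ln16_12_4_ok) (L (nat_lit 561) ln16_13_4_c10 ln16_13_4_c10_ok))))) (M (nat_lit 368) (B (M (nat_lit 369) (B (L (nat_lit 337) ln16_14_6_c10 ln16_14_6_c10_ok) (L (nat_lit 401) ln16_15_6_c10 ln16_15_6_c10_ok))) (M (nat_lit 497) (B (L (nat_lit 465) ln16_11_4 ln16_11_4_ok) (L (nat_lit 529) ln16_12_4 ln16_12_4_ok))))))))))))))) (B (M (nat_lit 496) (B (M (nat_lit 495) (B (L (nat_lit 463) ln12_14_0 ln12_14_0_ok) (M (nat_lit 527) (B (L (nat_lit 400) ln16_12_5_c10 ln16_12_5_c10_ok) (M (nat_lit 559) (B (L (nat_lit 591) ln15_18_6_c10 ln15_18_6_c10_ok) (L (nat_lit 528) ln16_13_5_c10 ln16_13_5_c10_ok))))))) (B (M (nat_lit 463) (B (L (nat_lit 497) ln13_14_0 ln13_14_0_ok) (L (nat_lit 495) ln12_14_0 ln12_14_0_ok))) (B (M (nat_lit 497) (B (L (nat_lit 463) ln13_14_0 ln13_14_0_ok)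 (M (nat_lit 529) (B (L (nat_lit 400) ln16_12_4 ln16_12_4_ok) (M (nat_lit 561) (B (L (nat_lit 528) ln16_13_4_c10 ln16_13_4_c10_ok) (L (nat_lit 465) ln17_17_7_c10 ln17_17_7_c10_ok))))))) (M (nat_lit 400) (B (M (nat_lit 527) (B (L (nat_lit 495) ln16_12_5_c10 ln16_12_5_c10_ok) (M (nat_lit 528) (B (L (nat_lit 559) ln16_13_5_c10 ln16_13_5_c10_ok) (M (nat_lit 529) (B (L (nat_lit 561) ln16_13_4_c10 ln16_13_4_c10_ok) (L (nat_lit 497) ln16_12_4 ln16_12_4_ok))))))) (M (nat_lit 367) (B (L (nat_lit 399) ln16_15_7 ln16_15_7_ok) (M (nat_lit 368) (B (L (nat_lit 335) ln16_14_7 ln16_14_7_ok) (M (nat_lit 369) (B (L (nat_lit 401) ln16_15_6_c10 ln16_15_6_c10_ok) (L (nat_lit 337) ln16_14_6_c10 ln16_14_6_c10_ok))))))))))))) (B (M (nat_lit 496) (B (M (nat_lit 463) (B (L (nat_lit 433) ln13_14_2 ln13_14_2_ok) (L (nat_lit 497) ln13_14_0 ln13_14_0_ok))) (B (M (nat_lit 400) (B (M (nat_lit 368) (B (M (nat_lit 367) (B (L (nat_lit 335) ln16_14_7 ln16_14_7_ok)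 (L (nat_lit 399) ln16_15_7 ln16_15_7_ok))) (M (nat_lit 497) (B (L (nat_lit 465) ln16_11_4 ln16_11_4_ok) (L (nat_lit 529) ln16_12_4 ln16_12_4_ok))))) (B (M (nat_lit 368) (B (M (nat_lit 369) (B (L (nat_lit 337) ln16_14_6_c10 ln16_14_6_c10_ok) (L (nat_lit 401) ln16_15_6_c10 ln16_15_6_c10_ok))) (M (nat_lit 497) (B (L (nat_lit 465) ln16_11_4 ln16_11_4_ok) (L (nat_lit 529) ln16_12_4 ln16_12_4_ok))))) (B (M (nat_lit 528) (B (M (nat_lit 401) (B (L (nat_lit 369) ln16_15_6_c10 ln16_15_6_c10_ok) (L (nat_lit 433) ln16_16_6_c10 ln16_16_6_c10_ok))) (M (nat_lit 529) (B (L (nat_lit 497) ln16_12_4 ln16_12_4_ok) (L (nat_lit 561) ln16_13_4_c10 ln16_13_4_c10_ok))))) (M (nat_lit 368) (B (M (nat_lit 367) (B (L (nat_lit 335) ln16_14_7 ln16_14_7_ok) (L (nat_lit 399) ln16_15_7 ln16_15_7_ok))) (M (nat_lit 369) (B (L (nat_lit 337) ln16_14_6_c10 ln16_14_6_c10_ok) (L (nat_lit 401) ln16_15_6_c10 ln16_15_6_c10_ok))))))))) (B (M (nat_lit 497) (B (L (nat_lit 463)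 ln13_14_0 ln13_14_0_ok) (M (nat_lit 529) (B (L (nat_lit 400) ln16_12_4 ln16_12_4_ok) (M (nat_lit 561) (B (L (nat_lit 528) ln16_13_4_c10 ln16_13_4_c10_ok) (L (nat_lit 465) ln17_17_7_c10 ln17_17_7_c10_ok))))))) (M (nat_lit 433) (B (L (nat_lit 463) ln13_14_2 ln13_14_2_ok) (M (nat_lit 401) (B (L (nat_lit 528) ln16_16_6_c10 ln16_16_6_c10_ok) (M (nat_lit 369) (B (L (nat_lit 400) ln16_15_6_c10 ln16_15_6_c10_ok) (L (nat_lit 337) ln17_10_5_c10 ln17_10_5_c10_ok))))))))))) (M (nat_lit 463) (B (M (nat_lit 496) (B (L (nat_lit 495) ln12_14_0 ln12_14_0_ok) (L (nat_lit 497) ln13_14_0 ln13_14_0_ok))) (L (nat_lit 433) ln13_14_2 ln13_14_2_ok))))))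
noncomputable def c10_d423 : Cert := (B (M (nat_lit 368) (B (M (nat_lit 400) (B (M (nat_lit 336) (B (M (nat_lit 304) (B (M (nat_lit 272) (B (M (nat_lit 271) (B (L (nat_lit 239) ln16_11_7_c10 ln16_11_7_c10_ok) (L (nat_lit 303) ln16_12_7_c10 ln16_12_7_c10_ok))) (M (nat_lit 273) (B (L (nat_lit 241) ln16_11_6_c10 ln16_11_6_c10_ok) (L (nat_lit 305) ln16_12_6_c10 ln16_12_6_c10_ok))))) (B (M (nat_lit 305) (B (L (nat_lit 273) ln16_12_6_c10 ln16_12_6_c10_ok) (L (nat_lit 337) ln16_13_6_c10 ln16_13_6_c10_ok))) (B (M (nat_lit 272) (B (M (nat_lit 271) (B (L (nat_lit 239) ln16_11_7_c10 ln16_11_7_c10_ok) (L (nat_lit 303) ln16_12_7_c10 ln16_12_7_c10_ok))) (M (nat_lit 369) (B (L (nat_lit 401) ln16_8_4_c10 ln16_8_4_c10_ok) (M (nat_lit 337) (B (L (nat_lit 240) ln16_7_4_c10 ln16_7_4_c10_ok) (L (nat_lit 305) ln16_13_6_c10 ln16_13_6_c10_ok))))))) (M (nat_lit 272) (B (M (nat_lit 271) (B (L (nat_lit 239) ln16_11_7_c10 ln16_11_7_c10_ok) (L (nat_lit 303)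 ln16_12_7_c10 ln16_12_7_c10_ok))) (M (nat_lit 240) (B (M (nat_lit 241) (B (L (nat_lit 209) ln16_10_6_c10 ln16_10_6_c10_ok) (L (nat_lit 273) ln16_11_6_c10 ln16_11_6_c10_ok))) (M (nat_lit 369) (B (L (nat_lit 337) ln16_7_4_c10 ln16_7_4_c10_ok) (L (nat_lit 401) ln16_8_4_c10 ln16_8_4_c10_ok))))))))))) (M (nat_lit 334) (B (L (nat_lit 366) ln13_14_6 ln13_14_6_ok) (M (nat_lit 333) (B (L (nat_lit 302) ln13_13_6 ln13_13_6_ok) (M (nat_lit 300) (B (L (nat_lit 332) ln13_13_7 ln13_13_7_ok) (M (nat_lit 301) (B (L (nat_lit 268) ln13_12_7 ln13_12_7_ok) (L (nat_lit 335) ln16_10_3 ln16_10_3_ok))))))))))) (B (M (nat_lit 336) (B (M (nat_lit 431) (B (L (nat_lit 463) ln16_10_5 ln16_10_5_ok) (M (nat_lit 399) (B (L (nat_lit 304) ln16_9_5 ln16_9_5_ok) (M (nat_lit 398) (B (L (nat_lit 396) ln12_12_0 ln12_12_0_ok) (L (nat_lit 369) ln13_12_2 ln13_12_2_ok))))))) (M (nat_lit 334) (B (L (nat_lit 366) ln13_14_6 ln13_14_6_ok) (M (nat_lit 333) (B (L (nat_lit 302)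 ln13_13_6 ln13_13_6_ok) (M (nat_lit 300) (B (L (nat_lit 332) ln13_13_7 ln13_13_7_ok) (M (nat_lit 301) (B (L (nat_lit 268) ln13_12_7 ln13_12_7_ok) (L (nat_lit 335) ln16_10_3 ln16_10_3_ok))))))))))) (M (nat_lit 463) (B (M (nat_lit 495) (B (L (nat_lit 464) ln16_11_5_c10 ln16_11_5_c10_ok) (L (nat_lit 496) ln12_14_0 ln12_14_0_ok))) (L (nat_lit 431) ln12_14_2 ln12_14_2_ok)))))) (B (M (nat_lit 463) (B (L (nat_lit 431) ln12_14_2 ln12_14_2_ok) (M (nat_lit 496) (B (L (nat_lit 495) ln12_14_0 ln12_14_0_ok) (M (nat_lit 464) (B (L (nat_lit 497) ln13_14_0 ln13_14_0_ok) (M (nat_lit 400) (B (M (nat_lit 369) (B (L (nat_lit 337) ln16_14_6_c10 ln16_14_6_c10_ok) (M (nat_lit 399) (B (L (nat_lit 398) ln13_12_2 ln13_12_2_ok) (L (nat_lit 367) ln16_15_7 ln16_15_7_ok))))) (B (M (nat_lit 369) (B (L (nat_lit 337) ln16_14_6_c10 ln16_14_6_c10_ok) (M (nat_lit 399) (B (L (nat_lit 398) ln13_12_2 ln13_12_2_ok) (L (nat_lit 401) ln16_15_6_c10 ln16_15_6_c10_ok)))))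 (B (M (nat_lit 399) (B (L (nat_lit 367) ln16_15_7 ln16_15_7_ok) (M (nat_lit 369) (B (L (nat_lit 398) ln13_12_2 ln13_12_2_ok) (L (nat_lit 401) ln16_15_6_c10 ln16_15_6_c10_ok))))) (B (M (nat_lit 335) (B (L (nat_lit 367) ln16_14_7 ln16_14_7_ok) (M (nat_lit 336) (B (L (nat_lit 303) ln16_13_7 ln16_13_7_ok) (M (nat_lit 337) (B (L (nat_lit 305) ln16_13_6_c10 ln16_13_6_c10_ok) (L (nat_lit 369) ln16_14_6_c10 ln16_14_6_c10_ok))))))) (M (nat_lit 367) (B (L (nat_lit 335) ln16_14_7 ln16_14_7_ok) (L (nat_lit 399) ln16_15_7 ln16_15_7_ok)))))))))))))) (B (M (nat_lit 366) (B (L (nat_lit 334) ln13_14_6 ln13_14_6_ok) (M (nat_lit 367) (B (L (nat_lit 396) ln16_11_1 ln16_11_1_ok) (M (nat_lit 400) (B (L (nat_lit 401) ln13_11_0 ln13_11_0_ok) (M (nat_lit 335) (B (L (nat_lit 464) ln16_14_7 ln16_14_7_ok) (M (nat_lit 303) (B (L (nat_lit 336) ln16_13_7 ln16_13_7_ok) (L (nat_lit 271) ln15_8_4 ln15_8_4_ok))))))))))) (B (M (nat_lit 366) (B (L (nat_lit 334) ln13_14_6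 ln13_14_6_ok) (M (nat_lit 367) (B (L (nat_lit 396) ln16_11_1 ln16_11_1_ok) (M (nat_lit 400) (B (L (nat_lit 401) ln13_11_0 ln13_11_0_ok) (M (nat_lit 369) (B (L (nat_lit 398) ln17_11_1 ln17_11_1_ok) (M (nat_lit 337) (B (L (nat_lit 338) ln14_11_2 ln14_11_2_ok) (L (nat_lit 464) ln16_14_6_c10 ln16_14_6_c10_ok))))))))))) (M (nat_lit 366) (B (L (nat_lit 334) ln13_14_6 ln13_14_6_ok) (M (nat_lit 367) (B (L (nat_lit 396) ln16_11_1 ln16_11_1_ok) (M (nat_lit 369) (B (L (nat_lit 398) ln17_11_1 ln17_11_1_ok) (M (nat_lit 337) (B (L (nat_lit 336) ln13_11_2 ln13_11_2_ok) (L (nat_lit 338) ln14_11_2 ln14_11_2_ok)))))))))))))) (B (M (nat_lit 431) (B (L (nat_lit 463) ln12_14_2 ln12_14_2_ok) (M (nat_lit 333) (B (M (nat_lit 302) (B (M (nat_lit 270) (B (L (nat_lit 301) ln13_12_6 ln13_12_6_ok) (L (nat_lit 334) ln13_13_6 ln13_13_6_ok))) (B (M (nat_lit 332) (B (L (nat_lit 334) ln13_13_6 ln13_13_6_ok) (L (nat_lit 300) ln13_13_7 ln13_13_7_ok))) (M (nat_lit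 301) (B (L (nat_lit 270) ln13_12_6 ln13_12_6_ok) (M (nat_lit 300) (B (L (nat_lit 268) ln13_12_7 ln13_12_7_ok) (L (nat_lit 332) ln13_13_7 ln13_13_7_ok)))))))) (B (M (nat_lit 301) (B (M (nat_lit 269) (B (M (nat_lit 268) (B (L (nat_lit 236) ln13_11_7 ln13_11_7_ok) (L (nat_lit 300) ln13_12_7 ln13_12_7_ok))) (M (nat_lit 270) (B (L (nat_lit 238) ln13_11_6 ln13_11_6_ok) (L (nat_lit 302) ln13_12_6 ln13_12_6_ok))))) (B (M (nat_lit 302) (B (L (nat_lit 270) ln13_12_6 ln13_12_6_ok) (L (nat_lit 334) ln13_13_6 ln13_13_6_ok))) (M (nat_lit 269) (B (M (nat_lit 268) (B (L (nat_lit 236) ln13_11_7 ln13_11_7_ok) (L (nat_lit 300) ln13_12_7 ln13_12_7_ok))) (M (nat_lit 366) (B (L (nat_lit 398) ln13_8_4 ln13_8_4_ok) (L (nat_lit 334) ln13_14_6 ln13_14_6_ok)))))))) (B (M (nat_lit 334) (B (L (nat_lit 302) ln13_13_6 ln13_13_6_ok) (L (nat_lit 366) ln13_14_6 ln13_14_6_ok))) (B (M (nat_lit 300) (B (L (nat_lit 332) ln13_13_7 ln13_13_7_ok) (M (nat_lit 301) (B (L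 (nat_lit 268) ln13_12_7 ln13_12_7_ok) (M (nat_lit 270) (B (L (nat_lit 302) ln13_12_6 ln13_12_6_ok) (M (nat_lit 269) (B (L (nat_lit 238) ln13_11_6 ln13_11_6_ok) (M (nat_lit 398) (B (L (nat_lit 366) ln13_8_4 ln13_8_4_ok) (M (nat_lit 399) (B (L (nat_lit 396) ln12_12_0 ln12_12_0_ok) (M (nat_lit 433) (B (L (nat_lit 434) ln18_13_3 ln18_13_3_ok) (L (nat_lit 400) ln13_12_0 ln13_12_0_ok))))))))))))))) (M (nat_lit 300) (B (L (nat_lit 332) ln13_13_7 ln13_13_7_ok) (M (nat_lit 301) (B (L (nat_lit 268) ln13_12_7 ln13_12_7_ok) (M (nat_lit 366) (B (L (nat_lit 334) ln13_14_6 ln13_14_6_ok) (M (nat_lit 398) (B (L (nat_lit 269) ln13_8_4 ln13_8_4_ok) (M (nat_lit 399) (B (L (nat_lit 396) ln12_12_0 ln12_12_0_ok) (M (nat_lit 433) (B (L (nat_lit 434) ln18_13_3 ln18_13_3_ok) (L (nat_lit 400) ln13_12_0 ln13_12_0_ok)))))))))))))))))))) (M (nat_lit 463) (B (M (nat_lit 464) (B (M (nat_lit 496) (B (L (nat_lit 495) ln12_14_0 ln12_14_0_ok) (L (nat_lit 497) ln13_14_0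 ln13_14_0_ok))) (L (nat_lit 433) ln13_14_2 ln13_14_2_ok))) (L (nat_lit 431) ln12_14_2 ln12_14_2_ok)))))
noncomputable def c10_d424 : Cert := (B (M (nat_lit 368) (B (M (nat_lit 400) (B (K (nat_lit 20839919915480654392278910201391882264833254797226309034078309659991520807573229041605793484315136322418169375090824674936824626068561330176) (nat_lit 95268205293055143926540988310982715826348507650890199107008057378140319461134281230757158921221443588312565372403221519776461407074115387392) (nat_lit 95268205293055143926540988310982715826348507650890199107008057378140319461134281230757158921221443588312565372403221519776461407074115387392) c10_s483) (B (K (nat_lit 20839919915480654392278910201391882264833254797226309034078309659991520807573229041605793484315136322418169375090824674936824626068561330176) (nat_lit 1886981215486200028575344638426209345490710109348476761097858108934937570891846352561445466106864819453559820064456948756251275744400324072773313786214803639990115893248)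 (nat_lit 1886981215486200028575344638426209345490710109348476761097858108934937570891846352561445466106864819453559820064456948756251275744400324072773313786214803639990115893248) c10_s485) (B (K (nat_lit 20839919915480654392278910201391882264833254797226309034078309659991520807573229041605793484315136322418169375090824674936824626068561330176) (nat_lit 1886981215486200028575344638426209345446347394206230834434006329945002051747244782111034042700410436211369590624517703926137904326233181212431773261827659177242006650880) (nat_lit 1886981215486200028575344638426209345446347394206230834434006329945002051747244782111034042700410436211369590624517703926137904326233181212431773261827659177242006650880) c10_s486) (B (K (nat_lit 20839919915480654392278910201391882264833254797226309034078309659991520807573229041605793484315136322418169375090824674936824626068561330176) (nat_lit 1757388201607196826158795513126347108255771006634882027317982008270292732334466511352681035784459304676199671705166794746034232672662689522076625475933151690752)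 (nat_lit 1757388201607196826158795513126347108255771006634882027317982008270292732334466511352681035784459304676199671705166794746034232672662689522076625475933151690752) c10_s487) (B (K (nat_lit 20839919915480654392278910201391882264833254797226309034078309659991520807573229041605793484315136322418169375090824674936824626068561330176) (nat_lit 409173826129920041685686088588235122539627078011959481014658647323252466365272147415686690092213348288885836317830886059952399241510935545841792843776) (nat_lit 409173826129920041685686088588235122539627078011959481014658647323252466365272147415686690092213348288885836317830886059952399241510935545841792843776) c10_s488) (B (M (nat_lit 335) (B (M (nat_lit 303) (B (L (nat_lit 336) ln16_13_7 ln16_13_7_ok) (M (nat_lit 367) (B (L (nat_lit 399) ln15_9_4 ln15_9_4_ok) (L (nat_lit 464) ln16_14_7 ln16_14_7_ok))))) (B (M (nat_lit 369) (B (M (nat_lit 464) (B (L (nat_lit 367) ln16_14_7 ln16_14_7_ok)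 (L (nat_lit 337) ln16_14_6_c10 ln16_14_6_c10_ok))) (B (M (nat_lit 337) (B (L (nat_lit 464) ln16_14_6_c10 ln16_14_6_c10_ok) (M (nat_lit 305) (B (L (nat_lit 336) ln16_13_6_c10 ln16_13_6_c10_ok) (L (nat_lit 273) ln17_8_5_c10 ln17_8_5_c10_ok))))) (B (M (nat_lit 370) (B (M (nat_lit 371) (B (L (nat_lit 336) ln19_11_3_c10 ln19_11_3_c10_ok) (L (nat_lit 399) ln19_11_1_c10 ln19_11_1_c10_ok))) (B (M (nat_lit 334) (B (L (nat_lit 367) ln18_11_3 ln18_11_3_ok) (M (nat_lit 336) (B (L (nat_lit 333) ln13_10_0 ln13_10_0_ok) (L (nat_lit 371) ln19_11_3_c10 ln19_11_3_c10_ok))))) (B (M (nat_lit 367) (B (L (nat_lit 334) ln18_11_3 ln18_11_3_ok) (M (nat_lit 399) (B (L (nat_lit 398) ln18_11_1 ln18_11_1_ok) (L (nat_lit 371) ln19_11_1_c10 ln19_11_1_c10_ok))))) (M (nat_lit 334) (B (L (nat_lit 367) ln18_11_3 ln18_11_3_ok) (M (nat_lit 336) (B (L (nat_lit 333) ln13_10_0 ln13_10_0_ok) (L (nat_lit 337) ln14_10_0 ln14_10_0_ok))))))))) (M (nat_lit 370) (B (M (nat_lit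 367) (B (L (nat_lit 334) ln18_11_3 ln18_11_3_ok) (L (nat_lit 464) ln16_14_7 ln16_14_7_ok))) (M (nat_lit 371) (B (L (nat_lit 336) ln19_11_3_c10 ln19_11_3_c10_ok) (L (nat_lit 399) ln19_11_1_c10 ln19_11_1_c10_ok))))))))) (B (M (nat_lit 336) (B (L (nat_lit 303) ln16_13_7 ln16_13_7_ok) (M (nat_lit 337) (B (L (nat_lit 305) ln16_13_6_c10 ln16_13_6_c10_ok) (M (nat_lit 369) (B (L (nat_lit 464) ln16_14_6_c10 ln16_14_6_c10_ok) (M (nat_lit 370) (B (L (nat_lit 334) ln14_10_0 ln14_10_0_ok) (L (nat_lit 371) ln19_11_3_c10 ln19_11_3_c10_ok))))))))) (B (M (nat_lit 367) (B (L (nat_lit 464) ln16_14_7 ln16_14_7_ok) (M (nat_lit 303) (B (L (nat_lit 271) ln15_8_4 ln15_8_4_ok) (L (nat_lit 399) ln15_9_4 ln15_9_4_ok))))) (M (nat_lit 303) (B (L (nat_lit 336) ln16_13_7 ln16_13_7_ok) (M (nat_lit 367) (B (L (nat_lit 271) ln15_8_4 ln15_8_4_ok) (L (nat_lit 399) ln15_9_4 ln15_9_4_ok)))))))))) (K (nat_lit 20839919915480654392278910201391882264833254797226309034078309659991520807573229041605793484315136322418169375090824674936824626068561330176)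 (nat_lit 409173826129920041680140749198702367882328635700910474074066053310815177471736103683275282399105008190997776072825565465506487307280751877554016616448) (nat_lit 409173826129920041680140749198702367882328635700910474074066053310815177471736103683275282399105008190997776072825565465506487307280751877554016616448) c10_s489)))))))) c10_d420)) (B (M (nat_lit 464) (B c10_d421 (B (M (nat_lit 368) (B (M (nat_lit 400) (B (M (nat_lit 336) (B (M (nat_lit 465) (B (L (nat_lit 497) ln16_11_4 ln16_11_4_ok) (L (nat_lit 433) ln16_10_4_c10 ln16_10_4_c10_ok))) (M (nat_lit 337) (B (L (nat_lit 369) ln16_14_6_c10 ln16_14_6_c10_ok) (L (nat_lit 305) ln16_13_6_c10 ln16_13_6_c10_ok))))) (B (M (nat_lit 336) (B (M (nat_lit 337) (B (L (nat_lit 369) ln16_14_6_c10 ln16_14_6_c10_ok) (L (nat_lit 305) ln16_13_6_c10 ln16_13_6_c10_ok))) (M (nat_lit 335) (B (L (nat_lit 367) ln16_14_7 ln16_14_7_ok) (L (nat_lit 303) ln16_13_7 ln16_13_7_ok))))) (B (M (nat_lit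 336) (B (M (nat_lit 465) (B (L (nat_lit 497) ln16_11_4 ln16_11_4_ok) (L (nat_lit 433) ln16_10_4_c10 ln16_10_4_c10_ok))) (M (nat_lit 335) (B (L (nat_lit 367) ln16_14_7 ln16_14_7_ok) (L (nat_lit 303) ln16_13_7 ln16_13_7_ok))))) (M (nat_lit 369) (B (L (nat_lit 337) ln16_14_6_c10 ln16_14_6_c10_ok) (M (nat_lit 367) (B (L (nat_lit 335) ln16_14_7 ln16_14_7_ok) (M (nat_lit 370) (B (M (nat_lit 399) (B (L (nat_lit 371) ln19_11_1_c10 ln19_11_1_c10_ok) (L (nat_lit 398) ln18_11_1 ln18_11_1_ok))) (B (M (nat_lit 371) (B (M (nat_lit 403) (B (L (nat_lit 404) ln16_11_0_c10 ln16_11_0_c10_ok) (L (nat_lit 402) ln15_11_0_c10 ln15_11_0_c10_ok))) (M (nat_lit 339) (B (L (nat_lit 340) ln16_11_2_c10 ln16_11_2_c10_ok) (L (nat_lit 338) ln15_11_2_c10 ln15_11_2_c10_ok))))) (M (nat_lit 366) (B (M (nat_lit 402) (B (L (nat_lit 403) ln15_11_0_c10 ln15_11_0_c10_ok) (L (nat_lit 401) ln13_11_0 ln13_11_0_ok))) (L (nat_lit 398) ln17_11_1 ln17_11_1_ok)))))))))))))) (B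 (M (nat_lit 400) (B (M (nat_lit 335) (B (M (nat_lit 303) (B (L (nat_lit 336) ln16_13_7 ln16_13_7_ok) (L (nat_lit 367) ln16_14_7 ln16_14_7_ok))) (B (M (nat_lit 369) (B (L (nat_lit 367) ln16_14_7 ln16_14_7_ok) (L (nat_lit 337) ln16_14_6_c10 ln16_14_6_c10_ok))) (M (nat_lit 336) (B (L (nat_lit 303) ln16_13_7 ln16_13_7_ok) (M (nat_lit 337) (B (L (nat_lit 305) ln16_13_6_c10 ln16_13_6_c10_ok) (L (nat_lit 369) ln16_14_6_c10 ln16_14_6_c10_ok)))))))) (M (nat_lit 463) (B (L (nat_lit 433) ln13_14_2 ln13_14_2_ok) (L (nat_lit 495) ln16_11_5_c10 ln16_11_5_c10_ok))))) (B (M (nat_lit 336) (B (M (nat_lit 334) (B (L (nat_lit 366) ln13_14_6 ln13_14_6_ok) (M (nat_lit 333) (B (L (nat_lit 302) ln13_13_6 ln13_13_6_ok) (M (nat_lit 300) (B (L (nat_lit 332) ln13_13_7 ln13_13_7_ok) (M (nat_lit 301) (B (L (nat_lit 268) ln13_12_7 ln13_12_7_ok) (L (nat_lit 335) ln16_10_3 ln16_10_3_ok))))))))) (M (nat_lit 400) (B (M (nat_lit 337) (B (L (nat_lit 369) ln16_14_6_c10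 ln16_14_6_c10_ok) (L (nat_lit 305) ln16_13_6_c10 ln16_13_6_c10_ok))) (M (nat_lit 463) (B (L (nat_lit 433) ln13_14_2 ln13_14_2_ok) (L (nat_lit 495) ln16_11_5_c10 ln16_11_5_c10_ok))))))) (B (M (nat_lit 366) (B (L (nat_lit 334) ln13_14_6 ln13_14_6_ok) (M (nat_lit 367) (B (L (nat_lit 396) ln16_11_1 ln16_11_1_ok) (M (nat_lit 400) (B (L (nat_lit 401) ln13_11_0 ln13_11_0_ok) (L (nat_lit 335) ln16_14_7 ln16_14_7_ok))))))) (B (M (nat_lit 366) (B (L (nat_lit 334) ln13_14_6 ln13_14_6_ok) (M (nat_lit 367) (B (L (nat_lit 396) ln16_11_1 ln16_11_1_ok) (M (nat_lit 400) (B (L (nat_lit 401) ln13_11_0 ln13_11_0_ok) (M (nat_lit 369) (B (L (nat_lit 398) ln17_11_1 ln17_11_1_ok) (L (nat_lit 337) ln16_14_6_c10 ln16_14_6_c10_ok))))))))) (M (nat_lit 366) (B (L (nat_lit 334) ln13_14_6 ln13_14_6_ok) (M (nat_lit 367) (B (L (nat_lit 396) ln16_11_1 ln16_11_1_ok) (M (nat_lit 369) (B (L (nat_lit 398) ln17_11_1 ln17_11_1_ok) (M (nat_lit 337) (B (L (nat_lit 336)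 ln13_11_2 ln13_11_2_ok) (L (nat_lit 338) ln14_11_2 ln14_11_2_ok))))))))))))))) c10_d422))) c10_d423))
noncomputable def c10_d425 : Cert := (B (M (nat_lit 394) (B (K (nat_lit 20839919904563267469136299467468243040968311306576724125601814824542818561135580730608205265846292373090681313944358956363619163917254656000) (nat_lit 372141426925996655932789994786910100234634182189446576380755904505120985107464429282941053259197644251385480132285661104914212265916366848) (nat_lit 372141426925996655932789994786910100234634182189446576380755904505120985107464429282941053259197644251385480132285661104914212265916366848) c10_s491) (B (K (nat_lit 20839919904563267469136299467468243040968311306576724125601814824542818561135580730608205265846292373090681313944358956363619163917254656000) (nat_lit 117936325823726750889651195466205648872989789918962247543639927915191653198536774813610808390777848210760419790768124534054248090478619630122515843800706445463005429760)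 (nat_lit 117936325823726750889651195466205648872989789918962247543639927915191653198536774813610808390777848210760419790768124534054248090478619630122515843800706445463005429760) c10_s493) (B (K (nat_lit 20839919904563267469136299467468243040968311306576724125601814824542818561135580730608205265846292373090681313944358956363619163917254656000) (nat_lit 117936325823726750889651195466205648872946466954310743144385318592773228232995304602839978845808246464706339823652308044735793286482158130502913484672682232830599626752) (nat_lit 117936325823726750889651195466205648872946466954310743144385318592773228232995304602839978845808246464706339823652308044735793286482158130502913484672682232830599626752) c10_s494) (B (K (nat_lit 20839919904563267469136299467468243040968311306576724125601814824542818561135580730608205265846292373090681313944358956363619163917254656000) (nat_lit 6864797664925615489383689147434808385902572745211955656829550289524365464269608193986424582049658647957704942614348580296750875855566989832296963184388997120)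 (nat_lit 6864797664925615489383689147434808385902572745211955656829550289524365464269608193986424582049658647957704942614348580296750875855566989832296963184388997120) c10_s495) (B (K (nat_lit 20839919904563267469136299467468243040968311306576724125601814824542818561135580730608205265846292373090681313944358956363619163917254656000) (nat_lit 1598335258878212303418659605345108975149942637536201948573167135316174625693644481186534078144139401364664437469883662237871533755125320410147586048) (nat_lit 1598335258878212303418659605345108975149942637536201948573167135316174625693644481186534078144139401364664437469883662237871533755125320410147586048) c10_s496) (B (M (nat_lit 329) (B (M (nat_lit 297) (B (L (nat_lit 330) ln10_13_7_c10 ln10_13_7_c10_ok) (M (nat_lit 361) (B (L (nat_lit 393) ln9_9_4_c10 ln9_9_4_c10_ok) (L (nat_lit 458) ln10_14_7 ln10_14_7_ok))))) (B (M (nat_lit 363) (B (M (nat_lit 458) (B (L (nat_lit 361) ln10_14_7 ln10_14_7_ok)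 (L (nat_lit 331) ln10_14_6 ln10_14_6_ok))) (B (M (nat_lit 331) (B (L (nat_lit 458) ln10_14_6 ln10_14_6_ok) (M (nat_lit 299) (B (L (nat_lit 330) ln10_13_6 ln10_13_6_ok) (L (nat_lit 267) ln11_8_5 ln11_8_5_ok))))) (M (nat_lit 364) (B (L (nat_lit 330) ln13_11_3 ln13_11_3_ok) (M (nat_lit 361) (B (L (nat_lit 328) ln12_11_3 ln12_11_3_ok) (L (nat_lit 393) ln13_11_1 ln13_11_1_ok)))))))) (B (M (nat_lit 330) (B (L (nat_lit 297) ln10_13_7_c10 ln10_13_7_c10_ok) (M (nat_lit 331) (B (L (nat_lit 299) ln10_13_6 ln10_13_6_ok) (M (nat_lit 363) (B (L (nat_lit 458) ln10_14_6 ln10_14_6_ok) (L (nat_lit 364) ln13_11_3 ln13_11_3_ok))))))) (B (M (nat_lit 361) (B (L (nat_lit 458) ln10_14_7 ln10_14_7_ok) (M (nat_lit 297) (B (L (nat_lit 265) ln9_8_4_c10 ln9_8_4_c10_ok) (L (nat_lit 393) ln9_9_4_c10 ln9_9_4_c10_ok))))) (M (nat_lit 297) (B (L (nat_lit 330) ln10_13_7_c10 ln10_13_7_c10_ok) (M (nat_lit 361) (B (L (nat_lit 265) ln9_8_4_c10 ln9_8_4_c10_ok) (L (nat_lit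 393) ln9_9_4_c10 ln9_9_4_c10_ok)))))))))) (K (nat_lit 20839919904563267469136299467468243040968311306576724125601814824542818561135580730608205265846292373090681313944358956363619163917254656000) (nat_lit 1598335258878212303072075893499311808998333715596019637513573002202725905621333198946167657451520054756294678012004605368990073784746616084498481152) (nat_lit 1598335258878212303072075893499311808998333715596019637513573002202725905621333198946167657451520054756294678012004605368990073784746616084498481152) c10_s497)))))))) (B (M (nat_lit 332) (B (L (nat_lit 364) ln13_14_7 ln13_14_7_ok) (M (nat_lit 333) (B (L (nat_lit 300) ln13_13_7 ln13_13_7_ok) (M (nat_lit 302) (B (L (nat_lit 334) ln13_13_6 ln13_13_6_ok) (M (nat_lit 301) (B (L (nat_lit 270) ln13_12_6 ln13_12_6_ok) (M (nat_lit 330) (B (L (nat_lit 331) ln10_10_2 ln10_10_2_ok) (M (nat_lit 303) (B (L (nat_lit 304) ln16_9_1 ln16_9_1_ok) (M (nat_lit 394) (B (M (nat_lit 298) (B (M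 (nat_lit 266) (B (M (nat_lit 393) (B (L (nat_lit 425) ln10_9_5_c10 ln10_9_5_c10_ok) (L (nat_lit 361) ln10_8_5_c10 ln10_8_5_c10_ok))) (M (nat_lit 267) (B (L (nat_lit 299) ln10_12_6_c10 ln10_12_6_c10_ok) (L (nat_lit 235) ln10_11_6_c10 ln10_11_6_c10_ok))))) (B (M (nat_lit 265) (B (L (nat_lit 297) ln10_12_7_c10 ln10_12_7_c10_ok) (M (nat_lit 266) (B (L (nat_lit 233) ln10_11_7_c10 ln10_11_7_c10_ok) (M (nat_lit 267) (B (L (nat_lit 299) ln10_12_6_c10 ln10_12_6_c10_ok) (L (nat_lit 235) ln10_11_6_c10 ln10_11_6_c10_ok))))))) (B (M (nat_lit 266) (B (M (nat_lit 393) (B (L (nat_lit 425) ln10_9_5_c10 ln10_9_5_c10_ok) (L (nat_lit 361) ln10_8_5_c10 ln10_8_5_c10_ok))) (M (nat_lit 265) (B (L (nat_lit 297) ln10_12_7_c10 ln10_12_7_c10_ok) (L (nat_lit 233) ln10_11_7_c10 ln10_11_7_c10_ok))))) (M (nat_lit 425) (B (L (nat_lit 457) ln10_10_5 ln10_10_5_ok) (L (nat_lit 393) ln10_9_5_c10 ln10_9_5_c10_ok))))))) (B (M (nat_lit 298) (B (M (nat_lit 266) (B (M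 (nat_lit 265) (B (L (nat_lit 233) ln10_11_7_c10 ln10_11_7_c10_ok) (L (nat_lit 297) ln10_12_7_c10 ln10_12_7_c10_ok))) (M (nat_lit 393) (B (L (nat_lit 361) ln10_8_5_c10 ln10_8_5_c10_ok) (L (nat_lit 425) ln10_9_5_c10 ln10_9_5_c10_ok))))) (B (M (nat_lit 297) (B (L (nat_lit 265) ln10_12_7_c10 ln10_12_7_c10_ok) (L (nat_lit 329) ln10_13_7_c10 ln10_13_7_c10_ok))) (M (nat_lit 425) (B (L (nat_lit 393) ln10_9_5_c10 ln10_9_5_c10_ok) (L (nat_lit 457) ln10_10_5 ln10_10_5_ok)))))) (B (M (nat_lit 458) (B (M (nat_lit 329) (B (L (nat_lit 297) ln10_13_7_c10 ln10_13_7_c10_ok) (L (nat_lit 361) ln10_14_7 ln10_14_7_ok))) (M (nat_lit 457) (B (L (nat_lit 425) ln10_10_5 ln10_10_5_ok) (L (nat_lit 489) ln10_11_5 ln10_11_5_ok))))) (B (M (nat_lit 298) (B (M (nat_lit 425) (B (L (nat_lit 457) ln10_10_5 ln10_10_5_ok) (L (nat_lit 393) ln10_9_5_c10 ln10_9_5_c10_ok))) (M (nat_lit 297) (B (L (nat_lit 329) ln10_13_7_c10 ln10_13_7_c10_ok) (L (nat_lit 265) ln10_12_7_c10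 ln10_12_7_c10_ok))))) (B (M (nat_lit 298) (B (M (nat_lit 297) (B (L (nat_lit 265) ln10_12_7_c10 ln10_12_7_c10_ok) (L (nat_lit 329) ln10_13_7_c10 ln10_13_7_c10_ok))) (M (nat_lit 266) (B (M (nat_lit 267) (B (L (nat_lit 235) ln10_11_6_c10 ln10_11_6_c10_ok) (L (nat_lit 299) ln10_12_6_c10 ln10_12_6_c10_ok))) (M (nat_lit 393) (B (L (nat_lit 361) ln10_8_5_c10 ln10_8_5_c10_ok) (L (nat_lit 425) ln10_9_5_c10 ln10_9_5_c10_ok))))))) (B (M (nat_lit 425) (B (L (nat_lit 457) ln10_10_5 ln10_10_5_ok) (M (nat_lit 395) (B (M (nat_lit 298) (B (L (nat_lit 427) ln10_9_4 ln10_9_4_ok) (L (nat_lit 393) ln10_9_5_c10 ln10_9_5_c10_ok))) (M (nat_lit 424) (B (L (nat_lit 423) ln7_13_2 ln7_13_2_ok) (L (nat_lit 396) ln13_12_1 ln13_12_1_ok))))))) (M (nat_lit 298) (B (M (nat_lit 297) (B (L (nat_lit 265) ln10_12_7_c10 ln10_12_7_c10_ok) (L (nat_lit 329) ln10_13_7_c10 ln10_13_7_c10_ok))) (B (M (nat_lit 329) (B (L (nat_lit 297) ln10_13_7_c10 ln10_13_7_c10_ok) (M (nat_lit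 361) (B (L (nat_lit 458) ln10_14_7 ln10_14_7_ok) (M (nat_lit 266) (B (L (nat_lit 234) ln10_7_5_c10 ln10_7_5_c10_ok) (L (nat_lit 393) ln10_8_5_c10 ln10_8_5_c10_ok))))))) (B (M (nat_lit 266) (B (M (nat_lit 267) (B (L (nat_lit 235) ln10_11_6_c10 ln10_11_6_c10_ok) (L (nat_lit 299) ln10_12_6_c10 ln10_12_6_c10_ok))) (M (nat_lit 361) (B (L (nat_lit 393) ln10_8_5_c10 ln10_8_5_c10_ok) (M (nat_lit 329) (B (L (nat_lit 234) ln10_7_5_c10 ln10_7_5_c10_ok) (L (nat_lit 458) ln10_14_7 ln10_14_7_ok))))))) (M (nat_lit 266) (B (M (nat_lit 265) (B (L (nat_lit 233) ln10_11_7_c10 ln10_11_7_c10_ok) (L (nat_lit 297) ln10_12_7_c10 ln10_12_7_c10_ok))) (M (nat_lit 267) (B (L (nat_lit 235) ln10_11_6_c10 ln10_11_6_c10_ok) (L (nat_lit 299) ln10_12_6_c10 ln10_12_6_c10_ok)))))))))))))))))))))))))))) (B (M (nat_lit 364) (B (L (nat_lit 332) ln13_14_7 ln13_14_7_ok) (M (nat_lit 363) (B (L (nat_lit 398) ln10_11_0 ln10_11_0_ok) (M (nat_lit 394) (B (L (nat_lit 393) ln13_11_1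 ln13_11_1_ok) (M (nat_lit 361) (B (L (nat_lit 396) ln9_11_0 ln9_11_0_ok) (M (nat_lit 329) (B (L (nat_lit 328) ln12_11_3 ln12_11_3_ok) (L (nat_lit 458) ln10_14_7 ln10_14_7_ok))))))))))) (B (M (nat_lit 364) (B (L (nat_lit 332) ln13_14_7 ln13_14_7_ok) (M (nat_lit 363) (B (L (nat_lit 398) ln10_11_0 ln10_11_0_ok) (M (nat_lit 394) (B (L (nat_lit 393) ln13_11_1 ln13_11_1_ok) (M (nat_lit 331) (B (L (nat_lit 458) ln10_14_6 ln10_14_6_ok) (M (nat_lit 299) (B (L (nat_lit 330) ln10_13_6 ln10_13_6_ok) (L (nat_lit 267) ln11_8_5 ln11_8_5_ok))))))))))) (M (nat_lit 364) (B (L (nat_lit 332) ln13_14_7 ln13_14_7_ok) (M (nat_lit 363) (B (L (nat_lit 398) ln10_11_0 ln10_11_0_ok) (M (nat_lit 361) (B (L (nat_lit 396) ln9_11_0 ln9_11_0_ok) (M (nat_lit 329) (B (L (nat_lit 330) ln13_11_3 ln13_11_3_ok) (L (nat_lit 328) ln12_11_3 ln12_11_3_ok)))))))))))))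
noncomputable def c10_d426 : Cert := (B (M (nat_lit 394) (B (M (nat_lit 362) (B (M (nat_lit 457) (B (L (nat_lit 489) ln10_11_5 ln10_11_5_ok) (M (nat_lit 329) (B (L (nat_lit 361) ln10_14_7 ln10_14_7_ok) (M (nat_lit 330) (B (L (nat_lit 297) ln10_13_7_c10 ln10_13_7_c10_ok) (L (nat_lit 425) ln10_10_5 ln10_10_5_ok))))))) (B (M (nat_lit 330) (B (M (nat_lit 331) (B (L (nat_lit 299) ln10_13_6 ln10_13_6_ok) (L (nat_lit 363) ln10_14_6 ln10_14_6_ok))) (M (nat_lit 457) (B (L (nat_lit 425) ln10_10_5 ln10_10_5_ok) (L (nat_lit 489) ln10_11_5 ln10_11_5_ok))))) (M (nat_lit 361) (B (L (nat_lit 329) ln10_14_7 ln10_14_7_ok) (M (nat_lit 363) (B (L (nat_lit 331) ln10_14_6 ln10_14_6_ok) (M (nat_lit 360) (B (M (nat_lit 395) (B (L (nat_lit 359) ln7_11_0 ln7_11_0_ok) (L (nat_lit 396) ln8_11_0 ln8_11_0_ok))) (B (M (nat_lit 364) (B (M (nat_lit 392) (B (L (nat_lit 391) ln11_11_1 ln11_11_1_ok) (L (nat_lit 393) ln12_11_1 ln12_11_1_ok))) (L (nat_lit 396) ln9_11_0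 ln9_11_0_ok))) (M (nat_lit 359) (B (M (nat_lit 327) (B (L (nat_lit 326) ln10_11_3 ln10_11_3_ok) (L (nat_lit 328) ln11_11_3 ln11_11_3_ok))) (M (nat_lit 391) (B (L (nat_lit 390) ln10_11_1 ln10_11_1_ok) (L (nat_lit 392) ln11_11_1 ln11_11_1_ok))))))))))))))) (B (M (nat_lit 395) (B (M (nat_lit 490) (B (L (nat_lit 363) ln10_15_6 ln10_15_6_ok) (M (nat_lit 521) (B (L (nat_lit 489) ln10_12_5 ln10_12_5_ok) (M (nat_lit 523) (B (L (nat_lit 491) ln10_12_4 ln10_12_4_ok) (M (nat_lit 522) (B (L (nat_lit 553) ln10_13_5 ln10_13_5_ok) (L (nat_lit 555) ln10_13_4 ln10_13_4_ok))))))))) (M (nat_lit 396) (B (M (nat_lit 364) (B (L (nat_lit 393) ln9_12_2 ln9_12_2_ok) (L (nat_lit 332) ln13_14_7 ln13_14_7_ok))) (L (nat_lit 425) ln13_12_1 ln13_12_1_ok))))) (B (M (nat_lit 490) (B (M (nat_lit 361) (B (L (nat_lit 393) ln10_15_7 ln10_15_7_ok) (M (nat_lit 362) (B (L (nat_lit 329) ln10_14_7 ln10_14_7_ok) (M (nat_lit 363) (B (L (nat_lit 331) ln10_14_6 ln10_14_6_ok)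 (L (nat_lit 395) ln10_15_6 ln10_15_6_ok))))))) (M (nat_lit 521) (B (L (nat_lit 489) ln10_12_5 ln10_12_5_ok) (M (nat_lit 522) (B (L (nat_lit 553) ln10_13_5 ln10_13_5_ok) (M (nat_lit 523) (B (L (nat_lit 491) ln10_12_4 ln10_12_4_ok) (L (nat_lit 555) ln10_13_4 ln10_13_4_ok))))))))) (B (K (nat_lit 21584202758241968925058807046736165513815344727008979896942903440394290461968066924611395737891057428124443702295320726574019521172828323840) (nat_lit 3196670515523576045021401491511737514726819733727406740350294164996466037892082565121527789293100666708836183538039696783796614039526380606180032512) (nat_lit 3196670515523576045021401491511737514726819733727406740350294164996466037892082565121527789293100666708836183538039696783796614039526380606180032512) c10_s498) (B (M (nat_lit 362) (B (M (nat_lit 331) (B (L (nat_lit 363) ln10_14_6 ln10_14_6_ok) (M (nat_lit 330) (B (L (nat_lit 299) ln10_13_6 ln10_13_6_ok) (M (nat_lit 329) (B (L (nat_lit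 361) ln10_14_7 ln10_14_7_ok) (L (nat_lit 297) ln10_13_7_c10 ln10_13_7_c10_ok))))))) (B (M (nat_lit 330) (B (M (nat_lit 457) (B (L (nat_lit 489) ln10_11_5 ln10_11_5_ok) (L (nat_lit 425) ln10_10_5 ln10_10_5_ok))) (M (nat_lit 329) (B (L (nat_lit 361) ln10_14_7 ln10_14_7_ok) (L (nat_lit 297) ln10_13_7_c10 ln10_13_7_c10_ok))))) (B (M (nat_lit 330) (B (M (nat_lit 457) (B (L (nat_lit 489) ln10_11_5 ln10_11_5_ok) (L (nat_lit 425) ln10_10_5 ln10_10_5_ok))) (M (nat_lit 331) (B (L (nat_lit 363) ln10_14_6 ln10_14_6_ok) (L (nat_lit 299) ln10_13_6 ln10_13_6_ok))))) (M (nat_lit 490) (B (M (nat_lit 489) (B (L (nat_lit 521) ln10_12_5 ln10_12_5_ok) (L (nat_lit 457) ln10_11_5 ln10_11_5_ok))) (M (nat_lit 363) (B (L (nat_lit 395) ln10_15_6 ln10_15_6_ok) (L (nat_lit 331) ln10_14_6 ln10_14_6_ok))))))))) (M (nat_lit 490) (B (M (nat_lit 522) (B (M (nat_lit 393) (B (L (nat_lit 361) ln10_15_7 ln10_15_7_ok) (L (nat_lit 425) ln10_16_7 ln10_16_7_ok))) (M (nat_lit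 523) (B (L (nat_lit 491) ln10_12_4 ln10_12_4_ok) (L (nat_lit 555) ln10_13_4 ln10_13_4_ok))))) (B (M (nat_lit 521) (B (L (nat_lit 489) ln10_12_5 ln10_12_5_ok) (M (nat_lit 522) (B (L (nat_lit 553) ln10_13_5 ln10_13_5_ok) (M (nat_lit 523) (B (L (nat_lit 491) ln10_12_4 ln10_12_4_ok) (L (nat_lit 555) ln10_13_4 ln10_13_4_ok))))))) (B (M (nat_lit 522) (B (M (nat_lit 393) (B (L (nat_lit 361) ln10_15_7 ln10_15_7_ok) (L (nat_lit 425) ln10_16_7 ln10_16_7_ok))) (M (nat_lit 521) (B (L (nat_lit 489) ln10_12_5 ln10_12_5_ok) (L (nat_lit 553) ln10_13_5 ln10_13_5_ok))))) (M (nat_lit 362) (B (M (nat_lit 361) (B (L (nat_lit 329) ln10_14_7 ln10_14_7_ok) (L (nat_lit 393) ln10_15_7 ln10_15_7_ok))) (M (nat_lit 489) (B (L (nat_lit 457) ln10_11_5 ln10_11_5_ok) (L (nat_lit 521) ln10_12_5 ln10_12_5_ok))))))))))))))) (B (M (nat_lit 490) (B (M (nat_lit 491) (B (L (nat_lit 459) ln14_14_1 ln14_14_1_ok) (M (nat_lit 523) (B (L (nat_lit 394) ln10_12_4 ln10_12_4_ok)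 (M (nat_lit 555) (B (L (nat_lit 587) ln11_18_7 ln11_18_7_ok) (L (nat_lit 522) ln10_13_4 ln10_13_4_ok))))))) (B (M (nat_lit 459) (B (L (nat_lit 489) ln13_14_1 ln13_14_1_ok) (L (nat_lit 491) ln14_14_1 ln14_14_1_ok))) (B (M (nat_lit 489) (B (L (nat_lit 459) ln13_14_1 ln13_14_1_ok) (M (nat_lit 521) (B (L (nat_lit 394) ln10_12_5 ln10_12_5_ok) (M (nat_lit 553) (B (L (nat_lit 522) ln10_13_5 ln10_13_5_ok) (L (nat_lit 457) ln9_17_6 ln9_17_6_ok))))))) (M (nat_lit 394) (B (M (nat_lit 523) (B (L (nat_lit 491) ln10_12_4 ln10_12_4_ok) (M (nat_lit 522) (B (L (nat_lit 555) ln10_13_4 ln10_13_4_ok) (M (nat_lit 521) (B (L (nat_lit 553) ln10_13_5 ln10_13_5_ok) (L (nat_lit 489) ln10_12_5 ln10_12_5_ok))))))) (M (nat_lit 363) (B (L (nat_lit 395) ln10_15_6 ln10_15_6_ok) (M (nat_lit 362) (B (L (nat_lit 331) ln10_14_6 ln10_14_6_ok) (M (nat_lit 361) (B (L (nat_lit 393) ln10_15_7 ln10_15_7_ok) (L (nat_lit 329) ln10_14_7 ln10_14_7_ok))))))))))))) (B (M (nat_lit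 490) (B (M (nat_lit 459) (B (L (nat_lit 425) ln13_14_3 ln13_14_3_ok) (L (nat_lit 489) ln13_14_1 ln13_14_1_ok))) (B (M (nat_lit 394) (B (M (nat_lit 362) (B (M (nat_lit 363) (B (L (nat_lit 331) ln10_14_6 ln10_14_6_ok) (L (nat_lit 395) ln10_15_6 ln10_15_6_ok))) (M (nat_lit 489) (B (L (nat_lit 457) ln10_11_5 ln10_11_5_ok) (L (nat_lit 521) ln10_12_5 ln10_12_5_ok))))) (B (M (nat_lit 362) (B (M (nat_lit 361) (B (L (nat_lit 329) ln10_14_7 ln10_14_7_ok) (L (nat_lit 393) ln10_15_7 ln10_15_7_ok))) (M (nat_lit 489) (B (L (nat_lit 457) ln10_11_5 ln10_11_5_ok) (L (nat_lit 521) ln10_12_5 ln10_12_5_ok))))) (B (M (nat_lit 522) (B (M (nat_lit 393) (B (L (nat_lit 361) ln10_15_7 ln10_15_7_ok) (L (nat_lit 425) ln10_16_7 ln10_16_7_ok))) (M (nat_lit 521) (B (L (nat_lit 489) ln10_12_5 ln10_12_5_ok) (L (nat_lit 553) ln10_13_5 ln10_13_5_ok))))) (M (nat_lit 362) (B (M (nat_lit 363) (B (L (nat_lit 331) ln10_14_6 ln10_14_6_ok) (L (nat_lit 395) ln10_15_6 ln10_15_6_ok)))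 (M (nat_lit 361) (B (L (nat_lit 329) ln10_14_7 ln10_14_7_ok) (L (nat_lit 393) ln10_15_7 ln10_15_7_ok))))))))) (B (M (nat_lit 489) (B (L (nat_lit 459) ln13_14_1 ln13_14_1_ok) (M (nat_lit 521) (B (L (nat_lit 394) ln10_12_5 ln10_12_5_ok) (M (nat_lit 553) (B (L (nat_lit 522) ln10_13_5 ln10_13_5_ok) (L (nat_lit 457) ln9_17_6 ln9_17_6_ok))))))) (M (nat_lit 425) (B (L (nat_lit 459) ln13_14_3 ln13_14_3_ok) (M (nat_lit 393) (B (L (nat_lit 522) ln10_16_7 ln10_16_7_ok) (M (nat_lit 361) (B (L (nat_lit 394) ln10_15_7 ln10_15_7_ok) (L (nat_lit 329) ln9_10_4_c10 ln9_10_4_c10_ok))))))))))) (M (nat_lit 459) (B (M (nat_lit 490) (B (L (nat_lit 491) ln14_14_1 ln14_14_1_ok) (L (nat_lit 489) ln13_14_1 ln13_14_1_ok))) (L (nat_lit 425) ln13_14_3 ln13_14_3_ok))))))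
noncomputable def c10_d427 : Cert := (B (M (nat_lit 394) (B (M (nat_lit 362) (B (M (nat_lit 330) (B (M (nat_lit 331) (B (L (nat_lit 299) ln10_13_6 ln10_13_6_ok) (L (nat_lit 363) ln10_14_6 ln10_14_6_ok))) (M (nat_lit 329) (B (L (nat_lit 297) ln10_13_7_c10 ln10_13_7_c10_ok) (L (nat_lit 361) ln10_14_7 ln10_14_7_ok))))) (B (M (nat_lit 393) (B (M (nat_lit 361) (B (L (nat_lit 329) ln10_14_7 ln10_14_7_ok) (M (nat_lit 363) (B (L (nat_lit 331) ln10_14_6 ln10_14_6_ok) (L (nat_lit 364) ln13_11_1 ln13_11_1_ok))))) (B (M (nat_lit 330) (B (M (nat_lit 329) (B (L (nat_lit 297) ln10_13_7_c10 ln10_13_7_c10_ok) (L (nat_lit 361) ln10_14_7 ln10_14_7_ok))) (M (nat_lit 425) (B (L (nat_lit 298) ln10_9_5_c10 ln10_9_5_c10_ok) (L (nat_lit 457) ln10_10_5 ln10_10_5_ok))))) (M (nat_lit 363) (B (L (nat_lit 331) ln10_14_6 ln10_14_6_ok) (L (nat_lit 364) ln13_11_1 ln13_11_1_ok)))))) (B (M (nat_lit 361) (B (L (nat_lit 329) ln10_14_7 ln10_14_7_ok) (M (nat_lit 363)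 (B (L (nat_lit 331) ln10_14_6 ln10_14_6_ok) (M (nat_lit 360) (B (M (nat_lit 395) (B (L (nat_lit 396) ln8_11_0 ln8_11_0_ok) (L (nat_lit 359) ln7_11_0 ln7_11_0_ok))) (B (M (nat_lit 364) (B (L (nat_lit 396) ln9_11_0 ln9_11_0_ok) (M (nat_lit 392) (B (L (nat_lit 393) ln12_11_1 ln12_11_1_ok) (L (nat_lit 391) ln11_11_1 ln11_11_1_ok))))) (M (nat_lit 359) (B (L (nat_lit 395) ln7_11_0 ln7_11_0_ok) (M (nat_lit 327) (B (L (nat_lit 328) ln11_11_3 ln11_11_3_ok) (L (nat_lit 326) ln10_11_3 ln10_11_3_ok)))))))))))) (B (M (nat_lit 395) (B (M (nat_lit 361) (B (L (nat_lit 329) ln10_14_7 ln10_14_7_ok) (L (nat_lit 396) ln13_12_3 ln13_12_3_ok))) (B (M (nat_lit 396) (B (L (nat_lit 361) ln13_12_3 ln13_12_3_ok) (L (nat_lit 425) ln13_12_1 ln13_12_1_ok))) (B (M (nat_lit 425) (B (M (nat_lit 424) (B (L (nat_lit 423) ln7_13_2 ln7_13_2_ok) (L (nat_lit 396) ln13_12_1 ln13_12_1_ok))) (M (nat_lit 330) (B (L (nat_lit 457) ln10_10_5 ln10_10_5_ok) (M (nat_lit 298)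 (B (L (nat_lit 393) ln10_9_5_c10 ln10_9_5_c10_ok) (M (nat_lit 297) (B (L (nat_lit 265) ln10_12_7_c10 ln10_12_7_c10_ok) (L (nat_lit 329) ln10_13_7_c10 ln10_13_7_c10_ok))))))))) (M (nat_lit 330) (B (M (nat_lit 329) (B (L (nat_lit 297) ln10_13_7_c10 ln10_13_7_c10_ok) (L (nat_lit 361) ln10_14_7 ln10_14_7_ok))) (M (nat_lit 298) (B (M (nat_lit 425) (B (L (nat_lit 393) ln10_9_5_c10 ln10_9_5_c10_ok) (L (nat_lit 457) ln10_10_5 ln10_10_5_ok))) (M (nat_lit 266) (B (L (nat_lit 363) ln10_8_4 ln10_8_4_ok) (M (nat_lit 267) (B (L (nat_lit 235) ln10_11_6_c10 ln10_11_6_c10_ok) (L (nat_lit 299) ln10_12_6_c10 ln10_12_6_c10_ok))))))))))))) (B (M (nat_lit 330) (B (M (nat_lit 331) (B (L (nat_lit 299) ln10_13_6 ln10_13_6_ok) (L (nat_lit 363) ln10_14_6 ln10_14_6_ok))) (B (M (nat_lit 298) (B (M (nat_lit 425) (B (L (nat_lit 393) ln10_9_5_c10 ln10_9_5_c10_ok) (L (nat_lit 457) ln10_10_5 ln10_10_5_ok))) (M (nat_lit 266) (B (M (nat_lit 265) (B (L (nat_lit 233)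 ln10_11_7_c10 ln10_11_7_c10_ok) (L (nat_lit 297) ln10_12_7_c10 ln10_12_7_c10_ok))) (M (nat_lit 363) (B (L (nat_lit 395) ln10_8_4 ln10_8_4_ok) (L (nat_lit 331) ln10_14_6 ln10_14_6_ok))))))) (M (nat_lit 298) (B (M (nat_lit 425) (B (L (nat_lit 393) ln10_9_5_c10 ln10_9_5_c10_ok) (L (nat_lit 457) ln10_10_5 ln10_10_5_ok))) (M (nat_lit 266) (B (M (nat_lit 267) (B (L (nat_lit 235) ln10_11_6_c10 ln10_11_6_c10_ok) (L (nat_lit 299) ln10_12_6_c10 ln10_12_6_c10_ok))) (M (nat_lit 265) (B (L (nat_lit 233) ln10_11_7_c10 ln10_11_7_c10_ok) (L (nat_lit 297) ln10_12_7_c10 ln10_12_7_c10_ok)))))))))) (M (nat_lit 330) (B (M (nat_lit 329) (B (L (nat_lit 297) ln10_13_7_c10 ln10_13_7_c10_ok) (L (nat_lit 361) ln10_14_7 ln10_14_7_ok))) (M (nat_lit 298) (B (M (nat_lit 299) (B (L (nat_lit 267) ln10_12_6_c10 ln10_12_6_c10_ok) (L (nat_lit 331) ln10_13_6 ln10_13_6_ok))) (M (nat_lit 425) (B (L (nat_lit 393) ln10_9_5_c10 ln10_9_5_c10_ok) (L (nat_lit 457) ln10_10_5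 ln10_10_5_ok))))))))))))) (B (K (nat_lit 21584202758241968925058807046736165513815344727008979896942903440394290461968066924611395737891057428124443702295320726574019521172828323840) (nat_lit 3196670515523576045021401491511737514726819733727406740350294164996466037892082565121527789293100666708836183538039696783796614039526380606180032512) (nat_lit 3196670515523576045021401491511737514726819733727406740350294164996466037892082565121527789293100666708836183538039696783796614039526380606180032512) c10_s498) (B (M (nat_lit 362) (B (M (nat_lit 361) (B (L (nat_lit 329) ln10_14_7 ln10_14_7_ok) (M (nat_lit 490) (B (L (nat_lit 393) ln10_15_7 ln10_15_7_ok) (M (nat_lit 363) (B (L (nat_lit 331) ln10_14_6 ln10_14_6_ok) (L (nat_lit 395) ln10_15_6 ln10_15_6_ok))))))) (B (M (nat_lit 490) (B (M (nat_lit 361) (B (L (nat_lit 329) ln10_14_7 ln10_14_7_ok) (L (nat_lit 393) ln10_15_7 ln10_15_7_ok))) (M (nat_lit 491) (B (L (nat_lit 459) ln10_11_4 ln10_11_4_ok)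 (L (nat_lit 523) ln10_12_4 ln10_12_4_ok))))) (B (M (nat_lit 490) (B (M (nat_lit 363) (B (L (nat_lit 331) ln10_14_6 ln10_14_6_ok) (L (nat_lit 395) ln10_15_6 ln10_15_6_ok))) (M (nat_lit 491) (B (L (nat_lit 459) ln10_11_4 ln10_11_4_ok) (L (nat_lit 523) ln10_12_4 ln10_12_4_ok))))) (M (nat_lit 330) (B (M (nat_lit 331) (B (L (nat_lit 299) ln10_13_6 ln10_13_6_ok) (L (nat_lit 363) ln10_14_6 ln10_14_6_ok))) (M (nat_lit 329) (B (L (nat_lit 297) ln10_13_7_c10 ln10_13_7_c10_ok) (L (nat_lit 361) ln10_14_7 ln10_14_7_ok))))))))) (B (M (nat_lit 459) (B (L (nat_lit 425) ln13_14_3 ln13_14_3_ok) (M (nat_lit 491) (B (L (nat_lit 362) ln10_11_4 ln10_11_4_ok) (M (nat_lit 523) (B (L (nat_lit 555) ln11_17_7 ln11_17_7_ok) (L (nat_lit 490) ln10_12_4 ln10_12_4_ok))))))) (M (nat_lit 425) (B (L (nat_lit 459) ln13_14_3 ln13_14_3_ok) (M (nat_lit 490) (B (M (nat_lit 395) (B (L (nat_lit 396) ln13_12_1 ln13_12_1_ok) (L (nat_lit 363) ln10_15_6 ln10_15_6_ok))) (M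 (nat_lit 393) (B (L (nat_lit 361) ln10_15_7 ln10_15_7_ok) (L (nat_lit 522) ln10_16_7 ln10_16_7_ok)))))))))))) (B (M (nat_lit 362) (B (M (nat_lit 394) (B (M (nat_lit 330) (B (M (nat_lit 457) (B (L (nat_lit 489) ln10_11_5 ln10_11_5_ok) (L (nat_lit 425) ln10_10_5 ln10_10_5_ok))) (M (nat_lit 329) (B (L (nat_lit 361) ln10_14_7 ln10_14_7_ok) (L (nat_lit 297) ln10_13_7_c10 ln10_13_7_c10_ok))))) (B (M (nat_lit 330) (B (M (nat_lit 329) (B (L (nat_lit 361) ln10_14_7 ln10_14_7_ok) (L (nat_lit 297) ln10_13_7_c10 ln10_13_7_c10_ok))) (M (nat_lit 331) (B (L (nat_lit 363) ln10_14_6 ln10_14_6_ok) (L (nat_lit 299) ln10_13_6 ln10_13_6_ok))))) (B (M (nat_lit 330) (B (M (nat_lit 457) (B (L (nat_lit 489) ln10_11_5 ln10_11_5_ok) (L (nat_lit 425) ln10_10_5 ln10_10_5_ok))) (M (nat_lit 331) (B (L (nat_lit 363) ln10_14_6 ln10_14_6_ok) (L (nat_lit 299) ln10_13_6 ln10_13_6_ok))))) (M (nat_lit 361) (B (L (nat_lit 329) ln10_14_7 ln10_14_7_ok) (M (nat_lit 363)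 (B (L (nat_lit 331) ln10_14_6 ln10_14_6_ok) (M (nat_lit 360) (B (M (nat_lit 395) (B (L (nat_lit 359) ln7_11_0 ln7_11_0_ok) (L (nat_lit 396) ln8_11_0 ln8_11_0_ok))) (B (M (nat_lit 359) (B (M (nat_lit 391) (B (L (nat_lit 390) ln10_11_1 ln10_11_1_ok) (L (nat_lit 392) ln11_11_1 ln11_11_1_ok))) (M (nat_lit 327) (B (L (nat_lit 326) ln10_11_3 ln10_11_3_ok) (L (nat_lit 328) ln11_11_3 ln11_11_3_ok))))) (M (nat_lit 364) (B (M (nat_lit 392) (B (L (nat_lit 391) ln11_11_1 ln11_11_1_ok) (L (nat_lit 393) ln12_11_1 ln12_11_1_ok))) (L (nat_lit 396) ln9_11_0 ln9_11_0_ok)))))))))))))) (B (M (nat_lit 394) (B (M (nat_lit 331) (B (M (nat_lit 299) (B (L (nat_lit 330) ln10_13_6 ln10_13_6_ok) (L (nat_lit 363) ln10_14_6 ln10_14_6_ok))) (B (M (nat_lit 361) (B (L (nat_lit 363) ln10_14_6 ln10_14_6_ok) (L (nat_lit 329) ln10_14_7 ln10_14_7_ok))) (M (nat_lit 330) (B (L (nat_lit 299) ln10_13_6 ln10_13_6_ok) (M (nat_lit 329) (B (L (nat_lit 297) ln10_13_7_c10 ln10_13_7_c10_ok)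 (L (nat_lit 361) ln10_14_7 ln10_14_7_ok)))))))) (M (nat_lit 459) (B (L (nat_lit 425) ln13_14_3 ln13_14_3_ok) (L (nat_lit 491) ln10_11_4 ln10_11_4_ok))))) (B (M (nat_lit 330) (B (M (nat_lit 332) (B (L (nat_lit 364) ln13_14_7 ln13_14_7_ok) (M (nat_lit 333) (B (L (nat_lit 300) ln13_13_7 ln13_13_7_ok) (M (nat_lit 302) (B (L (nat_lit 334) ln13_13_6 ln13_13_6_ok) (M (nat_lit 301) (B (L (nat_lit 270) ln13_12_6 ln13_12_6_ok) (L (nat_lit 331) ln10_10_2 ln10_10_2_ok))))))))) (M (nat_lit 394) (B (M (nat_lit 329) (B (L (nat_lit 361) ln10_14_7 ln10_14_7_ok) (L (nat_lit 297) ln10_13_7_c10 ln10_13_7_c10_ok))) (M (nat_lit 459) (B (L (nat_lit 425) ln13_14_3 ln13_14_3_ok) (L (nat_lit 491) ln10_11_4 ln10_11_4_ok))))))) (B (M (nat_lit 364) (B (L (nat_lit 332) ln13_14_7 ln13_14_7_ok) (M (nat_lit 363) (B (L (nat_lit 398) ln10_11_0 ln10_11_0_ok) (M (nat_lit 394) (B (L (nat_lit 393) ln13_11_1 ln13_11_1_ok) (L (nat_lit 331) ln10_14_6 ln10_14_6_ok)))))))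 (B (M (nat_lit 364) (B (L (nat_lit 332) ln13_14_7 ln13_14_7_ok) (M (nat_lit 363) (B (L (nat_lit 398) ln10_11_0 ln10_11_0_ok) (M (nat_lit 394) (B (L (nat_lit 393) ln13_11_1 ln13_11_1_ok) (M (nat_lit 361) (B (L (nat_lit 396) ln9_11_0 ln9_11_0_ok) (L (nat_lit 329) ln10_14_7 ln10_14_7_ok))))))))) (M (nat_lit 364) (B (L (nat_lit 332) ln13_14_7 ln13_14_7_ok) (M (nat_lit 363) (B (L (nat_lit 398) ln10_11_0 ln10_11_0_ok) (M (nat_lit 361) (B (L (nat_lit 396) ln9_11_0 ln9_11_0_ok) (M (nat_lit 329) (B (L (nat_lit 330) ln13_11_3 ln13_11_3_ok) (L (nat_lit 328) ln12_11_3 ln12_11_3_ok))))))))))))))) c10_d426))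
noncomputable def c10_d428 : Cert := (B (M (nat_lit 362) (B (M (nat_lit 394) (B (M (nat_lit 330) (B (M (nat_lit 298) (B (M (nat_lit 266) (B (M (nat_lit 267) (B (L (nat_lit 235) ln10_11_6_c10 ln10_11_6_c10_ok) (L (nat_lit 299) ln10_12_6_c10 ln10_12_6_c10_ok))) (M (nat_lit 265) (B (L (nat_lit 233) ln10_11_7_c10 ln10_11_7_c10_ok) (L (nat_lit 297) ln10_12_7_c10 ln10_12_7_c10_ok))))) (B (M (nat_lit 297) (B (L (nat_lit 265) ln10_12_7_c10 ln10_12_7_c10_ok) (L (nat_lit 329) ln10_13_7_c10 ln10_13_7_c10_ok))) (B (M (nat_lit 266) (B (M (nat_lit 267) (B (L (nat_lit 235) ln10_11_6_c10 ln10_11_6_c10_ok) (L (nat_lit 299) ln10_12_6_c10 ln10_12_6_c10_ok))) (M (nat_lit 361) (B (L (nat_lit 393) ln10_8_5_c10 ln10_8_5_c10_ok) (M (nat_lit 329) (B (L (nat_lit 234) ln10_7_5_c10 ln10_7_5_c10_ok) (L (nat_lit 297) ln10_13_7_c10 ln10_13_7_c10_ok))))))) (M (nat_lit 266) (B (M (nat_lit 267) (B (L (nat_lit 235) ln10_11_6_c10 ln10_11_6_c10_ok) (L (nat_lit 299)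 ln10_12_6_c10 ln10_12_6_c10_ok))) (M (nat_lit 234) (B (M (nat_lit 233) (B (L (nat_lit 201) ln10_10_7_c10 ln10_10_7_c10_ok) (L (nat_lit 265) ln10_11_7_c10 ln10_11_7_c10_ok))) (M (nat_lit 361) (B (L (nat_lit 329) ln10_7_5_c10 ln10_7_5_c10_ok) (L (nat_lit 393) ln10_8_5_c10 ln10_8_5_c10_ok))))))))))) (M (nat_lit 332) (B (L (nat_lit 364) ln13_14_7 ln13_14_7_ok) (M (nat_lit 333) (B (L (nat_lit 300) ln13_13_7 ln13_13_7_ok) (M (nat_lit 302) (B (L (nat_lit 334) ln13_13_6 ln13_13_6_ok) (M (nat_lit 301) (B (L (nat_lit 270) ln13_12_6 ln13_12_6_ok) (L (nat_lit 331) ln10_10_2 ln10_10_2_ok))))))))))) (B (M (nat_lit 330) (B (M (nat_lit 427) (B (L (nat_lit 459) ln10_10_4 ln10_10_4_ok) (M (nat_lit 395) (B (L (nat_lit 298) ln10_9_4 ln10_9_4_ok) (M (nat_lit 396) (B (L (nat_lit 398) ln14_12_1 ln14_12_1_ok) (L (nat_lit 361) ln13_12_3 ln13_12_3_ok))))))) (M (nat_lit 332) (B (L (nat_lit 364) ln13_14_7 ln13_14_7_ok) (M (nat_lit 333) (B (L (nat_lit 300)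 ln13_13_7 ln13_13_7_ok) (M (nat_lit 302) (B (L (nat_lit 334) ln13_13_6 ln13_13_6_ok) (M (nat_lit 301) (B (L (nat_lit 270) ln13_12_6 ln13_12_6_ok) (L (nat_lit 331) ln10_10_2 ln10_10_2_ok))))))))))) (M (nat_lit 459) (B (M (nat_lit 491) (B (L (nat_lit 458) ln10_11_4 ln10_11_4_ok) (L (nat_lit 490) ln14_14_1 ln14_14_1_ok))) (L (nat_lit 427) ln14_14_3 ln14_14_3_ok)))))) (B (M (nat_lit 459) (B (L (nat_lit 427) ln14_14_3 ln14_14_3_ok) (M (nat_lit 490) (B (L (nat_lit 491) ln14_14_1 ln14_14_1_ok) (M (nat_lit 458) (B (L (nat_lit 489) ln13_14_1 ln13_14_1_ok) (M (nat_lit 394) (B (M (nat_lit 361) (B (L (nat_lit 329) ln10_14_7 ln10_14_7_ok) (M (nat_lit 395) (B (L (nat_lit 396) ln13_12_3 ln13_12_3_ok) (L (nat_lit 363) ln10_15_6 ln10_15_6_ok))))) (B (M (nat_lit 361) (B (L (nat_lit 329) ln10_14_7 ln10_14_7_ok) (M (nat_lit 395) (B (L (nat_lit 396) ln13_12_3 ln13_12_3_ok) (L (nat_lit 393) ln10_15_7 ln10_15_7_ok))))) (B (M (nat_lit 395) (B (L (nat_lit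 363) ln10_15_6 ln10_15_6_ok) (M (nat_lit 361) (B (L (nat_lit 396) ln13_12_3 ln13_12_3_ok) (L (nat_lit 393) ln10_15_7 ln10_15_7_ok))))) (B (M (nat_lit 331) (B (L (nat_lit 363) ln10_14_6 ln10_14_6_ok) (M (nat_lit 330) (B (L (nat_lit 299) ln10_13_6 ln10_13_6_ok) (M (nat_lit 329) (B (L (nat_lit 297) ln10_13_7_c10 ln10_13_7_c10_ok) (L (nat_lit 361) ln10_14_7 ln10_14_7_ok))))))) (M (nat_lit 363) (B (L (nat_lit 331) ln10_14_6 ln10_14_6_ok) (L (nat_lit 395) ln10_15_6 ln10_15_6_ok)))))))))))))) (B (M (nat_lit 364) (B (L (nat_lit 332) ln13_14_7 ln13_14_7_ok) (M (nat_lit 363) (B (L (nat_lit 398) ln10_11_0 ln10_11_0_ok) (M (nat_lit 394) (B (L (nat_lit 393) ln13_11_1 ln13_11_1_ok) (M (nat_lit 331) (B (L (nat_lit 458) ln10_14_6 ln10_14_6_ok) (M (nat_lit 299) (B (L (nat_lit 330) ln10_13_6 ln10_13_6_ok) (L (nat_lit 267) ln11_8_5 ln11_8_5_ok))))))))))) (B (M (nat_lit 364) (B (L (nat_lit 332) ln13_14_7 ln13_14_7_ok) (M (nat_lit 363) (B (L (nat_lit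 398) ln10_11_0 ln10_11_0_ok) (M (nat_lit 394) (B (L (nat_lit 393) ln13_11_1 ln13_11_1_ok) (M (nat_lit 361) (B (L (nat_lit 396) ln9_11_0 ln9_11_0_ok) (M (nat_lit 329) (B (L (nat_lit 328) ln12_11_3 ln12_11_3_ok) (L (nat_lit 458) ln10_14_7 ln10_14_7_ok))))))))))) (M (nat_lit 364) (B (L (nat_lit 332) ln13_14_7 ln13_14_7_ok) (M (nat_lit 363) (B (L (nat_lit 398) ln10_11_0 ln10_11_0_ok) (M (nat_lit 361) (B (L (nat_lit 396) ln9_11_0 ln9_11_0_ok) (M (nat_lit 329) (B (L (nat_lit 330) ln13_11_3 ln13_11_3_ok) (L (nat_lit 328) ln12_11_3 ln12_11_3_ok)))))))))))))) (B (M (nat_lit 427) (B (L (nat_lit 459) ln14_14_3 ln14_14_3_ok) (M (nat_lit 333) (B (M (nat_lit 300) (B (M (nat_lit 268) (B (L (nat_lit 301) ln13_12_7 ln13_12_7_ok) (L (nat_lit 332) ln13_13_7 ln13_13_7_ok))) (B (M (nat_lit 334) (B (L (nat_lit 332) ln13_13_7 ln13_13_7_ok) (L (nat_lit 302) ln13_13_6 ln13_13_6_ok))) (M (nat_lit 301) (B (L (nat_lit 268) ln13_12_7 ln13_12_7_ok) (M (nat_lit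 302) (B (L (nat_lit 270) ln13_12_6 ln13_12_6_ok) (L (nat_lit 334) ln13_13_6 ln13_13_6_ok)))))))) (B (M (nat_lit 301) (B (M (nat_lit 269) (B (M (nat_lit 270) (B (L (nat_lit 238) ln13_11_6 ln13_11_6_ok) (L (nat_lit 302) ln13_12_6 ln13_12_6_ok))) (M (nat_lit 268) (B (L (nat_lit 236) ln13_11_7 ln13_11_7_ok) (L (nat_lit 300) ln13_12_7 ln13_12_7_ok))))) (B (M (nat_lit 300) (B (L (nat_lit 268) ln13_12_7 ln13_12_7_ok) (L (nat_lit 332) ln13_13_7 ln13_13_7_ok))) (M (nat_lit 269) (B (M (nat_lit 270) (B (L (nat_lit 238) ln13_11_6 ln13_11_6_ok) (L (nat_lit 302) ln13_12_6 ln13_12_6_ok))) (M (nat_lit 364) (B (L (nat_lit 396) ln13_8_5 ln13_8_5_ok) (L (nat_lit 332) ln13_14_7 ln13_14_7_ok)))))))) (B (M (nat_lit 332) (B (L (nat_lit 300) ln13_13_7 ln13_13_7_ok) (L (nat_lit 364) ln13_14_7 ln13_14_7_ok))) (B (M (nat_lit 302) (B (L (nat_lit 334) ln13_13_6 ln13_13_6_ok) (M (nat_lit 301) (B (L (nat_lit 270) ln13_12_6 ln13_12_6_ok) (M (nat_lit 268) (B (L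 (nat_lit 300) ln13_12_7 ln13_12_7_ok) (M (nat_lit 269) (B (L (nat_lit 236) ln13_11_7 ln13_11_7_ok) (M (nat_lit 396) (B (L (nat_lit 364) ln13_8_5 ln13_8_5_ok) (M (nat_lit 395) (B (L (nat_lit 398) ln14_12_1 ln14_12_1_ok) (M (nat_lit 425) (B (L (nat_lit 424) ln8_13_2 ln8_13_2_ok) (L (nat_lit 394) ln13_12_1 ln13_12_1_ok))))))))))))))) (M (nat_lit 302) (B (L (nat_lit 334) ln13_13_6 ln13_13_6_ok) (M (nat_lit 301) (B (L (nat_lit 270) ln13_12_6 ln13_12_6_ok) (M (nat_lit 364) (B (L (nat_lit 332) ln13_14_7 ln13_14_7_ok) (M (nat_lit 396) (B (L (nat_lit 269) ln13_8_5 ln13_8_5_ok) (M (nat_lit 395) (B (L (nat_lit 398) ln14_12_1 ln14_12_1_ok) (M (nat_lit 425) (B (L (nat_lit 424) ln8_13_2 ln8_13_2_ok) (L (nat_lit 394) ln13_12_1 ln13_12_1_ok)))))))))))))))))))) (M (nat_lit 459) (B (M (nat_lit 458) (B (M (nat_lit 490) (B (L (nat_lit 491) ln14_14_1 ln14_14_1_ok) (L (nat_lit 489) ln13_14_1 ln13_14_1_ok))) (L (nat_lit 425) ln13_14_3 ln13_14_3_ok)))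 (L (nat_lit 427) ln14_14_3 ln14_14_3_ok)))))
noncomputable def c10_d429 : Cert := (B (M (nat_lit 462) (B (L (nat_lit 494) ln13_11_4 ln13_11_4_ok) (M (nat_lit 364) (B (L (nat_lit 332) ln13_14_7 ln13_14_7_ok) (M (nat_lit 460) (B (L (nat_lit 492) ln13_11_5 ln13_11_5_ok) (K (nat_lit 20839919904389975613213400884427666718739280836784073515015896679910215160546087684872893536970667337344459682989834240042962678052252811264) (nat_lit 11679847984920016893118418033113350603047518001295300354751513206982691696311485251654830260451222250980110557965739253068925966453517875403890805305617259993457999651449427210501996454555762556928) (nat_lit 11679847984920016893118418033113350603047518001295300354751513206982691696311485251654830260451222250980110557965739253068925966453517875403890805305617259993457999651449427210501996454555762556928) c10_s482))))))) (B (M (nat_lit 460) (B (M (nat_lit 462) (B (M (nat_lit 432) c10_d424) (L (nat_lit 494)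 ln13_11_4 ln13_11_4_ok))) (L (nat_lit 492) ln13_11_5 ln13_11_5_ok))) (B (M (nat_lit 462) (B (M (nat_lit 460) (B (M (nat_lit 426) (B (M (nat_lit 362) (B (M (nat_lit 394) (B (K (nat_lit 20839919904563267469136299467468243040968311306576724125601814824542818561135580730608205265846292373090681313944358956363619163917254656000) (nat_lit 372141426925996655932789994786910100234634182189446576380755904505120985107464429282941053259197644251385480132285661104914212265916366848) (nat_lit 372141426925996655932789994786910100234634182189446576380755904505120985107464429282941053259197644251385480132285661104914212265916366848) c10_s491) (B (K (nat_lit 20839919904563267469136299467468243040968311306576724125601814824542818561135580730608205265846292373090681313944358956363619163917254656000) (nat_lit 117936325823726750889651195466205648872989789918962247543639927915191653198536774813610808390777848210760419790768124534054248090478619630122515843800706445463005429760)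 (nat_lit 117936325823726750889651195466205648872989789918962247543639927915191653198536774813610808390777848210760419790768124534054248090478619630122515843800706445463005429760) c10_s493) (B (K (nat_lit 20839919904563267469136299467468243040968311306576724125601814824542818561135580730608205265846292373090681313944358956363619163917254656000) (nat_lit 117936325823726750889651195466205648872946466954310743144385318592773228232995304602839978845808246464706339823652308044735793286482158130502913484672682232830599626752) (nat_lit 117936325823726750889651195466205648872946466954310743144385318592773228232995304602839978845808246464706339823652308044735793286482158130502913484672682232830599626752) c10_s494) (B (K (nat_lit 20839919904563267469136299467468243040968311306576724125601814824542818561135580730608205265846292373090681313944358956363619163917254656000) (nat_lit 6864797664925615489383689147434808385902572745211955656829550289524365464269608193986424582049658647957704942614348580296750875855566989832296963184388997120)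 (nat_lit 6864797664925615489383689147434808385902572745211955656829550289524365464269608193986424582049658647957704942614348580296750875855566989832296963184388997120) c10_s495) (B (K (nat_lit 20839919904563267469136299467468243040968311306576724125601814824542818561135580730608205265846292373090681313944358956363619163917254656000) (nat_lit 1598335258878212303418659605345108975149942637536201948573167135316174625693644481186534078144139401364664437469883662237871533755125320410147586048) (nat_lit 1598335258878212303418659605345108975149942637536201948573167135316174625693644481186534078144139401364664437469883662237871533755125320410147586048) c10_s496) (B (M (nat_lit 331) (B (M (nat_lit 299) (B (L (nat_lit 330) ln10_13_6 ln10_13_6_ok) (M (nat_lit 363) (B (L (nat_lit 395) ln11_9_5 ln11_9_5_ok) (L (nat_lit 458) ln10_14_6 ln10_14_6_ok))))) (B (M (nat_lit 361) (B (M (nat_lit 458) (B (L (nat_lit 363) ln10_14_6 ln10_14_6_ok) (L (nat_lit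 329) ln10_14_7 ln10_14_7_ok))) (B (M (nat_lit 329) (B (L (nat_lit 458) ln10_14_7 ln10_14_7_ok) (M (nat_lit 297) (B (L (nat_lit 330) ln10_13_7_c10 ln10_13_7_c10_ok) (L (nat_lit 265) ln9_8_4_c10 ln9_8_4_c10_ok))))) (B (M (nat_lit 360) (B (M (nat_lit 359) (B (L (nat_lit 330) ln7_11_2 ln7_11_2_ok) (L (nat_lit 395) ln7_11_0 ln7_11_0_ok))) (B (M (nat_lit 332) (B (L (nat_lit 363) ln8_11_2 ln8_11_2_ok) (M (nat_lit 330) (B (L (nat_lit 333) ln13_10_1 ln13_10_1_ok) (L (nat_lit 359) ln7_11_2 ln7_11_2_ok))))) (B (M (nat_lit 363) (B (L (nat_lit 332) ln8_11_2 ln8_11_2_ok) (M (nat_lit 395) (B (L (nat_lit 396) ln8_11_0 ln8_11_0_ok) (L (nat_lit 359) ln7_11_0 ln7_11_0_ok))))) (M (nat_lit 332) (B (L (nat_lit 363) ln8_11_2 ln8_11_2_ok) (M (nat_lit 330) (B (L (nat_lit 333) ln13_10_1 ln13_10_1_ok) (L (nat_lit 329) ln12_10_1 ln12_10_1_ok))))))))) (M (nat_lit 360) (B (M (nat_lit 363) (B (L (nat_lit 332) ln8_11_2 ln8_11_2_ok) (L (nat_lit 458) ln10_14_6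 ln10_14_6_ok))) (M (nat_lit 359) (B (L (nat_lit 330) ln7_11_2 ln7_11_2_ok) (L (nat_lit 395) ln7_11_0 ln7_11_0_ok))))))))) (B (M (nat_lit 330) (B (L (nat_lit 299) ln10_13_6 ln10_13_6_ok) (M (nat_lit 329) (B (L (nat_lit 297) ln10_13_7_c10 ln10_13_7_c10_ok) (M (nat_lit 361) (B (L (nat_lit 458) ln10_14_7 ln10_14_7_ok) (M (nat_lit 360) (B (L (nat_lit 332) ln12_10_1 ln12_10_1_ok) (L (nat_lit 359) ln7_11_2 ln7_11_2_ok))))))))) (B (M (nat_lit 363) (B (L (nat_lit 458) ln10_14_6 ln10_14_6_ok) (M (nat_lit 299) (B (L (nat_lit 267) ln11_8_5 ln11_8_5_ok) (L (nat_lit 395) ln11_9_5 ln11_9_5_ok))))) (M (nat_lit 299) (B (L (nat_lit 330) ln10_13_6 ln10_13_6_ok) (M (nat_lit 363) (B (L (nat_lit 267) ln11_8_5 ln11_8_5_ok) (L (nat_lit 395) ln11_9_5 ln11_9_5_ok)))))))))) (K (nat_lit 20839919904563267469136299467468243040968311306576724125601814824542818561135580730608205265846292373090681313944358956363619163917254656000) (nat_lit 1598335258878212303072075893499311808998333715596019637513573002202725905621333198946167657451520054756294678012004605368990073784746616084498481152)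 (nat_lit 1598335258878212303072075893499311808998333715596019637513573002202725905621333198946167657451520054756294678012004605368990073784746616084498481152) c10_s497)))))))) c10_d425)) (B (M (nat_lit 458) c10_d427) c10_d428))) (L (nat_lit 492) ln13_11_5 ln13_11_5_ok))) (L (nat_lit 494) ln13_11_4 ln13_11_4_ok))) (M (nat_lit 333) (B (M (nat_lit 334) (B (L (nat_lit 302) ln13_13_6 ln13_13_6_ok) (L (nat_lit 366) ln13_14_6 ln13_14_6_ok))) (M (nat_lit 332) (B (L (nat_lit 300) ln13_13_7 ln13_13_7_ok) (L (nat_lit 364) ln13_14_7 ln13_14_7_ok))))))))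
theorem c10_s499 : Sem (nat_lit 5954262830815946494763249298768603811203561774969104571805089223376689777636098861358550851719243481454542035207245364041705138952691777536) (nat_lit 759190119019801098052697172377036489814640404186172171348735507665608893751107217770592403401585516587228570320519299967437640967584815193376265593089404333871829228549609003784361727034948942036992) (nat_lit 759190119019801098052697172377036489814640404186172171348735507665608893751107217770592403401585516587228570320519299967437640967584815193376265593089404333871829228549609003784361727034948942036992) :=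
  sem_of_chk (M (nat_lit 365) (B (M (nat_lit 460) (B (L (nat_lit 492) ln13_11_5 ln13_11_5_ok) (M (nat_lit 366) (B (L (nat_lit 334) ln13_14_6 ln13_14_6_ok) (M (nat_lit 462) (B (L (nat_lit 494) ln13_11_4 ln13_11_4_ok) (K (nat_lit 20839919904389975613213400884540396762712424831722768583661784857224247922893687038666843503604213370549960888276091791965431575797785690112) (nat_lit 747510271034881081159578754343923139211702722947375027339098347693439235205907754417090998553401998488052012026229059520780809954495998769606004071854532479003200163311495147020591454475028359282688) (nat_lit 747510271034881081159578754343923139211702722947375027339098347693439235205907754417090998553401998488052012026229059520780809954495998769606004071854532479003200163311495147020591454475028359282688) c10_s393))))))) c10_d429)) (nat_lit 5954262830815946494763249298768603811203561774969104571805089223376689777636098861358550851719243481454542035207245364041705138952691777536)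 (nat_lit 759190119019801098052697172377036489814640404186172171348735507665608893751107217770592403401585516587228570320519299967437640967584815193376265593089404333871829228549609003784361727034948942036992) (nat_lit 759190119019801098052697172377036489814640404186172171348735507665608893751107217770592403401585516587228570320519299967437640967584815193376265593089404333871829228549609003784361727034948942036992) (by decide +kernel)

end Vale.Agent.Lib.P062.Data
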