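import Vale.Agent.Lib.P062.Data.c10_lines
import Vale.Agent.Lib.P062.Data.c10_l0_0
import Vale.Agent.Lib.P062.Data.c10_l0_1
import Vale.Agent.Lib.P062.Data.c10_l0_2
import Vale.Agent.Lib.P062.Data.c10_l0_3
import Vale.Agent.Lib.P062.Data.c10_l1_0
import Vale.Agent.Lib.P062.Data.c10_l1_2
import Vale.Agent.Lib.P062.Data.c10_l1_3
import Vale.Agent.Lib.P062.Data.c10_l1_4
import Vale.Agent.Lib.P062.Data.c10_l2_0
import Vale.Agent.Lib.P062.Data.c10_l2_3
import Vale.Agent.Lib.P062.Data.c10_l3_0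
import Vale.Agent.Lib.P062.Data.c10_l3_1

namespace Vale.Agent.Lib.P062.Data
noncomputable def c10_d524 : Cert := (B (M (nat_lit 271) (B (M (nat_lit 272) (B (M (nat_lit 305) (B (L (nat_lit 304) ln13_8_0_c10 ln13_8_0_c10_ok) (M (nat_lit 273) (B (L (nat_lit 306) ln14_8_0_c10 ln14_8_0_c10_ok) (M (nat_lit 241) (B (L (nat_lit 240) ln13_8_2_c10 ln13_8_2_c10_ok) (L (nat_lit 242) ln14_8_2_c10 ln14_8_2_c10_ok))))))) (B (M (nat_lit 273) (B (M (nat_lit 237) (B (L (nat_lit 236) ln16_8_3_c10 ln16_8_3_c10_ok) (L (nat_lit 238) ln17_8_3_c10 ln17_8_3_c10_ok))) (M (nat_lit 241) (B (L (nat_lit 240) ln13_8_2_c10 ln13_8_2_c10_ok) (L (nat_lit 242) ln14_8_2_c10 ln14_8_2_c10_ok))))) (B (M (nat_lit 273) (B (M (nat_lit 237) (B (L (nat_lit 236) ln16_8_3_c10 ln16_8_3_c10_ok) (L (nat_lit 238) ln17_8_3_c10 ln17_8_3_c10_ok))) (M (nat_lit 305) (B (L (nat_lit 304) ln13_8_0_c10 ln13_8_0_c10_ok) (L (nat_lit 306) ln14_8_0_c10 ln14_8_0_c10_ok))))) (M (nat_lit 236) (B (L (nat_lit 235)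 ln15_8_3_c10 ln15_8_3_c10_ok) (L (nat_lit 237) ln16_8_3_c10 ln16_8_3_c10_ok))))))) (B (M (nat_lit 272) (B (M (nat_lit 304) (B (L (nat_lit 305) ln13_8_0_c10 ln13_8_0_c10_ok) (L (nat_lit 303) ln12_8_0_c10 ln12_8_0_c10_ok))) (M (nat_lit 240) (B (L (nat_lit 241) ln13_8_2_c10 ln13_8_2_c10_ok) (L (nat_lit 239) ln12_8_2_c10 ln12_8_2_c10_ok))))) (B (M (nat_lit 272) (B (M (nat_lit 273) (B (M (nat_lit 305) (B (L (nat_lit 306) ln14_8_0_c10 ln14_8_0_c10_ok) (L (nat_lit 304) ln13_8_0_c10 ln13_8_0_c10_ok))) (M (nat_lit 237) (B (L (nat_lit 238) ln17_8_3_c10 ln17_8_3_c10_ok) (L (nat_lit 236) ln16_8_3_c10 ln16_8_3_c10_ok))))) (B (M (nat_lit 304) (B (L (nat_lit 305) ln13_8_0_c10 ln13_8_0_c10_ok) (L (nat_lit 303) ln12_8_0_c10 ln12_8_0_c10_ok))) (B (M (nat_lit 273) (B (M (nat_lit 237) (B (L (nat_lit 238) ln17_8_3_c10 ln17_8_3_c10_ok) (L (nat_lit 236) ln16_8_3_c10 ln16_8_3_c10_ok))) (M (nat_lit 274) (B (M (nat_lit 242) (B (L (nat_lit 243) ln15_8_2_c10 ln15_8_2_c10_ok)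 (L (nat_lit 241) ln14_8_2_c10 ln14_8_2_c10_ok))) (M (nat_lit 303) (B (L (nat_lit 302) ln18_8_1_c10 ln18_8_1_c10_ok) (L (nat_lit 304) ln12_8_0_c10 ln12_8_0_c10_ok))))))) (M (nat_lit 273) (B (M (nat_lit 237) (B (L (nat_lit 238) ln17_8_3_c10 ln17_8_3_c10_ok) (L (nat_lit 236) ln16_8_3_c10 ln16_8_3_c10_ok))) (M (nat_lit 274) (B (M (nat_lit 306) (B (L (nat_lit 307) ln15_8_0_c10 ln15_8_0_c10_ok) (L (nat_lit 305) ln14_8_0_c10 ln14_8_0_c10_ok))) (M (nat_lit 242) (B (L (nat_lit 243) ln15_8_2_c10 ln15_8_2_c10_ok) (L (nat_lit 241) ln14_8_2_c10 ln14_8_2_c10_ok))))))))))) (B (M (nat_lit 272) (B (M (nat_lit 304) (B (L (nat_lit 305) ln13_8_0_c10 ln13_8_0_c10_ok) (L (nat_lit 303) ln12_8_0_c10 ln12_8_0_c10_ok))) (M (nat_lit 236) (B (L (nat_lit 237) ln16_8_3_c10 ln16_8_3_c10_ok) (L (nat_lit 235) ln15_8_3_c10 ln15_8_3_c10_ok))))) (B (M (nat_lit 272) (B (M (nat_lit 236) (B (L (nat_lit 235) ln15_8_3_c10 ln15_8_3_c10_ok) (L (nat_lit 237) ln16_8_3_c10 ln16_8_3_c10_ok)))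 (M (nat_lit 240) (B (L (nat_lit 239) ln12_8_2_c10 ln12_8_2_c10_ok) (L (nat_lit 241) ln13_8_2_c10 ln13_8_2_c10_ok))))) (M (nat_lit 239) (B (L (nat_lit 240) ln12_8_2_c10 ln12_8_2_c10_ok) (M (nat_lit 303) (B (L (nat_lit 304) ln12_8_0_c10 ln12_8_0_c10_ok) (M (nat_lit 207) (B (M (nat_lit 175) (B (L (nat_lit 302) ln15_5_5_c10 ln15_5_5_c10_ok) (M (nat_lit 176) (B (L (nat_lit 208) ln15_9_6_c10 ln15_9_6_c10_ok) (L (nat_lit 144) ln15_8_6_c10 ln15_8_6_c10_ok))))) (B (M (nat_lit 175) (B (L (nat_lit 302) ln15_5_5_c10 ln15_5_5_c10_ok) (M (nat_lit 174) (B (L (nat_lit 142) ln15_8_7_c10 ln15_8_7_c10_ok) (L (nat_lit 206) ln15_9_7_c10 ln15_9_7_c10_ok))))) (M (nat_lit 206) (B (L (nat_lit 174) ln15_9_7_c10 ln15_9_7_c10_ok) (M (nat_lit 236) (B (L (nat_lit 235) ln15_8_3_c10 ln15_8_3_c10_ok) (M (nat_lit 208) (B (L (nat_lit 176) ln15_9_6_c10 ln15_9_6_c10_ok) (M (nat_lit 237) (B (L (nat_lit 205) ln16_6_1_c10 ln16_6_1_c10_ok) (L (nat_lit 238) ln12_7_2_c10 ln12_7_2_c10_ok))))))))))))))))))))))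 (B (M (nat_lit 267) (B (M (nat_lit 266) (B (M (nat_lit 298) (B (L (nat_lit 297) ln13_8_1_c10 ln13_8_1_c10_ok) (L (nat_lit 299) ln14_8_1_c10 ln14_8_1_c10_ok))) (M (nat_lit 234) (B (L (nat_lit 233) ln13_8_3_c10 ln13_8_3_c10_ok) (L (nat_lit 235) ln14_8_3_c10 ln14_8_3_c10_ok))))) (B (M (nat_lit 271) (B (M (nat_lit 235) (B (L (nat_lit 234) ln14_8_3_c10 ln14_8_3_c10_ok) (L (nat_lit 236) ln15_8_3_c10 ln15_8_3_c10_ok))) (M (nat_lit 303) (B (L (nat_lit 302) ln11_8_0_c10 ln11_8_0_c10_ok) (L (nat_lit 304) ln12_8_0_c10 ln12_8_0_c10_ok))))) (B (M (nat_lit 236) (B (M (nat_lit 303) (B (L (nat_lit 302) ln11_8_0_c10 ln11_8_0_c10_ok) (M (nat_lit 271) (B (L (nat_lit 235) ln15_8_3_c10 ln15_8_3_c10_ok) (L (nat_lit 304) ln12_8_0_c10 ln12_8_0_c10_ok))))) (M (nat_lit 266) (B (M (nat_lit 298) (B (L (nat_lit 297) ln13_8_1_c10 ln13_8_1_c10_ok) (L (nat_lit 299) ln14_8_1_c10 ln14_8_1_c10_ok))) (M (nat_lit 237) (B (L (nat_lit 265) ln9_8_2_c10 ln9_8_2_c10_ok) (L (nat_lit 238)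 ln10_8_2_c10 ln10_8_2_c10_ok))))))) (M (nat_lit 266) (B (M (nat_lit 298) (B (L (nat_lit 297) ln13_8_1_c10 ln13_8_1_c10_ok) (L (nat_lit 299) ln14_8_1_c10 ln14_8_1_c10_ok))) (M (nat_lit 265) (B (M (nat_lit 233) (B (L (nat_lit 232) ln12_8_3_c10 ln12_8_3_c10_ok) (L (nat_lit 234) ln13_8_3_c10 ln13_8_3_c10_ok))) (M (nat_lit 237) (B (L (nat_lit 236) ln9_8_2_c10 ln9_8_2_c10_ok) (L (nat_lit 238) ln10_8_2_c10 ln10_8_2_c10_ok))))))))))) (B (M (nat_lit 267) (B (M (nat_lit 239) (B (L (nat_lit 238) ln11_8_2_c10 ln11_8_2_c10_ok) (M (nat_lit 271) (B (L (nat_lit 240) ln12_8_2_c10 ln12_8_2_c10_ok) (M (nat_lit 303) (B (L (nat_lit 304) ln12_8_0_c10 ln12_8_0_c10_ok) (L (nat_lit 302) ln11_8_0_c10 ln11_8_0_c10_ok))))))) (M (nat_lit 234) (B (L (nat_lit 235) ln14_8_3_c10 ln14_8_3_c10_ok) (M (nat_lit 266) (B (L (nat_lit 233) ln13_8_3_c10 ln13_8_3_c10_ok) (M (nat_lit 298) (B (L (nat_lit 299) ln14_8_1_c10 ln14_8_1_c10_ok) (L (nat_lit 297) ln13_8_1_c10 ln13_8_1_c10_ok)))))))))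 (B (M (nat_lit 271) (B (M (nat_lit 304) (B (L (nat_lit 303) ln12_8_0_c10 ln12_8_0_c10_ok) (M (nat_lit 272) (B (L (nat_lit 305) ln13_8_0_c10 ln13_8_0_c10_ok) (M (nat_lit 240) (B (L (nat_lit 239) ln12_8_2_c10 ln12_8_2_c10_ok) (L (nat_lit 241) ln13_8_2_c10 ln13_8_2_c10_ok))))))) (B (M (nat_lit 272) (B (M (nat_lit 236) (B (L (nat_lit 235) ln15_8_3_c10 ln15_8_3_c10_ok) (L (nat_lit 237) ln16_8_3_c10 ln16_8_3_c10_ok))) (M (nat_lit 240) (B (L (nat_lit 239) ln12_8_2_c10 ln12_8_2_c10_ok) (L (nat_lit 241) ln13_8_2_c10 ln13_8_2_c10_ok))))) (B (M (nat_lit 272) (B (M (nat_lit 236) (B (L (nat_lit 235) ln15_8_3_c10 ln15_8_3_c10_ok) (L (nat_lit 237) ln16_8_3_c10 ln16_8_3_c10_ok))) (M (nat_lit 304) (B (L (nat_lit 303) ln12_8_0_c10 ln12_8_0_c10_ok) (L (nat_lit 305) ln13_8_0_c10 ln13_8_0_c10_ok))))) (M (nat_lit 267) (B (M (nat_lit 235) (B (L (nat_lit 234) ln14_8_3_c10 ln14_8_3_c10_ok) (L (nat_lit 236) ln15_8_3_c10 ln15_8_3_c10_ok))) (M (nat_lit 303) (B (L (nat_lit 302)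 ln11_8_0_c10 ln11_8_0_c10_ok) (L (nat_lit 304) ln12_8_0_c10 ln12_8_0_c10_ok))))))))) (B (M (nat_lit 239) (B (M (nat_lit 240) (B (L (nat_lit 271) ln12_8_2_c10 ln12_8_2_c10_ok) (M (nat_lit 238) (B (L (nat_lit 237) ln16_7_1_c10 ln16_7_1_c10_ok) (L (nat_lit 267) ln11_8_2_c10 ln11_8_2_c10_ok))))) (B (M (nat_lit 302) (B (M (nat_lit 267) (B (L (nat_lit 238) ln11_8_2_c10 ln11_8_2_c10_ok) (L (nat_lit 303) ln11_8_0_c10 ln11_8_0_c10_ok))) (B (M (nat_lit 303) (B (L (nat_lit 267) ln11_8_0_c10 ln11_8_0_c10_ok) (M (nat_lit 304) (B (L (nat_lit 271) ln12_8_0_c10 ln12_8_0_c10_ok) (L (nat_lit 305) ln17_9_3_c10 ln17_9_3_c10_ok))))) (L (nat_lit 271) ln14_11_6_c10 ln14_11_6_c10_ok)))) (B (M (nat_lit 271) (B (L (nat_lit 240) ln12_8_2_c10 ln12_8_2_c10_ok) (M (nat_lit 303) (B (L (nat_lit 304) ln12_8_0_c10 ln12_8_0_c10_ok) (L (nat_lit 302) ln14_11_6_c10 ln14_11_6_c10_ok))))) (M (nat_lit 238) (B (L (nat_lit 267) ln11_8_2_c10 ln11_8_2_c10_ok) (M (nat_lit 240) (B (L (nat_lit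 241) ln17_7_1_c10 ln17_7_1_c10_ok) (L (nat_lit 237) ln16_7_1_c10 ln16_7_1_c10_ok))))))))) (B (M (nat_lit 267) (B (M (nat_lit 266) (B (M (nat_lit 238) (B (L (nat_lit 239) ln11_8_2_c10 ln11_8_2_c10_ok) (L (nat_lit 237) ln10_8_2_c10 ln10_8_2_c10_ok))) (M (nat_lit 298) (B (L (nat_lit 299) ln14_8_1_c10 ln14_8_1_c10_ok) (L (nat_lit 297) ln13_8_1_c10 ln13_8_1_c10_ok))))) (B (M (nat_lit 234) (B (L (nat_lit 235) ln14_8_3_c10 ln14_8_3_c10_ok) (M (nat_lit 266) (B (L (nat_lit 233) ln13_8_3_c10 ln13_8_3_c10_ok) (M (nat_lit 298) (B (L (nat_lit 299) ln14_8_1_c10 ln14_8_1_c10_ok) (L (nat_lit 297) ln13_8_1_c10 ln13_8_1_c10_ok))))))) (B (M (nat_lit 266) (B (M (nat_lit 238) (B (L (nat_lit 239) ln11_8_2_c10 ln11_8_2_c10_ok) (L (nat_lit 237) ln10_8_2_c10 ln10_8_2_c10_ok))) (M (nat_lit 234) (B (L (nat_lit 235) ln14_8_3_c10 ln14_8_3_c10_ok) (L (nat_lit 233) ln13_8_3_c10 ln13_8_3_c10_ok))))) (M (nat_lit 271) (B (M (nat_lit 239) (B (L (nat_lit 240) ln12_8_2_c10 ln12_8_2_c10_ok)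 (L (nat_lit 238) ln11_8_2_c10 ln11_8_2_c10_ok))) (M (nat_lit 235) (B (L (nat_lit 236) ln15_8_3_c10 ln15_8_3_c10_ok) (L (nat_lit 234) ln14_8_3_c10 ln14_8_3_c10_ok))))))))) (M (nat_lit 267) (B (M (nat_lit 239) (B (L (nat_lit 238) ln11_8_2_c10 ln11_8_2_c10_ok) (M (nat_lit 266) (B (M (nat_lit 234) (B (L (nat_lit 233) ln13_8_3_c10 ln13_8_3_c10_ok) (L (nat_lit 235) ln14_8_3_c10 ln14_8_3_c10_ok))) (M (nat_lit 298) (B (L (nat_lit 297) ln13_8_1_c10 ln13_8_1_c10_ok) (L (nat_lit 299) ln14_8_1_c10 ln14_8_1_c10_ok))))))) (M (nat_lit 302) (B (L (nat_lit 303) ln11_8_0_c10 ln11_8_0_c10_ok) (L (nat_lit 237) ln14_11_7_c10 ln14_11_7_c10_ok)))))))))))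
noncomputable def c10_d525 : Cert := (B (M (nat_lit 271) (B (M (nat_lit 239) (B (L (nat_lit 240) ln12_8_2_c10 ln12_8_2_c10_ok) (M (nat_lit 267) (B (L (nat_lit 238) ln11_8_2_c10 ln11_8_2_c10_ok) (M (nat_lit 303) (B (L (nat_lit 304) ln12_8_0_c10 ln12_8_0_c10_ok) (L (nat_lit 302) ln11_8_0_c10 ln11_8_0_c10_ok))))))) (B (M (nat_lit 267) (B (M (nat_lit 239) (B (L (nat_lit 240) ln12_8_2_c10 ln12_8_2_c10_ok) (L (nat_lit 238) ln11_8_2_c10 ln11_8_2_c10_ok))) (M (nat_lit 299) (B (L (nat_lit 300) ln15_8_1 ln15_8_1_ok) (L (nat_lit 298) ln14_8_1_c10 ln14_8_1_c10_ok))))) (B (M (nat_lit 267) (B (M (nat_lit 303) (B (L (nat_lit 304) ln12_8_0_c10 ln12_8_0_c10_ok) (L (nat_lit 302) ln11_8_0_c10 ln11_8_0_c10_ok))) (M (nat_lit 299) (B (L (nat_lit 300) ln15_8_1 ln15_8_1_ok) (L (nat_lit 298) ln14_8_1_c10 ln14_8_1_c10_ok))))) (M (nat_lit 272) (B (M (nat_lit 304) (B (L (nat_lit 305) ln13_8_0_c10 ln13_8_0_c10_ok) (L (nat_lit 303) ln12_8_0_c10 ln12_8_0_c10_ok))) (M (nat_lit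 240) (B (L (nat_lit 241) ln13_8_2_c10 ln13_8_2_c10_ok) (L (nat_lit 239) ln12_8_2_c10 ln12_8_2_c10_ok))))))))) (B (M (nat_lit 267) (B (M (nat_lit 299) (B (L (nat_lit 298) ln14_8_1_c10 ln14_8_1_c10_ok) (M (nat_lit 303) (B (L (nat_lit 302) ln11_8_0_c10 ln11_8_0_c10_ok) (M (nat_lit 271) (B (L (nat_lit 304) ln12_8_0_c10 ln12_8_0_c10_ok) (L (nat_lit 300) ln15_8_1 ln15_8_1_ok))))))) (B (M (nat_lit 271) (B (M (nat_lit 239) (B (L (nat_lit 240) ln12_8_2_c10 ln12_8_2_c10_ok) (L (nat_lit 238) ln11_8_2_c10 ln11_8_2_c10_ok))) (M (nat_lit 299) (B (L (nat_lit 300) ln15_8_1 ln15_8_1_ok) (L (nat_lit 298) ln14_8_1_c10 ln14_8_1_c10_ok))))) (B (M (nat_lit 266) (B (M (nat_lit 238) (B (L (nat_lit 239) ln11_8_2_c10 ln11_8_2_c10_ok) (L (nat_lit 237) ln10_8_2_c10 ln10_8_2_c10_ok))) (M (nat_lit 298) (B (L (nat_lit 299) ln14_8_1_c10 ln14_8_1_c10_ok) (L (nat_lit 297) ln13_8_1_c10 ln13_8_1_c10_ok))))) (M (nat_lit 271) (B (M (nat_lit 303) (B (L (nat_lit 304) ln12_8_0_c10 ln12_8_0_c10_ok)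 (L (nat_lit 302) ln11_8_0_c10 ln11_8_0_c10_ok))) (M (nat_lit 239) (B (L (nat_lit 240) ln12_8_2_c10 ln12_8_2_c10_ok) (L (nat_lit 238) ln11_8_2_c10 ln11_8_2_c10_ok))))))))) (B (M (nat_lit 271) (B (M (nat_lit 267) (B (M (nat_lit 303) (B (L (nat_lit 304) ln12_8_0_c10 ln12_8_0_c10_ok) (L (nat_lit 302) ln11_8_0_c10 ln11_8_0_c10_ok))) (M (nat_lit 299) (B (L (nat_lit 300) ln15_8_1 ln15_8_1_ok) (L (nat_lit 298) ln14_8_1_c10 ln14_8_1_c10_ok))))) (B (M (nat_lit 267) (B (M (nat_lit 299) (B (L (nat_lit 300) ln15_8_1 ln15_8_1_ok) (L (nat_lit 298) ln14_8_1_c10 ln14_8_1_c10_ok))) (B (M (nat_lit 266) (B (M (nat_lit 238) (B (L (nat_lit 239) ln11_8_2_c10 ln11_8_2_c10_ok) (L (nat_lit 237) ln10_8_2_c10 ln10_8_2_c10_ok))) (M (nat_lit 298) (B (L (nat_lit 299) ln14_8_1_c10 ln14_8_1_c10_ok) (L (nat_lit 297) ln13_8_1_c10 ln13_8_1_c10_ok))))) (M (nat_lit 238) (B (L (nat_lit 239) ln11_8_2_c10 ln11_8_2_c10_ok) (M (nat_lit 237) (B (L (nat_lit 266) ln10_8_2_c10 ln10_8_2_c10_ok)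 (M (nat_lit 272) (B (L (nat_lit 273) ln17_8_3_c10 ln17_8_3_c10_ok) (L (nat_lit 236) ln16_8_3_c10 ln16_8_3_c10_ok)))))))))) (B (M (nat_lit 267) (B (M (nat_lit 303) (B (L (nat_lit 304) ln12_8_0_c10 ln12_8_0_c10_ok) (L (nat_lit 302) ln11_8_0_c10 ln11_8_0_c10_ok))) (M (nat_lit 266) (B (M (nat_lit 238) (B (L (nat_lit 239) ln11_8_2_c10 ln11_8_2_c10_ok) (L (nat_lit 237) ln10_8_2_c10 ln10_8_2_c10_ok))) (M (nat_lit 298) (B (L (nat_lit 299) ln14_8_1_c10 ln14_8_1_c10_ok) (L (nat_lit 297) ln13_8_1_c10 ln13_8_1_c10_ok))))))) (B (M (nat_lit 238) (B (M (nat_lit 267) (B (L (nat_lit 239) ln11_8_2_c10 ln11_8_2_c10_ok) (M (nat_lit 303) (B (L (nat_lit 304) ln12_8_0_c10 ln12_8_0_c10_ok) (L (nat_lit 302) ln11_8_0_c10 ln11_8_0_c10_ok))))) (B (M (nat_lit 237) (B (M (nat_lit 272) (B (L (nat_lit 273) ln17_8_3_c10 ln17_8_3_c10_ok) (L (nat_lit 236) ln16_8_3_c10 ln16_8_3_c10_ok))) (M (nat_lit 267) (B (L (nat_lit 239) ln11_8_2_c10 ln11_8_2_c10_ok) (L (nat_lit 266) ln10_8_2_c10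 ln10_8_2_c10_ok))))) (M (nat_lit 272) (B (M (nat_lit 304) (B (L (nat_lit 305) ln13_8_0_c10 ln13_8_0_c10_ok) (L (nat_lit 303) ln12_8_0_c10 ln12_8_0_c10_ok))) (M (nat_lit 237) (B (L (nat_lit 273) ln17_8_3_c10 ln17_8_3_c10_ok) (L (nat_lit 236) ln16_8_3_c10 ln16_8_3_c10_ok)))))))) (M (nat_lit 272) (B (M (nat_lit 304) (B (L (nat_lit 305) ln13_8_0_c10 ln13_8_0_c10_ok) (L (nat_lit 303) ln12_8_0_c10 ln12_8_0_c10_ok))) (B (M (nat_lit 273) (B (M (nat_lit 237) (B (L (nat_lit 238) ln17_8_3_c10 ln17_8_3_c10_ok) (L (nat_lit 236) ln16_8_3_c10 ln16_8_3_c10_ok))) (M (nat_lit 274) (B (M (nat_lit 242) (B (L (nat_lit 243) ln15_8_2_c10 ln15_8_2_c10_ok) (L (nat_lit 241) ln14_8_2_c10 ln14_8_2_c10_ok))) (M (nat_lit 303) (B (L (nat_lit 302) ln18_8_1_c10 ln18_8_1_c10_ok) (L (nat_lit 304) ln12_8_0_c10 ln12_8_0_c10_ok))))))) (M (nat_lit 273) (B (M (nat_lit 237) (B (L (nat_lit 238) ln17_8_3_c10 ln17_8_3_c10_ok) (L (nat_lit 236) ln16_8_3_c10 ln16_8_3_c10_ok))) (M (nat_lit 274)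 (B (M (nat_lit 306) (B (L (nat_lit 307) ln15_8_0_c10 ln15_8_0_c10_ok) (L (nat_lit 305) ln14_8_0_c10 ln14_8_0_c10_ok))) (M (nat_lit 242) (B (L (nat_lit 243) ln15_8_2_c10 ln15_8_2_c10_ok) (L (nat_lit 241) ln14_8_2_c10 ln14_8_2_c10_ok))))))))))))))) (B (M (nat_lit 237) (B (L (nat_lit 300) ln12_11_6 ln12_11_6_ok) (L (nat_lit 302) ln14_11_7_c10 ln14_11_7_c10_ok))) (M (nat_lit 271) (B (M (nat_lit 272) (B (M (nat_lit 304) (B (L (nat_lit 305) ln13_8_0_c10 ln13_8_0_c10_ok) (L (nat_lit 303) ln12_8_0_c10 ln12_8_0_c10_ok))) (M (nat_lit 240) (B (L (nat_lit 241) ln13_8_2_c10 ln13_8_2_c10_ok) (L (nat_lit 239) ln12_8_2_c10 ln12_8_2_c10_ok))))) (B (M (nat_lit 267) (B (M (nat_lit 239) (B (L (nat_lit 240) ln12_8_2_c10 ln12_8_2_c10_ok) (L (nat_lit 238) ln11_8_2_c10 ln11_8_2_c10_ok))) (M (nat_lit 299) (B (L (nat_lit 300) ln15_8_1 ln15_8_1_ok) (L (nat_lit 298) ln14_8_1_c10 ln14_8_1_c10_ok))))) (B (M (nat_lit 238) (B (M (nat_lit 299) (B (L (nat_lit 300) ln15_8_1 ln15_8_1_ok)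 (M (nat_lit 267) (B (L (nat_lit 239) ln11_8_2_c10 ln11_8_2_c10_ok) (L (nat_lit 298) ln14_8_1_c10 ln14_8_1_c10_ok))))) (M (nat_lit 272) (B (M (nat_lit 304) (B (L (nat_lit 305) ln13_8_0_c10 ln13_8_0_c10_ok) (L (nat_lit 303) ln12_8_0_c10 ln12_8_0_c10_ok))) (M (nat_lit 237) (B (L (nat_lit 273) ln17_8_3_c10 ln17_8_3_c10_ok) (L (nat_lit 236) ln16_8_3_c10 ln16_8_3_c10_ok))))))) (M (nat_lit 272) (B (M (nat_lit 304) (B (L (nat_lit 305) ln13_8_0_c10 ln13_8_0_c10_ok) (L (nat_lit 303) ln12_8_0_c10 ln12_8_0_c10_ok))) (M (nat_lit 273) (B (M (nat_lit 241) (B (L (nat_lit 242) ln14_8_2_c10 ln14_8_2_c10_ok) (L (nat_lit 240) ln13_8_2_c10 ln13_8_2_c10_ok))) (M (nat_lit 237) (B (L (nat_lit 238) ln17_8_3_c10 ln17_8_3_c10_ok) (L (nat_lit 236) ln16_8_3_c10 ln16_8_3_c10_ok)))))))))))))))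
noncomputable def c10_d526 : Cert := (M (nat_lit 269) (B (M (nat_lit 268) (B (M (nat_lit 270) c10_d524) (B (M (nat_lit 270) (B (M (nat_lit 239) (B (M (nat_lit 240) (B (L (nat_lit 271) ln12_8_2_c10 ln12_8_2_c10_ok) (M (nat_lit 238) (B (L (nat_lit 237) ln16_7_1_c10 ln16_7_1_c10_ok) (L (nat_lit 267) ln11_8_2_c10 ln11_8_2_c10_ok))))) (B (M (nat_lit 302) (B (M (nat_lit 267) (B (L (nat_lit 238) ln11_8_2_c10 ln11_8_2_c10_ok) (L (nat_lit 303) ln11_8_0_c10 ln11_8_0_c10_ok))) (B (M (nat_lit 303) (B (L (nat_lit 267) ln11_8_0_c10 ln11_8_0_c10_ok) (M (nat_lit 304) (B (L (nat_lit 271) ln12_8_0_c10 ln12_8_0_c10_ok) (L (nat_lit 305) ln17_9_3_c10 ln17_9_3_c10_ok))))) (L (nat_lit 271) ln14_11_6_c10 ln14_11_6_c10_ok)))) (B (M (nat_lit 271) (B (L (nat_lit 240) ln12_8_2_c10 ln12_8_2_c10_ok) (M (nat_lit 303) (B (L (nat_lit 304) ln12_8_0_c10 ln12_8_0_c10_ok) (L (nat_lit 302) ln14_11_6_c10 ln14_11_6_c10_ok))))) (M (nat_lit 238) (B (L (nat_lit 267) ln11_8_2_c10 ln11_8_2_c10_ok)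 (M (nat_lit 240) (B (L (nat_lit 241) ln17_7_1_c10 ln17_7_1_c10_ok) (L (nat_lit 237) ln16_7_1_c10 ln16_7_1_c10_ok))))))))) c10_d525)) (B (M (nat_lit 267) (B (M (nat_lit 299) (B (L (nat_lit 300) ln12_12_7 ln12_12_7_ok) (M (nat_lit 298) (B (L (nat_lit 270) ln14_8_1_c10 ln14_8_1_c10_ok) (M (nat_lit 297) (B (L (nat_lit 296) ln8_9_2 ln8_9_2_ok) (L (nat_lit 266) ln13_8_1_c10 ln13_8_1_c10_ok))))))) (B (M (nat_lit 300) (B (L (nat_lit 235) ln12_11_7 ln12_11_7_ok) (L (nat_lit 299) ln12_12_7 ln12_12_7_ok))) (B (M (nat_lit 235) (B (L (nat_lit 300) ln12_11_7 ln12_11_7_ok) (M (nat_lit 234) (B (L (nat_lit 270) ln14_8_3_c10 ln14_8_3_c10_ok) (M (nat_lit 233) (B (L (nat_lit 266) ln13_8_3_c10 ln13_8_3_c10_ok) (L (nat_lit 236) ln9_7_0_c10 ln9_7_0_c10_ok))))))) (M (nat_lit 270) (B (M (nat_lit 298) (B (L (nat_lit 299) ln14_8_1_c10 ln14_8_1_c10_ok) (M (nat_lit 266) (B (L (nat_lit 297) ln13_8_1_c10 ln13_8_1_c10_ok) (M (nat_lit 234) (B (L (nat_lit 233) ln13_8_3_c10 ln13_8_3_c10_ok)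 (L (nat_lit 235) ln14_8_3_c10 ln14_8_3_c10_ok))))))) (M (nat_lit 303) (B (L (nat_lit 302) ln11_8_0_c10 ln11_8_0_c10_ok) (M (nat_lit 271) (B (L (nat_lit 304) ln12_8_0_c10 ln12_8_0_c10_ok) (M (nat_lit 239) (B (L (nat_lit 238) ln11_8_2_c10 ln11_8_2_c10_ok) (L (nat_lit 240) ln12_8_2_c10 ln12_8_2_c10_ok))))))))))))) (B (M (nat_lit 270) (B (M (nat_lit 271) (B (M (nat_lit 235) (B (L (nat_lit 236) ln15_8_3_c10 ln15_8_3_c10_ok) (M (nat_lit 272) (B (M (nat_lit 240) (B (L (nat_lit 241) ln13_8_2_c10 ln13_8_2_c10_ok) (L (nat_lit 239) ln12_8_2_c10 ln12_8_2_c10_ok))) (M (nat_lit 304) (B (L (nat_lit 305) ln13_8_0_c10 ln13_8_0_c10_ok) (L (nat_lit 303) ln12_8_0_c10 ln12_8_0_c10_ok))))))) (B (M (nat_lit 398) (B (M (nat_lit 303) (B (L (nat_lit 302) ln14_12_6 ln14_12_6_ok) (L (nat_lit 304) ln12_8_0_c10 ln12_8_0_c10_ok))) (L (nat_lit 399) ln11_11_0 ln11_11_0_ok))) (M (nat_lit 239) (B (L (nat_lit 302) ln14_11_6_c10 ln14_11_6_c10_ok) (L (nat_lit 240) ln12_8_2_c10 ln12_8_2_c10_ok))))))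 (B (M (nat_lit 271) (B (M (nat_lit 235) (B (L (nat_lit 236) ln15_8_3_c10 ln15_8_3_c10_ok) (M (nat_lit 272) (B (M (nat_lit 240) (B (L (nat_lit 241) ln13_8_2_c10 ln13_8_2_c10_ok) (L (nat_lit 239) ln12_8_2_c10 ln12_8_2_c10_ok))) (M (nat_lit 304) (B (L (nat_lit 305) ln13_8_0_c10 ln13_8_0_c10_ok) (L (nat_lit 303) ln12_8_0_c10 ln12_8_0_c10_ok))))))) (M (nat_lit 300) (B (L (nat_lit 299) ln15_8_1 ln15_8_1_ok) (L (nat_lit 237) ln12_11_6 ln12_11_6_ok))))) (M (nat_lit 237) (B (L (nat_lit 300) ln12_11_6 ln12_11_6_ok) (L (nat_lit 302) ln14_11_7_c10 ln14_11_7_c10_ok)))))) (B (M (nat_lit 267) (B (M (nat_lit 300) (B (L (nat_lit 237) ln12_11_6 ln12_11_6_ok) (L (nat_lit 235) ln12_11_7 ln12_11_7_ok))) (B (M (nat_lit 270) (B (M (nat_lit 271) (B (M (nat_lit 303) (B (L (nat_lit 304) ln12_8_0_c10 ln12_8_0_c10_ok) (L (nat_lit 302) ln11_8_0_c10 ln11_8_0_c10_ok))) (M (nat_lit 235) (B (L (nat_lit 236) ln15_8_3_c10 ln15_8_3_c10_ok) (L (nat_lit 234) ln14_8_3_c10 ln14_8_3_c10_ok)))))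 (B (M (nat_lit 271) (B (M (nat_lit 239) (B (L (nat_lit 240) ln12_8_2_c10 ln12_8_2_c10_ok) (L (nat_lit 238) ln11_8_2_c10 ln11_8_2_c10_ok))) (M (nat_lit 235) (B (L (nat_lit 236) ln15_8_3_c10 ln15_8_3_c10_ok) (L (nat_lit 234) ln14_8_3_c10 ln14_8_3_c10_ok))))) (B (M (nat_lit 266) (B (M (nat_lit 238) (B (L (nat_lit 239) ln11_8_2_c10 ln11_8_2_c10_ok) (L (nat_lit 237) ln10_8_2_c10 ln10_8_2_c10_ok))) (M (nat_lit 234) (B (L (nat_lit 235) ln14_8_3_c10 ln14_8_3_c10_ok) (L (nat_lit 233) ln13_8_3_c10 ln13_8_3_c10_ok))))) (M (nat_lit 271) (B (M (nat_lit 303) (B (L (nat_lit 304) ln12_8_0_c10 ln12_8_0_c10_ok) (L (nat_lit 302) ln11_8_0_c10 ln11_8_0_c10_ok))) (M (nat_lit 239) (B (L (nat_lit 240) ln12_8_2_c10 ln12_8_2_c10_ok) (L (nat_lit 238) ln11_8_2_c10 ln11_8_2_c10_ok))))))))) (B (M (nat_lit 235) (B (L (nat_lit 300) ln12_11_7 ln12_11_7_ok) (M (nat_lit 234) (B (L (nat_lit 270) ln14_8_3_c10 ln14_8_3_c10_ok) (M (nat_lit 233) (B (L (nat_lit 266) ln13_8_3_c10 ln13_8_3_c10_ok)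 (L (nat_lit 236) ln9_7_0_c10 ln9_7_0_c10_ok))))))) (M (nat_lit 237) (B (L (nat_lit 300) ln12_11_6 ln12_11_6_ok) (M (nat_lit 238) (B (L (nat_lit 266) ln10_8_2_c10 ln10_8_2_c10_ok) (M (nat_lit 239) (B (L (nat_lit 270) ln11_8_2_c10 ln11_8_2_c10_ok) (L (nat_lit 240) ln16_7_1_c10 ln16_7_1_c10_ok))))))))))) (M (nat_lit 300) (B (M (nat_lit 267) (B (L (nat_lit 299) ln12_12_7 ln12_12_7_ok) (L (nat_lit 235) ln12_11_7 ln12_11_7_ok))) (L (nat_lit 237) ln12_11_6 ln12_11_6_ok))))))))) (B (M (nat_lit 300) (B (M (nat_lit 268) (B (L (nat_lit 237) ln12_11_6 ln12_11_6_ok) (M (nat_lit 267) (B (L (nat_lit 235) ln12_11_7 ln12_11_7_ok) (L (nat_lit 299) ln12_12_7 ln12_12_7_ok))))) (L (nat_lit 301) ln12_12_6 ln12_12_6_ok))) (B (M (nat_lit 398) (B (L (nat_lit 399) ln11_11_0 ln11_11_0_ok) (M (nat_lit 302) (B (L (nat_lit 301) ln14_12_7 ln14_12_7_ok) (M (nat_lit 270) (B (L (nat_lit 237) ln14_11_7_c10 ln14_11_7_c10_ok) (M (nat_lit 271) (B (L (nat_lit 303) ln14_12_6 ln14_12_6_ok)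 (L (nat_lit 239) ln14_11_6_c10 ln14_11_6_c10_ok))))))))) (M (nat_lit 398) (B (M (nat_lit 301) (B (L (nat_lit 300) ln12_12_6 ln12_12_6_ok) (L (nat_lit 302) ln14_12_7 ln14_12_7_ok))) (L (nat_lit 399) ln11_11_0 ln11_11_0_ok)))))))
noncomputable def c10_d527 : Cert := (B (M (nat_lit 366) (B (M (nat_lit 332) (B (M (nat_lit 334) (B (M (nat_lit 396) (B c10_d526 (L (nat_lit 428) ln12_10_4 ln12_10_4_ok))) (L (nat_lit 335) ln11_11_2 ln11_11_2_ok))) (M (nat_lit 362) (B (M (nat_lit 330) (B (L (nat_lit 331) ln14_11_3 ln14_11_3_ok) (L (nat_lit 329) ln13_11_3 ln13_11_3_ok))) (B (M (nat_lit 361) (B (M (nat_lit 329) (B (L (nat_lit 330) ln13_11_3 ln13_11_3_ok) (L (nat_lit 328) ln12_11_3 ln12_11_3_ok))) (M (nat_lit 393) (B (L (nat_lit 394) ln13_11_1 ln13_11_1_ok) (L (nat_lit 392) ln12_11_1 ln12_11_1_ok))))) (B (M (nat_lit 361) (B (M (nat_lit 393) (B (L (nat_lit 394) ln13_11_1 ln13_11_1_ok) (L (nat_lit 392) ln12_11_1 ln12_11_1_ok))) (M (nat_lit 328) (B (L (nat_lit 329)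 ln12_11_3 ln12_11_3_ok) (M (nat_lit 360) (B (L (nat_lit 331) ln8_11_2 ln8_11_2_ok) (L (nat_lit 327) ln11_11_3 ln11_11_3_ok))))))) (M (nat_lit 361) (B (M (nat_lit 331) (B (L (nat_lit 330) ln14_11_3 ln14_11_3_ok) (L (nat_lit 360) ln8_11_2 ln8_11_2_ok))) (M (nat_lit 393) (B (L (nat_lit 394) ln13_11_1 ln13_11_1_ok) (L (nat_lit 392) ln12_11_1 ln12_11_1_ok))))))))))) (B (M (nat_lit 367) (B (M (nat_lit 335) (B (L (nat_lit 334) ln11_11_2 ln11_11_2_ok) (L (nat_lit 336) ln12_11_2 ln12_11_2_ok))) (M (nat_lit 399) (B (L (nat_lit 398) ln11_11_0 ln11_11_0_ok) (L (nat_lit 400) ln12_11_0 ln12_11_0_ok))))) (B (M (nat_lit 367) (B (M (nat_lit 335) (B (L (nat_lit 334) ln11_11_2 ln11_11_2_ok) (L (nat_lit 336) ln12_11_2 ln12_11_2_ok))) (M (nat_lit 331) (B (L (nat_lit 332) ln15_11_3 ln15_11_3_ok) (L (nat_lit 330) ln14_11_3 ln14_11_3_ok))))) (M (nat_lit 367) (B (M (nat_lit 399) (B (L (nat_lit 398) ln11_11_0 ln11_11_0_ok) (L (nat_lit 400) ln12_11_0 ln12_11_0_ok))) (M (nat_lit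 331) (B (L (nat_lit 332) ln15_11_3 ln15_11_3_ok) (L (nat_lit 330) ln14_11_3 ln14_11_3_ok))))))))) (B (K (nat_lit 5954262830815946494440468064139258622131906539230539000934078872806075061271132354550578193372942037532254438881195279021764289825886699520) (nat_lit 7991676306299587175086062046319502121363433067359515031755323343250321916907964116179172378698482806483861243646750076607052827760264024675250601984) (nat_lit 7991676306299587175086062046319502121363433067359515031755323343250321916907964116179172378698482806483861243646750076607052827760264024675250601984) c10_s10) (B (M (nat_lit 362) (B (K (nat_lit 5954262830815946494440468064148652792463001872142096923321236220915577791466765634033407357259070873632712872655050075015303364638014439424) (nat_lit 35304197559015081190054885741072612924720463730720647516485736681153973596503795256078306745048713038843014128997498880) (nat_lit 35304197559015081190054885741072612924720463730720647516485736681153973596503795256078306745048713038843014128997498880)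 c10_s11) (B (M (nat_lit 361) (B (M (nat_lit 332) (B (L (nat_lit 333) ln9_11_2 ln9_11_2_ok) (M (nat_lit 328) (B (L (nat_lit 329) ln12_11_3 ln12_11_3_ok) (M (nat_lit 360) (B (L (nat_lit 327) ln11_11_3 ln11_11_3_ok) (L (nat_lit 331) ln8_11_2 ln8_11_2_ok))))))) (B (M (nat_lit 360) (B (M (nat_lit 392) (B (L (nat_lit 391) ln11_11_1 ln11_11_1_ok) (L (nat_lit 393) ln12_11_1 ln12_11_1_ok))) (M (nat_lit 332) (B (L (nat_lit 331) ln8_11_2 ln8_11_2_ok) (L (nat_lit 333) ln9_11_2 ln9_11_2_ok))))) (M (nat_lit 329) (B (L (nat_lit 328) ln12_11_3 ln12_11_3_ok) (M (nat_lit 393) (B (L (nat_lit 392) ln12_11_1 ln12_11_1_ok) (M (nat_lit 297) (B (L (nat_lit 394) ln13_11_1 ln13_11_1_ok) (M (nat_lit 265) (B (M (nat_lit 264) (B (L (nat_lit 232) ln9_11_7_c10 ln9_11_7_c10_ok) (L (nat_lit 296) ln9_12_7_c10 ln9_12_7_c10_ok))) (M (nat_lit 266) (B (L (nat_lit 234) ln9_11_6_c10 ln9_11_6_c10_ok) (L (nat_lit 298) ln9_12_6_c10 ln9_12_6_c10_ok)))))))))))))) (B (M (nat_lit 329) (B (M (nat_lit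 328) (B (L (nat_lit 361) ln12_11_3 ln12_11_3_ok) (L (nat_lit 330) ln13_11_3 ln13_11_3_ok))) (B (M (nat_lit 394) (B (L (nat_lit 330) ln13_11_3 ln13_11_3_ok) (L (nat_lit 393) ln13_11_1 ln13_11_1_ok))) (M (nat_lit 361) (B (L (nat_lit 328) ln12_11_3 ln12_11_3_ok) (M (nat_lit 393) (B (L (nat_lit 392) ln12_11_1 ln12_11_1_ok) (L (nat_lit 394) ln13_11_1 ln13_11_1_ok)))))))) (B (M (nat_lit 361) (B (M (nat_lit 393) (B (L (nat_lit 392) ln12_11_1 ln12_11_1_ok) (L (nat_lit 394) ln13_11_1 ln13_11_1_ok))) (M (nat_lit 333) (B (L (nat_lit 332) ln9_11_2 ln9_11_2_ok) (L (nat_lit 334) ln10_11_2 ln10_11_2_ok))))) (B (M (nat_lit 361) (B (M (nat_lit 333) (B (L (nat_lit 334) ln10_11_2 ln10_11_2_ok) (L (nat_lit 332) ln9_11_2 ln9_11_2_ok))) (M (nat_lit 329) (B (L (nat_lit 330) ln13_11_3 ln13_11_3_ok) (L (nat_lit 328) ln12_11_3 ln12_11_3_ok))))) (M (nat_lit 330) (B (L (nat_lit 329) ln13_11_3 ln13_11_3_ok) (M (nat_lit 394) (B (L (nat_lit 393) ln13_11_1 ln13_11_1_ok) (M (nat_lit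 298) (B (M (nat_lit 267) (B (L (nat_lit 299) ln10_12_6_c10 ln10_12_6_c10_ok) (M (nat_lit 266) (B (L (nat_lit 235) ln10_11_6_c10 ln10_11_6_c10_ok) (M (nat_lit 265) (B (L (nat_lit 233) ln10_11_7_c10 ln10_11_7_c10_ok) (L (nat_lit 297) ln10_12_7_c10 ln10_12_7_c10_ok))))))) (B (M (nat_lit 331) (B (M (nat_lit 299) (B (L (nat_lit 267) ln11_8_5 ln11_8_5_ok) (L (nat_lit 426) ln10_13_6 ln10_13_6_ok))) (B (M (nat_lit 426) (B (L (nat_lit 299) ln10_13_6 ln10_13_6_ok) (L (nat_lit 458) ln10_14_6 ln10_14_6_ok))) (M (nat_lit 333) (B (L (nat_lit 334) ln10_11_2 ln10_11_2_ok) (M (nat_lit 297) (B (L (nat_lit 265) ln10_12_7_c10 ln10_12_7_c10_ok) (L (nat_lit 332) ln13_10_3 ln13_10_3_ok)))))))) (B (M (nat_lit 266) (B (M (nat_lit 267) (B (L (nat_lit 235) ln10_11_6_c10 ln10_11_6_c10_ok) (L (nat_lit 299) ln10_12_6_c10 ln10_12_6_c10_ok))) (B (M (nat_lit 331) (B (L (nat_lit 234) ln10_7_4 ln10_7_4_ok) (M (nat_lit 299) (B (L (nat_lit 267) ln11_8_5 ln11_8_5_ok) (L (nat_lit 426)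 ln10_13_6 ln10_13_6_ok))))) (B (M (nat_lit 331) (B (L (nat_lit 234) ln10_7_4 ln10_7_4_ok) (M (nat_lit 426) (B (L (nat_lit 299) ln10_13_6 ln10_13_6_ok) (L (nat_lit 458) ln10_14_6 ln10_14_6_ok))))) (M (nat_lit 234) (B (L (nat_lit 331) ln10_7_4 ln10_7_4_ok) (M (nat_lit 235) (B (L (nat_lit 203) ln10_10_6_c10 ln10_10_6_c10_ok) (L (nat_lit 267) ln10_11_6_c10 ln10_11_6_c10_ok))))))))) (B (M (nat_lit 331) (B (M (nat_lit 426) (B (L (nat_lit 299) ln10_13_6 ln10_13_6_ok) (L (nat_lit 458) ln10_14_6 ln10_14_6_ok))) (M (nat_lit 333) (B (L (nat_lit 334) ln10_11_2 ln10_11_2_ok) (M (nat_lit 297) (B (L (nat_lit 265) ln10_12_7_c10 ln10_12_7_c10_ok) (L (nat_lit 332) ln13_10_3 ln13_10_3_ok))))))) (M (nat_lit 266) (B (M (nat_lit 265) (B (L (nat_lit 233) ln10_11_7_c10 ln10_11_7_c10_ok) (L (nat_lit 297) ln10_12_7_c10 ln10_12_7_c10_ok))) (M (nat_lit 234) (B (L (nat_lit 331) ln10_7_4 ln10_7_4_ok) (M (nat_lit 235) (B (L (nat_lit 203) ln10_10_6_c10 ln10_10_6_c10_ok) (L (nat_lit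 267) ln10_11_6_c10 ln10_11_6_c10_ok)))))))))))))))))))))) (K (nat_lit 5954262830815946494440468064139258622131906539230539000934078872806075061271132354550578193372942037532254438881195279021764289825886699520) (nat_lit 744282853851993311883232088763148421742472137758475090320839436871003032867473360429385605588587145044116530626020384124405271106548662272) (nat_lit 744282853851993311883232088763148421742472137758475090320839436871003032867473360429385605588587145044116530626020384124405271106548662272) c10_s12))))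
noncomputable def c10_d528 : Cert := (B (M (nat_lit 456) (B (L (nat_lit 455) ln11_13_1_c10 ln11_13_1_c10_ok) (M (nat_lit 392) (B (L (nat_lit 391) ln11_13_3 ln11_13_3_ok) (M (nat_lit 488) (B (M (nat_lit 393) (B (L (nat_lit 361) ln8_15_6_c10 ln8_15_6_c10_ok) (L (nat_lit 520) ln8_16_6_c10 ln8_16_6_c10_ok))) (B (M (nat_lit 520) (B (L (nat_lit 393) ln8_16_6_c10 ln8_16_6_c10_ok) (M (nat_lit 519) (B (L (nat_lit 487) ln8_12_5_c10 ln8_12_5_c10_ok) (L (nat_lit 551) ln8_13_5_c10 ln8_13_5_c10_ok))))) (B (M (nat_lit 520) (B (M (nat_lit 519) (B (L (nat_lit 487) ln8_12_5_c10 ln8_12_5_c10_ok) (L (nat_lit 551) ln8_13_5_c10 ln8_13_5_c10_ok))) (M (nat_lit 553) (B (L (nat_lit 521) ln8_13_4_c10 ln8_13_4_c10_ok) (M (nat_lit 552) (B (L (nat_lit 457) ln8_17_6_c10 ln8_17_6_c10_ok) (L (nat_lit 585) ln8_14_4_c10 ln8_14_4_c10_ok))))))) (M (nat_lit 360) (B (M (nat_lit 361) (B (L (nat_lit 329) ln8_14_6_c10 ln8_14_6_c10_ok) (L (nat_lit 393) ln8_15_6_c10 ln8_15_6_c10_ok))) (M (nat_lit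 328) (B (L (nat_lit 457) ln8_10_4_c10 ln8_10_4_c10_ok) (M (nat_lit 327) (B (L (nat_lit 295) ln8_13_7_c10 ln8_13_7_c10_ok) (L (nat_lit 359) ln8_14_7_c10 ln8_14_7_c10_ok))))))))))))))) (B (M (nat_lit 423) (B (M (nat_lit 455) (B (L (nat_lit 454) ln10_13_1_c10 ln10_13_1_c10_ok) (M (nat_lit 459) (B (L (nat_lit 458) ln7_13_0 ln7_13_0_ok) (L (nat_lit 460) ln8_13_0 ln8_13_0_ok))))) (B (M (nat_lit 458) (B (L (nat_lit 459) ln7_13_0 ln7_13_0_ok) (M (nat_lit 422) (B (L (nat_lit 457) ln6_13_0_c10 ln6_13_0_c10_ok) (M (nat_lit 454) (B (L (nat_lit 455) ln10_13_1_c10 ln10_13_1_c10_ok) (L (nat_lit 453) ln9_13_1_c10 ln9_13_1_c10_ok))))))) (B (M (nat_lit 422) (B (M (nat_lit 454) (B (L (nat_lit 455) ln10_13_1_c10 ln10_13_1_c10_ok) (L (nat_lit 453) ln9_13_1_c10 ln9_13_1_c10_ok))) (M (nat_lit 421) (B (M (nat_lit 393) (B (L (nat_lit 394) ln6_13_2_c10 ln6_13_2_c10_ok) (L (nat_lit 392) ln5_13_2_c10 ln5_13_2_c10_ok))) (M (nat_lit 457) (B (L (nat_lit 458) ln6_13_0_c10 ln6_13_0_c10_ok)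 (L (nat_lit 456) ln5_13_0_c10 ln5_13_0_c10_ok))))))) (B (M (nat_lit 456) (B (L (nat_lit 455) ln11_13_1_c10 ln11_13_1_c10_ok) (M (nat_lit 393) (B (M (nat_lit 361) (B (L (nat_lit 329) ln9_10_5_c10 ln9_10_5_c10_ok) (M (nat_lit 488) (B (L (nat_lit 457) ln9_11_5_c10 ln9_11_5_c10_ok) (L (nat_lit 520) ln8_16_6_c10 ln8_16_6_c10_ok))))) (B (M (nat_lit 488) (B (L (nat_lit 520) ln8_16_6_c10 ln8_16_6_c10_ok) (M (nat_lit 361) (B (L (nat_lit 457) ln9_11_5_c10 ln9_11_5_c10_ok) (L (nat_lit 392) ln8_15_6_c10 ln8_15_6_c10_ok))))) (B (M (nat_lit 422) (B (L (nat_lit 394) ln6_13_2_c10 ln6_13_2_c10_ok) (M (nat_lit 421) (B (L (nat_lit 392) ln5_13_2_c10 ln5_13_2_c10_ok) (L (nat_lit 457) ln5_13_0_c10 ln5_13_0_c10_ok))))) (M (nat_lit 361) (B (L (nat_lit 329) ln9_10_5_c10 ln9_10_5_c10_ok) (M (nat_lit 488) (B (L (nat_lit 392) ln8_15_6_c10 ln8_15_6_c10_ok) (L (nat_lit 520) ln8_16_6_c10 ln8_16_6_c10_ok))))))))))) (M (nat_lit 393) (B (M (nat_lit 422) (B (L (nat_lit 394) ln6_13_2_c10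 ln6_13_2_c10_ok) (M (nat_lit 458) (B (L (nat_lit 459) ln7_13_0 ln7_13_0_ok) (L (nat_lit 457) ln6_13_0_c10 ln6_13_0_c10_ok))))) (B (M (nat_lit 422) (B (L (nat_lit 394) ln6_13_2_c10 ln6_13_2_c10_ok) (M (nat_lit 421) (B (L (nat_lit 392) ln5_13_2_c10 ln5_13_2_c10_ok) (M (nat_lit 457) (B (L (nat_lit 458) ln6_13_0_c10 ln6_13_0_c10_ok) (L (nat_lit 456) ln5_13_0_c10 ln5_13_0_c10_ok))))))) (B (M (nat_lit 458) (B (L (nat_lit 459) ln7_13_0 ln7_13_0_ok) (M (nat_lit 490) (B (L (nat_lit 522) ln10_16_7 ln10_16_7_ok) (M (nat_lit 361) (B (L (nat_lit 329) ln9_10_4_c10 ln9_10_4_c10_ok) (L (nat_lit 457) ln9_11_4 ln9_11_4_ok))))))) (B (M (nat_lit 456) (B (M (nat_lit 422) (B (L (nat_lit 394) ln6_13_2_c10 ln6_13_2_c10_ok) (M (nat_lit 421) (B (L (nat_lit 392) ln5_13_2_c10 ln5_13_2_c10_ok) (L (nat_lit 457) ln5_13_0_c10 ln5_13_0_c10_ok))))) (B (M (nat_lit 361) (B (L (nat_lit 329) ln9_10_5_c10 ln9_10_5_c10_ok) (M (nat_lit 488) (B (L (nat_lit 392) ln8_15_6_c10 ln8_15_6_c10_ok)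 (L (nat_lit 520) ln8_16_6_c10 ln8_16_6_c10_ok))))) (M (nat_lit 361) (B (L (nat_lit 329) ln9_10_5_c10 ln9_10_5_c10_ok) (M (nat_lit 488) (B (L (nat_lit 457) ln9_11_5_c10 ln9_11_5_c10_ok) (L (nat_lit 520) ln8_16_6_c10 ln8_16_6_c10_ok)))))))) (M (nat_lit 394) (B (L (nat_lit 422) ln6_13_2_c10 ln6_13_2_c10_ok) (M (nat_lit 458) (B (L (nat_lit 459) ln7_13_0 ln7_13_0_ok) (M (nat_lit 361) (B (L (nat_lit 490) ln10_15_7 ln10_15_7_ok) (L (nat_lit 329) ln9_10_4_c10 ln9_10_4_c10_ok))))))))))))))))) (M (nat_lit 423) (B (M (nat_lit 391) (B (L (nat_lit 390) ln10_13_3_c10 ln10_13_3_c10_ok) (L (nat_lit 392) ln11_13_3 ln11_13_3_ok))) (B (M (nat_lit 458) (B (L (nat_lit 459) ln7_13_0 ln7_13_0_ok) (M (nat_lit 422) (B (L (nat_lit 457) ln6_13_0_c10 ln6_13_0_c10_ok) (M (nat_lit 390) (B (L (nat_lit 391) ln10_13_3_c10 ln10_13_3_c10_ok) (L (nat_lit 389) ln9_13_3_c10 ln9_13_3_c10_ok))))))) (M (nat_lit 393) (B (M (nat_lit 422) (B (L (nat_lit 394) ln6_13_2_c10 ln6_13_2_c10_ok) (M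 (nat_lit 458) (B (L (nat_lit 459) ln7_13_0 ln7_13_0_ok) (L (nat_lit 457) ln6_13_0_c10 ln6_13_0_c10_ok))))) (B (M (nat_lit 422) (B (L (nat_lit 394) ln6_13_2_c10 ln6_13_2_c10_ok) (M (nat_lit 421) (B (L (nat_lit 392) ln5_13_2_c10 ln5_13_2_c10_ok) (M (nat_lit 457) (B (L (nat_lit 458) ln6_13_0_c10 ln6_13_0_c10_ok) (L (nat_lit 456) ln5_13_0_c10 ln5_13_0_c10_ok))))))) (B (M (nat_lit 456) (B (M (nat_lit 361) (B (L (nat_lit 329) ln9_10_5_c10 ln9_10_5_c10_ok) (M (nat_lit 488) (B (L (nat_lit 457) ln9_11_5_c10 ln9_11_5_c10_ok) (L (nat_lit 520) ln8_16_6_c10 ln8_16_6_c10_ok))))) (B (M (nat_lit 361) (B (L (nat_lit 329) ln9_10_5_c10 ln9_10_5_c10_ok) (M (nat_lit 488) (B (L (nat_lit 520) ln8_16_6_c10 ln8_16_6_c10_ok) (L (nat_lit 392) ln8_15_6_c10 ln8_15_6_c10_ok))))) (M (nat_lit 422) (B (L (nat_lit 394) ln6_13_2_c10 ln6_13_2_c10_ok) (M (nat_lit 421) (B (L (nat_lit 457) ln5_13_0_c10 ln5_13_0_c10_ok) (L (nat_lit 392) ln5_13_2_c10 ln5_13_2_c10_ok)))))))) (B (M (nat_lit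 458) (B (L (nat_lit 459) ln7_13_0 ln7_13_0_ok) (M (nat_lit 457) (B (L (nat_lit 422) ln6_13_0_c10 ln6_13_0_c10_ok) (M (nat_lit 490) (B (L (nat_lit 522) ln10_16_7 ln10_16_7_ok) (L (nat_lit 361) ln9_11_4 ln9_11_4_ok))))))) (B (M (nat_lit 394) (B (L (nat_lit 422) ln6_13_2_c10 ln6_13_2_c10_ok) (M (nat_lit 458) (B (L (nat_lit 459) ln7_13_0 ln7_13_0_ok) (M (nat_lit 361) (B (L (nat_lit 490) ln10_15_7 ln10_15_7_ok) (L (nat_lit 329) ln9_10_4_c10 ln9_10_4_c10_ok))))))) (M (nat_lit 458) (B (L (nat_lit 459) ln7_13_0 ln7_13_0_ok) (M (nat_lit 490) (B (L (nat_lit 522) ln10_16_7 ln10_16_7_ok) (M (nat_lit 361) (B (L (nat_lit 457) ln9_11_4 ln9_11_4_ok) (L (nat_lit 329) ln9_10_4_c10 ln9_10_4_c10_ok))))))))))))))))))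
noncomputable def c10_d529 : Cert := (B (M (nat_lit 424) (B (M (nat_lit 423) (B (M (nat_lit 390) (B (L (nat_lit 391) ln10_13_3_c10 ln10_13_3_c10_ok) (M (nat_lit 422) (B (L (nat_lit 389) ln9_13_3_c10 ln9_13_3_c10_ok) (M (nat_lit 454) (B (L (nat_lit 455) ln10_13_1_c10 ln10_13_1_c10_ok) (L (nat_lit 453) ln9_13_1_c10 ln9_13_1_c10_ok))))))) (B (M (nat_lit 422) (B (M (nat_lit 458) (B (L (nat_lit 459) ln7_13_0 ln7_13_0_ok) (L (nat_lit 457) ln6_13_0_c10 ln6_13_0_c10_ok))) (M (nat_lit 454) (B (L (nat_lit 455) ln10_13_1_c10 ln10_13_1_c10_ok) (L (nat_lit 453) ln9_13_1_c10 ln9_13_1_c10_ok))))) (B (M (nat_lit 422) (B (M (nat_lit 458) (B (L (nat_lit 459) ln7_13_0 ln7_13_0_ok) (L (nat_lit 457) ln6_13_0_c10 ln6_13_0_c10_ok))) (M (nat_lit 390) (B (L (nat_lit 391) ln10_13_3_c10 ln10_13_3_c10_ok) (L (nat_lit 389) ln9_13_3_c10 ln9_13_3_c10_ok))))) (M (nat_lit 459) (B (L (nat_lit 460) ln8_13_0 ln8_13_0_ok) (L (nat_lit 458) ln7_13_0 ln7_13_0_ok))))))) (B (M (nat_lit 423)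 (B (M (nat_lit 458) (B (L (nat_lit 459) ln7_13_0 ln7_13_0_ok) (M (nat_lit 454) (B (L (nat_lit 455) ln10_13_1_c10 ln10_13_1_c10_ok) (M (nat_lit 422) (B (L (nat_lit 453) ln9_13_1_c10 ln9_13_1_c10_ok) (L (nat_lit 457) ln6_13_0_c10 ln6_13_0_c10_ok))))))) (B (M (nat_lit 422) (B (M (nat_lit 390) (B (L (nat_lit 389) ln9_13_3_c10 ln9_13_3_c10_ok) (L (nat_lit 391) ln10_13_3_c10 ln10_13_3_c10_ok))) (M (nat_lit 458) (B (L (nat_lit 457) ln6_13_0_c10 ln6_13_0_c10_ok) (L (nat_lit 459) ln7_13_0 ln7_13_0_ok))))) (M (nat_lit 455) (B (L (nat_lit 454) ln10_13_1_c10 ln10_13_1_c10_ok) (M (nat_lit 391) (B (L (nat_lit 390) ln10_13_3_c10 ln10_13_3_c10_ok) (M (nat_lit 487) (B (L (nat_lit 392) ln11_13_3 ln11_13_3_ok) (M (nat_lit 519) (B (M (nat_lit 518) (B (L (nat_lit 550) ln7_13_5_c10 ln7_13_5_c10_ok) (L (nat_lit 486) ln7_12_5_c10 ln7_12_5_c10_ok))) (M (nat_lit 520) (B (L (nat_lit 552) ln7_13_4_c10 ln7_13_4_c10_ok) (L (nat_lit 488) ln7_12_4_c10 ln7_12_4_c10_ok))))))))))))))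 (B (M (nat_lit 391) (B (M (nat_lit 390) (B (L (nat_lit 423) ln10_13_3_c10 ln10_13_3_c10_ok) (L (nat_lit 392) ln11_13_3 ln11_13_3_ok))) (B (M (nat_lit 456) (B (L (nat_lit 392) ln11_13_3 ln11_13_3_ok) (L (nat_lit 455) ln11_13_1_c10 ln11_13_1_c10_ok))) (M (nat_lit 423) (B (L (nat_lit 390) ln10_13_3_c10 ln10_13_3_c10_ok) (M (nat_lit 455) (B (L (nat_lit 454) ln10_13_1_c10 ln10_13_1_c10_ok) (L (nat_lit 456) ln11_13_1_c10 ln11_13_1_c10_ok)))))))) c10_d528)))) (B (M (nat_lit 393) (B (M (nat_lit 392) (B (L (nat_lit 428) ln12_13_3 ln12_13_3_ok) (M (nat_lit 391) (B (L (nat_lit 390) ln6_12_0_c10 ln6_12_0_c10_ok) (L (nat_lit 394) ln7_12_0_c10 ln7_12_0_c10_ok))))) (B (M (nat_lit 428) (B (L (nat_lit 392) ln12_13_3 ln12_13_3_ok) (L (nat_lit 394) ln13_13_3 ln13_13_3_ok))) (B (M (nat_lit 457) (B (M (nat_lit 428) (B (L (nat_lit 456) ln12_13_1 ln12_13_1_ok) (L (nat_lit 458) ln13_13_1 ln13_13_1_ok))) (B (M (nat_lit 361) (B (M (nat_lit 458) (B (L (nat_lit 490) ln9_11_4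 ln9_11_4_ok) (L (nat_lit 329) ln9_10_4_c10 ln9_10_4_c10_ok))) (B (M (nat_lit 489) (B (M (nat_lit 490) (B (L (nat_lit 522) ln9_12_4 ln9_12_4_ok) (L (nat_lit 458) ln9_11_4 ln9_11_4_ok))) (M (nat_lit 362) (B (L (nat_lit 394) ln13_11_1 ln13_11_1_ok) (L (nat_lit 330) ln9_14_6_c10 ln9_14_6_c10_ok))))) (M (nat_lit 362) (B (L (nat_lit 330) ln9_14_6_c10 ln9_14_6_c10_ok) (M (nat_lit 328) (B (L (nat_lit 360) ln9_14_7_c10 ln9_14_7_c10_ok) (L (nat_lit 329) ln12_11_3 ln12_11_3_ok)))))))) (M (nat_lit 394) (B (L (nat_lit 362) ln13_11_1 ln13_11_1_ok) (L (nat_lit 428) ln13_13_3 ln13_13_3_ok)))))) (B (M (nat_lit 457) (B (M (nat_lit 428) (B (L (nat_lit 456) ln12_13_1 ln12_13_1_ok) (L (nat_lit 392) ln12_13_3 ln12_13_3_ok))) (B (M (nat_lit 361) (B (M (nat_lit 392) (B (L (nat_lit 428) ln12_13_3 ln12_13_3_ok) (L (nat_lit 362) ln12_11_1 ln12_11_1_ok))) (M (nat_lit 458) (B (L (nat_lit 490) ln9_11_4 ln9_11_4_ok) (L (nat_lit 329) ln9_10_4_c10 ln9_10_4_c10_ok))))) (B (M (nat_lit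 361) (B (M (nat_lit 456) (B (L (nat_lit 488) ln9_11_5_c10 ln9_11_5_c10_ok) (L (nat_lit 428) ln12_13_1 ln12_13_1_ok))) (M (nat_lit 458) (B (L (nat_lit 490) ln9_11_4 ln9_11_4_ok) (L (nat_lit 329) ln9_10_4_c10 ln9_10_4_c10_ok))))) (M (nat_lit 361) (B (M (nat_lit 362) (B (L (nat_lit 392) ln12_11_1 ln12_11_1_ok) (L (nat_lit 330) ln9_14_6_c10 ln9_14_6_c10_ok))) (M (nat_lit 458) (B (L (nat_lit 490) ln9_11_4 ln9_11_4_ok) (L (nat_lit 329) ln9_10_4_c10 ln9_10_4_c10_ok))))))))) (M (nat_lit 361) (B (M (nat_lit 392) (B (L (nat_lit 362) ln12_11_1 ln12_11_1_ok) (M (nat_lit 391) (B (L (nat_lit 390) ln6_12_0_c10 ln6_12_0_c10_ok) (L (nat_lit 394) ln7_12_0_c10 ln7_12_0_c10_ok))))) (M (nat_lit 458) (B (L (nat_lit 329) ln9_10_4_c10 ln9_10_4_c10_ok) (M (nat_lit 490) (B (L (nat_lit 457) ln9_11_4 ln9_11_4_ok) (L (nat_lit 522) ln10_16_7 ln10_16_7_ok)))))))))))) (B (M (nat_lit 392) (B (M (nat_lit 391) (B (L (nat_lit 424) ln11_13_3 ln11_13_3_ok) (M (nat_lit 393) (B (L (nat_lit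 394) ln7_12_0_c10 ln7_12_0_c10_ok) (L (nat_lit 428) ln12_13_3 ln12_13_3_ok))))) (B (M (nat_lit 457) (B (M (nat_lit 428) (B (L (nat_lit 393) ln12_13_3 ln12_13_3_ok) (L (nat_lit 456) ln12_13_1 ln12_13_1_ok))) (B (M (nat_lit 456) (B (L (nat_lit 428) ln12_13_1 ln12_13_1_ok) (M (nat_lit 455) (B (L (nat_lit 424) ln11_13_1_c10 ln11_13_1_c10_ok) (L (nat_lit 454) ln6_14_2_c10 ln6_14_2_c10_ok))))) (B (M (nat_lit 489) (B (M (nat_lit 521) (B (L (nat_lit 424) ln9_16_7 ln9_16_7_ok) (L (nat_lit 394) ln9_16_6 ln9_16_6_ok))) (B (M (nat_lit 360) (B (L (nat_lit 393) ln9_15_7 ln9_15_7_ok) (M (nat_lit 424) (B (L (nat_lit 328) ln8_10_4_c10 ln8_10_4_c10_ok) (L (nat_lit 521) ln9_16_7 ln9_16_7_ok))))) (B (M (nat_lit 393) (B (L (nat_lit 360) ln9_15_7 ln9_15_7_ok) (M (nat_lit 394) (B (L (nat_lit 362) ln13_11_1 ln13_11_1_ok) (L (nat_lit 521) ln9_16_6 ln9_16_6_ok))))) (M (nat_lit 360) (B (L (nat_lit 393) ln9_15_7 ln9_15_7_ok) (M (nat_lit 424) (B (L (nat_lit 328) ln8_10_4_c10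 ln8_10_4_c10_ok) (L (nat_lit 456) ln8_11_4_c10 ln8_11_4_c10_ok))))))))) (M (nat_lit 489) (B (M (nat_lit 393) (B (L (nat_lit 360) ln9_15_7 ln9_15_7_ok) (L (nat_lit 428) ln12_13_3 ln12_13_3_ok))) (M (nat_lit 521) (B (L (nat_lit 424) ln9_16_7 ln9_16_7_ok) (L (nat_lit 394) ln9_16_6 ln9_16_6_ok))))))))) (B (M (nat_lit 424) (B (L (nat_lit 391) ln11_13_3 ln11_13_3_ok) (M (nat_lit 456) (B (L (nat_lit 455) ln11_13_1_c10 ln11_13_1_c10_ok) (M (nat_lit 457) (B (L (nat_lit 428) ln12_13_1 ln12_13_1_ok) (M (nat_lit 489) (B (L (nat_lit 360) ln8_11_4_c10 ln8_11_4_c10_ok) (L (nat_lit 521) ln9_16_7 ln9_16_7_ok))))))))) (B (M (nat_lit 393) (B (L (nat_lit 428) ln12_13_3 ln12_13_3_ok) (M (nat_lit 391) (B (L (nat_lit 390) ln6_12_0_c10 ln6_12_0_c10_ok) (L (nat_lit 394) ln7_12_0_c10 ln7_12_0_c10_ok))))) (M (nat_lit 391) (B (L (nat_lit 424) ln11_13_3 ln11_13_3_ok) (M (nat_lit 393) (B (L (nat_lit 390) ln6_12_0_c10 ln6_12_0_c10_ok) (L (nat_lit 394) ln7_12_0_c10 ln7_12_0_c10_ok))))))))))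 (M (nat_lit 460) (B (M (nat_lit 459) (B (L (nat_lit 424) ln8_13_0 ln8_13_0_ok) (L (nat_lit 458) ln13_14_3 ln13_14_3_ok))) (L (nat_lit 428) ln9_13_0 ln9_13_0_ok))))))
noncomputable def c10_d530 : Cert := (B (M (nat_lit 425) c10_d529) (B (M (nat_lit 362) (B (M (nat_lit 329) (B (M (nat_lit 361) (B (M (nat_lit 425) (B (M (nat_lit 424) (B (M (nat_lit 393) (B (L (nat_lit 456) ln9_10_5_c10 ln9_10_5_c10_ok) (L (nat_lit 458) ln9_10_4_c10 ln9_10_4_c10_ok))) (B (M (nat_lit 458) (B (L (nat_lit 393) ln9_10_4_c10 ln9_10_4_c10_ok) (M (nat_lit 459) (B (L (nat_lit 423) ln7_13_0 ln7_13_0_ok) (L (nat_lit 460) ln8_13_0 ln8_13_0_ok))))) (B (M (nat_lit 456) (B (L (nat_lit 393) ln9_10_5_c10 ln9_10_5_c10_ok) (L (nat_lit 455) ln11_13_1_c10 ln11_13_1_c10_ok))) (M (nat_lit 423) (B (M (nat_lit 422) (B (M (nat_lit 458) (B (L (nat_lit 459) ln7_13_0 ln7_13_0_ok) (L (nat_lit 457) ln6_13_0_c10 ln6_13_0_c10_ok))) (M (nat_lit 390) (B (L (nat_lit 391) ln10_13_3_c10 ln10_13_3_c10_ok)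 (L (nat_lit 389) ln9_13_3_c10 ln9_13_3_c10_ok))))) (B (M (nat_lit 454) (B (L (nat_lit 455) ln10_13_1_c10 ln10_13_1_c10_ok) (M (nat_lit 422) (B (L (nat_lit 453) ln9_13_1_c10 ln9_13_1_c10_ok) (M (nat_lit 390) (B (L (nat_lit 391) ln10_13_3_c10 ln10_13_3_c10_ok) (L (nat_lit 389) ln9_13_3_c10 ln9_13_3_c10_ok))))))) (B (M (nat_lit 422) (B (M (nat_lit 458) (B (L (nat_lit 459) ln7_13_0 ln7_13_0_ok) (L (nat_lit 457) ln6_13_0_c10 ln6_13_0_c10_ok))) (M (nat_lit 454) (B (L (nat_lit 455) ln10_13_1_c10 ln10_13_1_c10_ok) (L (nat_lit 453) ln9_13_1_c10 ln9_13_1_c10_ok))))) (M (nat_lit 459) (B (L (nat_lit 460) ln8_13_0 ln8_13_0_ok) (L (nat_lit 458) ln7_13_0 ln7_13_0_ok))))))))))) (B (M (nat_lit 424) (B (M (nat_lit 392) (B (L (nat_lit 391) ln11_13_3 ln11_13_3_ok) (M (nat_lit 456) (B (L (nat_lit 455) ln11_13_1_c10 ln11_13_1_c10_ok) (L (nat_lit 360) ln8_14_6_c10 ln8_14_6_c10_ok))))) (B (M (nat_lit 423) (B (M (nat_lit 459) (B (L (nat_lit 460) ln8_13_0 ln8_13_0_ok) (L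 (nat_lit 458) ln7_13_0 ln7_13_0_ok))) (M (nat_lit 455) (B (L (nat_lit 456) ln11_13_1_c10 ln11_13_1_c10_ok) (L (nat_lit 454) ln10_13_1_c10 ln10_13_1_c10_ok))))) (M (nat_lit 423) (B (M (nat_lit 459) (B (L (nat_lit 460) ln8_13_0 ln8_13_0_ok) (L (nat_lit 458) ln7_13_0 ln7_13_0_ok))) (M (nat_lit 391) (B (L (nat_lit 392) ln11_13_3 ln11_13_3_ok) (L (nat_lit 390) ln10_13_3_c10 ln10_13_3_c10_ok)))))))) (B (M (nat_lit 424) (B (M (nat_lit 456) (B (L (nat_lit 455) ln11_13_1_c10 ln11_13_1_c10_ok) (L (nat_lit 393) ln9_10_5_c10 ln9_10_5_c10_ok))) (B (M (nat_lit 392) (B (L (nat_lit 391) ln11_13_3 ln11_13_3_ok) (M (nat_lit 456) (B (L (nat_lit 455) ln11_13_1_c10 ln11_13_1_c10_ok) (L (nat_lit 360) ln8_14_6_c10 ln8_14_6_c10_ok))))) (M (nat_lit 392) (B (L (nat_lit 391) ln11_13_3 ln11_13_3_ok) (L (nat_lit 393) ln12_11_1 ln12_11_1_ok)))))) (M (nat_lit 393) (B (L (nat_lit 392) ln12_11_1 ln12_11_1_ok) (L (nat_lit 458) ln9_10_4_c10 ln9_10_4_c10_ok))))))) (L (nat_lit 328)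 ln12_11_3 ln12_11_3_ok))) (L (nat_lit 330) ln13_11_3 ln13_11_3_ok))) (B (M (nat_lit 459) (B (M (nat_lit 393) (B (M (nat_lit 361) (B (M (nat_lit 328) (B (M (nat_lit 425) (B (M (nat_lit 460) (B (L (nat_lit 462) ln14_14_3 ln14_14_3_ok) (L (nat_lit 424) ln8_13_0 ln8_13_0_ok))) (M (nat_lit 360) (B (L (nat_lit 457) ln9_14_7_c10 ln9_14_7_c10_ok) (L (nat_lit 327) ln11_11_3 ln11_11_3_ok))))) (L (nat_lit 329) ln12_11_3 ln12_11_3_ok))) (L (nat_lit 392) ln12_11_1 ln12_11_1_ok))) (L (nat_lit 394) ln13_11_1 ln13_11_1_ok))) (B (M (nat_lit 394) (B (M (nat_lit 491) (B (L (nat_lit 523) ln11_16_7 ln11_16_7_ok) (L (nat_lit 458) ln10_11_4 ln10_11_4_ok))) (L (nat_lit 393) ln13_11_1 ln13_11_1_ok))) (M (nat_lit 460) (B (M (nat_lit 425) (B (L (nat_lit 458) ln13_14_3 ln13_14_3_ok) (L (nat_lit 424) ln8_13_0 ln8_13_0_ok))) (L (nat_lit 462) ln14_14_3 ln14_14_3_ok)))))) (B (M (nat_lit 394) (B (L (nat_lit 393) ln13_11_1 ln13_11_1_ok) (M (nat_lit 459) (B (L (nat_lit 330) ln10_10_4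 ln10_10_4_ok) (M (nat_lit 491) (B (L (nat_lit 523) ln11_16_7 ln11_16_7_ok) (L (nat_lit 458) ln10_11_4 ln10_11_4_ok))))))) (B (M (nat_lit 459) (B (M (nat_lit 460) (B (M (nat_lit 425) (B (L (nat_lit 458) ln13_14_3 ln13_14_3_ok) (L (nat_lit 424) ln8_13_0 ln8_13_0_ok))) (L (nat_lit 462) ln14_14_3 ln14_14_3_ok))) (M (nat_lit 330) (B (L (nat_lit 394) ln10_10_4 ln10_10_4_ok) (L (nat_lit 329) ln13_11_3 ln13_11_3_ok))))) (M (nat_lit 398) (B (L (nat_lit 399) ln11_11_0 ln11_11_0_ok) (M (nat_lit 361) (B (M (nat_lit 329) (B (L (nat_lit 328) ln12_11_3 ln12_11_3_ok) (L (nat_lit 330) ln13_11_3 ln13_11_3_ok))) (M (nat_lit 393) (B (L (nat_lit 392) ln12_11_1 ln12_11_1_ok) (L (nat_lit 394) ln13_11_1 ln13_11_1_ok)))))))))))) (B (M (nat_lit 428) (B (M (nat_lit 394) (B (M (nat_lit 458) (B (M (nat_lit 362) (B (M (nat_lit 490) (B (M (nat_lit 491) (B (L (nat_lit 459) ln10_11_4 ln10_11_4_ok) (L (nat_lit 523) ln10_12_4 ln10_12_4_ok))) (B (M (nat_lit 522) (B (M (nat_lit 523)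 (B (L (nat_lit 491) ln10_12_4 ln10_12_4_ok) (L (nat_lit 555) ln10_13_4 ln10_13_4_ok))) (M (nat_lit 521) (B (L (nat_lit 489) ln10_12_5 ln10_12_5_ok) (L (nat_lit 553) ln10_13_5 ln10_13_5_ok))))) (B (M (nat_lit 522) (B (M (nat_lit 521) (B (L (nat_lit 489) ln10_12_5 ln10_12_5_ok) (L (nat_lit 553) ln10_13_5 ln10_13_5_ok))) (M (nat_lit 555) (B (L (nat_lit 523) ln10_13_4 ln10_13_4_ok) (M (nat_lit 554) (B (L (nat_lit 459) ln10_17_6 ln10_17_6_ok) (L (nat_lit 587) ln10_14_4 ln10_14_4_ok))))))) (M (nat_lit 522) (B (M (nat_lit 459) (B (L (nat_lit 491) ln10_11_4 ln10_11_4_ok) (L (nat_lit 554) ln10_17_6 ln10_17_6_ok))) (M (nat_lit 521) (B (L (nat_lit 489) ln10_12_5 ln10_12_5_ok) (L (nat_lit 553) ln10_13_5 ln10_13_5_ok))))))))) (M (nat_lit 329) (B (L (nat_lit 361) ln10_14_7 ln10_14_7_ok) (L (nat_lit 330) ln13_11_3 ln13_11_3_ok))))) (L (nat_lit 457) ln13_13_1 ln13_13_1_ok))) (L (nat_lit 393) ln13_13_3 ln13_13_3_ok))) (L (nat_lit 462) ln10_13_0 ln10_13_0_ok))) (B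 (M (nat_lit 428) (B (M (nat_lit 457) (B (M (nat_lit 425) (B (L (nat_lit 460) ln9_13_0 ln9_13_0_ok) (L (nat_lit 456) ln12_13_1 ln12_13_1_ok))) (L (nat_lit 458) ln13_13_1 ln13_13_1_ok))) (L (nat_lit 462) ln10_13_0 ln10_13_0_ok))) (M (nat_lit 428) (B (M (nat_lit 393) (B (M (nat_lit 425) (B (L (nat_lit 460) ln9_13_0 ln9_13_0_ok) (L (nat_lit 392) ln12_13_3 ln12_13_3_ok))) (L (nat_lit 394) ln13_13_3 ln13_13_3_ok))) (L (nat_lit 462) ln10_13_0 ln10_13_0_ok)))))))
noncomputable def c10_d531 : Cert := (B (M (nat_lit 366) (B (M (nat_lit 427) (B (M (nat_lit 426) c10_d530) (B (M (nat_lit 428) (B (M (nat_lit 426) (B (L (nat_lit 462) ln10_13_0 ln10_13_0_ok) (M (nat_lit 425) (B (M (nat_lit 457) (B (L (nat_lit 456) ln12_13_1 ln12_13_1_ok) (L (nat_lit 458) ln13_13_1 ln13_13_1_ok))) (M (nat_lit 424) (B (M (nat_lit 392) (B (L (nat_lit 391) ln11_13_3 ln11_13_3_ok) (L (nat_lit 393) ln12_13_3 ln12_13_3_ok))) (M (nat_lit 396) (B (L (nat_lit 332) ln12_10_4 ln12_10_4_ok)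 (L (nat_lit 395) ln8_13_2 ln8_13_2_ok))))))))) (B (M (nat_lit 459) (B (M (nat_lit 332) (B (L (nat_lit 395) ln11_14_6 ln11_14_6_ok) (L (nat_lit 396) ln12_10_4 ln12_10_4_ok))) (B (M (nat_lit 396) (B (L (nat_lit 332) ln12_10_4 ln12_10_4_ok) (M (nat_lit 491) (B (L (nat_lit 523) ln11_16_6 ln11_16_6_ok) (L (nat_lit 460) ln12_11_5 ln12_11_5_ok))))) (B (M (nat_lit 491) (B (M (nat_lit 396) (B (L (nat_lit 395) ln11_15_6 ln11_15_6_ok) (L (nat_lit 523) ln11_16_6 ln11_16_6_ok))) (B (M (nat_lit 396) (B (L (nat_lit 523) ln11_16_6 ln11_16_6_ok) (L (nat_lit 460) ln12_11_5 ln12_11_5_ok))) (B (M (nat_lit 396) (B (L (nat_lit 395) ln11_15_6 ln11_15_6_ok) (L (nat_lit 460) ln12_11_5 ln12_11_5_ok))) (M (nat_lit 395) (B (M (nat_lit 490) (B (L (nat_lit 458) ln11_11_5 ln11_11_5_ok) (L (nat_lit 522) ln11_12_5 ln11_12_5_ok))) (M (nat_lit 492) (B (L (nat_lit 460) ln11_11_4 ln11_11_4_ok) (L (nat_lit 524) ln11_12_4 ln11_12_4_ok))))))))) (M (nat_lit 395) (B (L (nat_lit 332) ln11_14_6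 ln11_14_6_ok) (M (nat_lit 491) (B (M (nat_lit 490) (B (L (nat_lit 458) ln11_11_5 ln11_11_5_ok) (L (nat_lit 522) ln11_12_5 ln11_12_5_ok))) (M (nat_lit 492) (B (L (nat_lit 460) ln11_11_4 ln11_11_4_ok) (L (nat_lit 524) ln11_12_4 ln11_12_4_ok))))))))))) (M (nat_lit 462) (B (M (nat_lit 463) (B (L (nat_lit 460) ln15_14_3 ln15_14_3_ok) (L (nat_lit 464) ln16_14_3 ln16_14_3_ok))) (L (nat_lit 426) ln10_13_0 ln10_13_0_ok)))))) (B (M (nat_lit 428) (B (M (nat_lit 362) (B (M (nat_lit 361) (B (M (nat_lit 360) (B (M (nat_lit 396) (B (L (nat_lit 395) ln8_11_0 ln8_11_0_ok) (L (nat_lit 332) ln12_10_4 ln12_10_4_ok))) (M (nat_lit 392) (B (L (nat_lit 393) ln12_11_1 ln12_11_1_ok) (L (nat_lit 391) ln11_11_1 ln11_11_1_ok))))) (M (nat_lit 329) (B (L (nat_lit 330) ln13_11_3 ln13_11_3_ok) (L (nat_lit 328) ln12_11_3 ln12_11_3_ok))))) (B (M (nat_lit 395) (B (M (nat_lit 361) (B (M (nat_lit 329) (B (L (nat_lit 330) ln13_11_3 ln13_11_3_ok) (L (nat_lit 328) ln12_11_3 ln12_11_3_ok)))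 (M (nat_lit 396) (B (L (nat_lit 332) ln12_10_4 ln12_10_4_ok) (L (nat_lit 360) ln8_11_0 ln8_11_0_ok))))) (L (nat_lit 394) ln14_11_1 ln14_11_1_ok))) (B (M (nat_lit 398) (B (L (nat_lit 399) ln11_11_0 ln11_11_0_ok) (M (nat_lit 361) (B (M (nat_lit 329) (B (L (nat_lit 328) ln12_11_3 ln12_11_3_ok) (L (nat_lit 330) ln13_11_3 ln13_11_3_ok))) (M (nat_lit 393) (B (L (nat_lit 392) ln12_11_1 ln12_11_1_ok) (L (nat_lit 394) ln13_11_1 ln13_11_1_ok))))))) (M (nat_lit 394) (B (L (nat_lit 395) ln14_11_1 ln14_11_1_ok) (L (nat_lit 393) ln13_11_1 ln13_11_1_ok))))))) (M (nat_lit 462) (B (M (nat_lit 463) (B (L (nat_lit 460) ln15_14_3 ln15_14_3_ok) (L (nat_lit 464) ln16_14_3 ln16_14_3_ok))) (L (nat_lit 426) ln10_13_0 ln10_13_0_ok))))) (B (M (nat_lit 395) (B (L (nat_lit 394) ln14_11_1 ln14_11_1_ok) (M (nat_lit 459) (B (L (nat_lit 332) ln11_14_6 ln11_14_6_ok) (M (nat_lit 491) (B (M (nat_lit 492) (B (L (nat_lit 524) ln11_12_4 ln11_12_4_ok) (L (nat_lit 460) ln11_11_4 ln11_11_4_ok)))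 (M (nat_lit 490) (B (L (nat_lit 522) ln11_12_5 ln11_12_5_ok) (L (nat_lit 458) ln11_11_5 ln11_11_5_ok))))))))) (M (nat_lit 395) (B (M (nat_lit 332) (B (L (nat_lit 459) ln11_14_6 ln11_14_6_ok) (M (nat_lit 300) (B (L (nat_lit 268) ln12_8_5 ln12_8_5_ok) (L (nat_lit 396) ln12_9_5 ln12_9_5_ok))))) (L (nat_lit 394) ln14_11_1 ln14_11_1_ok)))))))) (B (M (nat_lit 395) (B (L (nat_lit 394) ln14_11_1 ln14_11_1_ok) (M (nat_lit 396) (B (L (nat_lit 367) ln15_11_1 ln15_11_1_ok) (M (nat_lit 332) (B (L (nat_lit 428) ln12_10_4 ln12_10_4_ok) (M (nat_lit 300) (B (L (nat_lit 427) ln12_9_5 ln12_9_5_ok) (L (nat_lit 268) ln12_8_5 ln12_8_5_ok))))))))) (M (nat_lit 367) (B (M (nat_lit 335) (B (L (nat_lit 334) ln11_11_2 ln11_11_2_ok) (L (nat_lit 336) ln12_11_2 ln12_11_2_ok))) (M (nat_lit 399) (B (L (nat_lit 398) ln11_11_0 ln11_11_0_ok) (L (nat_lit 400) ln12_11_0 ln12_11_0_ok)))))))) (B (K (nat_lit 5954262830815946494440468064139258622131906539230539000934078872806075061271132354550578193372942037532254438881195279021764289825886699520)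 (nat_lit 1266331655955072354700736160289015961684087061612632756667671752346049979712771479027338472714400561153852659696447429146114433692238467194990447083022316136162895271134033346560) (nat_lit 1266331655955072354700736160289015961684087061612632756667671752346049979712771479027338472714400561153852659696447429146114433692238467194990447083022316136162895271134033346560) c10_s91) (B (K (nat_lit 5954262830815946494440468064139258622131906539230539000934078872806075061271132354550578193372942037532254438881195279021764289825886699520) (nat_lit 1266331655955072354700736160289015961684087061612632756657988315301429785967240978062814924872108992212039953402221460238830204124710577939134653434423780434803208655258477658112) (nat_lit 1266331655955072354700736160289015961684087061612632756657988315301429785967240978062814924872108992212039953402221460238830204124710577939134653434423780434803208655258477658112) c10_s127) (B (K (nat_lit 5954262830815946494440468064139258622131906539230539000934078872806075061271132354550578193372942037532254438881195279021764289825886699520)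 (nat_lit 7991676306299587175086062046319502121363433067359515031755323343250321916907964116179172378698482806483861243646750076607052827760264024675250601984) (nat_lit 7991676306299587175086062046319502121363433067359515031755323343250321916907964116179172378698482806483861243646750076607052827760264024675250601984) c10_s10) (B (K (nat_lit 5954262830815946494440468064139258622131906539230539000934078872806075061271132354550578193372942037532254438881195279021764289825886699520) (nat_lit 27459190651710785666865109342079193932125457722187829790530725860667425186997309106495203256817714207976975708281101976130750023171960336447294857510930874368) (nat_lit 27459190651710785666865109342079193932125457722187829790530725860667425186997309106495203256817714207976975708281101976130750023171960336447294857510930874368) c10_s128) (K (nat_lit 5954262830815946494440468064139258622131906539230539000934078872806075061271132354550578193372942037532254438881195279021764289825886699520)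 (nat_lit 4821544694700713978734302978614673361995407859668064121291907793656555004525976109789198547900567471604461700954890174464) (nat_lit 4821544694700713978734302978614673361995407859668064121291907793656555004525976109789198547900567471604461700954890174464) c10_s104))))))
noncomputable def c10_d532 : Cert := (B (M (nat_lit 459) (B (M (nat_lit 491) (B (L (nat_lit 394) ln11_15_7 ln11_15_7_ok) (M (nat_lit 490) (B (L (nat_lit 522) ln11_12_5 ln11_12_5_ok) (L (nat_lit 458) ln11_11_5 ln11_11_5_ok))))) (B (M (nat_lit 331) (B (M (nat_lit 460) (B (L (nat_lit 492) ln11_11_4 ln11_11_4_ok) (L (nat_lit 428) ln11_10_4 ln11_10_4_ok))) (M (nat_lit 458) (B (L (nat_lit 490) ln11_11_5 ln11_11_5_ok) (L (nat_lit 426) ln11_10_5 ln11_10_5_ok))))) (M (nat_lit 491) (B (L (nat_lit 394) ln11_15_7 ln11_15_7_ok) (M (nat_lit 492) (B (L (nat_lit 524) ln11_12_4 ln11_12_4_ok) (L (nat_lit 460) ln11_11_4 ln11_11_4_ok)))))))) (M (nat_lit 331) (B (M (nat_lit 299) (B (M (nat_lit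 394) (B (L (nat_lit 267) ln11_8_5 ln11_8_5_ok) (L (nat_lit 426) ln11_9_5 ln11_9_5_ok))) (M (nat_lit 298) (B (L (nat_lit 266) ln11_12_7 ln11_12_7_ok) (L (nat_lit 330) ln11_13_7 ln11_13_7_ok))))) (B (M (nat_lit 299) (B (M (nat_lit 298) (B (L (nat_lit 330) ln11_13_7 ln11_13_7_ok) (L (nat_lit 266) ln11_12_7 ln11_12_7_ok))) (B (M (nat_lit 267) (B (M (nat_lit 266) (B (L (nat_lit 298) ln11_12_7 ln11_12_7_ok) (L (nat_lit 234) ln11_11_7 ln11_11_7_ok))) (M (nat_lit 268) (B (L (nat_lit 300) ln11_12_6 ln11_12_6_ok) (L (nat_lit 236) ln11_11_6 ln11_11_6_ok))))) (B (M (nat_lit 267) (B (M (nat_lit 268) (B (L (nat_lit 300) ln11_12_6 ln11_12_6_ok) (L (nat_lit 236) ln11_11_6 ln11_11_6_ok))) (M (nat_lit 234) (B (L (nat_lit 266) ln11_11_7 ln11_11_7_ok) (M (nat_lit 235) (B (L (nat_lit 330) ln11_7_5 ln11_7_5_ok) (L (nat_lit 202) ln11_10_7 ln11_10_7_ok))))))) (M (nat_lit 267) (B (M (nat_lit 330) (B (L (nat_lit 298) ln11_13_7 ln11_13_7_ok) (L (nat_lit 235) ln11_7_5 ln11_7_5_ok)))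 (M (nat_lit 268) (B (L (nat_lit 300) ln11_12_6 ln11_12_6_ok) (L (nat_lit 236) ln11_11_6 ln11_11_6_ok))))))))) (B (M (nat_lit 299) (B (M (nat_lit 394) (B (L (nat_lit 267) ln11_8_5 ln11_8_5_ok) (L (nat_lit 426) ln11_9_5 ln11_9_5_ok))) (B (M (nat_lit 426) (B (L (nat_lit 394) ln11_9_5 ln11_9_5_ok) (L (nat_lit 458) ln11_10_5 ln11_10_5_ok))) (M (nat_lit 267) (B (M (nat_lit 268) (B (L (nat_lit 236) ln11_11_6 ln11_11_6_ok) (L (nat_lit 300) ln11_12_6 ln11_12_6_ok))) (M (nat_lit 266) (B (L (nat_lit 234) ln11_11_7 ln11_11_7_ok) (L (nat_lit 298) ln11_12_7 ln11_12_7_ok)))))))) (B (M (nat_lit 299) (B (M (nat_lit 426) (B (L (nat_lit 458) ln11_10_5 ln11_10_5_ok) (L (nat_lit 394) ln11_9_5 ln11_9_5_ok))) (B (M (nat_lit 394) (B (L (nat_lit 426) ln11_9_5 ln11_9_5_ok) (L (nat_lit 267) ln11_8_5 ln11_8_5_ok))) (B (M (nat_lit 267) (B (L (nat_lit 394) ln11_8_5 ln11_8_5_ok) (M (nat_lit 268) (B (L (nat_lit 300) ln11_12_6 ln11_12_6_ok) (L (nat_lit 236) ln11_11_6 ln11_11_6_ok)))))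 (M (nat_lit 267) (B (M (nat_lit 268) (B (L (nat_lit 300) ln11_12_6 ln11_12_6_ok) (L (nat_lit 236) ln11_11_6 ln11_11_6_ok))) (M (nat_lit 234) (B (L (nat_lit 266) ln11_11_7 ln11_11_7_ok) (M (nat_lit 235) (B (L (nat_lit 330) ln11_7_5 ln11_7_5_ok) (L (nat_lit 202) ln11_10_7 ln11_10_7_ok))))))))))) (B (M (nat_lit 299) (B (M (nat_lit 426) (B (L (nat_lit 458) ln11_10_5 ln11_10_5_ok) (L (nat_lit 394) ln11_9_5 ln11_9_5_ok))) (B (M (nat_lit 394) (B (L (nat_lit 426) ln11_9_5 ln11_9_5_ok) (L (nat_lit 267) ln11_8_5 ln11_8_5_ok))) (B (M (nat_lit 330) (B (L (nat_lit 298) ln11_13_7 ln11_13_7_ok) (M (nat_lit 267) (B (L (nat_lit 394) ln11_8_5 ln11_8_5_ok) (L (nat_lit 235) ln11_7_5 ln11_7_5_ok))))) (M (nat_lit 267) (B (M (nat_lit 330) (B (L (nat_lit 235) ln11_7_5 ln11_7_5_ok) (L (nat_lit 298) ln11_13_7 ln11_13_7_ok))) (M (nat_lit 268) (B (L (nat_lit 300) ln11_12_6 ln11_12_6_ok) (L (nat_lit 236) ln11_11_6 ln11_11_6_ok))))))))) (B (M (nat_lit 299) (B (M (nat_lit 426)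 (B (L (nat_lit 458) ln11_10_5 ln11_10_5_ok) (L (nat_lit 394) ln11_9_5 ln11_9_5_ok))) (M (nat_lit 298) (B (L (nat_lit 330) ln11_13_7 ln11_13_7_ok) (L (nat_lit 266) ln11_12_7 ln11_12_7_ok))))) (M (nat_lit 330) (B (L (nat_lit 298) ln11_13_7 ln11_13_7_ok) (M (nat_lit 426) (B (L (nat_lit 458) ln11_10_5 ln11_10_5_ok) (M (nat_lit 428) (B (L (nat_lit 460) ln11_10_4 ln11_10_4_ok) (M (nat_lit 425) (B (M (nat_lit 360) (B (L (nat_lit 359) ln7_11_2 ln7_11_2_ok) (M (nat_lit 392) (B (L (nat_lit 391) ln11_11_1 ln11_11_1_ok) (M (nat_lit 328) (B (L (nat_lit 327) ln11_11_3 ln11_11_3_ok) (M (nat_lit 424) (B (L (nat_lit 457) ln8_10_4_c10 ln8_10_4_c10_ok) (M (nat_lit 455) (B (L (nat_lit 423) ln8_10_5_c10 ln8_10_5_c10_ok) (L (nat_lit 456) ln11_13_1_c10 ln11_13_1_c10_ok))))))))))) (B (M (nat_lit 360) (B (M (nat_lit 394) (B (L (nat_lit 359) ln7_11_0 ln7_11_0_ok) (L (nat_lit 457) ln10_10_5 ln10_10_5_ok))) (B (M (nat_lit 392) (B (L (nat_lit 391) ln11_11_1 ln11_11_1_ok) (M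 (nat_lit 457) (B (L (nat_lit 394) ln10_10_5 ln10_10_5_ok) (M (nat_lit 328) (B (L (nat_lit 327) ln11_11_3 ln11_11_3_ok) (L (nat_lit 424) ln8_10_4_c10 ln8_10_4_c10_ok))))))) (M (nat_lit 391) (B (L (nat_lit 392) ln11_11_1 ln11_11_1_ok) (L (nat_lit 359) ln7_11_2 ln7_11_2_ok)))))) (B (M (nat_lit 391) (B (M (nat_lit 392) (B (L (nat_lit 424) ln11_13_3 ln11_13_3_ok) (L (nat_lit 360) ln11_11_1 ln11_11_1_ok))) (B (M (nat_lit 360) (B (L (nat_lit 392) ln11_11_1 ln11_11_1_ok) (L (nat_lit 359) ln7_11_2 ln7_11_2_ok))) (B (M (nat_lit 423) (B (M (nat_lit 424) (B (L (nat_lit 390) ln10_13_3_c10 ln10_13_3_c10_ok) (L (nat_lit 394) ln7_13_2 ln7_13_2_ok))) (B (M (nat_lit 424) (B (L (nat_lit 394) ln7_13_2 ln7_13_2_ok) (M (nat_lit 455) (B (L (nat_lit 454) ln10_13_1_c10 ln10_13_1_c10_ok) (L (nat_lit 456) ln11_13_1_c10 ln11_13_1_c10_ok))))) (M (nat_lit 359) (B (L (nat_lit 360) ln7_11_2 ln7_11_2_ok) (M (nat_lit 455) (B (M (nat_lit 487) (B (M (nat_lit 486) (B (L (nat_lit 518)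 ln7_12_5_c10 ln7_12_5_c10_ok) (L (nat_lit 454) ln7_11_5_c10 ln7_11_5_c10_ok))) (M (nat_lit 488) (B (L (nat_lit 520) ln7_12_4_c10 ln7_12_4_c10_ok) (L (nat_lit 456) ln7_11_4_c10 ln7_11_4_c10_ok))))) (B (M (nat_lit 487) (B (M (nat_lit 358) (B (L (nat_lit 390) ln7_15_7_c10 ln7_15_7_c10_ok) (L (nat_lit 326) ln7_14_7_c10 ln7_14_7_c10_ok))) (M (nat_lit 488) (B (L (nat_lit 520) ln7_12_4_c10 ln7_12_4_c10_ok) (L (nat_lit 456) ln7_11_4_c10 ln7_11_4_c10_ok))))) (M (nat_lit 327) (B (M (nat_lit 454) (B (L (nat_lit 486) ln7_11_5_c10 ln7_11_5_c10_ok) (L (nat_lit 422) ln7_10_5_c10 ln7_10_5_c10_ok))) (M (nat_lit 326) (B (L (nat_lit 358) ln7_14_7_c10 ln7_14_7_c10_ok) (L (nat_lit 294) ln7_13_7_c10 ln7_13_7_c10_ok))))))))))))) (M (nat_lit 424) (B (L (nat_lit 392) ln11_13_3 ln11_13_3_ok) (M (nat_lit 423) (B (L (nat_lit 390) ln10_13_3_c10 ln10_13_3_c10_ok) (L (nat_lit 394) ln7_13_2 ln7_13_2_ok))))))))) (M (nat_lit 457) (B (L (nat_lit 394) ln10_10_5 ln10_10_5_ok) (L (nat_lit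 456) ln12_13_1 ln12_13_1_ok)))))))))))))))))))))
noncomputable def c10_d533 : Cert := (B (M (nat_lit 360) (B (L (nat_lit 396) ln8_11_0 ln8_11_0_ok) (M (nat_lit 359) (B (L (nat_lit 394) ln7_11_0 ln7_11_0_ok) (M (nat_lit 327) (B (L (nat_lit 328) ln11_11_3 ln11_11_3_ok) (L (nat_lit 326) ln10_11_3 ln10_11_3_ok))))))) (B (M (nat_lit 427) (B (M (nat_lit 459) (B (L (nat_lit 330) ln11_14_7 ln11_14_7_ok) (M (nat_lit 460) (B (L (nat_lit 492) ln11_11_4 ln11_11_4_ok) (M (nat_lit 396) (B (L (nat_lit 428) ln12_14_6 ln12_14_6_ok) (L (nat_lit 491) ln11_15_6 ln11_15_6_ok))))))) (B (M (nat_lit 459) (B (L (nat_lit 330) ln11_14_7 ln11_14_7_ok) (M (nat_lit 460) (B (L (nat_lit 492) ln11_11_4 ln11_11_4_ok) (M (nat_lit 428) (B (L (nat_lit 396) ln12_14_6 ln12_14_6_ok) (L (nat_lit 331) ln11_10_4 ln11_10_4_ok))))))) (B (M (nat_lit 459) (B (M (nat_lit 491) (B (L (nat_lit 396) ln11_15_6 ln11_15_6_ok) (M (nat_lit 490) (B (L (nat_lit 458) ln11_11_5 ln11_11_5_ok) (L (nat_lit 522)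 ln11_12_5 ln11_12_5_ok))))) (B (M (nat_lit 491) (B (M (nat_lit 490) (B (L (nat_lit 458) ln11_11_5 ln11_11_5_ok) (L (nat_lit 522) ln11_12_5 ln11_12_5_ok))) (M (nat_lit 492) (B (L (nat_lit 460) ln11_11_4 ln11_11_4_ok) (L (nat_lit 524) ln11_12_4 ln11_12_4_ok))))) (B (M (nat_lit 491) (B (L (nat_lit 396) ln11_15_6 ln11_15_6_ok) (M (nat_lit 492) (B (L (nat_lit 460) ln11_11_4 ln11_11_4_ok) (L (nat_lit 524) ln11_12_4 ln11_12_4_ok))))) (M (nat_lit 460) (B (L (nat_lit 492) ln11_11_4 ln11_11_4_ok) (M (nat_lit 428) (B (L (nat_lit 331) ln11_10_4 ln11_10_4_ok) (L (nat_lit 396) ln12_14_6 ln12_14_6_ok))))))))) (B (M (nat_lit 459) (B (L (nat_lit 330) ln11_14_7 ln11_14_7_ok) (M (nat_lit 491) (B (L (nat_lit 394) ln11_15_7 ln11_15_7_ok) (L (nat_lit 396) ln11_15_6 ln11_15_6_ok))))) (B (M (nat_lit 330) (B (L (nat_lit 459) ln11_14_7 ln11_14_7_ok) (M (nat_lit 298) (B (L (nat_lit 266) ln10_8_4 ln10_8_4_ok) (L (nat_lit 331) ln11_13_7 ln11_13_7_ok))))) (M (nat_lit 330) (B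 (M (nat_lit 298) (B (L (nat_lit 266) ln10_8_4 ln10_8_4_ok) (L (nat_lit 394) ln10_9_4 ln10_9_4_ok))) (B (M (nat_lit 298) (B (L (nat_lit 266) ln10_8_4 ln10_8_4_ok) (L (nat_lit 331) ln11_13_7 ln11_13_7_ok))) (B (M (nat_lit 298) (B (L (nat_lit 331) ln11_13_7 ln11_13_7_ok) (L (nat_lit 394) ln10_9_4 ln10_9_4_ok))) (M (nat_lit 331) (B (M (nat_lit 299) (B (M (nat_lit 396) (B (L (nat_lit 428) ln11_9_4 ln11_9_4_ok) (L (nat_lit 267) ln11_8_4 ln11_8_4_ok))) (B (M (nat_lit 267) (B (L (nat_lit 235) ln11_7_5 ln11_7_5_ok) (M (nat_lit 268) (B (L (nat_lit 300) ln11_12_6 ln11_12_6_ok) (L (nat_lit 236) ln11_11_6 ln11_11_6_ok))))) (M (nat_lit 396) (B (L (nat_lit 428) ln11_9_4 ln11_9_4_ok) (M (nat_lit 300) (B (L (nat_lit 268) ln11_12_6 ln11_12_6_ok) (M (nat_lit 301) (B (L (nat_lit 302) ln14_9_1_c10 ln14_9_1_c10_ok) (L (nat_lit 269) ln13_8_5 ln13_8_5_ok)))))))))) (B (M (nat_lit 299) (B (M (nat_lit 396) (B (L (nat_lit 267) ln11_8_4 ln11_8_4_ok) (L (nat_lit 428) ln11_9_4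 ln11_9_4_ok))) (B (M (nat_lit 301) (B (M (nat_lit 396) (B (L (nat_lit 269) ln13_8_5 ln13_8_5_ok) (L (nat_lit 428) ln11_9_4 ln11_9_4_ok))) (M (nat_lit 300) (B (L (nat_lit 268) ln11_12_6 ln11_12_6_ok) (L (nat_lit 302) ln14_9_1_c10 ln14_9_1_c10_ok))))) (M (nat_lit 267) (B (M (nat_lit 268) (B (L (nat_lit 236) ln11_11_6 ln11_11_6_ok) (L (nat_lit 300) ln11_12_6 ln11_12_6_ok))) (L (nat_lit 394) ln11_8_5 ln11_8_5_ok)))))) (B (M (nat_lit 299) (B (M (nat_lit 396) (B (L (nat_lit 428) ln11_9_4 ln11_9_4_ok) (L (nat_lit 267) ln11_8_4 ln11_8_4_ok))) (B (M (nat_lit 267) (B (L (nat_lit 396) ln11_8_4 ln11_8_4_ok) (L (nat_lit 235) ln11_7_5 ln11_7_5_ok))) (B (M (nat_lit 394) (B (L (nat_lit 426) ln11_9_5 ln11_9_5_ok) (L (nat_lit 267) ln11_8_5 ln11_8_5_ok))) (M (nat_lit 428) (B (L (nat_lit 460) ln11_10_4 ln11_10_4_ok) (L (nat_lit 396) ln11_9_4 ln11_9_4_ok))))))) (B (M (nat_lit 299) (B (M (nat_lit 267) (B (L (nat_lit 235) ln11_7_5 ln11_7_5_ok) (L (nat_lit 396) ln11_8_4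 ln11_8_4_ok))) (B (M (nat_lit 267) (B (L (nat_lit 396) ln11_8_4 ln11_8_4_ok) (L (nat_lit 394) ln11_8_5 ln11_8_5_ok))) (M (nat_lit 426) (B (L (nat_lit 394) ln11_9_5 ln11_9_5_ok) (L (nat_lit 458) ln11_10_5 ln11_10_5_ok)))))) (B (M (nat_lit 299) (B (M (nat_lit 426) (B (L (nat_lit 394) ln11_9_5 ln11_9_5_ok) (L (nat_lit 458) ln11_10_5 ln11_10_5_ok))) (M (nat_lit 428) (B (L (nat_lit 396) ln11_9_4 ln11_9_4_ok) (L (nat_lit 460) ln11_10_4 ln11_10_4_ok))))) (B (M (nat_lit 299) (B (M (nat_lit 426) (B (L (nat_lit 458) ln11_10_5 ln11_10_5_ok) (L (nat_lit 394) ln11_9_5 ln11_9_5_ok))) (B (M (nat_lit 394) (B (L (nat_lit 426) ln11_9_5 ln11_9_5_ok) (L (nat_lit 267) ln11_8_5 ln11_8_5_ok))) (B (M (nat_lit 267) (B (L (nat_lit 394) ln11_8_5 ln11_8_5_ok) (L (nat_lit 235) ln11_7_5 ln11_7_5_ok))) (M (nat_lit 267) (B (L (nat_lit 235) ln11_7_5 ln11_7_5_ok) (M (nat_lit 268) (B (L (nat_lit 300) ln11_12_6 ln11_12_6_ok) (L (nat_lit 236) ln11_11_6 ln11_11_6_ok))))))))) (M (nat_lit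 428) (B (L (nat_lit 460) ln11_10_4 ln11_10_4_ok) (M (nat_lit 426) (B (L (nat_lit 458) ln11_10_5 ln11_10_5_ok) (M (nat_lit 425) (B (M (nat_lit 394) (B (L (nat_lit 457) ln10_10_5 ln10_10_5_ok) (M (nat_lit 424) (B (L (nat_lit 423) ln7_13_2 ln7_13_2_ok) (L (nat_lit 396) ln8_13_2 ln8_13_2_ok))))) (B (M (nat_lit 457) (B (L (nat_lit 394) ln10_10_5 ln10_10_5_ok) (L (nat_lit 456) ln12_13_1 ln12_13_1_ok))) (M (nat_lit 424) (B (L (nat_lit 396) ln8_13_2 ln8_13_2_ok) (M (nat_lit 455) (B (L (nat_lit 456) ln11_13_1_c10 ln11_13_1_c10_ok) (M (nat_lit 391) (B (L (nat_lit 392) ln11_13_3 ln11_13_3_ok) (M (nat_lit 423) (B (L (nat_lit 454) ln10_13_1_c10 ln10_13_1_c10_ok) (L (nat_lit 390) ln10_13_3_c10 ln10_13_3_c10_ok))))))))))))))))))))))))))))))))) (M (nat_lit 427) (B (M (nat_lit 330) (B (L (nat_lit 459) ln11_14_7 ln11_14_7_ok) (M (nat_lit 298) (B (L (nat_lit 266) ln10_8_4 ln10_8_4_ok) (L (nat_lit 331) ln11_13_7 ln11_13_7_ok))))) (B (M (nat_lit 330) (B (L (nat_lit 459)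 ln11_14_7 ln11_14_7_ok) (M (nat_lit 298) (B (L (nat_lit 331) ln11_13_7 ln11_13_7_ok) (L (nat_lit 394) ln10_9_4 ln10_9_4_ok))))) (B (M (nat_lit 459) (B (L (nat_lit 330) ln11_14_7 ln11_14_7_ok) (M (nat_lit 492) (B (L (nat_lit 460) ln11_11_4 ln11_11_4_ok) (M (nat_lit 490) (B (L (nat_lit 458) ln11_11_5 ln11_11_5_ok) (M (nat_lit 491) (B (L (nat_lit 524) ln11_12_4 ln11_12_4_ok) (L (nat_lit 522) ln11_12_5 ln11_12_5_ok))))))))) c10_d532))))))
noncomputable def c10_d534 : Cert := (B (M (nat_lit 361) (B (M (nat_lit 360) (B (M (nat_lit 359) (B (M (nat_lit 391) (B (L (nat_lit 390) ln10_11_1 ln10_11_1_ok) (L (nat_lit 392) ln11_11_1 ln11_11_1_ok))) (M (nat_lit 327) (B (L (nat_lit 326) ln10_11_3 ln10_11_3_ok) (L (nat_lit 328) ln11_11_3 ln11_11_3_ok))))) (B (M (nat_lit 328) (B (L (nat_lit 327) ln11_11_3 ln11_11_3_ok) (L (nat_lit 329) ln12_11_3 ln12_11_3_ok))) (M (nat_lit 359) (B (M (nat_lit 391) (B (L (nat_lit 390) ln10_11_1 ln10_11_1_ok) (L (nat_lit 392) ln11_11_1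 ln11_11_1_ok))) (M (nat_lit 330) (B (L (nat_lit 331) ln7_11_2 ln7_11_2_ok) (L (nat_lit 329) ln13_11_3 ln13_11_3_ok)))))))) (B (M (nat_lit 360) (B (M (nat_lit 359) (B (M (nat_lit 391) (B (L (nat_lit 390) ln10_11_1 ln10_11_1_ok) (L (nat_lit 392) ln11_11_1 ln11_11_1_ok))) (M (nat_lit 327) (B (L (nat_lit 326) ln10_11_3 ln10_11_3_ok) (L (nat_lit 328) ln11_11_3 ln11_11_3_ok))))) (B (M (nat_lit 327) (B (L (nat_lit 328) ln11_11_3 ln11_11_3_ok) (M (nat_lit 359) (B (L (nat_lit 326) ln10_11_3 ln10_11_3_ok) (M (nat_lit 395) (B (L (nat_lit 394) ln7_11_0 ln7_11_0_ok) (L (nat_lit 396) ln8_11_0 ln8_11_0_ok))))))) (B (M (nat_lit 359) (B (M (nat_lit 391) (B (L (nat_lit 390) ln10_11_1 ln10_11_1_ok) (L (nat_lit 392) ln11_11_1 ln11_11_1_ok))) (M (nat_lit 395) (B (L (nat_lit 394) ln7_11_0 ln7_11_0_ok) (L (nat_lit 396) ln8_11_0 ln8_11_0_ok))))) (M (nat_lit 328) (B (L (nat_lit 327) ln11_11_3 ln11_11_3_ok) (M (nat_lit 392) (B (L (nat_lit 391) ln11_11_1 ln11_11_1_ok) (M (nat_lit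 424) (B (L (nat_lit 329) ln12_11_3 ln12_11_3_ok) (M (nat_lit 456) (B (M (nat_lit 455) (B (L (nat_lit 487) ln8_11_5_c10 ln8_11_5_c10_ok) (L (nat_lit 423) ln8_10_5_c10 ln8_10_5_c10_ok))) (M (nat_lit 457) (B (L (nat_lit 489) ln8_11_4_c10 ln8_11_4_c10_ok) (L (nat_lit 425) ln8_10_4_c10 ln8_10_4_c10_ok))))))))))))))) (B (M (nat_lit 360) (B (M (nat_lit 395) (B (L (nat_lit 396) ln8_11_0 ln8_11_0_ok) (M (nat_lit 359) (B (L (nat_lit 394) ln7_11_0 ln7_11_0_ok) (M (nat_lit 391) (B (L (nat_lit 390) ln10_11_1 ln10_11_1_ok) (L (nat_lit 392) ln11_11_1 ln11_11_1_ok))))))) (M (nat_lit 328) (B (L (nat_lit 327) ln11_11_3 ln11_11_3_ok) (L (nat_lit 329) ln12_11_3 ln12_11_3_ok))))) (B (M (nat_lit 360) (B (M (nat_lit 328) (B (L (nat_lit 327) ln11_11_3 ln11_11_3_ok) (L (nat_lit 329) ln12_11_3 ln12_11_3_ok))) (B (M (nat_lit 359) (B (M (nat_lit 395) (B (L (nat_lit 394) ln7_11_0 ln7_11_0_ok) (L (nat_lit 396) ln8_11_0 ln8_11_0_ok))) (M (nat_lit 358) (B (M (nat_lit 390) (B (L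 (nat_lit 389) ln9_11_1_c10 ln9_11_1_c10_ok) (L (nat_lit 391) ln10_11_1 ln10_11_1_ok))) (M (nat_lit 329) (B (L (nat_lit 330) ln6_11_2_c10 ln6_11_2_c10_ok) (L (nat_lit 328) ln12_11_3 ln12_11_3_ok))))))) (M (nat_lit 359) (B (M (nat_lit 395) (B (L (nat_lit 394) ln7_11_0 ln7_11_0_ok) (L (nat_lit 396) ln8_11_0 ln8_11_0_ok))) (M (nat_lit 358) (B (M (nat_lit 326) (B (L (nat_lit 325) ln9_11_3_c10 ln9_11_3_c10_ok) (L (nat_lit 327) ln10_11_3 ln10_11_3_ok))) (M (nat_lit 390) (B (L (nat_lit 389) ln9_11_1_c10 ln9_11_1_c10_ok) (L (nat_lit 391) ln10_11_1 ln10_11_1_ok)))))))))) (B (M (nat_lit 330) (B (L (nat_lit 329) ln13_11_3 ln13_11_3_ok) (M (nat_lit 395) (B (M (nat_lit 298) (B (L (nat_lit 266) ln10_8_4 ln10_8_4_ok) (M (nat_lit 427) (B (L (nat_lit 394) ln10_9_4 ln10_9_4_ok) (L (nat_lit 459) ln11_14_7 ln11_14_7_ok))))) (B (M (nat_lit 298) (B (L (nat_lit 266) ln10_8_4 ln10_8_4_ok) (M (nat_lit 427) (B (L (nat_lit 459) ln11_14_7 ln11_14_7_ok) (L (nat_lit 331) ln11_13_7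 ln11_13_7_ok))))) (M (nat_lit 360) (B (L (nat_lit 396) ln8_11_0 ln8_11_0_ok) (M (nat_lit 359) (B (L (nat_lit 394) ln7_11_0 ln7_11_0_ok) (L (nat_lit 331) ln7_11_2 ln7_11_2_ok)))))))))) (B (M (nat_lit 329) (B (L (nat_lit 328) ln12_11_3 ln12_11_3_ok) (L (nat_lit 330) ln13_11_3 ln13_11_3_ok))) (M (nat_lit 333) (B (L (nat_lit 334) ln10_11_2 ln10_11_2_ok) (M (nat_lit 395) (B (M (nat_lit 360) (B (L (nat_lit 396) ln8_11_0 ln8_11_0_ok) (M (nat_lit 327) (B (L (nat_lit 328) ln11_11_3 ln11_11_3_ok) (M (nat_lit 391) (B (L (nat_lit 392) ln11_11_1 ln11_11_1_ok) (M (nat_lit 359) (B (L (nat_lit 326) ln10_11_3 ln10_11_3_ok) (L (nat_lit 390) ln10_11_1 ln10_11_1_ok))))))))) (B (M (nat_lit 360) (B (L (nat_lit 396) ln8_11_0 ln8_11_0_ok) (M (nat_lit 359) (B (L (nat_lit 394) ln7_11_0 ln7_11_0_ok) (M (nat_lit 391) (B (L (nat_lit 390) ln10_11_1 ln10_11_1_ok) (L (nat_lit 392) ln11_11_1 ln11_11_1_ok))))))) c10_d533)))))))))))) (B (M (nat_lit 361) (B (M (nat_lit 360) (B (M (nat_lit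 395) (B (M (nat_lit 427) (B (M (nat_lit 460) (B (M (nat_lit 459) (B (L (nat_lit 492) ln11_11_4 ln11_11_4_ok) (M (nat_lit 458) (B (L (nat_lit 490) ln11_11_5 ln11_11_5_ok) (M (nat_lit 426) (B (L (nat_lit 331) ln11_10_5 ln11_10_5_ok) (L (nat_lit 425) ln13_14_3 ln13_14_3_ok))))))) (B (M (nat_lit 492) (B (M (nat_lit 524) (B (L (nat_lit 428) ln12_16_7 ln12_16_7_ok) (L (nat_lit 556) ln12_17_6 ln12_17_6_ok))) (L (nat_lit 459) ln11_11_4 ln11_11_4_ok))) (M (nat_lit 428) (B (M (nat_lit 462) (B (L (nat_lit 426) ln10_13_0 ln10_13_0_ok) (L (nat_lit 463) ln15_14_3 ln15_14_3_ok))) (L (nat_lit 331) ln11_10_4 ln11_10_4_ok)))))) (B (M (nat_lit 331) (B (M (nat_lit 428) (B (M (nat_lit 426) (B (L (nat_lit 462) ln10_13_0 ln10_13_0_ok) (L (nat_lit 458) ln11_10_5 ln11_10_5_ok))) (L (nat_lit 460) ln11_10_4 ln11_10_4_ok))) (M (nat_lit 330) (B (L (nat_lit 298) ln11_13_7 ln11_13_7_ok) (L (nat_lit 359) ln7_11_2 ln7_11_2_ok))))) (B (M (nat_lit 459) (B (L (nat_lit 330) ln11_14_7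 ln11_14_7_ok) (M (nat_lit 492) (B (L (nat_lit 460) ln11_11_4 ln11_11_4_ok) (M (nat_lit 490) (B (L (nat_lit 458) ln11_11_5 ln11_11_5_ok) (M (nat_lit 491) (B (L (nat_lit 524) ln11_12_4 ln11_12_4_ok) (L (nat_lit 522) ln11_12_5 ln11_12_5_ok))))))))) (M (nat_lit 330) (B (M (nat_lit 331) (B (L (nat_lit 298) ln11_13_7 ln11_13_7_ok) (L (nat_lit 359) ln7_11_2 ln7_11_2_ok))) (L (nat_lit 459) ln11_14_7 ln11_14_7_ok))))))) (L (nat_lit 396) ln8_11_0 ln8_11_0_ok))) (M (nat_lit 392) (B (L (nat_lit 393) ln12_11_1 ln12_11_1_ok) (L (nat_lit 391) ln11_11_1 ln11_11_1_ok))))) (B (M (nat_lit 333) (B (L (nat_lit 334) ln10_11_2 ln10_11_2_ok) (M (nat_lit 360) (B (M (nat_lit 392) (B (L (nat_lit 391) ln11_11_1 ln11_11_1_ok) (L (nat_lit 393) ln12_11_1 ln12_11_1_ok))) (M (nat_lit 328) (B (L (nat_lit 327) ln11_11_3 ln11_11_3_ok) (L (nat_lit 329) ln12_11_3 ln12_11_3_ok))))))) (M (nat_lit 329) (B (L (nat_lit 330) ln13_11_3 ln13_11_3_ok) (L (nat_lit 328) ln12_11_3 ln12_11_3_ok))))))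 (B (M (nat_lit 394) (B (M (nat_lit 426) (B (M (nat_lit 427) (B (M (nat_lit 330) (B (L (nat_lit 459) ln10_10_4 ln10_10_4_ok) (M (nat_lit 298) (B (M (nat_lit 299) (B (L (nat_lit 331) ln10_13_6 ln10_13_6_ok) (L (nat_lit 267) ln10_12_6_c10 ln10_12_6_c10_ok))) (B (M (nat_lit 266) (B (M (nat_lit 267) (B (L (nat_lit 299) ln10_12_6_c10 ln10_12_6_c10_ok) (L (nat_lit 235) ln10_11_6_c10 ln10_11_6_c10_ok))) (M (nat_lit 265) (B (L (nat_lit 297) ln10_12_7_c10 ln10_12_7_c10_ok) (L (nat_lit 233) ln10_11_7_c10 ln10_11_7_c10_ok))))) (B (M (nat_lit 266) (B (M (nat_lit 265) (B (L (nat_lit 297) ln10_12_7_c10 ln10_12_7_c10_ok) (L (nat_lit 233) ln10_11_7_c10 ln10_11_7_c10_ok))) (M (nat_lit 235) (B (L (nat_lit 267) ln10_11_6_c10 ln10_11_6_c10_ok) (M (nat_lit 234) (B (L (nat_lit 331) ln10_7_4 ln10_7_4_ok) (L (nat_lit 203) ln10_10_6_c10 ln10_10_6_c10_ok))))))) (M (nat_lit 266) (B (M (nat_lit 331) (B (L (nat_lit 299) ln10_13_6 ln10_13_6_ok) (L (nat_lit 234) ln10_7_4 ln10_7_4_ok)))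 (M (nat_lit 265) (B (L (nat_lit 297) ln10_12_7_c10 ln10_12_7_c10_ok) (L (nat_lit 233) ln10_11_7_c10 ln10_11_7_c10_ok))))))))))) (B (M (nat_lit 331) (B (M (nat_lit 428) (B (M (nat_lit 460) (B (L (nat_lit 395) ln11_10_4 ln11_10_4_ok) (L (nat_lit 425) ln9_13_0 ln9_13_0_ok))) (L (nat_lit 462) ln10_13_0 ln10_13_0_ok))) (M (nat_lit 299) (B (L (nat_lit 330) ln10_13_6 ln10_13_6_ok) (L (nat_lit 267) ln11_8_5 ln11_8_5_ok))))) (M (nat_lit 459) (B (M (nat_lit 491) (B (L (nat_lit 395) ln11_15_7 ln11_15_7_ok) (L (nat_lit 523) ln11_16_7 ln11_16_7_ok))) (M (nat_lit 462) (B (L (nat_lit 428) ln10_13_0 ln10_13_0_ok) (L (nat_lit 460) ln14_14_3 ln14_14_3_ok)))))))) (B (M (nat_lit 458) (B (M (nat_lit 490) (B (L (nat_lit 395) ln10_15_6 ln10_15_6_ok) (M (nat_lit 491) (B (L (nat_lit 523) ln10_12_4 ln10_12_4_ok) (L (nat_lit 459) ln10_11_4 ln10_11_4_ok))))) (B (M (nat_lit 330) (B (M (nat_lit 457) (B (L (nat_lit 489) ln10_11_5 ln10_11_5_ok) (L (nat_lit 425) ln10_10_5 ln10_10_5_ok)))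 (M (nat_lit 459) (B (L (nat_lit 491) ln10_11_4 ln10_11_4_ok) (L (nat_lit 427) ln10_10_4 ln10_10_4_ok))))) (M (nat_lit 490) (B (L (nat_lit 395) ln10_15_6 ln10_15_6_ok) (M (nat_lit 489) (B (L (nat_lit 521) ln10_12_5 ln10_12_5_ok) (L (nat_lit 457) ln10_11_5 ln10_11_5_ok)))))))) (B (M (nat_lit 458) (B (L (nat_lit 331) ln10_14_6 ln10_14_6_ok) (M (nat_lit 489) (B (L (nat_lit 457) ln10_11_5 ln10_11_5_ok) (M (nat_lit 491) (B (L (nat_lit 459) ln10_11_4 ln10_11_4_ok) (M (nat_lit 490) (B (L (nat_lit 521) ln10_12_5 ln10_12_5_ok) (L (nat_lit 523) ln10_12_4 ln10_12_4_ok))))))))) (M (nat_lit 331) (B (M (nat_lit 299) (B (L (nat_lit 395) ln11_9_5 ln11_9_5_ok) (L (nat_lit 267) ln11_8_5 ln11_8_5_ok))) (L (nat_lit 458) ln10_14_6 ln10_14_6_ok))))))) (L (nat_lit 393) ln13_11_1 ln13_11_1_ok))) (B (M (nat_lit 361) (B (M (nat_lit 393) (B (L (nat_lit 394) ln13_11_1 ln13_11_1_ok) (L (nat_lit 392) ln12_11_1 ln12_11_1_ok))) (B (M (nat_lit 360) (B (M (nat_lit 328) (B (L (nat_lit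 329) ln12_11_3 ln12_11_3_ok) (L (nat_lit 327) ln11_11_3 ln11_11_3_ok))) (M (nat_lit 392) (B (L (nat_lit 393) ln12_11_1 ln12_11_1_ok) (L (nat_lit 391) ln11_11_1 ln11_11_1_ok))))) (B (M (nat_lit 360) (B (M (nat_lit 328) (B (L (nat_lit 329) ln12_11_3 ln12_11_3_ok) (L (nat_lit 327) ln11_11_3 ln11_11_3_ok))) (M (nat_lit 359) (B (M (nat_lit 395) (B (L (nat_lit 396) ln8_11_0 ln8_11_0_ok) (L (nat_lit 394) ln7_11_0 ln7_11_0_ok))) (M (nat_lit 391) (B (L (nat_lit 392) ln11_11_1 ln11_11_1_ok) (L (nat_lit 390) ln10_11_1 ln10_11_1_ok))))))) (M (nat_lit 360) (B (M (nat_lit 328) (B (L (nat_lit 329) ln12_11_3 ln12_11_3_ok) (L (nat_lit 327) ln11_11_3 ln11_11_3_ok))) (M (nat_lit 395) (B (L (nat_lit 396) ln8_11_0 ln8_11_0_ok) (M (nat_lit 394) (B (L (nat_lit 393) ln13_11_1 ln13_11_1_ok) (L (nat_lit 359) ln7_11_0 ln7_11_0_ok))))))))))) (M (nat_lit 361) (B (M (nat_lit 329) (B (L (nat_lit 330) ln13_11_3 ln13_11_3_ok) (L (nat_lit 328) ln12_11_3 ln12_11_3_ok))) (M (nat_lit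 393) (B (L (nat_lit 394) ln13_11_1 ln13_11_1_ok) (L (nat_lit 392) ln12_11_1 ln12_11_1_ok)))))))))
noncomputable def c10_d535 : Cert := (B (M (nat_lit 331) (B (M (nat_lit 330) (B (L (nat_lit 366) ln14_11_3 ln14_11_3_ok) (M (nat_lit 329) (B (L (nat_lit 362) ln13_11_3 ln13_11_3_ok) (L (nat_lit 328) ln8_10_0 ln8_10_0_ok))))) (B (M (nat_lit 299) (B (M (nat_lit 396) (B (L (nat_lit 267) ln11_8_4 ln11_8_4_ok) (M (nat_lit 428) (B (L (nat_lit 460) ln12_14_7 ln12_14_7_ok) (L (nat_lit 395) ln11_9_4 ln11_9_4_ok))))) (B (M (nat_lit 330) (B (M (nat_lit 329) (B (L (nat_lit 362) ln13_11_3 ln13_11_3_ok) (L (nat_lit 328) ln8_10_0 ln8_10_0_ok))) (B (M (nat_lit 300) (B (M (nat_lit 268) (B (L (nat_lit 395) ln11_12_6 ln11_12_6_ok) (M (nat_lit 236) (B (L (nat_lit 204) ln12_6_5_c10 ln12_6_5_c10_ok) (L (nat_lit 267) ln11_11_6 ln11_11_6_ok))))) (M (nat_lit 329) (B (L (nat_lit 328) ln8_10_0 ln8_10_0_ok) (M (nat_lit 301) (B (L (nat_lit 302) ln14_9_1_c10 ln14_9_1_c10_ok) (L (nat_lit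 298) ln13_9_1 ln13_9_1_ok))))))) (M (nat_lit 267) (B (M (nat_lit 235) (B (L (nat_lit 362) ln11_7_5 ln11_7_5_ok) (M (nat_lit 234) (B (L (nat_lit 202) ln11_10_7 ln11_10_7_ok) (L (nat_lit 266) ln11_11_7 ln11_11_7_ok))))) (B (M (nat_lit 395) (B (M (nat_lit 268) (B (L (nat_lit 236) ln11_11_6 ln11_11_6_ok) (L (nat_lit 300) ln11_12_6 ln11_12_6_ok))) (M (nat_lit 266) (B (L (nat_lit 234) ln11_11_7 ln11_11_7_ok) (L (nat_lit 298) ln11_12_7 ln11_12_7_ok))))) (M (nat_lit 236) (B (L (nat_lit 268) ln11_11_6 ln11_11_6_ok) (M (nat_lit 235) (B (L (nat_lit 204) ln11_10_6 ln11_10_6_ok) (L (nat_lit 362) ln11_7_5 ln11_7_5_ok))))))))))) (B (M (nat_lit 395) (B (M (nat_lit 428) (B (L (nat_lit 396) ln11_9_4 ln11_9_4_ok) (M (nat_lit 427) (B (L (nat_lit 460) ln11_10_4 ln11_10_4_ok) (M (nat_lit 298) (B (L (nat_lit 266) ln11_12_7 ln11_12_7_ok) (L (nat_lit 330) ln11_13_7 ln11_13_7_ok))))))) (B (M (nat_lit 330) (B (M (nat_lit 329) (B (L (nat_lit 362) ln13_11_3 ln13_11_3_ok) (L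 (nat_lit 328) ln8_10_0 ln8_10_0_ok))) (M (nat_lit 298) (B (L (nat_lit 266) ln11_12_7 ln11_12_7_ok) (L (nat_lit 427) ln11_13_7 ln11_13_7_ok))))) (B (M (nat_lit 300) (B (L (nat_lit 268) ln11_12_6 ln11_12_6_ok) (M (nat_lit 301) (B (M (nat_lit 330) (B (L (nat_lit 302) ln14_9_1_c10 ln14_9_1_c10_ok) (M (nat_lit 298) (B (L (nat_lit 329) ln13_9_1 ln13_9_1_ok) (L (nat_lit 266) ln11_12_7 ln11_12_7_ok))))) (B (M (nat_lit 333) (B (M (nat_lit 298) (B (L (nat_lit 334) ln10_9_0 ln10_9_0_ok) (L (nat_lit 266) ln11_12_7 ln11_12_7_ok))) (M (nat_lit 396) (B (L (nat_lit 269) ln13_8_5 ln13_8_5_ok) (L (nat_lit 428) ln11_9_4 ln11_9_4_ok))))) (B (M (nat_lit 330) (B (L (nat_lit 302) ln14_9_1_c10 ln14_9_1_c10_ok) (M (nat_lit 329) (B (L (nat_lit 298) ln13_9_1 ln13_9_1_ok) (L (nat_lit 362) ln13_11_3 ln13_11_3_ok))))) (M (nat_lit 330) (B (L (nat_lit 302) ln14_9_1_c10 ln14_9_1_c10_ok) (M (nat_lit 329) (B (L (nat_lit 362) ln13_11_3 ln13_11_3_ok) (L (nat_lit 328) ln8_10_0 ln8_10_0_ok)))))))))))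 (B (M (nat_lit 428) (B (L (nat_lit 396) ln11_9_4 ln11_9_4_ok) (M (nat_lit 330) (B (M (nat_lit 329) (B (L (nat_lit 362) ln13_11_3 ln13_11_3_ok) (L (nat_lit 328) ln8_10_0 ln8_10_0_ok))) (M (nat_lit 427) (B (L (nat_lit 460) ln11_10_4 ln11_10_4_ok) (L (nat_lit 298) ln11_13_7 ln11_13_7_ok))))))) (K (nat_lit 5954262830815946494521163372829474515563028514806217663843794426329357761622001487384785590630652834202568832394275528750464958657172865024) (nat_lit 54918381303421571333730218684158387864109698654139599256441216224753107872496161152256290793581639932928370078377784921849678231783637472857664690801791205376) (nat_lit 54918381303421571333730218684158387864109698654139599256441216224753107872496161152256290793581639932928370078377784921849678231783637472857664690801791205376) c10_s129)))))) (M (nat_lit 267) (B (L (nat_lit 396) ln11_8_4 ln11_8_4_ok) (M (nat_lit 235) (B (M (nat_lit 236) (B (L (nat_lit 204) ln11_10_6 ln11_10_6_ok) (L (nat_lit 268) ln11_11_6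 ln11_11_6_ok))) (M (nat_lit 234) (B (L (nat_lit 202) ln11_10_7 ln11_10_7_ok) (L (nat_lit 266) ln11_11_7 ln11_11_7_ok))))))))))) (B (K (nat_lit 5954262830815946494440468064139258622136281040680105024782823877260310304001838693412364618245793578745074344879594030868211316179932807168) (nat_lit 54918381303421571333730218684158387868709331249942219528251963649539941374610984882925466289370258259592839859299733627306204889750197922750275298654687330304) (nat_lit 54918381303421571333730218684158387868709331249942219528251963649539941374610984882925466289370258259592839859299733627306204889750197922750275298654687330304) c10_s130) (M (nat_lit 366) (B (L (nat_lit 330) ln14_11_3 ln14_11_3_ok) (M (nat_lit 367) (B (M (nat_lit 335) (B (L (nat_lit 336) ln12_11_2 ln12_11_2_ok) (L (nat_lit 334) ln11_11_2 ln11_11_2_ok))) (M (nat_lit 399) (B (L (nat_lit 400) ln12_11_0 ln12_11_0_ok) (L (nat_lit 398) ln11_11_0 ln11_11_0_ok))))))))))) (B (K (nat_lit 5954262830815946494440468064139258622131906539230539000934078872806075061271132354550578193372942037532254438881195279021764289825886699520)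 (nat_lit 54918381303421571333730218684158387868749678904277933304623305800054411293028157062467720196975691243818996610642097364206717221540691984547490620313660555264) (nat_lit 54918381303421571333730218684158387868749678904277933304623305800054411293028157062467720196975691243818996610642097364206717221540691984547490620313660555264) c10_s97) (B (K (nat_lit 5954262830815946494440468064139258622131906539230539000934078872806075061271132354550578193372942037532254438881195279021764289825886699520) (nat_lit 744282854545160735647956544229858558388311722617879492226777641007293024585298587663140550842391074989692057281377201539001768657933041664) (nat_lit 744282854545160735647956544229858558388311722617879492226777641007293024585298587663140550842391074989692057281377201539001768657933041664) c10_s131) (B (K (nat_lit 5954262830815946494440468064139258622131906539230539000934078872806075061271132354550578193372942037532254438881195279021764289825886699520)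 (nat_lit 4660154077320282191870965402102961566190124987594208355595902321433745072186007567396000924824161665485211943409989713920) (nat_lit 4660154077320282191870965402102961566190124987594208355595902321433745072186007567396000924824161665485211943409989713920) c10_s132) (K (nat_lit 5954262830815946494440468064139258622131906539230539000934078872806075061271132354550578193372942037532254438881195279021764289825886699520) (nat_lit 4821544694700713978734302978614673361995407859668064121291907793656555004525976109789198547900567471604461700954890174464) (nat_lit 4821544694700713978734302978614673361995407859668064121291907793656555004525976109789198547900567471604461700954890174464) c10_s104)))))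
noncomputable def c10_d536 : Cert := (B (M (nat_lit 299) (B (M (nat_lit 267) (B (L (nat_lit 235) ln11_7_4 ln11_7_4_ok) (M (nat_lit 362) (B (L (nat_lit 394) ln11_8_5 ln11_8_5_ok) (M (nat_lit 333) (B (L (nat_lit 334) ln14_10_1 ln14_10_1_ok) (L (nat_lit 361) ln9_11_2 ln9_11_2_ok))))))) (B (M (nat_lit 362) (B (M (nat_lit 361) (B (L (nat_lit 333) ln9_11_2 ln9_11_2_ok) (L (nat_lit 360) ln8_11_2 ln8_11_2_ok))) (M (nat_lit 267) (B (L (nat_lit 235) ln11_7_4 ln11_7_4_ok) (L (nat_lit 394) ln11_8_5 ln11_8_5_ok))))) (B (M (nat_lit 267) (B (L (nat_lit 235) ln11_7_4 ln11_7_4_ok) (M (nat_lit 268) (B (L (nat_lit 236) ln11_11_6 ln11_11_6_ok) (M (nat_lit 266) (B (L (nat_lit 234) ln11_11_7 ln11_11_7_ok) (M (nat_lit 269) (B (M (nat_lit 237) (B (L (nat_lit 238) ln10_8_2_c10 ln10_8_2_c10_ok) (L (nat_lit 300) ln12_11_6 ln12_11_6_ok))) (M (nat_lit 298) (B (L (nat_lit 270) ln14_8_1_c10 ln14_8_1_c10_ok) (L (nat_lit 297) ln13_8_1_c10 ln13_8_1_c10_ok))))))))))) (B (M (nat_lit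 300) (B (M (nat_lit 268) (B (L (nat_lit 236) ln12_7_5 ln12_7_5_ok) (M (nat_lit 269) (B (L (nat_lit 237) ln12_11_6 ln12_11_6_ok) (M (nat_lit 298) (B (L (nat_lit 297) ln9_9_2 ln9_9_2_ok) (M (nat_lit 270) (B (L (nat_lit 271) ln15_8_1 ln15_8_1_ok) (L (nat_lit 301) ln10_9_2 ln10_9_2_ok))))))))) (B (M (nat_lit 268) (B (L (nat_lit 236) ln12_7_5 ln12_7_5_ok) (M (nat_lit 269) (B (L (nat_lit 237) ln12_11_6 ln12_11_6_ok) (M (nat_lit 298) (B (L (nat_lit 297) ln9_9_2 ln9_9_2_ok) (M (nat_lit 270) (B (L (nat_lit 301) ln10_9_2 ln10_9_2_ok) (L (nat_lit 267) ln14_8_1_c10 ln14_8_1_c10_ok))))))))) (B (M (nat_lit 267) (B (M (nat_lit 362) (B (L (nat_lit 394) ln11_8_5 ln11_8_5_ok) (M (nat_lit 361) (B (L (nat_lit 333) ln9_11_2 ln9_11_2_ok) (L (nat_lit 360) ln8_11_2 ln8_11_2_ok))))) (M (nat_lit 266) (B (L (nat_lit 234) ln11_11_7 ln11_11_7_ok) (M (nat_lit 301) (B (L (nat_lit 302) ln14_9_3 ln14_9_3_ok) (M (nat_lit 265) (B (L (nat_lit 298) ln13_9_3 ln13_9_3_ok) (L (nat_lit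 264) ln8_8_0_c10 ln8_8_0_c10_ok))))))))) (B (M (nat_lit 268) (B (L (nat_lit 236) ln12_7_5 ln12_7_5_ok) (M (nat_lit 269) (B (L (nat_lit 237) ln12_11_6 ln12_11_6_ok) (M (nat_lit 298) (B (L (nat_lit 297) ln9_9_2 ln9_9_2_ok) (M (nat_lit 270) (B (L (nat_lit 271) ln15_8_1 ln15_8_1_ok) (L (nat_lit 267) ln14_8_1_c10 ln14_8_1_c10_ok))))))))) (M (nat_lit 267) (B (M (nat_lit 362) (B (L (nat_lit 394) ln11_8_5 ln11_8_5_ok) (M (nat_lit 361) (B (L (nat_lit 333) ln9_11_2 ln9_11_2_ok) (L (nat_lit 360) ln8_11_2 ln8_11_2_ok))))) (M (nat_lit 268) (B (L (nat_lit 236) ln12_7_5 ln12_7_5_ok) (M (nat_lit 266) (B (L (nat_lit 234) ln11_11_7 ln11_11_7_ok) (M (nat_lit 301) (B (L (nat_lit 302) ln14_9_3 ln14_9_3_ok) (L (nat_lit 265) ln9_8_0_c10 ln9_8_0_c10_ok)))))))))))))) (M (nat_lit 298) (B (M (nat_lit 333) (B (L (nat_lit 334) ln14_10_3 ln14_10_3_ok) (M (nat_lit 297) (B (L (nat_lit 330) ln13_10_3 ln13_10_3_ok) (L (nat_lit 296) ln8_9_0 ln8_9_0_ok))))) (B (M (nat_lit 297) (B (L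 (nat_lit 296) ln8_9_0 ln8_9_0_ok) (M (nat_lit 333) (B (L (nat_lit 300) ln9_9_0 ln9_9_0_ok) (L (nat_lit 330) ln13_10_3 ln13_10_3_ok))))) (B (M (nat_lit 297) (B (L (nat_lit 296) ln8_9_0 ln8_9_0_ok) (M (nat_lit 300) (B (M (nat_lit 268) (B (L (nat_lit 269) ln9_9_2 ln9_9_2_ok) (L (nat_lit 236) ln12_7_5 ln12_7_5_ok))) (M (nat_lit 301) (B (M (nat_lit 302) (B (L (nat_lit 303) ln15_9_1_c10 ln15_9_1_c10_ok) (L (nat_lit 330) ln14_9_1_c10 ln14_9_1_c10_ok))) (B (M (nat_lit 330) (B (L (nat_lit 302) ln14_9_1_c10 ln14_9_1_c10_ok) (L (nat_lit 329) ln13_9_1 ln13_9_1_ok))) (B (M (nat_lit 329) (B (L (nat_lit 330) ln13_9_1 ln13_9_1_ok) (L (nat_lit 328) ln12_9_1 ln12_9_1_ok))) (M (nat_lit 265) (B (L (nat_lit 266) ln13_9_3 ln13_9_3_ok) (L (nat_lit 264) ln12_9_3 ln12_9_3_ok))))))))))) (B (M (nat_lit 297) (B (L (nat_lit 296) ln8_9_0 ln8_9_0_ok) (M (nat_lit 333) (B (L (nat_lit 334) ln14_10_3 ln14_10_3_ok) (L (nat_lit 300) ln9_9_0 ln9_9_0_ok))))) (M (nat_lit 301) (B (M (nat_lit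 333) (B (L (nat_lit 334) ln14_10_3 ln14_10_3_ok) (M (nat_lit 330) (B (L (nat_lit 302) ln10_10_2 ln10_10_2_ok) (L (nat_lit 329) ln9_10_0 ln9_10_0_ok))))) (B (M (nat_lit 300) (B (M (nat_lit 333) (B (L (nat_lit 334) ln10_9_0 ln10_9_0_ok) (M (nat_lit 269) (B (L (nat_lit 270) ln10_9_2 ln10_9_2_ok) (L (nat_lit 237) ln13_7_5 ln13_7_5_ok))))) (M (nat_lit 330) (B (L (nat_lit 329) ln13_9_1 ln13_9_1_ok) (M (nat_lit 266) (B (L (nat_lit 265) ln13_9_3 ln13_9_3_ok) (L (nat_lit 234) ln10_7_4 ln10_7_4_ok))))))) (B (M (nat_lit 330) (B (M (nat_lit 302) (B (L (nat_lit 333) ln10_10_2 ln10_10_2_ok) (L (nat_lit 300) ln14_9_1_c10 ln14_9_1_c10_ok))) (L (nat_lit 329) ln9_10_0 ln9_10_0_ok))) (B (M (nat_lit 300) (B (M (nat_lit 302) (B (L (nat_lit 303) ln15_9_1_c10 ln15_9_1_c10_ok) (L (nat_lit 330) ln14_9_1_c10 ln14_9_1_c10_ok))) (B (M (nat_lit 330) (B (L (nat_lit 302) ln14_9_1_c10 ln14_9_1_c10_ok) (L (nat_lit 329) ln13_9_1 ln13_9_1_ok))) (B (M (nat_lit 330) (B (L (nat_lit 329)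 ln13_9_1 ln13_9_1_ok) (M (nat_lit 266) (B (L (nat_lit 265) ln13_9_3 ln13_9_3_ok) (L (nat_lit 234) ln10_7_4 ln10_7_4_ok))))) (M (nat_lit 270) (B (L (nat_lit 269) ln10_9_2 ln10_9_2_ok) (M (nat_lit 302) (B (L (nat_lit 271) ln11_9_2 ln11_9_2_ok) (L (nat_lit 303) ln15_9_1_c10 ln15_9_1_c10_ok))))))))) (M (nat_lit 300) (B (M (nat_lit 270) (B (L (nat_lit 269) ln10_9_2 ln10_9_2_ok) (M (nat_lit 302) (B (L (nat_lit 271) ln11_9_2 ln11_9_2_ok) (L (nat_lit 303) ln15_9_1_c10 ln15_9_1_c10_ok))))) (B (M (nat_lit 334) (B (L (nat_lit 333) ln10_9_0 ln10_9_0_ok) (M (nat_lit 302) (B (L (nat_lit 303) ln15_9_1_c10 ln15_9_1_c10_ok) (L (nat_lit 335) ln11_9_0_c10 ln11_9_0_c10_ok))))) (M (nat_lit 333) (B (L (nat_lit 334) ln10_9_0 ln10_9_0_ok) (M (nat_lit 269) (B (L (nat_lit 270) ln10_9_2 ln10_9_2_ok) (L (nat_lit 237) ln13_7_5 ln13_7_5_ok))))))))))))))))))))))) (B (K (nat_lit 5954262831509113917970671779033862168180800969438346341324268029961400684616906698087343873751490262696749051400739337301456261845268561920)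 (nat_lit 80695308704307148979165366989675578551281770259553698768414692022850540873609743054968244699431925195839682588568453120) (nat_lit 80695308704307148979165366989675578551281770259553698768414692022850540873609743054968244699431925195839682588568453120) c10_s115) (B (K (nat_lit 5954262831509113917970671779033862168180800969438346341324268029961400684616906698087343873751490262696749051400739337301456261845268561920) (nat_lit 346583711845797166151608922067042853127309734875029329778390254538633328957641129788569810408773822224536026124432427145911861248) (nat_lit 346583711845797166151608922067042853127309734875029329778390254538633328957641129788569810408773822224536026124432427145911861248) c10_s116) (B (K (nat_lit 5954262831509113917970671779033862168180800969438346341324268029961400684616906698087343873751490262696749051400739337301456261845268561920) (nat_lit 1488565707703986623690812324692150952926657360449382645231619335153856355282292248865738951399803168105230903561618167638477389522437931008)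 (nat_lit 1488565707703986623690812324692150952926657360449382645231619335153856355282292248865738951399803168105230903561618167638477389522437931008) c10_s117) (B (K (nat_lit 5954262831509113917970671779033862168180800969438346341324268029961400684616906698087343873751490262696749051400739337301456261845268561920) (nat_lit 346583711845797166151608921997050829907962857726253724055998314385987218162058232334146819903037698851544529139329190556843638784) (nat_lit 346583711845797166151608921997050829907962857726253724055998314385987218162058232334146819903037698851544529139329190556843638784) c10_s118) (B (K (nat_lit 5954262831509113917970671779033862168180800969438346341324268029961400684616906698087343873751490262696749051400739337301456261845268561920) (nat_lit 1488565707703986623690812324692150952804718132514593171023902249229619726706192224637328502793919716373212391285289965430072169657719062528) (nat_lit 1488565707703986623690812324692150952804718132514593171023902249229619726706192224637328502793919716373212391285289965430072169657719062528)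 c10_s119) (K (nat_lit 5954262831509113917970671779033862168180800969438346341324268029961400684616906698087343873751490262696749051400739337301456261845268561920) (nat_lit 80695308704307149049157390196736582464885014838946084117600976401412192711740041520438304737684934104375312314198392832) (nat_lit 80695308704307149049157390196736582464885014838946084117600976401412192711740041520438304737684934104375312314198392832) c10_s120)))))))
noncomputable def c10_d537 : Cert := (B (M (nat_lit 300) (B (M (nat_lit 395) (B (L (nat_lit 427) ln12_9_5 ln12_9_5_ok) (L (nat_lit 268) ln12_8_5 ln12_8_5_ok))) (B (M (nat_lit 268) (B (M (nat_lit 331) (B (L (nat_lit 236) ln12_7_5 ln12_7_5_ok) (L (nat_lit 395) ln12_8_5 ln12_8_5_ok))) (B (L (nat_lit 395) ln12_8_5 ln12_8_5_ok) (M (nat_lit 236) (B (L (nat_lit 331) ln12_7_5 ln12_7_5_ok) (M (nat_lit 235) (B (L (nat_lit 203) ln12_10_7_c10 ln12_10_7_c10_ok) (L (nat_lit 267) ln12_11_7 ln12_11_7_ok)))))))) (B (M (nat_lit 268)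 (B (M (nat_lit 236) (B (L (nat_lit 331) ln12_7_5 ln12_7_5_ok) (M (nat_lit 235) (B (L (nat_lit 203) ln12_10_7_c10 ln12_10_7_c10_ok) (L (nat_lit 267) ln12_11_7 ln12_11_7_ok))))) (M (nat_lit 269) (B (L (nat_lit 237) ln12_11_6 ln12_11_6_ok) (L (nat_lit 301) ln12_12_6 ln12_12_6_ok))))) (M (nat_lit 395) (B (L (nat_lit 427) ln12_9_5 ln12_9_5_ok) (M (nat_lit 299) (B (L (nat_lit 267) ln12_12_7 ln12_12_7_ok) (M (nat_lit 301) (B (L (nat_lit 269) ln12_12_6 ln12_12_6_ok) (M (nat_lit 298) (B (M (nat_lit 266) (B (L (nat_lit 331) ln11_12_7 ln11_12_7_ok) (L (nat_lit 265) ln13_9_3 ln13_9_3_ok))) (B (M (nat_lit 330) (B (L (nat_lit 329) ln13_9_1 ln13_9_1_ok) (M (nat_lit 266) (B (L (nat_lit 265) ln13_9_3 ln13_9_3_ok) (L (nat_lit 362) ln10_8_4 ln10_8_4_ok))))) (B (M (nat_lit 297) (B (M (nat_lit 296) (B (L (nat_lit 331) ln8_9_0 ln8_9_0_ok) (M (nat_lit 328) (B (L (nat_lit 327) ln11_9_1 ln11_9_1_ok) (L (nat_lit 329) ln12_9_1 ln12_9_1_ok))))) (B (M (nat_lit 329) (B (L (nat_lit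 328) ln12_9_1 ln12_9_1_ok) (L (nat_lit 330) ln13_9_1 ln13_9_1_ok))) (M (nat_lit 296) (B (L (nat_lit 331) ln8_9_0 ln8_9_0_ok) (M (nat_lit 264) (B (L (nat_lit 263) ln11_9_3 ln11_9_3_ok) (L (nat_lit 265) ln12_9_3 ln12_9_3_ok)))))))) (M (nat_lit 297) (B (M (nat_lit 329) (B (L (nat_lit 328) ln12_9_1 ln12_9_1_ok) (L (nat_lit 330) ln13_9_1 ln13_9_1_ok))) (M (nat_lit 331) (B (L (nat_lit 296) ln8_9_0 ln8_9_0_ok) (L (nat_lit 266) ln11_12_7 ln11_12_7_ok))))))))))))))))))) (B (M (nat_lit 300) (B (M (nat_lit 362) (B (M (nat_lit 299) (B (M (nat_lit 298) (B (M (nat_lit 297) (B (L (nat_lit 333) ln9_9_0 ln9_9_0_ok) (M (nat_lit 264) (B (L (nat_lit 265) ln12_9_3 ln12_9_3_ok) (M (nat_lit 328) (B (L (nat_lit 329) ln12_9_1 ln12_9_1_ok) (M (nat_lit 296) (B (L (nat_lit 263) ln11_9_3 ln11_9_3_ok) (L (nat_lit 327) ln11_9_1 ln11_9_1_ok))))))))) (B (M (nat_lit 297) (B (L (nat_lit 333) ln9_9_0 ln9_9_0_ok) (M (nat_lit 301) (B (M (nat_lit 265) (B (L (nat_lit 264) ln12_9_3 ln12_9_3_ok)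 (L (nat_lit 266) ln13_9_3 ln13_9_3_ok))) (L (nat_lit 269) ln12_12_6 ln12_12_6_ok))))) (M (nat_lit 395) (B (M (nat_lit 330) (B (L (nat_lit 329) ln13_11_3 ln13_11_3_ok) (L (nat_lit 266) ln10_8_4 ln10_8_4_ok))) (L (nat_lit 427) ln12_9_5 ln12_9_5_ok)))))) (L (nat_lit 267) ln12_12_7 ln12_12_7_ok))) (B (M (nat_lit 395) (B (L (nat_lit 427) ln12_9_5 ln12_9_5_ok) (M (nat_lit 361) (B (L (nat_lit 360) ln8_11_0 ln8_11_0_ok) (M (nat_lit 329) (B (L (nat_lit 328) ln12_11_3 ln12_11_3_ok) (L (nat_lit 330) ln13_11_3 ln13_11_3_ok))))))) (B (M (nat_lit 329) (B (M (nat_lit 361) (B (L (nat_lit 333) ln9_11_2 ln9_11_2_ok) (L (nat_lit 328) ln12_11_3 ln12_11_3_ok))) (L (nat_lit 330) ln13_11_3 ln13_11_3_ok))) (M (nat_lit 395) (B (M (nat_lit 361) (B (L (nat_lit 333) ln9_11_2 ln9_11_2_ok) (L (nat_lit 360) ln8_11_0 ln8_11_0_ok))) (L (nat_lit 427) ln12_9_5 ln12_9_5_ok))))))) (B (K (nat_lit 5954262830815946494601858681669997134291675816966823084948027549604684145103003091944259610066425008480218166289032514375790824482502868992)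 (nat_lit 17498005803356685337654085073373265593121979626419087354148984733697313943747628213808003529989685248) (nat_lit 17498005803356685337654085073373265593121979626419087354148984733697313943747628213808003529989685248) c10_s169) (M (nat_lit 395) (B (L (nat_lit 427) ln12_9_5 ln12_9_5_ok) (L (nat_lit 268) ln12_8_5 ln12_8_5_ok)))))) (B (M (nat_lit 300) (B (K (nat_lit 5954262830815946494601858681669997134291675816966823084948027549604684145103003091944259610066425008480218166289032514375790824482502868992) (nat_lit 17498005803356685337654085073373265593121979626419087354148984733697313943747628213808003529989685248) (nat_lit 17498005803356685337654085073373265593121979626419087354148984733697313943747628213808003529989685248) c10_s169) (B (M (nat_lit 299) (B (M (nat_lit 301) (B (M (nat_lit 298) (B (M (nat_lit 297) (B (L (nat_lit 333) ln9_9_0 ln9_9_0_ok) (M (nat_lit 264) (B (L (nat_lit 265) ln12_9_3 ln12_9_3_ok) (M (nat_lit 328) (B (L (nat_lit 329)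 ln12_9_1 ln12_9_1_ok) (M (nat_lit 296) (B (L (nat_lit 263) ln11_9_3 ln11_9_3_ok) (L (nat_lit 327) ln11_9_1 ln11_9_1_ok))))))))) (B (M (nat_lit 331) (B (M (nat_lit 395) (B (L (nat_lit 266) ln11_12_7 ln11_12_7_ok) (L (nat_lit 427) ln12_9_5 ln12_9_5_ok))) (M (nat_lit 297) (B (L (nat_lit 333) ln9_9_0 ln9_9_0_ok) (L (nat_lit 296) ln8_9_0 ln8_9_0_ok))))) (M (nat_lit 395) (B (M (nat_lit 266) (B (L (nat_lit 331) ln11_12_7 ln11_12_7_ok) (L (nat_lit 265) ln13_9_3 ln13_9_3_ok))) (L (nat_lit 427) ln12_9_5 ln12_9_5_ok)))))) (L (nat_lit 269) ln12_12_6 ln12_12_6_ok))) (L (nat_lit 267) ln12_12_7 ln12_12_7_ok))) (M (nat_lit 395) (B (L (nat_lit 427) ln12_9_5 ln12_9_5_ok) (L (nat_lit 268) ln12_8_5 ln12_8_5_ok)))))) (B (M (nat_lit 300) (B (K (nat_lit 5954262830815946494601858681669997134291675816966823084948027549604684145103003091944259610066425008480218166289032514375790824482502868992) (nat_lit 17498005803356685337654085073373265593121979626419087354148984733697313943747628213808003529989685248)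 (nat_lit 17498005803356685337654085073373265593121979626419087354148984733697313943747628213808003529989685248) c10_s169) (B (M (nat_lit 299) (B (L (nat_lit 267) ln12_12_7 ln12_12_7_ok) (M (nat_lit 331) (B (M (nat_lit 301) (B (L (nat_lit 269) ln12_12_6 ln12_12_6_ok) (M (nat_lit 302) (B (L (nat_lit 330) ln14_9_1_c10 ln14_9_1_c10_ok) (L (nat_lit 303) ln15_9_1_c10 ln15_9_1_c10_ok))))) (M (nat_lit 298) (B (M (nat_lit 297) (B (L (nat_lit 296) ln8_9_0 ln8_9_0_ok) (L (nat_lit 333) ln9_9_0 ln9_9_0_ok))) (M (nat_lit 395) (B (L (nat_lit 266) ln11_12_7 ln11_12_7_ok) (L (nat_lit 427) ln12_9_5 ln12_9_5_ok))))))))) (M (nat_lit 395) (B (L (nat_lit 427) ln12_9_5 ln12_9_5_ok) (L (nat_lit 268) ln12_8_5 ln12_8_5_ok)))))) (M (nat_lit 362) (B (M (nat_lit 330) (B (L (nat_lit 329) ln13_11_3 ln13_11_3_ok) (L (nat_lit 331) ln14_11_3 ln14_11_3_ok))) (B (M (nat_lit 331) (B (L (nat_lit 330) ln14_11_3 ln14_11_3_ok) (M (nat_lit 361) (B (L (nat_lit 360) ln8_11_2 ln8_11_2_ok) (L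 (nat_lit 333) ln9_11_2 ln9_11_2_ok))))) (B (M (nat_lit 361) (B (L (nat_lit 333) ln9_11_2 ln9_11_2_ok) (M (nat_lit 360) (B (L (nat_lit 331) ln8_11_2 ln8_11_2_ok) (M (nat_lit 392) (B (L (nat_lit 391) ln11_11_1 ln11_11_1_ok) (L (nat_lit 393) ln12_11_1 ln12_11_1_ok))))))) (M (nat_lit 361) (B (L (nat_lit 333) ln9_11_2 ln9_11_2_ok) (M (nat_lit 329) (B (L (nat_lit 328) ln12_11_3 ln12_11_3_ok) (L (nat_lit 330) ln13_11_3 ln13_11_3_ok)))))))))))))
noncomputable def c10_d538 : Cert := (B (M (nat_lit 361) (B (M (nat_lit 360) (B (M (nat_lit 359) (B (M (nat_lit 358) (B (M (nat_lit 390) (B (L (nat_lit 389) ln9_11_1_c10 ln9_11_1_c10_ok) (L (nat_lit 391) ln10_11_1 ln10_11_1_ok))) (M (nat_lit 326) (B (L (nat_lit 325) ln9_11_3_c10 ln9_11_3_c10_ok) (L (nat_lit 327) ln10_11_3 ln10_11_3_ok))))) (B (M (nat_lit 358) (B (M (nat_lit 326) (B (L (nat_lit 325) ln9_11_3_c10 ln9_11_3_c10_ok) (L (nat_lit 327) ln10_11_3 ln10_11_3_ok))) (M (nat_lit 330) (B (L (nat_lit 329) ln6_11_2_c10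 ln6_11_2_c10_ok) (L (nat_lit 331) ln7_11_2 ln7_11_2_ok))))) (B (M (nat_lit 327) (B (L (nat_lit 326) ln10_11_3 ln10_11_3_ok) (M (nat_lit 391) (B (L (nat_lit 390) ln10_11_1 ln10_11_1_ok) (L (nat_lit 392) ln11_11_1 ln11_11_1_ok))))) (M (nat_lit 358) (B (M (nat_lit 390) (B (L (nat_lit 389) ln9_11_1_c10 ln9_11_1_c10_ok) (L (nat_lit 391) ln10_11_1 ln10_11_1_ok))) (M (nat_lit 330) (B (L (nat_lit 329) ln6_11_2_c10 ln6_11_2_c10_ok) (L (nat_lit 331) ln7_11_2 ln7_11_2_ok))))))))) (B (M (nat_lit 359) (B (M (nat_lit 327) (B (L (nat_lit 326) ln10_11_3 ln10_11_3_ok) (M (nat_lit 391) (B (L (nat_lit 390) ln10_11_1 ln10_11_1_ok) (L (nat_lit 392) ln11_11_1 ln11_11_1_ok))))) (B (M (nat_lit 327) (B (L (nat_lit 326) ln10_11_3 ln10_11_3_ok) (L (nat_lit 328) ln11_11_3 ln11_11_3_ok))) (M (nat_lit 391) (B (L (nat_lit 390) ln10_11_1 ln10_11_1_ok) (L (nat_lit 392) ln11_11_1 ln11_11_1_ok)))))) (B (M (nat_lit 328) (B (L (nat_lit 327) ln11_11_3 ln11_11_3_ok) (L (nat_lit 329) ln12_11_3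 ln12_11_3_ok))) (M (nat_lit 359) (B (M (nat_lit 358) (B (M (nat_lit 390) (B (L (nat_lit 389) ln9_11_1_c10 ln9_11_1_c10_ok) (L (nat_lit 391) ln10_11_1 ln10_11_1_ok))) (M (nat_lit 330) (B (L (nat_lit 329) ln6_11_2_c10 ln6_11_2_c10_ok) (L (nat_lit 331) ln7_11_2 ln7_11_2_ok))))) (B (M (nat_lit 391) (B (L (nat_lit 390) ln10_11_1 ln10_11_1_ok) (L (nat_lit 392) ln11_11_1 ln11_11_1_ok))) (M (nat_lit 358) (B (M (nat_lit 330) (B (L (nat_lit 329) ln6_11_2_c10 ln6_11_2_c10_ok) (L (nat_lit 331) ln7_11_2 ln7_11_2_ok))) (M (nat_lit 357) (B (M (nat_lit 393) (B (L (nat_lit 392) ln5_11_0_c10 ln5_11_0_c10_ok) (L (nat_lit 394) ln6_11_0_c10 ln6_11_0_c10_ok))) (M (nat_lit 325) (B (L (nat_lit 324) ln8_11_3_c10 ln8_11_3_c10_ok) (L (nat_lit 326) ln9_11_3_c10 ln9_11_3_c10_ok)))))))))))))) (B (M (nat_lit 360) (B (M (nat_lit 359) (B (M (nat_lit 327) (B (L (nat_lit 326) ln10_11_3 ln10_11_3_ok) (L (nat_lit 328) ln11_11_3 ln11_11_3_ok))) (M (nat_lit 391) (B (L (nat_lit 390) ln10_11_1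 ln10_11_1_ok) (L (nat_lit 392) ln11_11_1 ln11_11_1_ok))))) (B (M (nat_lit 328) (B (L (nat_lit 327) ln11_11_3 ln11_11_3_ok) (L (nat_lit 329) ln12_11_3 ln12_11_3_ok))) (M (nat_lit 359) (B (M (nat_lit 391) (B (L (nat_lit 390) ln10_11_1 ln10_11_1_ok) (L (nat_lit 392) ln11_11_1 ln11_11_1_ok))) (B (M (nat_lit 392) (B (L (nat_lit 391) ln11_11_1 ln11_11_1_ok) (M (nat_lit 358) (B (M (nat_lit 330) (B (L (nat_lit 329) ln6_11_2_c10 ln6_11_2_c10_ok) (L (nat_lit 331) ln7_11_2 ln7_11_2_ok))) (L (nat_lit 393) ln12_11_1 ln12_11_1_ok))))) (B (M (nat_lit 358) (B (M (nat_lit 330) (B (L (nat_lit 329) ln6_11_2_c10 ln6_11_2_c10_ok) (L (nat_lit 331) ln7_11_2 ln7_11_2_ok))) (M (nat_lit 357) (B (M (nat_lit 389) (B (L (nat_lit 388) ln8_11_1_c10 ln8_11_1_c10_ok) (L (nat_lit 390) ln9_11_1_c10 ln9_11_1_c10_ok))) (M (nat_lit 393) (B (L (nat_lit 392) ln5_11_0_c10 ln5_11_0_c10_ok) (L (nat_lit 394) ln6_11_0_c10 ln6_11_0_c10_ok))))))) (M (nat_lit 358) (B (M (nat_lit 390) (B (L (nat_lit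 389) ln9_11_1_c10 ln9_11_1_c10_ok) (L (nat_lit 391) ln10_11_1 ln10_11_1_ok))) (M (nat_lit 330) (B (L (nat_lit 329) ln6_11_2_c10 ln6_11_2_c10_ok) (L (nat_lit 331) ln7_11_2 ln7_11_2_ok)))))))))))) (B (M (nat_lit 360) (B (M (nat_lit 391) (B (L (nat_lit 392) ln11_11_1 ln11_11_1_ok) (M (nat_lit 359) (B (L (nat_lit 390) ln10_11_1 ln10_11_1_ok) (M (nat_lit 327) (B (L (nat_lit 328) ln11_11_3 ln11_11_3_ok) (L (nat_lit 326) ln10_11_3 ln10_11_3_ok))))))) (B (M (nat_lit 359) (B (M (nat_lit 331) (B (L (nat_lit 332) ln8_11_2 ln8_11_2_ok) (L (nat_lit 330) ln7_11_2 ln7_11_2_ok))) (M (nat_lit 327) (B (L (nat_lit 328) ln11_11_3 ln11_11_3_ok) (L (nat_lit 326) ln10_11_3 ln10_11_3_ok))))) (B (M (nat_lit 359) (B (M (nat_lit 331) (B (L (nat_lit 332) ln8_11_2 ln8_11_2_ok) (L (nat_lit 330) ln7_11_2 ln7_11_2_ok))) (M (nat_lit 391) (B (L (nat_lit 392) ln11_11_1 ln11_11_1_ok) (L (nat_lit 390) ln10_11_1 ln10_11_1_ok))))) (M (nat_lit 332) (B (L (nat_lit 333) ln9_11_2 ln9_11_2_ok)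 (L (nat_lit 331) ln8_11_2 ln8_11_2_ok))))))) (B (M (nat_lit 329) (B (L (nat_lit 328) ln12_11_3 ln12_11_3_ok) (L (nat_lit 330) ln13_11_3 ln13_11_3_ok))) (B (M (nat_lit 328) (B (M (nat_lit 327) (B (L (nat_lit 360) ln11_11_3 ln11_11_3_ok) (L (nat_lit 329) ln12_11_3 ln12_11_3_ok))) (B (M (nat_lit 393) (B (L (nat_lit 329) ln12_11_3 ln12_11_3_ok) (L (nat_lit 392) ln12_11_1 ln12_11_1_ok))) (M (nat_lit 360) (B (L (nat_lit 327) ln11_11_3 ln11_11_3_ok) (M (nat_lit 392) (B (L (nat_lit 391) ln11_11_1 ln11_11_1_ok) (L (nat_lit 393) ln12_11_1 ln12_11_1_ok)))))))) (M (nat_lit 393) (B (L (nat_lit 392) ln12_11_1 ln12_11_1_ok) (L (nat_lit 394) ln13_11_1 ln13_11_1_ok))))))))) (B (K (nat_lit 5954262830815946494440468064148652792463001872142096923321236220915577791466765634033407357259070873632712872655050075015303364638014439424) (nat_lit 35304197559015081190054885741072612924720463730720647516485736681153973596503795256078306745048713038843014128997498880) (nat_lit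 35304197559015081190054885741072612924720463730720647516485736681153973596503795256078306745048713038843014128997498880) c10_s11) (B (M (nat_lit 393) (B (M (nat_lit 392) (B (L (nat_lit 361) ln12_11_1 ln12_11_1_ok) (L (nat_lit 394) ln13_11_1 ln13_11_1_ok))) (B (M (nat_lit 330) (B (L (nat_lit 394) ln13_11_1 ln13_11_1_ok) (L (nat_lit 329) ln13_11_3 ln13_11_3_ok))) (M (nat_lit 361) (B (L (nat_lit 392) ln12_11_1 ln12_11_1_ok) (M (nat_lit 329) (B (L (nat_lit 328) ln12_11_3 ln12_11_3_ok) (L (nat_lit 330) ln13_11_3 ln13_11_3_ok)))))))) (B (M (nat_lit 361) (B (M (nat_lit 360) (B (M (nat_lit 328) (B (L (nat_lit 327) ln11_11_3 ln11_11_3_ok) (L (nat_lit 329) ln12_11_3 ln12_11_3_ok))) (M (nat_lit 332) (B (L (nat_lit 331) ln8_11_2 ln8_11_2_ok) (L (nat_lit 333) ln9_11_2 ln9_11_2_ok))))) (B (M (nat_lit 329) (B (L (nat_lit 328) ln12_11_3 ln12_11_3_ok) (L (nat_lit 330) ln13_11_3 ln13_11_3_ok))) (M (nat_lit 360) (B (M (nat_lit 332) (B (L (nat_lit 331) ln8_11_2 ln8_11_2_ok)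 (L (nat_lit 333) ln9_11_2 ln9_11_2_ok))) (M (nat_lit 359) (B (M (nat_lit 391) (B (L (nat_lit 390) ln10_11_1 ln10_11_1_ok) (L (nat_lit 392) ln11_11_1 ln11_11_1_ok))) (M (nat_lit 395) (B (L (nat_lit 394) ln7_11_0 ln7_11_0_ok) (L (nat_lit 396) ln8_11_0 ln8_11_0_ok)))))))))) (B (M (nat_lit 361) (B (M (nat_lit 360) (B (M (nat_lit 392) (B (L (nat_lit 391) ln11_11_1 ln11_11_1_ok) (L (nat_lit 393) ln12_11_1 ln12_11_1_ok))) (M (nat_lit 332) (B (L (nat_lit 331) ln8_11_2 ln8_11_2_ok) (L (nat_lit 333) ln9_11_2 ln9_11_2_ok))))) (B (M (nat_lit 393) (B (L (nat_lit 392) ln12_11_1 ln12_11_1_ok) (L (nat_lit 394) ln13_11_1 ln13_11_1_ok))) (M (nat_lit 360) (B (M (nat_lit 332) (B (L (nat_lit 331) ln8_11_2 ln8_11_2_ok) (L (nat_lit 333) ln9_11_2 ln9_11_2_ok))) (M (nat_lit 359) (B (M (nat_lit 395) (B (L (nat_lit 394) ln7_11_0 ln7_11_0_ok) (L (nat_lit 396) ln8_11_0 ln8_11_0_ok))) (M (nat_lit 327) (B (L (nat_lit 326) ln10_11_3 ln10_11_3_ok) (L (nat_lit 328) ln11_11_3 ln11_11_3_ok))))))))))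 (M (nat_lit 330) (B (L (nat_lit 329) ln13_11_3 ln13_11_3_ok) (M (nat_lit 394) (B (L (nat_lit 393) ln13_11_1 ln13_11_1_ok) (M (nat_lit 298) (B (M (nat_lit 395) (B (L (nat_lit 427) ln10_9_4 ln10_9_4_ok) (L (nat_lit 266) ln10_8_4 ln10_8_4_ok))) (B (M (nat_lit 266) (B (L (nat_lit 395) ln10_8_4 ln10_8_4_ok) (M (nat_lit 265) (B (L (nat_lit 297) ln10_12_7_c10 ln10_12_7_c10_ok) (L (nat_lit 233) ln10_11_7_c10 ln10_11_7_c10_ok))))) (B (M (nat_lit 266) (B (M (nat_lit 265) (B (L (nat_lit 297) ln10_12_7_c10 ln10_12_7_c10_ok) (L (nat_lit 233) ln10_11_7_c10 ln10_11_7_c10_ok))) (M (nat_lit 235) (B (L (nat_lit 267) ln10_11_6_c10 ln10_11_6_c10_ok) (M (nat_lit 234) (B (L (nat_lit 331) ln10_7_4 ln10_7_4_ok) (L (nat_lit 203) ln10_10_6_c10 ln10_10_6_c10_ok))))))) (M (nat_lit 426) (B (M (nat_lit 427) (B (L (nat_lit 459) ln10_10_4 ln10_10_4_ok) (L (nat_lit 395) ln10_9_4 ln10_9_4_ok))) (M (nat_lit 458) (B (L (nat_lit 331) ln10_14_6 ln10_14_6_ok) (M (nat_lit 457) (B (L (nat_lit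 489) ln10_11_5 ln10_11_5_ok) (L (nat_lit 425) ln10_10_5 ln10_10_5_ok))))))))))))))))))))
noncomputable def c10_d539 : Cert := (B (M (nat_lit 361) (B (M (nat_lit 360) (B (M (nat_lit 359) (B (M (nat_lit 391) (B (L (nat_lit 390) ln10_11_1 ln10_11_1_ok) (L (nat_lit 392) ln11_11_1 ln11_11_1_ok))) (M (nat_lit 327) (B (L (nat_lit 326) ln10_11_3 ln10_11_3_ok) (L (nat_lit 328) ln11_11_3 ln11_11_3_ok))))) (B (M (nat_lit 359) (B (M (nat_lit 327) (B (L (nat_lit 326) ln10_11_3 ln10_11_3_ok) (L (nat_lit 328) ln11_11_3 ln11_11_3_ok))) (M (nat_lit 331) (B (L (nat_lit 330) ln7_11_2 ln7_11_2_ok) (L (nat_lit 332) ln8_11_2 ln8_11_2_ok))))) (B (M (nat_lit 328) (B (L (nat_lit 327) ln11_11_3 ln11_11_3_ok) (M (nat_lit 392) (B (L (nat_lit 391) ln11_11_1 ln11_11_1_ok) (L (nat_lit 393) ln12_11_1 ln12_11_1_ok))))) (M (nat_lit 359) (B (M (nat_lit 391) (B (L (nat_lit 390) ln10_11_1 ln10_11_1_ok) (L (nat_lit 392) ln11_11_1 ln11_11_1_ok))) (M (nat_lit 331) (B (L (nat_lit 330) ln7_11_2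 ln7_11_2_ok) (L (nat_lit 332) ln8_11_2 ln8_11_2_ok))))))))) (B (M (nat_lit 360) (B (M (nat_lit 328) (B (L (nat_lit 327) ln11_11_3 ln11_11_3_ok) (M (nat_lit 392) (B (L (nat_lit 391) ln11_11_1 ln11_11_1_ok) (L (nat_lit 393) ln12_11_1 ln12_11_1_ok))))) (B (M (nat_lit 328) (B (L (nat_lit 327) ln11_11_3 ln11_11_3_ok) (L (nat_lit 329) ln12_11_3 ln12_11_3_ok))) (M (nat_lit 392) (B (L (nat_lit 391) ln11_11_1 ln11_11_1_ok) (L (nat_lit 393) ln12_11_1 ln12_11_1_ok)))))) (B (M (nat_lit 329) (B (L (nat_lit 328) ln12_11_3 ln12_11_3_ok) (L (nat_lit 330) ln13_11_3 ln13_11_3_ok))) (M (nat_lit 360) (B (M (nat_lit 359) (B (M (nat_lit 391) (B (L (nat_lit 390) ln10_11_1 ln10_11_1_ok) (L (nat_lit 392) ln11_11_1 ln11_11_1_ok))) (M (nat_lit 331) (B (L (nat_lit 330) ln7_11_2 ln7_11_2_ok) (L (nat_lit 332) ln8_11_2 ln8_11_2_ok))))) (B (M (nat_lit 392) (B (L (nat_lit 391) ln11_11_1 ln11_11_1_ok) (L (nat_lit 393) ln12_11_1 ln12_11_1_ok))) (M (nat_lit 359) (B (M (nat_lit 331)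 (B (L (nat_lit 330) ln7_11_2 ln7_11_2_ok) (L (nat_lit 332) ln8_11_2 ln8_11_2_ok))) (M (nat_lit 358) (B (M (nat_lit 394) (B (L (nat_lit 393) ln6_11_0_c10 ln6_11_0_c10_ok) (L (nat_lit 395) ln7_11_0 ln7_11_0_ok))) (M (nat_lit 326) (B (L (nat_lit 325) ln9_11_3_c10 ln9_11_3_c10_ok) (L (nat_lit 327) ln10_11_3 ln10_11_3_ok)))))))))))))) (B (M (nat_lit 361) (B (M (nat_lit 360) (B (M (nat_lit 395) (B (L (nat_lit 396) ln8_11_0 ln8_11_0_ok) (M (nat_lit 359) (B (L (nat_lit 394) ln7_11_0 ln7_11_0_ok) (M (nat_lit 331) (B (L (nat_lit 332) ln8_11_2 ln8_11_2_ok) (L (nat_lit 330) ln7_11_2 ln7_11_2_ok))))))) (M (nat_lit 392) (B (L (nat_lit 393) ln12_11_1 ln12_11_1_ok) (L (nat_lit 391) ln11_11_1 ln11_11_1_ok))))) (B (M (nat_lit 360) (B (M (nat_lit 359) (B (M (nat_lit 331) (B (L (nat_lit 332) ln8_11_2 ln8_11_2_ok) (L (nat_lit 330) ln7_11_2 ln7_11_2_ok))) (M (nat_lit 391) (B (L (nat_lit 392) ln11_11_1 ln11_11_1_ok) (L (nat_lit 390) ln10_11_1 ln10_11_1_ok))))) (B (M (nat_lit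 359) (B (M (nat_lit 391) (B (L (nat_lit 392) ln11_11_1 ln11_11_1_ok) (L (nat_lit 390) ln10_11_1 ln10_11_1_ok))) (M (nat_lit 327) (B (L (nat_lit 328) ln11_11_3 ln11_11_3_ok) (L (nat_lit 326) ln10_11_3 ln10_11_3_ok))))) (B (M (nat_lit 359) (B (M (nat_lit 331) (B (L (nat_lit 332) ln8_11_2 ln8_11_2_ok) (L (nat_lit 330) ln7_11_2 ln7_11_2_ok))) (M (nat_lit 327) (B (L (nat_lit 328) ln11_11_3 ln11_11_3_ok) (L (nat_lit 326) ln10_11_3 ln10_11_3_ok))))) (M (nat_lit 392) (B (L (nat_lit 393) ln12_11_1 ln12_11_1_ok) (L (nat_lit 391) ln11_11_1 ln11_11_1_ok))))))) (B (M (nat_lit 360) (B (M (nat_lit 395) (B (L (nat_lit 396) ln8_11_0 ln8_11_0_ok) (M (nat_lit 359) (B (L (nat_lit 394) ln7_11_0 ln7_11_0_ok) (M (nat_lit 331) (B (L (nat_lit 332) ln8_11_2 ln8_11_2_ok) (L (nat_lit 330) ln7_11_2 ln7_11_2_ok))))))) (B (M (nat_lit 359) (B (M (nat_lit 331) (B (L (nat_lit 332) ln8_11_2 ln8_11_2_ok) (L (nat_lit 330) ln7_11_2 ln7_11_2_ok))) (M (nat_lit 391) (B (L (nat_lit 392)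 ln11_11_1 ln11_11_1_ok) (L (nat_lit 390) ln10_11_1 ln10_11_1_ok))))) (B (M (nat_lit 359) (B (M (nat_lit 395) (B (L (nat_lit 396) ln8_11_0 ln8_11_0_ok) (L (nat_lit 394) ln7_11_0 ln7_11_0_ok))) (M (nat_lit 391) (B (L (nat_lit 392) ln11_11_1 ln11_11_1_ok) (L (nat_lit 390) ln10_11_1 ln10_11_1_ok))))) (M (nat_lit 392) (B (L (nat_lit 391) ln11_11_1 ln11_11_1_ok) (M (nat_lit 328) (B (L (nat_lit 327) ln11_11_3 ln11_11_3_ok) (M (nat_lit 424) (B (L (nat_lit 329) ln12_11_3 ln12_11_3_ok) (M (nat_lit 456) (B (M (nat_lit 457) (B (L (nat_lit 489) ln8_11_4_c10 ln8_11_4_c10_ok) (L (nat_lit 425) ln8_10_4_c10 ln8_10_4_c10_ok))) (M (nat_lit 455) (B (L (nat_lit 487) ln8_11_5_c10 ln8_11_5_c10_ok) (L (nat_lit 423) ln8_10_5_c10 ln8_10_5_c10_ok))))))))))))))) (B (M (nat_lit 360) (B (M (nat_lit 359) (B (M (nat_lit 395) (B (L (nat_lit 396) ln8_11_0 ln8_11_0_ok) (L (nat_lit 394) ln7_11_0 ln7_11_0_ok))) (M (nat_lit 327) (B (L (nat_lit 328) ln11_11_3 ln11_11_3_ok) (L (nat_lit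 326) ln10_11_3 ln10_11_3_ok))))) (B (M (nat_lit 359) (B (M (nat_lit 391) (B (L (nat_lit 392) ln11_11_1 ln11_11_1_ok) (L (nat_lit 390) ln10_11_1 ln10_11_1_ok))) (M (nat_lit 327) (B (L (nat_lit 328) ln11_11_3 ln11_11_3_ok) (L (nat_lit 326) ln10_11_3 ln10_11_3_ok))))) (B (M (nat_lit 359) (B (M (nat_lit 395) (B (L (nat_lit 396) ln8_11_0 ln8_11_0_ok) (L (nat_lit 394) ln7_11_0 ln7_11_0_ok))) (M (nat_lit 391) (B (L (nat_lit 392) ln11_11_1 ln11_11_1_ok) (L (nat_lit 390) ln10_11_1 ln10_11_1_ok))))) (M (nat_lit 392) (B (L (nat_lit 393) ln12_11_1 ln12_11_1_ok) (L (nat_lit 391) ln11_11_1 ln11_11_1_ok))))))) (B (M (nat_lit 360) (B (M (nat_lit 332) (B (L (nat_lit 333) ln9_11_2 ln9_11_2_ok) (L (nat_lit 331) ln8_11_2 ln8_11_2_ok))) (M (nat_lit 359) (B (M (nat_lit 395) (B (L (nat_lit 396) ln8_11_0 ln8_11_0_ok) (L (nat_lit 394) ln7_11_0 ln7_11_0_ok))) (M (nat_lit 327) (B (L (nat_lit 328) ln11_11_3 ln11_11_3_ok) (L (nat_lit 326) ln10_11_3 ln10_11_3_ok))))))) (M (nat_lit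 393) (B (L (nat_lit 392) ln12_11_1 ln12_11_1_ok) (M (nat_lit 329) (B (L (nat_lit 328) ln12_11_3 ln12_11_3_ok) (M (nat_lit 425) (B (L (nat_lit 330) ln13_11_3 ln13_11_3_ok) (M (nat_lit 457) (B (M (nat_lit 458) (B (L (nat_lit 490) ln9_11_4 ln9_11_4_ok) (L (nat_lit 426) ln9_10_4_c10 ln9_10_4_c10_ok))) (M (nat_lit 456) (B (L (nat_lit 488) ln9_11_5_c10 ln9_11_5_c10_ok) (L (nat_lit 424) ln9_10_5_c10 ln9_10_5_c10_ok))))))))))))))))) (B (M (nat_lit 361) (B (M (nat_lit 360) (B (M (nat_lit 328) (B (L (nat_lit 327) ln11_11_3 ln11_11_3_ok) (L (nat_lit 329) ln12_11_3 ln12_11_3_ok))) (M (nat_lit 392) (B (L (nat_lit 391) ln11_11_1 ln11_11_1_ok) (L (nat_lit 393) ln12_11_1 ln12_11_1_ok))))) (B (M (nat_lit 329) (B (L (nat_lit 328) ln12_11_3 ln12_11_3_ok) (L (nat_lit 330) ln13_11_3 ln13_11_3_ok))) (M (nat_lit 360) (B (M (nat_lit 392) (B (L (nat_lit 391) ln11_11_1 ln11_11_1_ok) (L (nat_lit 393) ln12_11_1 ln12_11_1_ok))) (B (M (nat_lit 393) (B (L (nat_lit 392) ln12_11_1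 ln12_11_1_ok) (M (nat_lit 359) (B (M (nat_lit 331) (B (L (nat_lit 330) ln7_11_2 ln7_11_2_ok) (L (nat_lit 332) ln8_11_2 ln8_11_2_ok))) (L (nat_lit 394) ln13_11_1 ln13_11_1_ok))))) (B (M (nat_lit 359) (B (M (nat_lit 331) (B (L (nat_lit 330) ln7_11_2 ln7_11_2_ok) (L (nat_lit 332) ln8_11_2 ln8_11_2_ok))) (M (nat_lit 358) (B (M (nat_lit 390) (B (L (nat_lit 389) ln9_11_1_c10 ln9_11_1_c10_ok) (L (nat_lit 391) ln10_11_1 ln10_11_1_ok))) (M (nat_lit 394) (B (L (nat_lit 393) ln6_11_0_c10 ln6_11_0_c10_ok) (L (nat_lit 395) ln7_11_0 ln7_11_0_ok))))))) (M (nat_lit 359) (B (M (nat_lit 391) (B (L (nat_lit 390) ln10_11_1 ln10_11_1_ok) (L (nat_lit 392) ln11_11_1 ln11_11_1_ok))) (M (nat_lit 331) (B (L (nat_lit 330) ln7_11_2 ln7_11_2_ok) (L (nat_lit 332) ln8_11_2 ln8_11_2_ok)))))))))))) c10_d538)))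
noncomputable def c10_d540 : Cert := (B (M (nat_lit 361) (B (M (nat_lit 393) (B (L (nat_lit 392) ln12_11_1 ln12_11_1_ok) (L (nat_lit 394) ln13_11_1 ln13_11_1_ok))) (M (nat_lit 333) (B (L (nat_lit 332) ln9_11_2 ln9_11_2_ok) (L (nat_lit 334) ln10_11_2 ln10_11_2_ok))))) (B (M (nat_lit 333) (B (L (nat_lit 334) ln10_11_2 ln10_11_2_ok) (M (nat_lit 329) (B (L (nat_lit 330) ln13_11_3 ln13_11_3_ok) (M (nat_lit 361) (B (L (nat_lit 328) ln12_11_3 ln12_11_3_ok) (L (nat_lit 332) ln9_11_2 ln9_11_2_ok))))))) (B (M (nat_lit 331) (B (M (nat_lit 394) (B (L (nat_lit 393) ln13_11_1 ln13_11_1_ok) (M (nat_lit 330) (B (L (nat_lit 329) ln13_11_3 ln13_11_3_ok) (M (nat_lit 426) (B (L (nat_lit 299) ln10_13_6 ln10_13_6_ok) (L (nat_lit 458) ln10_14_6 ln10_14_6_ok))))))) (B (M (nat_lit 394) (B (L (nat_lit 393) ln13_11_1 ln13_11_1_ok) (M (nat_lit 426) (B (L (nat_lit 458) ln10_14_6 ln10_14_6_ok) (M (nat_lit 299) (B (L (nat_lit 330) ln10_13_6 ln10_13_6_ok) (L (nat_lit 267) ln11_8_5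 ln11_8_5_ok))))))) (B (M (nat_lit 396) (B (M (nat_lit 428) (B (L (nat_lit 460) ln12_14_7 ln12_14_7_ok) (M (nat_lit 299) (B (L (nat_lit 267) ln11_8_4 ln11_8_4_ok) (L (nat_lit 332) ln12_10_4 ln12_10_4_ok))))) (B (M (nat_lit 428) (B (L (nat_lit 460) ln12_14_7 ln12_14_7_ok) (M (nat_lit 299) (B (L (nat_lit 395) ln11_9_4 ln11_9_4_ok) (L (nat_lit 332) ln12_10_4 ln12_10_4_ok))))) (B (M (nat_lit 428) (B (L (nat_lit 460) ln12_14_7 ln12_14_7_ok) (M (nat_lit 333) (B (L (nat_lit 334) ln10_11_2 ln10_11_2_ok) (M (nat_lit 301) (B (L (nat_lit 332) ln12_10_4 ln12_10_4_ok) (L (nat_lit 269) ln13_8_5 ln13_8_5_ok))))))) (B (M (nat_lit 428) (B (L (nat_lit 460) ln12_14_7 ln12_14_7_ok) (M (nat_lit 299) (B (L (nat_lit 267) ln11_8_4 ln11_8_4_ok) (L (nat_lit 395) ln11_9_4 ln11_9_4_ok))))) (M (nat_lit 333) (B (L (nat_lit 334) ln10_11_2 ln10_11_2_ok) (M (nat_lit 330) (B (L (nat_lit 329) ln13_11_3 ln13_11_3_ok) (M (nat_lit 301) (B (L (nat_lit 269) ln13_8_5 ln13_8_5_ok) (M (nat_lit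 299) (B (L (nat_lit 267) ln11_8_4 ln11_8_4_ok) (M (nat_lit 302) (B (L (nat_lit 300) ln14_9_1_c10 ln14_9_1_c10_ok) (L (nat_lit 332) ln10_10_2 ln10_10_2_ok)))))))))))))))) (B (M (nat_lit 394) (B (L (nat_lit 393) ln13_11_1 ln13_11_1_ok) (M (nat_lit 426) (B (L (nat_lit 458) ln10_14_6 ln10_14_6_ok) (M (nat_lit 299) (B (L (nat_lit 267) ln11_8_5 ln11_8_5_ok) (L (nat_lit 395) ln11_9_5 ln11_9_5_ok))))))) (M (nat_lit 427) (B (M (nat_lit 394) (B (L (nat_lit 393) ln13_11_1 ln13_11_1_ok) (M (nat_lit 330) (B (L (nat_lit 329) ln13_11_3 ln13_11_3_ok) (M (nat_lit 426) (B (L (nat_lit 459) ln10_10_4 ln10_10_4_ok) (L (nat_lit 458) ln10_14_6 ln10_14_6_ok))))))) (B (M (nat_lit 394) (B (L (nat_lit 393) ln13_11_1 ln13_11_1_ok) (M (nat_lit 459) (B (M (nat_lit 426) (B (L (nat_lit 330) ln10_10_4 ln10_10_4_ok) (L (nat_lit 458) ln10_14_6 ln10_14_6_ok))) (M (nat_lit 395) (B (L (nat_lit 491) ln11_15_7 ln11_15_7_ok) (L (nat_lit 332) ln11_14_6 ln11_14_6_ok))))))) (B (M (nat_lit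 330) (B (L (nat_lit 329) ln13_11_3 ln13_11_3_ok) (M (nat_lit 426) (B (M (nat_lit 459) (B (L (nat_lit 394) ln10_10_4 ln10_10_4_ok) (L (nat_lit 395) ln11_14_7 ln11_14_7_ok))) (B (M (nat_lit 395) (B (L (nat_lit 459) ln11_14_7 ln11_14_7_ok) (L (nat_lit 458) ln11_10_5 ln11_10_5_ok))) (B (M (nat_lit 394) (B (L (nat_lit 459) ln10_10_4 ln10_10_4_ok) (L (nat_lit 458) ln10_14_6 ln10_14_6_ok))) (M (nat_lit 458) (B (L (nat_lit 394) ln10_14_6 ln10_14_6_ok) (L (nat_lit 395) ln11_10_5 ln11_10_5_ok))))))))) (B (M (nat_lit 395) (B (M (nat_lit 332) (B (L (nat_lit 300) ln11_13_6 ln11_13_6_ok) (L (nat_lit 459) ln11_14_6 ln11_14_6_ok))) (M (nat_lit 426) (B (L (nat_lit 458) ln11_10_5 ln11_10_5_ok) (M (nat_lit 425) (B (M (nat_lit 424) (B (L (nat_lit 396) ln8_13_2 ln8_13_2_ok) (M (nat_lit 394) (B (L (nat_lit 423) ln7_13_2 ln7_13_2_ok) (L (nat_lit 393) ln13_11_1 ln13_11_1_ok))))) (B (M (nat_lit 393) (B (L (nat_lit 394) ln13_11_1 ln13_11_1_ok) (M (nat_lit 428) (B (L (nat_lit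 392) ln12_13_3 ln12_13_3_ok) (L (nat_lit 460) ln11_10_4 ln11_10_4_ok))))) (M (nat_lit 456) (B (M (nat_lit 424) (B (L (nat_lit 455) ln11_13_1_c10 ln11_13_1_c10_ok) (L (nat_lit 396) ln8_13_2 ln8_13_2_ok))) (M (nat_lit 428) (B (L (nat_lit 457) ln12_13_1 ln12_13_1_ok) (L (nat_lit 460) ln11_10_4 ln11_10_4_ok)))))))))))) (B (M (nat_lit 332) (B (M (nat_lit 395) (B (L (nat_lit 300) ln11_13_6 ln11_13_6_ok) (L (nat_lit 459) ln11_14_6 ln11_14_6_ok))) (M (nat_lit 333) (B (L (nat_lit 334) ln14_10_1 ln14_10_1_ok) (M (nat_lit 301) (B (M (nat_lit 330) (B (L (nat_lit 329) ln9_10_0 ln9_10_0_ok) (L (nat_lit 302) ln10_10_2 ln10_10_2_ok))) (M (nat_lit 269) (B (L (nat_lit 237) ln13_7_5 ln13_7_5_ok) (L (nat_lit 396) ln13_8_5 ln13_8_5_ok))))))))) (M (nat_lit 426) (B (M (nat_lit 394) (B (L (nat_lit 393) ln13_11_1 ln13_11_1_ok) (L (nat_lit 458) ln10_14_6 ln10_14_6_ok))) (B (M (nat_lit 458) (B (L (nat_lit 394) ln10_14_6 ln10_14_6_ok) (L (nat_lit 395) ln11_10_5 ln11_10_5_ok)))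 (B (M (nat_lit 332) (B (M (nat_lit 395) (B (L (nat_lit 458) ln11_10_5 ln11_10_5_ok) (L (nat_lit 300) ln11_13_6 ln11_13_6_ok))) (M (nat_lit 333) (B (L (nat_lit 334) ln14_10_1 ln14_10_1_ok) (M (nat_lit 301) (B (M (nat_lit 330) (B (L (nat_lit 329) ln9_10_0 ln9_10_0_ok) (L (nat_lit 302) ln10_10_2 ln10_10_2_ok))) (M (nat_lit 269) (B (L (nat_lit 237) ln13_7_5 ln13_7_5_ok) (L (nat_lit 396) ln13_8_5 ln13_8_5_ok))))))))) (M (nat_lit 428) (B (M (nat_lit 460) (B (L (nat_lit 395) ln11_10_4 ln11_10_4_ok) (L (nat_lit 396) ln12_14_7 ln12_14_7_ok))) (M (nat_lit 425) (B (M (nat_lit 393) (B (L (nat_lit 392) ln12_13_3 ln12_13_3_ok) (L (nat_lit 394) ln13_11_1 ln13_11_1_ok))) (B (M (nat_lit 457) (B (L (nat_lit 456) ln12_13_1 ln12_13_1_ok) (M (nat_lit 330) (B (L (nat_lit 329) ln13_11_3 ln13_11_3_ok) (L (nat_lit 394) ln10_10_5 ln10_10_5_ok))))) (M (nat_lit 424) (B (M (nat_lit 392) (B (L (nat_lit 391) ln11_13_3 ln11_13_3_ok) (L (nat_lit 393) ln12_13_3 ln12_13_3_ok))) (M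 (nat_lit 456) (B (L (nat_lit 455) ln11_13_1_c10 ln11_13_1_c10_ok) (L (nat_lit 457) ln12_13_1 ln12_13_1_ok))))))))))))))))))))))))) (M (nat_lit 361) (B (M (nat_lit 329) (B (L (nat_lit 328) ln12_11_3 ln12_11_3_ok) (L (nat_lit 330) ln13_11_3 ln13_11_3_ok))) (M (nat_lit 393) (B (L (nat_lit 392) ln12_11_1 ln12_11_1_ok) (L (nat_lit 394) ln13_11_1 ln13_11_1_ok))))))))
noncomputable def c10_d541 : Cert := (B (M (nat_lit 366) (B (M (nat_lit 335) (B (L (nat_lit 334) ln11_11_2 ln11_11_2_ok) (M (nat_lit 367) (B (L (nat_lit 336) ln12_11_2 ln12_11_2_ok) (M (nat_lit 399) (B (L (nat_lit 398) ln11_11_0 ln11_11_0_ok) (L (nat_lit 400) ln12_11_0 ln12_11_0_ok))))))) (B (M (nat_lit 367) (B (M (nat_lit 395) (B (L (nat_lit 394) ln14_11_1 ln14_11_1_ok) (L (nat_lit 396) ln15_11_1 ln15_11_1_ok))) (M (nat_lit 399) (B (L (nat_lit 398) ln11_11_0 ln11_11_0_ok) (L (nat_lit 400) ln12_11_0 ln12_11_0_ok))))) (B (M (nat_lit 367) (B (M (nat_lit 395) (B (L (nat_lit 394) ln14_11_1 ln14_11_1_ok)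 (L (nat_lit 396) ln15_11_1 ln15_11_1_ok))) (M (nat_lit 335) (B (L (nat_lit 334) ln11_11_2 ln11_11_2_ok) (L (nat_lit 336) ln12_11_2 ln12_11_2_ok))))) (M (nat_lit 362) (B (M (nat_lit 394) (B (L (nat_lit 393) ln13_11_1 ln13_11_1_ok) (L (nat_lit 395) ln14_11_1 ln14_11_1_ok))) (M (nat_lit 334) (B (L (nat_lit 333) ln10_11_2 ln10_11_2_ok) (L (nat_lit 335) ln11_11_2 ln11_11_2_ok))))))))) (B (M (nat_lit 362) (B (M (nat_lit 393) (B (L (nat_lit 394) ln13_11_1 ln13_11_1_ok) (M (nat_lit 361) (B (L (nat_lit 392) ln12_11_1 ln12_11_1_ok) (M (nat_lit 329) (B (L (nat_lit 330) ln13_11_3 ln13_11_3_ok) (L (nat_lit 328) ln12_11_3 ln12_11_3_ok))))))) (B (M (nat_lit 361) (B (M (nat_lit 333) (B (L (nat_lit 334) ln10_11_2 ln10_11_2_ok) (L (nat_lit 332) ln9_11_2 ln9_11_2_ok))) (M (nat_lit 329) (B (L (nat_lit 330) ln13_11_3 ln13_11_3_ok) (L (nat_lit 328) ln12_11_3 ln12_11_3_ok))))) (B (M (nat_lit 361) (B (M (nat_lit 333) (B (L (nat_lit 334) ln10_11_2 ln10_11_2_ok) (L (nat_lit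 332) ln9_11_2 ln9_11_2_ok))) (M (nat_lit 393) (B (L (nat_lit 394) ln13_11_1 ln13_11_1_ok) (L (nat_lit 392) ln12_11_1 ln12_11_1_ok))))) (M (nat_lit 366) (B (M (nat_lit 334) (B (L (nat_lit 335) ln11_11_2 ln11_11_2_ok) (L (nat_lit 333) ln10_11_2 ln10_11_2_ok))) (M (nat_lit 394) (B (L (nat_lit 395) ln14_11_1 ln14_11_1_ok) (L (nat_lit 393) ln13_11_1 ln13_11_1_ok))))))))) (B (M (nat_lit 366) (B (M (nat_lit 367) (B (M (nat_lit 331) (B (L (nat_lit 330) ln14_11_3 ln14_11_3_ok) (L (nat_lit 332) ln15_11_3 ln15_11_3_ok))) (M (nat_lit 399) (B (L (nat_lit 398) ln11_11_0 ln11_11_0_ok) (L (nat_lit 400) ln12_11_0 ln12_11_0_ok))))) (B (M (nat_lit 335) (B (L (nat_lit 334) ln11_11_2 ln11_11_2_ok) (M (nat_lit 367) (B (L (nat_lit 336) ln12_11_2 ln12_11_2_ok) (M (nat_lit 399) (B (L (nat_lit 398) ln11_11_0 ln11_11_0_ok) (L (nat_lit 400) ln12_11_0 ln12_11_0_ok))))))) (B (M (nat_lit 367) (B (M (nat_lit 331) (B (L (nat_lit 330) ln14_11_3 ln14_11_3_ok) (L (nat_lit 332) ln15_11_3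 ln15_11_3_ok))) (M (nat_lit 335) (B (L (nat_lit 334) ln11_11_2 ln11_11_2_ok) (L (nat_lit 336) ln12_11_2 ln12_11_2_ok))))) (M (nat_lit 362) (B (M (nat_lit 330) (B (L (nat_lit 329) ln13_11_3 ln13_11_3_ok) (L (nat_lit 331) ln14_11_3 ln14_11_3_ok))) (M (nat_lit 334) (B (L (nat_lit 333) ln10_11_2 ln10_11_2_ok) (L (nat_lit 335) ln11_11_2 ln11_11_2_ok))))))))) (B (M (nat_lit 366) (B (M (nat_lit 367) (B (M (nat_lit 395) (B (L (nat_lit 394) ln14_11_1 ln14_11_1_ok) (L (nat_lit 396) ln15_11_1 ln15_11_1_ok))) (M (nat_lit 399) (B (L (nat_lit 398) ln11_11_0 ln11_11_0_ok) (L (nat_lit 400) ln12_11_0 ln12_11_0_ok))))) (B (M (nat_lit 367) (B (M (nat_lit 331) (B (L (nat_lit 330) ln14_11_3 ln14_11_3_ok) (L (nat_lit 332) ln15_11_3 ln15_11_3_ok))) (M (nat_lit 399) (B (L (nat_lit 398) ln11_11_0 ln11_11_0_ok) (L (nat_lit 400) ln12_11_0 ln12_11_0_ok))))) (B (M (nat_lit 367) (B (M (nat_lit 331) (B (L (nat_lit 330) ln14_11_3 ln14_11_3_ok) (L (nat_lit 332) ln15_11_3 ln15_11_3_ok)))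 (M (nat_lit 395) (B (L (nat_lit 394) ln14_11_1 ln14_11_1_ok) (L (nat_lit 396) ln15_11_1 ln15_11_1_ok))))) (M (nat_lit 330) (B (L (nat_lit 331) ln14_11_3 ln14_11_3_ok) (M (nat_lit 362) (B (L (nat_lit 329) ln13_11_3 ln13_11_3_ok) (M (nat_lit 394) (B (L (nat_lit 393) ln13_11_1 ln13_11_1_ok) (L (nat_lit 395) ln14_11_1 ln14_11_1_ok))))))))))) (B (M (nat_lit 362) (B (M (nat_lit 329) (B (L (nat_lit 330) ln13_11_3 ln13_11_3_ok) (M (nat_lit 361) (B (L (nat_lit 328) ln12_11_3 ln12_11_3_ok) (M (nat_lit 393) (B (L (nat_lit 392) ln12_11_1 ln12_11_1_ok) (L (nat_lit 394) ln13_11_1 ln13_11_1_ok))))))) (B (M (nat_lit 361) (B (M (nat_lit 329) (B (L (nat_lit 328) ln12_11_3 ln12_11_3_ok) (L (nat_lit 330) ln13_11_3 ln13_11_3_ok))) (M (nat_lit 333) (B (L (nat_lit 332) ln9_11_2 ln9_11_2_ok) (L (nat_lit 334) ln10_11_2 ln10_11_2_ok))))) (B (M (nat_lit 330) (B (L (nat_lit 329) ln13_11_3 ln13_11_3_ok) (M (nat_lit 298) (B (M (nat_lit 266) (B (L (nat_lit 395) ln10_8_4 ln10_8_4_ok)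 (M (nat_lit 234) (B (L (nat_lit 331) ln10_7_4 ln10_7_4_ok) (M (nat_lit 233) (B (L (nat_lit 265) ln10_11_7_c10 ln10_11_7_c10_ok) (L (nat_lit 201) ln10_10_7_c10 ln10_10_7_c10_ok))))))) (B (M (nat_lit 266) (B (M (nat_lit 394) (B (L (nat_lit 393) ln13_11_1 ln13_11_1_ok) (M (nat_lit 265) (B (L (nat_lit 297) ln10_12_7_c10 ln10_12_7_c10_ok) (L (nat_lit 233) ln10_11_7_c10 ln10_11_7_c10_ok))))) (B (M (nat_lit 234) (B (L (nat_lit 331) ln10_7_4 ln10_7_4_ok) (M (nat_lit 233) (B (L (nat_lit 265) ln10_11_7_c10 ln10_11_7_c10_ok) (L (nat_lit 201) ln10_10_7_c10 ln10_10_7_c10_ok))))) (M (nat_lit 394) (B (L (nat_lit 393) ln13_11_1 ln13_11_1_ok) (M (nat_lit 267) (B (L (nat_lit 299) ln10_12_6_c10 ln10_12_6_c10_ok) (L (nat_lit 235) ln10_11_6_c10 ln10_11_6_c10_ok)))))))) (B (M (nat_lit 266) (B (L (nat_lit 395) ln10_8_4 ln10_8_4_ok) (M (nat_lit 394) (B (L (nat_lit 393) ln13_11_1 ln13_11_1_ok) (M (nat_lit 267) (B (L (nat_lit 299) ln10_12_6_c10 ln10_12_6_c10_ok) (L (nat_lit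 235) ln10_11_6_c10 ln10_11_6_c10_ok))))))) (M (nat_lit 394) (B (L (nat_lit 393) ln13_11_1 ln13_11_1_ok) (M (nat_lit 331) (B (M (nat_lit 299) (B (L (nat_lit 426) ln10_13_6 ln10_13_6_ok) (L (nat_lit 267) ln11_8_5 ln11_8_5_ok))) (M (nat_lit 333) (B (L (nat_lit 334) ln10_11_2 ln10_11_2_ok) (M (nat_lit 297) (B (L (nat_lit 265) ln10_12_7_c10 ln10_12_7_c10_ok) (L (nat_lit 332) ln13_10_3 ln13_10_3_ok))))))))))))))) (M (nat_lit 361) (B (M (nat_lit 393) (B (L (nat_lit 392) ln12_11_1 ln12_11_1_ok) (L (nat_lit 394) ln13_11_1 ln13_11_1_ok))) (M (nat_lit 333) (B (L (nat_lit 332) ln9_11_2 ln9_11_2_ok) (L (nat_lit 334) ln10_11_2 ln10_11_2_ok))))))))) (K (nat_lit 5954262830815946494440468064139258622131906539230539000934078872806075061271132354550578193372942037532254438881195279021764289825886699520) (nat_lit 4801370867518765835061831532252961877722741521161204220707024310167238494664806136799583541226164399832778709296809508864) (nat_lit 4801370867518765835061831532252961877722741521161204220707024310167238494664806136799583541226164399832778709296809508864)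 c10_s96))))))
noncomputable def c10_d542 : Cert := (B (M (nat_lit 364) (B (K (nat_lit 5954262830815946494440468064139258622131906539230539000934078872806075061271132354550578193372942037532254438881195279021764289825886699520) (nat_lit 15983352582827860201637730999479028449478824974758954968077197393389797912932295712685821769358133946163122787931173493705601624326868604020018118656) (nat_lit 15983352582827860201637730999479028449478824974758954968077197393389797912932295712685821769358133946163122787931173493705601624326868604020018118656) c10_s99) (B (M (nat_lit 362) (B (M (nat_lit 333) (B (L (nat_lit 334) ln10_11_2 ln10_11_2_ok) (M (nat_lit 329) (B (L (nat_lit 330) ln13_11_3 ln13_11_3_ok) (M (nat_lit 361) (B (L (nat_lit 328) ln12_11_3 ln12_11_3_ok) (L (nat_lit 332) ln9_11_2 ln9_11_2_ok))))))) (B (M (nat_lit 361) (B (M (nat_lit 393) (B (L (nat_lit 392) ln12_11_1 ln12_11_1_ok) (L (nat_lit 394) ln13_11_1 ln13_11_1_ok))) (M (nat_lit 333) (B (L (nat_lit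 332) ln9_11_2 ln9_11_2_ok) (L (nat_lit 334) ln10_11_2 ln10_11_2_ok))))) (M (nat_lit 330) (B (L (nat_lit 329) ln13_11_3 ln13_11_3_ok) (M (nat_lit 394) (B (L (nat_lit 393) ln13_11_1 ln13_11_1_ok) (M (nat_lit 298) (B (M (nat_lit 395) (B (L (nat_lit 266) ln10_8_4 ln10_8_4_ok) (L (nat_lit 427) ln10_9_4 ln10_9_4_ok))) (B (M (nat_lit 426) (B (M (nat_lit 299) (B (L (nat_lit 267) ln10_12_6_c10 ln10_12_6_c10_ok) (L (nat_lit 331) ln10_13_6 ln10_13_6_ok))) (M (nat_lit 427) (B (L (nat_lit 395) ln10_9_4 ln10_9_4_ok) (L (nat_lit 459) ln10_10_4 ln10_10_4_ok))))) (M (nat_lit 266) (B (M (nat_lit 265) (B (L (nat_lit 233) ln10_11_7_c10 ln10_11_7_c10_ok) (L (nat_lit 297) ln10_12_7_c10 ln10_12_7_c10_ok))) (M (nat_lit 267) (B (L (nat_lit 235) ln10_11_6_c10 ln10_11_6_c10_ok) (L (nat_lit 299) ln10_12_6_c10 ln10_12_6_c10_ok))))))))))))))) (B (K (nat_lit 5954262830815946494440468064139258622131906539230539000934078872806075061271132354550578193372942037532254438881195279021764289825886699520)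 (nat_lit 4821544694700713978734302978614673361995407859668064121291907793656555004525976109789198547900567471604461700954890174464) (nat_lit 4821544694700713978734302978614673361995407859668064121291907793656555004525976109789198547900567471604461700954890174464) c10_s104) (B (K (nat_lit 5954262830815946494440468064139258622131906539230539000934078872806075061271132354550578193372942037532254438881195279021764289825886699520) (nat_lit 4518937287112404378400404331081442997405189228774271651122213671043646954594070811841611630557046638907243146817006731264) (nat_lit 4518937287112404378400404331081442997405189228774271651122213671043646954594070811841611630557046638907243146817006731264) c10_s133) (K (nat_lit 5954262830815946494440468064139258622131906539230539000934078872806075061271132354550578193372942037532254438881195279021764289825886699520) (nat_lit 4821544694700713978488237272076584520503501359117331717689676232681068605428076916568078835490637680241816468539796619264)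 (nat_lit 4821544694700713978488237272076584520503501359117331717689676232681068605428076916568078835490637680241816468539796619264) c10_s170)))))) (B (M (nat_lit 364) (B (K (nat_lit 5954262830815946494440468064139258622131906539230539000934078872806075061271132354550578193372942037532254438881195279021764289825886699520) (nat_lit 4465697123111959871143045369194483020717163580981524955287080423752652632612982361392167335292666438723946739240344576657172948737656356864) (nat_lit 4465697123111959871143045369194483020717163580981524955287080423752652632612982361392167335292666438723946739240344576657172948737656356864) c10_s171) (B (M (nat_lit 366) (B (M (nat_lit 335) (B (L (nat_lit 334) ln11_11_2 ln11_11_2_ok) (M (nat_lit 367) (B (L (nat_lit 336) ln12_11_2 ln12_11_2_ok) (M (nat_lit 399) (B (L (nat_lit 398) ln11_11_0 ln11_11_0_ok) (L (nat_lit 400) ln12_11_0 ln12_11_0_ok))))))) (B (M (nat_lit 367) (B (M (nat_lit 331) (B (L (nat_lit 330) ln14_11_3 ln14_11_3_ok)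 (L (nat_lit 332) ln15_11_3 ln15_11_3_ok))) (M (nat_lit 399) (B (L (nat_lit 398) ln11_11_0 ln11_11_0_ok) (L (nat_lit 400) ln12_11_0 ln12_11_0_ok))))) (B (M (nat_lit 367) (B (M (nat_lit 331) (B (L (nat_lit 330) ln14_11_3 ln14_11_3_ok) (L (nat_lit 332) ln15_11_3 ln15_11_3_ok))) (M (nat_lit 335) (B (L (nat_lit 334) ln11_11_2 ln11_11_2_ok) (L (nat_lit 336) ln12_11_2 ln12_11_2_ok))))) (M (nat_lit 331) (B (L (nat_lit 330) ln14_11_3 ln14_11_3_ok) (M (nat_lit 395) (B (L (nat_lit 394) ln14_11_1 ln14_11_1_ok) (M (nat_lit 299) (B (M (nat_lit 396) (B (L (nat_lit 267) ln11_8_4 ln11_8_4_ok) (L (nat_lit 428) ln11_9_4 ln11_9_4_ok))) (B (M (nat_lit 427) (B (M (nat_lit 300) (B (L (nat_lit 268) ln11_12_6 ln11_12_6_ok) (L (nat_lit 332) ln11_13_6 ln11_13_6_ok))) (M (nat_lit 428) (B (L (nat_lit 396) ln11_9_4 ln11_9_4_ok) (L (nat_lit 460) ln11_10_4 ln11_10_4_ok))))) (M (nat_lit 267) (B (M (nat_lit 266) (B (L (nat_lit 234) ln11_11_7 ln11_11_7_ok) (L (nat_lit 298) ln11_12_7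 ln11_12_7_ok))) (M (nat_lit 268) (B (L (nat_lit 236) ln11_11_6 ln11_11_6_ok) (L (nat_lit 300) ln11_12_6 ln11_12_6_ok)))))))))))))))) (B (K (nat_lit 5954262830815946494440468064139258622131906539230539000934078872806075061271132354550578193372942037532254438881195279021764289825886699520) (nat_lit 4821544694700713978734302978614673361995407859668064121291907793656555004525976109789198547900567471604461700954890174464) (nat_lit 4821544694700713978734302978614673361995407859668064121291907793656555004525976109789198547900567471604461700954890174464) c10_s104) (B (K (nat_lit 5954262830815946494440468064139258622131906539230539000934078872806075061271132354550578193372942037532254438881195279021764289825886699520) (nat_lit 4518937287112404378400404331081442997405189228774271651122213671043646954594070811841611630557046638907243146817006731264) (nat_lit 4518937287112404378400404331081442997405189228774271651122213671043646954594070811841611630557046638907243146817006731264)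 c10_s133) (K (nat_lit 5954262830815946494440468064139258622131906539230539000934078872806075061271132354550578193372942037532254438881195279021764289825886699520) (nat_lit 4821544694700713978488237272076584520503501359117331717689676232681068605428076916568078835490637680241816468539796619264) (nat_lit 4821544694700713978488237272076584520503501359117331717689676232681068605428076916568078835490637680241816468539796619264) c10_s170)))))) (M (nat_lit 364) (B (K (nat_lit 5954262830815946494440468064139258622131906539230539000934078872806075061271132354550578193372942037532254438881195279021764289825886699520) (nat_lit 15983352582827860201637731003977791908958361033053514131333437825707477749035817792518146240508169367972354449516224724835037563393460168763692285952) (nat_lit 15983352582827860201637731003977791908958361033053514131333437825707477749035817792518146240508169367972354449516224724835037563393460168763692285952) c10_s102) (B (M (nat_lit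 362) (B (M (nat_lit 333) (B (L (nat_lit 334) ln10_11_2 ln10_11_2_ok) (M (nat_lit 361) (B (L (nat_lit 332) ln9_11_2 ln9_11_2_ok) (M (nat_lit 393) (B (L (nat_lit 394) ln13_11_1 ln13_11_1_ok) (L (nat_lit 392) ln12_11_1 ln12_11_1_ok))))))) (B (M (nat_lit 393) (B (L (nat_lit 394) ln13_11_1 ln13_11_1_ok) (M (nat_lit 361) (B (L (nat_lit 392) ln12_11_1 ln12_11_1_ok) (M (nat_lit 329) (B (L (nat_lit 330) ln13_11_3 ln13_11_3_ok) (L (nat_lit 328) ln12_11_3 ln12_11_3_ok))))))) (B (M (nat_lit 361) (B (M (nat_lit 333) (B (L (nat_lit 334) ln10_11_2 ln10_11_2_ok) (L (nat_lit 332) ln9_11_2 ln9_11_2_ok))) (M (nat_lit 329) (B (L (nat_lit 330) ln13_11_3 ln13_11_3_ok) (L (nat_lit 328) ln12_11_3 ln12_11_3_ok))))) (M (nat_lit 394) (B (L (nat_lit 393) ln13_11_1 ln13_11_1_ok) (M (nat_lit 330) (B (L (nat_lit 329) ln13_11_3 ln13_11_3_ok) (M (nat_lit 333) (B (L (nat_lit 334) ln10_11_2 ln10_11_2_ok) (M (nat_lit 331) (B (M (nat_lit 426) (B (L (nat_lit 458) ln10_14_6 ln10_14_6_ok)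 (L (nat_lit 299) ln10_13_6 ln10_13_6_ok))) (M (nat_lit 298) (B (M (nat_lit 395) (B (L (nat_lit 427) ln10_9_4 ln10_9_4_ok) (L (nat_lit 266) ln10_8_4 ln10_8_4_ok))) (M (nat_lit 297) (B (L (nat_lit 332) ln13_10_3 ln13_10_3_ok) (L (nat_lit 265) ln10_12_7_c10 ln10_12_7_c10_ok))))))))))))))))) (B (K (nat_lit 5954262830815946494440468064139258622131906539230539000934078872806075061271132354550578193372942037532254438881195279021764289825886699520) (nat_lit 4518937287112404378400404331081442997405189228774271651122213671043646954594070811841611630557046638907243146817006731264) (nat_lit 4518937287112404378400404331081442997405189228774271651122213671043646954594070811841611630557046638907243146817006731264) c10_s133) (K (nat_lit 5954262830815946494440468064139258622131906539230539000934078872806075061271132354550578193372942037532254438881195279021764289825886699520) (nat_lit 4821544694700713978734302978614673361995407859668064121291907793656555004525976109789198547900567471604461700954890174464)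 (nat_lit 4821544694700713978734302978614673361995407859668064121291907793656555004525976109789198547900567471604461700954890174464) c10_s104)))))))
noncomputable def c10_d543 : Cert := (B (M (nat_lit 364) (B (M (nat_lit 395) (B (M (nat_lit 394) (B (L (nat_lit 366) ln14_11_1 ln14_11_1_ok) (M (nat_lit 393) (B (L (nat_lit 392) ln8_12_2 ln8_12_2_ok) (L (nat_lit 396) ln9_12_2 ln9_12_2_ok))))) (B (M (nat_lit 366) (B (L (nat_lit 394) ln14_11_1 ln14_11_1_ok) (M (nat_lit 367) (B (L (nat_lit 396) ln15_11_1 ln15_11_1_ok) (M (nat_lit 335) (B (L (nat_lit 334) ln11_11_2 ln11_11_2_ok) (L (nat_lit 336) ln12_11_2 ln12_11_2_ok))))))) (B (M (nat_lit 331) (B (M (nat_lit 366) (B (L (nat_lit 330) ln14_11_3 ln14_11_3_ok) (M (nat_lit 367) (B (L (nat_lit 332) ln15_11_3 ln15_11_3_ok) (L (nat_lit 396) ln15_11_1 ln15_11_1_ok))))) (B (M (nat_lit 332) (B (M (nat_lit 427) (B (L (nat_lit 300) ln11_13_6 ln11_13_6_ok) (L (nat_lit 459) ln11_14_6 ln11_14_6_ok))) (M (nat_lit 299) (B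 (M (nat_lit 267) (B (L (nat_lit 235) ln11_7_4 ln11_7_4_ok) (L (nat_lit 396) ln11_8_4 ln11_8_4_ok))) (B (M (nat_lit 396) (B (L (nat_lit 267) ln11_8_4 ln11_8_4_ok) (L (nat_lit 428) ln11_9_4 ln11_9_4_ok))) (M (nat_lit 334) (B (M (nat_lit 298) (B (L (nat_lit 266) ln11_12_7 ln11_12_7_ok) (L (nat_lit 333) ln14_10_3 ln14_10_3_ok))) (B (M (nat_lit 333) (B (L (nat_lit 298) ln14_10_3 ln14_10_3_ok) (L (nat_lit 335) ln15_10_1 ln15_10_1_ok))) (M (nat_lit 366) (B (L (nat_lit 367) ln15_11_3 ln15_11_3_ok) (L (nat_lit 335) ln11_11_2 ln11_11_2_ok))))))))))) (B (M (nat_lit 396) (B (M (nat_lit 299) (B (L (nat_lit 267) ln11_8_4 ln11_8_4_ok) (L (nat_lit 428) ln11_9_4 ln11_9_4_ok))) (M (nat_lit 366) (B (L (nat_lit 330) ln14_11_3 ln14_11_3_ok) (L (nat_lit 367) ln15_11_1 ln15_11_1_ok))))) (B (M (nat_lit 427) (B (M (nat_lit 330) (B (L (nat_lit 298) ln11_13_7 ln11_13_7_ok) (L (nat_lit 366) ln14_11_3 ln14_11_3_ok))) (M (nat_lit 332) (B (L (nat_lit 300) ln11_13_6 ln11_13_6_ok)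 (L (nat_lit 459) ln11_14_6 ln11_14_6_ok))))) (M (nat_lit 427) (B (M (nat_lit 332) (B (L (nat_lit 300) ln11_13_6 ln11_13_6_ok) (L (nat_lit 459) ln11_14_6 ln11_14_6_ok))) (M (nat_lit 299) (B (M (nat_lit 298) (B (L (nat_lit 266) ln11_12_7 ln11_12_7_ok) (L (nat_lit 330) ln11_13_7 ln11_13_7_ok))) (M (nat_lit 396) (B (L (nat_lit 267) ln11_8_4 ln11_8_4_ok) (L (nat_lit 428) ln11_9_4 ln11_9_4_ok)))))))))))) (B (M (nat_lit 366) (B (L (nat_lit 394) ln14_11_1 ln14_11_1_ok) (M (nat_lit 367) (B (M (nat_lit 331) (B (L (nat_lit 330) ln14_11_3 ln14_11_3_ok) (L (nat_lit 332) ln15_11_3 ln15_11_3_ok))) (M (nat_lit 335) (B (L (nat_lit 334) ln11_11_2 ln11_11_2_ok) (L (nat_lit 336) ln12_11_2 ln12_11_2_ok))))))) (M (nat_lit 427) (B (M (nat_lit 332) (B (L (nat_lit 459) ln11_14_6 ln11_14_6_ok) (M (nat_lit 300) (B (L (nat_lit 331) ln11_13_6 ln11_13_6_ok) (L (nat_lit 396) ln12_9_5 ln12_9_5_ok))))) (B (M (nat_lit 459) (B (L (nat_lit 332) ln11_14_6 ln11_14_6_ok) (M (nat_lit 491)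 (B (L (nat_lit 396) ln11_15_6 ln11_15_6_ok) (M (nat_lit 492) (B (L (nat_lit 460) ln11_11_4 ln11_11_4_ok) (L (nat_lit 524) ln11_12_4 ln11_12_4_ok))))))) (B (M (nat_lit 331) (B (M (nat_lit 330) (B (L (nat_lit 298) ln11_13_7 ln11_13_7_ok) (M (nat_lit 332) (B (L (nat_lit 329) ln9_10_0 ln9_10_0_ok) (L (nat_lit 300) ln11_13_6 ln11_13_6_ok))))) (M (nat_lit 299) (B (M (nat_lit 426) (B (L (nat_lit 394) ln11_9_5 ln11_9_5_ok) (L (nat_lit 458) ln11_10_5 ln11_10_5_ok))) (M (nat_lit 396) (B (L (nat_lit 267) ln11_8_4 ln11_8_4_ok) (L (nat_lit 428) ln11_9_4 ln11_9_4_ok))))))) (B (M (nat_lit 459) (B (M (nat_lit 491) (B (L (nat_lit 396) ln11_15_6 ln11_15_6_ok) (M (nat_lit 492) (B (L (nat_lit 460) ln11_11_4 ln11_11_4_ok) (L (nat_lit 524) ln11_12_4 ln11_12_4_ok))))) (B (M (nat_lit 331) (B (M (nat_lit 458) (B (L (nat_lit 426) ln11_10_5 ln11_10_5_ok) (L (nat_lit 490) ln11_11_5 ln11_11_5_ok))) (M (nat_lit 460) (B (L (nat_lit 428) ln11_10_4 ln11_10_4_ok) (L (nat_lit 492)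 ln11_11_4 ln11_11_4_ok))))) (M (nat_lit 491) (B (L (nat_lit 396) ln11_15_6 ln11_15_6_ok) (M (nat_lit 490) (B (L (nat_lit 458) ln11_11_5 ln11_11_5_ok) (L (nat_lit 522) ln11_12_5 ln11_12_5_ok)))))))) (M (nat_lit 332) (B (L (nat_lit 459) ln11_14_6 ln11_14_6_ok) (M (nat_lit 331) (B (L (nat_lit 300) ln11_13_6 ln11_13_6_ok) (M (nat_lit 330) (B (L (nat_lit 329) ln9_10_0 ln9_10_0_ok) (L (nat_lit 298) ln11_13_7 ln11_13_7_ok))))))))))))))))) (B (K (nat_lit 5954262830815946494440468064139258622131906539230539000934078872806075061271132354550578193372942037532254438881195279021764289825886699520) (nat_lit 4465697123111959871143045369194483020717163580981524955287080423752652632612982361392167335292666438723946739240344576657172948737656356864) (nat_lit 4465697123111959871143045369194483020717163580981524955287080423752652632612982361392167335292666438723946739240344576657172948737656356864) c10_s171) (B (K (nat_lit 5954262830815946494440468064139258622131906539230539000934078872806075061271132354550578193372942037532254438881195279021764289825886699520)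 (nat_lit 4821544694700713978734302978614673361995407859668064121291907793656555004525976109789198547900567471604461700954890174464) (nat_lit 4821544694700713978734302978614673361995407859668064121291907793656555004525976109789198547900567471604461700954890174464) c10_s104) (B (K (nat_lit 5954262830815946494440468064139258622131906539230539000934078872806075061271132354550578193372942037532254438881195279021764289825886699520) (nat_lit 4518937287112404378400404331081442997405189228774271651122213671043646954594070811841611630557046638907243146817006731264) (nat_lit 4518937287112404378400404331081442997405189228774271651122213671043646954594070811841611630557046638907243146817006731264) c10_s133) (K (nat_lit 5954262830815946494440468064139258622131906539230539000934078872806075061271132354550578193372942037532254438881195279021764289825886699520) (nat_lit 4821544694700713978488237272076584520503501359117331717689676232681068605428076916568078835490637680241816468539796619264)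 (nat_lit 4821544694700713978488237272076584520503501359117331717689676232681068605428076916568078835490637680241816468539796619264) c10_s170)))))) (B (M (nat_lit 364) (B (M (nat_lit 366) (B (M (nat_lit 330) (B (L (nat_lit 331) ln14_11_3 ln14_11_3_ok) (M (nat_lit 362) (B (L (nat_lit 329) ln13_11_3 ln13_11_3_ok) (M (nat_lit 394) (B (L (nat_lit 393) ln13_11_1 ln13_11_1_ok) (L (nat_lit 395) ln14_11_1 ln14_11_1_ok))))))) (M (nat_lit 335) (B (L (nat_lit 334) ln11_11_2 ln11_11_2_ok) (M (nat_lit 367) (B (L (nat_lit 336) ln12_11_2 ln12_11_2_ok) (M (nat_lit 399) (B (L (nat_lit 398) ln11_11_0 ln11_11_0_ok) (L (nat_lit 400) ln12_11_0 ln12_11_0_ok))))))))) (B (M (nat_lit 366) (B (M (nat_lit 362) (B (M (nat_lit 394) (B (L (nat_lit 393) ln13_11_1 ln13_11_1_ok) (L (nat_lit 395) ln14_11_1 ln14_11_1_ok))) (M (nat_lit 334) (B (L (nat_lit 333) ln10_11_2 ln10_11_2_ok) (L (nat_lit 335) ln11_11_2 ln11_11_2_ok))))) (M (nat_lit 367) (B (M (nat_lit 331) (B (L (nat_lit 330)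 ln14_11_3 ln14_11_3_ok) (L (nat_lit 332) ln15_11_3 ln15_11_3_ok))) (M (nat_lit 399) (B (L (nat_lit 398) ln11_11_0 ln11_11_0_ok) (L (nat_lit 400) ln12_11_0 ln12_11_0_ok))))))) (B (M (nat_lit 366) (B (M (nat_lit 367) (B (M (nat_lit 395) (B (L (nat_lit 394) ln14_11_1 ln14_11_1_ok) (L (nat_lit 396) ln15_11_1 ln15_11_1_ok))) (M (nat_lit 399) (B (L (nat_lit 398) ln11_11_0 ln11_11_0_ok) (L (nat_lit 400) ln12_11_0 ln12_11_0_ok))))) (B (M (nat_lit 367) (B (M (nat_lit 331) (B (L (nat_lit 330) ln14_11_3 ln14_11_3_ok) (L (nat_lit 332) ln15_11_3 ln15_11_3_ok))) (M (nat_lit 399) (B (L (nat_lit 398) ln11_11_0 ln11_11_0_ok) (L (nat_lit 400) ln12_11_0 ln12_11_0_ok))))) (B (M (nat_lit 367) (B (M (nat_lit 331) (B (L (nat_lit 330) ln14_11_3 ln14_11_3_ok) (L (nat_lit 332) ln15_11_3 ln15_11_3_ok))) (M (nat_lit 395) (B (L (nat_lit 394) ln14_11_1 ln14_11_1_ok) (L (nat_lit 396) ln15_11_1 ln15_11_1_ok))))) (M (nat_lit 362) (B (M (nat_lit 330) (B (L (nat_lit 329) ln13_11_3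 ln13_11_3_ok) (L (nat_lit 331) ln14_11_3 ln14_11_3_ok))) (M (nat_lit 334) (B (L (nat_lit 333) ln10_11_2 ln10_11_2_ok) (L (nat_lit 335) ln11_11_2 ln11_11_2_ok))))))))) c10_d541)))) c10_d542))
noncomputable def c10_d544 : Cert := (B (M (nat_lit 364) (B (K (nat_lit 5954262830815946494440468064139258622131906539230539000934078872806075061271132354550578193372942037532254438881195279021764289825886699520) (nat_lit 235872651647453501779302391019306320913314558527109145960185757239953768458770608157000334790707753547796081634533356559677852962308789462047525934169661261862171312128) (nat_lit 235872651647453501779302391019306320913314558527109145960185757239953768458770608157000334790707753547796081634533356559677852962308789462047525934169661261862171312128) c10_s101) (B (K (nat_lit 5954262830815946494440468064139258622131906539230539000934078872806075061271132354550578193372942037532254438881195279021764289825886699520) (nat_lit 27459190651710785666865109342079193932125457722187829790530725860667425186997309106495203256817714207976975708281101976130750023171960336447294857510930874368)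 (nat_lit 27459190651710785666865109342079193932125457722187829790530725860667425186997309106495203256817714207976975708281101976130750023171960336447294857510930874368) c10_s128) (B (M (nat_lit 396) (B (M (nat_lit 331) (B (M (nat_lit 330) (B (L (nat_lit 366) ln14_11_3 ln14_11_3_ok) (M (nat_lit 329) (B (L (nat_lit 328) ln8_10_0 ln8_10_0_ok) (L (nat_lit 332) ln9_10_0 ln9_10_0_ok))))) (M (nat_lit 299) (B (L (nat_lit 267) ln11_8_4 ln11_8_4_ok) (M (nat_lit 428) (B (L (nat_lit 395) ln11_9_4 ln11_9_4_ok) (L (nat_lit 460) ln12_14_7 ln12_14_7_ok))))))) (B (M (nat_lit 331) (B (M (nat_lit 299) (B (L (nat_lit 267) ln11_8_4 ln11_8_4_ok) (M (nat_lit 428) (B (L (nat_lit 395) ln11_9_4 ln11_9_4_ok) (L (nat_lit 460) ln12_14_7 ln12_14_7_ok))))) (B (M (nat_lit 428) (B (L (nat_lit 460) ln12_14_7 ln12_14_7_ok) (M (nat_lit 299) (B (L (nat_lit 395) ln11_9_4 ln11_9_4_ok) (L (nat_lit 332) ln12_10_4 ln12_10_4_ok))))) (B (M (nat_lit 366) (B (L (nat_lit 330) ln14_11_3 ln14_11_3_ok)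 (M (nat_lit 367) (B (L (nat_lit 332) ln15_11_3 ln15_11_3_ok) (L (nat_lit 395) ln15_11_1 ln15_11_1_ok))))) (M (nat_lit 299) (B (L (nat_lit 267) ln11_8_4 ln11_8_4_ok) (M (nat_lit 428) (B (L (nat_lit 332) ln12_10_4 ln12_10_4_ok) (L (nat_lit 460) ln12_14_7 ln12_14_7_ok))))))))) (B (M (nat_lit 428) (B (M (nat_lit 460) (B (L (nat_lit 331) ln12_14_7 ln12_14_7_ok) (L (nat_lit 333) ln12_14_6 ln12_14_6_ok))) (B (M (nat_lit 333) (B (L (nat_lit 460) ln12_14_6 ln12_14_6_ok) (L (nat_lit 332) ln12_10_4 ln12_10_4_ok))) (L (nat_lit 332) ln12_10_4 ln12_10_4_ok)))) (B (M (nat_lit 362) (B (M (nat_lit 333) (B (L (nat_lit 334) ln10_11_2 ln10_11_2_ok) (M (nat_lit 428) (B (L (nat_lit 460) ln12_14_6 ln12_14_6_ok) (L (nat_lit 332) ln12_10_4 ln12_10_4_ok))))) (M (nat_lit 361) (B (M (nat_lit 329) (B (L (nat_lit 328) ln12_11_3 ln12_11_3_ok) (L (nat_lit 330) ln13_11_3 ln13_11_3_ok))) (M (nat_lit 360) (B (L (nat_lit 395) ln8_11_0 ln8_11_0_ok) (M (nat_lit 392) (B (L (nat_lit 391)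 ln11_11_1 ln11_11_1_ok) (L (nat_lit 393) ln12_11_1 ln12_11_1_ok))))))))) (B (M (nat_lit 331) (B (M (nat_lit 299) (B (L (nat_lit 267) ln11_8_4 ln11_8_4_ok) (M (nat_lit 428) (B (L (nat_lit 395) ln11_9_4 ln11_9_4_ok) (L (nat_lit 460) ln12_14_7 ln12_14_7_ok))))) (M (nat_lit 330) (B (L (nat_lit 366) ln14_11_3 ln14_11_3_ok) (M (nat_lit 329) (B (L (nat_lit 328) ln8_10_0 ln8_10_0_ok) (L (nat_lit 362) ln13_11_3 ln13_11_3_ok))))))) (M (nat_lit 362) (B (M (nat_lit 329) (B (L (nat_lit 330) ln13_11_3 ln13_11_3_ok) (M (nat_lit 361) (B (L (nat_lit 328) ln12_11_3 ln12_11_3_ok) (M (nat_lit 333) (B (L (nat_lit 332) ln9_11_2 ln9_11_2_ok) (L (nat_lit 334) ln10_11_2 ln10_11_2_ok))))))) (B (M (nat_lit 366) (B (M (nat_lit 330) (B (L (nat_lit 329) ln13_11_3 ln13_11_3_ok) (L (nat_lit 331) ln14_11_3 ln14_11_3_ok))) (M (nat_lit 367) (B (L (nat_lit 395) ln15_11_1 ln15_11_1_ok) (M (nat_lit 399) (B (L (nat_lit 398) ln11_11_0 ln11_11_0_ok) (L (nat_lit 400) ln12_11_0 ln12_11_0_ok)))))))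 (M (nat_lit 361) (B (M (nat_lit 333) (B (L (nat_lit 332) ln9_11_2 ln9_11_2_ok) (L (nat_lit 334) ln10_11_2 ln10_11_2_ok))) (M (nat_lit 360) (B (L (nat_lit 395) ln8_11_0 ln8_11_0_ok) (M (nat_lit 392) (B (L (nat_lit 391) ln11_11_1 ln11_11_1_ok) (L (nat_lit 393) ln12_11_1 ln12_11_1_ok)))))))))))))))) (B (K (nat_lit 5954262830815946494440468064139258622131906539230539000934078872806075061271132354550578193372942037532254438881195279021764289825886699520) (nat_lit 744282853851993311883232088763148421742472137758475090320839436871003032867473360429385605588587145044116530626020384124405271106548662272) (nat_lit 744282853851993311883232088763148421742472137758475090320839436871003032867473360429385605588587145044116530626020384124405271106548662272) c10_s12) (B (K (nat_lit 5954262830815946494440468064139258622131906539230539000934078872806075061271132354550578193372942037532254438881195279021764289825886699520) (nat_lit 15983352582827860201637731003977791908958361033053514131333437825707477749035817792518146240508169367972354449516224724835037563393460168763692285952)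 (nat_lit 15983352582827860201637731003977791908958361033053514131333437825707477749035817792518146240508169367972354449516224724835037563393460168763692285952) c10_s102) (B (K (nat_lit 5954262830815946494440468064139258622131906539230539000934078872806075061271132354550578193372942037532254438881195279021764289825886699520) (nat_lit 744282854545160735647956544229858558388311722617879492226777641007293024585298587663140550842391074989692057281377201539001768657933041664) (nat_lit 744282854545160735647956544229858558388311722617879492226777641007293024585298587663140550842391074989692057281377201539001768657933041664) c10_s131) (K (nat_lit 5954262830815946494440468064139258622131906539230539000934078872806075061271132354550578193372942037532254438881195279021764289825886699520) (nat_lit 4821544694700713978488237272076584520503501359117331717689676232681068605428076916568078835490637680241816468539796619264) (nat_lit 4821544694700713978488237272076584520503501359117331717689676232681068605428076916568078835490637680241816468539796619264)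 c10_s170)))))))) (B (M (nat_lit 364) (B (K (nat_lit 5954262830815946494440468064139258622131906539230539000934078872806075061271132354550578193372942037532254438881195279021764289825886699520) (nat_lit 15983352582827860201637731003816401291577929246444991264259456178086030721241062311557964408385384557835882340331484598743287987424207915016408530944) (nat_lit 15983352582827860201637731003816401291577929246444991264259456178086030721241062311557964408385384557835882340331484598743287987424207915016408530944) c10_s98) (B (K (nat_lit 5954262830815946494440468064139258622131906539230539000934078872806075061271132354550578193372942037532254438881195279021764289825886699520) (nat_lit 27459190651710785666865109342079193932125457722187829790530725860667425186997309106495203256817714207976975708281101976130750023171960336447294857510930874368) (nat_lit 27459190651710785666865109342079193932125457722187829790530725860667425186997309106495203256817714207976975708281101976130750023171960336447294857510930874368)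 c10_s128) (B (K (nat_lit 5954262830815946494440468064139258622131906539230539000934078872806075061271132354550578193372942037532254438881195279021764289825886699520) (nat_lit 744282853851993311883232088763148421742472137758475090320839436871003032867473360429385605588587145044116530626020384124405271106548662272) (nat_lit 744282853851993311883232088763148421742472137758475090320839436871003032867473360429385605588587145044116530626020384124405271106548662272) c10_s12) (B (K (nat_lit 5954262830815946494440468064139258622131906539230539000934078872806075061271132354550578193372942037532254438881195279021764289825886699520) (nat_lit 4660154077921509093364000933825115750493786825058173647217846174513521483343222306813119176739982174438169306403858022400) (nat_lit 4660154077921509093364000933825115750493786825058173647217846174513521483343222306813119176739982174438169306403858022400) c10_s103) (B (K (nat_lit 5954262830815946494440468064139258622131906539230539000934078872806075061271132354550578193372942037532254438881195279021764289825886699520)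 (nat_lit 4660154077320282191870965402102961566190124987594208355595902321433745072186007567396000924824161665485211943409989713920) (nat_lit 4660154077320282191870965402102961566190124987594208355595902321433745072186007567396000924824161665485211943409989713920) c10_s132) (K (nat_lit 5954262830815946494440468064139258622131906539230539000934078872806075061271132354550578193372942037532254438881195279021764289825886699520) (nat_lit 4518937287112404378400404331081442997405189228774271651122213671043646954594070811841611630557046638907243146817006731264) (nat_lit 4518937287112404378400404331081442997405189228774271651122213671043646954594070811841611630557046638907243146817006731264) c10_s133))))))) (B (M (nat_lit 364) (B (M (nat_lit 362) c10_d540) (B (K (nat_lit 5954262830815946494440468064139258622131906539230539000934078872806075061271132354550578193372942037532254438881195279021764289825886699520) (nat_lit 15983352582827860201637731003977791908958361033053514131333437825707477749035817792518146240508169367972354449516224724835037563393460168763692285952)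 (nat_lit 15983352582827860201637731003977791908958361033053514131333437825707477749035817792518146240508169367972354449516224724835037563393460168763692285952) c10_s102) (B (K (nat_lit 5954262830815946494440468064139258622131906539230539000934078872806075061271132354550578193372942037532254438881195279021764289825886699520) (nat_lit 4821544694700713978734302978614673361995407859668064121291907793656555004525976109789198547900567471604461700954890174464) (nat_lit 4821544694700713978734302978614673361995407859668064121291907793656555004525976109789198547900567471604461700954890174464) c10_s104) (K (nat_lit 5954262830815946494440468064139258622131906539230539000934078872806075061271132354550578193372942037532254438881195279021764289825886699520) (nat_lit 4518937287112404378400404331081442997405189228774271651122213671043646954594070811841611630557046638907243146817006731264) (nat_lit 4518937287112404378400404331081442997405189228774271651122213671043646954594070811841611630557046638907243146817006731264)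 c10_s133))))) c10_d543)))
noncomputable def c10_d545 : Cert := (B (M (nat_lit 364) (B (M (nat_lit 396) (B (M (nat_lit 366) (B (M (nat_lit 332) c10_d537) (B (M (nat_lit 367) (B (M (nat_lit 399) (B (L (nat_lit 398) ln11_11_0 ln11_11_0_ok) (L (nat_lit 400) ln12_11_0 ln12_11_0_ok))) (M (nat_lit 368) (B (M (nat_lit 332) (B (L (nat_lit 331) ln15_11_3 ln15_11_3_ok) (L (nat_lit 333) ln16_11_3 ln16_11_3_ok))) (M (nat_lit 336) (B (L (nat_lit 335) ln12_11_2 ln12_11_2_ok) (L (nat_lit 337) ln13_11_2 ln13_11_2_ok))))))) (M (nat_lit 367) (B (L (nat_lit 395) ln15_11_1 ln15_11_1_ok) (M (nat_lit 336) (B (L (nat_lit 335) ln12_11_2 ln12_11_2_ok) (M (nat_lit 400) (B (L (nat_lit 399) ln12_11_0 ln12_11_0_ok) (M (nat_lit 368) (B (L (nat_lit 337) ln13_11_2 ln13_11_2_ok) (L (nat_lit 401) ln13_11_0 ln13_11_0_ok)))))))))))) (B (M (nat_lit 428) (B (K (nat_lit 5954262831509113918132062396414293955021172413339836511923639628650521425976703891285775075508988213722642167985551696226859131031426957312)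 (nat_lit 235872651633723906455844501001065294322430781789074754461075905812763032024228461904820731319185867125875249084486344246938500959097280347339689827541613683510666592256) (nat_lit 235872651633723906455844501001065294322430781789074754461075905812763032024228461904820731319185867125875249084486344246938500959097280347339689827541613683510666592256) c10_s95) (L (nat_lit 332) ln12_10_4 ln12_10_4_ok))) (B (M (nat_lit 331) (B (M (nat_lit 330) (B (L (nat_lit 366) ln14_11_3 ln14_11_3_ok) (M (nat_lit 329) (B (L (nat_lit 328) ln8_10_0 ln8_10_0_ok) (L (nat_lit 362) ln13_11_3 ln13_11_3_ok))))) (M (nat_lit 428) (B (L (nat_lit 460) ln12_14_7 ln12_14_7_ok) (M (nat_lit 299) (B (L (nat_lit 267) ln11_8_4 ln11_8_4_ok) (L (nat_lit 395) ln11_9_4 ln11_9_4_ok))))))) (M (nat_lit 428) (B (M (nat_lit 460) (B (L (nat_lit 333) ln12_14_6 ln12_14_6_ok) (L (nat_lit 331) ln12_14_7 ln12_14_7_ok))) (L (nat_lit 332) ln12_10_4 ln12_10_4_ok))))))) (B (K (nat_lit 5954262830815946494440468064139258622131906539230539000934078872806075061271132354550578193372942037532254438881195279021764289825886699520)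 (nat_lit 235872651647453501779302391019306320913314558527109145960185757239953768458770608157000334790707753547796081634533356559677852962308789462047525934169661261862171312128) (nat_lit 235872651647453501779302391019306320913314558527109145960185757239953768458770608157000334790707753547796081634533356559677852962308789462047525934169661261862171312128) c10_s101) (B (K (nat_lit 5954262830815946494440468064139258622131906539230539000934078872806075061271132354550578193372942037532254438881195279021764289825886699520) (nat_lit 1266331655955072354700736160289015961684087061612632756657988315301429785967240978062814924872108992212039953402221460238830204124710577939134653434423780434803208655258477658112) (nat_lit 1266331655955072354700736160289015961684087061612632756657988315301429785967240978062814924872108992212039953402221460238830204124710577939134653434423780434803208655258477658112) c10_s127) (B (K (nat_lit 5954262830815946494440468064139258622131906539230539000934078872806075061271132354550578193372942037532254438881195279021764289825886699520)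 (nat_lit 744282853851993311883232088763148421742472137758475090320839436871003032867473360429385605588587145044116530626020384124405271106548662272) (nat_lit 744282853851993311883232088763148421742472137758475090320839436871003032867473360429385605588587145044116530626020384124405271106548662272) c10_s12) (B (K (nat_lit 5954262830815946494440468064139258622131906539230539000934078872806075061271132354550578193372942037532254438881195279021764289825886699520) (nat_lit 15983352582827860201637731003977791908958361033053514131333437825707477749035817792518146240508169367972354449516224724835037563393460168763692285952) (nat_lit 15983352582827860201637731003977791908958361033053514131333437825707477749035817792518146240508169367972354449516224724835037563393460168763692285952) c10_s102) (B (K (nat_lit 5954262830815946494440468064139258622131906539230539000934078872806075061271132354550578193372942037532254438881195279021764289825886699520) (nat_lit 744282854545160735647956544229858558388311722617879492226777641007293024585298587663140550842391074989692057281377201539001768657933041664)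 (nat_lit 744282854545160735647956544229858558388311722617879492226777641007293024585298587663140550842391074989692057281377201539001768657933041664) c10_s131) (K (nat_lit 5954262830815946494440468064139258622131906539230539000934078872806075061271132354550578193372942037532254438881195279021764289825886699520) (nat_lit 4821544694700713978488237272076584520503501359117331717689676232681068605428076916568078835490637680241816468539796619264) (nat_lit 4821544694700713978488237272076584520503501359117331717689676232681068605428076916568078835490637680241816468539796619264) c10_s170)))))))) (B (M (nat_lit 364) (B (M (nat_lit 362) c10_d539) (B (K (nat_lit 5954262830815946494440468064139258622131906539230539000934078872806075061271132354550578193372942037532254438881195279021764289825886699520) (nat_lit 1266331655955072354700736160289015961684087061612632756667671752346049979712771479027338472714400561153852659696447429146114433692238467194990447083022316136162895271134033346560)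 (nat_lit 1266331655955072354700736160289015961684087061612632756667671752346049979712771479027338472714400561153852659696447429146114433692238467194990447083022316136162895271134033346560) c10_s91) (B (K (nat_lit 5954262830815946494440468064139258622131906539230539000934078872806075061271132354550578193372942037532254438881195279021764289825886699520) (nat_lit 4821544694700713978734302978614673361995407859668064121291907793656555004525976109789198547900567471604461700954890174464) (nat_lit 4821544694700713978734302978614673361995407859668064121291907793656555004525976109789198547900567471604461700954890174464) c10_s104) (B (K (nat_lit 5954262830815946494440468064139258622131906539230539000934078872806075061271132354550578193372942037532254438881195279021764289825886699520) (nat_lit 4518937287112404378400404331081442997405189228774271651122213671043646954594070811841611630557046638907243146817006731264) (nat_lit 4518937287112404378400404331081442997405189228774271651122213671043646954594070811841611630557046638907243146817006731264)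 c10_s133) (K (nat_lit 5954262830815946494440468064139258622131906539230539000934078872806075061271132354550578193372942037532254438881195279021764289825886699520) (nat_lit 4821544694700713978488237272076584520503501359117331717689676232681068605428076916568078835490637680241816468539796619264) (nat_lit 4821544694700713978488237272076584520503501359117331717689676232681068605428076916568078835490637680241816468539796619264) c10_s170)))))) c10_d544))
noncomputable def c10_d546 : Cert := (B (M (nat_lit 364) (B (K (nat_lit 5954262830815946494440468064139258622131906539230539000934078872806075061271132354550578193372942037532254438881195279021764289825886699520) (nat_lit 1022934565303960184320222757214765703170055751797958725344360827256698679490218467398144280845078363230734675539503060666911533003633672816750976040960) (nat_lit 1022934565303960184320222757214765703170055751797958725344360827256698679490218467398144280845078363230734675539503060666911533003633672816750976040960)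 c10_s106) c10_d531)) (B (M (nat_lit 364) (B (K (nat_lit 5954262830815946494440468064139258622131906539230539000934078872806075061271132354550578193372942037532254438881195279021764289825886699520) (nat_lit 344728266524137510402434499354379170964440561339356860303318163716471329896373728313815168605558726580159496631755975209073653187647439652421990634898266318141996714889153870129268120082891256833643113139008589266944) (nat_lit 344728266524137510402434499354379170964440561339356860303318163716471329896373728313815168605558726580159496631755975209073653187647439652421990634898266318141996714889153870129268120082891256833643113139008589266944) c10_s9) (B (M (nat_lit 362) c10_d534) c10_d535))) (B (M (nat_lit 364) (B (K (nat_lit 5954262830815946494440468064139258622131906539230539000934078872806075061271132354550578193372942037532254438881195279021764289825886699520) (nat_lit 1022934565303960184320222757214765703170055751797958725344360827256698679490218467398144280845078363230734675539503060666911533003633672816750976040960)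 (nat_lit 1022934565303960184320222757214765703170055751797958725344360827256698679490218467398144280845078363230734675539503060666911533003633672816750976040960) c10_s106) (B (M (nat_lit 428) (B (M (nat_lit 332) (B (M (nat_lit 331) (B (K (nat_lit 5954262831509113917970671779033862168180800969438346341324268029961400684616906698087343873751490262696749051400739337301456261845268561920) (nat_lit 80695308704307148975884490952281127340191295835282767685890863300741437080018462530495804253707833613455061864694153216) (nat_lit 80695308704307148975884490952281127340191295835282767685890863300741437080018462530495804253707833613455061864694153216) c10_s114) c10_d536)) (L (nat_lit 396) ln12_10_4 ln12_10_4_ok))) (B (K (nat_lit 5954262831509113917970671779033862168167677465089648269778033016598694956424787681501984599132935639058289333405543081762115182783130238976) (nat_lit 68647976623682790847425841320481920666319772899539512993323513874757450278206072911001256700125491818404479113874132195384113671816576262766252919808445120512)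 (nat_lit 68647976623682790847425841320481920666319772899539512993323513874757450278206072911001256700125491818404479113874132195384113671816576262766252919808445120512) c10_s93) (B (K (nat_lit 5954262831509113917970671779033862168167677465089648269778033016598694956424787681501984599132935639058289333405543081762115182783130238976) (nat_lit 235872651633723906455844501024882345640149228378756387615330470181321021580930254370118953782443117031057694784684549497976009591269519395912227312378866484279454466048) (nat_lit 235872651633723906455844501024882345640149228378756387615330470181321021580930254370118953782443117031057694784684549497976009591269519395912227312378866484279454466048) c10_s94) (B (M (nat_lit 396) (B (L (nat_lit 332) ln12_10_4 ln12_10_4_ok) (K (nat_lit 5954262831509113918132062396414293955021172413339836511923639628650521425976703891285775075508988213722642167985551696226859131031426957312) (nat_lit 235872651633723906455844501001065294322430781789074754461075905812763032024228461904820731319185867125875249084486344246938500959097280347339689827541613683510666592256)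 (nat_lit 235872651633723906455844501001065294322430781789074754461075905812763032024228461904820731319185867125875249084486344246938500959097280347339689827541613683510666592256) c10_s95))) (M (nat_lit 396) (B (M (nat_lit 460) (B (L (nat_lit 333) ln12_14_6 ln12_14_6_ok) (L (nat_lit 331) ln12_14_7 ln12_14_7_ok))) (L (nat_lit 332) ln12_10_4 ln12_10_4_ok)))))))) (B (K (nat_lit 5954262830815946494440468064139258622131906539230539000934078872806075061271132354550578193372942037532254438881195279021764289825886699520) (nat_lit 54918381303421571333730218684158387868749678904277933304623305800054411293028157062467720196975691243818996610642097364206717221540691984547490620313660555264) (nat_lit 54918381303421571333730218684158387868749678904277933304623305800054411293028157062467720196975691243818996610642097364206717221540691984547490620313660555264) c10_s97) (B (K (nat_lit 5954262830815946494440468064139258622131906539230539000934078872806075061271132354550578193372942037532254438881195279021764289825886699520)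 (nat_lit 15983352582827860201637731003977791908958361033053514131333437825707477749035817792518146240508169367972354449516224724835037563393460168763692285952) (nat_lit 15983352582827860201637731003977791908958361033053514131333437825707477749035817792518146240508169367972354449516224724835037563393460168763692285952) c10_s102) (K (nat_lit 5954262830815946494440468064139258622131906539230539000934078872806075061271132354550578193372942037532254438881195279021764289825886699520) (nat_lit 4518937287112404378400404331081442997405189228774271651122213671043646954594070811841611630557046638907243146817006731264) (nat_lit 4518937287112404378400404331081442997405189228774271651122213671043646954594070811841611630557046638907243146817006731264) c10_s133)))))) (B (K (nat_lit 5954262830815946494440468064101681940807525207584307311385449480368064140488599236619261537828426693130420703785776095047607990577375739904) (nat_lit 54918381663047004414143450848453445952067668943940909826377510809319811464890515557988458754751297367558196863085043271118742558080238739559427860777207332864)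 (nat_lit 54918381663047004414143450848453445952067668943940909826377510809319811464890515557988458754751297367558196863085043271118742558080238739559427860777207332864) c10_s164) (B (K (nat_lit 5954262830815946494440468064101681940807525207584307311385449480368064140488599236619261537828426693130420703785776095047607990577375739904) (nat_lit 294840814519844291391634091667042461714619422588343786495061350464910957323665318400937611320225769052718404660436747689146423544133655328650022219089455824726474620928) (nat_lit 294840814519844291391634091667042461714619422588343786495061350464910957323665318400937611320225769052718404660436747689146423544133655328650022219089455824726474620928) c10_s168) c10_d545)))))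
noncomputable def c10_d547 : Cert := (B (M (nat_lit 364) (B (K (nat_lit 5954262830815946494440468064139258622131906539230539000934078872806075061271132354550578193372942037532254438881195279021764289825886699520) (nat_lit 344728266524137510402434499354379170964440561339356860303318163716471329896373728313815168605563820471521752524034526072873291454639830583682743699244589895467124290843866819225908896009965120934597724405170683510784) (nat_lit 344728266524137510402434499354379170964440561339356860303318163716471329896373728313815168605563820471521752524034526072873291454639830583682743699244589895467124290843866819225908896009965120934597724405170683510784) c10_s3) (B (K (nat_lit 5954262830815946494440468064139258622131906539230539000934078872806075061271132354550578193372942037532254438881195279021764289825886699520) (nat_lit 235872651647453501779302391019306320913314558527109145960185757239953768458770608157000334790707753547796081634533356559677852962308789462047525934169661261862171312128)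 (nat_lit 235872651647453501779302391019306320913314558527109145960185757239953768458770608157000334790707753547796081634533356559677852962308789462047525934169661261862171312128) c10_s101) (B (K (nat_lit 5954262830815946494440468064139258622131906539230539000934078872806075061271132354550578193372942037532254438881195279021764289825886699520) (nat_lit 15983352582827860201637731003977791908958361033053514131333437825707477749035817792518146240508169367972354449516224724835037563393460168763692285952) (nat_lit 15983352582827860201637731003977791908958361033053514131333437825707477749035817792518146240508169367972354449516224724835037563393460168763692285952) c10_s102) (B (K (nat_lit 5954262830815946494440468064139258622131906539230539000934078872806075061271132354550578193372942037532254438881195279021764289825886699520) (nat_lit 4660154077921509093364000933825115750493786825058173647217846174513521483343222306813119176739982174438169306403858022400)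 (nat_lit 4660154077921509093364000933825115750493786825058173647217846174513521483343222306813119176739982174438169306403858022400) c10_s103) (K (nat_lit 5954262830815946494440468064139258622131906539230539000934078872806075061271132354550578193372942037532254438881195279021764289825886699520) (nat_lit 4821544694700713978734302978614673361995407859668064121291907793656555004525976109789198547900567471604461700954890174464) (nat_lit 4821544694700713978734302978614673361995407859668064121291907793656555004525976109789198547900567471604461700954890174464) c10_s104)))))) (B (M (nat_lit 364) (B (K (nat_lit 5954262830815946494440468064139258622131906539230539000934078872806075061271132354550578193372942037532254438881195279021764289825886699520) (nat_lit 344728266524137510776189634871819711515864109360183184058402924530349117601545525520994855340377079357208362944450103387624009200694915560616293634613563802196382665981745703953340859708461933167236281743725303955456)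 (nat_lit 344728266524137510776189634871819711515864109360183184058402924530349117601545525520994855340377079357208362944450103387624009200694915560616293634613563802196382665981745703953340859708461933167236281743725303955456) c10_s5) (B (K (nat_lit 5954262830815946494440468064139258622131906539230539000934078872806075061271132354550578193372942037532254438881195279021764289825886699520) (nat_lit 1022934565303960184320222757214765703170055751797958725344360827256698679490218467398144280845078363230734675539503060666911533003633672816750976040960) (nat_lit 1022934565303960184320222757214765703170055751797958725344360827256698679490218467398144280845078363230734675539503060666911533003633672816750976040960) c10_s106) (B (K (nat_lit 5954262830815946494440468064139258622131906539230539000934078872806075061271132354550578193372942037532254438881195279021764289825886699520) (nat_lit 235872651647453501779302391019306320913314558527109145960185757239953768458770608157000334790707753547796081634533356559677852962308789462047525934169661261862171312128)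 (nat_lit 235872651647453501779302391019306320913314558527109145960185757239953768458770608157000334790707753547796081634533356559677852962308789462047525934169661261862171312128) c10_s101) (B (M (nat_lit 395) (B (K (nat_lit 5954262830815946494521163372829474515558654013355633122006882178831988296047090459442473431560968324864430856171199586254136263950035058688) (nat_lit 68647976623682790763694020282321174298648569254426210075243266647476457123797123618210931914437916474865460637400261317357224572780533141330353462358870851584) (nat_lit 68647976623682790763694020282321174298648569254426210075243266647476457123797123618210931914437916474865460637400261317357224572780533141330353462358870851584) c10_s107) (M (nat_lit 366) (B (L (nat_lit 394) ln14_11_1 ln14_11_1_ok) (M (nat_lit 335) (B (L (nat_lit 334) ln11_11_2 ln11_11_2_ok) (M (nat_lit 399) (B (L (nat_lit 398) ln11_11_0 ln11_11_0_ok) (M (nat_lit 367) (B (L (nat_lit 336) ln12_11_2 ln12_11_2_ok) (L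 (nat_lit 400) ln12_11_0 ln12_11_0_ok))))))))))) (B (K (nat_lit 5954262830815946494440468064139258622131906539230539000934078872806075061271132354550578193372942037532254438881195279021764289825886699520) (nat_lit 4660154077921509093364000933825115750493786825058173647217846174513521483343222306813119176739982174438169306403858022400) (nat_lit 4660154077921509093364000933825115750493786825058173647217846174513521483343222306813119176739982174438169306403858022400) c10_s103) (K (nat_lit 5954262830815946494440468064139258622131906539230539000934078872806075061271132354550578193372942037532254438881195279021764289825886699520) (nat_lit 4821544694700713978734302978614673361995407859668064121291907793656555004525976109789198547900567471604461700954890174464) (nat_lit 4821544694700713978734302978614673361995407859668064121291907793656555004525976109789198547900567471604461700954890174464) c10_s104))))))) (B (K (nat_lit 5954262830815946494440468064101681940807525207584307311385449480368064140488599236619261537828426693130420703785776095047607990577375739904)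 (nat_lit 316582915757812976161516459168935373792624251972500099642482899511520461968541204915902072230971618616018062211094925102723977708051740426004416981559780586842728990500498440192) (nat_lit 316582915757812976161516459168935373792624251972500099642482899511520461968541204915902072230971618616018062211094925102723977708051740426004416981559780586842728990500498440192) c10_s125) c10_d546)))
noncomputable def c10_d548 : Cert := (B (M (nat_lit 364) (B (K (nat_lit 5954262830815946494440468064139258622131906539230539000934078872806075061271132354550578193372942037532254438881195279021764289825886699520) (nat_lit 344728266524137510402434499354379170964440561339356860303318163716471329896373728313815168605563820471521752524034526072873291454639830583682743699244589895467124290843866819225908896009965120934597724405170683510784) (nat_lit 344728266524137510402434499354379170964440561339356860303318163716471329896373728313815168605563820471521752524034526072873291454639830583682743699244589895467124290843866819225908896009965120934597724405170683510784)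 c10_s3) (B (K (nat_lit 5954262830815946494440468064139258622131906539230539000934078872806075061271132354550578193372942037532254438881195279021764289825886699520) (nat_lit 344728266524137510776189634871819711515864109360183184058402924530349117601545525520994855340377079357208362944450103387624009200694915560616293634613563802196382665981745703953340859708461933167236281743725303955456) (nat_lit 344728266524137510776189634871819711515864109360183184058402924530349117601545525520994855340377079357208362944450103387624009200694915560616293634613563802196382665981745703953340859708461933167236281743725303955456) c10_s5) (B (K (nat_lit 5954262830815946494440468064139258622131906539230539000934078872806075061271132354550578193372942037532254438881195279021764289825886699520) (nat_lit 344728266524137510402434499354379170964440561339356860303318163716471329896373728313815168605558726580159496631755975209073653187647439652421990634898266318141996714889153870129268120082891256833643113139008589266944)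 (nat_lit 344728266524137510402434499354379170964440561339356860303318163716471329896373728313815168605558726580159496631755975209073653187647439652421990634898266318141996714889153870129268120082891256833643113139008589266944) c10_s9) c10_d527)))) (B (K (nat_lit 5954262830815946494440468064101681940807525207584307311385449480368064140488599236619261537828426693130420703785776095047607990577375739904) (nat_lit 1723641332851444552320660979215680871826052726417003730392773290751664149219151959473607977213155721127691238775836464664027585216368592366130565314314269899395533839399060784941566117556728436296406718581615976513536) (nat_lit 1723641332851444552320660979215680871826052726417003730392773290751664149219151959473607977213155721127691238775836464664027585216368592366130565314314269899395533839399060784941566117556728436296406718581615976513536) c10_s90) (B (M (nat_lit 364) (B (K (nat_lit 5954262830815946494440468064139258622131906539230539000934078872806075061271132354550578193372942037532254438881195279021764289825886699520)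 (nat_lit 344728266524137510402434499354379170964440561339356860303318163716471329896373728313815168605563820471521752524034526072873291454639830583682743699244589895467124290843866819225908896009965120934597724405170683510784) (nat_lit 344728266524137510402434499354379170964440561339356860303318163716471329896373728313815168605563820471521752524034526072873291454639830583682743699244589895467124290843866819225908896009965120934597724405170683510784) c10_s3) (B (K (nat_lit 5954262830815946494440468064139258622131906539230539000934078872806075061271132354550578193372942037532254438881195279021764289825886699520) (nat_lit 1266331655955072354700736160289015961684087061612632756667671752346049979712771479027338472714400561153852659696447429146114433692238467194990447083022316136162895271134033346560) (nat_lit 1266331655955072354700736160289015961684087061612632756667671752346049979712771479027338472714400561153852659696447429146114433692238467194990447083022316136162895271134033346560)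 c10_s91) (B (M (nat_lit 428) (B (K (nat_lit 5954262831509113917970671779033862168167677465089648269778033016598694956424787681501984599132935639058289333405543081762115182783130238976) (nat_lit 14699586360760875250371147262434368392591112405266520510392034555821141673283136536660133602502622416947665228000592404641960204154051756032) (nat_lit 14699586360760875250371147262434368392591112405266520510392034555821141673283136536660133602502622416947665228000592404641960204154051756032) c10_s92) (B (K (nat_lit 5954262831509113917970671779033862168167677465089648269778033016598694956424787681501984599132935639058289333405543081762115182783130238976) (nat_lit 68647976623682790847425841320481920666319772899539512993323513874757450278206072911001256700125491818404479113874132195384113671816576262766252919808445120512) (nat_lit 68647976623682790847425841320481920666319772899539512993323513874757450278206072911001256700125491818404479113874132195384113671816576262766252919808445120512)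 c10_s93) (B (K (nat_lit 5954262831509113917970671779033862168167677465089648269778033016598694956424787681501984599132935639058289333405543081762115182783130238976) (nat_lit 235872651633723906455844501024882345640149228378756387615330470181321021580930254370118953782443117031057694784684549497976009591269519395912227312378866484279454466048) (nat_lit 235872651633723906455844501024882345640149228378756387615330470181321021580930254370118953782443117031057694784684549497976009591269519395912227312378866484279454466048) c10_s94) (B (M (nat_lit 396) (B (L (nat_lit 332) ln12_10_4 ln12_10_4_ok) (K (nat_lit 5954262831509113918132062396414293955021172413339836511923639628650521425976703891285775075508988213722642167985551696226859131031426957312) (nat_lit 235872651633723906455844501001065294322430781789074754461075905812763032024228461904820731319185867125875249084486344246938500959097280347339689827541613683510666592256) (nat_lit 235872651633723906455844501001065294322430781789074754461075905812763032024228461904820731319185867125875249084486344246938500959097280347339689827541613683510666592256)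 c10_s95))) (M (nat_lit 396) (B (M (nat_lit 460) (B (L (nat_lit 333) ln12_14_6 ln12_14_6_ok) (L (nat_lit 331) ln12_14_7 ln12_14_7_ok))) (L (nat_lit 332) ln12_10_4 ln12_10_4_ok)))))))) (B (K (nat_lit 5954262830815946494440468064139258622131906539230539000934078872806075061271132354550578193372942037532254438881195279021764289825886699520) (nat_lit 4801370867518765835061831532252961877722741521161204220707024310167238494664806136799583541226164399832778709296809508864) (nat_lit 4801370867518765835061831532252961877722741521161204220707024310167238494664806136799583541226164399832778709296809508864) c10_s96) (B (K (nat_lit 5954262830815946494440468064139258622131906539230539000934078872806075061271132354550578193372942037532254438881195279021764289825886699520) (nat_lit 54918381303421571333730218684158387868749678904277933304623305800054411293028157062467720196975691243818996610642097364206717221540691984547490620313660555264) (nat_lit 54918381303421571333730218684158387868749678904277933304623305800054411293028157062467720196975691243818996610642097364206717221540691984547490620313660555264)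 c10_s97) (B (K (nat_lit 5954262830815946494440468064139258622131906539230539000934078872806075061271132354550578193372942037532254438881195279021764289825886699520) (nat_lit 15983352582827860201637731003816401291577929246444991264259456178086030721241062311557964408385384557835882340331484598743287987424207915016408530944) (nat_lit 15983352582827860201637731003816401291577929246444991264259456178086030721241062311557964408385384557835882340331484598743287987424207915016408530944) c10_s98) (K (nat_lit 5954262830815946494440468064139258622131906539230539000934078872806075061271132354550578193372942037532254438881195279021764289825886699520) (nat_lit 15983352582827860201637730999479028449478824974758954968077197393389797912932295712685821769358133946163122787931173493705601624326868604020018118656) (nat_lit 15983352582827860201637730999479028449478824974758954968077197393389797912932295712685821769358133946163122787931173493705601624326868604020018118656)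 c10_s99)))))))) c10_d547)))
theorem c10_s172 : Sem (nat_lit 5954262830815946494440468064082893600145334541761191466611134784149058680097332677653603210056169020929503836238066503060529840953120260096) (nat_lit 1723641332851444552320660979215680871826052726469839204343789646087487878431243173229817126078604402438210356187266865754745687121178002046193353301252515013588085161298363117780862229619282096815135621042531272228864) (nat_lit 1723641332851444552320660979215680871826052726469839204343789646087487878431243173229817126078604402438210356187266865754745687121178002046193353301252515013588085161298363117780862229619282096815135621042531272228864) :=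
  sem_of_chk (M (nat_lit 363) c10_d548) (nat_lit 5954262830815946494440468064082893600145334541761191466611134784149058680097332677653603210056169020929503836238066503060529840953120260096) (nat_lit 1723641332851444552320660979215680871826052726469839204343789646087487878431243173229817126078604402438210356187266865754745687121178002046193353301252515013588085161298363117780862229619282096815135621042531272228864) (nat_lit 1723641332851444552320660979215680871826052726469839204343789646087487878431243173229817126078604402438210356187266865754745687121178002046193353301252515013588085161298363117780862229619282096815135621042531272228864) (by decide +kernel)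
noncomputable def c10_d549 : Cert := (B (M (nat_lit 435) (B (K (nat_lit 8931394411890933966347733660179601942563841450823800216946752822532690858398586298637961994434524399700878818060857112348965568452155670528) (nat_lit 5692275265467061316455746405697706972423263723897620378030708963603139091018098872252310828889037779165035926172671647953139417505891123986432) (nat_lit 5692275265467061316455746405697706972423263723897620378030708963603139091018098872252310828889037779165035926172671647953139417505891123986432) c10_s361) (B (K (nat_lit 8931394411890933966347733660179601942563841450823800216946752822532690858398586298637961994434524399700878818060857112348965568452155670528) (nat_lit 6049531035232838015298550043750818961148765525502650951020267026304406913911596219525600254135866846909461920792583599731030344898387799703552) (nat_lit 6049531035232838015298550043750818961148765525502650951020267026304406913911596219525600254135866846909461920792583599731030344898387799703552)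 c10_s346) (B (M (nat_lit 436) (B (M (nat_lit 437) (B (M (nat_lit 465) (B (L (nat_lit 464) ln20_13_1_c10 ln20_13_1_c10_ok) (L (nat_lit 466) ln21_13_1_c10 ln21_13_1_c10_ok))) (M (nat_lit 469) (B (L (nat_lit 468) ln17_13_0_c10 ln17_13_0_c10_ok) (L (nat_lit 470) ln18_13_0_c10 ln18_13_0_c10_ok))))) (B (M (nat_lit 437) (B (M (nat_lit 469) (B (L (nat_lit 468) ln17_13_0_c10 ln17_13_0_c10_ok) (L (nat_lit 470) ln18_13_0_c10 ln18_13_0_c10_ok))) (M (nat_lit 438) (B (M (nat_lit 466) (B (L (nat_lit 465) ln21_13_1_c10 ln21_13_1_c10_ok) (L (nat_lit 467) ln22_13_1_c10 ln22_13_1_c10_ok))) (M (nat_lit 406) (B (L (nat_lit 405) ln18_13_2_c10 ln18_13_2_c10_ok) (L (nat_lit 407) ln19_13_2_c10 ln19_13_2_c10_ok))))))) (B (M (nat_lit 437) (B (M (nat_lit 469) (B (L (nat_lit 468) ln17_13_0_c10 ln17_13_0_c10_ok) (L (nat_lit 470) ln18_13_0_c10 ln18_13_0_c10_ok))) (B (M (nat_lit 438) (B (M (nat_lit 470) (B (L (nat_lit 469) ln18_13_0_c10 ln18_13_0_c10_ok) (L (nat_lit 471) ln19_13_0_c10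 ln19_13_0_c10_ok))) (M (nat_lit 406) (B (L (nat_lit 405) ln18_13_2_c10 ln18_13_2_c10_ok) (L (nat_lit 407) ln19_13_2_c10 ln19_13_2_c10_ok))))) (M (nat_lit 438) (B (M (nat_lit 406) (B (L (nat_lit 405) ln18_13_2_c10 ln18_13_2_c10_ok) (L (nat_lit 407) ln19_13_2_c10 ln19_13_2_c10_ok))) (M (nat_lit 467) (B (L (nat_lit 466) ln22_13_1_c10 ln22_13_1_c10_ok) (L (nat_lit 468) ln16_13_0_c10 ln16_13_0_c10_ok)))))))) (B (M (nat_lit 468) (B (L (nat_lit 469) ln17_13_0_c10 ln17_13_0_c10_ok) (M (nat_lit 464) (B (L (nat_lit 465) ln20_13_1_c10 ln20_13_1_c10_ok) (L (nat_lit 463) ln19_13_1_c10 ln19_13_1_c10_ok))))) (B (M (nat_lit 437) (B (M (nat_lit 465) (B (L (nat_lit 464) ln20_13_1_c10 ln20_13_1_c10_ok) (L (nat_lit 466) ln21_13_1_c10 ln21_13_1_c10_ok))) (M (nat_lit 438) (B (M (nat_lit 470) (B (L (nat_lit 469) ln18_13_0_c10 ln18_13_0_c10_ok) (L (nat_lit 471) ln19_13_0_c10 ln19_13_0_c10_ok))) (M (nat_lit 406) (B (L (nat_lit 405) ln18_13_2_c10 ln18_13_2_c10_ok) (L (nat_lit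 407) ln19_13_2_c10 ln19_13_2_c10_ok))))))) (M (nat_lit 465) (B (L (nat_lit 464) ln20_13_1_c10 ln20_13_1_c10_ok) (M (nat_lit 402) (B (M (nat_lit 437) (B (L (nat_lit 466) ln21_13_1_c10 ln21_13_1_c10_ok) (L (nat_lit 401) ln21_13_3_c10 ln21_13_3_c10_ok))) (B (M (nat_lit 497) (B (L (nat_lit 529) ln17_16_6_c10 ln17_16_6_c10_ok) (M (nat_lit 370) (B (L (nat_lit 466) ln18_11_5_c10 ln18_11_5_c10_ok) (L (nat_lit 338) ln18_10_5_c10 ln18_10_5_c10_ok))))) (M (nat_lit 497) (B (L (nat_lit 529) ln17_16_6_c10 ln17_16_6_c10_ok) (M (nat_lit 370) (B (L (nat_lit 401) ln17_15_6_c10 ln17_15_6_c10_ok) (L (nat_lit 338) ln18_10_5_c10 ln18_10_5_c10_ok)))))))))))))))) (B (M (nat_lit 436) (B (M (nat_lit 464) (B (L (nat_lit 463) ln19_13_1_c10 ln19_13_1_c10_ok) (L (nat_lit 465) ln20_13_1_c10 ln20_13_1_c10_ok))) (M (nat_lit 468) (B (L (nat_lit 467) ln16_13_0_c10 ln16_13_0_c10_ok) (L (nat_lit 469) ln17_13_0_c10 ln17_13_0_c10_ok))))) (B (K (nat_lit 8931394411890933966347733660179601942563841450823800216946752822532690858398586298637961994434524399700878818060857112348965568452155670528)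 (nat_lit 22643774576168765235189781138324362769892025778225426427278870000269590156654357331354565783994751787152232176923317907639520784976663232481234341946824372980417912897536) (nat_lit 22643774576168765235189781138324362769892025778225426427278870000269590156654357331354565783994751787152232176923317907639520784976663232481234341946824372980417912897536) c10_s349) (B (K (nat_lit 8931394411890933966347733660179601942563841450823800216946752822532690858398586298637961994434524399700878818060857112348965568452155670528) (nat_lit 22643774562549006674319554313234480943887504225958848080581413046869388652950313380952821413292286837790125727128035577213024032274310056437373602412656168792862807293952) (nat_lit 22643774562549006674319554313234480943887504225958848080581413046869388652950313380952821413292286837790125727128035577213024032274310056437373602412656168792862807293952) c10_s347) (K (nat_lit 8931394411890933966347733660179601942563841450823800216946752822532690858398586298637961994434524399700878818060857112348965568452155670528)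 (nat_lit 6001896933312749903202679792448301555494280880775247640068619961004888269324368870636346408180603034651739799325722271922020342777930242326528) (nat_lit 6001896933312749903202679792448301555494280880775247640068619961004888269324368870636346408180603034651739799325722271922020342777930242326528) c10_s362)))))))) (M (nat_lit 435) (B (M (nat_lit 403) (B (L (nat_lit 404) ln16_13_2_c10 ln16_13_2_c10_ok) (M (nat_lit 431) (B (L (nat_lit 399) ln18_13_3 ln18_13_3_ok) (L (nat_lit 402) ln15_13_2_c10 ln15_13_2_c10_ok))))) (B (M (nat_lit 436) (B (M (nat_lit 404) (B (L (nat_lit 405) ln17_13_2_c10 ln17_13_2_c10_ok) (L (nat_lit 403) ln16_13_2_c10 ln16_13_2_c10_ok))) (M (nat_lit 464) (B (L (nat_lit 465) ln20_13_1_c10 ln20_13_1_c10_ok) (L (nat_lit 463) ln19_13_1_c10 ln19_13_1_c10_ok))))) (K (nat_lit 8931394411890933966347733660179601942563841450823800216946752822532690858398586298637961994434524399700878818060857112348965568452155670528) (nat_lit 22643774576168765235189781138324362769892025778225426427278870000269590156654357331354565783994751787152232176923317907639520784976663232481234341946824372980417912897536)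 (nat_lit 22643774576168765235189781138324362769892025778225426427278870000269590156654357331354565783994751787152232176923317907639520784976663232481234341946824372980417912897536) c10_s349)))))
noncomputable def c10_d550 : Cert := (B (M (nat_lit 466) (B (M (nat_lit 467) (B (L (nat_lit 431) ln15_13_0_c10 ln15_13_0_c10_ok) (M (nat_lit 468) (B (L (nat_lit 465) ln20_14_3_c10 ln20_14_3_c10_ok) (L (nat_lit 469) ln21_14_3_c10 ln21_14_3_c10_ok))))) (B (M (nat_lit 498) (B (M (nat_lit 401) (B (L (nat_lit 530) ln18_16_7_c10 ln18_16_7_c10_ok) (M (nat_lit 369) (B (L (nat_lit 337) ln17_10_4_c10 ln17_10_4_c10_ok) (L (nat_lit 402) ln18_15_7_c10 ln18_15_7_c10_ok))))) (B (M (nat_lit 401) (B (L (nat_lit 530) ln18_16_7_c10 ln18_16_7_c10_ok) (M (nat_lit 369) (B (L (nat_lit 465) ln17_11_4_c10 ln17_11_4_c10_ok) (L (nat_lit 402) ln18_15_7_c10 ln18_15_7_c10_ok))))) (B (M (nat_lit 530) (B (L (nat_lit 401) ln18_16_7_c10 ln18_16_7_c10_ok) (M (nat_lit 562) (B (L (nat_lit 465)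 ln18_17_7_c10 ln18_17_7_c10_ok) (M (nat_lit 561) (B (L (nat_lit 529) ln18_13_5_c10 ln18_13_5_c10_ok) (L (nat_lit 593) ln18_14_5_c10 ln18_14_5_c10_ok))))))) (B (M (nat_lit 402) (B (M (nat_lit 499) (B (L (nat_lit 531) ln18_12_4_c10 ln18_12_4_c10_ok) (M (nat_lit 370) (B (L (nat_lit 467) ln18_11_4_c10 ln18_11_4_c10_ok) (M (nat_lit 371) (B (L (nat_lit 339) ln18_14_6_c10 ln18_14_6_c10_ok) (L (nat_lit 403) ln18_15_6_c10 ln18_15_6_c10_ok))))))) (B (M (nat_lit 530) (B (M (nat_lit 531) (B (L (nat_lit 499) ln18_12_4_c10 ln18_12_4_c10_ok) (L (nat_lit 563) ln18_13_4_c10 ln18_13_4_c10_ok))) (M (nat_lit 561) (B (L (nat_lit 529) ln18_13_5_c10 ln18_13_5_c10_ok) (M (nat_lit 562) (B (L (nat_lit 465) ln18_17_7_c10 ln18_17_7_c10_ok) (L (nat_lit 593) ln18_14_5_c10 ln18_14_5_c10_ok))))))) (M (nat_lit 370) (B (M (nat_lit 371) (B (L (nat_lit 339) ln18_14_6_c10 ln18_14_6_c10_ok) (L (nat_lit 403) ln18_15_6_c10 ln18_15_6_c10_ok))) (M (nat_lit 338) (B (L (nat_lit 465) ln18_10_5_c10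 ln18_10_5_c10_ok) (M (nat_lit 337) (B (L (nat_lit 305) ln18_13_7_c10 ln18_13_7_c10_ok) (L (nat_lit 369) ln18_14_7_c10 ln18_14_7_c10_ok)))))))))) (M (nat_lit 402) (B (M (nat_lit 403) (B (L (nat_lit 371) ln18_15_6_c10 ln18_15_6_c10_ok) (M (nat_lit 401) (B (L (nat_lit 404) ln20_12_1_c10 ln20_12_1_c10_ok) (L (nat_lit 369) ln18_15_7_c10 ln18_15_7_c10_ok))))) (B (M (nat_lit 499) (B (L (nat_lit 531) ln18_12_4_c10 ln18_12_4_c10_ok) (M (nat_lit 370) (B (L (nat_lit 467) ln18_11_4_c10 ln18_11_4_c10_ok) (M (nat_lit 371) (B (L (nat_lit 339) ln18_14_6_c10 ln18_14_6_c10_ok) (L (nat_lit 403) ln18_15_6_c10 ln18_15_6_c10_ok))))))) (M (nat_lit 370) (B (M (nat_lit 369) (B (L (nat_lit 337) ln18_14_7_c10 ln18_14_7_c10_ok) (L (nat_lit 401) ln18_15_7_c10 ln18_15_7_c10_ok))) (M (nat_lit 499) (B (L (nat_lit 467) ln18_11_4_c10 ln18_11_4_c10_ok) (L (nat_lit 531) ln18_12_4_c10 ln18_12_4_c10_ok))))))))))))) (B (M (nat_lit 402) (B (M (nat_lit 431) (B (L (nat_lit 403) ln15_13_2_c10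 ln15_13_2_c10_ok) (L (nat_lit 467) ln15_13_0_c10 ln15_13_0_c10_ok))) (B (M (nat_lit 498) (B (M (nat_lit 401) (B (L (nat_lit 369) ln18_15_7_c10 ln18_15_7_c10_ok) (L (nat_lit 530) ln18_16_7_c10 ln18_16_7_c10_ok))) (M (nat_lit 499) (B (L (nat_lit 531) ln18_12_4_c10 ln18_12_4_c10_ok) (M (nat_lit 370) (B (L (nat_lit 467) ln18_11_4_c10 ln18_11_4_c10_ok) (M (nat_lit 371) (B (L (nat_lit 339) ln18_14_6_c10 ln18_14_6_c10_ok) (L (nat_lit 403) ln18_15_6_c10 ln18_15_6_c10_ok))))))))) (B (M (nat_lit 370) (B (M (nat_lit 467) (B (L (nat_lit 431) ln15_13_0_c10 ln15_13_0_c10_ok) (L (nat_lit 499) ln18_11_4_c10 ln18_11_4_c10_ok))) (M (nat_lit 338) (B (M (nat_lit 337) (B (L (nat_lit 305) ln18_13_7_c10 ln18_13_7_c10_ok) (L (nat_lit 369) ln18_14_7_c10 ln18_14_7_c10_ok))) (M (nat_lit 339) (B (L (nat_lit 307) ln18_13_6_c10 ln18_13_6_c10_ok) (L (nat_lit 371) ln18_14_6_c10 ln18_14_6_c10_ok))))))) (M (nat_lit 403) (B (L (nat_lit 431) ln15_13_2_c10 ln15_13_2_c10_ok) (M (nat_lit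 404) (B (L (nat_lit 401) ln20_12_1_c10 ln20_12_1_c10_ok) (L (nat_lit 405) ln21_12_1_c10 ln21_12_1_c10_ok))))))))) (M (nat_lit 402) (B (M (nat_lit 403) (B (L (nat_lit 431) ln15_13_2_c10 ln15_13_2_c10_ok) (M (nat_lit 404) (B (L (nat_lit 401) ln20_12_1_c10 ln20_12_1_c10_ok) (L (nat_lit 405) ln21_12_1_c10 ln21_12_1_c10_ok))))) (B (M (nat_lit 370) (B (M (nat_lit 338) (B (L (nat_lit 465) ln18_10_5_c10 ln18_10_5_c10_ok) (M (nat_lit 337) (B (L (nat_lit 305) ln18_13_7_c10 ln18_13_7_c10_ok) (L (nat_lit 369) ln18_14_7_c10 ln18_14_7_c10_ok))))) (B (M (nat_lit 338) (B (L (nat_lit 465) ln18_10_5_c10 ln18_10_5_c10_ok) (M (nat_lit 339) (B (L (nat_lit 307) ln18_13_6_c10 ln18_13_6_c10_ok) (L (nat_lit 371) ln18_14_6_c10 ln18_14_6_c10_ok))))) (M (nat_lit 498) (B (M (nat_lit 369) (B (L (nat_lit 337) ln18_14_7_c10 ln18_14_7_c10_ok) (L (nat_lit 401) ln18_15_7_c10 ln18_15_7_c10_ok))) (M (nat_lit 371) (B (L (nat_lit 339) ln18_14_6_c10 ln18_14_6_c10_ok) (L (nat_lit 403) ln18_15_6_c10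 ln18_15_6_c10_ok)))))))) (B (M (nat_lit 403) (B (L (nat_lit 431) ln15_13_2_c10 ln15_13_2_c10_ok) (M (nat_lit 371) (B (L (nat_lit 498) ln18_15_6_c10 ln18_15_6_c10_ok) (M (nat_lit 339) (B (L (nat_lit 370) ln18_14_6_c10 ln18_14_6_c10_ok) (L (nat_lit 307) ln19_9_5_c10 ln19_9_5_c10_ok))))))) (M (nat_lit 498) (B (M (nat_lit 401) (B (L (nat_lit 369) ln18_15_7_c10 ln18_15_7_c10_ok) (L (nat_lit 530) ln18_16_7_c10 ln18_16_7_c10_ok))) (B (M (nat_lit 530) (B (L (nat_lit 401) ln18_16_7_c10 ln18_16_7_c10_ok) (M (nat_lit 531) (B (L (nat_lit 499) ln18_12_4_c10 ln18_12_4_c10_ok) (L (nat_lit 563) ln18_13_4_c10 ln18_13_4_c10_ok))))) (B (M (nat_lit 530) (B (M (nat_lit 531) (B (L (nat_lit 499) ln18_12_4_c10 ln18_12_4_c10_ok) (L (nat_lit 563) ln18_13_4_c10 ln18_13_4_c10_ok))) (M (nat_lit 561) (B (L (nat_lit 529) ln18_13_5_c10 ln18_13_5_c10_ok) (M (nat_lit 562) (B (L (nat_lit 465) ln18_17_7_c10 ln18_17_7_c10_ok) (L (nat_lit 593) ln18_14_5_c10 ln18_14_5_c10_ok))))))) (M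 (nat_lit 370) (B (M (nat_lit 369) (B (L (nat_lit 337) ln18_14_7_c10 ln18_14_7_c10_ok) (L (nat_lit 401) ln18_15_7_c10 ln18_15_7_c10_ok))) (M (nat_lit 338) (B (L (nat_lit 465) ln18_10_5_c10 ln18_10_5_c10_ok) (M (nat_lit 339) (B (L (nat_lit 307) ln18_13_6_c10 ln18_13_6_c10_ok) (L (nat_lit 371) ln18_14_6_c10 ln18_14_6_c10_ok))))))))))))))))))) (B (K (nat_lit 8931394323165503754481658153670348049985162940857813804920622417077344278730704448857942057155343404368412318944338361584051269924982620160) (nat_lit 178299497156964602586411520136380274821765081335752938541760408444399225011823258063241552997441753436661369089906686039569747596435424352213802876792773054368320152283907692167168) (nat_lit 178299497156964602586411520136380274821765081335752938541760408444399225011823258063241552997441753436661369089906686039569747596435424352213802876792773054368320152283907692167168) c10_s359) c10_d549))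
noncomputable def c10_d551 : Cert := (B (M (nat_lit 400) (B (L (nat_lit 399) ln13_12_0 ln13_12_0_ok) (M (nat_lit 368) (B (M (nat_lit 465) (B (L (nat_lit 336) ln16_10_4_c10 ln16_10_4_c10_ok) (M (nat_lit 497) (B (L (nat_lit 529) ln17_16_7_c10 ln17_16_7_c10_ok) (L (nat_lit 464) ln16_11_4 ln16_11_4_ok))))) (B (M (nat_lit 465) (B (L (nat_lit 336) ln16_10_4_c10 ln16_10_4_c10_ok) (M (nat_lit 497) (B (L (nat_lit 464) ln16_11_4 ln16_11_4_ok) (L (nat_lit 401) ln17_15_7_c10 ln17_15_7_c10_ok))))) (B (M (nat_lit 336) (B (L (nat_lit 465) ln16_10_4_c10 ln16_10_4_c10_ok) (M (nat_lit 303) (B (L (nat_lit 335) ln16_13_7 ln16_13_7_ok) (M (nat_lit 305) (B (L (nat_lit 337) ln16_13_6_c10 ln16_13_6_c10_ok) (M (nat_lit 304) (B (L (nat_lit 271) ln16_12_7_c10 ln16_12_7_c10_ok) (L (nat_lit 273) ln16_12_6_c10 ln16_12_6_c10_ok))))))))) (B (M (nat_lit 464) (B (M (nat_lit 337) (B (L (nat_lit 369) ln16_14_6_c10 ln16_14_6_c10_ok) (M (nat_lit 336) (B (L (nat_lit 305) ln16_13_6_c10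 ln16_13_6_c10_ok) (M (nat_lit 335) (B (L (nat_lit 303) ln16_13_7 ln16_13_7_ok) (L (nat_lit 367) ln16_14_7 ln16_14_7_ok))))))) (B (M (nat_lit 369) (B (L (nat_lit 337) ln16_14_6_c10 ln16_14_6_c10_ok) (M (nat_lit 496) (B (L (nat_lit 401) ln16_15_6_c10 ln16_15_6_c10_ok) (M (nat_lit 495) (B (L (nat_lit 463) ln16_11_5_c10 ln16_11_5_c10_ok) (L (nat_lit 527) ln16_12_5_c10 ln16_12_5_c10_ok))))))) (B (M (nat_lit 496) (B (M (nat_lit 401) (B (L (nat_lit 369) ln16_15_6_c10 ln16_15_6_c10_ok) (L (nat_lit 528) ln16_16_6_c10 ln16_16_6_c10_ok))) (M (nat_lit 495) (B (L (nat_lit 463) ln16_11_5_c10 ln16_11_5_c10_ok) (L (nat_lit 527) ln16_12_5_c10 ln16_12_5_c10_ok))))) (M (nat_lit 496) (B (M (nat_lit 495) (B (L (nat_lit 463) ln16_11_5_c10 ln16_11_5_c10_ok) (L (nat_lit 527) ln16_12_5_c10 ln16_12_5_c10_ok))) (M (nat_lit 336) (B (M (nat_lit 401) (B (L (nat_lit 304) ln16_9_4_c10 ln16_9_4_c10_ok) (L (nat_lit 528) ln16_16_6_c10 ln16_16_6_c10_ok))) (M (nat_lit 335) (B (L (nat_lit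 303) ln16_13_7 ln16_13_7_ok) (L (nat_lit 367) ln16_14_7 ln16_14_7_ok))))))))))) (K (nat_lit 8931394278802788651130870279103856594541844164217539506015333286187069234247952767409646199244839611761164184192923761223998080610318942208) (nat_lit 2196735251957849304438208648995460201833898308353020480628672309096257549101445594193611261175567516647815599304337366789554542673204855961697190841995719868416) (nat_lit 2196735251957849304438208648995460201833898308353020480628672309096257549101445594193611261175567516647815599304337366789554542673204855961697190841995719868416) c10_s373)))))))) (B (K (nat_lit 8931394278802788648548620400415721103695823685874820598907557214349670988896763523967932088515752906702179069386078986201594120661396094976) (nat_lit 64836181001525147852546975900808713548080762161629049539427780988249205572367002142219686432436084060755223437216775147789110703067327211670365443603158786991405048277069316751360) (nat_lit 64836181001525147852546975900808713548080762161629049539427780988249205572367002142219686432436084060755223437216775147789110703067327211670365443603158786991405048277069316751360)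 c10_s351) (M (nat_lit 434) (B (K (nat_lit 8931394323165503754481658153670348049985162940857813804920622417077344278730704448857942057155343404368412318944338361584051269924982620160) (nat_lit 5501738855729387955072063397912714199721167865032214496473045537624592404789185026973360623291565718127005730979524056739558554720566908026880) (nat_lit 5501738855729387955072063397912714199721167865032214496473045537624592404789185026973360623291565718127005730979524056739558554720566908026880) c10_s360) (B (K (nat_lit 8931394323165503754481658153670348049985162940857813804920622417077344278730704448857942057155343404368412318944338361584051269924982620160) (nat_lit 75479248521034261864467630405103524072385638676130367221011828010505451258460682163641396478310370132872640804430323330840803516660413748823871210158860690077786090504192) (nat_lit 75479248521034261864467630405103524072385638676130367221011828010505451258460682163641396478310370132872640804430323330840803516660413748823871210158860690077786090504192)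 c10_s336) (B (K (nat_lit 8931394323165503754481658153670348049985162940857813804920622417077344278730704448857942057155343404368412318944338361584051269924982620160) (nat_lit 3514776402805219828902814834853455111951486963825495474757298621329577105044376796039635890888125159604706566097768145831658483676991846621905834619249469947904) (nat_lit 3514776402805219828902814834853455111951486963825495474757298621329577105044376796039635890888125159604706566097768145831658483676991846621905834619249469947904) c10_s337) (B (K (nat_lit 8931394323165503754481658153670348049985162940857813804920622417077344278730704448857942057155343404368412318944338361584051269924982620160) (nat_lit 3514776402805219827378523550519474530222191441465550989528490934481446660288929061847559846542536477905338351711297456788774239965367519036237877744596986888192) (nat_lit 3514776402805219827378523550519474530222191441465550989528490934481446660288929061847559846542536477905338351711297456788774239965367519036237877744596986888192)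 c10_s325) (B (K (nat_lit 8931394323165503754481658153670348049985162940857813804920622417077344278730704448857942057155343404368412318944338361584051269924982620160) (nat_lit 7029552806019613481029869450508948361774071993869042888504211893045132533800724572564759378858719460163409769396372198804455304844799791766070074855715988570112) (nat_lit 7029552806019613481029869450508948361774071993869042888504211893045132533800724572564759378858719460163409769396372198804455304844799791766070074855715988570112) c10_s338) (B (K (nat_lit 8931394323165503754481658153670348049985162940857813804920622417077344278730704448857942057155343404368412318944338361584051269924982620160) (nat_lit 818347654998800985125261771244416439653536635664075810350827750052421878776062674837069937303713274278883001932745871332594632445291772906629186453504) (nat_lit 818347654998800985125261771244416439653536635664075810350827750052421878776062674837069937303713274278883001932745871332594632445291772906629186453504)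 c10_s340) c10_d550)))))))))
noncomputable def c10_d552 : Cert := (B (M (nat_lit 489) (B (M (nat_lit 521) (B (L (nat_lit 490) ln10_12_5 ln10_12_5_ok) (M (nat_lit 457) (B (L (nat_lit 425) ln9_16_6 ln9_16_6_ok) (L (nat_lit 362) ln10_11_5 ln10_11_5_ok))))) (B (M (nat_lit 459) (B (M (nat_lit 362) (B (L (nat_lit 457) ln10_11_5 ln10_11_5_ok) (L (nat_lit 491) ln10_11_4 ln10_11_4_ok))) (B (M (nat_lit 491) (B (L (nat_lit 362) ln10_11_4 ln10_11_4_ok) (M (nat_lit 523) (B (L (nat_lit 490) ln10_12_4 ln10_12_4_ok) (L (nat_lit 555) ln11_17_7 ln11_17_7_ok))))) (L (nat_lit 490) ln13_14_1 ln13_14_1_ok)))) (B (M (nat_lit 490) (B (L (nat_lit 521) ln10_12_5 ln10_12_5_ok) (M (nat_lit 491) (B (L (nat_lit 523) ln10_12_4 ln10_12_4_ok) (L (nat_lit 459) ln13_14_1 ln13_14_1_ok))))) (M (nat_lit 457) (B (L (nat_lit 362) ln10_11_5 ln10_11_5_ok) (M (nat_lit 521) (B (L (nat_lit 553) ln9_17_6 ln9_17_6_ok) (L (nat_lit 425) ln9_16_6 ln9_16_6_ok))))))))) (B (M (nat_lit 490) (B (M (nat_lit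 489) (B (L (nat_lit 521) ln10_12_5 ln10_12_5_ok) (M (nat_lit 362) (B (L (nat_lit 457) ln10_11_5 ln10_11_5_ok) (M (nat_lit 491) (B (L (nat_lit 523) ln10_12_4 ln10_12_4_ok) (L (nat_lit 459) ln10_11_4 ln10_11_4_ok))))))) (B (M (nat_lit 362) (B (M (nat_lit 489) (B (L (nat_lit 521) ln10_12_5 ln10_12_5_ok) (L (nat_lit 457) ln10_11_5 ln10_11_5_ok))) (M (nat_lit 363) (B (L (nat_lit 395) ln14_12_3 ln14_12_3_ok) (L (nat_lit 331) ln10_14_6 ln10_14_6_ok))))) (B (M (nat_lit 362) (B (M (nat_lit 491) (B (L (nat_lit 523) ln10_12_4 ln10_12_4_ok) (L (nat_lit 459) ln10_11_4 ln10_11_4_ok))) (M (nat_lit 363) (B (L (nat_lit 395) ln14_12_3 ln14_12_3_ok) (L (nat_lit 331) ln10_14_6 ln10_14_6_ok))))) (M (nat_lit 522) (B (M (nat_lit 523) (B (L (nat_lit 555) ln10_13_4 ln10_13_4_ok) (L (nat_lit 491) ln10_12_4 ln10_12_4_ok))) (M (nat_lit 521) (B (L (nat_lit 553) ln10_13_5 ln10_13_5_ok) (L (nat_lit 489) ln10_12_5 ln10_12_5_ok))))))))) (B (M (nat_lit 362) (B (M (nat_lit 363) (B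 (L (nat_lit 331) ln10_14_6 ln10_14_6_ok) (M (nat_lit 491) (B (L (nat_lit 459) ln10_11_4 ln10_11_4_ok) (M (nat_lit 490) (B (L (nat_lit 523) ln10_12_4 ln10_12_4_ok) (L (nat_lit 395) ln14_12_3 ln14_12_3_ok))))))) (B (M (nat_lit 490) (B (M (nat_lit 489) (B (L (nat_lit 521) ln10_12_5 ln10_12_5_ok) (L (nat_lit 457) ln10_11_5 ln10_11_5_ok))) (M (nat_lit 363) (B (L (nat_lit 395) ln14_12_3 ln14_12_3_ok) (L (nat_lit 331) ln10_14_6 ln10_14_6_ok))))) (B (M (nat_lit 330) (B (M (nat_lit 457) (B (L (nat_lit 489) ln10_11_5 ln10_11_5_ok) (L (nat_lit 425) ln10_10_5 ln10_10_5_ok))) (M (nat_lit 331) (B (L (nat_lit 363) ln10_14_6 ln10_14_6_ok) (L (nat_lit 299) ln10_13_6 ln10_13_6_ok))))) (M (nat_lit 490) (B (M (nat_lit 491) (B (L (nat_lit 523) ln10_12_4 ln10_12_4_ok) (L (nat_lit 459) ln10_11_4 ln10_11_4_ok))) (M (nat_lit 489) (B (L (nat_lit 521) ln10_12_5 ln10_12_5_ok) (L (nat_lit 457) ln10_11_5 ln10_11_5_ok))))))))) (B (M (nat_lit 490) (B (M (nat_lit 362) (B (M (nat_lit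 491) (B (L (nat_lit 523) ln10_12_4 ln10_12_4_ok) (L (nat_lit 459) ln10_11_4 ln10_11_4_ok))) (M (nat_lit 363) (B (L (nat_lit 395) ln14_12_3 ln14_12_3_ok) (L (nat_lit 331) ln10_14_6 ln10_14_6_ok))))) (B (M (nat_lit 362) (B (M (nat_lit 363) (B (L (nat_lit 395) ln14_12_3 ln14_12_3_ok) (L (nat_lit 331) ln10_14_6 ln10_14_6_ok))) (B (M (nat_lit 330) (B (M (nat_lit 457) (B (L (nat_lit 489) ln10_11_5 ln10_11_5_ok) (L (nat_lit 425) ln10_10_5 ln10_10_5_ok))) (M (nat_lit 331) (B (L (nat_lit 363) ln10_14_6 ln10_14_6_ok) (L (nat_lit 299) ln10_13_6 ln10_13_6_ok))))) (M (nat_lit 457) (B (L (nat_lit 489) ln10_11_5 ln10_11_5_ok) (M (nat_lit 425) (B (L (nat_lit 330) ln10_10_5 ln10_10_5_ok) (M (nat_lit 522) (B (L (nat_lit 554) ln10_17_7 ln10_17_7_ok) (L (nat_lit 393) ln10_16_7 ln10_16_7_ok)))))))))) (B (M (nat_lit 362) (B (M (nat_lit 491) (B (L (nat_lit 523) ln10_12_4 ln10_12_4_ok) (L (nat_lit 459) ln10_11_4 ln10_11_4_ok))) (M (nat_lit 330) (B (M (nat_lit 457) (B (L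 (nat_lit 489) ln10_11_5 ln10_11_5_ok) (L (nat_lit 425) ln10_10_5 ln10_10_5_ok))) (M (nat_lit 331) (B (L (nat_lit 363) ln10_14_6 ln10_14_6_ok) (L (nat_lit 299) ln10_13_6 ln10_13_6_ok))))))) (B (M (nat_lit 457) (B (M (nat_lit 362) (B (L (nat_lit 489) ln10_11_5 ln10_11_5_ok) (M (nat_lit 491) (B (L (nat_lit 523) ln10_12_4 ln10_12_4_ok) (L (nat_lit 459) ln10_11_4 ln10_11_4_ok))))) (B (M (nat_lit 425) (B (M (nat_lit 522) (B (L (nat_lit 554) ln10_17_7 ln10_17_7_ok) (L (nat_lit 393) ln10_16_7 ln10_16_7_ok))) (M (nat_lit 362) (B (L (nat_lit 489) ln10_11_5 ln10_11_5_ok) (L (nat_lit 330) ln10_10_5 ln10_10_5_ok))))) (M (nat_lit 522) (B (M (nat_lit 523) (B (L (nat_lit 555) ln10_13_4 ln10_13_4_ok) (L (nat_lit 491) ln10_12_4 ln10_12_4_ok))) (M (nat_lit 425) (B (L (nat_lit 554) ln10_17_7 ln10_17_7_ok) (L (nat_lit 393) ln10_16_7 ln10_16_7_ok)))))))) (M (nat_lit 522) (B (M (nat_lit 523) (B (L (nat_lit 555) ln10_13_4 ln10_13_4_ok) (L (nat_lit 491) ln10_12_4 ln10_12_4_ok)))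 (B (M (nat_lit 554) (B (M (nat_lit 425) (B (L (nat_lit 457) ln10_17_7 ln10_17_7_ok) (L (nat_lit 393) ln10_16_7 ln10_16_7_ok))) (M (nat_lit 586) (B (M (nat_lit 585) (B (L (nat_lit 617) ln10_15_5 ln10_15_5_ok) (L (nat_lit 553) ln10_14_5 ln10_14_5_ok))) (M (nat_lit 491) (B (L (nat_lit 459) ln10_18_6 ln10_18_6_ok) (L (nat_lit 523) ln10_12_4 ln10_12_4_ok))))))) (M (nat_lit 554) (B (M (nat_lit 425) (B (L (nat_lit 457) ln10_17_7 ln10_17_7_ok) (L (nat_lit 393) ln10_16_7 ln10_16_7_ok))) (M (nat_lit 586) (B (M (nat_lit 587) (B (L (nat_lit 619) ln10_15_4 ln10_15_4_ok) (L (nat_lit 555) ln10_14_4 ln10_14_4_ok))) (M (nat_lit 585) (B (L (nat_lit 617) ln10_15_5 ln10_15_5_ok) (L (nat_lit 553) ln10_14_5 ln10_14_5_ok))))))))))))))) (B (M (nat_lit 425) (B (L (nat_lit 395) ln13_12_1 ln13_12_1_ok) (L (nat_lit 459) ln13_14_3 ln13_14_3_ok))) (M (nat_lit 490) (B (M (nat_lit 522) (B (M (nat_lit 523) (B (L (nat_lit 555) ln10_13_4 ln10_13_4_ok) (L (nat_lit 491) ln10_12_4 ln10_12_4_ok)))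 (M (nat_lit 521) (B (L (nat_lit 553) ln10_13_5 ln10_13_5_ok) (L (nat_lit 489) ln10_12_5 ln10_12_5_ok))))) (B (M (nat_lit 362) (B (M (nat_lit 489) (B (L (nat_lit 521) ln10_12_5 ln10_12_5_ok) (L (nat_lit 457) ln10_11_5 ln10_11_5_ok))) (M (nat_lit 363) (B (L (nat_lit 395) ln14_12_3 ln14_12_3_ok) (L (nat_lit 331) ln10_14_6 ln10_14_6_ok))))) (B (M (nat_lit 457) (B (M (nat_lit 363) (B (L (nat_lit 395) ln10_15_6 ln10_15_6_ok) (M (nat_lit 362) (B (L (nat_lit 489) ln10_11_5 ln10_11_5_ok) (L (nat_lit 331) ln10_14_6 ln10_14_6_ok))))) (M (nat_lit 522) (B (M (nat_lit 523) (B (L (nat_lit 555) ln10_13_4 ln10_13_4_ok) (L (nat_lit 491) ln10_12_4 ln10_12_4_ok))) (M (nat_lit 425) (B (L (nat_lit 554) ln10_17_7 ln10_17_7_ok) (L (nat_lit 393) ln10_16_7 ln10_16_7_ok))))))) (M (nat_lit 522) (B (M (nat_lit 523) (B (L (nat_lit 555) ln10_13_4 ln10_13_4_ok) (L (nat_lit 491) ln10_12_4 ln10_12_4_ok))) (M (nat_lit 554) (B (M (nat_lit 553) (B (L (nat_lit 585) ln10_14_5 ln10_14_5_ok)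 (L (nat_lit 521) ln10_13_5 ln10_13_5_ok))) (M (nat_lit 425) (B (L (nat_lit 457) ln10_17_7 ln10_17_7_ok) (L (nat_lit 393) ln10_16_7 ln10_16_7_ok))))))))))))))))
noncomputable def c10_d553 : Cert := (B (M (nat_lit 330) (B (M (nat_lit 297) (B (L (nat_lit 329) ln10_13_7_c10 ln10_13_7_c10_ok) (M (nat_lit 298) (B (L (nat_lit 265) ln10_12_7_c10 ln10_12_7_c10_ok) (M (nat_lit 299) (B (L (nat_lit 267) ln10_12_6_c10 ln10_12_6_c10_ok) (L (nat_lit 331) ln10_13_6 ln10_13_6_ok))))))) (B (M (nat_lit 298) (B (M (nat_lit 297) (B (L (nat_lit 265) ln10_12_7_c10 ln10_12_7_c10_ok) (L (nat_lit 329) ln10_13_7_c10 ln10_13_7_c10_ok))) (M (nat_lit 425) (B (L (nat_lit 393) ln10_9_5_c10 ln10_9_5_c10_ok) (L (nat_lit 457) ln10_10_5 ln10_10_5_ok))))) (B (M (nat_lit 329) (B (L (nat_lit 297) ln10_13_7_c10 ln10_13_7_c10_ok) (M (nat_lit 328) (B (M (nat_lit 327) (B (L (nat_lit 363) ln7_10_0_c10 ln7_10_0_c10_ok) (M (nat_lit 326) (B (L (nat_lit 361) ln6_10_0_c10 ln6_10_0_c10_ok) (M (nat_lit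 294) (B (L (nat_lit 295) ln10_10_3_c10 ln10_10_3_c10_ok) (L (nat_lit 293) ln9_10_3_c10 ln9_10_3_c10_ok))))))) (B (M (nat_lit 327) (B (M (nat_lit 331) (B (L (nat_lit 299) ln10_13_6 ln10_13_6_ok) (M (nat_lit 295) (B (L (nat_lit 296) ln11_10_3_c10 ln11_10_3_c10_ok) (L (nat_lit 294) ln10_10_3_c10 ln10_10_3_c10_ok))))) (B (M (nat_lit 326) (B (L (nat_lit 361) ln6_10_0_c10 ln6_10_0_c10_ok) (M (nat_lit 294) (B (L (nat_lit 295) ln10_10_3_c10 ln10_10_3_c10_ok) (L (nat_lit 293) ln9_10_3_c10 ln9_10_3_c10_ok))))) (M (nat_lit 331) (B (L (nat_lit 299) ln10_13_6 ln10_13_6_ok) (M (nat_lit 359) (B (L (nat_lit 360) ln11_10_1_c10 ln11_10_1_c10_ok) (L (nat_lit 358) ln10_10_1_c10 ln10_10_1_c10_ok)))))))) (B (M (nat_lit 327) (B (L (nat_lit 363) ln7_10_0_c10 ln7_10_0_c10_ok) (M (nat_lit 331) (B (L (nat_lit 299) ln10_13_6 ln10_13_6_ok) (M (nat_lit 359) (B (L (nat_lit 360) ln11_10_1_c10 ln11_10_1_c10_ok) (L (nat_lit 358) ln10_10_1_c10 ln10_10_1_c10_ok))))))) (M (nat_lit 331)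 (B (L (nat_lit 299) ln10_13_6 ln10_13_6_ok) (M (nat_lit 361) (B (M (nat_lit 360) (B (L (nat_lit 332) ln12_10_1 ln12_10_1_ok) (L (nat_lit 359) ln11_10_1_c10 ln11_10_1_c10_ok))) (M (nat_lit 425) (B (L (nat_lit 457) ln10_10_5 ln10_10_5_ok) (M (nat_lit 296) (B (L (nat_lit 295) ln11_10_3_c10 ln11_10_3_c10_ok) (L (nat_lit 393) ln9_13_7_c10 ln9_13_7_c10_ok))))))))))))))) (M (nat_lit 298) (B (M (nat_lit 299) (B (L (nat_lit 267) ln10_12_6_c10 ln10_12_6_c10_ok) (L (nat_lit 331) ln10_13_6 ln10_13_6_ok))) (M (nat_lit 425) (B (L (nat_lit 393) ln10_9_5_c10 ln10_9_5_c10_ok) (L (nat_lit 457) ln10_10_5 ln10_10_5_ok))))))))) (B (M (nat_lit 458) (B (K (nat_lit 9675677110473424407588898303524309064136189561416208231909424726069249765931854908459365600923044503815691467361718379473861711459113762816) (nat_lit 147420407267645042704038340629060075302370278092943408665790748714194994188503168017724709898689119045598657024408602894202757264882645124189304715078195250925871824896)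 (nat_lit 147420407267645042704038340629060075302370278092943408665790748714194994188503168017724709898689119045598657024408602894202757264882645124189304715078195250925871824896) c10_s375) (B (M (nat_lit 489) (B (M (nat_lit 521) (B (L (nat_lit 490) ln10_12_5 ln10_12_5_ok) (L (nat_lit 457) ln10_11_5 ln10_11_5_ok))) (B (M (nat_lit 459) (B (L (nat_lit 457) ln10_11_5 ln10_11_5_ok) (L (nat_lit 491) ln10_11_4 ln10_11_4_ok))) (M (nat_lit 490) (B (L (nat_lit 521) ln10_12_5 ln10_12_5_ok) (M (nat_lit 491) (B (L (nat_lit 523) ln10_12_4 ln10_12_4_ok) (L (nat_lit 459) ln10_11_4 ln10_11_4_ok)))))))) (B (M (nat_lit 490) (B (M (nat_lit 491) (B (L (nat_lit 523) ln10_12_4 ln10_12_4_ok) (L (nat_lit 459) ln10_11_4 ln10_11_4_ok))) (M (nat_lit 361) (B (L (nat_lit 393) ln10_15_7 ln10_15_7_ok) (L (nat_lit 329) ln10_14_7 ln10_14_7_ok))))) (B (M (nat_lit 490) (B (M (nat_lit 361) (B (L (nat_lit 329) ln10_14_7 ln10_14_7_ok) (L (nat_lit 393) ln10_15_7 ln10_15_7_ok))) (M (nat_lit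 489) (B (L (nat_lit 457) ln10_11_5 ln10_11_5_ok) (L (nat_lit 521) ln10_12_5 ln10_12_5_ok))))) (M (nat_lit 457) (B (L (nat_lit 489) ln10_11_5 ln10_11_5_ok) (M (nat_lit 459) (B (L (nat_lit 491) ln10_11_4 ln10_11_4_ok) (M (nat_lit 456) (B (M (nat_lit 423) (B (L (nat_lit 424) ln11_14_3 ln11_14_3_ok) (M (nat_lit 455) (B (L (nat_lit 422) ln10_14_3 ln10_14_3_ok) (M (nat_lit 487) (B (L (nat_lit 486) ln10_14_1_c10 ln10_14_1_c10_ok) (L (nat_lit 488) ln11_14_1 ln11_14_1_ok))))))) (L (nat_lit 425) ln13_14_3 ln13_14_3_ok)))))))))))) (M (nat_lit 458) (B (M (nat_lit 490) (B (M (nat_lit 522) (B (M (nat_lit 521) (B (L (nat_lit 553) ln10_13_5 ln10_13_5_ok) (L (nat_lit 489) ln10_12_5 ln10_12_5_ok))) (M (nat_lit 393) (B (L (nat_lit 425) ln10_16_7 ln10_16_7_ok) (L (nat_lit 361) ln10_15_7 ln10_15_7_ok))))) (B (M (nat_lit 522) (B (M (nat_lit 523) (B (L (nat_lit 555) ln10_13_4 ln10_13_4_ok) (L (nat_lit 491) ln10_12_4 ln10_12_4_ok))) (M (nat_lit 393) (B (L (nat_lit 425)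 ln10_16_7 ln10_16_7_ok) (L (nat_lit 361) ln10_15_7 ln10_15_7_ok))))) (M (nat_lit 491) (B (L (nat_lit 523) ln10_12_4 ln10_12_4_ok) (M (nat_lit 489) (B (L (nat_lit 521) ln10_12_5 ln10_12_5_ok) (L (nat_lit 459) ln10_11_4 ln10_11_4_ok)))))))) (B (M (nat_lit 490) (B (M (nat_lit 459) (B (L (nat_lit 489) ln13_14_1 ln13_14_1_ok) (L (nat_lit 491) ln10_11_4 ln10_11_4_ok))) (M (nat_lit 361) (B (L (nat_lit 393) ln10_15_7 ln10_15_7_ok) (L (nat_lit 329) ln10_14_7 ln10_14_7_ok))))) (B (M (nat_lit 425) (B (L (nat_lit 459) ln13_14_3 ln13_14_3_ok) (M (nat_lit 330) (B (M (nat_lit 331) (B (L (nat_lit 299) ln10_13_6 ln10_13_6_ok) (L (nat_lit 363) ln10_14_6 ln10_14_6_ok))) (M (nat_lit 298) (B (L (nat_lit 393) ln10_9_5_c10 ln10_9_5_c10_ok) (M (nat_lit 297) (B (L (nat_lit 265) ln10_12_7_c10 ln10_12_7_c10_ok) (L (nat_lit 329) ln10_13_7_c10 ln10_13_7_c10_ok))))))))) (B (K (nat_lit 9675677110473424407588898303524309064136189561416208231909424726069249765931854908459365600923044503815691467361718379473861711459113762816)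 (nat_lit 147420407267645042704038340629060075302370278092943408665790748714194994188503168017724709898689119045598657024408602894202757264882645124189304715078195250925871824896) (nat_lit 147420407267645042704038340629060075302370278092943408665790748714194994188503168017724709898689119045598657024408602894202757264882645124189304715078195250925871824896) c10_s375) (M (nat_lit 331) (B (L (nat_lit 363) ln10_14_6 ln10_14_6_ok) (M (nat_lit 330) (B (L (nat_lit 299) ln10_13_6 ln10_13_6_ok) (M (nat_lit 329) (B (L (nat_lit 297) ln10_13_7_c10 ln10_13_7_c10_ok) (L (nat_lit 361) ln10_14_7 ln10_14_7_ok))))))))))))))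
noncomputable def c10_d554 : Cert := (B (K (nat_lit 8931394256794722951666390724246992420958060808072394538181178762108275134903735434973345964992150612681470645236901813269922279391412355072) (nat_lit 34323988311841395381847010140554065653654661068013596467242418247127190883522879628278835673239943158532961828341206127824732661605408039638709436821538865152) (nat_lit 34323988311841395381847010140554065653654661068013596467242418247127190883522879628278835673239943158532961828341206127824732661605408039638709436821538865152) c10_s374) (B (M (nat_lit 458) (B (M (nat_lit 330) (B (M (nat_lit 331) (B (L (nat_lit 299) ln10_13_6 ln10_13_6_ok) (L (nat_lit 363) ln10_14_6 ln10_14_6_ok))) (M (nat_lit 457) (B (L (nat_lit 425) ln10_10_5 ln10_10_5_ok) (L (nat_lit 489) ln10_11_5 ln10_11_5_ok))))) (M (nat_lit 490) (B (M (nat_lit 361) (B (L (nat_lit 329) ln10_14_7 ln10_14_7_ok) (L (nat_lit 393) ln10_15_7 ln10_15_7_ok))) (M (nat_lit 491) (B (L (nat_lit 459) ln10_11_4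 ln10_11_4_ok) (L (nat_lit 523) ln10_12_4 ln10_12_4_ok))))))) (B (M (nat_lit 330) (B (M (nat_lit 299) (B (L (nat_lit 331) ln10_13_6 ln10_13_6_ok) (M (nat_lit 298) (B (L (nat_lit 267) ln10_12_6_c10 ln10_12_6_c10_ok) (M (nat_lit 297) (B (L (nat_lit 329) ln10_13_7_c10 ln10_13_7_c10_ok) (L (nat_lit 265) ln10_12_7_c10 ln10_12_7_c10_ok))))))) (B (M (nat_lit 298) (B (M (nat_lit 425) (B (L (nat_lit 457) ln10_10_5 ln10_10_5_ok) (L (nat_lit 393) ln10_9_5_c10 ln10_9_5_c10_ok))) (M (nat_lit 297) (B (L (nat_lit 329) ln10_13_7_c10 ln10_13_7_c10_ok) (L (nat_lit 265) ln10_12_7_c10 ln10_12_7_c10_ok))))) (B (M (nat_lit 298) (B (M (nat_lit 425) (B (L (nat_lit 457) ln10_10_5 ln10_10_5_ok) (L (nat_lit 393) ln10_9_5_c10 ln10_9_5_c10_ok))) (M (nat_lit 299) (B (L (nat_lit 331) ln10_13_6 ln10_13_6_ok) (L (nat_lit 267) ln10_12_6_c10 ln10_12_6_c10_ok))))) (M (nat_lit 458) (B (M (nat_lit 457) (B (L (nat_lit 489) ln10_11_5 ln10_11_5_ok) (L (nat_lit 425) ln10_10_5 ln10_10_5_ok)))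 (M (nat_lit 331) (B (L (nat_lit 363) ln10_14_6 ln10_14_6_ok) (L (nat_lit 299) ln10_13_6 ln10_13_6_ok))))))))) (B (M (nat_lit 330) (B (M (nat_lit 298) (B (M (nat_lit 425) (B (L (nat_lit 457) ln10_10_5 ln10_10_5_ok) (L (nat_lit 393) ln10_9_5_c10 ln10_9_5_c10_ok))) (M (nat_lit 299) (B (L (nat_lit 331) ln10_13_6 ln10_13_6_ok) (L (nat_lit 267) ln10_12_6_c10 ln10_12_6_c10_ok))))) (B (M (nat_lit 297) (B (L (nat_lit 329) ln10_13_7_c10 ln10_13_7_c10_ok) (M (nat_lit 298) (B (L (nat_lit 265) ln10_12_7_c10 ln10_12_7_c10_ok) (M (nat_lit 299) (B (L (nat_lit 331) ln10_13_6 ln10_13_6_ok) (L (nat_lit 267) ln10_12_6_c10 ln10_12_6_c10_ok))))))) (B (M (nat_lit 298) (B (M (nat_lit 425) (B (L (nat_lit 457) ln10_10_5 ln10_10_5_ok) (L (nat_lit 393) ln10_9_5_c10 ln10_9_5_c10_ok))) (M (nat_lit 297) (B (L (nat_lit 329) ln10_13_7_c10 ln10_13_7_c10_ok) (L (nat_lit 265) ln10_12_7_c10 ln10_12_7_c10_ok))))) (M (nat_lit 458) (B (M (nat_lit 457) (B (L (nat_lit 489) ln10_11_5 ln10_11_5_ok)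 (L (nat_lit 425) ln10_10_5 ln10_10_5_ok))) (M (nat_lit 329) (B (L (nat_lit 361) ln10_14_7 ln10_14_7_ok) (L (nat_lit 297) ln10_13_7_c10 ln10_13_7_c10_ok))))))))) (B (M (nat_lit 458) (B (M (nat_lit 490) (B (M (nat_lit 361) (B (L (nat_lit 329) ln10_14_7 ln10_14_7_ok) (L (nat_lit 393) ln10_15_7 ln10_15_7_ok))) (M (nat_lit 491) (B (L (nat_lit 459) ln10_11_4 ln10_11_4_ok) (L (nat_lit 523) ln10_12_4 ln10_12_4_ok))))) (B (M (nat_lit 489) (B (L (nat_lit 457) ln10_11_5 ln10_11_5_ok) (M (nat_lit 490) (B (L (nat_lit 521) ln10_12_5 ln10_12_5_ok) (M (nat_lit 491) (B (L (nat_lit 459) ln10_11_4 ln10_11_4_ok) (L (nat_lit 523) ln10_12_4 ln10_12_4_ok))))))) (B (M (nat_lit 490) (B (M (nat_lit 361) (B (L (nat_lit 329) ln10_14_7 ln10_14_7_ok) (L (nat_lit 393) ln10_15_7 ln10_15_7_ok))) (M (nat_lit 489) (B (L (nat_lit 457) ln10_11_5 ln10_11_5_ok) (L (nat_lit 521) ln10_12_5 ln10_12_5_ok))))) (M (nat_lit 330) (B (M (nat_lit 329) (B (L (nat_lit 297) ln10_13_7_c10 ln10_13_7_c10_ok)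 (L (nat_lit 361) ln10_14_7 ln10_14_7_ok))) (M (nat_lit 457) (B (L (nat_lit 425) ln10_10_5 ln10_10_5_ok) (L (nat_lit 489) ln10_11_5 ln10_11_5_ok))))))))) (B (M (nat_lit 458) (B (M (nat_lit 490) (B (M (nat_lit 491) (B (L (nat_lit 523) ln10_12_4 ln10_12_4_ok) (L (nat_lit 459) ln10_11_4 ln10_11_4_ok))) (M (nat_lit 489) (B (L (nat_lit 521) ln10_12_5 ln10_12_5_ok) (L (nat_lit 457) ln10_11_5 ln10_11_5_ok))))) (B (M (nat_lit 330) (B (M (nat_lit 457) (B (L (nat_lit 489) ln10_11_5 ln10_11_5_ok) (L (nat_lit 425) ln10_10_5 ln10_10_5_ok))) (M (nat_lit 331) (B (L (nat_lit 363) ln10_14_6 ln10_14_6_ok) (L (nat_lit 299) ln10_13_6 ln10_13_6_ok))))) (B (M (nat_lit 425) (B (M (nat_lit 331) (B (L (nat_lit 363) ln10_14_6 ln10_14_6_ok) (M (nat_lit 330) (B (L (nat_lit 457) ln10_10_5 ln10_10_5_ok) (L (nat_lit 299) ln10_13_6 ln10_13_6_ok))))) (M (nat_lit 490) (B (M (nat_lit 491) (B (L (nat_lit 523) ln10_12_4 ln10_12_4_ok) (L (nat_lit 459) ln10_11_4 ln10_11_4_ok))) (M (nat_lit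 393) (B (L (nat_lit 522) ln10_16_7 ln10_16_7_ok) (L (nat_lit 361) ln10_15_7 ln10_15_7_ok))))))) (M (nat_lit 490) (B (M (nat_lit 491) (B (L (nat_lit 523) ln10_12_4 ln10_12_4_ok) (L (nat_lit 459) ln10_11_4 ln10_11_4_ok))) (M (nat_lit 522) (B (M (nat_lit 521) (B (L (nat_lit 553) ln10_13_5 ln10_13_5_ok) (L (nat_lit 489) ln10_12_5 ln10_12_5_ok))) (M (nat_lit 393) (B (L (nat_lit 425) ln10_16_7 ln10_16_7_ok) (L (nat_lit 361) ln10_15_7 ln10_15_7_ok))))))))))) (B (M (nat_lit 330) (B (M (nat_lit 298) (B (M (nat_lit 425) (B (L (nat_lit 457) ln10_10_5 ln10_10_5_ok) (L (nat_lit 393) ln10_9_5_c10 ln10_9_5_c10_ok))) (M (nat_lit 297) (B (L (nat_lit 329) ln10_13_7_c10 ln10_13_7_c10_ok) (L (nat_lit 265) ln10_12_7_c10 ln10_12_7_c10_ok))))) (B (M (nat_lit 298) (B (M (nat_lit 297) (B (L (nat_lit 329) ln10_13_7_c10 ln10_13_7_c10_ok) (L (nat_lit 265) ln10_12_7_c10 ln10_12_7_c10_ok))) (M (nat_lit 299) (B (L (nat_lit 331) ln10_13_6 ln10_13_6_ok) (L (nat_lit 267) ln10_12_6_c10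 ln10_12_6_c10_ok))))) (B (M (nat_lit 298) (B (M (nat_lit 425) (B (L (nat_lit 457) ln10_10_5 ln10_10_5_ok) (L (nat_lit 393) ln10_9_5_c10 ln10_9_5_c10_ok))) (M (nat_lit 299) (B (L (nat_lit 331) ln10_13_6 ln10_13_6_ok) (L (nat_lit 267) ln10_12_6_c10 ln10_12_6_c10_ok))))) (M (nat_lit 458) (B (M (nat_lit 329) (B (L (nat_lit 361) ln10_14_7 ln10_14_7_ok) (L (nat_lit 297) ln10_13_7_c10 ln10_13_7_c10_ok))) (M (nat_lit 331) (B (L (nat_lit 363) ln10_14_6 ln10_14_6_ok) (L (nat_lit 299) ln10_13_6 ln10_13_6_ok))))))))) c10_d553)))))))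
noncomputable def c10_d555 : Cert := (B (M (nat_lit 362) (B (M (nat_lit 363) (B (L (nat_lit 395) ln14_12_3 ln14_12_3_ok) (M (nat_lit 331) (B (L (nat_lit 458) ln10_14_6 ln10_14_6_ok) (M (nat_lit 299) (B (L (nat_lit 267) ln11_8_5 ln11_8_5_ok) (L (nat_lit 330) ln10_13_6 ln10_13_6_ok))))))) (B (M (nat_lit 395) (B (L (nat_lit 361) ln13_12_3 ln13_12_3_ok) (L (nat_lit 363) ln14_12_3 ln14_12_3_ok))) (B (M (nat_lit 361) (B (L (nat_lit 395) ln13_12_3 ln13_12_3_ok) (M (nat_lit 329) (B (L (nat_lit 458) ln10_14_7 ln10_14_7_ok) (M (nat_lit 297) (B (L (nat_lit 330) ln10_13_7_c10 ln10_13_7_c10_ok) (L (nat_lit 393) ln9_9_4_c10 ln9_9_4_c10_ok))))))) (K (nat_lit 8931394256794722951666390724246992420958060808072394538181178762108275134903735434973345964992150612681470645236901813269922279391412355072) (nat_lit 34323988311841395381847010140554065653654661068013596467242418247127190883522879628278835673239943158532961828341206127824732661605408039638709436821538865152)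 (nat_lit 34323988311841395381847010140554065653654661068013596467242418247127190883522879628278835673239943158532961828341206127824732661605408039638709436821538865152) c10_s374))))) (B (M (nat_lit 425) (B (L (nat_lit 395) ln13_12_1 ln13_12_1_ok) (M (nat_lit 458) (B (M (nat_lit 424) (B (L (nat_lit 459) ln13_14_3 ln13_14_3_ok) (M (nat_lit 423) (B (M (nat_lit 422) (B (L (nat_lit 457) ln6_13_0_c10 ln6_13_0_c10_ok) (M (nat_lit 454) (B (L (nat_lit 455) ln10_13_1_c10 ln10_13_1_c10_ok) (L (nat_lit 453) ln9_13_1_c10 ln9_13_1_c10_ok))))) (B (M (nat_lit 422) (B (M (nat_lit 454) (B (L (nat_lit 455) ln10_13_1_c10 ln10_13_1_c10_ok) (L (nat_lit 453) ln9_13_1_c10 ln9_13_1_c10_ok))) (M (nat_lit 390) (B (L (nat_lit 391) ln10_13_3_c10 ln10_13_3_c10_ok) (L (nat_lit 389) ln9_13_3_c10 ln9_13_3_c10_ok))))) (B (M (nat_lit 422) (B (L (nat_lit 457) ln6_13_0_c10 ln6_13_0_c10_ok) (M (nat_lit 390) (B (L (nat_lit 391) ln10_13_3_c10 ln10_13_3_c10_ok) (L (nat_lit 389) ln9_13_3_c10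 ln9_13_3_c10_ok))))) (M (nat_lit 456) (B (M (nat_lit 455) (B (L (nat_lit 454) ln10_13_1_c10 ln10_13_1_c10_ok) (M (nat_lit 391) (B (L (nat_lit 390) ln10_13_3_c10 ln10_13_3_c10_ok) (M (nat_lit 488) (B (L (nat_lit 520) ln8_16_7_c10 ln8_16_7_c10_ok) (L (nat_lit 359) ln7_11_4_c10 ln7_11_4_c10_ok))))))) (B (M (nat_lit 455) (B (L (nat_lit 454) ln10_13_1_c10 ln10_13_1_c10_ok) (M (nat_lit 391) (B (L (nat_lit 390) ln10_13_3_c10 ln10_13_3_c10_ok) (M (nat_lit 359) (B (L (nat_lit 488) ln7_11_4_c10 ln7_11_4_c10_ok) (L (nat_lit 327) ln7_10_4_c10 ln7_10_4_c10_ok))))))) (B (M (nat_lit 455) (B (L (nat_lit 454) ln10_13_1_c10 ln10_13_1_c10_ok) (M (nat_lit 457) (B (M (nat_lit 490) (B (L (nat_lit 491) ln7_14_0 ln7_14_0_ok) (M (nat_lit 522) (B (L (nat_lit 554) ln10_17_7 ln10_17_7_ok) (L (nat_lit 393) ln10_16_7 ln10_16_7_ok))))) (M (nat_lit 487) (B (L (nat_lit 486) ln10_14_1_c10 ln10_14_1_c10_ok) (M (nat_lit 392) (B (L (nat_lit 519) ln7_16_6_c10 ln7_16_6_c10_ok) (L (nat_lit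 360) ln8_11_5_c10 ln8_11_5_c10_ok))))))))) (M (nat_lit 391) (B (L (nat_lit 390) ln10_13_3_c10 ln10_13_3_c10_ok) (M (nat_lit 488) (B (L (nat_lit 520) ln8_16_7_c10 ln8_16_7_c10_ok) (M (nat_lit 359) (B (L (nat_lit 392) ln8_15_7_c10 ln8_15_7_c10_ok) (L (nat_lit 327) ln7_10_4_c10 ln7_10_4_c10_ok))))))))))))))))) (B (M (nat_lit 490) (B (M (nat_lit 393) (B (L (nat_lit 522) ln10_16_7 ln10_16_7_ok) (L (nat_lit 361) ln10_15_7 ln10_15_7_ok))) (B (M (nat_lit 522) (B (L (nat_lit 393) ln10_16_7 ln10_16_7_ok) (M (nat_lit 523) (B (L (nat_lit 491) ln10_12_4 ln10_12_4_ok) (L (nat_lit 555) ln10_13_4 ln10_13_4_ok))))) (B (M (nat_lit 522) (B (M (nat_lit 523) (B (L (nat_lit 491) ln10_12_4 ln10_12_4_ok) (L (nat_lit 555) ln10_13_4 ln10_13_4_ok))) (M (nat_lit 553) (B (L (nat_lit 521) ln10_13_5 ln10_13_5_ok) (M (nat_lit 554) (B (L (nat_lit 457) ln10_17_7 ln10_17_7_ok) (L (nat_lit 585) ln10_14_5 ln10_14_5_ok))))))) (M (nat_lit 491) (B (L (nat_lit 523) ln10_12_4 ln10_12_4_ok)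 (M (nat_lit 393) (B (L (nat_lit 361) ln10_15_7 ln10_15_7_ok) (M (nat_lit 489) (B (L (nat_lit 521) ln10_12_5 ln10_12_5_ok) (M (nat_lit 488) (B (L (nat_lit 459) ln13_14_1 ln13_14_1_ok) (M (nat_lit 520) (B (L (nat_lit 457) ln9_12_5_c10 ln9_12_5_c10_ok) (L (nat_lit 519) ln11_15_1 ln11_15_1_ok))))))))))))))) (B (M (nat_lit 490) (B (M (nat_lit 393) (B (L (nat_lit 522) ln10_16_7 ln10_16_7_ok) (L (nat_lit 361) ln10_15_7 ln10_15_7_ok))) (M (nat_lit 489) (B (L (nat_lit 521) ln10_12_5 ln10_12_5_ok) (L (nat_lit 459) ln13_14_1 ln13_14_1_ok))))) (B (L (nat_lit 459) ln13_14_3 ln13_14_3_ok) (M (nat_lit 490) (B (M (nat_lit 393) (B (L (nat_lit 361) ln10_15_7 ln10_15_7_ok) (L (nat_lit 522) ln10_16_7 ln10_16_7_ok))) (B (M (nat_lit 522) (B (M (nat_lit 457) (B (L (nat_lit 554) ln10_17_7 ln10_17_7_ok) (L (nat_lit 393) ln10_16_7 ln10_16_7_ok))) (B (L (nat_lit 393) ln10_16_7 ln10_16_7_ok) (M (nat_lit 554) (B (L (nat_lit 457) ln10_17_7 ln10_17_7_ok) (M (nat_lit 553) (B (L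 (nat_lit 585) ln10_14_5 ln10_14_5_ok) (L (nat_lit 521) ln10_13_5 ln10_13_5_ok)))))))) (B (M (nat_lit 522) (B (M (nat_lit 554) (B (L (nat_lit 457) ln10_17_7 ln10_17_7_ok) (M (nat_lit 553) (B (L (nat_lit 585) ln10_14_5 ln10_14_5_ok) (L (nat_lit 521) ln10_13_5 ln10_13_5_ok))))) (M (nat_lit 523) (B (L (nat_lit 555) ln10_13_4 ln10_13_4_ok) (L (nat_lit 491) ln10_12_4 ln10_12_4_ok))))) (M (nat_lit 393) (B (L (nat_lit 361) ln10_15_7 ln10_15_7_ok) (M (nat_lit 489) (B (L (nat_lit 521) ln10_12_5 ln10_12_5_ok) (M (nat_lit 491) (B (L (nat_lit 523) ln10_12_4 ln10_12_4_ok) (M (nat_lit 488) (B (M (nat_lit 520) (B (L (nat_lit 457) ln9_12_5_c10 ln9_12_5_c10_ok) (L (nat_lit 519) ln11_15_1 ln11_15_1_ok))) (B (M (nat_lit 456) (B (L (nat_lit 455) ln11_15_3 ln11_15_3_ok) (M (nat_lit 520) (B (L (nat_lit 519) ln11_15_1 ln11_15_1_ok) (L (nat_lit 424) ln8_16_6_c10 ln8_16_6_c10_ok))))) (B (M (nat_lit 487) (B (M (nat_lit 486) (B (L (nat_lit 457) ln6_15_2 ln6_15_2_ok) (M (nat_lit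 454) (B (L (nat_lit 453) ln9_15_3_c10 ln9_15_3_c10_ok) (L (nat_lit 455) ln10_15_3 ln10_15_3_ok))))) (B (M (nat_lit 455) (B (L (nat_lit 454) ln10_15_3 ln10_15_3_ok) (L (nat_lit 456) ln11_15_3 ln11_15_3_ok))) (M (nat_lit 486) (B (L (nat_lit 457) ln6_15_2 ln6_15_2_ok) (M (nat_lit 518) (B (L (nat_lit 517) ln9_15_1_c10 ln9_15_1_c10_ok) (L (nat_lit 519) ln10_15_1 ln10_15_1_ok)))))))) (M (nat_lit 487) (B (M (nat_lit 455) (B (L (nat_lit 454) ln10_15_3 ln10_15_3_ok) (L (nat_lit 456) ln11_15_3 ln11_15_3_ok))) (M (nat_lit 457) (B (L (nat_lit 486) ln6_15_2 ln6_15_2_ok) (L (nat_lit 520) ln9_12_5_c10 ln9_12_5_c10_ok)))))))))))))))))))))))))) (B (M (nat_lit 458) c10_d552) (M (nat_lit 362) c10_d554))))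
noncomputable def c10_d556 : Cert := (B (M (nat_lit 462) (B (L (nat_lit 494) ln13_11_4 ln13_11_4_ok) (M (nat_lit 427) (B (L (nat_lit 459) ln14_14_3 ln14_14_3_ok) (L (nat_lit 395) ln14_12_1 ln14_12_1_ok))))) (B (M (nat_lit 427) (B (L (nat_lit 395) ln14_12_1 ln14_12_1_ok) (M (nat_lit 459) (B (L (nat_lit 462) ln14_14_3 ln14_14_3_ok) (M (nat_lit 425) (B (L (nat_lit 458) ln13_14_3 ln13_14_3_ok) (L (nat_lit 424) ln8_13_0 ln8_13_0_ok))))))) (B (M (nat_lit 394) (B (M (nat_lit 362) (B (M (nat_lit 395) (B (L (nat_lit 361) ln13_12_3 ln13_12_3_ok) (L (nat_lit 363) ln14_12_3 ln14_12_3_ok))) (B (M (nat_lit 395) (B (L (nat_lit 363) ln14_12_3 ln14_12_3_ok) (L (nat_lit 425) ln13_12_1 ln13_12_1_ok))) (B (M (nat_lit 395) (B (L (nat_lit 361) ln13_12_3 ln13_12_3_ok) (L (nat_lit 425) ln13_12_1 ln13_12_1_ok))) (M (nat_lit 458) (B (M (nat_lit 329) (B (L (nat_lit 361) ln10_14_7 ln10_14_7_ok) (M (nat_lit 330) (B (L (nat_lit 297) ln10_13_7_c10 ln10_13_7_c10_ok) (M (nat_lit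 331) (B (L (nat_lit 299) ln10_13_6 ln10_13_6_ok) (L (nat_lit 363) ln10_14_6 ln10_14_6_ok))))))) (M (nat_lit 489) (B (L (nat_lit 457) ln10_11_5 ln10_11_5_ok) (M (nat_lit 490) (B (L (nat_lit 521) ln10_12_5 ln10_12_5_ok) (M (nat_lit 491) (B (L (nat_lit 459) ln10_11_4 ln10_11_4_ok) (L (nat_lit 523) ln10_12_4 ln10_12_4_ok))))))))))))) (B (M (nat_lit 362) (B (M (nat_lit 395) (B (L (nat_lit 361) ln13_12_3 ln13_12_3_ok) (L (nat_lit 363) ln14_12_3 ln14_12_3_ok))) (B (M (nat_lit 395) (B (L (nat_lit 363) ln14_12_3 ln14_12_3_ok) (L (nat_lit 425) ln13_12_1 ln13_12_1_ok))) (B (M (nat_lit 395) (B (L (nat_lit 361) ln13_12_3 ln13_12_3_ok) (L (nat_lit 425) ln13_12_1 ln13_12_1_ok))) (M (nat_lit 330) (B (M (nat_lit 298) (B (M (nat_lit 267) (B (L (nat_lit 299) ln10_12_6_c10 ln10_12_6_c10_ok) (M (nat_lit 266) (B (L (nat_lit 235) ln10_11_6_c10 ln10_11_6_c10_ok) (M (nat_lit 265) (B (L (nat_lit 297) ln10_12_7_c10 ln10_12_7_c10_ok) (L (nat_lit 233) ln10_11_7_c10 ln10_11_7_c10_ok)))))))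 (B (M (nat_lit 266) (B (M (nat_lit 393) (B (L (nat_lit 425) ln10_9_5_c10 ln10_9_5_c10_ok) (L (nat_lit 361) ln10_8_5_c10 ln10_8_5_c10_ok))) (M (nat_lit 265) (B (L (nat_lit 297) ln10_12_7_c10 ln10_12_7_c10_ok) (L (nat_lit 233) ln10_11_7_c10 ln10_11_7_c10_ok))))) (B (M (nat_lit 266) (B (M (nat_lit 393) (B (L (nat_lit 425) ln10_9_5_c10 ln10_9_5_c10_ok) (L (nat_lit 361) ln10_8_5_c10 ln10_8_5_c10_ok))) (M (nat_lit 267) (B (L (nat_lit 299) ln10_12_6_c10 ln10_12_6_c10_ok) (L (nat_lit 235) ln10_11_6_c10 ln10_11_6_c10_ok))))) (M (nat_lit 425) (B (L (nat_lit 457) ln10_10_5 ln10_10_5_ok) (L (nat_lit 393) ln10_9_5_c10 ln10_9_5_c10_ok))))))) (B (M (nat_lit 458) (B (M (nat_lit 329) (B (L (nat_lit 297) ln10_13_7_c10 ln10_13_7_c10_ok) (L (nat_lit 361) ln10_14_7 ln10_14_7_ok))) (M (nat_lit 457) (B (L (nat_lit 425) ln10_10_5 ln10_10_5_ok) (L (nat_lit 489) ln10_11_5 ln10_11_5_ok))))) (B (M (nat_lit 298) (B (M (nat_lit 393) (B (L (nat_lit 425) ln10_9_5_c10 ln10_9_5_c10_ok)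 (M (nat_lit 265) (B (L (nat_lit 297) ln10_12_7_c10 ln10_12_7_c10_ok) (M (nat_lit 266) (B (L (nat_lit 233) ln10_11_7_c10 ln10_11_7_c10_ok) (L (nat_lit 361) ln10_8_5_c10 ln10_8_5_c10_ok))))))) (B (M (nat_lit 266) (B (M (nat_lit 267) (B (L (nat_lit 235) ln10_11_6_c10 ln10_11_6_c10_ok) (L (nat_lit 299) ln10_12_6_c10 ln10_12_6_c10_ok))) (M (nat_lit 393) (B (L (nat_lit 361) ln10_8_5_c10 ln10_8_5_c10_ok) (L (nat_lit 425) ln10_9_5_c10 ln10_9_5_c10_ok))))) (M (nat_lit 297) (B (L (nat_lit 265) ln10_12_7_c10 ln10_12_7_c10_ok) (M (nat_lit 299) (B (L (nat_lit 267) ln10_12_6_c10 ln10_12_6_c10_ok) (M (nat_lit 296) (B (L (nat_lit 331) ln10_13_6 ln10_13_6_ok) (M (nat_lit 295) (B (M (nat_lit 263) (B (L (nat_lit 262) ln10_9_3_c10 ln10_9_3_c10_ok) (L (nat_lit 264) ln11_9_3 ln11_9_3_ok))) (M (nat_lit 327) (B (L (nat_lit 326) ln10_9_1_c10 ln10_9_1_c10_ok) (L (nat_lit 328) ln11_9_1 ln11_9_1_ok)))))))))))))) (B (M (nat_lit 297) (B (M (nat_lit 265) (B (L (nat_lit 298) ln10_12_7_c10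 ln10_12_7_c10_ok) (L (nat_lit 329) ln10_13_7_c10 ln10_13_7_c10_ok))) (B (M (nat_lit 331) (B (L (nat_lit 329) ln10_13_7_c10 ln10_13_7_c10_ok) (L (nat_lit 299) ln10_13_6 ln10_13_6_ok))) (M (nat_lit 298) (B (L (nat_lit 265) ln10_12_7_c10 ln10_12_7_c10_ok) (M (nat_lit 299) (B (L (nat_lit 267) ln10_12_6_c10 ln10_12_6_c10_ok) (L (nat_lit 331) ln10_13_6 ln10_13_6_ok)))))))) (M (nat_lit 298) (B (M (nat_lit 266) (B (M (nat_lit 267) (B (L (nat_lit 235) ln10_11_6_c10 ln10_11_6_c10_ok) (L (nat_lit 299) ln10_12_6_c10 ln10_12_6_c10_ok))) (M (nat_lit 393) (B (L (nat_lit 361) ln10_8_5_c10 ln10_8_5_c10_ok) (L (nat_lit 425) ln10_9_5_c10 ln10_9_5_c10_ok))))) (B (M (nat_lit 299) (B (L (nat_lit 267) ln10_12_6_c10 ln10_12_6_c10_ok) (L (nat_lit 331) ln10_13_6 ln10_13_6_ok))) (B (M (nat_lit 266) (B (M (nat_lit 393) (B (L (nat_lit 361) ln10_8_5_c10 ln10_8_5_c10_ok) (L (nat_lit 425) ln10_9_5_c10 ln10_9_5_c10_ok))) (M (nat_lit 234) (B (M (nat_lit 233) (B (L (nat_lit 201) ln10_10_7_c10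 ln10_10_7_c10_ok) (L (nat_lit 265) ln10_11_7_c10 ln10_11_7_c10_ok))) (M (nat_lit 331) (B (L (nat_lit 363) ln10_7_4 ln10_7_4_ok) (L (nat_lit 299) ln10_13_6 ln10_13_6_ok))))))) (M (nat_lit 266) (B (M (nat_lit 393) (B (L (nat_lit 361) ln10_8_5_c10 ln10_8_5_c10_ok) (L (nat_lit 425) ln10_9_5_c10 ln10_9_5_c10_ok))) (M (nat_lit 234) (B (M (nat_lit 235) (B (L (nat_lit 203) ln10_10_6_c10 ln10_10_6_c10_ok) (L (nat_lit 267) ln10_11_6_c10 ln10_11_6_c10_ok))) (M (nat_lit 233) (B (L (nat_lit 201) ln10_10_7_c10 ln10_10_7_c10_ok) (L (nat_lit 265) ln10_11_7_c10 ln10_11_7_c10_ok)))))))))))))))))))) (B (M (nat_lit 395) (B (L (nat_lit 425) ln13_12_1 ln13_12_1_ok) (M (nat_lit 362) (B (L (nat_lit 361) ln13_12_3 ln13_12_3_ok) (L (nat_lit 363) ln14_12_3 ln14_12_3_ok))))) c10_d555)))) (B (M (nat_lit 395) (B (L (nat_lit 427) ln14_12_1 ln14_12_1_ok) (M (nat_lit 394) (B (L (nat_lit 425) ln13_12_1 ln13_12_1_ok) (M (nat_lit 362) (B (L (nat_lit 361) ln13_12_3 ln13_12_3_ok) (L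 (nat_lit 363) ln14_12_3 ln14_12_3_ok))))))) (M (nat_lit 462) (B (L (nat_lit 494) ln13_11_4 ln13_11_4_ok) (M (nat_lit 459) (B (L (nat_lit 427) ln14_14_3 ln14_14_3_ok) (M (nat_lit 458) (B (L (nat_lit 425) ln13_14_3 ln13_14_3_ok) (M (nat_lit 490) (B (L (nat_lit 491) ln14_14_1 ln14_14_1_ok) (L (nat_lit 489) ln13_14_1 ln13_14_1_ok)))))))))))))
noncomputable def c10_d557 : Cert := (B (K (nat_lit 8931394256621431097518788932954815973983194743725289934426374236615926711123317465829479309420834064270636221093759615673793712985338806272) (nat_lit 9434906065129282738786887365590475850877076149741341600329523994187163520247184895358159156184660519744801483707666903533312032916548426147498533391317544544886528671744) (nat_lit 9434906065129282738786887365590475850877076149741341600329523994187163520247184895358159156184660519744801483707666903533312032916548426147498533391317544544886528671744) c10_s379) (B (M (nat_lit 336) (B (M (nat_lit 304) (B (M (nat_lit 271)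 (B (L (nat_lit 303) ln16_12_7_c10 ln16_12_7_c10_ok) (M (nat_lit 272) (B (L (nat_lit 239) ln16_11_7_c10 ln16_11_7_c10_ok) (M (nat_lit 273) (B (L (nat_lit 305) ln16_12_6_c10 ln16_12_6_c10_ok) (L (nat_lit 241) ln16_11_6_c10 ln16_11_6_c10_ok))))))) (B (M (nat_lit 272) (B (M (nat_lit 401) (B (L (nat_lit 433) ln16_9_4_c10 ln16_9_4_c10_ok) (L (nat_lit 369) ln16_8_4_c10 ln16_8_4_c10_ok))) (M (nat_lit 273) (B (L (nat_lit 305) ln16_12_6_c10 ln16_12_6_c10_ok) (L (nat_lit 241) ln16_11_6_c10 ln16_11_6_c10_ok))))) (B (M (nat_lit 272) (B (M (nat_lit 401) (B (L (nat_lit 433) ln16_9_4_c10 ln16_9_4_c10_ok) (L (nat_lit 369) ln16_8_4_c10 ln16_8_4_c10_ok))) (M (nat_lit 271) (B (L (nat_lit 303) ln16_12_7_c10 ln16_12_7_c10_ok) (L (nat_lit 239) ln16_11_7_c10 ln16_11_7_c10_ok))))) (M (nat_lit 433) (B (L (nat_lit 465) ln16_10_4_c10 ln16_10_4_c10_ok) (L (nat_lit 401) ln16_9_4_c10 ln16_9_4_c10_ok))))))) (B (K (nat_lit 8931394256621431097518788932954815974123178790111402697586214379151454478505920309406644905352083383080873213042519674760098556314814251008)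 (nat_lit 349960116079355922593302953070494262465630156145619646696095481348834895047970231066365451030165979136) (nat_lit 349960116079355922593302953070494262465630156145619646696095481348834895047970231066365451030165979136) c10_s380) (B (M (nat_lit 304) (B (M (nat_lit 303) (B (L (nat_lit 271) ln16_12_7_c10 ln16_12_7_c10_ok) (L (nat_lit 335) ln16_13_7 ln16_13_7_ok))) (M (nat_lit 433) (B (L (nat_lit 401) ln16_9_4_c10 ln16_9_4_c10_ok) (L (nat_lit 465) ln16_10_4_c10 ln16_10_4_c10_ok))))) (B (M (nat_lit 304) (B (M (nat_lit 433) (B (L (nat_lit 465) ln16_10_4_c10 ln16_10_4_c10_ok) (L (nat_lit 401) ln16_9_4_c10 ln16_9_4_c10_ok))) (M (nat_lit 305) (B (L (nat_lit 337) ln16_13_6_c10 ln16_13_6_c10_ok) (L (nat_lit 273) ln16_12_6_c10 ln16_12_6_c10_ok))))) (M (nat_lit 337) (B (L (nat_lit 305) ln16_13_6_c10 ln16_13_6_c10_ok) (M (nat_lit 335) (B (L (nat_lit 303) ln16_13_7 ln16_13_7_ok) (M (nat_lit 338) (B (M (nat_lit 371) (B (L (nat_lit 370) ln15_10_0_c10 ln15_10_0_c10_ok)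 (M (nat_lit 339) (B (L (nat_lit 372) ln16_10_0_c10 ln16_10_0_c10_ok) (M (nat_lit 307) (B (L (nat_lit 308) ln16_10_2_c10 ln16_10_2_c10_ok) (L (nat_lit 306) ln15_10_2_c10 ln15_10_2_c10_ok))))))) (B (M (nat_lit 369) (B (M (nat_lit 370) (B (L (nat_lit 371) ln15_10_0_c10 ln15_10_0_c10_ok) (L (nat_lit 334) ln14_10_0 ln14_10_0_ok))) (B (M (nat_lit 334) (B (L (nat_lit 370) ln14_10_0 ln14_10_0_ok) (L (nat_lit 333) ln13_10_0 ln13_10_0_ok))) (M (nat_lit 433) (B (L (nat_lit 465) ln16_10_4_c10 ln16_10_4_c10_ok) (M (nat_lit 306) (B (L (nat_lit 307) ln15_10_2_c10 ln15_10_2_c10_ok) (L (nat_lit 401) ln17_13_6_c10 ln17_13_6_c10_ok)))))))) (B (M (nat_lit 339) (B (M (nat_lit 371) (B (L (nat_lit 372) ln16_10_0_c10 ln16_10_0_c10_ok) (L (nat_lit 370) ln15_10_0_c10 ln15_10_0_c10_ok))) (B (M (nat_lit 369) (B (L (nat_lit 340) ln20_10_1_c10 ln20_10_1_c10_ok) (M (nat_lit 370) (B (L (nat_lit 371) ln15_10_0_c10 ln15_10_0_c10_ok) (L (nat_lit 334) ln14_10_0 ln14_10_0_ok))))) (B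 (M (nat_lit 369) (B (L (nat_lit 340) ln20_10_1_c10 ln20_10_1_c10_ok) (M (nat_lit 334) (B (L (nat_lit 370) ln14_10_0 ln14_10_0_ok) (L (nat_lit 333) ln13_10_0 ln13_10_0_ok))))) (M (nat_lit 340) (B (L (nat_lit 369) ln20_10_1_c10 ln20_10_1_c10_ok) (M (nat_lit 372) (B (L (nat_lit 373) ln17_10_0_c10 ln17_10_0_c10_ok) (L (nat_lit 371) ln16_10_0_c10 ln16_10_0_c10_ok))))))))) (B (M (nat_lit 369) (B (M (nat_lit 334) (B (L (nat_lit 370) ln14_10_0 ln14_10_0_ok) (L (nat_lit 333) ln13_10_0 ln13_10_0_ok))) (M (nat_lit 433) (B (L (nat_lit 465) ln16_10_4_c10 ln16_10_4_c10_ok) (M (nat_lit 306) (B (L (nat_lit 307) ln15_10_2_c10 ln15_10_2_c10_ok) (L (nat_lit 401) ln17_13_6_c10 ln17_13_6_c10_ok))))))) (M (nat_lit 339) (B (M (nat_lit 307) (B (L (nat_lit 308) ln16_10_2_c10 ln16_10_2_c10_ok) (L (nat_lit 306) ln15_10_2_c10 ln15_10_2_c10_ok))) (M (nat_lit 340) (B (L (nat_lit 369) ln20_10_1_c10 ln20_10_1_c10_ok) (M (nat_lit 372) (B (L (nat_lit 373) ln17_10_0_c10 ln17_10_0_c10_ok)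 (L (nat_lit 371) ln16_10_0_c10 ln16_10_0_c10_ok))))))))))))))))))))) (B (M (nat_lit 336) (B (M (nat_lit 334) (B (L (nat_lit 366) ln13_14_6 ln13_14_6_ok) (M (nat_lit 333) (B (L (nat_lit 302) ln13_13_6 ln13_13_6_ok) (M (nat_lit 300) (B (L (nat_lit 332) ln13_13_7 ln13_13_7_ok) (M (nat_lit 301) (B (L (nat_lit 268) ln13_12_7 ln13_12_7_ok) (L (nat_lit 335) ln16_10_3 ln16_10_3_ok))))))))) (B (M (nat_lit 337) (B (L (nat_lit 305) ln16_13_6_c10 ln16_13_6_c10_ok) (M (nat_lit 369) (B (L (nat_lit 464) ln16_14_6_c10 ln16_14_6_c10_ok) (M (nat_lit 335) (B (L (nat_lit 303) ln16_13_7 ln16_13_7_ok) (M (nat_lit 334) (B (L (nat_lit 366) ln17_10_1 ln17_10_1_ok) (L (nat_lit 370) ln14_10_0 ln14_10_0_ok))))))))) (B (M (nat_lit 303) (B (L (nat_lit 335) ln16_13_7 ln16_13_7_ok) (M (nat_lit 304) (B (L (nat_lit 271) ln16_12_7_c10 ln16_12_7_c10_ok) (M (nat_lit 305) (B (L (nat_lit 273) ln16_12_6_c10 ln16_12_6_c10_ok) (L (nat_lit 337) ln16_13_6_c10 ln16_13_6_c10_ok))))))) (M (nat_lit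 337) (B (L (nat_lit 305) ln16_13_6_c10 ln16_13_6_c10_ok) (M (nat_lit 464) (B (L (nat_lit 369) ln16_14_6_c10 ln16_14_6_c10_ok) (M (nat_lit 496) (B (M (nat_lit 495) (B (L (nat_lit 463) ln16_11_5_c10 ln16_11_5_c10_ok) (L (nat_lit 527) ln16_12_5_c10 ln16_12_5_c10_ok))) (M (nat_lit 497) (B (L (nat_lit 465) ln16_11_4 ln16_11_4_ok) (L (nat_lit 529) ln16_12_4 ln16_12_4_ok))))))))))))) (K (nat_lit 8931394256621431097518788932954815973983194743725289934426374236615926711123317465829479309420834064270636221093759615673793712985338806272) (nat_lit 95268205293055143916211988780447967705105700908864252178546333988745790720341156591131831304959452005630201521567701663929275852675688169472) (nat_lit 95268205293055143916211988780447967705105700908864252178546333988745790720341156591131831304959452005630201521567701663929275852675688169472) c10_s381))))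
noncomputable def c10_d558 : Cert := (B (K (nat_lit 8931394256621431097518788932954815973983194743725289934426374236615926711123317465829479309420834064270636221093759615673793712985338806272) (nat_lit 2196735251957849304438208649017641559392029326985370691105306233111258530711350609297405767942475809931108329452719594914250420173752951335705929365853483040768) (nat_lit 2196735251957849304438208649017641559392029326985370691105306233111258530711350609297405767942475809931108329452719594914250420173752951335705929365853483040768) c10_s376) (B (M (nat_lit 464) (B (M (nat_lit 496) (B (M (nat_lit 495) (B (L (nat_lit 527) ln16_12_5_c10 ln16_12_5_c10_ok) (L (nat_lit 463) ln16_11_5_c10 ln16_11_5_c10_ok))) (M (nat_lit 497) (B (L (nat_lit 529) ln16_12_4 ln16_12_4_ok) (L (nat_lit 465) ln16_11_4 ln16_11_4_ok))))) (B (M (nat_lit 336) (B (M (nat_lit 465) (B (L (nat_lit 497) ln16_11_4 ln16_11_4_ok) (L (nat_lit 433) ln16_10_4_c10 ln16_10_4_c10_ok))) (M (nat_lit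 335) (B (L (nat_lit 367) ln16_14_7 ln16_14_7_ok) (L (nat_lit 303) ln16_13_7 ln16_13_7_ok))))) (B (M (nat_lit 433) (B (M (nat_lit 335) (B (L (nat_lit 367) ln16_14_7 ln16_14_7_ok) (M (nat_lit 336) (B (L (nat_lit 465) ln16_10_4_c10 ln16_10_4_c10_ok) (L (nat_lit 303) ln16_13_7 ln16_13_7_ok))))) (M (nat_lit 496) (B (M (nat_lit 495) (B (L (nat_lit 527) ln16_12_5_c10 ln16_12_5_c10_ok) (L (nat_lit 463) ln16_11_5_c10 ln16_11_5_c10_ok))) (M (nat_lit 401) (B (L (nat_lit 528) ln16_16_6_c10 ln16_16_6_c10_ok) (L (nat_lit 369) ln16_15_6_c10 ln16_15_6_c10_ok))))))) (M (nat_lit 496) (B (M (nat_lit 495) (B (L (nat_lit 527) ln16_12_5_c10 ln16_12_5_c10_ok) (L (nat_lit 463) ln16_11_5_c10 ln16_11_5_c10_ok))) (M (nat_lit 528) (B (M (nat_lit 529) (B (L (nat_lit 561) ln16_13_4_c10 ln16_13_4_c10_ok) (L (nat_lit 497) ln16_12_4 ln16_12_4_ok))) (M (nat_lit 401) (B (L (nat_lit 433) ln16_16_6_c10 ln16_16_6_c10_ok) (L (nat_lit 369) ln16_15_6_c10 ln16_15_6_c10_ok))))))))))) (B (M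 (nat_lit 336) (B (M (nat_lit 304) (B (M (nat_lit 433) (B (L (nat_lit 465) ln16_10_4_c10 ln16_10_4_c10_ok) (L (nat_lit 401) ln16_9_4_c10 ln16_9_4_c10_ok))) (M (nat_lit 305) (B (L (nat_lit 337) ln16_13_6_c10 ln16_13_6_c10_ok) (L (nat_lit 273) ln16_12_6_c10 ln16_12_6_c10_ok))))) (B (M (nat_lit 304) (B (M (nat_lit 305) (B (L (nat_lit 337) ln16_13_6_c10 ln16_13_6_c10_ok) (L (nat_lit 273) ln16_12_6_c10 ln16_12_6_c10_ok))) (M (nat_lit 303) (B (L (nat_lit 335) ln16_13_7 ln16_13_7_ok) (L (nat_lit 271) ln16_12_7_c10 ln16_12_7_c10_ok))))) (B (M (nat_lit 304) (B (M (nat_lit 433) (B (L (nat_lit 465) ln16_10_4_c10 ln16_10_4_c10_ok) (L (nat_lit 401) ln16_9_4_c10 ln16_9_4_c10_ok))) (M (nat_lit 303) (B (L (nat_lit 335) ln16_13_7 ln16_13_7_ok) (L (nat_lit 271) ln16_12_7_c10 ln16_12_7_c10_ok))))) (M (nat_lit 464) (B (M (nat_lit 337) (B (L (nat_lit 369) ln16_14_6_c10 ln16_14_6_c10_ok) (L (nat_lit 305) ln16_13_6_c10 ln16_13_6_c10_ok))) (M (nat_lit 335) (B (L (nat_lit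 367) ln16_14_7 ln16_14_7_ok) (L (nat_lit 303) ln16_13_7 ln16_13_7_ok))))))))) (B (M (nat_lit 336) (B (M (nat_lit 305) (B (L (nat_lit 337) ln16_13_6_c10 ln16_13_6_c10_ok) (M (nat_lit 304) (B (L (nat_lit 273) ln16_12_6_c10 ln16_12_6_c10_ok) (M (nat_lit 303) (B (L (nat_lit 271) ln16_12_7_c10 ln16_12_7_c10_ok) (L (nat_lit 335) ln16_13_7 ln16_13_7_ok))))))) (B (M (nat_lit 304) (B (M (nat_lit 305) (B (L (nat_lit 273) ln16_12_6_c10 ln16_12_6_c10_ok) (L (nat_lit 337) ln16_13_6_c10 ln16_13_6_c10_ok))) (M (nat_lit 433) (B (L (nat_lit 401) ln16_9_4_c10 ln16_9_4_c10_ok) (L (nat_lit 465) ln16_10_4_c10 ln16_10_4_c10_ok))))) (B (M (nat_lit 337) (B (L (nat_lit 305) ln16_13_6_c10 ln16_13_6_c10_ok) (M (nat_lit 338) (B (M (nat_lit 339) (B (L (nat_lit 367) ln19_10_1_c10 ln19_10_1_c10_ok) (M (nat_lit 340) (B (L (nat_lit 369) ln20_10_1_c10 ln20_10_1_c10_ok) (M (nat_lit 308) (B (L (nat_lit 307) ln16_10_2_c10 ln16_10_2_c10_ok) (L (nat_lit 309) ln17_10_2_c10 ln17_10_2_c10_ok)))))))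 (B (M (nat_lit 339) (B (M (nat_lit 335) (B (L (nat_lit 303) ln16_13_7 ln16_13_7_ok) (M (nat_lit 307) (B (L (nat_lit 306) ln15_10_2_c10 ln15_10_2_c10_ok) (L (nat_lit 308) ln16_10_2_c10 ln16_10_2_c10_ok))))) (B (M (nat_lit 340) (B (L (nat_lit 369) ln20_10_1_c10 ln20_10_1_c10_ok) (M (nat_lit 308) (B (L (nat_lit 307) ln16_10_2_c10 ln16_10_2_c10_ok) (L (nat_lit 309) ln17_10_2_c10 ln17_10_2_c10_ok))))) (M (nat_lit 335) (B (L (nat_lit 303) ln16_13_7 ln16_13_7_ok) (M (nat_lit 371) (B (L (nat_lit 370) ln15_10_0_c10 ln15_10_0_c10_ok) (L (nat_lit 372) ln16_10_0_c10 ln16_10_0_c10_ok)))))))) (B (M (nat_lit 339) (B (L (nat_lit 367) ln19_10_1_c10 ln19_10_1_c10_ok) (M (nat_lit 335) (B (L (nat_lit 303) ln16_13_7 ln16_13_7_ok) (M (nat_lit 371) (B (L (nat_lit 370) ln15_10_0_c10 ln15_10_0_c10_ok) (L (nat_lit 372) ln16_10_0_c10 ln16_10_0_c10_ok))))))) (M (nat_lit 335) (B (L (nat_lit 303) ln16_13_7 ln16_13_7_ok) (M (nat_lit 369) (B (M (nat_lit 370) (B (L (nat_lit 334)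 ln14_10_0 ln14_10_0_ok) (L (nat_lit 371) ln15_10_0_c10 ln15_10_0_c10_ok))) (M (nat_lit 433) (B (L (nat_lit 465) ln16_10_4_c10 ln16_10_4_c10_ok) (M (nat_lit 306) (B (L (nat_lit 307) ln15_10_2_c10 ln15_10_2_c10_ok) (L (nat_lit 401) ln17_13_6_c10 ln17_13_6_c10_ok))))))))))))))) (M (nat_lit 304) (B (M (nat_lit 303) (B (L (nat_lit 271) ln16_12_7_c10 ln16_12_7_c10_ok) (L (nat_lit 335) ln16_13_7 ln16_13_7_ok))) (M (nat_lit 433) (B (L (nat_lit 401) ln16_9_4_c10 ln16_9_4_c10_ok) (L (nat_lit 465) ln16_10_4_c10 ln16_10_4_c10_ok))))))))) (B (K (nat_lit 8931394256621431097518788932954815973983194743725289934426374236615926711123317465829479309420834064270636221093759615673793712985338806272) (nat_lit 204586913041142969533442606788896450723696885101231343546105810424896141529289153793233236570046584688994159758203535671251069864057024179191658053632) (nat_lit 204586913041142969533442606788896450723696885101231343546105810424896141529289153793233236570046584688994159758203535671251069864057024179191658053632)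 c10_s378) (K (nat_lit 8931394256621431097518788932954815973983194743725289934426374236615926711123317465829479309420834064270636221093759615673793712985338806272) (nat_lit 9434906065129282738786887365590475850877076149741341600329523994187163520247184895358159156184660519744801483707666903533312032916548426147498533391317544544886528671744) (nat_lit 9434906065129282738786887365590475850877076149741341600329523994187163520247184895358159156184660519744801483707666903533312032916548426147498533391317544544886528671744) c10_s379))))))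
noncomputable def c10_d559 : Cert := (B (M (nat_lit 400) (B (M (nat_lit 367) (B (M (nat_lit 366) (B (L (nat_lit 401) ln13_11_0 ln13_11_0_ok) (L (nat_lit 396) ln16_11_1 ln16_11_1_ok))) (M (nat_lit 335) (B (L (nat_lit 464) ln16_14_7 ln16_14_7_ok) (M (nat_lit 303) (B (L (nat_lit 271) ln15_8_4 ln15_8_4_ok) (L (nat_lit 399) ln15_9_4 ln15_9_4_ok))))))) (B (M (nat_lit 464) (B (M (nat_lit 496) (B (M (nat_lit 369) (B (L (nat_lit 337) ln16_14_6_c10 ln16_14_6_c10_ok) (L (nat_lit 401) ln16_15_6_c10 ln16_15_6_c10_ok))) (M (nat_lit 497) (B (L (nat_lit 465) ln16_11_4 ln16_11_4_ok) (L (nat_lit 529) ln16_12_4 ln16_12_4_ok))))) (B (M (nat_lit 336) (B (M (nat_lit 337) (B (L (nat_lit 305) ln16_13_6_c10 ln16_13_6_c10_ok) (L (nat_lit 369) ln16_14_6_c10 ln16_14_6_c10_ok))) (M (nat_lit 465) (B (L (nat_lit 433) ln16_10_4_c10 ln16_10_4_c10_ok) (L (nat_lit 497) ln16_11_4 ln16_11_4_ok))))) (B (M (nat_lit 496) (B (M (nat_lit 497) (B (L (nat_lit 465) ln16_11_4 ln16_11_4_ok) (L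 (nat_lit 529) ln16_12_4 ln16_12_4_ok))) (M (nat_lit 528) (B (M (nat_lit 527) (B (L (nat_lit 495) ln16_12_5_c10 ln16_12_5_c10_ok) (L (nat_lit 559) ln16_13_5_c10 ln16_13_5_c10_ok))) (M (nat_lit 401) (B (L (nat_lit 369) ln16_15_6_c10 ln16_15_6_c10_ok) (L (nat_lit 433) ln16_16_6_c10 ln16_16_6_c10_ok))))))) (B (M (nat_lit 496) (B (M (nat_lit 497) (B (L (nat_lit 465) ln16_11_4 ln16_11_4_ok) (L (nat_lit 529) ln16_12_4 ln16_12_4_ok))) (B (M (nat_lit 528) (B (M (nat_lit 527) (B (L (nat_lit 495) ln16_12_5_c10 ln16_12_5_c10_ok) (L (nat_lit 559) ln16_13_5_c10 ln16_13_5_c10_ok))) (M (nat_lit 529) (B (L (nat_lit 497) ln16_12_4 ln16_12_4_ok) (L (nat_lit 561) ln16_13_4_c10 ln16_13_4_c10_ok))))) (M (nat_lit 528) (B (M (nat_lit 527) (B (L (nat_lit 495) ln16_12_5_c10 ln16_12_5_c10_ok) (L (nat_lit 559) ln16_13_5_c10 ln16_13_5_c10_ok))) (M (nat_lit 433) (B (L (nat_lit 401) ln16_16_6_c10 ln16_16_6_c10_ok) (M (nat_lit 465) (B (L (nat_lit 336) ln16_10_4_c10 ln16_10_4_c10_ok)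 (L (nat_lit 560) ln16_17_6_c10 ln16_17_6_c10_ok)))))))))) (B (M (nat_lit 496) (B (M (nat_lit 369) (B (L (nat_lit 337) ln16_14_6_c10 ln16_14_6_c10_ok) (L (nat_lit 401) ln16_15_6_c10 ln16_15_6_c10_ok))) (M (nat_lit 528) (B (M (nat_lit 527) (B (L (nat_lit 495) ln16_12_5_c10 ln16_12_5_c10_ok) (L (nat_lit 559) ln16_13_5_c10 ln16_13_5_c10_ok))) (M (nat_lit 529) (B (L (nat_lit 497) ln16_12_4 ln16_12_4_ok) (L (nat_lit 561) ln16_13_4_c10 ln16_13_4_c10_ok))))))) (M (nat_lit 369) (B (L (nat_lit 337) ln16_14_6_c10 ln16_14_6_c10_ok) (M (nat_lit 401) (B (L (nat_lit 496) ln16_15_6_c10 ln16_15_6_c10_ok) (M (nat_lit 367) (B (L (nat_lit 335) ln16_14_7 ln16_14_7_ok) (L (nat_lit 366) ln13_11_0 ln13_11_0_ok))))))))))))) (B (M (nat_lit 464) (B (M (nat_lit 335) (B (L (nat_lit 367) ln16_14_7 ln16_14_7_ok) (M (nat_lit 336) (B (L (nat_lit 303) ln16_13_7 ln16_13_7_ok) (M (nat_lit 337) (B (L (nat_lit 305) ln16_13_6_c10 ln16_13_6_c10_ok) (L (nat_lit 369) ln16_14_6_c10 ln16_14_6_c10_ok)))))))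 (M (nat_lit 495) (B (L (nat_lit 463) ln16_11_5_c10 ln16_11_5_c10_ok) (M (nat_lit 496) (B (L (nat_lit 527) ln16_12_5_c10 ln16_12_5_c10_ok) (M (nat_lit 497) (B (L (nat_lit 465) ln16_11_4 ln16_11_4_ok) (L (nat_lit 529) ln16_12_4 ln16_12_4_ok))))))))) (B (K (nat_lit 8931394256621431097518788932954815973983194743725289934426374236615926711123317465829479309420834064270636221093759615673793712985338806272) (nat_lit 2196735251957849304438208649017641559392029326985370691105306233111258530711350609297405767942475809931108329452719594914250420173752951335705929365853483040768) (nat_lit 2196735251957849304438208649017641559392029326985370691105306233111258530711350609297405767942475809931108329452719594914250420173752951335705929365853483040768) c10_s376) (M (nat_lit 336) (B (M (nat_lit 433) (B (L (nat_lit 465) ln16_10_4_c10 ln16_10_4_c10_ok) (M (nat_lit 304) (B (L (nat_lit 401) ln16_9_4_c10 ln16_9_4_c10_ok) (M (nat_lit 305) (B (L (nat_lit 337) ln16_13_6_c10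 ln16_13_6_c10_ok) (L (nat_lit 273) ln16_12_6_c10 ln16_12_6_c10_ok))))))) (B (M (nat_lit 305) (B (L (nat_lit 337) ln16_13_6_c10 ln16_13_6_c10_ok) (M (nat_lit 304) (B (L (nat_lit 273) ln16_12_6_c10 ln16_12_6_c10_ok) (M (nat_lit 303) (B (L (nat_lit 335) ln16_13_7 ln16_13_7_ok) (L (nat_lit 271) ln16_12_7_c10 ln16_12_7_c10_ok))))))) (B (M (nat_lit 433) (B (L (nat_lit 465) ln16_10_4_c10 ln16_10_4_c10_ok) (M (nat_lit 304) (B (L (nat_lit 401) ln16_9_4_c10 ln16_9_4_c10_ok) (M (nat_lit 303) (B (L (nat_lit 335) ln16_13_7 ln16_13_7_ok) (L (nat_lit 271) ln16_12_7_c10 ln16_12_7_c10_ok))))))) (M (nat_lit 433) (B (L (nat_lit 465) ln16_10_4_c10 ln16_10_4_c10_ok) (M (nat_lit 399) (B (L (nat_lit 398) ln13_12_0 ln13_12_0_ok) (M (nat_lit 337) (B (L (nat_lit 305) ln16_13_6_c10 ln16_13_6_c10_ok) (M (nat_lit 370) (B (M (nat_lit 335) (B (L (nat_lit 303) ln16_13_7 ln16_13_7_ok) (M (nat_lit 371) (B (L (nat_lit 369) ln19_11_1_c10 ln19_11_1_c10_ok) (L (nat_lit 338) ln15_10_0_c10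 ln15_10_0_c10_ok))))) (B (M (nat_lit 338) (B (M (nat_lit 367) (B (L (nat_lit 339) ln19_10_1_c10 ln19_10_1_c10_ok) (L (nat_lit 366) ln13_11_2 ln13_11_2_ok))) (M (nat_lit 306) (B (M (nat_lit 401) (B (L (nat_lit 402) ln18_9_5_c10 ln18_9_5_c10_ok) (L (nat_lit 369) ln17_13_6_c10 ln17_13_6_c10_ok))) (M (nat_lit 335) (B (L (nat_lit 303) ln16_13_7 ln16_13_7_ok) (L (nat_lit 307) ln15_10_2_c10 ln15_10_2_c10_ok))))))) (B (M (nat_lit 335) (B (L (nat_lit 303) ln16_13_7 ln16_13_7_ok) (M (nat_lit 338) (B (L (nat_lit 371) ln15_10_0_c10 ln15_10_0_c10_ok) (M (nat_lit 367) (B (L (nat_lit 339) ln19_10_1_c10 ln19_10_1_c10_ok) (L (nat_lit 366) ln18_10_1 ln18_10_1_ok))))))) (M (nat_lit 369) (B (L (nat_lit 371) ln19_11_1_c10 ln19_11_1_c10_ok) (M (nat_lit 434) (B (L (nat_lit 435) ln19_13_3_c10 ln19_13_3_c10_ok) (M (nat_lit 466) (B (L (nat_lit 401) ln17_10_4_c10 ln17_10_4_c10_ok) (L (nat_lit 402) ln18_14_7_c10 ln18_14_7_c10_ok)))))))))))))))))))))))))) (B (M (nat_lit 400)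 (B (M (nat_lit 366) (B (L (nat_lit 334) ln13_14_6 ln13_14_6_ok) (M (nat_lit 367) (B (L (nat_lit 401) ln13_11_0 ln13_11_0_ok) (L (nat_lit 396) ln16_11_1 ln16_11_1_ok))))) (B (K (nat_lit 8931394256621431097518788932954815973983194743725289934426374236615926711123317465829479309420834064270636221093759615673793712985338806272) (nat_lit 95268205293055143916211988780447967705105700908864252178546333988745790720341156591131831304959452005630201521567701663929275852675688169472) (nat_lit 95268205293055143916211988780447967705105700908864252178546333988745790720341156591131831304959452005630201521567701663929275852675688169472) c10_s381) (B (K (nat_lit 8931394256621431097518788932954815973983194743725289934426374236615926711123317465829479309420834064270636221093759615673793712985338806272) (nat_lit 409173826129920041680140749198702367881426795349125322114556492761648072053223841584494487568753408457929407807181555823216426891901000695589753585664) (nat_lit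 409173826129920041680140749198702367881426795349125322114556492761648072053223841584494487568753408457929407807181555823216426891901000695589753585664) c10_s382) (K (nat_lit 8931394256621431097518788932954815973983194743725289934426374236615926711123317465829479309420834064270636221093759615673793712985338806272) (nat_lit 2196735251957849304438208649017641559388155952167338487868827226324116394342517157309775936226853296724714774651281108408431319642835038933348546079987484065792) (nat_lit 2196735251957849304438208649017641559388155952167338487868827226324116394342517157309775936226853296724714774651281108408431319642835038933348546079987484065792) c10_s383))))) (B (M (nat_lit 400) (B (M (nat_lit 366) (B (L (nat_lit 334) ln13_14_6 ln13_14_6_ok) (M (nat_lit 367) (B (L (nat_lit 401) ln13_11_0 ln13_11_0_ok) (L (nat_lit 396) ln16_11_1 ln16_11_1_ok))))) (B (M (nat_lit 366) (B (L (nat_lit 334) ln13_14_6 ln13_14_6_ok) (M (nat_lit 367) (B (L (nat_lit 396)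 ln16_11_1 ln16_11_1_ok) (M (nat_lit 464) (B (L (nat_lit 335) ln16_14_7 ln16_14_7_ok) (M (nat_lit 369) (B (L (nat_lit 398) ln17_11_1 ln17_11_1_ok) (L (nat_lit 337) ln16_14_6_c10 ln16_14_6_c10_ok))))))))) (B (M (nat_lit 464) (B (M (nat_lit 497) (B (L (nat_lit 465) ln16_11_4 ln16_11_4_ok) (M (nat_lit 496) (B (L (nat_lit 529) ln16_12_4 ln16_12_4_ok) (M (nat_lit 495) (B (L (nat_lit 463) ln16_11_5_c10 ln16_11_5_c10_ok) (L (nat_lit 527) ln16_12_5_c10 ln16_12_5_c10_ok))))))) (B (M (nat_lit 496) (B (M (nat_lit 369) (B (L (nat_lit 337) ln16_14_6_c10 ln16_14_6_c10_ok) (L (nat_lit 401) ln16_15_6_c10 ln16_15_6_c10_ok))) (M (nat_lit 495) (B (L (nat_lit 463) ln16_11_5_c10 ln16_11_5_c10_ok) (L (nat_lit 527) ln16_12_5_c10 ln16_12_5_c10_ok))))) (B (M (nat_lit 496) (B (M (nat_lit 369) (B (L (nat_lit 337) ln16_14_6_c10 ln16_14_6_c10_ok) (L (nat_lit 401) ln16_15_6_c10 ln16_15_6_c10_ok))) (M (nat_lit 497) (B (L (nat_lit 465) ln16_11_4 ln16_11_4_ok) (L (nat_lit 529) ln16_12_4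 ln16_12_4_ok))))) (M (nat_lit 369) (B (L (nat_lit 337) ln16_14_6_c10 ln16_14_6_c10_ok) (M (nat_lit 367) (B (L (nat_lit 335) ln16_14_7 ln16_14_7_ok) (M (nat_lit 370) (B (M (nat_lit 399) (B (L (nat_lit 371) ln19_11_1_c10 ln19_11_1_c10_ok) (L (nat_lit 398) ln18_11_1 ln18_11_1_ok))) (B (M (nat_lit 366) (B (M (nat_lit 402) (B (L (nat_lit 403) ln15_11_0_c10 ln15_11_0_c10_ok) (L (nat_lit 401) ln13_11_0 ln13_11_0_ok))) (L (nat_lit 398) ln17_11_1 ln17_11_1_ok))) (M (nat_lit 371) (B (M (nat_lit 339) (B (L (nat_lit 340) ln16_11_2_c10 ln16_11_2_c10_ok) (L (nat_lit 338) ln15_11_2_c10 ln15_11_2_c10_ok))) (M (nat_lit 403) (B (L (nat_lit 404) ln16_11_0_c10 ln16_11_0_c10_ok) (L (nat_lit 402) ln15_11_0_c10 ln15_11_0_c10_ok)))))))))))))))) (K (nat_lit 8931394256621431097518788932954815973983194743725289934426374236615926711123317465829479309420834064270636221093759615673793712985338806272) (nat_lit 9434906065129282738786887365590475850877076149741341600329523994187163520247184895358159156184660519744801483707666903533312032916548426147498533391317544544886528671744)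 (nat_lit 9434906065129282738786887365590475850877076149741341600329523994187163520247184895358159156184660519744801483707666903533312032916548426147498533391317544544886528671744) c10_s379))))) (M (nat_lit 400) (B (M (nat_lit 366) (B (L (nat_lit 334) ln13_14_6 ln13_14_6_ok) (M (nat_lit 367) (B (L (nat_lit 401) ln13_11_0 ln13_11_0_ok) (L (nat_lit 396) ln16_11_1 ln16_11_1_ok))))) (B (K (nat_lit 8931394256621431097518788932954815973983194743725289934426374236615926711123317465829479309420834064270636221093759615673793712985338806272) (nat_lit 2196735251957849304438208649017641559388155952167338487868827226324116394342517157309775936226853296724714774651281108408431319642835038933348546079987484065792) (nat_lit 2196735251957849304438208649017641559388155952167338487868827226324116394342517157309775936226853296724714774651281108408431319642835038933348546079987484065792) c10_s383) (K (nat_lit 8931394256621431097518788932954815973983194743725289934426374236615926711123317465829479309420834064270636221093759615673793712985338806272)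 (nat_lit 40522612990562315350423557129159003996782661831910691237474909776249154262112233333404864391359465516547505818211435730773248521169577457829338451826485753095480902527857297719296) (nat_lit 40522612990562315350423557129159003996782661831910691237474909776249154262112233333404864391359465516547505818211435730773248521169577457829338451826485753095480902527857297719296) c10_s377)))))))
noncomputable def c10_d560 : Cert := (B (M (nat_lit 304) (B (M (nat_lit 305) (B (M (nat_lit 306) (B (M (nat_lit 335) (B (L (nat_lit 307) ln19_9_1_c10 ln19_9_1_c10_ok) (M (nat_lit 334) (B (L (nat_lit 337) ln14_10_2_c10 ln14_10_2_c10_ok) (L (nat_lit 333) ln13_10_2 ln13_10_2_ok))))) (B (M (nat_lit 335) (B (L (nat_lit 307) ln19_9_1_c10 ln19_9_1_c10_ok) (M (nat_lit 334) (B (L (nat_lit 333) ln13_10_2 ln13_10_2_ok) (L (nat_lit 303) ln18_9_1_c10 ln18_9_1_c10_ok))))) (B (M (nat_lit 303) (B (M (nat_lit 338) (B (L (nat_lit 339) ln15_9_0_c10 ln15_9_0_c10_ok) (M (nat_lit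 274) (B (L (nat_lit 275) ln15_9_2_c10 ln15_9_2_c10_ok) (M (nat_lit 302) (B (L (nat_lit 337) ln14_9_0_c10 ln14_9_0_c10_ok) (L (nat_lit 273) ln14_9_2_c10 ln14_9_2_c10_ok))))))) (B (M (nat_lit 307) (B (M (nat_lit 275) (B (L (nat_lit 276) ln16_9_2_c10 ln16_9_2_c10_ok) (L (nat_lit 274) ln15_9_2_c10 ln15_9_2_c10_ok))) (L (nat_lit 271) ln16_12_7_c10 ln16_12_7_c10_ok))) (M (nat_lit 307) (B (M (nat_lit 339) (B (L (nat_lit 340) ln16_9_0_c10 ln16_9_0_c10_ok) (L (nat_lit 338) ln15_9_0_c10 ln15_9_0_c10_ok))) (L (nat_lit 271) ln16_12_7_c10 ln16_12_7_c10_ok)))))) (M (nat_lit 335) (B (M (nat_lit 334) (B (L (nat_lit 337) ln14_10_2_c10 ln14_10_2_c10_ok) (L (nat_lit 333) ln13_10_2 ln13_10_2_ok))) (B (M (nat_lit 334) (B (L (nat_lit 333) ln13_10_2 ln13_10_2_ok) (L (nat_lit 303) ln18_9_1_c10 ln18_9_1_c10_ok))) (L (nat_lit 303) ln16_13_7 ln16_13_7_ok)))))))) (B (L (nat_lit 273) ln16_12_6_c10 ln16_12_6_c10_ok) (L (nat_lit 337) ln16_13_6_c10 ln16_13_6_c10_ok)))) (B (M (nat_lit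 272) (B (M (nat_lit 241) (B (L (nat_lit 273) ln16_11_6_c10 ln16_11_6_c10_ok) (M (nat_lit 240) (B (L (nat_lit 209) ln16_10_6_c10 ln16_10_6_c10_ok) (M (nat_lit 239) (B (L (nat_lit 271) ln16_11_7_c10 ln16_11_7_c10_ok) (L (nat_lit 207) ln16_10_7_c10 ln16_10_7_c10_ok))))))) (B (M (nat_lit 240) (B (M (nat_lit 367) (B (L (nat_lit 399) ln16_8_5 ln16_8_5_ok) (L (nat_lit 335) ln16_7_5_c10 ln16_7_5_c10_ok))) (M (nat_lit 239) (B (L (nat_lit 271) ln16_11_7_c10 ln16_11_7_c10_ok) (L (nat_lit 207) ln16_10_7_c10 ln16_10_7_c10_ok))))) (B (M (nat_lit 240) (B (M (nat_lit 367) (B (L (nat_lit 399) ln16_8_5 ln16_8_5_ok) (L (nat_lit 335) ln16_7_5_c10 ln16_7_5_c10_ok))) (M (nat_lit 241) (B (L (nat_lit 273) ln16_11_6_c10 ln16_11_6_c10_ok) (L (nat_lit 209) ln16_10_6_c10 ln16_10_6_c10_ok))))) (M (nat_lit 399) (B (L (nat_lit 431) ln16_9_5 ln16_9_5_ok) (L (nat_lit 367) ln16_8_5 ln16_8_5_ok))))))) (B (M (nat_lit 303) (B (L (nat_lit 271) ln16_12_7_c10 ln16_12_7_c10_ok) (L (nat_lit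 335) ln16_13_7 ln16_13_7_ok))) (B (M (nat_lit 271) (B (M (nat_lit 239) (B (L (nat_lit 272) ln16_11_7_c10 ln16_11_7_c10_ok) (L (nat_lit 303) ln16_12_7_c10 ln16_12_7_c10_ok))) (B (M (nat_lit 305) (B (L (nat_lit 303) ln16_12_7_c10 ln16_12_7_c10_ok) (L (nat_lit 273) ln16_12_6_c10 ln16_12_6_c10_ok))) (M (nat_lit 272) (B (L (nat_lit 239) ln16_11_7_c10 ln16_11_7_c10_ok) (M (nat_lit 273) (B (L (nat_lit 241) ln16_11_6_c10 ln16_11_6_c10_ok) (L (nat_lit 305) ln16_12_6_c10 ln16_12_6_c10_ok)))))))) (M (nat_lit 272) (B (M (nat_lit 273) (B (L (nat_lit 241) ln16_11_6_c10 ln16_11_6_c10_ok) (L (nat_lit 305) ln16_12_6_c10 ln16_12_6_c10_ok))) (B (M (nat_lit 367) (B (L (nat_lit 399) ln16_8_5 ln16_8_5_ok) (M (nat_lit 240) (B (L (nat_lit 335) ln16_7_5_c10 ln16_7_5_c10_ok) (M (nat_lit 241) (B (L (nat_lit 273) ln16_11_6_c10 ln16_11_6_c10_ok) (L (nat_lit 209) ln16_10_6_c10 ln16_10_6_c10_ok))))))) (M (nat_lit 337) (B (M (nat_lit 240) (B (L (nat_lit 369) ln16_7_4_c10 ln16_7_4_c10_ok)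 (M (nat_lit 367) (B (L (nat_lit 399) ln16_8_5 ln16_8_5_ok) (L (nat_lit 335) ln16_7_5_c10 ln16_7_5_c10_ok))))) (B (M (nat_lit 240) (B (L (nat_lit 369) ln16_7_4_c10 ln16_7_4_c10_ok) (M (nat_lit 208) (B (L (nat_lit 305) ln16_6_4_c10 ln16_6_4_c10_ok) (M (nat_lit 335) (B (L (nat_lit 367) ln16_7_5_c10 ln16_7_5_c10_ok) (L (nat_lit 303) ln16_6_5_c10 ln16_6_5_c10_ok))))))) (B (M (nat_lit 303) (B (M (nat_lit 338) (B (L (nat_lit 339) ln19_10_3_c10 ln19_10_3_c10_ok) (M (nat_lit 302) (B (L (nat_lit 335) ln18_10_3_c10 ln18_10_3_c10_ok) (L (nat_lit 301) ln13_9_0 ln13_9_0_ok))))) (B (M (nat_lit 338) (B (L (nat_lit 339) ln19_10_3_c10 ln19_10_3_c10_ok) (M (nat_lit 302) (B (L (nat_lit 301) ln13_9_0 ln13_9_0_ok) (L (nat_lit 305) ln14_9_0_c10 ln14_9_0_c10_ok))))) (M (nat_lit 240) (B (L (nat_lit 369) ln16_7_4_c10 ln16_7_4_c10_ok) (M (nat_lit 208) (B (L (nat_lit 335) ln16_6_5_c10 ln16_6_5_c10_ok) (L (nat_lit 305) ln16_6_4_c10 ln16_6_4_c10_ok)))))))) (B (M (nat_lit 367)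 (B (L (nat_lit 399) ln16_8_5 ln16_8_5_ok) (M (nat_lit 335) (B (L (nat_lit 240) ln16_7_5_c10 ln16_7_5_c10_ok) (L (nat_lit 366) ln13_11_2 ln13_11_2_ok))))) (B (M (nat_lit 369) (B (L (nat_lit 240) ln16_7_4_c10 ln16_7_4_c10_ok) (M (nat_lit 367) (B (L (nat_lit 399) ln16_8_5 ln16_8_5_ok) (M (nat_lit 338) (B (L (nat_lit 366) ln13_11_2 ln13_11_2_ok) (L (nat_lit 339) ln19_10_1_c10 ln19_10_1_c10_ok))))))) (M (nat_lit 367) (B (L (nat_lit 399) ln16_8_5 ln16_8_5_ok) (L (nat_lit 366) ln13_11_2 ln13_11_2_ok))))))))))))))))) (B (K (nat_lit 8931394256621431097518788932954815974123178790111402697586214379151454478505920309406644905352083383080873213042519674760098556314814251008) (nat_lit 23817051323263785979052997195375028695409297753160345818310683180107195192659008544984929922581998063360696566515483950931520902872646549504) (nat_lit 23817051323263785979052997195375028695409297753160345818310683180107195192659008544984929922581998063360696566515483950931520902872646549504)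 c10_s385) (B (K (nat_lit 8931394256621431097518788932954815974123178790111402697586214379151454478505920309406644905352083383080873213042519674760098556314814251008) (nat_lit 349960116079355922593302953070494262465630156145619646696095481348834895047970231066365451030165979136) (nat_lit 349960116079355922593302953070494262465630156145619646696095481348834895047970231066365451030165979136) c10_s386) (B (M (nat_lit 304) (B (M (nat_lit 272) (B (M (nat_lit 271) (B (L (nat_lit 239) ln16_11_7_c10 ln16_11_7_c10_ok) (L (nat_lit 303) ln16_12_7_c10 ln16_12_7_c10_ok))) (M (nat_lit 399) (B (L (nat_lit 367) ln16_8_5 ln16_8_5_ok) (L (nat_lit 431) ln16_9_5 ln16_9_5_ok))))) (B (M (nat_lit 303) (B (L (nat_lit 271) ln16_12_7_c10 ln16_12_7_c10_ok) (L (nat_lit 335) ln16_13_7 ln16_13_7_ok))) (M (nat_lit 272) (B (M (nat_lit 399) (B (L (nat_lit 367) ln16_8_5 ln16_8_5_ok) (L (nat_lit 431) ln16_9_5 ln16_9_5_ok))) (M (nat_lit 240) (B (M (nat_lit 241) (B (L (nat_lit 209) ln16_10_6_c10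 ln16_10_6_c10_ok) (L (nat_lit 273) ln16_11_6_c10 ln16_11_6_c10_ok))) (M (nat_lit 369) (B (L (nat_lit 337) ln16_7_4_c10 ln16_7_4_c10_ok) (L (nat_lit 401) ln16_8_4_c10 ln16_8_4_c10_ok)))))))))) (B (K (nat_lit 8931394256621431097518788932954815974123178790111402697586214379151454478505920309406644905352083383080873213042519674760098556314814251008) (nat_lit 5545339394697254415877167095681186695599674671731368873413478306784478614580897687220750394462632501147726911166095793297742102528) (nat_lit 5545339394697254415877167095681186695599674671731368873413478306784478614580897687220750394462632501147726911166095793297742102528) c10_s387) (M (nat_lit 337) (B (L (nat_lit 305) ln16_13_6_c10 ln16_13_6_c10_ok) (M (nat_lit 335) (B (L (nat_lit 303) ln16_13_7 ln16_13_7_ok) (M (nat_lit 338) (B (M (nat_lit 367) (B (L (nat_lit 339) ln19_10_1_c10 ln19_10_1_c10_ok) (L (nat_lit 366) ln18_10_1 ln18_10_1_ok))) (B (M (nat_lit 339) (B (M (nat_lit 371) (B (L (nat_lit 372)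 ln16_10_0_c10 ln16_10_0_c10_ok) (L (nat_lit 370) ln15_10_0_c10 ln15_10_0_c10_ok))) (M (nat_lit 307) (B (L (nat_lit 308) ln16_10_2_c10 ln16_10_2_c10_ok) (L (nat_lit 306) ln15_10_2_c10 ln15_10_2_c10_ok))))) (M (nat_lit 334) (B (M (nat_lit 370) (B (L (nat_lit 371) ln15_10_0_c10 ln15_10_0_c10_ok) (L (nat_lit 369) ln14_10_0 ln14_10_0_ok))) (L (nat_lit 366) ln17_10_1 ln17_10_1_ok)))))))))))))))
noncomputable def c10_d561 : Cert := (B (M (nat_lit 464) (B (M (nat_lit 367) (B (L (nat_lit 335) ln16_14_7 ln16_14_7_ok) (M (nat_lit 496) (B (L (nat_lit 399) ln16_15_7 ln16_15_7_ok) (M (nat_lit 369) (B (L (nat_lit 337) ln16_14_6_c10 ln16_14_6_c10_ok) (L (nat_lit 401) ln16_15_6_c10 ln16_15_6_c10_ok))))))) (B (M (nat_lit 496) (B (M (nat_lit 367) (B (L (nat_lit 335) ln16_14_7 ln16_14_7_ok) (L (nat_lit 399) ln16_15_7 ln16_15_7_ok))) (M (nat_lit 495) (B (L (nat_lit 463) ln16_11_5_c10 ln16_11_5_c10_ok) (L (nat_lit 527) ln16_12_5_c10 ln16_12_5_c10_ok))))) (M (nat_lit 336)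 (B (M (nat_lit 337) (B (L (nat_lit 305) ln16_13_6_c10 ln16_13_6_c10_ok) (L (nat_lit 369) ln16_14_6_c10 ln16_14_6_c10_ok))) (M (nat_lit 463) (B (L (nat_lit 431) ln16_10_5 ln16_10_5_ok) (L (nat_lit 495) ln16_11_5_c10 ln16_11_5_c10_ok)))))))) (B (M (nat_lit 336) (B (M (nat_lit 304) (B (M (nat_lit 305) (B (L (nat_lit 273) ln16_12_6_c10 ln16_12_6_c10_ok) (L (nat_lit 337) ln16_13_6_c10 ln16_13_6_c10_ok))) (M (nat_lit 431) (B (L (nat_lit 399) ln16_9_5 ln16_9_5_ok) (L (nat_lit 463) ln16_10_5 ln16_10_5_ok))))) (B (M (nat_lit 464) (B (M (nat_lit 337) (B (L (nat_lit 305) ln16_13_6_c10 ln16_13_6_c10_ok) (L (nat_lit 369) ln16_14_6_c10 ln16_14_6_c10_ok))) (M (nat_lit 463) (B (L (nat_lit 431) ln16_10_5 ln16_10_5_ok) (L (nat_lit 495) ln16_11_5_c10 ln16_11_5_c10_ok))))) (B (M (nat_lit 304) (B (M (nat_lit 431) (B (L (nat_lit 399) ln16_9_5 ln16_9_5_ok) (L (nat_lit 463) ln16_10_5 ln16_10_5_ok))) (M (nat_lit 272) (B (M (nat_lit 271) (B (L (nat_lit 239) ln16_11_7_c10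 ln16_11_7_c10_ok) (L (nat_lit 303) ln16_12_7_c10 ln16_12_7_c10_ok))) (M (nat_lit 369) (B (L (nat_lit 401) ln16_8_4_c10 ln16_8_4_c10_ok) (M (nat_lit 337) (B (L (nat_lit 240) ln16_7_4_c10 ln16_7_4_c10_ok) (L (nat_lit 464) ln16_14_6_c10 ln16_14_6_c10_ok))))))))) (B (M (nat_lit 304) (B (M (nat_lit 431) (B (L (nat_lit 399) ln16_9_5 ln16_9_5_ok) (L (nat_lit 463) ln16_10_5 ln16_10_5_ok))) (M (nat_lit 272) (B (M (nat_lit 273) (B (L (nat_lit 241) ln16_11_6_c10 ln16_11_6_c10_ok) (L (nat_lit 305) ln16_12_6_c10 ln16_12_6_c10_ok))) (M (nat_lit 271) (B (L (nat_lit 239) ln16_11_7_c10 ln16_11_7_c10_ok) (L (nat_lit 303) ln16_12_7_c10 ln16_12_7_c10_ok))))))) (M (nat_lit 304) (B (M (nat_lit 305) (B (L (nat_lit 273) ln16_12_6_c10 ln16_12_6_c10_ok) (L (nat_lit 337) ln16_13_6_c10 ln16_13_6_c10_ok))) (B (M (nat_lit 337) (B (L (nat_lit 305) ln16_13_6_c10 ln16_13_6_c10_ok) (M (nat_lit 369) (B (L (nat_lit 464) ln16_14_6_c10 ln16_14_6_c10_ok) (M (nat_lit 272) (B (L (nat_lit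 240) ln16_7_4_c10 ln16_7_4_c10_ok) (L (nat_lit 401) ln16_8_4_c10 ln16_8_4_c10_ok))))))) (B (M (nat_lit 272) (B (M (nat_lit 271) (B (L (nat_lit 239) ln16_11_7_c10 ln16_11_7_c10_ok) (L (nat_lit 303) ln16_12_7_c10 ln16_12_7_c10_ok))) (M (nat_lit 369) (B (L (nat_lit 401) ln16_8_4_c10 ln16_8_4_c10_ok) (M (nat_lit 337) (B (L (nat_lit 240) ln16_7_4_c10 ln16_7_4_c10_ok) (L (nat_lit 464) ln16_14_6_c10 ln16_14_6_c10_ok))))))) (M (nat_lit 272) (B (M (nat_lit 273) (B (L (nat_lit 241) ln16_11_6_c10 ln16_11_6_c10_ok) (L (nat_lit 305) ln16_12_6_c10 ln16_12_6_c10_ok))) (M (nat_lit 271) (B (L (nat_lit 239) ln16_11_7_c10 ln16_11_7_c10_ok) (L (nat_lit 303) ln16_12_7_c10 ln16_12_7_c10_ok)))))))))))))) (M (nat_lit 369) (B (M (nat_lit 337) (B (L (nat_lit 464) ln16_14_6_c10 ln16_14_6_c10_ok) (M (nat_lit 305) (B (L (nat_lit 273) ln17_8_5_c10 ln17_8_5_c10_ok) (L (nat_lit 401) ln17_9_5_c10 ln17_9_5_c10_ok))))) (B (M (nat_lit 464) (B (L (nat_lit 337) ln16_14_6_c10 ln16_14_6_c10_ok)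 (M (nat_lit 496) (B (L (nat_lit 401) ln16_15_6_c10 ln16_15_6_c10_ok) (M (nat_lit 367) (B (L (nat_lit 335) ln16_14_7 ln16_14_7_ok) (L (nat_lit 399) ln16_15_7 ln16_15_7_ok))))))) (B (M (nat_lit 370) (B (M (nat_lit 399) (B (L (nat_lit 371) ln19_11_1_c10 ln19_11_1_c10_ok) (L (nat_lit 398) ln13_12_2 ln13_12_2_ok))) (B (M (nat_lit 367) (B (M (nat_lit 335) (B (L (nat_lit 334) ln18_11_3 ln18_11_3_ok) (L (nat_lit 464) ln16_14_7 ln16_14_7_ok))) (M (nat_lit 366) (B (M (nat_lit 402) (B (L (nat_lit 403) ln15_11_0_c10 ln15_11_0_c10_ok) (L (nat_lit 401) ln13_11_0 ln13_11_0_ok))) (L (nat_lit 398) ln17_11_1 ln17_11_1_ok))))) (M (nat_lit 367) (B (M (nat_lit 335) (B (L (nat_lit 334) ln18_11_3 ln18_11_3_ok) (L (nat_lit 464) ln16_14_7 ln16_14_7_ok))) (M (nat_lit 371) (B (M (nat_lit 339) (B (L (nat_lit 340) ln16_11_2_c10 ln16_11_2_c10_ok) (L (nat_lit 338) ln15_11_2_c10 ln15_11_2_c10_ok))) (M (nat_lit 403) (B (L (nat_lit 404) ln16_11_0_c10 ln16_11_0_c10_ok) (L (nat_lit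 402) ln15_11_0_c10 ln15_11_0_c10_ok)))))))))) (B (M (nat_lit 464) (B (L (nat_lit 337) ln16_14_6_c10 ln16_14_6_c10_ok) (M (nat_lit 496) (B (M (nat_lit 367) (B (L (nat_lit 335) ln16_14_7 ln16_14_7_ok) (L (nat_lit 399) ln16_15_7 ln16_15_7_ok))) (M (nat_lit 495) (B (L (nat_lit 463) ln16_11_5_c10 ln16_11_5_c10_ok) (L (nat_lit 527) ln16_12_5_c10 ln16_12_5_c10_ok))))))) (M (nat_lit 370) (B (M (nat_lit 399) (B (L (nat_lit 371) ln19_11_1_c10 ln19_11_1_c10_ok) (L (nat_lit 398) ln13_12_2 ln13_12_2_ok))) (B (M (nat_lit 367) (B (M (nat_lit 399) (B (L (nat_lit 398) ln18_11_1 ln18_11_1_ok) (M (nat_lit 335) (B (L (nat_lit 303) ln15_9_4 ln15_9_4_ok) (L (nat_lit 334) ln18_11_3 ln18_11_3_ok))))) (M (nat_lit 366) (B (M (nat_lit 338) (B (L (nat_lit 339) ln15_11_2_c10 ln15_11_2_c10_ok) (L (nat_lit 337) ln14_11_2 ln14_11_2_ok))) (M (nat_lit 402) (B (L (nat_lit 403) ln15_11_0_c10 ln15_11_0_c10_ok) (L (nat_lit 401) ln13_11_0 ln13_11_0_ok))))))) (B (M (nat_lit 371) (B (L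 (nat_lit 399) ln19_11_1_c10 ln19_11_1_c10_ok) (M (nat_lit 372) (B (L (nat_lit 401) ln20_11_1_c10 ln20_11_1_c10_ok) (M (nat_lit 404) (B (L (nat_lit 405) ln17_11_0_c10 ln17_11_0_c10_ok) (L (nat_lit 403) ln16_11_0_c10 ln16_11_0_c10_ok))))))) (M (nat_lit 371) (B (M (nat_lit 372) (B (L (nat_lit 401) ln20_11_1_c10 ln20_11_1_c10_ok) (M (nat_lit 404) (B (L (nat_lit 405) ln17_11_0_c10 ln17_11_0_c10_ok) (L (nat_lit 403) ln16_11_0_c10 ln16_11_0_c10_ok))))) (B (M (nat_lit 367) (B (M (nat_lit 339) (B (L (nat_lit 340) ln16_11_2_c10 ln16_11_2_c10_ok) (L (nat_lit 338) ln15_11_2_c10 ln15_11_2_c10_ok))) (M (nat_lit 403) (B (L (nat_lit 404) ln16_11_0_c10 ln16_11_0_c10_ok) (L (nat_lit 402) ln15_11_0_c10 ln15_11_0_c10_ok))))) (M (nat_lit 372) (B (L (nat_lit 401) ln20_11_1_c10 ln20_11_1_c10_ok) (M (nat_lit 340) (B (L (nat_lit 341) ln17_11_2_c10 ln17_11_2_c10_ok) (L (nat_lit 339) ln16_11_2_c10 ln16_11_2_c10_ok)))))))))))))))))))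
noncomputable def c10_d562 : Cert := (B (M (nat_lit 369) (B (M (nat_lit 464) (B (L (nat_lit 337) ln16_14_6_c10 ln16_14_6_c10_ok) (M (nat_lit 496) (B (L (nat_lit 401) ln16_15_6_c10 ln16_15_6_c10_ok) (M (nat_lit 495) (B (L (nat_lit 463) ln16_11_5_c10 ln16_11_5_c10_ok) (L (nat_lit 527) ln16_12_5_c10 ln16_12_5_c10_ok))))))) (B (M (nat_lit 464) (B (L (nat_lit 337) ln16_14_6_c10 ln16_14_6_c10_ok) (M (nat_lit 496) (B (L (nat_lit 401) ln16_15_6_c10 ln16_15_6_c10_ok) (M (nat_lit 367) (B (L (nat_lit 335) ln16_14_7 ln16_14_7_ok) (L (nat_lit 399) ln16_15_7 ln16_15_7_ok))))))) (B (M (nat_lit 370) (B (M (nat_lit 399) (B (L (nat_lit 371) ln19_11_1_c10 ln19_11_1_c10_ok) (L (nat_lit 398) ln13_12_2 ln13_12_2_ok))) (B (M (nat_lit 367) (B (M (nat_lit 335) (B (L (nat_lit 334) ln18_11_3 ln18_11_3_ok) (M (nat_lit 303) (B (L (nat_lit 271) ln15_8_4 ln15_8_4_ok) (L (nat_lit 399) ln15_9_4 ln15_9_4_ok))))) (M (nat_lit 366) (B (M (nat_lit 338) (B (L (nat_lit 337) ln14_11_2 ln14_11_2_ok)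 (L (nat_lit 339) ln15_11_2_c10 ln15_11_2_c10_ok))) (M (nat_lit 402) (B (L (nat_lit 401) ln13_11_0 ln13_11_0_ok) (L (nat_lit 403) ln15_11_0_c10 ln15_11_0_c10_ok))))))) (M (nat_lit 367) (B (M (nat_lit 335) (B (L (nat_lit 334) ln18_11_3 ln18_11_3_ok) (M (nat_lit 303) (B (L (nat_lit 271) ln15_8_4 ln15_8_4_ok) (L (nat_lit 336) ln16_13_7 ln16_13_7_ok))))) (M (nat_lit 366) (B (M (nat_lit 338) (B (L (nat_lit 337) ln14_11_2 ln14_11_2_ok) (L (nat_lit 339) ln15_11_2_c10 ln15_11_2_c10_ok))) (M (nat_lit 402) (B (L (nat_lit 401) ln13_11_0 ln13_11_0_ok) (L (nat_lit 403) ln15_11_0_c10 ln15_11_0_c10_ok)))))))))) (B (M (nat_lit 367) (B (M (nat_lit 335) (B (L (nat_lit 464) ln16_14_7 ln16_14_7_ok) (M (nat_lit 303) (B (L (nat_lit 271) ln15_8_4 ln15_8_4_ok) (L (nat_lit 336) ln16_13_7 ln16_13_7_ok))))) (B (M (nat_lit 335) (B (L (nat_lit 464) ln16_14_7 ln16_14_7_ok) (M (nat_lit 303) (B (L (nat_lit 399) ln15_9_4 ln15_9_4_ok) (L (nat_lit 336) ln16_13_7 ln16_13_7_ok))))) (B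 (M (nat_lit 370) (B (M (nat_lit 399) (B (L (nat_lit 398) ln18_11_1 ln18_11_1_ok) (L (nat_lit 371) ln19_11_1_c10 ln19_11_1_c10_ok))) (B (M (nat_lit 371) (B (L (nat_lit 399) ln19_11_1_c10 ln19_11_1_c10_ok) (M (nat_lit 335) (B (L (nat_lit 464) ln16_14_7 ln16_14_7_ok) (L (nat_lit 336) ln19_11_3_c10 ln19_11_3_c10_ok))))) (B (M (nat_lit 371) (B (M (nat_lit 335) (B (L (nat_lit 464) ln16_14_7 ln16_14_7_ok) (L (nat_lit 336) ln19_11_3_c10 ln19_11_3_c10_ok))) (M (nat_lit 403) (B (L (nat_lit 402) ln15_11_0_c10 ln15_11_0_c10_ok) (L (nat_lit 404) ln16_11_0_c10 ln16_11_0_c10_ok))))) (M (nat_lit 366) (B (L (nat_lit 398) ln17_11_1 ln17_11_1_ok) (M (nat_lit 402) (B (L (nat_lit 401) ln13_11_0 ln13_11_0_ok) (L (nat_lit 403) ln15_11_0_c10 ln15_11_0_c10_ok))))))))) (M (nat_lit 370) (B (M (nat_lit 399) (B (L (nat_lit 398) ln18_11_1 ln18_11_1_ok) (L (nat_lit 371) ln19_11_1_c10 ln19_11_1_c10_ok))) (B (M (nat_lit 371) (B (L (nat_lit 399) ln19_11_1_c10 ln19_11_1_c10_ok) (M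 (nat_lit 339) (B (L (nat_lit 338) ln15_11_2_c10 ln15_11_2_c10_ok) (L (nat_lit 340) ln16_11_2_c10 ln16_11_2_c10_ok))))) (B (M (nat_lit 371) (B (M (nat_lit 339) (B (L (nat_lit 338) ln15_11_2_c10 ln15_11_2_c10_ok) (L (nat_lit 340) ln16_11_2_c10 ln16_11_2_c10_ok))) (M (nat_lit 403) (B (L (nat_lit 402) ln15_11_0_c10 ln15_11_0_c10_ok) (L (nat_lit 404) ln16_11_0_c10 ln16_11_0_c10_ok))))) (M (nat_lit 366) (B (L (nat_lit 398) ln17_11_1 ln17_11_1_ok) (M (nat_lit 402) (B (L (nat_lit 401) ln13_11_0 ln13_11_0_ok) (L (nat_lit 403) ln15_11_0_c10 ln15_11_0_c10_ok))))))))))))) (M (nat_lit 464) (B (L (nat_lit 337) ln16_14_6_c10 ln16_14_6_c10_ok) (M (nat_lit 496) (B (M (nat_lit 367) (B (L (nat_lit 335) ln16_14_7 ln16_14_7_ok) (L (nat_lit 399) ln16_15_7 ln16_15_7_ok))) (M (nat_lit 495) (B (L (nat_lit 463) ln16_11_5_c10 ln16_11_5_c10_ok) (L (nat_lit 527) ln16_12_5_c10 ln16_12_5_c10_ok)))))))))))) (B (M (nat_lit 336) (B (M (nat_lit 304) (B (M (nat_lit 303) (B (L (nat_lit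 271) ln16_12_7_c10 ln16_12_7_c10_ok) (L (nat_lit 335) ln16_13_7 ln16_13_7_ok))) (M (nat_lit 431) (B (L (nat_lit 399) ln16_9_5 ln16_9_5_ok) (L (nat_lit 463) ln16_10_5 ln16_10_5_ok))))) (B (M (nat_lit 464) (B (M (nat_lit 335) (B (L (nat_lit 303) ln16_13_7 ln16_13_7_ok) (L (nat_lit 367) ln16_14_7 ln16_14_7_ok))) (M (nat_lit 463) (B (L (nat_lit 431) ln16_10_5 ln16_10_5_ok) (L (nat_lit 495) ln16_11_5_c10 ln16_11_5_c10_ok))))) (B (M (nat_lit 464) (B (M (nat_lit 463) (B (L (nat_lit 431) ln16_10_5 ln16_10_5_ok) (L (nat_lit 495) ln16_11_5_c10 ln16_11_5_c10_ok))) (B (M (nat_lit 496) (B (M (nat_lit 367) (B (L (nat_lit 335) ln16_14_7 ln16_14_7_ok) (L (nat_lit 399) ln16_15_7 ln16_15_7_ok))) (M (nat_lit 495) (B (L (nat_lit 463) ln16_11_5_c10 ln16_11_5_c10_ok) (L (nat_lit 527) ln16_12_5_c10 ln16_12_5_c10_ok))))) (M (nat_lit 367) (B (L (nat_lit 335) ln16_14_7 ln16_14_7_ok) (M (nat_lit 399) (B (L (nat_lit 496) ln16_15_7 ln16_15_7_ok) (M (nat_lit 304) (B (L (nat_lit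 272) ln16_8_5 ln16_8_5_ok) (L (nat_lit 431) ln16_9_5 ln16_9_5_ok)))))))))) (B (M (nat_lit 304) (B (M (nat_lit 431) (B (L (nat_lit 399) ln16_9_5 ln16_9_5_ok) (L (nat_lit 463) ln16_10_5 ln16_10_5_ok))) (M (nat_lit 272) (B (M (nat_lit 271) (B (L (nat_lit 239) ln16_11_7_c10 ln16_11_7_c10_ok) (L (nat_lit 303) ln16_12_7_c10 ln16_12_7_c10_ok))) (M (nat_lit 273) (B (L (nat_lit 241) ln16_11_6_c10 ln16_11_6_c10_ok) (L (nat_lit 305) ln16_12_6_c10 ln16_12_6_c10_ok))))))) (M (nat_lit 304) (B (M (nat_lit 303) (B (L (nat_lit 271) ln16_12_7_c10 ln16_12_7_c10_ok) (L (nat_lit 335) ln16_13_7 ln16_13_7_ok))) (B (M (nat_lit 335) (B (L (nat_lit 303) ln16_13_7 ln16_13_7_ok) (M (nat_lit 367) (B (L (nat_lit 464) ln16_14_7 ln16_14_7_ok) (M (nat_lit 272) (B (L (nat_lit 240) ln16_7_5_c10 ln16_7_5_c10_ok) (L (nat_lit 399) ln16_8_5 ln16_8_5_ok))))))) (B (M (nat_lit 272) (B (M (nat_lit 273) (B (L (nat_lit 241) ln16_11_6_c10 ln16_11_6_c10_ok) (L (nat_lit 305) ln16_12_6_c10 ln16_12_6_c10_ok)))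 (M (nat_lit 367) (B (L (nat_lit 399) ln16_8_5 ln16_8_5_ok) (M (nat_lit 335) (B (L (nat_lit 240) ln16_7_5_c10 ln16_7_5_c10_ok) (L (nat_lit 464) ln16_14_7 ln16_14_7_ok))))))) (M (nat_lit 272) (B (M (nat_lit 271) (B (L (nat_lit 239) ln16_11_7_c10 ln16_11_7_c10_ok) (L (nat_lit 303) ln16_12_7_c10 ln16_12_7_c10_ok))) (M (nat_lit 273) (B (L (nat_lit 241) ln16_11_6_c10 ln16_11_6_c10_ok) (L (nat_lit 305) ln16_12_6_c10 ln16_12_6_c10_ok)))))))))))))) c10_d561))
noncomputable def c10_d563 : Cert := (B (M (nat_lit 336) (B (M (nat_lit 305) (B (L (nat_lit 337) ln16_13_6_c10 ln16_13_6_c10_ok) (M (nat_lit 304) (B (L (nat_lit 273) ln16_12_6_c10 ln16_12_6_c10_ok) (M (nat_lit 303) (B (L (nat_lit 335) ln16_13_7 ln16_13_7_ok) (L (nat_lit 271) ln16_12_7_c10 ln16_12_7_c10_ok))))))) (B (M (nat_lit 304) (B (M (nat_lit 431) (B (L (nat_lit 463) ln16_10_5 ln16_10_5_ok) (L (nat_lit 399) ln16_9_5 ln16_9_5_ok))) (M (nat_lit 303) (B (L (nat_lit 335) ln16_13_7 ln16_13_7_ok) (L (nat_lit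 271) ln16_12_7_c10 ln16_12_7_c10_ok))))) (B (M (nat_lit 304) (B (M (nat_lit 431) (B (L (nat_lit 463) ln16_10_5 ln16_10_5_ok) (L (nat_lit 399) ln16_9_5 ln16_9_5_ok))) (M (nat_lit 305) (B (L (nat_lit 337) ln16_13_6_c10 ln16_13_6_c10_ok) (L (nat_lit 273) ln16_12_6_c10 ln16_12_6_c10_ok))))) (M (nat_lit 464) (B (M (nat_lit 463) (B (L (nat_lit 495) ln16_11_5_c10 ln16_11_5_c10_ok) (L (nat_lit 431) ln16_10_5 ln16_10_5_ok))) (M (nat_lit 337) (B (L (nat_lit 369) ln16_14_6_c10 ln16_14_6_c10_ok) (L (nat_lit 305) ln16_13_6_c10 ln16_13_6_c10_ok))))))))) (B (M (nat_lit 336) (B (M (nat_lit 304) (B (M (nat_lit 431) (B (L (nat_lit 463) ln16_10_5 ln16_10_5_ok) (L (nat_lit 399) ln16_9_5 ln16_9_5_ok))) (M (nat_lit 305) (B (L (nat_lit 337) ln16_13_6_c10 ln16_13_6_c10_ok) (L (nat_lit 273) ln16_12_6_c10 ln16_12_6_c10_ok))))) (B (M (nat_lit 303) (B (L (nat_lit 335) ln16_13_7 ln16_13_7_ok) (M (nat_lit 304) (B (L (nat_lit 271) ln16_12_7_c10 ln16_12_7_c10_ok) (M (nat_lit 305)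 (B (L (nat_lit 337) ln16_13_6_c10 ln16_13_6_c10_ok) (L (nat_lit 273) ln16_12_6_c10 ln16_12_6_c10_ok))))))) (B (M (nat_lit 304) (B (M (nat_lit 431) (B (L (nat_lit 463) ln16_10_5 ln16_10_5_ok) (L (nat_lit 399) ln16_9_5 ln16_9_5_ok))) (M (nat_lit 303) (B (L (nat_lit 335) ln16_13_7 ln16_13_7_ok) (L (nat_lit 271) ln16_12_7_c10 ln16_12_7_c10_ok))))) (M (nat_lit 464) (B (M (nat_lit 463) (B (L (nat_lit 495) ln16_11_5_c10 ln16_11_5_c10_ok) (L (nat_lit 431) ln16_10_5 ln16_10_5_ok))) (M (nat_lit 335) (B (L (nat_lit 367) ln16_14_7 ln16_14_7_ok) (L (nat_lit 303) ln16_13_7 ln16_13_7_ok))))))))) (B (M (nat_lit 464) (B (M (nat_lit 496) (B (M (nat_lit 367) (B (L (nat_lit 335) ln16_14_7 ln16_14_7_ok) (L (nat_lit 399) ln16_15_7 ln16_15_7_ok))) (M (nat_lit 495) (B (L (nat_lit 463) ln16_11_5_c10 ln16_11_5_c10_ok) (L (nat_lit 527) ln16_12_5_c10 ln16_12_5_c10_ok))))) (B (M (nat_lit 496) (B (M (nat_lit 369) (B (L (nat_lit 337) ln16_14_6_c10 ln16_14_6_c10_ok) (L (nat_lit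 401) ln16_15_6_c10 ln16_15_6_c10_ok))) (M (nat_lit 495) (B (L (nat_lit 463) ln16_11_5_c10 ln16_11_5_c10_ok) (L (nat_lit 527) ln16_12_5_c10 ln16_12_5_c10_ok))))) (B (M (nat_lit 496) (B (M (nat_lit 369) (B (L (nat_lit 337) ln16_14_6_c10 ln16_14_6_c10_ok) (L (nat_lit 401) ln16_15_6_c10 ln16_15_6_c10_ok))) (M (nat_lit 367) (B (L (nat_lit 335) ln16_14_7 ln16_14_7_ok) (L (nat_lit 399) ln16_15_7 ln16_15_7_ok))))) (M (nat_lit 337) (B (L (nat_lit 369) ln16_14_6_c10 ln16_14_6_c10_ok) (M (nat_lit 336) (B (L (nat_lit 305) ln16_13_6_c10 ln16_13_6_c10_ok) (M (nat_lit 335) (B (L (nat_lit 303) ln16_13_7 ln16_13_7_ok) (L (nat_lit 367) ln16_14_7 ln16_14_7_ok))))))))))) (B (M (nat_lit 335) (B (M (nat_lit 303) (B (L (nat_lit 336) ln16_13_7 ln16_13_7_ok) (M (nat_lit 367) (B (L (nat_lit 399) ln15_9_4 ln15_9_4_ok) (L (nat_lit 464) ln16_14_7 ln16_14_7_ok))))) (B (M (nat_lit 369) (B (M (nat_lit 464) (B (L (nat_lit 367) ln16_14_7 ln16_14_7_ok) (L (nat_lit 337) ln16_14_6_c10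 ln16_14_6_c10_ok))) (B (M (nat_lit 337) (B (L (nat_lit 464) ln16_14_6_c10 ln16_14_6_c10_ok) (M (nat_lit 305) (B (L (nat_lit 336) ln16_13_6_c10 ln16_13_6_c10_ok) (L (nat_lit 273) ln17_8_5_c10 ln17_8_5_c10_ok))))) (B (M (nat_lit 370) (B (M (nat_lit 371) (B (L (nat_lit 336) ln19_11_3_c10 ln19_11_3_c10_ok) (L (nat_lit 399) ln19_11_1_c10 ln19_11_1_c10_ok))) (B (M (nat_lit 334) (B (L (nat_lit 367) ln18_11_3 ln18_11_3_ok) (M (nat_lit 336) (B (L (nat_lit 333) ln13_10_0 ln13_10_0_ok) (L (nat_lit 371) ln19_11_3_c10 ln19_11_3_c10_ok))))) (B (M (nat_lit 367) (B (L (nat_lit 334) ln18_11_3 ln18_11_3_ok) (M (nat_lit 399) (B (L (nat_lit 398) ln18_11_1 ln18_11_1_ok) (L (nat_lit 371) ln19_11_1_c10 ln19_11_1_c10_ok))))) (M (nat_lit 334) (B (L (nat_lit 367) ln18_11_3 ln18_11_3_ok) (M (nat_lit 336) (B (L (nat_lit 333) ln13_10_0 ln13_10_0_ok) (L (nat_lit 337) ln14_10_0 ln14_10_0_ok))))))))) (M (nat_lit 370) (B (M (nat_lit 367) (B (L (nat_lit 334) ln18_11_3 ln18_11_3_ok)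 (L (nat_lit 464) ln16_14_7 ln16_14_7_ok))) (M (nat_lit 371) (B (L (nat_lit 336) ln19_11_3_c10 ln19_11_3_c10_ok) (L (nat_lit 399) ln19_11_1_c10 ln19_11_1_c10_ok))))))))) (B (M (nat_lit 336) (B (L (nat_lit 303) ln16_13_7 ln16_13_7_ok) (M (nat_lit 337) (B (L (nat_lit 305) ln16_13_6_c10 ln16_13_6_c10_ok) (M (nat_lit 369) (B (L (nat_lit 464) ln16_14_6_c10 ln16_14_6_c10_ok) (M (nat_lit 370) (B (L (nat_lit 334) ln14_10_0 ln14_10_0_ok) (L (nat_lit 371) ln19_11_3_c10 ln19_11_3_c10_ok))))))))) (B (M (nat_lit 367) (B (L (nat_lit 464) ln16_14_7 ln16_14_7_ok) (M (nat_lit 303) (B (L (nat_lit 271) ln15_8_4 ln15_8_4_ok) (L (nat_lit 399) ln15_9_4 ln15_9_4_ok))))) (M (nat_lit 303) (B (L (nat_lit 336) ln16_13_7 ln16_13_7_ok) (M (nat_lit 367) (B (L (nat_lit 271) ln15_8_4 ln15_8_4_ok) (L (nat_lit 399) ln15_9_4 ln15_9_4_ok)))))))))) (B (M (nat_lit 337) (B (M (nat_lit 305) (B (L (nat_lit 336) ln16_13_6_c10 ln16_13_6_c10_ok) (M (nat_lit 369) (B (L (nat_lit 401) ln17_9_5_c10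 ln17_9_5_c10_ok) (L (nat_lit 464) ln16_14_6_c10 ln16_14_6_c10_ok))))) (B (M (nat_lit 367) (B (M (nat_lit 464) (B (L (nat_lit 369) ln16_14_6_c10 ln16_14_6_c10_ok) (L (nat_lit 335) ln16_14_7 ln16_14_7_ok))) (B (M (nat_lit 335) (B (L (nat_lit 464) ln16_14_7 ln16_14_7_ok) (M (nat_lit 303) (B (L (nat_lit 336) ln16_13_7 ln16_13_7_ok) (L (nat_lit 271) ln15_8_4 ln15_8_4_ok))))) (M (nat_lit 366) (B (L (nat_lit 336) ln13_11_2 ln13_11_2_ok) (M (nat_lit 369) (B (L (nat_lit 338) ln14_11_2 ln14_11_2_ok) (L (nat_lit 401) ln13_11_0 ln13_11_0_ok)))))))) (B (M (nat_lit 336) (B (L (nat_lit 305) ln16_13_6_c10 ln16_13_6_c10_ok) (M (nat_lit 335) (B (L (nat_lit 303) ln16_13_7 ln16_13_7_ok) (M (nat_lit 367) (B (L (nat_lit 464) ln16_14_7 ln16_14_7_ok) (L (nat_lit 366) ln13_11_2 ln13_11_2_ok))))))) (B (M (nat_lit 369) (B (L (nat_lit 464) ln16_14_6_c10 ln16_14_6_c10_ok) (M (nat_lit 305) (B (L (nat_lit 273) ln17_8_5_c10 ln17_8_5_c10_ok) (L (nat_lit 401) ln17_9_5_c10 ln17_9_5_c10_ok)))))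 (M (nat_lit 305) (B (L (nat_lit 336) ln16_13_6_c10 ln16_13_6_c10_ok) (M (nat_lit 369) (B (L (nat_lit 273) ln17_8_5_c10 ln17_8_5_c10_ok) (L (nat_lit 401) ln17_9_5_c10 ln17_9_5_c10_ok)))))))))) c10_d562)))))
noncomputable def c10_d564 : Cert := (B (M (nat_lit 336) (B (M (nat_lit 337) (B (M (nat_lit 338) (B (M (nat_lit 367) (B (L (nat_lit 339) ln19_10_1_c10 ln19_10_1_c10_ok) (L (nat_lit 366) ln13_11_2 ln13_11_2_ok))) (B (M (nat_lit 335) (B (M (nat_lit 370) (B (L (nat_lit 371) ln15_10_0_c10 ln15_10_0_c10_ok) (M (nat_lit 306) (B (L (nat_lit 307) ln15_10_2_c10 ln15_10_2_c10_ok) (M (nat_lit 334) (B (L (nat_lit 369) ln14_10_0 ln14_10_0_ok) (L (nat_lit 305) ln14_10_2_c10 ln14_10_2_c10_ok))))))) (B (M (nat_lit 339) (B (M (nat_lit 307) (B (L (nat_lit 308) ln16_10_2_c10 ln16_10_2_c10_ok) (L (nat_lit 306) ln15_10_2_c10 ln15_10_2_c10_ok))) (L (nat_lit 303) ln16_13_7 ln16_13_7_ok))) (M (nat_lit 339) (B (M (nat_lit 371) (B (L (nat_lit 372) ln16_10_0_c10 ln16_10_0_c10_ok)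 (L (nat_lit 370) ln15_10_0_c10 ln15_10_0_c10_ok))) (L (nat_lit 303) ln16_13_7 ln16_13_7_ok)))))) (M (nat_lit 367) (B (L (nat_lit 366) ln13_11_2 ln13_11_2_ok) (M (nat_lit 335) (B (L (nat_lit 303) ln16_13_7 ln16_13_7_ok) (M (nat_lit 334) (B (M (nat_lit 370) (B (L (nat_lit 371) ln15_10_0_c10 ln15_10_0_c10_ok) (L (nat_lit 369) ln14_10_0 ln14_10_0_ok))) (M (nat_lit 306) (B (L (nat_lit 307) ln15_10_2_c10 ln15_10_2_c10_ok) (L (nat_lit 305) ln14_10_2_c10 ln14_10_2_c10_ok)))))))))))) (B (L (nat_lit 305) ln16_13_6_c10 ln16_13_6_c10_ok) (M (nat_lit 338) (B (M (nat_lit 367) (B (L (nat_lit 339) ln19_10_1_c10 ln19_10_1_c10_ok) (L (nat_lit 366) ln13_11_2 ln13_11_2_ok))) (B (M (nat_lit 335) (B (L (nat_lit 303) ln16_13_7 ln16_13_7_ok) (M (nat_lit 371) (B (L (nat_lit 370) ln15_10_0_c10 ln15_10_0_c10_ok) (M (nat_lit 339) (B (L (nat_lit 372) ln16_10_0_c10 ln16_10_0_c10_ok) (M (nat_lit 307) (B (L (nat_lit 308) ln16_10_2_c10 ln16_10_2_c10_ok) (L (nat_lit 306) ln15_10_2_c10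 ln15_10_2_c10_ok))))))))) (M (nat_lit 335) (B (L (nat_lit 303) ln16_13_7 ln16_13_7_ok) (M (nat_lit 366) (B (L (nat_lit 367) ln18_10_1 ln18_10_1_ok) (M (nat_lit 370) (B (L (nat_lit 371) ln15_10_0_c10 ln15_10_0_c10_ok) (L (nat_lit 334) ln17_10_1 ln17_10_1_ok))))))))))))) (B (K (nat_lit 8931394256621431097518788932954815974123178790111402697586214379151454478505920309406644905352083383080873213042519674760098556314814251008) (nat_lit 23817051323263785979052997195375028695409297753160345818310683180107195192659008544984929922581998063360696566515483950931520902872646549504) (nat_lit 23817051323263785979052997195375028695409297753160345818310683180107195192659008544984929922581998063360696566515483950931520902872646549504) c10_s385) (B (M (nat_lit 464) (B (M (nat_lit 335) (B (L (nat_lit 303) ln16_13_7 ln16_13_7_ok) (L (nat_lit 367) ln16_14_7 ln16_14_7_ok))) (M (nat_lit 463) (B (L (nat_lit 431) ln16_10_5 ln16_10_5_ok) (L (nat_lit 495) ln16_11_5_c10 ln16_11_5_c10_ok)))))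 (B (K (nat_lit 8931394256621431097518788932954815974123178790111402697586214379151454478505920309406644905352083383080873213042519674760098556314814251008) (nat_lit 349960116079355922593302953070494262465630156145619646696095481348834895047970231066365451030165979136) (nat_lit 349960116079355922593302953070494262465630156145619646696095481348834895047970231066365451030165979136) c10_s386) (M (nat_lit 304) (B (M (nat_lit 305) (B (L (nat_lit 273) ln16_12_6_c10 ln16_12_6_c10_ok) (L (nat_lit 337) ln16_13_6_c10 ln16_13_6_c10_ok))) (B (M (nat_lit 399) (B (L (nat_lit 431) ln16_9_5 ln16_9_5_ok) (M (nat_lit 272) (B (L (nat_lit 367) ln16_8_5 ln16_8_5_ok) (M (nat_lit 273) (B (L (nat_lit 305) ln16_12_6_c10 ln16_12_6_c10_ok) (L (nat_lit 241) ln16_11_6_c10 ln16_11_6_c10_ok))))))) (M (nat_lit 369) (B (M (nat_lit 272) (B (L (nat_lit 401) ln16_8_4_c10 ln16_8_4_c10_ok) (M (nat_lit 399) (B (L (nat_lit 431) ln16_9_5 ln16_9_5_ok) (L (nat_lit 367) ln16_8_5 ln16_8_5_ok)))))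 (B (M (nat_lit 272) (B (L (nat_lit 401) ln16_8_4_c10 ln16_8_4_c10_ok) (M (nat_lit 240) (B (L (nat_lit 337) ln16_7_4_c10 ln16_7_4_c10_ok) (M (nat_lit 367) (B (L (nat_lit 399) ln16_8_5 ln16_8_5_ok) (L (nat_lit 335) ln16_7_5_c10 ln16_7_5_c10_ok))))))) (B (M (nat_lit 335) (B (M (nat_lit 370) (B (L (nat_lit 371) ln19_11_3_c10 ln19_11_3_c10_ok) (M (nat_lit 334) (B (L (nat_lit 367) ln18_11_3 ln18_11_3_ok) (L (nat_lit 333) ln13_10_0 ln13_10_0_ok))))) (B (M (nat_lit 370) (B (L (nat_lit 371) ln19_11_3_c10 ln19_11_3_c10_ok) (M (nat_lit 334) (B (L (nat_lit 333) ln13_10_0 ln13_10_0_ok) (L (nat_lit 337) ln14_10_0 ln14_10_0_ok))))) (M (nat_lit 272) (B (L (nat_lit 401) ln16_8_4_c10 ln16_8_4_c10_ok) (M (nat_lit 240) (B (L (nat_lit 367) ln16_7_5_c10 ln16_7_5_c10_ok) (L (nat_lit 337) ln16_7_4_c10 ln16_7_4_c10_ok)))))))) (B (M (nat_lit 399) (B (L (nat_lit 431) ln16_9_5 ln16_9_5_ok) (M (nat_lit 367) (B (L (nat_lit 272) ln16_8_5 ln16_8_5_ok) (L (nat_lit 398) ln13_12_2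 ln13_12_2_ok))))) (B (M (nat_lit 401) (B (L (nat_lit 272) ln16_8_4_c10 ln16_8_4_c10_ok) (M (nat_lit 399) (B (L (nat_lit 431) ln16_9_5 ln16_9_5_ok) (M (nat_lit 370) (B (L (nat_lit 398) ln13_12_2 ln13_12_2_ok) (L (nat_lit 371) ln19_11_1_c10 ln19_11_1_c10_ok))))))) (M (nat_lit 399) (B (L (nat_lit 431) ln16_9_5 ln16_9_5_ok) (L (nat_lit 398) ln13_12_2 ln13_12_2_ok))))))))))))))))) (B (M (nat_lit 336) (B (K (nat_lit 8931394256621431097518788932954815974123178790111402697586214379151454478505920309406644905352083383080873213042519674760098556314814251008) (nat_lit 5545339394697254415877167099670732018532776827207818001151091746049769757535402072228915361900242801094912148893279785969608818688) (nat_lit 5545339394697254415877167099670732018532776827207818001151091746049769757535402072228915361900242801094912148893279785969608818688) c10_s384) (B (M (nat_lit 304) (B (M (nat_lit 272) (B (M (nat_lit 240) (B (M (nat_lit 241) (B (L (nat_lit 209) ln16_10_6_c10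 ln16_10_6_c10_ok) (L (nat_lit 273) ln16_11_6_c10 ln16_11_6_c10_ok))) (M (nat_lit 369) (B (L (nat_lit 337) ln16_7_4_c10 ln16_7_4_c10_ok) (L (nat_lit 401) ln16_8_4_c10 ln16_8_4_c10_ok))))) (B (M (nat_lit 240) (B (M (nat_lit 239) (B (L (nat_lit 207) ln16_10_7_c10 ln16_10_7_c10_ok) (L (nat_lit 271) ln16_11_7_c10 ln16_11_7_c10_ok))) (M (nat_lit 369) (B (L (nat_lit 337) ln16_7_4_c10 ln16_7_4_c10_ok) (L (nat_lit 401) ln16_8_4_c10 ln16_8_4_c10_ok))))) (M (nat_lit 273) (B (L (nat_lit 241) ln16_11_6_c10 ln16_11_6_c10_ok) (L (nat_lit 305) ln16_12_6_c10 ln16_12_6_c10_ok)))))) (B (M (nat_lit 272) (B (M (nat_lit 240) (B (M (nat_lit 239) (B (L (nat_lit 207) ln16_10_7_c10 ln16_10_7_c10_ok) (L (nat_lit 271) ln16_11_7_c10 ln16_11_7_c10_ok))) (M (nat_lit 369) (B (L (nat_lit 337) ln16_7_4_c10 ln16_7_4_c10_ok) (L (nat_lit 401) ln16_8_4_c10 ln16_8_4_c10_ok))))) (M (nat_lit 273) (B (L (nat_lit 241) ln16_11_6_c10 ln16_11_6_c10_ok) (L (nat_lit 305) ln16_12_6_c10 ln16_12_6_c10_ok)))))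 (B (M (nat_lit 272) (B (M (nat_lit 271) (B (L (nat_lit 239) ln16_11_7_c10 ln16_11_7_c10_ok) (L (nat_lit 303) ln16_12_7_c10 ln16_12_7_c10_ok))) (M (nat_lit 273) (B (L (nat_lit 241) ln16_11_6_c10 ln16_11_6_c10_ok) (L (nat_lit 305) ln16_12_6_c10 ln16_12_6_c10_ok))))) (B (M (nat_lit 272) (B (M (nat_lit 240) (B (M (nat_lit 369) (B (L (nat_lit 337) ln16_7_4_c10 ln16_7_4_c10_ok) (L (nat_lit 401) ln16_8_4_c10 ln16_8_4_c10_ok))) (M (nat_lit 367) (B (L (nat_lit 335) ln16_7_5_c10 ln16_7_5_c10_ok) (L (nat_lit 399) ln16_8_5 ln16_8_5_ok))))) (M (nat_lit 271) (B (L (nat_lit 239) ln16_11_7_c10 ln16_11_7_c10_ok) (L (nat_lit 303) ln16_12_7_c10 ln16_12_7_c10_ok))))) (B (M (nat_lit 305) (B (L (nat_lit 273) ln16_12_6_c10 ln16_12_6_c10_ok) (M (nat_lit 303) (B (L (nat_lit 271) ln16_12_7_c10 ln16_12_7_c10_ok) (L (nat_lit 337) ln16_13_6_c10 ln16_13_6_c10_ok))))) (M (nat_lit 272) (B (M (nat_lit 240) (B (M (nat_lit 369) (B (L (nat_lit 337) ln16_7_4_c10 ln16_7_4_c10_ok) (L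 (nat_lit 401) ln16_8_4_c10 ln16_8_4_c10_ok))) (M (nat_lit 367) (B (L (nat_lit 335) ln16_7_5_c10 ln16_7_5_c10_ok) (L (nat_lit 399) ln16_8_5 ln16_8_5_ok))))) (M (nat_lit 273) (B (L (nat_lit 241) ln16_11_6_c10 ln16_11_6_c10_ok) (L (nat_lit 305) ln16_12_6_c10 ln16_12_6_c10_ok))))))))))) c10_d560))) c10_d563))
noncomputable def c10_d565 : Cert := (B (M (nat_lit 336) (B (M (nat_lit 334) (B (L (nat_lit 366) ln13_14_6 ln13_14_6_ok) (M (nat_lit 333) (B (L (nat_lit 302) ln13_13_6 ln13_13_6_ok) (M (nat_lit 300) (B (L (nat_lit 332) ln13_13_7 ln13_13_7_ok) (M (nat_lit 301) (B (L (nat_lit 268) ln13_12_7 ln13_12_7_ok) (L (nat_lit 335) ln16_10_3 ln16_10_3_ok))))))))) (B (M (nat_lit 337) (B (L (nat_lit 305) ln16_13_6_c10 ln16_13_6_c10_ok) (M (nat_lit 369) (B (L (nat_lit 464) ln16_14_6_c10 ln16_14_6_c10_ok) (M (nat_lit 335) (B (L (nat_lit 303) ln16_13_7 ln16_13_7_ok) (M (nat_lit 334) (B (L (nat_lit 366) ln17_10_1 ln17_10_1_ok) (L (nat_lit 370) ln14_10_0 ln14_10_0_ok)))))))))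 (B (M (nat_lit 303) (B (L (nat_lit 335) ln16_13_7 ln16_13_7_ok) (M (nat_lit 304) (B (L (nat_lit 271) ln16_12_7_c10 ln16_12_7_c10_ok) (M (nat_lit 305) (B (L (nat_lit 273) ln16_12_6_c10 ln16_12_6_c10_ok) (L (nat_lit 337) ln16_13_6_c10 ln16_13_6_c10_ok))))))) (M (nat_lit 337) (B (L (nat_lit 305) ln16_13_6_c10 ln16_13_6_c10_ok) (M (nat_lit 464) (B (L (nat_lit 369) ln16_14_6_c10 ln16_14_6_c10_ok) (M (nat_lit 496) (B (M (nat_lit 495) (B (L (nat_lit 463) ln16_11_5_c10 ln16_11_5_c10_ok) (L (nat_lit 527) ln16_12_5_c10 ln16_12_5_c10_ok))) (M (nat_lit 497) (B (L (nat_lit 465) ln16_11_4 ln16_11_4_ok) (L (nat_lit 529) ln16_12_4 ln16_12_4_ok))))))))))))) (B (M (nat_lit 336) (B (M (nat_lit 305) (B (L (nat_lit 337) ln16_13_6_c10 ln16_13_6_c10_ok) (M (nat_lit 304) (B (L (nat_lit 273) ln16_12_6_c10 ln16_12_6_c10_ok) (M (nat_lit 303) (B (L (nat_lit 335) ln16_13_7 ln16_13_7_ok) (L (nat_lit 271) ln16_12_7_c10 ln16_12_7_c10_ok))))))) (B (M (nat_lit 304) (B (M (nat_lit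 431) (B (L (nat_lit 463) ln16_10_5 ln16_10_5_ok) (L (nat_lit 399) ln16_9_5 ln16_9_5_ok))) (M (nat_lit 303) (B (L (nat_lit 335) ln16_13_7 ln16_13_7_ok) (L (nat_lit 271) ln16_12_7_c10 ln16_12_7_c10_ok))))) (B (M (nat_lit 304) (B (M (nat_lit 431) (B (L (nat_lit 463) ln16_10_5 ln16_10_5_ok) (L (nat_lit 399) ln16_9_5 ln16_9_5_ok))) (M (nat_lit 305) (B (L (nat_lit 337) ln16_13_6_c10 ln16_13_6_c10_ok) (L (nat_lit 273) ln16_12_6_c10 ln16_12_6_c10_ok))))) (M (nat_lit 464) (B (M (nat_lit 463) (B (L (nat_lit 495) ln16_11_5_c10 ln16_11_5_c10_ok) (L (nat_lit 431) ln16_10_5 ln16_10_5_ok))) (M (nat_lit 337) (B (L (nat_lit 369) ln16_14_6_c10 ln16_14_6_c10_ok) (L (nat_lit 305) ln16_13_6_c10 ln16_13_6_c10_ok))))))))) (B (M (nat_lit 336) (B (M (nat_lit 431) (B (L (nat_lit 463) ln16_10_5 ln16_10_5_ok) (M (nat_lit 303) (B (L (nat_lit 335) ln16_13_7 ln16_13_7_ok) (M (nat_lit 304) (B (L (nat_lit 271) ln16_12_7_c10 ln16_12_7_c10_ok) (L (nat_lit 399) ln16_9_5 ln16_9_5_ok)))))))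 (B (M (nat_lit 304) (B (M (nat_lit 305) (B (L (nat_lit 273) ln16_12_6_c10 ln16_12_6_c10_ok) (L (nat_lit 337) ln16_13_6_c10 ln16_13_6_c10_ok))) (M (nat_lit 431) (B (L (nat_lit 399) ln16_9_5 ln16_9_5_ok) (L (nat_lit 463) ln16_10_5 ln16_10_5_ok))))) (M (nat_lit 337) (B (L (nat_lit 305) ln16_13_6_c10 ln16_13_6_c10_ok) (M (nat_lit 335) (B (L (nat_lit 303) ln16_13_7 ln16_13_7_ok) (M (nat_lit 369) (B (L (nat_lit 464) ln16_14_6_c10 ln16_14_6_c10_ok) (M (nat_lit 334) (B (L (nat_lit 333) ln13_10_0 ln13_10_0_ok) (L (nat_lit 370) ln14_10_0 ln14_10_0_ok)))))))))))) (M (nat_lit 336) (B (M (nat_lit 334) (B (L (nat_lit 366) ln13_14_6 ln13_14_6_ok) (M (nat_lit 333) (B (L (nat_lit 302) ln13_13_6 ln13_13_6_ok) (M (nat_lit 300) (B (L (nat_lit 332) ln13_13_7 ln13_13_7_ok) (M (nat_lit 301) (B (L (nat_lit 268) ln13_12_7 ln13_12_7_ok) (L (nat_lit 335) ln16_10_3 ln16_10_3_ok))))))))) (B (M (nat_lit 337) (B (L (nat_lit 305) ln16_13_6_c10 ln16_13_6_c10_ok) (M (nat_lit 335)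 (B (L (nat_lit 303) ln16_13_7 ln16_13_7_ok) (M (nat_lit 334) (B (L (nat_lit 366) ln17_10_1 ln17_10_1_ok) (M (nat_lit 302) (B (L (nat_lit 333) ln13_13_6 ln13_13_6_ok) (L (nat_lit 301) ln17_10_3_c10 ln17_10_3_c10_ok))))))))) (B (M (nat_lit 337) (B (L (nat_lit 305) ln16_13_6_c10 ln16_13_6_c10_ok) (M (nat_lit 335) (B (L (nat_lit 303) ln16_13_7 ln16_13_7_ok) (M (nat_lit 338) (B (M (nat_lit 370) (B (L (nat_lit 371) ln15_10_0_c10 ln15_10_0_c10_ok) (M (nat_lit 334) (B (L (nat_lit 366) ln17_10_1 ln17_10_1_ok) (L (nat_lit 369) ln14_10_0 ln14_10_0_ok))))) (B (M (nat_lit 339) (B (M (nat_lit 307) (B (L (nat_lit 306) ln15_10_2_c10 ln15_10_2_c10_ok) (L (nat_lit 308) ln16_10_2_c10 ln16_10_2_c10_ok))) (M (nat_lit 371) (B (L (nat_lit 370) ln15_10_0_c10 ln15_10_0_c10_ok) (L (nat_lit 372) ln16_10_0_c10 ln16_10_0_c10_ok))))) (B (M (nat_lit 339) (B (M (nat_lit 307) (B (L (nat_lit 306) ln15_10_2_c10 ln15_10_2_c10_ok) (L (nat_lit 308) ln16_10_2_c10 ln16_10_2_c10_ok))) (M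 (nat_lit 340) (B (L (nat_lit 369) ln20_10_1_c10 ln20_10_1_c10_ok) (M (nat_lit 372) (B (L (nat_lit 371) ln16_10_0_c10 ln16_10_0_c10_ok) (L (nat_lit 373) ln17_10_0_c10 ln17_10_0_c10_ok))))))) (M (nat_lit 339) (B (M (nat_lit 307) (B (L (nat_lit 306) ln15_10_2_c10 ln15_10_2_c10_ok) (L (nat_lit 308) ln16_10_2_c10 ln16_10_2_c10_ok))) (M (nat_lit 334) (B (L (nat_lit 366) ln17_10_1 ln17_10_1_ok) (M (nat_lit 369) (B (L (nat_lit 370) ln14_10_0 ln14_10_0_ok) (L (nat_lit 340) ln20_10_1_c10 ln20_10_1_c10_ok))))))))))))))) (B (M (nat_lit 305) (B (M (nat_lit 273) (B (L (nat_lit 304) ln16_12_6_c10 ln16_12_6_c10_ok) (L (nat_lit 337) ln16_13_6_c10 ln16_13_6_c10_ok))) (B (M (nat_lit 335) (B (L (nat_lit 337) ln16_13_6_c10 ln16_13_6_c10_ok) (L (nat_lit 303) ln16_13_7 ln16_13_7_ok))) (M (nat_lit 304) (B (L (nat_lit 273) ln16_12_6_c10 ln16_12_6_c10_ok) (M (nat_lit 303) (B (L (nat_lit 271) ln16_12_7_c10 ln16_12_7_c10_ok) (L (nat_lit 335) ln16_13_7 ln16_13_7_ok)))))))) (M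 (nat_lit 304) (B (M (nat_lit 272) (B (M (nat_lit 271) (B (L (nat_lit 239) ln16_11_7_c10 ln16_11_7_c10_ok) (L (nat_lit 303) ln16_12_7_c10 ln16_12_7_c10_ok))) (M (nat_lit 273) (B (L (nat_lit 241) ln16_11_6_c10 ln16_11_6_c10_ok) (L (nat_lit 305) ln16_12_6_c10 ln16_12_6_c10_ok))))) (B (M (nat_lit 305) (B (L (nat_lit 273) ln16_12_6_c10 ln16_12_6_c10_ok) (L (nat_lit 337) ln16_13_6_c10 ln16_13_6_c10_ok))) (B (M (nat_lit 272) (B (M (nat_lit 271) (B (L (nat_lit 239) ln16_11_7_c10 ln16_11_7_c10_ok) (L (nat_lit 303) ln16_12_7_c10 ln16_12_7_c10_ok))) (M (nat_lit 369) (B (L (nat_lit 401) ln16_8_4_c10 ln16_8_4_c10_ok) (M (nat_lit 337) (B (L (nat_lit 240) ln16_7_4_c10 ln16_7_4_c10_ok) (L (nat_lit 305) ln16_13_6_c10 ln16_13_6_c10_ok))))))) (M (nat_lit 272) (B (M (nat_lit 271) (B (L (nat_lit 239) ln16_11_7_c10 ln16_11_7_c10_ok) (L (nat_lit 303) ln16_12_7_c10 ln16_12_7_c10_ok))) (M (nat_lit 240) (B (M (nat_lit 241) (B (L (nat_lit 209) ln16_10_6_c10 ln16_10_6_c10_ok)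 (L (nat_lit 273) ln16_11_6_c10 ln16_11_6_c10_ok))) (M (nat_lit 369) (B (L (nat_lit 337) ln16_7_4_c10 ln16_7_4_c10_ok) (L (nat_lit 401) ln16_8_4_c10 ln16_8_4_c10_ok)))))))))))))))))))
noncomputable def c10_d566 : Cert := (B (M (nat_lit 366) (B (L (nat_lit 334) ln13_14_6 ln13_14_6_ok) (M (nat_lit 367) (B (L (nat_lit 396) ln16_11_1 ln16_11_1_ok) (M (nat_lit 369) (B (L (nat_lit 398) ln17_11_1 ln17_11_1_ok) (M (nat_lit 337) (B (L (nat_lit 336) ln13_11_2 ln13_11_2_ok) (L (nat_lit 338) ln14_11_2 ln14_11_2_ok))))))))) (B (M (nat_lit 366) (B (L (nat_lit 334) ln13_14_6 ln13_14_6_ok) (M (nat_lit 367) (B (L (nat_lit 396) ln16_11_1 ln16_11_1_ok) (M (nat_lit 401) (B (L (nat_lit 400) ln13_11_0 ln13_11_0_ok) (M (nat_lit 369) (B (L (nat_lit 402) ln14_11_0 ln14_11_0_ok) (M (nat_lit 337) (B (L (nat_lit 338) ln14_11_2 ln14_11_2_ok) (L (nat_lit 336) ln13_11_2 ln13_11_2_ok))))))))))) (B (M (nat_lit 400) (B (M (nat_lit 336) (B (K (nat_lit 8931394256621431097518788932954815974123178790111402697586214379151454478505920309406644905352083383080873213042519674760098556314814251008)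 (nat_lit 5545339394697254415877167099670732018532776827207818001151091746049769757535402072228915361900242801094912148893279785969608818688) (nat_lit 5545339394697254415877167099670732018532776827207818001151091746049769757535402072228915361900242801094912148893279785969608818688) c10_s384) (B (K (nat_lit 8931394256621431097518788932954815974123178790111402697586214379151454478505920309406644905352083383080873213042519674760098556314814251008) (nat_lit 23817051323263785979052997195375028695409297753160345818310683180107195192659008544984929922581998063360696566515483950931520902872646549504) (nat_lit 23817051323263785979052997195375028695409297753160345818310683180107195192659008544984929922581998063360696566515483950931520902872646549504) c10_s385) (B (M (nat_lit 464) (B (M (nat_lit 335) (B (L (nat_lit 303) ln16_13_7 ln16_13_7_ok) (L (nat_lit 367) ln16_14_7 ln16_14_7_ok))) (M (nat_lit 463) (B (L (nat_lit 431) ln16_10_5 ln16_10_5_ok) (L (nat_lit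 495) ln16_11_5_c10 ln16_11_5_c10_ok))))) (B (K (nat_lit 8931394256621431097518788932954815974123178790111402697586214379151454478505920309406644905352083383080873213042519674760098556314814251008) (nat_lit 349960116079355922593302953070494262465630156145619646696095481348834895047970231066365451030165979136) (nat_lit 349960116079355922593302953070494262465630156145619646696095481348834895047970231066365451030165979136) c10_s386) (K (nat_lit 8931394256621431097518788932954815974123178790111402697586214379151454478505920309406644905352083383080873213042519674760098556314814251008) (nat_lit 5545339394697254415877167095681186695599674671731368873413478306784478614580897687220750394462632501147726911166095793297742102528) (nat_lit 5545339394697254415877167095681186695599674671731368873413478306784478614580897687220750394462632501147726911166095793297742102528) c10_s387)))))) (B (M (nat_lit 336) (B (K (nat_lit 8931394256621431097518788932954815974123178790111402697586214379151454478505920309406644905352083383080873213042519674760098556314814251008)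 (nat_lit 23817051323263785979052997195375028695409297753160345818310683180107195192659008544984929922581998063360696566515483950931520902872646549504) (nat_lit 23817051323263785979052997195375028695409297753160345818310683180107195192659008544984929922581998063360696566515483950931520902872646549504) c10_s385) (B (M (nat_lit 464) (B (M (nat_lit 335) (B (L (nat_lit 303) ln16_13_7 ln16_13_7_ok) (L (nat_lit 367) ln16_14_7 ln16_14_7_ok))) (M (nat_lit 463) (B (L (nat_lit 431) ln16_10_5 ln16_10_5_ok) (L (nat_lit 495) ln16_11_5_c10 ln16_11_5_c10_ok))))) (B (K (nat_lit 8931394256621431097518788932954815974123178790111402697586214379151454478505920309406644905352083383080873213042519674760098556314814251008) (nat_lit 349960116079355922593302953070494262465630156145619646696095481348834895047970231066365451030165979136) (nat_lit 349960116079355922593302953070494262465630156145619646696095481348834895047970231066365451030165979136) c10_s380) (K (nat_lit 8931394256621431097518788932954815974123178790111402697586214379151454478505920309406644905352083383080873213042519674760098556314814251008)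 (nat_lit 5545339394697254415877167095681186695599674671731368873413478306784478614580897687220750394462632501147726911166095793297742102528) (nat_lit 5545339394697254415877167095681186695599674671731368873413478306784478614580897687220750394462632501147726911166095793297742102528) c10_s387))))) c10_d564))) (B (M (nat_lit 462) (B (L (nat_lit 494) ln13_11_4 ln13_11_4_ok) (M (nat_lit 463) (B (L (nat_lit 431) ln12_14_2 ln12_14_2_ok) (M (nat_lit 496) (B (L (nat_lit 495) ln12_14_0 ln12_14_0_ok) (M (nat_lit 464) (B (L (nat_lit 497) ln13_14_0 ln13_14_0_ok) (M (nat_lit 400) (B (M (nat_lit 369) (B (L (nat_lit 337) ln16_14_6_c10 ln16_14_6_c10_ok) (M (nat_lit 399) (B (L (nat_lit 398) ln13_12_2 ln13_12_2_ok) (L (nat_lit 367) ln16_15_7 ln16_15_7_ok))))) (B (M (nat_lit 369) (B (L (nat_lit 337) ln16_14_6_c10 ln16_14_6_c10_ok) (M (nat_lit 399) (B (L (nat_lit 398) ln13_12_2 ln13_12_2_ok) (L (nat_lit 401) ln16_15_6_c10 ln16_15_6_c10_ok))))) (B (M (nat_lit 399) (B (L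 (nat_lit 367) ln16_15_7 ln16_15_7_ok) (M (nat_lit 369) (B (L (nat_lit 398) ln13_12_2 ln13_12_2_ok) (L (nat_lit 401) ln16_15_6_c10 ln16_15_6_c10_ok))))) (B (M (nat_lit 335) (B (L (nat_lit 367) ln16_14_7 ln16_14_7_ok) (M (nat_lit 336) (B (L (nat_lit 303) ln16_13_7 ln16_13_7_ok) (M (nat_lit 337) (B (L (nat_lit 305) ln16_13_6_c10 ln16_13_6_c10_ok) (L (nat_lit 369) ln16_14_6_c10 ln16_14_6_c10_ok))))))) (M (nat_lit 367) (B (L (nat_lit 335) ln16_14_7 ln16_14_7_ok) (L (nat_lit 399) ln16_15_7 ln16_15_7_ok)))))))))))))))) (B (M (nat_lit 462) (B (L (nat_lit 494) ln13_11_4 ln13_11_4_ok) (M (nat_lit 400) (B (M (nat_lit 463) (B (L (nat_lit 431) ln12_14_2 ln12_14_2_ok) (M (nat_lit 495) (B (L (nat_lit 464) ln16_11_5_c10 ln16_11_5_c10_ok) (L (nat_lit 496) ln12_14_0 ln12_14_0_ok))))) c10_d565)))) (M (nat_lit 462) (B (L (nat_lit 494) ln13_11_4 ln13_11_4_ok) (M (nat_lit 366) (B (L (nat_lit 334) ln13_14_6 ln13_14_6_ok) (M (nat_lit 367) (B (L (nat_lit 396) ln16_11_1 ln16_11_1_ok)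 (M (nat_lit 400) (B (L (nat_lit 401) ln13_11_0 ln13_11_0_ok) (M (nat_lit 464) (B (L (nat_lit 335) ln16_14_7 ln16_14_7_ok) (M (nat_lit 463) (B (L (nat_lit 431) ln12_14_2 ln12_14_2_ok) (L (nat_lit 495) ln16_11_5_c10 ln16_11_5_c10_ok))))))))))))))))))
noncomputable def c10_d567 : Cert := (B (M (nat_lit 398) (B (K (nat_lit 8931394256621431095582101523788407630551154058383323995901024612985834343979793061522927104195957657869062444606949298510365546029602832384) (nat_lit 150306725358768346893110343914609025498270242900266086282201773222799194970556724731098163433432209697332527104) (nat_lit 150306725358768346893110343914609025498270242900266086282201773222799194970556724731098163433432209697332527104) c10_s318) (B (K (nat_lit 8931394256621431095582101523788407630551154058383323995901024612985834343979793061522927104195957657869062444606949298510365546029602832384) (nat_lit 27726696950528456750556224609337843593503757235818530621595962146525952206041313995346022220861675808628336761000951319419552792576)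 (nat_lit 27726696950528456750556224609337843593503757235818530621595962146525952206041313995346022220861675808628336761000951319419552792576) c10_s319) (M (nat_lit 396) (B (M (nat_lit 426) c10_d556) (M (nat_lit 399) (B (L (nat_lit 431) ln12_12_0 ln12_12_0_ok) (M (nat_lit 400) (B (L (nat_lit 433) ln13_12_0 ln13_12_0_ok) (M (nat_lit 368) (B (L (nat_lit 369) ln13_12_2 ln13_12_2_ok) (L (nat_lit 367) ln12_12_2 ln12_12_2_ok)))))))))))) (B (M (nat_lit 368) (B (M (nat_lit 366) (B (L (nat_lit 334) ln13_14_6 ln13_14_6_ok) (M (nat_lit 367) (B (L (nat_lit 396) ln16_11_1 ln16_11_1_ok) (M (nat_lit 369) (B (L (nat_lit 398) ln17_11_1 ln17_11_1_ok) (M (nat_lit 337) (B (L (nat_lit 336) ln13_11_2 ln13_11_2_ok) (L (nat_lit 338) ln14_11_2 ln14_11_2_ok))))))))) (B (M (nat_lit 366) (B (L (nat_lit 334) ln13_14_6 ln13_14_6_ok) (M (nat_lit 367) (B (L (nat_lit 396) ln16_11_1 ln16_11_1_ok) (M (nat_lit 401) (B (L (nat_lit 400) ln13_11_0 ln13_11_0_ok) (M (nat_lit 369) (B (L (nat_lit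 402) ln14_11_0 ln14_11_0_ok) (M (nat_lit 337) (B (L (nat_lit 338) ln14_11_2 ln14_11_2_ok) (L (nat_lit 336) ln13_11_2 ln13_11_2_ok))))))))))) (B (M (nat_lit 400) (B (M (nat_lit 336) (B (M (nat_lit 304) (B (M (nat_lit 433) (B (L (nat_lit 465) ln16_10_4_c10 ln16_10_4_c10_ok) (L (nat_lit 401) ln16_9_4_c10 ln16_9_4_c10_ok))) (M (nat_lit 303) (B (L (nat_lit 335) ln16_13_7 ln16_13_7_ok) (L (nat_lit 271) ln16_12_7_c10 ln16_12_7_c10_ok))))) (B (M (nat_lit 305) (B (L (nat_lit 337) ln16_13_6_c10 ln16_13_6_c10_ok) (M (nat_lit 304) (B (L (nat_lit 273) ln16_12_6_c10 ln16_12_6_c10_ok) (M (nat_lit 303) (B (L (nat_lit 335) ln16_13_7 ln16_13_7_ok) (L (nat_lit 271) ln16_12_7_c10 ln16_12_7_c10_ok))))))) (B (M (nat_lit 304) (B (M (nat_lit 433) (B (L (nat_lit 465) ln16_10_4_c10 ln16_10_4_c10_ok) (L (nat_lit 401) ln16_9_4_c10 ln16_9_4_c10_ok))) (M (nat_lit 305) (B (L (nat_lit 337) ln16_13_6_c10 ln16_13_6_c10_ok) (L (nat_lit 273) ln16_12_6_c10 ln16_12_6_c10_ok))))) (M (nat_lit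 464) (B (M (nat_lit 465) (B (L (nat_lit 497) ln16_11_4 ln16_11_4_ok) (L (nat_lit 433) ln16_10_4_c10 ln16_10_4_c10_ok))) (M (nat_lit 337) (B (L (nat_lit 369) ln16_14_6_c10 ln16_14_6_c10_ok) (L (nat_lit 305) ln16_13_6_c10 ln16_13_6_c10_ok))))))))) (B (K (nat_lit 8931394256621431097518788932954815973983194743725289934426374236615926711123317465829479309420834064270636221093759615673793712985338806272) (nat_lit 2196735251957849304438208649017641559392029326985370691105306233111258530711350609297405767942475809931108329452719594914250420173752951335705929365853483040768) (nat_lit 2196735251957849304438208649017641559392029326985370691105306233111258530711350609297405767942475809931108329452719594914250420173752951335705929365853483040768) c10_s376) (B (K (nat_lit 8931394256621431097518788932954815973983194743725289934426374236615926711123317465829479309420834064270636221093759615673793712985338806272) (nat_lit 40522612990562315350423557129159003996782661831910691237474909776249154262112233333404864391359465516547505818211435730773248521169577457829338451826485753095480902527857297719296)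 (nat_lit 40522612990562315350423557129159003996782661831910691237474909776249154262112233333404864391359465516547505818211435730773248521169577457829338451826485753095480902527857297719296) c10_s377) (B (K (nat_lit 8931394256621431097518788932954815973983194743725289934426374236615926711123317465829479309420834064270636221093759615673793712985338806272) (nat_lit 204586913041142969533442606788896450723696885101231343546105810424896141529289153793233236570046584688994159758203535671251069864057024179191658053632) (nat_lit 204586913041142969533442606788896450723696885101231343546105810424896141529289153793233236570046584688994159758203535671251069864057024179191658053632) c10_s378) c10_d557))))) (B (M (nat_lit 400) (B (M (nat_lit 464) (B (M (nat_lit 337) (B (L (nat_lit 369) ln16_14_6_c10 ln16_14_6_c10_ok) (M (nat_lit 336) (B (L (nat_lit 305) ln16_13_6_c10 ln16_13_6_c10_ok) (M (nat_lit 335) (B (L (nat_lit 303) ln16_13_7 ln16_13_7_ok) (L (nat_lit 367)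 ln16_14_7 ln16_14_7_ok))))))) (M (nat_lit 497) (B (L (nat_lit 465) ln16_11_4 ln16_11_4_ok) (M (nat_lit 496) (B (L (nat_lit 529) ln16_12_4 ln16_12_4_ok) (M (nat_lit 495) (B (L (nat_lit 463) ln16_11_5_c10 ln16_11_5_c10_ok) (L (nat_lit 527) ln16_12_5_c10 ln16_12_5_c10_ok))))))))) (B (M (nat_lit 464) (B (M (nat_lit 336) (B (M (nat_lit 335) (B (L (nat_lit 303) ln16_13_7 ln16_13_7_ok) (L (nat_lit 367) ln16_14_7 ln16_14_7_ok))) (M (nat_lit 465) (B (L (nat_lit 433) ln16_10_4_c10 ln16_10_4_c10_ok) (L (nat_lit 497) ln16_11_4 ln16_11_4_ok))))) (M (nat_lit 496) (B (M (nat_lit 369) (B (L (nat_lit 337) ln16_14_6_c10 ln16_14_6_c10_ok) (L (nat_lit 401) ln16_15_6_c10 ln16_15_6_c10_ok))) (M (nat_lit 495) (B (L (nat_lit 463) ln16_11_5_c10 ln16_11_5_c10_ok) (L (nat_lit 527) ln16_12_5_c10 ln16_12_5_c10_ok))))))) (B (K (nat_lit 8931394256621431097518788932954815973983194743725289934426374236615926711123317465829479309420834064270636221093759615673793712985338806272) (nat_lit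 409173826129920041680140749198702367881426795349125322114556492761648072053223841584494487568753408457929407807181555823216426891901000695589753585664) (nat_lit 409173826129920041680140749198702367881426795349125322114556492761648072053223841584494487568753408457929407807181555823216426891901000695589753585664) c10_s382) c10_d558)))) c10_d559))))) (M (nat_lit 368) c10_d566)))
theorem c10_s388 : Sem (nat_lit 8931394245530752318453279615953023746564839451636822725815331864096610143313642991165262706531849734795092793897349996805775465720519327744) (nat_lit 2719426775348480403614671461245226647820802582655318761983922009802387112920564990197360839411261717785969816818445341201576102313959869300895317250903671397397988829775000447389297278976) (nat_lit 2719426775348480403614671461245226647820802582655318761983922009802387112920564990197360839411261717785969816818445341201576102313959869300895317250903671397397988829775000447389297278976) :=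
  sem_of_chk (M (nat_lit 432) (B (M (nat_lit 462) (B (L (nat_lit 494) ln13_11_4 ln13_11_4_ok) (M (nat_lit 463) (B (L (nat_lit 431) ln12_14_2 ln12_14_2_ok) (M (nat_lit 464) (B (L (nat_lit 433) ln13_14_2 ln13_14_2_ok) (M (nat_lit 496) (B (L (nat_lit 497) ln13_14_0 ln13_14_0_ok) (L (nat_lit 495) ln12_14_0 ln12_14_0_ok))))))))) (B (M (nat_lit 398) (B (K (nat_lit 8931394256621431095582101523788407630551154058383323995901024612985834343979793061522927104195957657869062444606949298510365546029602832384) (nat_lit 150306725358768346893110343914609025498270242900266086282201773222799194970556724731098163433432209697332527104) (nat_lit 150306725358768346893110343914609025498270242900266086282201773222799194970556724731098163433432209697332527104) c10_s318) (B (K (nat_lit 8931394256621431095582101523788407630551154058383323995901024612985834343979793061522927104195957657869062444606949298510365546029602832384) (nat_lit 27726696950528456750556224609337843593503757235818530621595962146525952206041313995346022220861675808628336761000951319419552792576)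 (nat_lit 27726696950528456750556224609337843593503757235818530621595962146525952206041313995346022220861675808628336761000951319419552792576) c10_s319) (B (K (nat_lit 8931394256621431095582101523788407630551154058383323995901024612985834343979793061522927104195957657869062444606949298510365546029602832384) (nat_lit 243135678103767295251367282257595340812460076887132808928307592625805096140307170508299983281842340167335286666077666895048990070193510197399418160696506231726911857702620241068032) (nat_lit 243135678103767295251367282257595340812460076887132808928307592625805096140307170508299983281842340167335286666077666895048990070193510197399418160696506231726911857702620241068032) c10_s372) (M (nat_lit 433) (B (M (nat_lit 399) (B (L (nat_lit 400) ln13_12_0 ln13_12_0_ok) (M (nat_lit 431) (B (L (nat_lit 396) ln12_12_0 ln12_12_0_ok) (L (nat_lit 434) ln18_13_3 ln18_13_3_ok))))) (B (M (nat_lit 400) (B (L (nat_lit 399) ln13_12_0 ln13_12_0_ok) (M (nat_lit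 368) (B (K (nat_lit 8931394278802788651130870279103856594541844164217539506015333286187069234247952767409646199244839611761164184192923761223998080610318942208) (nat_lit 2196735251957849304438208648995460201833898308353020480628672309096257549101445594193611261175567516647815599304337366789554542673204855961697190841995719868416) (nat_lit 2196735251957849304438208648995460201833898308353020480628672309096257549101445594193611261175567516647815599304337366789554542673204855961697190841995719868416) c10_s373) (B (M (nat_lit 367) (B (M (nat_lit 369) (B (L (nat_lit 366) ln17_11_1 ln17_11_1_ok) (M (nat_lit 464) (B (L (nat_lit 337) ln16_14_6_c10 ln16_14_6_c10_ok) (L (nat_lit 335) ln16_14_7 ln16_14_7_ok))))) (B (M (nat_lit 335) (B (L (nat_lit 464) ln16_14_7 ln16_14_7_ok) (M (nat_lit 303) (B (L (nat_lit 271) ln15_8_4 ln15_8_4_ok) (L (nat_lit 336) ln16_13_7 ln16_13_7_ok))))) (M (nat_lit 366) (B (L (nat_lit 369) ln17_11_1 ln17_11_1_ok) (L (nat_lit 396) ln16_11_1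 ln16_11_1_ok)))))) (B (M (nat_lit 367) (B (M (nat_lit 335) (B (L (nat_lit 464) ln16_14_7 ln16_14_7_ok) (M (nat_lit 303) (B (L (nat_lit 271) ln15_8_4 ln15_8_4_ok) (L (nat_lit 336) ln16_13_7 ln16_13_7_ok))))) (M (nat_lit 366) (B (L (nat_lit 369) ln17_11_1 ln17_11_1_ok) (L (nat_lit 396) ln16_11_1 ln16_11_1_ok))))) (B (K (nat_lit 8931394278802788651130870279103856594541844164217539506015333286187069234247952767409646199244839611761164184192923761223998080610318942208) (nat_lit 2196735251957849304438208648995460201833898308352870173903514767816140216545464296209845483087356362146109557013837192180782890342746114536877403956578487369728) (nat_lit 2196735251957849304438208648995460201833898308352870173903514767816140216545464296209845483087356362146109557013837192180782890342746114536877403956578487369728) c10_s371) (B (M (nat_lit 465) (B (L (nat_lit 336) ln16_10_4_c10 ln16_10_4_c10_ok) (M (nat_lit 497) (B (L (nat_lit 529) ln17_16_7_c10 ln17_16_7_c10_ok)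 (L (nat_lit 464) ln16_11_4 ln16_11_4_ok))))) (M (nat_lit 336) (B (L (nat_lit 465) ln16_10_4_c10 ln16_10_4_c10_ok) (M (nat_lit 303) (B (L (nat_lit 335) ln16_13_7 ln16_13_7_ok) (M (nat_lit 305) (B (L (nat_lit 337) ln16_13_6_c10 ln16_13_6_c10_ok) (M (nat_lit 304) (B (L (nat_lit 271) ln16_12_7_c10 ln16_12_7_c10_ok) (L (nat_lit 273) ln16_12_6_c10 ln16_12_6_c10_ok))))))))))))))))) c10_d551))))))) c10_d567))) (nat_lit 8931394245530752318453279615953023746564839451636822725815331864096610143313642991165262706531849734795092793897349996805775465720519327744) (nat_lit 2719426775348480403614671461245226647820802582655318761983922009802387112920564990197360839411261717785969816818445341201576102313959869300895317250903671397397988829775000447389297278976) (nat_lit 2719426775348480403614671461245226647820802582655318761983922009802387112920564990197360839411261717785969816818445341201576102313959869300895317250903671397397988829775000447389297278976) (by decide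 +kernel)

end Vale.Agent.Lib.P062.Data
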