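import Vale.Agent.Lib.P062.Data.c10_lines
import Vale.Agent.Lib.P062.Data.c10_l0_0
import Vale.Agent.Lib.P062.Data.c10_l0_1
import Vale.Agent.Lib.P062.Data.c10_l0_2
import Vale.Agent.Lib.P062.Data.c10_l0_3
import Vale.Agent.Lib.P062.Data.c10_l1_1
import Vale.Agent.Lib.P062.Data.c10_l1_2
import Vale.Agent.Lib.P062.Data.c10_l1_3
import Vale.Agent.Lib.P062.Data.c10_l1_4
import Vale.Agent.Lib.P062.Data.c10_l2_1
import Vale.Agent.Lib.P062.Data.c10_l2_2
import Vale.Agent.Lib.P062.Data.c10_l2_3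
import Vale.Agent.Lib.P062.Data.c10_l3_0
import Vale.Agent.Lib.P062.Data.c10_l3_1
import Vale.Agent.Lib.P062.Data.c10_l4_0

namespace Vale.Agent.Lib.P062.Data

def c10_U : ℕ := 123259669567566814276223433912602431674733048952023753905455993895959816713894367652755324146739410884096772148373074104692105471530609525921777524175095754356237964881001320685205653071933200621419090603329644121923707341897728
noncomputable def c10_d0 : Cert := (B (M (nat_lit 397) (B (M (nat_lit 460) (B (L (nat_lit 492) ln13_11_5 ln13_11_5_ok) (M (nat_lit 366) (B (L (nat_lit 334) ln13_14_6 ln13_14_6_ok) (M (nat_lit 462) (B (L (nat_lit 494) ln13_11_4 ln13_11_4_ok) (K (nat_lit 20839919904389975613213400884540396762712424831722768583661784857224247922893687038666843503604213370549960888276091791965431575797785690112) (nat_lit 747510271034881081159578754343923139211702722947375027339098347693439235205907754417090998553401998488052012026229059520780809954495998769606004071854532479003200163311495147020591454475028359282688)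 (nat_lit 747510271034881081159578754343923139211702722947375027339098347693439235205907754417090998553401998488052012026229059520780809954495998769606004071854532479003200163311495147020591454475028359282688) c10_s393))))))) (B (K (nat_lit 5954262830815946494763249298843757173852324438261567950902348008252711619201165097221184162808274170258209505398083731990017737449713696768) (nat_lit 153440184828491329809043217712881781326067183008575983670623962526992469891139645942059756586309978449332283792638360061382796846546361196627361792000) (nat_lit 153440184828491329809043217712881781326067183008575983670623962526992469891139645942059756586309978449332283792638360061382796846546361196627361792000) c10_s408) (B (K (nat_lit 5954262830815946494763249298843757173852324438261567950902348008252711619201165097221184162808274170258209505398083731990017737449713696768) (nat_lit 791175952681026872176117213502300901984270145085244152515292619511626199385802782346615561347237860298207986702363329452042315438798665020826797998080)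 (nat_lit 791175952681026872176117213502300901984270145085244152515292619511626199385802782346615561347237860298207986702363329452042315438798665020826797998080) c10_s400) (M (nat_lit 333) (B (M (nat_lit 301) (B (M (nat_lit 302) (B (L (nat_lit 270) ln13_12_6 ln13_12_6_ok) (L (nat_lit 334) ln13_13_6 ln13_13_6_ok))) (M (nat_lit 428) (B (L (nat_lit 396) ln13_9_5 ln13_9_5_ok) (L (nat_lit 460) ln13_10_5 ln13_10_5_ok))))) (B (M (nat_lit 334) (B (L (nat_lit 302) ln13_13_6 ln13_13_6_ok) (L (nat_lit 366) ln13_14_6 ln13_14_6_ok))) (B (M (nat_lit 301) (B (M (nat_lit 428) (B (L (nat_lit 396) ln13_9_5 ln13_9_5_ok) (L (nat_lit 460) ln13_10_5 ln13_10_5_ok))) (M (nat_lit 269) (B (M (nat_lit 268) (B (L (nat_lit 236) ln13_11_7 ln13_11_7_ok) (L (nat_lit 300) ln13_12_7 ln13_12_7_ok))) (M (nat_lit 366) (B (L (nat_lit 398) ln13_8_4 ln13_8_4_ok) (L (nat_lit 334) ln13_14_6 ln13_14_6_ok))))))) (M (nat_lit 301) (B (M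 (nat_lit 428) (B (L (nat_lit 396) ln13_9_5 ln13_9_5_ok) (L (nat_lit 460) ln13_10_5 ln13_10_5_ok))) (M (nat_lit 269) (B (M (nat_lit 270) (B (L (nat_lit 238) ln13_11_6 ln13_11_6_ok) (L (nat_lit 302) ln13_12_6 ln13_12_6_ok))) (M (nat_lit 268) (B (L (nat_lit 236) ln13_11_7 ln13_11_7_ok) (L (nat_lit 300) ln13_12_7 ln13_12_7_ok))))))))))))))) (B (M (nat_lit 397) (B (K (nat_lit 5954262830815946494763249298843757173852324438261567950902348008252711619201165097221184162808274170258209505398083731990017737449713696768) (nat_lit 791175952681026872176117213502300901984270145085244152515292619511626199385802782346615561347237860298207986702363329452042315438798665020826797998080) (nat_lit 791175952681026872176117213502300901984270145085244152515292619511626199385802782346615561347237860298207986702363329452042315438798665020826797998080) c10_s400) (K (nat_lit 5954262830815946494763249298843757173852324438261567950902348008252711619201165097221184162808274170258209505398083731990017737449713696768)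 (nat_lit 4821544694757079000509805281142460245616405483408230040709126620472334987727662262873388686120956470974627128244931919872) (nat_lit 4821544694757079000509805281142460245616405483408230040709126620472334987727662262873388686120956470974627128244931919872) c10_s409))) (B (M (nat_lit 397) (B (K (nat_lit 5954262830815946494763249298843757173852324438261567950902348008252711619201165097221184162808274170258209505398083731990017737449713696768) (nat_lit 791175952681026872176117213502300901984270145085244152515292619511626199385802782346615561347237860298207986702363329452042315438798665020826797998080) (nat_lit 791175952681026872176117213502300901984270145085244152515292619511626199385802782346615561347237860298207986702363329452042315438798665020826797998080) c10_s400) (K (nat_lit 5954262830815946494763249298843757173852324438261567950902348008252711619201165097221184162808274170258209505398083731990017737449713696768)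 (nat_lit 187883406683149678535267961507249454980690230584601224526850567910827980241828061701450352219856548730117292032) (nat_lit 187883406683149678535267961507249454980690230584601224526850567910827980241828061701450352219856548730117292032) c10_s399))) (M (nat_lit 397) (B (M (nat_lit 333) (B (M (nat_lit 460) (B (L (nat_lit 492) ln13_11_5 ln13_11_5_ok) (L (nat_lit 428) ln13_10_5 ln13_10_5_ok))) (M (nat_lit 334) (B (L (nat_lit 366) ln13_14_6 ln13_14_6_ok) (L (nat_lit 302) ln13_13_6 ln13_13_6_ok))))) (B (M (nat_lit 333) (B (M (nat_lit 334) (B (L (nat_lit 366) ln13_14_6 ln13_14_6_ok) (L (nat_lit 302) ln13_13_6 ln13_13_6_ok))) (M (nat_lit 332) (B (L (nat_lit 364) ln13_14_7 ln13_14_7_ok) (L (nat_lit 300) ln13_13_7 ln13_13_7_ok))))) (B (M (nat_lit 333) (B (M (nat_lit 460) (B (L (nat_lit 492) ln13_11_5 ln13_11_5_ok) (L (nat_lit 428) ln13_10_5 ln13_10_5_ok))) (M (nat_lit 332) (B (L (nat_lit 364) ln13_14_7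 ln13_14_7_ok) (L (nat_lit 300) ln13_13_7 ln13_13_7_ok))))) (M (nat_lit 366) (B (L (nat_lit 334) ln13_14_6 ln13_14_6_ok) (M (nat_lit 364) (B (L (nat_lit 332) ln13_14_7 ln13_14_7_ok) (M (nat_lit 367) (B (M (nat_lit 396) (B (L (nat_lit 368) ln16_11_1 ln16_11_1_ok) (L (nat_lit 395) ln15_11_1 ln15_11_1_ok))) (B (M (nat_lit 368) (B (M (nat_lit 400) (B (L (nat_lit 401) ln13_11_0 ln13_11_0_ok) (L (nat_lit 399) ln12_11_0 ln12_11_0_ok))) (M (nat_lit 336) (B (L (nat_lit 337) ln13_11_2 ln13_11_2_ok) (L (nat_lit 335) ln12_11_2 ln12_11_2_ok))))) (M (nat_lit 363) (B (M (nat_lit 399) (B (L (nat_lit 400) ln12_11_0 ln12_11_0_ok) (L (nat_lit 398) ln11_11_0 ln11_11_0_ok))) (M (nat_lit 395) (B (L (nat_lit 396) ln15_11_1 ln15_11_1_ok) (L (nat_lit 394) ln14_11_1 ln14_11_1_ok)))))))))))))))))))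
noncomputable def c10_d1 : Cert := (B (M (nat_lit 397) (B (K (nat_lit 5954262830815946494763249298843757173852324438261567950902348008252711619201165097221184162808274170258209505398083731990017737449713696768) (nat_lit 633165841186404667301192165495663090666088690274556714232141249950316524015800253022819616779656468031120182112360789373839196911729736902555841556218335394877917535730365628416) (nat_lit 633165841186404667301192165495663090666088690274556714232141249950316524015800253022819616779656468031120182112360789373839196911729736902555841556218335394877917535730365628416) c10_s407) (B (M (nat_lit 462) (B (L (nat_lit 494) ln13_11_4 ln13_11_4_ok) (M (nat_lit 364) (B (L (nat_lit 332) ln13_14_7 ln13_14_7_ok) (M (nat_lit 460) (B (L (nat_lit 492) ln13_11_5 ln13_11_5_ok) (K (nat_lit 20839919904389975613213400884427666718739280836784073515015896679910215160546087684872893536970667337344459682989834240042962678052252811264)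 (nat_lit 11679847984920016893118418033113350603047518001295300354751513206982691696311485251654830260451222250980110557965739253068925966453517875403890805305617259993457999651449427210501996454555762556928) (nat_lit 11679847984920016893118418033113350603047518001295300354751513206982691696311485251654830260451222250980110557965739253068925966453517875403890805305617259993457999651449427210501996454555762556928) c10_s398))))))) (B (M (nat_lit 398) (B (M (nat_lit 364) (B (L (nat_lit 332) ln13_14_7 ln13_14_7_ok) (M (nat_lit 399) (B (L (nat_lit 400) ln16_12_3 ln16_12_3_ok) (M (nat_lit 363) (B (L (nat_lit 396) ln15_12_3 ln15_12_3_ok) (L (nat_lit 362) ln10_11_0 ln10_11_0_ok))))))) (B (M (nat_lit 364) (B (L (nat_lit 332) ln13_14_7 ln13_14_7_ok) (M (nat_lit 363) (B (L (nat_lit 362) ln10_11_0 ln10_11_0_ok) (M (nat_lit 399) (B (L (nat_lit 396) ln15_12_3 ln15_12_3_ok) (L (nat_lit 366) ln11_11_0 ln11_11_0_ok)))))))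 (B (M (nat_lit 333) (B (M (nat_lit 332) (B (L (nat_lit 300) ln13_13_7 ln13_13_7_ok) (M (nat_lit 460) (B (L (nat_lit 428) ln13_10_5 ln13_10_5_ok) (L (nat_lit 492) ln13_11_5 ln13_11_5_ok))))) (B (M (nat_lit 428) (B (L (nat_lit 460) ln13_10_5 ln13_10_5_ok) (M (nat_lit 301) (B (L (nat_lit 396) ln13_9_5 ln13_9_5_ok) (M (nat_lit 300) (B (L (nat_lit 332) ln13_13_7 ln13_13_7_ok) (L (nat_lit 268) ln13_12_7 ln13_12_7_ok))))))) (B (M (nat_lit 301) (B (M (nat_lit 300) (B (L (nat_lit 332) ln13_13_7 ln13_13_7_ok) (L (nat_lit 268) ln13_12_7 ln13_12_7_ok))) (M (nat_lit 270) (B (L (nat_lit 302) ln13_12_6 ln13_12_6_ok) (M (nat_lit 269) (B (L (nat_lit 366) ln13_8_4 ln13_8_4_ok) (L (nat_lit 238) ln13_11_6 ln13_11_6_ok))))))) (M (nat_lit 301) (B (M (nat_lit 428) (B (L (nat_lit 460) ln13_10_5 ln13_10_5_ok) (L (nat_lit 396) ln13_9_5 ln13_9_5_ok))) (M (nat_lit 270) (B (L (nat_lit 302) ln13_12_6 ln13_12_6_ok) (M (nat_lit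 269) (B (L (nat_lit 366) ln13_8_4 ln13_8_4_ok) (L (nat_lit 238) ln13_11_6 ln13_11_6_ok))))))))))) (B (M (nat_lit 364) (B (L (nat_lit 332) ln13_14_7 ln13_14_7_ok) (M (nat_lit 399) (B (L (nat_lit 400) ln16_12_3 ln16_12_3_ok) (M (nat_lit 363) (B (L (nat_lit 366) ln11_11_0 ln11_11_0_ok) (L (nat_lit 362) ln10_11_0 ln10_11_0_ok))))))) (M (nat_lit 428) (B (M (nat_lit 460) (B (L (nat_lit 333) ln13_10_5 ln13_10_5_ok) (L (nat_lit 492) ln13_11_5 ln13_11_5_ok))) (M (nat_lit 399) (B (L (nat_lit 400) ln16_12_1 ln16_12_1_ok) (M (nat_lit 427) (B (L (nat_lit 426) ln10_13_2 ln10_13_2_ok) (L (nat_lit 396) ln15_12_1 ln15_12_1_ok)))))))))))) (B (M (nat_lit 460) (B (L (nat_lit 492) ln13_11_5 ln13_11_5_ok) (M (nat_lit 428) (B (L (nat_lit 333) ln13_10_5 ln13_10_5_ok) (M (nat_lit 462) (B (L (nat_lit 494) ln13_11_4 ln13_11_4_ok) (M (nat_lit 463) (B (L (nat_lit 464) ln16_14_3 ln16_14_3_ok) (L (nat_lit 427) ln15_14_3 ln15_14_3_ok)))))))))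 (M (nat_lit 462) (B (L (nat_lit 494) ln13_11_4 ln13_11_4_ok) (M (nat_lit 333) (B (M (nat_lit 332) (B (L (nat_lit 300) ln13_13_7 ln13_13_7_ok) (L (nat_lit 364) ln13_14_7 ln13_14_7_ok))) (M (nat_lit 460) (B (L (nat_lit 428) ln13_10_5 ln13_10_5_ok) (L (nat_lit 492) ln13_11_5 ln13_11_5_ok)))))))))))) (B (M (nat_lit 397) (B (K (nat_lit 5954262830815946494763249298843757173852324438261567950902348008252711619201165097221184162808274170258209505398083731990017737449713696768) (nat_lit 633165841186404667301192165495663090666088690274556714232141249950316524015800253022819616779656468031120182112360789373839196911729736902555841556218335394877917535730365628416) (nat_lit 633165841186404667301192165495663090666088690274556714232141249950316524015800253022819616779656468031120182112360789373839196911729736902555841556218335394877917535730365628416) c10_s407) (B (K (nat_lit 5954262830815946494763249298843757173852324438261567950902348008252711619201165097221184162808274170258209505398083731990017737449713696768)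 (nat_lit 13208868489950824085351155109865655222757235114741041868884393176626271551614361781148658982440678202729920725844000926332076330680344727043530249685936271001263544467456) (nat_lit 13208868489950824085351155109865655222757235114741041868884393176626271551614361781148658982440678202729920725844000926332076330680344727043530249685936271001263544467456) c10_s405) (B (K (nat_lit 5954262830815946494763249298843757173852324438261567950902348008252711619201165097221184162808274170258209505398083731990017737449713696768) (nat_lit 153440184828491329809043217712881781326067183008575983670623962526992469891139645942059756586309978449332283792638360061382796846546361196627361792000) (nat_lit 153440184828491329809043217712881781326067183008575983670623962526992469891139645942059756586309978449332283792638360061382796846546361196627361792000) c10_s408) (B (K (nat_lit 5954262830815946494763249298843757173852324438261567950902348008252711619201165097221184162808274170258209505398083731990017737449713696768)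 (nat_lit 4821544694757079000509805281142460245616405483408230040709126620472334987727662262873388686120956470974627128244931919872) (nat_lit 4821544694757079000509805281142460245616405483408230040709126620472334987727662262873388686120956470974627128244931919872) c10_s409) (B (K (nat_lit 5954262830815946494763249298843757173852324438261567950902348008252711619201165097221184162808274170258209505398083731990017737449713696768) (nat_lit 187883406683149678535267961507249454980690230584601224526850567910827980241828061701450352219856548730117292032) (nat_lit 187883406683149678535267961507249454980690230584601224526850567910827980241828061701450352219856548730117292032) c10_s399) (K (nat_lit 5954262830815946494763249298843757173852324438261567950902348008252711619201165097221184162808274170258209505398083731990017737449713696768) (nat_lit 693167423691594332312612014274890226063712786258281604028352561433592322161651820443910040733725595318532850161410351994597539840)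 (nat_lit 693167423691594332312612014274890226063712786258281604028352561433592322161651820443910040733725595318532850161410351994597539840) c10_s401))))))) c10_d0))
noncomputable def c10_d2 : Cert := (B (M (nat_lit 397) (B (M (nat_lit 460) (B (L (nat_lit 492) ln13_11_5 ln13_11_5_ok) (M (nat_lit 462) (B (L (nat_lit 494) ln13_11_4 ln13_11_4_ok) (K (nat_lit 20839919904389975613213400884390090037414899505137841825467267287472204239763554566941576881426151992942625947894415056068806378803741851648) (nat_lit 11679848158963314436143293987386980414574610729742723305806834446397046734936389307522753692933107913417436131383856981630445748301815013260173576088151903028154861148912927544643742934672485646336) (nat_lit 11679848158963314436143293987386980414574610729742723305806834446397046734936389307522753692933107913417436131383856981630445748301815013260173576088151903028154861148912927544643742934672485646336)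 c10_s317))))) (B (M (nat_lit 460) (B (L (nat_lit 492) ln13_11_5 ln13_11_5_ok) (K (nat_lit 8931394245530752318453279615953023746564839451636822725815331864096610143313642991165262706531849734795092793897349996805775465720519327744) (nat_lit 2719426775348480403614671461245226647820802582655318761983922009802387112920564990197360839411261717785969816818445341201576102313959869300895317250903671397397988829775000447389297278976) (nat_lit 2719426775348480403614671461245226647820802582655318761983922009802387112920564990197360839411261717785969816818445341201576102313959869300895317250903671397397988829775000447389297278976) c10_s388))) (B (M (nat_lit 460) (B (L (nat_lit 492) ln13_11_5 ln13_11_5_ok) (M (nat_lit 366) (B (L (nat_lit 334) ln13_14_6 ln13_14_6_ok) (M (nat_lit 462) (B (L (nat_lit 494) ln13_11_4 ln13_11_4_ok) (K (nat_lit 20839919904389975613213400884540396762712424831722768583661784857224247922893687038666843503604213370549960888276091791965431575797785690112)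 (nat_lit 747510271034881081159578754343923139211702722947375027339098347693439235205907754417090998553401998488052012026229059520780809954495998769606004071854532479003200163311495147020591454475028359282688) (nat_lit 747510271034881081159578754343923139211702722947375027339098347693439235205907754417090998553401998488052012026229059520780809954495998769606004071854532479003200163311495147020591454475028359282688) c10_s393))))))) (B (M (nat_lit 462) (B (L (nat_lit 494) ln13_11_4 ln13_11_4_ok) (M (nat_lit 364) (B (L (nat_lit 332) ln13_14_7 ln13_14_7_ok) (M (nat_lit 460) (B (L (nat_lit 492) ln13_11_5 ln13_11_5_ok) (K (nat_lit 20839919904389975613213400884427666718739280836784073515015896679910215160546087684872893536970667337344459682989834240042962678052252811264) (nat_lit 11679847984920016893118418033113350603047518001295300354751513206982691696311485251654830260451222250980110557965739253068925966453517875403890805305617259993457999651449427210501996454555762556928)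 (nat_lit 11679847984920016893118418033113350603047518001295300354751513206982691696311485251654830260451222250980110557965739253068925966453517875403890805305617259993457999651449427210501996454555762556928) c10_s398))))))) (K (nat_lit 5954262830815946494763249298843757173852324438261567950902348008252711619201165097221184162808274170258209505398083731990017737449713696768) (nat_lit 187883406683149678535267961507249454980690230584601224526850567910827980241828061701450352219856548730117292032) (nat_lit 187883406683149678535267961507249454980690230584601224526850567910827980241828061701450352219856548730117292032) c10_s399)))))) (B (M (nat_lit 397) (B (M (nat_lit 460) (B (L (nat_lit 492) ln13_11_5 ln13_11_5_ok) (M (nat_lit 462) (B (L (nat_lit 494) ln13_11_4 ln13_11_4_ok) (K (nat_lit 20839919904389975613213400884390090037414899505137841825467267287472204239763554566941576881426151992942625947894415056068806378803741851648)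 (nat_lit 11679848158963314436143293987386980414574610729742723305806834446397046734936389307522753692933107913417436131383856981630445748301815013260173576088151903028154861148912927544643742934672485646336) (nat_lit 11679848158963314436143293987386980414574610729742723305806834446397046734936389307522753692933107913417436131383856981630445748301815013260173576088151903028154861148912927544643742934672485646336) c10_s317))))) (B (K (nat_lit 5954262830815946494763249298843757173852324438261567950902348008252711619201165097221184162808274170258209505398083731990017737449713696768) (nat_lit 791175952681026872176117213502300901984270145085244152515292619511626199385802782346615561347237860298207986702363329452042315438798665020826797998080) (nat_lit 791175952681026872176117213502300901984270145085244152515292619511626199385802782346615561347237860298207986702363329452042315438798665020826797998080)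 c10_s400) (K (nat_lit 5954262830815946494763249298843757173852324438261567950902348008252711619201165097221184162808274170258209505398083731990017737449713696768) (nat_lit 693167423691594332312612014274890226063712786258281604028352561433592322161651820443910040733725595318532850161410351994597539840) (nat_lit 693167423691594332312612014274890226063712786258281604028352561433592322161651820443910040733725595318532850161410351994597539840) c10_s401)))) (B (M (nat_lit 397) (B (M (nat_lit 460) (B (L (nat_lit 492) ln13_11_5 ln13_11_5_ok) (K (nat_lit 8931394245530752318453279615953023746564839451636822725815331864096610143313642991165262706531849734795092793897349996805775465720519327744) (nat_lit 2719426775348480403614671461245226647820802582655318761983922009802387112920564990197360839411261717785969816818445341201576102313959869300895317250903671397397988829775000447389297278976) (nat_lit 2719426775348480403614671461245226647820802582655318761983922009802387112920564990197360839411261717785969816818445341201576102313959869300895317250903671397397988829775000447389297278976)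 c10_s388))) (B (K (nat_lit 5954262830815946494763249298843757173852324438261567950902348008252711619201165097221184162808274170258209505398083731990017737449713696768) (nat_lit 13208868489950824085351155109865655222757235114741041868884393176626271551614361781148658982440678202729920725844000926332076330680344727043530249685936271001263544467456) (nat_lit 13208868489950824085351155109865655222757235114741041868884393176626271551614361781148658982440678202729920725844000926332076330680344727043530249685936271001263544467456) c10_s405) (B (K (nat_lit 5954262830815946494763249298843757173852324438261567950902348008252711619201165097221184162808274170258209505398083731990017737449713696768) (nat_lit 791175952681026872176117213502300901984270145085244152515292619511626199385802782346615561347237860298207986702363329452042315438798665020826797998080) (nat_lit 791175952681026872176117213502300901984270145085244152515292619511626199385802782346615561347237860298207986702363329452042315438798665020826797998080)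 c10_s400) (M (nat_lit 333) (B (M (nat_lit 302) (B (L (nat_lit 334) ln13_13_6 ln13_13_6_ok) (M (nat_lit 301) (B (L (nat_lit 270) ln13_12_6 ln13_12_6_ok) (M (nat_lit 300) (B (L (nat_lit 332) ln13_13_7 ln13_13_7_ok) (L (nat_lit 268) ln13_12_7 ln13_12_7_ok))))))) (B (M (nat_lit 301) (B (M (nat_lit 428) (B (L (nat_lit 460) ln13_10_5 ln13_10_5_ok) (L (nat_lit 396) ln13_9_5 ln13_9_5_ok))) (M (nat_lit 300) (B (L (nat_lit 332) ln13_13_7 ln13_13_7_ok) (L (nat_lit 268) ln13_12_7 ln13_12_7_ok))))) (B (M (nat_lit 301) (B (M (nat_lit 428) (B (L (nat_lit 460) ln13_10_5 ln13_10_5_ok) (L (nat_lit 396) ln13_9_5 ln13_9_5_ok))) (M (nat_lit 302) (B (L (nat_lit 334) ln13_13_6 ln13_13_6_ok) (L (nat_lit 270) ln13_12_6 ln13_12_6_ok))))) (M (nat_lit 460) (B (L (nat_lit 492) ln13_11_5 ln13_11_5_ok) (L (nat_lit 428) ln13_10_5 ln13_10_5_ok))))))))))) c10_d1)))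
noncomputable def c10_d3 : Cert := (B (M (nat_lit 432) (B (M (nat_lit 368) (B (M (nat_lit 336) (B (M (nat_lit 303) (B (L (nat_lit 335) ln16_13_7 ln16_13_7_ok) (M (nat_lit 304) (B (L (nat_lit 271) ln16_12_7_c10 ln16_12_7_c10_ok) (M (nat_lit 305) (B (L (nat_lit 273) ln16_12_6_c10 ln16_12_6_c10_ok) (L (nat_lit 337) ln16_13_6_c10 ln16_13_6_c10_ok))))))) (B (M (nat_lit 304) (B (M (nat_lit 303) (B (L (nat_lit 271) ln16_12_7_c10 ln16_12_7_c10_ok) (L (nat_lit 335) ln16_13_7 ln16_13_7_ok))) (M (nat_lit 433) (B (L (nat_lit 401) ln16_9_4_c10 ln16_9_4_c10_ok) (L (nat_lit 465) ln16_10_4_c10 ln16_10_4_c10_ok))))) (B (M (nat_lit 304) (B (M (nat_lit 433) (B (L (nat_lit 465) ln16_10_4_c10 ln16_10_4_c10_ok) (L (nat_lit 401) ln16_9_4_c10 ln16_9_4_c10_ok))) (M (nat_lit 305) (B (L (nat_lit 337) ln16_13_6_c10 ln16_13_6_c10_ok) (L (nat_lit 273) ln16_12_6_c10 ln16_12_6_c10_ok))))) (M (nat_lit 433) (B (L (nat_lit 465)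 ln16_10_4_c10 ln16_10_4_c10_ok) (L (nat_lit 431) ln16_10_5 ln16_10_5_ok))))))) (M (nat_lit 366) (B (L (nat_lit 398) ln13_15_6 ln13_15_6_ok) (M (nat_lit 365) (B (L (nat_lit 334) ln13_14_6 ln13_14_6_ok) (M (nat_lit 332) (B (L (nat_lit 364) ln13_14_7 ln13_14_7_ok) (M (nat_lit 333) (B (L (nat_lit 300) ln13_13_7 ln13_13_7_ok) (L (nat_lit 367) ln16_11_3 ln16_11_3_ok))))))))))) (B (M (nat_lit 368) (B (M (nat_lit 366) (B (L (nat_lit 398) ln13_15_6 ln13_15_6_ok) (M (nat_lit 365) (B (L (nat_lit 334) ln13_14_6 ln13_14_6_ok) (M (nat_lit 332) (B (L (nat_lit 364) ln13_14_7 ln13_14_7_ok) (M (nat_lit 333) (B (L (nat_lit 300) ln13_13_7 ln13_13_7_ok) (L (nat_lit 367) ln16_11_3 ln16_11_3_ok))))))))) (L (nat_lit 464) ln16_11_5_c10 ln16_11_5_c10_ok))) (M (nat_lit 527) (B (L (nat_lit 431) ln15_16_6 ln15_16_6_ok) (M (nat_lit 559) (B (L (nat_lit 464) ln15_17_6 ln15_17_6_ok) (M (nat_lit 592) (B (L (nat_lit 560) ln15_14_4_c10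 ln15_14_4_c10_ok) (M (nat_lit 591) (B (L (nat_lit 624) ln15_15_4_c10 ln15_15_4_c10_ok) (M (nat_lit 590) (B (L (nat_lit 558) ln15_14_5_c10 ln15_14_5_c10_ok) (L (nat_lit 622) ln15_15_5_c10 ln15_15_5_c10_ok)))))))))))))) (B (M (nat_lit 432) (B (M (nat_lit 368) (B (M (nat_lit 336) (B (M (nat_lit 305) (B (L (nat_lit 337) ln16_13_6_c10 ln16_13_6_c10_ok) (M (nat_lit 304) (B (L (nat_lit 273) ln16_12_6_c10 ln16_12_6_c10_ok) (M (nat_lit 303) (B (L (nat_lit 271) ln16_12_7_c10 ln16_12_7_c10_ok) (L (nat_lit 335) ln16_13_7 ln16_13_7_ok))))))) (B (M (nat_lit 304) (B (M (nat_lit 305) (B (L (nat_lit 273) ln16_12_6_c10 ln16_12_6_c10_ok) (L (nat_lit 337) ln16_13_6_c10 ln16_13_6_c10_ok))) (M (nat_lit 433) (B (L (nat_lit 401) ln16_9_4_c10 ln16_9_4_c10_ok) (L (nat_lit 465) ln16_10_4_c10 ln16_10_4_c10_ok))))) (B (M (nat_lit 337) (B (L (nat_lit 305) ln16_13_6_c10 ln16_13_6_c10_ok) (M (nat_lit 338) (B (M (nat_lit 339)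 (B (L (nat_lit 367) ln19_10_1_c10 ln19_10_1_c10_ok) (M (nat_lit 340) (B (L (nat_lit 369) ln20_10_1_c10 ln20_10_1_c10_ok) (M (nat_lit 308) (B (L (nat_lit 307) ln16_10_2_c10 ln16_10_2_c10_ok) (L (nat_lit 309) ln17_10_2_c10 ln17_10_2_c10_ok))))))) (B (M (nat_lit 339) (B (M (nat_lit 335) (B (L (nat_lit 303) ln16_13_7 ln16_13_7_ok) (M (nat_lit 307) (B (L (nat_lit 306) ln15_10_2_c10 ln15_10_2_c10_ok) (L (nat_lit 308) ln16_10_2_c10 ln16_10_2_c10_ok))))) (B (M (nat_lit 340) (B (L (nat_lit 369) ln20_10_1_c10 ln20_10_1_c10_ok) (M (nat_lit 308) (B (L (nat_lit 307) ln16_10_2_c10 ln16_10_2_c10_ok) (L (nat_lit 309) ln17_10_2_c10 ln17_10_2_c10_ok))))) (M (nat_lit 335) (B (L (nat_lit 303) ln16_13_7 ln16_13_7_ok) (M (nat_lit 371) (B (L (nat_lit 370) ln15_10_0_c10 ln15_10_0_c10_ok) (L (nat_lit 372) ln16_10_0_c10 ln16_10_0_c10_ok)))))))) (B (M (nat_lit 339) (B (L (nat_lit 367) ln19_10_1_c10 ln19_10_1_c10_ok) (M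 (nat_lit 335) (B (L (nat_lit 303) ln16_13_7 ln16_13_7_ok) (M (nat_lit 371) (B (L (nat_lit 370) ln15_10_0_c10 ln15_10_0_c10_ok) (L (nat_lit 372) ln16_10_0_c10 ln16_10_0_c10_ok))))))) (M (nat_lit 335) (B (L (nat_lit 303) ln16_13_7 ln16_13_7_ok) (M (nat_lit 369) (B (M (nat_lit 370) (B (L (nat_lit 334) ln14_10_0 ln14_10_0_ok) (L (nat_lit 371) ln15_10_0_c10 ln15_10_0_c10_ok))) (M (nat_lit 433) (B (L (nat_lit 465) ln16_10_4_c10 ln16_10_4_c10_ok) (M (nat_lit 306) (B (L (nat_lit 307) ln15_10_2_c10 ln15_10_2_c10_ok) (L (nat_lit 401) ln17_13_6_c10 ln17_13_6_c10_ok))))))))))))))) (M (nat_lit 304) (B (M (nat_lit 303) (B (L (nat_lit 271) ln16_12_7_c10 ln16_12_7_c10_ok) (L (nat_lit 335) ln16_13_7 ln16_13_7_ok))) (M (nat_lit 433) (B (L (nat_lit 401) ln16_9_4_c10 ln16_9_4_c10_ok) (L (nat_lit 465) ln16_10_4_c10 ln16_10_4_c10_ok))))))))) (L (nat_lit 464) ln16_11_5_c10 ln16_11_5_c10_ok))) (B (M (nat_lit 527) (B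 (L (nat_lit 431) ln15_16_6 ln15_16_6_ok) (M (nat_lit 559) (B (L (nat_lit 464) ln15_17_6 ln15_17_6_ok) (M (nat_lit 592) (B (L (nat_lit 560) ln15_14_4_c10 ln15_14_4_c10_ok) (M (nat_lit 591) (B (L (nat_lit 624) ln15_15_4_c10 ln15_15_4_c10_ok) (M (nat_lit 590) (B (L (nat_lit 558) ln15_14_5_c10 ln15_14_5_c10_ok) (L (nat_lit 622) ln15_15_5_c10 ln15_15_5_c10_ok))))))))))) (M (nat_lit 431) (B (M (nat_lit 368) (B (L (nat_lit 399) ln15_15_6 ln15_15_6_ok) (L (nat_lit 336) ln16_10_5 ln16_10_5_ok))) (L (nat_lit 527) ln15_16_6 ln15_16_6_ok)))))) (B (M (nat_lit 398) (B (M (nat_lit 399) (B (M (nat_lit 432) (B (M (nat_lit 527) (B (L (nat_lit 431) ln15_16_6 ln15_16_6_ok) (M (nat_lit 559) (B (L (nat_lit 464) ln15_17_6 ln15_17_6_ok) (M (nat_lit 592) (B (L (nat_lit 560) ln15_14_4_c10 ln15_14_4_c10_ok) (M (nat_lit 591) (B (L (nat_lit 624) ln15_15_4_c10 ln15_15_4_c10_ok) (M (nat_lit 590) (B (L (nat_lit 558) ln15_14_5_c10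 ln15_14_5_c10_ok) (L (nat_lit 622) ln15_15_5_c10 ln15_15_5_c10_ok))))))))))) (L (nat_lit 433) ln13_12_0 ln13_12_0_ok))) (L (nat_lit 428) ln16_12_1 ln16_12_1_ok))) (L (nat_lit 366) ln13_15_6 ln13_15_6_ok))) (B (M (nat_lit 398) (B (L (nat_lit 366) ln13_15_6 ln13_15_6_ok) (M (nat_lit 399) (B (L (nat_lit 428) ln16_12_1 ln16_12_1_ok) (M (nat_lit 433) (B (L (nat_lit 432) ln13_12_0 ln13_12_0_ok) (M (nat_lit 401) (B (L (nat_lit 434) ln14_12_0 ln14_12_0_ok) (M (nat_lit 369) (B (L (nat_lit 370) ln14_12_2 ln14_12_2_ok) (L (nat_lit 368) ln13_12_2 ln13_12_2_ok))))))))))) (M (nat_lit 398) (B (M (nat_lit 399) (B (M (nat_lit 368) (B (L (nat_lit 431) ln15_15_6 ln15_15_6_ok) (L (nat_lit 369) ln13_12_2 ln13_12_2_ok))) (L (nat_lit 428) ln16_12_1 ln16_12_1_ok))) (L (nat_lit 366) ln13_15_6 ln13_15_6_ok)))))))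
noncomputable def c10_d4 : Cert := (B (M (nat_lit 594) (B (M (nat_lit 595) (B (M (nat_lit 564) (B (L (nat_lit 563) ln16_18_2_c10 ln16_18_2_c10_ok) (M (nat_lit 596) (B (L (nat_lit 565) ln17_18_2_c10 ln17_18_2_c10_ok) (M (nat_lit 628) (B (L (nat_lit 627) ln16_18_0_c10 ln16_18_0_c10_ok) (L (nat_lit 629) ln17_18_0_c10 ln17_18_0_c10_ok))))))) (B (M (nat_lit 596) (B (M (nat_lit 624) (B (L (nat_lit 623) ln19_18_1_c10 ln19_18_1_c10_ok) (L (nat_lit 625) ln20_18_1_c10 ln20_18_1_c10_ok))) (M (nat_lit 628) (B (L (nat_lit 627) ln16_18_0_c10 ln16_18_0_c10_ok) (L (nat_lit 629) ln17_18_0_c10 ln17_18_0_c10_ok))))) (B (M (nat_lit 596) (B (M (nat_lit 624) (B (L (nat_lit 623) ln19_18_1_c10 ln19_18_1_c10_ok) (L (nat_lit 625) ln20_18_1_c10 ln20_18_1_c10_ok))) (M (nat_lit 564) (B (L (nat_lit 563) ln16_18_2_c10 ln16_18_2_c10_ok) (L (nat_lit 565) ln17_18_2_c10 ln17_18_2_c10_ok))))) (M (nat_lit 623) (B (L (nat_lit 622)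 ln18_18_1_c10 ln18_18_1_c10_ok) (L (nat_lit 624) ln19_18_1_c10 ln19_18_1_c10_ok))))))) (B (M (nat_lit 595) (B (M (nat_lit 563) (B (L (nat_lit 564) ln16_18_2_c10 ln16_18_2_c10_ok) (L (nat_lit 562) ln15_18_2_c10 ln15_18_2_c10_ok))) (M (nat_lit 627) (B (L (nat_lit 628) ln16_18_0_c10 ln16_18_0_c10_ok) (L (nat_lit 626) ln15_18_0_c10 ln15_18_0_c10_ok))))) (B (M (nat_lit 595) (B (M (nat_lit 596) (B (M (nat_lit 564) (B (L (nat_lit 565) ln17_18_2_c10 ln17_18_2_c10_ok) (L (nat_lit 563) ln16_18_2_c10 ln16_18_2_c10_ok))) (M (nat_lit 624) (B (L (nat_lit 625) ln20_18_1_c10 ln20_18_1_c10_ok) (L (nat_lit 623) ln19_18_1_c10 ln19_18_1_c10_ok))))) (B (M (nat_lit 563) (B (L (nat_lit 564) ln16_18_2_c10 ln16_18_2_c10_ok) (L (nat_lit 562) ln15_18_2_c10 ln15_18_2_c10_ok))) (B (M (nat_lit 596) (B (M (nat_lit 624) (B (L (nat_lit 625) ln20_18_1_c10 ln20_18_1_c10_ok) (L (nat_lit 623) ln19_18_1_c10 ln19_18_1_c10_ok))) (M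 (nat_lit 597) (B (M (nat_lit 629) (B (L (nat_lit 630) ln18_18_0_c10 ln18_18_0_c10_ok) (L (nat_lit 628) ln17_18_0_c10 ln17_18_0_c10_ok))) (M (nat_lit 562) (B (L (nat_lit 561) ln21_18_3_c10 ln21_18_3_c10_ok) (L (nat_lit 563) ln15_18_2_c10 ln15_18_2_c10_ok))))))) (M (nat_lit 596) (B (M (nat_lit 624) (B (L (nat_lit 625) ln20_18_1_c10 ln20_18_1_c10_ok) (L (nat_lit 623) ln19_18_1_c10 ln19_18_1_c10_ok))) (M (nat_lit 597) (B (M (nat_lit 565) (B (L (nat_lit 566) ln18_18_2_c10 ln18_18_2_c10_ok) (L (nat_lit 564) ln17_18_2_c10 ln17_18_2_c10_ok))) (M (nat_lit 629) (B (L (nat_lit 630) ln18_18_0_c10 ln18_18_0_c10_ok) (L (nat_lit 628) ln17_18_0_c10 ln17_18_0_c10_ok))))))))))) (B (M (nat_lit 595) (B (M (nat_lit 563) (B (L (nat_lit 564) ln16_18_2_c10 ln16_18_2_c10_ok) (L (nat_lit 562) ln15_18_2_c10 ln15_18_2_c10_ok))) (M (nat_lit 623) (B (L (nat_lit 624) ln19_18_1_c10 ln19_18_1_c10_ok) (L (nat_lit 622) ln18_18_1_c10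 ln18_18_1_c10_ok))))) (B (M (nat_lit 595) (B (M (nat_lit 623) (B (L (nat_lit 622) ln18_18_1_c10 ln18_18_1_c10_ok) (L (nat_lit 624) ln19_18_1_c10 ln19_18_1_c10_ok))) (M (nat_lit 627) (B (L (nat_lit 626) ln15_18_0_c10 ln15_18_0_c10_ok) (L (nat_lit 628) ln16_18_0_c10 ln16_18_0_c10_ok))))) (M (nat_lit 626) (B (L (nat_lit 627) ln15_18_0_c10 ln15_18_0_c10_ok) (M (nat_lit 562) (B (L (nat_lit 563) ln15_18_2_c10 ln15_18_2_c10_ok) (M (nat_lit 658) (B (M (nat_lit 690) (B (L (nat_lit 561) ln18_21_7_c10 ln18_21_7_c10_ok) (M (nat_lit 691) (B (L (nat_lit 659) ln18_17_4_c10 ln18_17_4_c10_ok) (L (nat_lit 723) ln18_18_4_c10 ln18_18_4_c10_ok))))) (B (M (nat_lit 690) (B (L (nat_lit 561) ln18_21_7_c10 ln18_21_7_c10_ok) (M (nat_lit 689) (B (L (nat_lit 721) ln18_18_5_c10 ln18_18_5_c10_ok) (L (nat_lit 657) ln18_17_5_c10 ln18_17_5_c10_ok))))) (M (nat_lit 657) (B (L (nat_lit 689) ln18_17_5_c10 ln18_17_5_c10_ok) (M (nat_lit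 623) (B (L (nat_lit 622) ln18_18_1_c10 ln18_18_1_c10_ok) (M (nat_lit 659) (B (L (nat_lit 691) ln18_17_4_c10 ln18_17_4_c10_ok) (M (nat_lit 624) (B (L (nat_lit 656) ln19_20_3_c10 ln19_20_3_c10_ok) (L (nat_lit 625) ln15_19_0_c10 ln15_19_0_c10_ok)))))))))))))))))))))) (M (nat_lit 590) (B (M (nat_lit 557) (B (L (nat_lit 558) ln17_18_3_c10 ln17_18_3_c10_ok) (M (nat_lit 589) (B (L (nat_lit 556) ln16_18_3_c10 ln16_18_3_c10_ok) (M (nat_lit 621) (B (L (nat_lit 620) ln16_18_1_c10 ln16_18_1_c10_ok) (L (nat_lit 622) ln17_18_1_c10 ln17_18_1_c10_ok))))))) (B (M (nat_lit 589) (B (M (nat_lit 557) (B (L (nat_lit 556) ln16_18_3_c10 ln16_18_3_c10_ok) (L (nat_lit 558) ln17_18_3_c10 ln17_18_3_c10_ok))) (M (nat_lit 625) (B (L (nat_lit 624) ln13_18_0_c10 ln13_18_0_c10_ok) (L (nat_lit 626) ln14_18_0_c10 ln14_18_0_c10_ok))))) (B (M (nat_lit 589) (B (M (nat_lit 625) (B (L (nat_lit 626) ln14_18_0_c10 ln14_18_0_c10_ok)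 (L (nat_lit 624) ln13_18_0_c10 ln13_18_0_c10_ok))) (M (nat_lit 621) (B (L (nat_lit 622) ln17_18_1_c10 ln17_18_1_c10_ok) (L (nat_lit 620) ln16_18_1_c10 ln16_18_1_c10_ok))))) (M (nat_lit 625) (B (L (nat_lit 626) ln14_18_0_c10 ln14_18_0_c10_ok) (M (nat_lit 561) (B (L (nat_lit 562) ln14_18_2_c10 ln14_18_2_c10_ok) (M (nat_lit 622) (B (L (nat_lit 621) ln17_18_1_c10 ln17_18_1_c10_ok) (M (nat_lit 558) (B (L (nat_lit 557) ln17_18_3_c10 ln17_18_3_c10_ok) (M (nat_lit 657) (B (M (nat_lit 658) (B (L (nat_lit 690) ln17_17_4_c10 ln17_17_4_c10_ok) (M (nat_lit 623) (B (L (nat_lit 624) ln14_19_0_c10 ln14_19_0_c10_ok) (M (nat_lit 655) (B (L (nat_lit 687) ln15_21_7_c10 ln15_21_7_c10_ok) (L (nat_lit 656) ln18_20_3_c10 ln18_20_3_c10_ok))))))) (B (M (nat_lit 689) (B (M (nat_lit 690) (B (L (nat_lit 658) ln17_17_4_c10 ln17_17_4_c10_ok) (L (nat_lit 722) ln17_18_4_c10 ln17_18_4_c10_ok))) (M (nat_lit 720) (B (L (nat_lit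 688) ln17_18_5_c10 ln17_18_5_c10_ok) (M (nat_lit 721) (B (L (nat_lit 624) ln17_22_7_c10 ln17_22_7_c10_ok) (L (nat_lit 752) ln17_19_5_c10 ln17_19_5_c10_ok))))))) (B (M (nat_lit 689) (B (M (nat_lit 688) (B (L (nat_lit 656) ln17_17_5_c10 ln17_17_5_c10_ok) (L (nat_lit 720) ln17_18_5_c10 ln17_18_5_c10_ok))) (M (nat_lit 722) (B (L (nat_lit 690) ln17_18_4_c10 ln17_18_4_c10_ok) (M (nat_lit 721) (B (L (nat_lit 754) ln17_19_4_c10 ln17_19_4_c10_ok) (L (nat_lit 624) ln17_22_7_c10 ln17_22_7_c10_ok))))))) (B (M (nat_lit 690) (B (L (nat_lit 658) ln17_17_4_c10 ln17_17_4_c10_ok) (M (nat_lit 689) (B (L (nat_lit 722) ln17_18_4_c10 ln17_18_4_c10_ok) (M (nat_lit 688) (B (L (nat_lit 720) ln17_18_5_c10 ln17_18_5_c10_ok) (L (nat_lit 656) ln17_17_5_c10 ln17_17_5_c10_ok))))))) (M (nat_lit 688) (B (L (nat_lit 656) ln17_17_5_c10 ln17_17_5_c10_ok) (M (nat_lit 689) (B (L (nat_lit 720) ln17_18_5_c10 ln17_18_5_c10_ok) (M (nat_lit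 721) (B (L (nat_lit 624) ln17_22_7_c10 ln17_22_7_c10_ok) (M (nat_lit 722) (B (L (nat_lit 754) ln17_19_4_c10 ln17_19_4_c10_ok) (M (nat_lit 687) (B (L (nat_lit 686) ln14_21_0_c10 ln14_21_0_c10_ok) (M (nat_lit 655) (B (L (nat_lit 623) ln15_21_7_c10 ln15_21_7_c10_ok) (L (nat_lit 654) ln14_17_4_c10 ln14_17_4_c10_ok)))))))))))))))))))))))))))))))
noncomputable def c10_d5 : Cert := (B (M (nat_lit 590) (B (M (nat_lit 589) (B (M (nat_lit 625) (B (L (nat_lit 626) ln14_18_0_c10 ln14_18_0_c10_ok) (L (nat_lit 624) ln13_18_0_c10 ln13_18_0_c10_ok))) (M (nat_lit 557) (B (L (nat_lit 558) ln17_18_3_c10 ln17_18_3_c10_ok) (L (nat_lit 556) ln16_18_3_c10 ln16_18_3_c10_ok))))) (B (M (nat_lit 621) (B (L (nat_lit 622) ln17_18_1_c10 ln17_18_1_c10_ok) (M (nat_lit 589) (B (L (nat_lit 620) ln16_18_1_c10 ln16_18_1_c10_ok) (M (nat_lit 557) (B (L (nat_lit 558) ln17_18_3_c10 ln17_18_3_c10_ok) (L (nat_lit 556) ln16_18_3_c10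 ln16_18_3_c10_ok))))))) (B (M (nat_lit 589) (B (M (nat_lit 625) (B (L (nat_lit 626) ln14_18_0_c10 ln14_18_0_c10_ok) (L (nat_lit 624) ln13_18_0_c10 ln13_18_0_c10_ok))) (M (nat_lit 621) (B (L (nat_lit 622) ln17_18_1_c10 ln17_18_1_c10_ok) (L (nat_lit 620) ln16_18_1_c10 ln16_18_1_c10_ok))))) (M (nat_lit 594) (B (M (nat_lit 626) (B (L (nat_lit 627) ln15_18_0_c10 ln15_18_0_c10_ok) (L (nat_lit 625) ln14_18_0_c10 ln14_18_0_c10_ok))) (M (nat_lit 622) (B (L (nat_lit 623) ln18_18_1_c10 ln18_18_1_c10_ok) (L (nat_lit 621) ln17_18_1_c10 ln17_18_1_c10_ok))))))))) (B (M (nat_lit 590) (B (M (nat_lit 589) (B (M (nat_lit 557) (B (L (nat_lit 556) ln16_18_3_c10 ln16_18_3_c10_ok) (L (nat_lit 558) ln17_18_3_c10 ln17_18_3_c10_ok))) (M (nat_lit 621) (B (L (nat_lit 620) ln16_18_1_c10 ln16_18_1_c10_ok) (L (nat_lit 622) ln17_18_1_c10 ln17_18_1_c10_ok))))) (B (M (nat_lit 594) (B (M (nat_lit 622) (B (L (nat_lit 621) ln17_18_1_c10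 ln17_18_1_c10_ok) (L (nat_lit 623) ln18_18_1_c10 ln18_18_1_c10_ok))) (M (nat_lit 562) (B (L (nat_lit 561) ln14_18_2_c10 ln14_18_2_c10_ok) (L (nat_lit 563) ln15_18_2_c10 ln15_18_2_c10_ok))))) (B (M (nat_lit 623) (B (M (nat_lit 562) (B (L (nat_lit 561) ln14_18_2_c10 ln14_18_2_c10_ok) (M (nat_lit 594) (B (L (nat_lit 622) ln18_18_1_c10 ln18_18_1_c10_ok) (L (nat_lit 563) ln15_18_2_c10 ln15_18_2_c10_ok))))) (M (nat_lit 589) (B (M (nat_lit 557) (B (L (nat_lit 556) ln16_18_3_c10 ln16_18_3_c10_ok) (L (nat_lit 558) ln17_18_3_c10 ln17_18_3_c10_ok))) (M (nat_lit 624) (B (L (nat_lit 588) ln12_18_0_c10 ln12_18_0_c10_ok) (L (nat_lit 625) ln13_18_0_c10 ln13_18_0_c10_ok))))))) (M (nat_lit 589) (B (M (nat_lit 557) (B (L (nat_lit 556) ln16_18_3_c10 ln16_18_3_c10_ok) (L (nat_lit 558) ln17_18_3_c10 ln17_18_3_c10_ok))) (M (nat_lit 588) (B (M (nat_lit 620) (B (L (nat_lit 619) ln15_18_1_c10 ln15_18_1_c10_ok) (L (nat_lit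 621) ln16_18_1_c10 ln16_18_1_c10_ok))) (M (nat_lit 624) (B (L (nat_lit 623) ln12_18_0_c10 ln12_18_0_c10_ok) (L (nat_lit 625) ln13_18_0_c10 ln13_18_0_c10_ok))))))))))) (B (M (nat_lit 594) (B (M (nat_lit 595) (B (M (nat_lit 623) (B (L (nat_lit 622) ln18_18_1_c10 ln18_18_1_c10_ok) (L (nat_lit 624) ln19_18_1_c10 ln19_18_1_c10_ok))) (M (nat_lit 627) (B (L (nat_lit 626) ln15_18_0_c10 ln15_18_0_c10_ok) (L (nat_lit 628) ln16_18_0_c10 ln16_18_0_c10_ok))))) (B (M (nat_lit 595) (B (M (nat_lit 627) (B (L (nat_lit 626) ln15_18_0_c10 ln15_18_0_c10_ok) (L (nat_lit 628) ln16_18_0_c10 ln16_18_0_c10_ok))) (M (nat_lit 563) (B (L (nat_lit 562) ln15_18_2_c10 ln15_18_2_c10_ok) (L (nat_lit 564) ln16_18_2_c10 ln16_18_2_c10_ok))))) (B (M (nat_lit 595) (B (M (nat_lit 623) (B (L (nat_lit 622) ln18_18_1_c10 ln18_18_1_c10_ok) (L (nat_lit 624) ln19_18_1_c10 ln19_18_1_c10_ok))) (M (nat_lit 563) (B (L (nat_lit 562) ln15_18_2_c10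 ln15_18_2_c10_ok) (L (nat_lit 564) ln16_18_2_c10 ln16_18_2_c10_ok))))) (M (nat_lit 590) (B (M (nat_lit 626) (B (L (nat_lit 625) ln14_18_0_c10 ln14_18_0_c10_ok) (L (nat_lit 627) ln15_18_0_c10 ln15_18_0_c10_ok))) (M (nat_lit 562) (B (L (nat_lit 561) ln14_18_2_c10 ln14_18_2_c10_ok) (L (nat_lit 563) ln15_18_2_c10 ln15_18_2_c10_ok))))))))) (B (M (nat_lit 594) (B (M (nat_lit 627) (B (L (nat_lit 626) ln15_18_0_c10 ln15_18_0_c10_ok) (M (nat_lit 595) (B (L (nat_lit 628) ln16_18_0_c10 ln16_18_0_c10_ok) (M (nat_lit 563) (B (L (nat_lit 564) ln16_18_2_c10 ln16_18_2_c10_ok) (L (nat_lit 562) ln15_18_2_c10 ln15_18_2_c10_ok))))))) (B (M (nat_lit 590) (B (M (nat_lit 626) (B (L (nat_lit 627) ln15_18_0_c10 ln15_18_0_c10_ok) (L (nat_lit 625) ln14_18_0_c10 ln14_18_0_c10_ok))) (M (nat_lit 562) (B (L (nat_lit 563) ln15_18_2_c10 ln15_18_2_c10_ok) (L (nat_lit 561) ln14_18_2_c10 ln14_18_2_c10_ok))))) (B (M (nat_lit 595)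 (B (M (nat_lit 563) (B (L (nat_lit 562) ln15_18_2_c10 ln15_18_2_c10_ok) (L (nat_lit 564) ln16_18_2_c10 ln16_18_2_c10_ok))) (M (nat_lit 596) (B (M (nat_lit 624) (B (L (nat_lit 623) ln19_18_1_c10 ln19_18_1_c10_ok) (L (nat_lit 625) ln20_18_1_c10 ln20_18_1_c10_ok))) (M (nat_lit 628) (B (L (nat_lit 627) ln16_18_0_c10 ln16_18_0_c10_ok) (L (nat_lit 629) ln17_18_0_c10 ln17_18_0_c10_ok))))))) (B (M (nat_lit 595) (B (M (nat_lit 563) (B (L (nat_lit 564) ln16_18_2_c10 ln16_18_2_c10_ok) (L (nat_lit 562) ln15_18_2_c10 ln15_18_2_c10_ok))) (B (M (nat_lit 596) (B (M (nat_lit 624) (B (L (nat_lit 625) ln20_18_1_c10 ln20_18_1_c10_ok) (L (nat_lit 623) ln19_18_1_c10 ln19_18_1_c10_ok))) (M (nat_lit 597) (B (M (nat_lit 629) (B (L (nat_lit 630) ln18_18_0_c10 ln18_18_0_c10_ok) (L (nat_lit 628) ln17_18_0_c10 ln17_18_0_c10_ok))) (M (nat_lit 562) (B (L (nat_lit 561) ln21_18_3_c10 ln21_18_3_c10_ok) (L (nat_lit 563) ln15_18_2_c10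 ln15_18_2_c10_ok))))))) (M (nat_lit 596) (B (M (nat_lit 624) (B (L (nat_lit 625) ln20_18_1_c10 ln20_18_1_c10_ok) (L (nat_lit 623) ln19_18_1_c10 ln19_18_1_c10_ok))) (M (nat_lit 597) (B (M (nat_lit 565) (B (L (nat_lit 566) ln18_18_2_c10 ln18_18_2_c10_ok) (L (nat_lit 564) ln17_18_2_c10 ln17_18_2_c10_ok))) (M (nat_lit 629) (B (L (nat_lit 630) ln18_18_0_c10 ln18_18_0_c10_ok) (L (nat_lit 628) ln17_18_0_c10 ln17_18_0_c10_ok)))))))))) (B (M (nat_lit 595) (B (M (nat_lit 627) (B (L (nat_lit 628) ln16_18_0_c10 ln16_18_0_c10_ok) (L (nat_lit 626) ln15_18_0_c10 ln15_18_0_c10_ok))) (M (nat_lit 596) (B (M (nat_lit 564) (B (L (nat_lit 565) ln17_18_2_c10 ln17_18_2_c10_ok) (L (nat_lit 563) ln16_18_2_c10 ln16_18_2_c10_ok))) (M (nat_lit 624) (B (L (nat_lit 625) ln20_18_1_c10 ln20_18_1_c10_ok) (L (nat_lit 623) ln19_18_1_c10 ln19_18_1_c10_ok))))))) (M (nat_lit 595) (B (M (nat_lit 627) (B (L (nat_lit 626) ln15_18_0_c10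 ln15_18_0_c10_ok) (L (nat_lit 628) ln16_18_0_c10 ln16_18_0_c10_ok))) (B (M (nat_lit 596) (B (M (nat_lit 624) (B (L (nat_lit 623) ln19_18_1_c10 ln19_18_1_c10_ok) (L (nat_lit 625) ln20_18_1_c10 ln20_18_1_c10_ok))) (M (nat_lit 628) (B (L (nat_lit 627) ln16_18_0_c10 ln16_18_0_c10_ok) (L (nat_lit 629) ln17_18_0_c10 ln17_18_0_c10_ok))))) (M (nat_lit 624) (B (L (nat_lit 623) ln19_18_1_c10 ln19_18_1_c10_ok) (M (nat_lit 625) (B (L (nat_lit 596) ln20_18_1_c10 ln20_18_1_c10_ok) (M (nat_lit 590) (B (L (nat_lit 589) ln13_18_0_c10 ln13_18_0_c10_ok) (L (nat_lit 626) ln14_18_0_c10 ln14_18_0_c10_ok)))))))))))))))) c10_d4))))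
noncomputable def c10_d6 : Cert := (B (M (nat_lit 528) (B (M (nat_lit 527) (B (M (nat_lit 592) (B (M (nat_lit 591) (B (M (nat_lit 593) (B (M (nat_lit 590) (B (M (nat_lit 562) (B (L (nat_lit 561) ln14_18_2_c10 ln14_18_2_c10_ok) (M (nat_lit 594) (B (L (nat_lit 563) ln15_18_2_c10 ln15_18_2_c10_ok) (M (nat_lit 626) (B (L (nat_lit 627) ln15_18_0_c10 ln15_18_0_c10_ok) (L (nat_lit 625) ln14_18_0_c10 ln14_18_0_c10_ok))))))) (M (nat_lit 557) (B (L (nat_lit 558) ln17_18_3_c10 ln17_18_3_c10_ok) (M (nat_lit 589) (B (L (nat_lit 556) ln16_18_3_c10 ln16_18_3_c10_ok) (M (nat_lit 621) (B (L (nat_lit 622) ln17_18_1_c10 ln17_18_1_c10_ok) (L (nat_lit 620) ln16_18_1_c10 ln16_18_1_c10_ok))))))))) (B (M (nat_lit 590) (B (M (nat_lit 594) (B (M (nat_lit 562) (B (L (nat_lit 563) ln15_18_2_c10 ln15_18_2_c10_ok) (L (nat_lit 561) ln14_18_2_c10 ln14_18_2_c10_ok))) (M (nat_lit 622) (B (L (nat_lit 623) ln18_18_1_c10 ln18_18_1_c10_ok)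 (L (nat_lit 621) ln17_18_1_c10 ln17_18_1_c10_ok))))) (M (nat_lit 589) (B (M (nat_lit 625) (B (L (nat_lit 626) ln14_18_0_c10 ln14_18_0_c10_ok) (L (nat_lit 624) ln13_18_0_c10 ln13_18_0_c10_ok))) (M (nat_lit 557) (B (L (nat_lit 558) ln17_18_3_c10 ln17_18_3_c10_ok) (L (nat_lit 556) ln16_18_3_c10 ln16_18_3_c10_ok))))))) (B (M (nat_lit 594) (B (M (nat_lit 563) (B (L (nat_lit 562) ln15_18_2_c10 ln15_18_2_c10_ok) (M (nat_lit 595) (B (L (nat_lit 564) ln16_18_2_c10 ln16_18_2_c10_ok) (M (nat_lit 627) (B (L (nat_lit 626) ln15_18_0_c10 ln15_18_0_c10_ok) (L (nat_lit 628) ln16_18_0_c10 ln16_18_0_c10_ok))))))) (B (M (nat_lit 595) (B (M (nat_lit 623) (B (L (nat_lit 622) ln18_18_1_c10 ln18_18_1_c10_ok) (L (nat_lit 624) ln19_18_1_c10 ln19_18_1_c10_ok))) (M (nat_lit 627) (B (L (nat_lit 626) ln15_18_0_c10 ln15_18_0_c10_ok) (L (nat_lit 628) ln16_18_0_c10 ln16_18_0_c10_ok))))) (B (M (nat_lit 595) (B (M (nat_lit 623)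 (B (L (nat_lit 622) ln18_18_1_c10 ln18_18_1_c10_ok) (L (nat_lit 624) ln19_18_1_c10 ln19_18_1_c10_ok))) (M (nat_lit 563) (B (L (nat_lit 562) ln15_18_2_c10 ln15_18_2_c10_ok) (L (nat_lit 564) ln16_18_2_c10 ln16_18_2_c10_ok))))) (M (nat_lit 590) (B (M (nat_lit 622) (B (L (nat_lit 621) ln17_18_1_c10 ln17_18_1_c10_ok) (L (nat_lit 623) ln18_18_1_c10 ln18_18_1_c10_ok))) (M (nat_lit 562) (B (L (nat_lit 561) ln14_18_2_c10 ln14_18_2_c10_ok) (L (nat_lit 563) ln15_18_2_c10 ln15_18_2_c10_ok))))))))) (B (M (nat_lit 594) (B (M (nat_lit 595) (B (M (nat_lit 623) (B (L (nat_lit 622) ln18_18_1_c10 ln18_18_1_c10_ok) (L (nat_lit 624) ln19_18_1_c10 ln19_18_1_c10_ok))) (M (nat_lit 563) (B (L (nat_lit 562) ln15_18_2_c10 ln15_18_2_c10_ok) (L (nat_lit 564) ln16_18_2_c10 ln16_18_2_c10_ok))))) (B (M (nat_lit 627) (B (L (nat_lit 626) ln15_18_0_c10 ln15_18_0_c10_ok) (M (nat_lit 595) (B (L (nat_lit 628) ln16_18_0_c10 ln16_18_0_c10_ok)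 (M (nat_lit 563) (B (L (nat_lit 562) ln15_18_2_c10 ln15_18_2_c10_ok) (L (nat_lit 564) ln16_18_2_c10 ln16_18_2_c10_ok))))))) (B (M (nat_lit 595) (B (M (nat_lit 623) (B (L (nat_lit 622) ln18_18_1_c10 ln18_18_1_c10_ok) (L (nat_lit 624) ln19_18_1_c10 ln19_18_1_c10_ok))) (M (nat_lit 627) (B (L (nat_lit 626) ln15_18_0_c10 ln15_18_0_c10_ok) (L (nat_lit 628) ln16_18_0_c10 ln16_18_0_c10_ok))))) (M (nat_lit 590) (B (M (nat_lit 622) (B (L (nat_lit 621) ln17_18_1_c10 ln17_18_1_c10_ok) (L (nat_lit 623) ln18_18_1_c10 ln18_18_1_c10_ok))) (M (nat_lit 626) (B (L (nat_lit 625) ln14_18_0_c10 ln14_18_0_c10_ok) (L (nat_lit 627) ln15_18_0_c10 ln15_18_0_c10_ok))))))))) c10_d5))))) (B (M (nat_lit 559) (B (L (nat_lit 624) ln15_15_4_c10 ln15_15_4_c10_ok) (M (nat_lit 590) (B (L (nat_lit 622) ln15_15_5_c10 ln15_15_5_c10_ok) (M (nat_lit 558) (B (L (nat_lit 463) ln15_14_5_c10 ln15_14_5_c10_ok) (M (nat_lit 557) (B (L (nat_lit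 556) ln12_17_0_c10 ln12_17_0_c10_ok) (L (nat_lit 593) ln17_18_3_c10 ln17_18_3_c10_ok))))))))) (B (M (nat_lit 559) (B (L (nat_lit 623) ln15_19_6_c10 ln15_19_6_c10_ok) (M (nat_lit 590) (B (L (nat_lit 622) ln15_15_5_c10 ln15_15_5_c10_ok) (M (nat_lit 558) (B (L (nat_lit 463) ln15_14_5_c10 ln15_14_5_c10_ok) (M (nat_lit 557) (B (L (nat_lit 556) ln12_17_0_c10 ln12_17_0_c10_ok) (L (nat_lit 593) ln17_18_3_c10 ln17_18_3_c10_ok))))))))) (M (nat_lit 559) (B (L (nat_lit 624) ln15_15_4_c10 ln15_15_4_c10_ok) (L (nat_lit 623) ln15_19_6_c10 ln15_19_6_c10_ok))))))) (B (M (nat_lit 560) (B (L (nat_lit 624) ln16_19_7_c10 ln16_19_7_c10_ok) (M (nat_lit 591) (B (L (nat_lit 623) ln16_15_5_c10 ln16_15_5_c10_ok) (M (nat_lit 593) (B (L (nat_lit 625) ln16_15_4_c10 ln16_15_4_c10_ok) (M (nat_lit 559) (B (M (nat_lit 558) (B (L (nat_lit 594) ln18_18_3_c10 ln18_18_3_c10_ok) (L (nat_lit 557) ln13_17_0_c10 ln13_17_0_c10_ok)))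 (M (nat_lit 590) (B (M (nat_lit 561) (B (L (nat_lit 562) ln18_17_1_c10 ln18_17_1_c10_ok) (L (nat_lit 589) ln13_18_2_c10 ln13_18_2_c10_ok))) (L (nat_lit 622) ln15_15_5_c10 ln15_15_5_c10_ok))))))))))) (B (M (nat_lit 560) (B (L (nat_lit 463) ln16_18_7_c10 ln16_18_7_c10_ok) (M (nat_lit 591) (B (L (nat_lit 623) ln16_15_5_c10 ln16_15_5_c10_ok) (M (nat_lit 593) (B (L (nat_lit 625) ln16_15_4_c10 ln16_15_4_c10_ok) (M (nat_lit 590) (B (M (nat_lit 561) (B (L (nat_lit 589) ln13_18_2_c10 ln13_18_2_c10_ok) (L (nat_lit 562) ln14_18_2_c10 ln14_18_2_c10_ok))) (M (nat_lit 622) (B (L (nat_lit 559) ln15_15_5_c10 ln15_15_5_c10_ok) (L (nat_lit 621) ln17_18_1_c10 ln17_18_1_c10_ok))))))))))) (M (nat_lit 560) (B (L (nat_lit 463) ln16_18_7_c10 ln16_18_7_c10_ok) (L (nat_lit 624) ln16_19_7_c10 ln16_19_7_c10_ok))))))) (L (nat_lit 492) ln12_15_0 ln12_15_0_ok))) (L (nat_lit 529) ln13_15_0 ln13_15_0_ok))) (B (M (nat_lit 464)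 (B (M (nat_lit 463) (B (M (nat_lit 400) (B (M (nat_lit 368) (B (M (nat_lit 366) (B (L (nat_lit 398) ln13_15_6 ln13_15_6_ok) (M (nat_lit 365) (B (L (nat_lit 334) ln13_14_6 ln13_14_6_ok) (M (nat_lit 332) (B (L (nat_lit 364) ln13_14_7 ln13_14_7_ok) (M (nat_lit 333) (B (L (nat_lit 300) ln13_13_7 ln13_13_7_ok) (L (nat_lit 367) ln16_11_3 ln16_11_3_ok))))))))) (L (nat_lit 432) ln16_11_5_c10 ln16_11_5_c10_ok))) (B (M (nat_lit 399) (B (M (nat_lit 368) (B (L (nat_lit 431) ln15_15_6 ln15_15_6_ok) (L (nat_lit 432) ln16_11_5_c10 ln16_11_5_c10_ok))) (M (nat_lit 398) (B (L (nat_lit 366) ln13_15_6 ln13_15_6_ok) (L (nat_lit 428) ln16_12_1 ln16_12_1_ok))))) (B (M (nat_lit 399) (B (M (nat_lit 431) (B (L (nat_lit 367) ln15_11_4 ln15_11_4_ok) (L (nat_lit 368) ln15_15_6 ln15_15_6_ok))) (M (nat_lit 398) (B (L (nat_lit 366) ln13_15_6 ln13_15_6_ok) (L (nat_lit 428) ln16_12_1 ln16_12_1_ok))))) (B (M (nat_lit 399) (B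 (M (nat_lit 367) (B (L (nat_lit 431) ln15_11_4 ln15_11_4_ok) (L (nat_lit 432) ln16_15_7 ln16_15_7_ok))) (M (nat_lit 398) (B (L (nat_lit 366) ln13_15_6 ln13_15_6_ok) (L (nat_lit 428) ln16_12_1 ln16_12_1_ok))))) (M (nat_lit 399) (B (M (nat_lit 368) (B (L (nat_lit 431) ln15_15_6 ln15_15_6_ok) (L (nat_lit 432) ln16_11_5_c10 ln16_11_5_c10_ok))) (B (M (nat_lit 367) (B (L (nat_lit 431) ln15_11_4 ln15_11_4_ok) (L (nat_lit 432) ln16_15_7 ln16_15_7_ok))) (B (M (nat_lit 431) (B (L (nat_lit 367) ln15_11_4 ln15_11_4_ok) (L (nat_lit 368) ln15_15_6 ln15_15_6_ok))) (M (nat_lit 432) (B (L (nat_lit 367) ln16_15_7 ln16_15_7_ok) (L (nat_lit 368) ln16_11_5_c10 ln16_11_5_c10_ok)))))))))))) (L (nat_lit 492) ln12_15_2 ln12_15_2_ok))) (L (nat_lit 465) ln13_15_2 ln13_15_2_ok))) (B (M (nat_lit 464) (B (L (nat_lit 465) ln13_15_2 ln13_15_2_ok) (M (nat_lit 528) (B (L (nat_lit 529) ln13_15_0 ln13_15_0_ok) (M (nat_lit 432)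 (B (M (nat_lit 527) (B (L (nat_lit 400) ln16_12_5_c10 ln16_12_5_c10_ok) (L (nat_lit 559) ln16_13_5_c10 ln16_13_5_c10_ok))) (B (M (nat_lit 560) (B (M (nat_lit 431) (B (L (nat_lit 399) ln16_16_7 ln16_16_7_ok) (L (nat_lit 463) ln16_17_7_c10 ln16_17_7_c10_ok))) (M (nat_lit 559) (B (L (nat_lit 527) ln16_13_5_c10 ln16_13_5_c10_ok) (L (nat_lit 591) ln16_14_5_c10 ln16_14_5_c10_ok))))) (M (nat_lit 400) (B (M (nat_lit 401) (B (L (nat_lit 369) ln16_15_6_c10 ln16_15_6_c10_ok) (L (nat_lit 433) ln16_16_6_c10 ln16_16_6_c10_ok))) (M (nat_lit 399) (B (L (nat_lit 367) ln16_15_7 ln16_15_7_ok) (L (nat_lit 431) ln16_16_7 ln16_16_7_ok)))))))))))) (M (nat_lit 528) (B (L (nat_lit 529) ln13_15_0 ln13_15_0_ok) (M (nat_lit 527) (B (L (nat_lit 492) ln12_15_0 ln12_15_0_ok) (M (nat_lit 464) (B (L (nat_lit 465) ln13_15_2 ln13_15_2_ok) (M (nat_lit 432) (B (L (nat_lit 400) ln16_12_5_c10 ln16_12_5_c10_ok) (L (nat_lit 559) ln16_13_5_c10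 ln16_13_5_c10_ok))))))))))))
noncomputable def c10_d7 : Cert := (B (M (nat_lit 432) (B (M (nat_lit 431) (B (L (nat_lit 396) ln12_12_0 ln12_12_0_ok) (M (nat_lit 433) (B (L (nat_lit 434) ln18_13_3 ln18_13_3_ok) (L (nat_lit 400) ln13_12_0 ln13_12_0_ok))))) (B (M (nat_lit 400) (B (L (nat_lit 433) ln13_12_0 ln13_12_0_ok) (M (nat_lit 368) (B (L (nat_lit 369) ln13_12_2 ln13_12_2_ok) (M (nat_lit 396) (B (L (nat_lit 431) ln12_12_0 ln12_12_0_ok) (L (nat_lit 367) ln12_12_2 ln12_12_2_ok))))))) (B (M (nat_lit 367) (B (M (nat_lit 396) (B (L (nat_lit 431) ln12_12_0 ln12_12_0_ok) (L (nat_lit 368) ln12_12_2 ln12_12_2_ok))) (B (M (nat_lit 368) (B (L (nat_lit 396) ln12_12_2 ln12_12_2_ok) (M (nat_lit 400) (B (L (nat_lit 369) ln13_12_2 ln13_12_2_ok) (M (nat_lit 464) (B (L (nat_lit 496) ln16_15_7 ln16_15_7_ok) (L (nat_lit 335) ln16_14_7 ln16_14_7_ok))))))) (B (M (nat_lit 464) (B (M (nat_lit 496) (B (L (nat_lit 400)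 ln16_15_7 ln16_15_7_ok) (M (nat_lit 431) (B (L (nat_lit 463) ln15_11_4 ln15_11_4_ok) (L (nat_lit 335) ln15_10_4 ln15_10_4_ok))))) (B (M (nat_lit 335) (B (L (nat_lit 431) ln15_10_4 ln15_10_4_ok) (M (nat_lit 400) (B (L (nat_lit 368) ln16_14_7 ln16_14_7_ok) (L (nat_lit 303) ln15_9_4 ln15_9_4_ok))))) (B (M (nat_lit 400) (B (L (nat_lit 496) ln16_15_7 ln16_15_7_ok) (M (nat_lit 335) (B (L (nat_lit 368) ln16_14_7 ln16_14_7_ok) (L (nat_lit 303) ln15_9_4 ln15_9_4_ok))))) (B (M (nat_lit 431) (B (L (nat_lit 335) ln15_10_4 ln15_10_4_ok) (M (nat_lit 496) (B (L (nat_lit 528) ln16_16_7 ln16_16_7_ok) (L (nat_lit 463) ln15_11_4 ln15_11_4_ok))))) (M (nat_lit 496) (B (L (nat_lit 400) ln16_15_7 ln16_15_7_ok) (M (nat_lit 431) (B (L (nat_lit 528) ln16_16_7 ln16_16_7_ok) (L (nat_lit 463) ln15_11_4 ln15_11_4_ok)))))))))) (M (nat_lit 431) (B (L (nat_lit 396) ln12_12_0 ln12_12_0_ok) (M (nat_lit 464) (B (L (nat_lit 335)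 ln15_10_4 ln15_10_4_ok) (M (nat_lit 496) (B (L (nat_lit 528) ln16_16_7 ln16_16_7_ok) (L (nat_lit 463) ln15_11_4 ln15_11_4_ok))))))))))) (B (M (nat_lit 400) (B (L (nat_lit 433) ln13_12_0 ln13_12_0_ok) (M (nat_lit 368) (B (L (nat_lit 369) ln13_12_2 ln13_12_2_ok) (M (nat_lit 367) (B (L (nat_lit 396) ln12_12_2 ln12_12_2_ok) (M (nat_lit 464) (B (L (nat_lit 496) ln16_15_7 ln16_15_7_ok) (L (nat_lit 335) ln16_14_7 ln16_14_7_ok))))))))) (B (M (nat_lit 494) (B (M (nat_lit 526) (B (L (nat_lit 493) ln13_12_4 ln13_12_4_ok) (M (nat_lit 462) (B (L (nat_lit 558) ln14_17_7 ln14_17_7_ok) (L (nat_lit 365) ln13_11_4 ln13_11_4_ok))))) (B (M (nat_lit 431) (B (L (nat_lit 396) ln12_12_0 ln12_12_0_ok) (M (nat_lit 463) (B (M (nat_lit 526) (B (L (nat_lit 495) ln15_12_5 ln15_12_5_ok) (L (nat_lit 493) ln13_12_4 ln13_12_4_ok))) (M (nat_lit 462) (B (L (nat_lit 367) ln15_11_5 ln15_11_5_ok) (L (nat_lit 365) ln13_11_4 ln13_11_4_ok)))))))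 (B (M (nat_lit 431) (B (L (nat_lit 396) ln12_12_0 ln12_12_0_ok) (M (nat_lit 462) (B (L (nat_lit 365) ln13_11_4 ln13_11_4_ok) (M (nat_lit 433) (B (L (nat_lit 434) ln18_13_3 ln18_13_3_ok) (M (nat_lit 463) (B (L (nat_lit 367) ln15_11_5 ln15_11_5_ok) (L (nat_lit 464) ln13_14_2 ln13_14_2_ok))))))))) (M (nat_lit 496) (B (M (nat_lit 431) (B (L (nat_lit 396) ln12_12_0 ln12_12_0_ok) (M (nat_lit 464) (B (L (nat_lit 528) ln16_16_7 ln16_16_7_ok) (M (nat_lit 367) (B (L (nat_lit 463) ln15_11_4 ln15_11_4_ok) (L (nat_lit 335) ln15_10_4 ln15_10_4_ok))))))) (M (nat_lit 493) (B (L (nat_lit 526) ln13_12_4 ln13_12_4_ok) (M (nat_lit 524) (B (L (nat_lit 492) ln13_12_5 ln13_12_5_ok) (M (nat_lit 525) (B (L (nat_lit 556) ln13_13_5 ln13_13_5_ok) (L (nat_lit 495) ln16_15_1 ln16_15_1_ok))))))))))))) (M (nat_lit 464) (B (M (nat_lit 400) (B (L (nat_lit 433) ln13_12_0 ln13_12_0_ok) (M (nat_lit 368) (B (L (nat_lit 369) ln13_12_2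 ln13_12_2_ok) (M (nat_lit 367) (B (L (nat_lit 496) ln16_15_7 ln16_15_7_ok) (L (nat_lit 335) ln16_14_7 ln16_14_7_ok))))))) (B (M (nat_lit 462) (B (M (nat_lit 433) (B (L (nat_lit 463) ln13_14_2 ln13_14_2_ok) (L (nat_lit 400) ln13_12_0 ln13_12_0_ok))) (M (nat_lit 494) (B (L (nat_lit 365) ln13_11_4 ln13_11_4_ok) (M (nat_lit 526) (B (L (nat_lit 558) ln14_17_7 ln14_17_7_ok) (L (nat_lit 493) ln13_12_4 ln13_12_4_ok))))))) (B (M (nat_lit 367) (B (M (nat_lit 400) (B (L (nat_lit 496) ln16_15_7 ln16_15_7_ok) (M (nat_lit 335) (B (L (nat_lit 431) ln15_10_4 ln15_10_4_ok) (L (nat_lit 368) ln16_14_7 ln16_14_7_ok))))) (B (M (nat_lit 335) (B (L (nat_lit 431) ln15_10_4 ln15_10_4_ok) (M (nat_lit 400) (B (L (nat_lit 368) ln16_14_7 ln16_14_7_ok) (L (nat_lit 303) ln15_9_4 ln15_9_4_ok))))) (B (M (nat_lit 400) (B (L (nat_lit 496) ln16_15_7 ln16_15_7_ok) (M (nat_lit 335) (B (L (nat_lit 368) ln16_14_7 ln16_14_7_ok) (L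 (nat_lit 303) ln15_9_4 ln15_9_4_ok))))) (B (M (nat_lit 431) (B (L (nat_lit 335) ln15_10_4 ln15_10_4_ok) (M (nat_lit 496) (B (L (nat_lit 528) ln16_16_7 ln16_16_7_ok) (L (nat_lit 463) ln15_11_4 ln15_11_4_ok))))) (M (nat_lit 496) (B (L (nat_lit 400) ln16_15_7 ln16_15_7_ok) (M (nat_lit 431) (B (L (nat_lit 528) ln16_16_7 ln16_16_7_ok) (L (nat_lit 463) ln15_11_4 ln15_11_4_ok)))))))))) (M (nat_lit 462) (B (M (nat_lit 494) (B (L (nat_lit 365) ln13_11_4 ln13_11_4_ok) (M (nat_lit 526) (B (L (nat_lit 558) ln14_17_7 ln14_17_7_ok) (L (nat_lit 493) ln13_12_4 ln13_12_4_ok))))) (M (nat_lit 463) (B (L (nat_lit 433) ln13_14_2 ln13_14_2_ok) (M (nat_lit 496) (B (L (nat_lit 497) ln13_14_0 ln13_14_0_ok) (M (nat_lit 431) (B (L (nat_lit 528) ln16_16_7 ln16_16_7_ok) (L (nat_lit 367) ln15_11_4 ln15_11_4_ok))))))))))))))))))) (B (M (nat_lit 396) (B (M (nat_lit 428) (B (L (nat_lit 427) ln15_12_1 ln15_12_1_ok) (M (nat_lit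 493) (B (L (nat_lit 525) ln13_16_7 ln13_16_7_ok) (M (nat_lit 494) (B (L (nat_lit 526) ln13_12_4 ln13_12_4_ok) (M (nat_lit 462) (B (L (nat_lit 365) ln13_11_4 ln13_11_4_ok) (M (nat_lit 463) (B (L (nat_lit 464) ln16_14_3 ln16_14_3_ok) (M (nat_lit 431) (B (L (nat_lit 367) ln15_11_5 ln15_11_5_ok) (L (nat_lit 432) ln12_12_0 ln12_12_0_ok))))))))))))) (B (K (nat_lit 5954262830815946496861327324714217040298996102221551719697975180050433881811009588547827044607926952091128884747357352083376466180549115904) (nat_lit 1343011883230986487849051780099947913761391648617617657526808763402850357719068651590484532139605856606923191443467571664366075904) (nat_lit 1343011883230986487849051780099947913761391648617617657526808763402850357719068651590484532139605856606923191443467571664366075904) c10_s448) (M (nat_lit 494) (B (M (nat_lit 526) (B (L (nat_lit 493) ln13_12_4 ln13_12_4_ok) (M (nat_lit 462) (B (L (nat_lit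 558) ln14_17_7 ln14_17_7_ok) (L (nat_lit 365) ln13_11_4 ln13_11_4_ok))))) (B (M (nat_lit 431) (B (L (nat_lit 432) ln12_12_0 ln12_12_0_ok) (M (nat_lit 462) (B (L (nat_lit 365) ln13_11_4 ln13_11_4_ok) (M (nat_lit 367) (B (L (nat_lit 463) ln15_11_5 ln15_11_5_ok) (L (nat_lit 368) ln12_12_2 ln12_12_2_ok))))))) (M (nat_lit 495) (B (M (nat_lit 526) (B (L (nat_lit 493) ln13_12_4 ln13_12_4_ok) (M (nat_lit 431) (B (L (nat_lit 463) ln15_12_5 ln15_12_5_ok) (L (nat_lit 432) ln12_12_0 ln12_12_0_ok))))) (B (M (nat_lit 496) (B (M (nat_lit 431) (B (L (nat_lit 432) ln12_12_0 ln12_12_0_ok) (M (nat_lit 463) (B (L (nat_lit 528) ln15_12_4 ln15_12_4_ok) (M (nat_lit 367) (B (L (nat_lit 464) ln15_11_4 ln15_11_4_ok) (L (nat_lit 368) ln12_12_2 ln12_12_2_ok))))))) (B (M (nat_lit 464) (B (M (nat_lit 493) (B (L (nat_lit 465) ln13_15_2 ln13_15_2_ok) (M (nat_lit 524) (B (L (nat_lit 525) ln16_15_1 ln16_15_1_ok) (L (nat_lit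 492) ln13_12_5 ln13_12_5_ok))))) (B (M (nat_lit 493) (B (L (nat_lit 465) ln13_15_2 ln13_15_2_ok) (M (nat_lit 492) (B (L (nat_lit 524) ln13_12_5 ln13_12_5_ok) (L (nat_lit 463) ln12_15_2 ln12_15_2_ok))))) (M (nat_lit 431) (B (L (nat_lit 432) ln12_12_0 ln12_12_0_ok) (M (nat_lit 367) (B (L (nat_lit 463) ln15_11_4 ln15_11_4_ok) (L (nat_lit 368) ln12_12_2 ln12_12_2_ok)))))))) (B (M (nat_lit 493) (B (M (nat_lit 524) (B (L (nat_lit 525) ln16_15_1 ln16_15_1_ok) (L (nat_lit 492) ln13_12_5 ln13_12_5_ok))) (M (nat_lit 528) (B (L (nat_lit 529) ln13_15_0 ln13_15_0_ok) (M (nat_lit 431) (B (L (nat_lit 463) ln15_12_4 ln15_12_4_ok) (L (nat_lit 432) ln12_12_0 ln12_12_0_ok))))))) (M (nat_lit 493) (B (M (nat_lit 524) (B (L (nat_lit 525) ln16_15_1 ln16_15_1_ok) (L (nat_lit 492) ln13_12_5 ln13_12_5_ok))) (M (nat_lit 497) (B (M (nat_lit 529) (B (L (nat_lit 530) ln14_15_0 ln14_15_0_ok) (L (nat_lit 528) ln13_15_0 ln13_15_0_ok)))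 (M (nat_lit 465) (B (L (nat_lit 466) ln14_15_2_c10 ln14_15_2_c10_ok) (L (nat_lit 464) ln13_15_2 ln13_15_2_ok))))))))))) (B (M (nat_lit 431) (B (L (nat_lit 432) ln12_12_0 ln12_12_0_ok) (M (nat_lit 463) (B (L (nat_lit 526) ln15_12_5 ln15_12_5_ok) (M (nat_lit 496) (B (L (nat_lit 528) ln15_12_4 ln15_12_4_ok) (M (nat_lit 367) (B (L (nat_lit 464) ln15_11_4 ln15_11_4_ok) (L (nat_lit 368) ln12_12_2 ln12_12_2_ok))))))))) (M (nat_lit 493) (B (L (nat_lit 526) ln13_12_4 ln13_12_4_ok) (M (nat_lit 524) (B (L (nat_lit 492) ln13_12_5 ln13_12_5_ok) (M (nat_lit 525) (B (L (nat_lit 556) ln13_13_5 ln13_13_5_ok) (L (nat_lit 496) ln16_15_1 ln16_15_1_ok))))))))))))))))) (M (nat_lit 400) (B (L (nat_lit 428) ln16_12_1 ln16_12_1_ok) (M (nat_lit 401) (B (M (nat_lit 433) (B (L (nat_lit 434) ln14_12_0 ln14_12_0_ok) (L (nat_lit 432) ln13_12_0 ln13_12_0_ok))) (M (nat_lit 369) (B (L (nat_lit 370) ln14_12_2 ln14_12_2_ok) (L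 (nat_lit 368) ln13_12_2 ln13_12_2_ok)))))))))
noncomputable def c10_d8 : Cert := (B (M (nat_lit 398) (B (M (nat_lit 366) (B (L (nat_lit 493) ln13_15_6 ln13_15_6_ok) (M (nat_lit 334) (B (L (nat_lit 365) ln13_14_6 ln13_14_6_ok) (L (nat_lit 302) ln14_9_5 ln14_9_5_ok))))) (B (M (nat_lit 399) (B (M (nat_lit 428) (B (L (nat_lit 400) ln16_12_1 ln16_12_1_ok) (M (nat_lit 427) (B (L (nat_lit 426) ln10_13_2 ln10_13_2_ok) (L (nat_lit 396) ln15_12_1 ln15_12_1_ok))))) (B (M (nat_lit 366) (B (M (nat_lit 334) (B (L (nat_lit 365) ln13_14_6 ln13_14_6_ok) (L (nat_lit 302) ln14_9_5 ln14_9_5_ok))) (B (M (nat_lit 431) (B (M (nat_lit 432) (B (L (nat_lit 396) ln12_12_0 ln12_12_0_ok) (M (nat_lit 433) (B (L (nat_lit 434) ln18_13_3 ln18_13_3_ok) (L (nat_lit 400) ln13_12_0 ln13_12_0_ok))))) (M (nat_lit 334) (B (L (nat_lit 302) ln14_9_4 ln14_9_4_ok) (M (nat_lit 463) (B (L (nat_lit 495) ln15_15_7 ln15_15_7_ok) (L (nat_lit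 367) ln15_14_7 ln15_14_7_ok))))))) (M (nat_lit 400) (B (M (nat_lit 401) (B (L (nat_lit 365) ln17_12_3 ln17_12_3_ok) (M (nat_lit 369) (B (L (nat_lit 370) ln14_12_2 ln14_12_2_ok) (L (nat_lit 368) ln13_12_2 ln13_12_2_ok))))) (B (M (nat_lit 396) (B (M (nat_lit 432) (B (L (nat_lit 433) ln13_12_0 ln13_12_0_ok) (L (nat_lit 431) ln12_12_0 ln12_12_0_ok))) (M (nat_lit 368) (B (L (nat_lit 369) ln13_12_2 ln13_12_2_ok) (L (nat_lit 367) ln12_12_2 ln12_12_2_ok))))) (M (nat_lit 433) (B (L (nat_lit 432) ln13_12_0 ln13_12_0_ok) (M (nat_lit 401) (B (L (nat_lit 434) ln14_12_0 ln14_12_0_ok) (L (nat_lit 365) ln17_12_3 ln17_12_3_ok))))))))))) (B (M (nat_lit 396) (B (M (nat_lit 427) (B (L (nat_lit 428) ln15_12_1 ln15_12_1_ok) (M (nat_lit 395) (B (L (nat_lit 426) ln14_12_1 ln14_12_1_ok) (M (nat_lit 367) (B (L (nat_lit 368) ln12_12_2 ln12_12_2_ok) (L (nat_lit 366) ln11_12_2 ln11_12_2_ok))))))) (B (M (nat_lit 366) (B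 (M (nat_lit 334) (B (L (nat_lit 365) ln13_14_6 ln13_14_6_ok) (L (nat_lit 302) ln14_9_5 ln14_9_5_ok))) (M (nat_lit 367) (B (L (nat_lit 368) ln12_12_2 ln12_12_2_ok) (L (nat_lit 395) ln11_12_2 ln11_12_2_ok))))) (B (M (nat_lit 431) (B (L (nat_lit 432) ln12_12_0 ln12_12_0_ok) (M (nat_lit 463) (B (M (nat_lit 366) (B (L (nat_lit 495) ln15_15_7 ln15_15_7_ok) (M (nat_lit 367) (B (L (nat_lit 334) ln15_14_7 ln15_14_7_ok) (L (nat_lit 368) ln12_12_2 ln12_12_2_ok))))) (B (M (nat_lit 462) (B (M (nat_lit 367) (B (L (nat_lit 494) ln15_11_5 ln15_11_5_ok) (L (nat_lit 368) ln12_12_2 ln12_12_2_ok))) (M (nat_lit 428) (B (L (nat_lit 464) ln16_14_3 ln16_14_3_ok) (L (nat_lit 427) ln15_12_1 ln15_12_1_ok))))) (B (M (nat_lit 366) (B (L (nat_lit 495) ln15_15_7 ln15_15_7_ok) (M (nat_lit 334) (B (L (nat_lit 367) ln15_14_7 ln15_14_7_ok) (L (nat_lit 365) ln13_14_6 ln13_14_6_ok))))) (M (nat_lit 366) (B (L (nat_lit 495) ln15_15_7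 ln15_15_7_ok) (M (nat_lit 334) (B (L (nat_lit 365) ln13_14_6 ln13_14_6_ok) (L (nat_lit 302) ln14_9_4 ln14_9_4_ok))))))))))) (B (M (nat_lit 427) (B (L (nat_lit 428) ln15_12_1 ln15_12_1_ok) (M (nat_lit 366) (B (M (nat_lit 334) (B (L (nat_lit 365) ln13_14_6 ln13_14_6_ok) (L (nat_lit 302) ln14_9_5 ln14_9_5_ok))) (M (nat_lit 395) (B (L (nat_lit 426) ln14_12_1 ln14_12_1_ok) (L (nat_lit 367) ln11_12_2 ln11_12_2_ok))))))) (K (nat_lit 5954262830815946496861327324714217040298996102221551719697975180050433881811009588547827044607926952091128884747357352083376466180549115904) (nat_lit 1343011883230986487849051780099947913761391648617617657526808763402850357719068651590484532139605856606923191443467571664366075904) (nat_lit 1343011883230986487849051780099947913761391648617617657526808763402850357719068651590484532139605856606923191443467571664366075904) c10_s448)))))) (M (nat_lit 400) (B (L (nat_lit 428)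 ln16_12_1 ln16_12_1_ok) (M (nat_lit 401) (B (M (nat_lit 433) (B (L (nat_lit 434) ln14_12_0 ln14_12_0_ok) (L (nat_lit 432) ln13_12_0 ln13_12_0_ok))) (M (nat_lit 369) (B (L (nat_lit 370) ln14_12_2 ln14_12_2_ok) (L (nat_lit 368) ln13_12_2 ln13_12_2_ok))))))))))) (B (M (nat_lit 399) (B (M (nat_lit 428) (B (L (nat_lit 400) ln16_12_1 ln16_12_1_ok) (M (nat_lit 427) (B (L (nat_lit 426) ln10_13_2 ln10_13_2_ok) (L (nat_lit 396) ln15_12_1 ln15_12_1_ok))))) c10_d7)) (M (nat_lit 493) (B (L (nat_lit 366) ln13_15_6 ln13_15_6_ok) (M (nat_lit 525) (B (M (nat_lit 526) (B (L (nat_lit 558) ln13_13_4 ln13_13_4_ok) (L (nat_lit 494) ln13_12_4 ln13_12_4_ok))) (M (nat_lit 524) (B (L (nat_lit 556) ln13_13_5 ln13_13_5_ok) (L (nat_lit 492) ln13_12_5 ln13_12_5_ok))))))))))) (B (M (nat_lit 493) (B (M (nat_lit 525) (B (M (nat_lit 524) (B (L (nat_lit 556) ln13_13_5 ln13_13_5_ok) (L (nat_lit 492) ln13_12_5 ln13_12_5_ok))) (M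 (nat_lit 526) (B (L (nat_lit 558) ln13_13_4 ln13_13_4_ok) (L (nat_lit 494) ln13_12_4 ln13_12_4_ok))))) (B (M (nat_lit 526) (B (L (nat_lit 494) ln13_12_4 ln13_12_4_ok) (M (nat_lit 525) (B (L (nat_lit 558) ln13_13_4 ln13_13_4_ok) (M (nat_lit 396) (B (L (nat_lit 428) ln13_16_7 ln13_16_7_ok) (L (nat_lit 364) ln13_15_7 ln13_15_7_ok))))))) (B (M (nat_lit 525) (B (M (nat_lit 524) (B (L (nat_lit 556) ln13_13_5 ln13_13_5_ok) (L (nat_lit 492) ln13_12_5 ln13_12_5_ok))) (M (nat_lit 396) (B (L (nat_lit 428) ln13_16_7 ln13_16_7_ok) (L (nat_lit 364) ln13_15_7 ln13_15_7_ok))))) (K (nat_lit 25573364130142871190293991001228867675461119795915005442807318385056134507788209737661646457654677079460545701201105089966755180806434772181820899328) (nat_lit 3398074842554229426622133464056685643918788976800337271945700547836583667283224627955379529091754463755671379567777229384593819026905479098702917747868168093696) (nat_lit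 3398074842554229426622133464056685643918788976800337271945700547836583667283224627955379529091754463755671379567777229384593819026905479098702917747868168093696) c10_s449))))) (B (K (nat_lit 5954262830815946494763249298768603811203561774969104571805089223376689777636098861358550851719243481454542035207245364041705138952691777536) (nat_lit 25573364124188608360517795646441251853358162402824153890646477751110568515971696711575342613843985322453656299797438808586539441115828738112937263104) (nat_lit 25573364124188608360517795646441251853358162402824153890646477751110568515971696711575342613843985322453656299797438808586539441115828738112937263104) c10_s450) (M (nat_lit 493) (B (M (nat_lit 364) (B (L (nat_lit 396) ln13_15_7 ln13_15_7_ok) (M (nat_lit 365) (B (L (nat_lit 332) ln13_14_7 ln13_14_7_ok) (M (nat_lit 366) (B (L (nat_lit 334) ln13_14_6 ln13_14_6_ok) (L (nat_lit 398) ln13_15_6 ln13_15_6_ok)))))))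 (M (nat_lit 524) (B (L (nat_lit 492) ln13_12_5 ln13_12_5_ok) (M (nat_lit 525) (B (L (nat_lit 556) ln13_13_5 ln13_13_5_ok) (M (nat_lit 526) (B (L (nat_lit 494) ln13_12_4 ln13_12_4_ok) (L (nat_lit 558) ln13_13_4 ln13_13_4_ok))))))))))))
noncomputable def c10_d9 : Cert := (B (M (nat_lit 458) (B (M (nat_lit 457) (B (L (nat_lit 492) ln9_14_0 ln9_14_0_ok) (M (nat_lit 489) (B (L (nat_lit 488) ln12_14_1 ln12_14_1_ok) (L (nat_lit 490) ln13_14_1 ln13_14_1_ok))))) (B (M (nat_lit 462) (B (M (nat_lit 426) (B (L (nat_lit 425) ln13_14_3 ln13_14_3_ok) (L (nat_lit 427) ln14_14_3 ln14_14_3_ok))) (M (nat_lit 490) (B (L (nat_lit 489) ln13_14_1 ln13_14_1_ok) (L (nat_lit 491) ln14_14_1 ln14_14_1_ok))))) (M (nat_lit 457) (B (L (nat_lit 492) ln9_14_0 ln9_14_0_ok) (M (nat_lit 425) (B (L (nat_lit 424) ln12_14_3 ln12_14_3_ok) (L (nat_lit 426) ln13_14_3 ln13_14_3_ok)))))))) (M (nat_lit 462) (B (M (nat_lit 463) (B (M (nat_lit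 492) (B (L (nat_lit 464) ln16_14_1 ln16_14_1_ok) (L (nat_lit 491) ln15_14_1 ln15_14_1_ok))) (M (nat_lit 495) (B (L (nat_lit 496) ln12_14_0 ln12_14_0_ok) (L (nat_lit 494) ln11_14_0 ln11_14_0_ok))))) (B (M (nat_lit 463) (B (M (nat_lit 495) (B (L (nat_lit 494) ln11_14_0 ln11_14_0_ok) (L (nat_lit 496) ln12_14_0 ln12_14_0_ok))) (B (M (nat_lit 464) (B (M (nat_lit 496) (B (L (nat_lit 495) ln12_14_0 ln12_14_0_ok) (L (nat_lit 497) ln13_14_0 ln13_14_0_ok))) (M (nat_lit 432) (B (L (nat_lit 431) ln12_14_2 ln12_14_2_ok) (L (nat_lit 433) ln13_14_2 ln13_14_2_ok))))) (B (M (nat_lit 464) (B (M (nat_lit 432) (B (L (nat_lit 431) ln12_14_2 ln12_14_2_ok) (L (nat_lit 433) ln13_14_2 ln13_14_2_ok))) (M (nat_lit 497) (B (L (nat_lit 496) ln13_14_0 ln13_14_0_ok) (M (nat_lit 465) (B (L (nat_lit 494) ln17_14_1 ln17_14_1_ok) (L (nat_lit 498) ln14_14_0_c10 ln14_14_0_c10_ok))))))) (M (nat_lit 464) (B (M (nat_lit 494) (B (L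 (nat_lit 495) ln11_14_0 ln11_14_0_ok) (L (nat_lit 465) ln17_14_1 ln17_14_1_ok))) (M (nat_lit 432) (B (L (nat_lit 431) ln12_14_2 ln12_14_2_ok) (L (nat_lit 433) ln13_14_2 ln13_14_2_ok))))))))) (B (M (nat_lit 463) (B (M (nat_lit 492) (B (L (nat_lit 464) ln16_14_1 ln16_14_1_ok) (L (nat_lit 491) ln15_14_1 ln15_14_1_ok))) (B (M (nat_lit 491) (B (L (nat_lit 492) ln15_14_1 ln15_14_1_ok) (L (nat_lit 490) ln14_14_1 ln14_14_1_ok))) (M (nat_lit 464) (B (M (nat_lit 432) (B (L (nat_lit 433) ln13_14_2 ln13_14_2_ok) (L (nat_lit 431) ln12_14_2 ln12_14_2_ok))) (M (nat_lit 496) (B (L (nat_lit 497) ln13_14_0 ln13_14_0_ok) (L (nat_lit 495) ln12_14_0 ln12_14_0_ok)))))))) (B (M (nat_lit 463) (B (M (nat_lit 491) (B (L (nat_lit 490) ln14_14_1 ln14_14_1_ok) (L (nat_lit 492) ln15_14_1 ln15_14_1_ok))) (B (M (nat_lit 492) (B (L (nat_lit 491) ln15_14_1 ln15_14_1_ok) (L (nat_lit 464) ln16_14_1 ln16_14_1_ok))) (B (M (nat_lit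 464) (B (L (nat_lit 492) ln16_14_1 ln16_14_1_ok) (M (nat_lit 432) (B (L (nat_lit 431) ln12_14_2 ln12_14_2_ok) (L (nat_lit 433) ln13_14_2 ln13_14_2_ok))))) (M (nat_lit 464) (B (M (nat_lit 432) (B (L (nat_lit 431) ln12_14_2 ln12_14_2_ok) (L (nat_lit 433) ln13_14_2 ln13_14_2_ok))) (M (nat_lit 497) (B (L (nat_lit 496) ln13_14_0 ln13_14_0_ok) (M (nat_lit 465) (B (L (nat_lit 494) ln17_14_1 ln17_14_1_ok) (L (nat_lit 498) ln14_14_0_c10 ln14_14_0_c10_ok))))))))))) (B (M (nat_lit 463) (B (M (nat_lit 491) (B (L (nat_lit 490) ln14_14_1 ln14_14_1_ok) (L (nat_lit 492) ln15_14_1 ln15_14_1_ok))) (B (M (nat_lit 492) (B (L (nat_lit 491) ln15_14_1 ln15_14_1_ok) (L (nat_lit 464) ln16_14_1 ln16_14_1_ok))) (B (M (nat_lit 494) (B (L (nat_lit 495) ln11_14_0 ln11_14_0_ok) (M (nat_lit 464) (B (L (nat_lit 492) ln16_14_1 ln16_14_1_ok) (L (nat_lit 465) ln17_14_1 ln17_14_1_ok))))) (M (nat_lit 464) (B (M (nat_lit 494) (B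 (L (nat_lit 465) ln17_14_1 ln17_14_1_ok) (L (nat_lit 495) ln11_14_0 ln11_14_0_ok))) (M (nat_lit 432) (B (L (nat_lit 431) ln12_14_2 ln12_14_2_ok) (L (nat_lit 433) ln13_14_2 ln13_14_2_ok))))))))) (B (M (nat_lit 463) (B (M (nat_lit 491) (B (L (nat_lit 490) ln14_14_1 ln14_14_1_ok) (L (nat_lit 492) ln15_14_1 ln15_14_1_ok))) (M (nat_lit 495) (B (L (nat_lit 494) ln11_14_0 ln11_14_0_ok) (L (nat_lit 496) ln12_14_0 ln12_14_0_ok))))) (M (nat_lit 494) (B (L (nat_lit 495) ln11_14_0 ln11_14_0_ok) (M (nat_lit 491) (B (L (nat_lit 490) ln14_14_1 ln14_14_1_ok) (M (nat_lit 427) (B (L (nat_lit 426) ln14_14_3 ln14_14_3_ok) (M (nat_lit 523) (B (M (nat_lit 557) (B (L (nat_lit 589) ln13_18_6 ln13_18_6_ok) (M (nat_lit 556) (B (L (nat_lit 588) ln13_14_5 ln13_14_5_ok) (M (nat_lit 558) (B (L (nat_lit 590) ln13_14_4 ln13_14_4_ok) (M (nat_lit 555) (B (L (nat_lit 522) ln14_17_3 ln14_17_3_ok) (M (nat_lit 586) (B (L (nat_lit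 587) ln14_17_1 ln14_17_1_ok) (L (nat_lit 554) ln11_14_5 ln11_14_5_ok))))))))))) (B (M (nat_lit 557) (B (M (nat_lit 492) (B (L (nat_lit 589) ln13_18_6 ln13_18_6_ok) (L (nat_lit 522) ln14_15_1 ln14_15_1_ok))) (B (M (nat_lit 556) (B (L (nat_lit 588) ln13_14_5 ln13_14_5_ok) (M (nat_lit 522) (B (L (nat_lit 492) ln14_15_1 ln14_15_1_ok) (M (nat_lit 558) (B (L (nat_lit 590) ln13_14_4 ln13_14_4_ok) (L (nat_lit 555) ln14_17_3 ln14_17_3_ok))))))) (M (nat_lit 588) (B (L (nat_lit 556) ln13_14_5 ln13_14_5_ok) (L (nat_lit 589) ln13_18_6 ln13_18_6_ok)))))) (B (M (nat_lit 588) (B (M (nat_lit 556) (B (L (nat_lit 555) ln11_14_4 ln11_14_4_ok) (L (nat_lit 557) ln13_14_5 ln13_14_5_ok))) (B (M (nat_lit 557) (B (L (nat_lit 556) ln13_14_5 ln13_14_5_ok) (L (nat_lit 589) ln13_18_6 ln13_18_6_ok))) (B (M (nat_lit 587) (B (M (nat_lit 555) (B (L (nat_lit 620) ln11_15_4 ln11_15_4_ok) (L (nat_lit 492) ln11_18_6 ln11_18_6_ok)))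 (B (M (nat_lit 555) (B (L (nat_lit 492) ln11_18_6 ln11_18_6_ok) (M (nat_lit 586) (B (L (nat_lit 618) ln11_15_5 ln11_15_5_ok) (L (nat_lit 554) ln11_14_5 ln11_14_5_ok))))) (M (nat_lit 589) (B (L (nat_lit 557) ln13_18_6 ln13_18_6_ok) (M (nat_lit 586) (B (M (nat_lit 585) (B (M (nat_lit 617) (B (L (nat_lit 616) ln12_18_1 ln12_18_1_ok) (L (nat_lit 618) ln13_18_1_c10 ln13_18_1_c10_ok))) (M (nat_lit 553) (B (L (nat_lit 552) ln12_18_3 ln12_18_3_ok) (L (nat_lit 554) ln13_18_3 ln13_18_3_ok))))) (B (M (nat_lit 585) (B (M (nat_lit 621) (B (L (nat_lit 620) ln9_18_0_c10 ln9_18_0_c10_ok) (L (nat_lit 622) ln10_18_0_c10 ln10_18_0_c10_ok))) (M (nat_lit 553) (B (L (nat_lit 552) ln12_18_3 ln12_18_3_ok) (L (nat_lit 554) ln13_18_3 ln13_18_3_ok))))) (M (nat_lit 590) (B (M (nat_lit 618) (B (L (nat_lit 617) ln13_18_1_c10 ln13_18_1_c10_ok) (L (nat_lit 619) ln14_18_1_c10 ln14_18_1_c10_ok))) (M (nat_lit 622) (B (L (nat_lit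 621) ln10_18_0_c10 ln10_18_0_c10_ok) (L (nat_lit 623) ln11_18_0_c10 ln11_18_0_c10_ok))))))))))))) (M (nat_lit 555) (B (L (nat_lit 556) ln11_14_4 ln11_14_4_ok) (M (nat_lit 587) (B (L (nat_lit 620) ln11_15_4 ln11_15_4_ok) (L (nat_lit 492) ln11_18_6 ln11_18_6_ok))))))))) (M (nat_lit 522) (B (L (nat_lit 492) ln14_15_1 ln14_15_1_ok) (L (nat_lit 554) ln11_13_5 ln11_13_5_ok)))))))))))))))))))))
noncomputable def c10_d10 : Cert := (B (M (nat_lit 557) (B (L (nat_lit 428) ln13_17_7 ln13_17_7_ok) (M (nat_lit 589) (B (L (nat_lit 492) ln13_18_7 ln13_18_7_ok) (M (nat_lit 590) (B (L (nat_lit 558) ln13_14_4 ln13_14_4_ok) (L (nat_lit 622) ln13_15_4_c10 ln13_15_4_c10_ok))))))) (B (M (nat_lit 459) (B (M (nat_lit 458) (B (L (nat_lit 494) ln10_14_0 ln10_14_0_ok) (M (nat_lit 426) (B (L (nat_lit 425) ln13_14_3 ln13_14_3_ok) (M (nat_lit 428) (B (L (nat_lit 427) ln10_13_2 ln10_13_2_ok) (L (nat_lit 457) ln9_14_2 ln9_14_2_ok)))))))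 (B (M (nat_lit 458) (B (L (nat_lit 494) ln10_14_0 ln10_14_0_ok) (M (nat_lit 426) (B (L (nat_lit 425) ln13_14_3 ln13_14_3_ok) (M (nat_lit 427) (B (L (nat_lit 428) ln10_13_2 ln10_13_2_ok) (L (nat_lit 462) ln14_14_3 ln14_14_3_ok))))))) (B (M (nat_lit 458) (B (M (nat_lit 457) (B (L (nat_lit 428) ln9_14_2 ln9_14_2_ok) (M (nat_lit 489) (B (L (nat_lit 490) ln13_14_1 ln13_14_1_ok) (L (nat_lit 488) ln12_14_1 ln12_14_1_ok))))) (B (M (nat_lit 457) (B (M (nat_lit 489) (B (L (nat_lit 490) ln13_14_1 ln13_14_1_ok) (L (nat_lit 488) ln12_14_1 ln12_14_1_ok))) (M (nat_lit 425) (B (L (nat_lit 426) ln13_14_3 ln13_14_3_ok) (L (nat_lit 424) ln12_14_3 ln12_14_3_ok))))) (B (M (nat_lit 457) (B (L (nat_lit 428) ln9_14_2 ln9_14_2_ok) (M (nat_lit 425) (B (L (nat_lit 426) ln13_14_3 ln13_14_3_ok) (L (nat_lit 424) ln12_14_3 ln12_14_3_ok))))) (M (nat_lit 426) (B (L (nat_lit 425) ln13_14_3 ln13_14_3_ok) (M (nat_lit 427) (B (L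 (nat_lit 462) ln14_14_3 ln14_14_3_ok) (L (nat_lit 428) ln10_13_2 ln10_13_2_ok))))))))) (B (M (nat_lit 458) (B (L (nat_lit 494) ln10_14_0 ln10_14_0_ok) (M (nat_lit 457) (B (L (nat_lit 492) ln9_14_0 ln9_14_0_ok) (L (nat_lit 428) ln9_14_2 ln9_14_2_ok))))) (B (M (nat_lit 494) (B (L (nat_lit 458) ln10_14_0 ln10_14_0_ok) (M (nat_lit 495) (B (L (nat_lit 496) ln16_15_3 ln16_15_3_ok) (L (nat_lit 462) ln11_14_0 ln11_14_0_ok))))) (M (nat_lit 494) (B (M (nat_lit 495) (B (L (nat_lit 496) ln16_15_3 ln16_15_3_ok) (L (nat_lit 492) ln15_15_3 ln15_15_3_ok))) (B (M (nat_lit 495) (B (L (nat_lit 496) ln16_15_3 ln16_15_3_ok) (L (nat_lit 462) ln11_14_0 ln11_14_0_ok))) (B (M (nat_lit 495) (B (L (nat_lit 462) ln11_14_0 ln11_14_0_ok) (L (nat_lit 492) ln15_15_3 ln15_15_3_ok))) (M (nat_lit 462) (B (M (nat_lit 463) (B (M (nat_lit 428) (B (L (nat_lit 427) ln15_14_3 ln15_14_3_ok) (L (nat_lit 464) ln16_14_3 ln16_14_3_ok)))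 (B (M (nat_lit 464) (B (L (nat_lit 465) ln17_14_1 ln17_14_1_ok) (M (nat_lit 432) (B (L (nat_lit 431) ln12_14_2 ln12_14_2_ok) (L (nat_lit 433) ln13_14_2 ln13_14_2_ok))))) (M (nat_lit 428) (B (L (nat_lit 427) ln15_14_3 ln15_14_3_ok) (M (nat_lit 431) (B (L (nat_lit 432) ln12_14_2 ln12_14_2_ok) (M (nat_lit 399) (B (L (nat_lit 367) ln15_11_5 ln15_11_5_ok) (L (nat_lit 400) ln16_12_1 ln16_12_1_ok)))))))))) (B (M (nat_lit 463) (B (M (nat_lit 428) (B (L (nat_lit 464) ln16_14_3 ln16_14_3_ok) (L (nat_lit 427) ln15_14_3 ln15_14_3_ok))) (B (M (nat_lit 399) (B (M (nat_lit 428) (B (L (nat_lit 400) ln16_12_1 ln16_12_1_ok) (L (nat_lit 427) ln15_14_3 ln15_14_3_ok))) (M (nat_lit 431) (B (L (nat_lit 432) ln12_14_2 ln12_14_2_ok) (L (nat_lit 367) ln15_11_5 ln15_11_5_ok))))) (M (nat_lit 464) (B (M (nat_lit 432) (B (L (nat_lit 433) ln13_14_2 ln13_14_2_ok) (L (nat_lit 431) ln12_14_2 ln12_14_2_ok))) (L (nat_lit 492)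 ln16_14_1 ln16_14_1_ok)))))) (B (M (nat_lit 463) (B (M (nat_lit 428) (B (L (nat_lit 427) ln15_14_3 ln15_14_3_ok) (L (nat_lit 464) ln16_14_3 ln16_14_3_ok))) (B (M (nat_lit 464) (B (L (nat_lit 428) ln16_14_3 ln16_14_3_ok) (L (nat_lit 465) ln17_14_1 ln17_14_1_ok))) (B (M (nat_lit 492) (B (L (nat_lit 491) ln15_14_1 ln15_14_1_ok) (L (nat_lit 464) ln16_14_1 ln16_14_1_ok))) (M (nat_lit 427) (B (L (nat_lit 426) ln14_14_3 ln14_14_3_ok) (L (nat_lit 428) ln15_14_3 ln15_14_3_ok))))))) (B (M (nat_lit 463) (B (M (nat_lit 464) (B (L (nat_lit 465) ln17_14_1 ln17_14_1_ok) (L (nat_lit 428) ln16_14_3 ln16_14_3_ok))) (B (M (nat_lit 464) (B (L (nat_lit 428) ln16_14_3 ln16_14_3_ok) (L (nat_lit 492) ln16_14_1 ln16_14_1_ok))) (M (nat_lit 491) (B (L (nat_lit 492) ln15_14_1 ln15_14_1_ok) (L (nat_lit 490) ln14_14_1 ln14_14_1_ok)))))) (B (M (nat_lit 463) (B (M (nat_lit 491) (B (L (nat_lit 492) ln15_14_1 ln15_14_1_ok) (L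 (nat_lit 490) ln14_14_1 ln14_14_1_ok))) (M (nat_lit 427) (B (L (nat_lit 428) ln15_14_3 ln15_14_3_ok) (L (nat_lit 426) ln14_14_3 ln14_14_3_ok))))) (B (M (nat_lit 463) (B (M (nat_lit 491) (B (L (nat_lit 490) ln14_14_1 ln14_14_1_ok) (L (nat_lit 492) ln15_14_1 ln15_14_1_ok))) (B (M (nat_lit 492) (B (L (nat_lit 491) ln15_14_1 ln15_14_1_ok) (L (nat_lit 464) ln16_14_1 ln16_14_1_ok))) (B (M (nat_lit 464) (B (L (nat_lit 492) ln16_14_1 ln16_14_1_ok) (L (nat_lit 465) ln17_14_1 ln17_14_1_ok))) (M (nat_lit 464) (B (L (nat_lit 465) ln17_14_1 ln17_14_1_ok) (M (nat_lit 432) (B (L (nat_lit 431) ln12_14_2 ln12_14_2_ok) (L (nat_lit 433) ln13_14_2 ln13_14_2_ok))))))))) (M (nat_lit 427) (B (L (nat_lit 426) ln14_14_3 ln14_14_3_ok) (M (nat_lit 491) (B (L (nat_lit 490) ln14_14_1 ln14_14_1_ok) (M (nat_lit 523) (B (M (nat_lit 492) (B (L (nat_lit 522) ln14_15_1 ln14_15_1_ok) (M (nat_lit 555) (B (L (nat_lit 587) ln11_18_6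 ln11_18_6_ok) (L (nat_lit 428) ln11_17_6 ln11_17_6_ok))))) (B (M (nat_lit 522) (B (L (nat_lit 492) ln14_15_1 ln14_15_1_ok) (L (nat_lit 554) ln11_13_5 ln11_13_5_ok))) (M (nat_lit 555) (B (L (nat_lit 428) ln11_17_6 ln11_17_6_ok) (M (nat_lit 586) (B (L (nat_lit 554) ln11_14_5 ln11_14_5_ok) (M (nat_lit 588) (B (L (nat_lit 556) ln11_14_4 ln11_14_4_ok) (M (nat_lit 587) (B (L (nat_lit 618) ln11_15_5 ln11_15_5_ok) (L (nat_lit 620) ln11_15_4 ln11_15_4_ok))))))))))))))))))))))))))))))))) (M (nat_lit 459) (B (M (nat_lit 494) (B (L (nat_lit 458) ln10_14_0 ln10_14_0_ok) (M (nat_lit 495) (B (L (nat_lit 496) ln16_15_3 ln16_15_3_ok) (L (nat_lit 462) ln11_14_0 ln11_14_0_ok))))) (B (M (nat_lit 494) (B (L (nat_lit 458) ln10_14_0 ln10_14_0_ok) (M (nat_lit 495) (B (L (nat_lit 462) ln11_14_0 ln11_14_0_ok) (L (nat_lit 492) ln15_15_3 ln15_15_3_ok))))) (B (M (nat_lit 458) (B (L (nat_lit 494) ln10_14_0 ln10_14_0_ok)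 (M (nat_lit 425) (B (L (nat_lit 426) ln13_14_3 ln13_14_3_ok) (M (nat_lit 489) (B (L (nat_lit 490) ln13_14_1 ln13_14_1_ok) (M (nat_lit 457) (B (L (nat_lit 424) ln12_14_3 ln12_14_3_ok) (L (nat_lit 488) ln12_14_1 ln12_14_1_ok))))))))) c10_d9))))))
noncomputable def c10_d11 : Cert := (B (M (nat_lit 396) (B (L (nat_lit 364) ln13_15_7 ln13_15_7_ok) (M (nat_lit 494) (B (L (nat_lit 526) ln13_12_4 ln13_12_4_ok) (M (nat_lit 398) (B (L (nat_lit 366) ln13_15_6 ln13_15_6_ok) (K (nat_lit 76720092378520087909250080014967057515748310699605367519734687222286258136870382005472322699165881916823413014015995372385817886659613779881562734592) (nat_lit 835407828168782721240446874300085569824594708042994199342552960289644821565928083311802773031707061548401237157231279065836472008788060259520560223634684114104807647023970258091188324139008) (nat_lit 835407828168782721240446874300085569824594708042994199342552960289644821565928083311802773031707061548401237157231279065836472008788060259520560223634684114104807647023970258091188324139008)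 c10_s455))))))) (B (M (nat_lit 525) (B (M (nat_lit 557) (B (M (nat_lit 589) (B (M (nat_lit 588) (B (L (nat_lit 620) ln13_15_5_c10 ln13_15_5_c10_ok) (L (nat_lit 556) ln13_14_5 ln13_14_5_ok))) (M (nat_lit 590) (B (L (nat_lit 622) ln13_15_4_c10 ln13_15_4_c10_ok) (L (nat_lit 558) ln13_14_4 ln13_14_4_ok))))) (B (M (nat_lit 558) (B (L (nat_lit 590) ln13_14_4 ln13_14_4_ok) (L (nat_lit 526) ln13_13_4 ln13_13_4_ok))) (M (nat_lit 589) (B (M (nat_lit 588) (B (L (nat_lit 620) ln13_15_5_c10 ln13_15_5_c10_ok) (L (nat_lit 556) ln13_14_5 ln13_14_5_ok))) (M (nat_lit 494) (B (L (nat_lit 462) ln13_18_6 ln13_18_6_ok) (L (nat_lit 526) ln13_12_4 ln13_12_4_ok)))))))) (B (M (nat_lit 557) (B (M (nat_lit 589) (B (M (nat_lit 588) (B (L (nat_lit 620) ln13_15_5_c10 ln13_15_5_c10_ok) (L (nat_lit 556) ln13_14_5 ln13_14_5_ok))) (M (nat_lit 590) (B (L (nat_lit 622) ln13_15_4_c10 ln13_15_4_c10_ok) (L (nat_lit 558) ln13_14_4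 ln13_14_4_ok))))) (B (M (nat_lit 590) (B (L (nat_lit 558) ln13_14_4 ln13_14_4_ok) (M (nat_lit 589) (B (L (nat_lit 622) ln13_15_4_c10 ln13_15_4_c10_ok) (M (nat_lit 460) (B (L (nat_lit 492) ln13_18_7 ln13_18_7_ok) (L (nat_lit 428) ln13_17_7 ln13_17_7_ok))))))) (B (M (nat_lit 589) (B (M (nat_lit 588) (B (L (nat_lit 620) ln13_15_5_c10 ln13_15_5_c10_ok) (L (nat_lit 556) ln13_14_5 ln13_14_5_ok))) (M (nat_lit 460) (B (L (nat_lit 492) ln13_18_7 ln13_18_7_ok) (L (nat_lit 428) ln13_17_7 ln13_17_7_ok))))) (M (nat_lit 558) (B (L (nat_lit 590) ln13_14_4 ln13_14_4_ok) (M (nat_lit 556) (B (L (nat_lit 588) ln13_14_5 ln13_14_5_ok) (M (nat_lit 555) (B (L (nat_lit 526) ln13_13_4 ln13_13_4_ok) (M (nat_lit 554) (B (M (nat_lit 586) (B (L (nat_lit 585) ln13_17_1 ln13_17_1_ok) (L (nat_lit 587) ln14_17_1 ln14_17_1_ok))) (M (nat_lit 522) (B (L (nat_lit 521) ln13_17_3 ln13_17_3_ok) (L (nat_lit 523) ln14_17_3 ln14_17_3_ok)))))))))))))))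 (B (M (nat_lit 557) (B (M (nat_lit 460) (B (L (nat_lit 428) ln13_17_7 ln13_17_7_ok) (M (nat_lit 589) (B (L (nat_lit 492) ln13_18_7 ln13_18_7_ok) (M (nat_lit 588) (B (L (nat_lit 620) ln13_15_5_c10 ln13_15_5_c10_ok) (L (nat_lit 556) ln13_14_5 ln13_14_5_ok))))))) (M (nat_lit 558) (B (L (nat_lit 590) ln13_14_4 ln13_14_4_ok) (L (nat_lit 526) ln13_13_4 ln13_13_4_ok))))) (B (M (nat_lit 557) (B (M (nat_lit 558) (B (L (nat_lit 590) ln13_14_4 ln13_14_4_ok) (L (nat_lit 526) ln13_13_4 ln13_13_4_ok))) (B (M (nat_lit 589) (B (M (nat_lit 460) (B (L (nat_lit 492) ln13_18_7 ln13_18_7_ok) (L (nat_lit 428) ln13_17_7 ln13_17_7_ok))) (M (nat_lit 621) (B (M (nat_lit 620) (B (L (nat_lit 652) ln13_16_5_c10 ln13_16_5_c10_ok) (L (nat_lit 588) ln13_15_5_c10 ln13_15_5_c10_ok))) (M (nat_lit 526) (B (L (nat_lit 494) ln13_12_4 ln13_12_4_ok) (L (nat_lit 558) ln13_13_4 ln13_13_4_ok))))))) (M (nat_lit 589) (B (M (nat_lit 460)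 (B (L (nat_lit 492) ln13_18_7 ln13_18_7_ok) (L (nat_lit 428) ln13_17_7 ln13_17_7_ok))) (M (nat_lit 621) (B (M (nat_lit 622) (B (L (nat_lit 654) ln13_16_4_c10 ln13_16_4_c10_ok) (L (nat_lit 590) ln13_15_4_c10 ln13_15_4_c10_ok))) (M (nat_lit 620) (B (L (nat_lit 652) ln13_16_5_c10 ln13_16_5_c10_ok) (L (nat_lit 588) ln13_15_5_c10 ln13_15_5_c10_ok)))))))))) (B (M (nat_lit 494) (B (L (nat_lit 526) ln13_12_4 ln13_12_4_ok) (M (nat_lit 460) (B (M (nat_lit 495) (B (L (nat_lit 496) ln16_15_3 ln16_15_3_ok) (M (nat_lit 459) (B (L (nat_lit 492) ln15_15_3 ln15_15_3_ok) (L (nat_lit 458) ln10_14_0 ln10_14_0_ok))))) (B (M (nat_lit 495) (B (L (nat_lit 496) ln16_15_3 ln16_15_3_ok) (M (nat_lit 459) (B (L (nat_lit 458) ln10_14_0 ln10_14_0_ok) (L (nat_lit 462) ln11_14_0 ln11_14_0_ok))))) (M (nat_lit 557) (B (L (nat_lit 428) ln13_17_7 ln13_17_7_ok) (M (nat_lit 589) (B (L (nat_lit 492) ln13_18_7 ln13_18_7_ok) (L (nat_lit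 462) ln13_18_6 ln13_18_6_ok)))))))))) (B (M (nat_lit 526) (B (L (nat_lit 558) ln13_13_4 ln13_13_4_ok) (L (nat_lit 494) ln13_12_4 ln13_12_4_ok))) (M (nat_lit 398) (B (L (nat_lit 366) ln13_15_6 ln13_15_6_ok) (M (nat_lit 460) (B (M (nat_lit 557) (B (L (nat_lit 428) ln13_17_7 ln13_17_7_ok) (M (nat_lit 590) (B (L (nat_lit 558) ln13_14_4 ln13_14_4_ok) (M (nat_lit 588) (B (L (nat_lit 556) ln13_14_5 ln13_14_5_ok) (M (nat_lit 589) (B (L (nat_lit 622) ln13_15_4_c10 ln13_15_4_c10_ok) (L (nat_lit 620) ln13_15_5_c10 ln13_15_5_c10_ok))))))))) (B (M (nat_lit 557) (B (L (nat_lit 428) ln13_17_7 ln13_17_7_ok) (M (nat_lit 589) (B (L (nat_lit 492) ln13_18_7 ln13_18_7_ok) (M (nat_lit 588) (B (L (nat_lit 620) ln13_15_5_c10 ln13_15_5_c10_ok) (L (nat_lit 556) ln13_14_5 ln13_14_5_ok))))))) c10_d10)))))))))))) (B (K (nat_lit 25573364130142871190293991001228867675461119795915005442807318385056134507788209737661646457654677079460545701201105089966755180806434772181820899328)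 (nat_lit 40160387605602722428271549737641734491547102788568034398135156676747638944538067177271086891375649993611220186804226330629777653760) (nat_lit 40160387605602722428271549737641734491547102788568034398135156676747638944538067177271086891375649993611220186804226330629777653760) c10_s565) (K (nat_lit 25573364130142871190293991001228867675461119795915005442807318385056134507788209737661646457654677079460545701201105089966755180806434772181820899328) (nat_lit 21755412192866237635013494702160777887438554458551275367604460968620744320688732417024847333655236586828492025069396669171791925722054473936534349422210783776552543526741356248675045605376) (nat_lit 21755412192866237635013494702160777887438554458551275367604460968620744320688732417024847333655236586828492025069396669171791925722054473936534349422210783776552543526741356248675045605376) c10_s566))))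
noncomputable def c10_d12 : Cert := (B (K (nat_lit 5954262830815946494763249298768603811203561774969104571805089223376689777636098861358550851719243481454542035207245364041705138952691777536) (nat_lit 633165841186404667301192165495663090666088690274556714232141249950391677378484011697708608349543686851630085895771634875639662341023623278029455567404565553837308968486580518912) (nat_lit 633165841186404667301192165495663090666088690274556714232141249950391677378484011697708608349543686851630085895771634875639662341023623278029455567404565553837308968486580518912) c10_s447) (B (M (nat_lit 493) c10_d11) (B (K (nat_lit 5954262830815946494763249298768603811203561774969104571805089223376689777636098861358550851719243481454542035207245364041705138952691777536) (nat_lit 2830471819275176591176014755191888994073894825616656053780980988841853034100692336439785599714479908500567362291629210467646400696580027664453189457674016694625827291136)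 (nat_lit 2830471819275176591176014755191888994073894825616656053780980988841853034100692336439785599714479908500567362291629210467646400696580027664453189457674016694625827291136) c10_s568) (B (K (nat_lit 5954262830815946494763249298768603811203561774969104571805089223376689777636098861358550851719243481454542035207245364041705138952691777536) (nat_lit 943490606534895625823378004025101097274693815764178561089291470935698564697583051701413941485884083752273869051284260521577722005087893363672139776708803820481373274112) (nat_lit 943490606534895625823378004025101097274693815764178561089291470935698564697583051701413941485884083752273869051284260521577722005087893363672139776708803820481373274112) c10_s570) (B (M (nat_lit 493) (B (M (nat_lit 365) (B (M (nat_lit 494) (B (L (nat_lit 526) ln13_12_4 ln13_12_4_ok) (L (nat_lit 462) ln13_11_4 ln13_11_4_ok))) (M (nat_lit 366) (B (L (nat_lit 398) ln13_15_6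 ln13_15_6_ok) (L (nat_lit 334) ln13_14_6 ln13_14_6_ok))))) (B (M (nat_lit 365) (B (M (nat_lit 366) (B (L (nat_lit 398) ln13_15_6 ln13_15_6_ok) (L (nat_lit 334) ln13_14_6 ln13_14_6_ok))) (B (M (nat_lit 333) (B (M (nat_lit 460) (B (L (nat_lit 492) ln13_11_5 ln13_11_5_ok) (L (nat_lit 428) ln13_10_5 ln13_10_5_ok))) (M (nat_lit 334) (B (L (nat_lit 366) ln13_14_6 ln13_14_6_ok) (L (nat_lit 302) ln13_13_6 ln13_13_6_ok))))) (M (nat_lit 460) (B (L (nat_lit 492) ln13_11_5 ln13_11_5_ok) (M (nat_lit 428) (B (L (nat_lit 333) ln13_10_5 ln13_10_5_ok) (M (nat_lit 525) (B (L (nat_lit 557) ln13_17_7 ln13_17_7_ok) (L (nat_lit 396) ln13_16_7 ln13_16_7_ok)))))))))) (B (M (nat_lit 365) (B (M (nat_lit 494) (B (L (nat_lit 526) ln13_12_4 ln13_12_4_ok) (L (nat_lit 462) ln13_11_4 ln13_11_4_ok))) (M (nat_lit 333) (B (M (nat_lit 460) (B (L (nat_lit 492) ln13_11_5 ln13_11_5_ok) (L (nat_lit 428) ln13_10_5 ln13_10_5_ok))) (M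 (nat_lit 334) (B (L (nat_lit 366) ln13_14_6 ln13_14_6_ok) (L (nat_lit 302) ln13_13_6 ln13_13_6_ok))))))) (B (M (nat_lit 460) (B (M (nat_lit 365) (B (L (nat_lit 492) ln13_11_5 ln13_11_5_ok) (M (nat_lit 494) (B (L (nat_lit 526) ln13_12_4 ln13_12_4_ok) (L (nat_lit 462) ln13_11_4 ln13_11_4_ok))))) (B (M (nat_lit 428) (B (M (nat_lit 525) (B (L (nat_lit 557) ln13_17_7 ln13_17_7_ok) (L (nat_lit 396) ln13_16_7 ln13_16_7_ok))) (M (nat_lit 365) (B (L (nat_lit 492) ln13_11_5 ln13_11_5_ok) (L (nat_lit 333) ln13_10_5 ln13_10_5_ok))))) (M (nat_lit 525) (B (M (nat_lit 526) (B (L (nat_lit 558) ln13_13_4 ln13_13_4_ok) (L (nat_lit 494) ln13_12_4 ln13_12_4_ok))) (M (nat_lit 428) (B (L (nat_lit 557) ln13_17_7 ln13_17_7_ok) (L (nat_lit 396) ln13_16_7 ln13_16_7_ok)))))))) (K (nat_lit 25573364130142871190293991001228867675461119795915005442807318385056134507788209737661646457654677079460545701201105089966755180806434772181820899328)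 (nat_lit 21755412192866237635013494702160777887438554458551275367604460968620744320688732417024847333655236586828492025069396669171791925722054473936534349422210783776552543526741356248675045605376) (nat_lit 21755412192866237635013494702160777887438554458551275367604460968620744320688732417024847333655236586828492025069396669171791925722054473936534349422210783776552543526741356248675045605376) c10_s566)))))) (B (M (nat_lit 365) (B (M (nat_lit 493) (B (M (nat_lit 494) (B (L (nat_lit 526) ln13_12_4 ln13_12_4_ok) (L (nat_lit 462) ln13_11_4 ln13_11_4_ok))) (M (nat_lit 364) (B (L (nat_lit 396) ln13_15_7 ln13_15_7_ok) (L (nat_lit 332) ln13_14_7 ln13_14_7_ok))))) (B (M (nat_lit 333) (B (M (nat_lit 460) (B (L (nat_lit 492) ln13_11_5 ln13_11_5_ok) (L (nat_lit 428) ln13_10_5 ln13_10_5_ok))) (M (nat_lit 332) (B (L (nat_lit 364) ln13_14_7 ln13_14_7_ok) (L (nat_lit 300) ln13_13_7 ln13_13_7_ok))))) (B (M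 (nat_lit 333) (B (M (nat_lit 460) (B (L (nat_lit 492) ln13_11_5 ln13_11_5_ok) (L (nat_lit 428) ln13_10_5 ln13_10_5_ok))) (M (nat_lit 301) (B (M (nat_lit 300) (B (L (nat_lit 332) ln13_13_7 ln13_13_7_ok) (L (nat_lit 268) ln13_12_7 ln13_12_7_ok))) (M (nat_lit 302) (B (L (nat_lit 334) ln13_13_6 ln13_13_6_ok) (L (nat_lit 270) ln13_12_6 ln13_12_6_ok))))))) (M (nat_lit 493) (B (M (nat_lit 494) (B (L (nat_lit 526) ln13_12_4 ln13_12_4_ok) (L (nat_lit 462) ln13_11_4 ln13_11_4_ok))) (M (nat_lit 428) (B (M (nat_lit 396) (B (L (nat_lit 525) ln13_16_7 ln13_16_7_ok) (L (nat_lit 364) ln13_15_7 ln13_15_7_ok))) (M (nat_lit 460) (B (L (nat_lit 492) ln13_11_5 ln13_11_5_ok) (L (nat_lit 333) ln13_10_5 ln13_10_5_ok))))))))))) (B (K (nat_lit 5954262830815946494763249298768603811203561774969104571805089223376689777636098861358550851719243481454542035207245364041705138952691777536) (nat_lit 25573364124188608360517795646441251853358162402824153890646477751110568515971696711575342613843985322453656299797438808586539441115828738112937263104)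 (nat_lit 25573364124188608360517795646441251853358162402824153890646477751110568515971696711575342613843985322453656299797438808586539441115828738112937263104) c10_s450) (K (nat_lit 5954262830815946494763249298768603811203561774969104571805089223376689777636098861358550851719243481454542035207245364041705138952691777536) (nat_lit 219673525200899603263895176307897939767585859090265583049206608834031714959462606244647906897602348633246611083525717916942385639058858904051477606554914521088) (nat_lit 219673525200899603263895176307897939767585859090265583049206608834031714959462606244647906897602348633246611083525717916942385639058858904051477606554914521088) c10_s500))))))))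
noncomputable def c10_d13 : Cert := (B (M (nat_lit 460) (B (M (nat_lit 492) (B (L (nat_lit 365) ln13_11_5 ln13_11_5_ok) (M (nat_lit 524) (B (L (nat_lit 556) ln12_17_6 ln12_17_6_ok) (L (nat_lit 493) ln13_12_5 ln13_12_5_ok))))) (B (M (nat_lit 492) (B (L (nat_lit 365) ln13_11_5 ln13_11_5_ok) (M (nat_lit 524) (B (L (nat_lit 493) ln13_12_5 ln13_12_5_ok) (L (nat_lit 428) ln12_16_6 ln12_16_6_ok))))) (B (M (nat_lit 463) (B (M (nat_lit 492) (B (L (nat_lit 491) ln15_14_1 ln15_14_1_ok) (L (nat_lit 365) ln13_11_5 ln13_11_5_ok))) (M (nat_lit 428) (B (L (nat_lit 464) ln16_14_3 ln16_14_3_ok) (L (nat_lit 427) ln15_14_3 ln15_14_3_ok))))) (B (M (nat_lit 428) (B (M (nat_lit 427) (B (L (nat_lit 463) ln15_14_3 ln15_14_3_ok) (L (nat_lit 426) ln10_13_0 ln10_13_0_ok))) (M (nat_lit 493) (B (M (nat_lit 525) (B (L (nat_lit 557) ln13_17_7 ln13_17_7_ok) (L (nat_lit 396) ln13_16_7 ln13_16_7_ok))) (M (nat_lit 366) (B (L (nat_lit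 398) ln13_15_6 ln13_15_6_ok) (M (nat_lit 365) (B (L (nat_lit 334) ln13_14_6 ln13_14_6_ok) (L (nat_lit 333) ln13_10_5 ln13_10_5_ok))))))))) (M (nat_lit 463) (B (M (nat_lit 428) (B (L (nat_lit 464) ln16_14_3 ln16_14_3_ok) (L (nat_lit 427) ln15_14_3 ln15_14_3_ok))) (B (M (nat_lit 492) (B (L (nat_lit 491) ln15_14_1 ln15_14_1_ok) (M (nat_lit 428) (B (L (nat_lit 524) ln12_16_6 ln12_16_6_ok) (L (nat_lit 427) ln15_14_3 ln15_14_3_ok))))) (M (nat_lit 492) (B (L (nat_lit 491) ln15_14_1 ln15_14_1_ok) (M (nat_lit 524) (B (L (nat_lit 556) ln12_17_6 ln12_17_6_ok) (L (nat_lit 493) ln13_12_5 ln13_12_5_ok))))))))))))) (B (M (nat_lit 428) (B (M (nat_lit 427) (B (L (nat_lit 426) ln10_13_0 ln10_13_0_ok) (M (nat_lit 463) (B (L (nat_lit 464) ln16_14_3 ln16_14_3_ok) (L (nat_lit 460) ln15_14_3 ln15_14_3_ok))))) (B (M (nat_lit 460) (B (M (nat_lit 427) (B (L (nat_lit 463) ln15_14_3 ln15_14_3_ok) (L (nat_lit 426) ln10_13_0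 ln10_13_0_ok))) (M (nat_lit 365) (B (L (nat_lit 494) ln13_11_4 ln13_11_4_ok) (L (nat_lit 333) ln13_10_5 ln13_10_5_ok))))) (B (M (nat_lit 365) (B (L (nat_lit 494) ln13_11_4 ln13_11_4_ok) (M (nat_lit 333) (B (L (nat_lit 460) ln13_10_5 ln13_10_5_ok) (M (nat_lit 334) (B (L (nat_lit 366) ln13_14_6 ln13_14_6_ok) (L (nat_lit 302) ln13_13_6 ln13_13_6_ok))))))) (M (nat_lit 398) (B (M (nat_lit 365) (B (L (nat_lit 494) ln13_11_4 ln13_11_4_ok) (M (nat_lit 366) (B (L (nat_lit 493) ln13_15_6 ln13_15_6_ok) (L (nat_lit 334) ln13_14_6 ln13_14_6_ok))))) (M (nat_lit 427) (B (L (nat_lit 426) ln10_13_0 ln10_13_0_ok) (M (nat_lit 399) (B (L (nat_lit 400) ln16_12_1 ln16_12_1_ok) (L (nat_lit 396) ln15_12_1 ln15_12_1_ok))))))))))) (B (M (nat_lit 463) (B (M (nat_lit 464) (B (L (nat_lit 428) ln16_14_3 ln16_14_3_ok) (M (nat_lit 493) (B (L (nat_lit 492) ln16_14_1 ln16_14_1_ok) (M (nat_lit 494) (B (L (nat_lit 465) ln17_14_1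 ln17_14_1_ok) (L (nat_lit 365) ln13_11_4 ln13_11_4_ok))))))) (B (M (nat_lit 464) (B (L (nat_lit 428) ln16_14_3 ln16_14_3_ok) (M (nat_lit 497) (B (L (nat_lit 496) ln13_14_0 ln13_14_0_ok) (M (nat_lit 433) (B (L (nat_lit 432) ln13_14_2 ln13_14_2_ok) (M (nat_lit 465) (B (L (nat_lit 498) ln14_14_0_c10 ln14_14_0_c10_ok) (L (nat_lit 434) ln14_14_2 ln14_14_2_ok))))))))) (B (M (nat_lit 493) (B (M (nat_lit 492) (B (L (nat_lit 524) ln13_12_5 ln13_12_5_ok) (L (nat_lit 464) ln16_14_1 ln16_14_1_ok))) (M (nat_lit 366) (B (L (nat_lit 398) ln13_15_6 ln13_15_6_ok) (M (nat_lit 365) (B (L (nat_lit 494) ln13_11_4 ln13_11_4_ok) (L (nat_lit 334) ln13_14_6 ln13_14_6_ok))))))) (M (nat_lit 366) (B (M (nat_lit 365) (B (L (nat_lit 494) ln13_11_4 ln13_11_4_ok) (L (nat_lit 334) ln13_14_6 ln13_14_6_ok))) (B (M (nat_lit 398) (B (L (nat_lit 493) ln13_15_6 ln13_15_6_ok) (M (nat_lit 334) (B (L (nat_lit 365) ln13_14_6 ln13_14_6_ok)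 (L (nat_lit 302) ln14_9_5 ln14_9_5_ok))))) (M (nat_lit 493) (B (L (nat_lit 398) ln13_15_6 ln13_15_6_ok) (M (nat_lit 492) (B (L (nat_lit 524) ln13_12_5 ln13_12_5_ok) (M (nat_lit 491) (B (L (nat_lit 494) ln11_15_2 ln11_15_2_ok) (L (nat_lit 490) ln10_15_2 ln10_15_2_ok)))))))))))))) (B (M (nat_lit 365) (B (L (nat_lit 494) ln13_11_4 ln13_11_4_ok) (M (nat_lit 460) (B (L (nat_lit 492) ln13_11_5 ln13_11_5_ok) (M (nat_lit 428) (B (L (nat_lit 333) ln13_10_5 ln13_10_5_ok) (M (nat_lit 463) (B (L (nat_lit 464) ln16_14_3 ln16_14_3_ok) (L (nat_lit 427) ln15_14_3 ln15_14_3_ok))))))))) (M (nat_lit 463) (B (M (nat_lit 428) (B (L (nat_lit 464) ln16_14_3 ln16_14_3_ok) (M (nat_lit 427) (B (L (nat_lit 460) ln15_14_3 ln15_14_3_ok) (L (nat_lit 426) ln10_13_0 ln10_13_0_ok))))) (B (M (nat_lit 460) (B (M (nat_lit 492) (B (L (nat_lit 491) ln15_14_1 ln15_14_1_ok) (M (nat_lit 428) (B (L (nat_lit 524) ln12_16_6 ln12_16_6_ok)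 (L (nat_lit 427) ln15_14_3 ln15_14_3_ok))))) (B (M (nat_lit 459) (B (M (nat_lit 495) (B (L (nat_lit 496) ln12_14_0 ln12_14_0_ok) (L (nat_lit 494) ln11_14_0 ln11_14_0_ok))) (M (nat_lit 427) (B (L (nat_lit 428) ln15_14_3 ln15_14_3_ok) (L (nat_lit 426) ln14_14_3 ln14_14_3_ok))))) (M (nat_lit 459) (B (M (nat_lit 495) (B (L (nat_lit 496) ln12_14_0 ln12_14_0_ok) (L (nat_lit 494) ln11_14_0 ln11_14_0_ok))) (M (nat_lit 491) (B (L (nat_lit 492) ln15_14_1 ln15_14_1_ok) (L (nat_lit 490) ln14_14_1 ln14_14_1_ok)))))))) (B (M (nat_lit 464) (B (L (nat_lit 428) ln16_14_3 ln16_14_3_ok) (M (nat_lit 465) (B (M (nat_lit 497) (B (L (nat_lit 498) ln14_14_0_c10 ln14_14_0_c10_ok) (L (nat_lit 496) ln13_14_0 ln13_14_0_ok))) (M (nat_lit 493) (B (L (nat_lit 494) ln17_14_1 ln17_14_1_ok) (L (nat_lit 492) ln16_14_1 ln16_14_1_ok))))))) (M (nat_lit 460) (B (M (nat_lit 492) (B (L (nat_lit 491) ln15_14_1 ln15_14_1_ok) (M (nat_lit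 524) (B (L (nat_lit 556) ln12_17_6 ln12_17_6_ok) (L (nat_lit 493) ln13_12_5 ln13_12_5_ok))))) (B (M (nat_lit 492) (B (L (nat_lit 491) ln15_14_1 ln15_14_1_ok) (M (nat_lit 493) (B (L (nat_lit 524) ln13_12_5 ln13_12_5_ok) (L (nat_lit 464) ln16_14_1 ln16_14_1_ok))))) (B (M (nat_lit 464) (B (M (nat_lit 496) (B (L (nat_lit 497) ln13_14_0 ln13_14_0_ok) (L (nat_lit 495) ln12_14_0 ln12_14_0_ok))) (M (nat_lit 492) (B (L (nat_lit 493) ln16_14_1 ln16_14_1_ok) (L (nat_lit 491) ln15_14_1 ln15_14_1_ok))))) (M (nat_lit 464) (B (M (nat_lit 496) (B (L (nat_lit 497) ln13_14_0 ln13_14_0_ok) (L (nat_lit 495) ln12_14_0 ln12_14_0_ok))) (M (nat_lit 432) (B (L (nat_lit 433) ln13_14_2 ln13_14_2_ok) (L (nat_lit 431) ln12_14_2 ln12_14_2_ok)))))))))))))))))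
noncomputable def c10_d14 : Cert := (B (M (nat_lit 462) (B (M (nat_lit 365) (B (L (nat_lit 494) ln13_11_4 ln13_11_4_ok) (M (nat_lit 460) (B (L (nat_lit 492) ln13_11_5 ln13_11_5_ok) (M (nat_lit 428) (B (L (nat_lit 333) ln13_10_5 ln13_10_5_ok) (M (nat_lit 463) (B (L (nat_lit 427) ln15_14_3 ln15_14_3_ok) (L (nat_lit 464) ln16_14_3 ln16_14_3_ok))))))))) (B (M (nat_lit 365) (B (L (nat_lit 494) ln13_11_4 ln13_11_4_ok) (M (nat_lit 333) (B (M (nat_lit 332) (B (L (nat_lit 364) ln13_14_7 ln13_14_7_ok) (L (nat_lit 300) ln13_13_7 ln13_13_7_ok))) (M (nat_lit 301) (B (M (nat_lit 428) (B (L (nat_lit 460) ln13_10_5 ln13_10_5_ok) (L (nat_lit 396) ln13_9_5 ln13_9_5_ok))) (M (nat_lit 302) (B (L (nat_lit 334) ln13_13_6 ln13_13_6_ok) (L (nat_lit 270) ln13_12_6 ln13_12_6_ok))))))))) (B (M (nat_lit 463) (B (M (nat_lit 428) (B (L (nat_lit 464) ln16_14_3 ln16_14_3_ok) (M (nat_lit 427) (B (L (nat_lit 460) ln15_14_3 ln15_14_3_ok)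 (L (nat_lit 426) ln10_13_0 ln10_13_0_ok))))) (B (M (nat_lit 464) (B (L (nat_lit 428) ln16_14_3 ln16_14_3_ok) (M (nat_lit 465) (B (M (nat_lit 497) (B (L (nat_lit 496) ln13_14_0 ln13_14_0_ok) (L (nat_lit 498) ln14_14_0_c10 ln14_14_0_c10_ok))) (M (nat_lit 433) (B (L (nat_lit 432) ln13_14_2 ln13_14_2_ok) (L (nat_lit 434) ln14_14_2 ln14_14_2_ok))))))) (B (M (nat_lit 493) (B (M (nat_lit 492) (B (L (nat_lit 524) ln13_12_5 ln13_12_5_ok) (M (nat_lit 491) (B (L (nat_lit 490) ln10_15_2 ln10_15_2_ok) (L (nat_lit 460) ln15_14_1 ln15_14_1_ok))))) (B (M (nat_lit 428) (B (M (nat_lit 396) (B (L (nat_lit 525) ln13_16_7 ln13_16_7_ok) (L (nat_lit 364) ln13_15_7 ln13_15_7_ok))) (M (nat_lit 427) (B (L (nat_lit 460) ln15_14_3 ln15_14_3_ok) (L (nat_lit 426) ln10_13_0 ln10_13_0_ok))))) (M (nat_lit 525) (B (M (nat_lit 524) (B (L (nat_lit 556) ln13_13_5 ln13_13_5_ok) (L (nat_lit 492) ln13_12_5 ln13_12_5_ok))) (M (nat_lit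 396) (B (L (nat_lit 428) ln13_16_7 ln13_16_7_ok) (L (nat_lit 364) ln13_15_7 ln13_15_7_ok)))))))) (M (nat_lit 492) (B (M (nat_lit 493) (B (L (nat_lit 524) ln13_12_5 ln13_12_5_ok) (L (nat_lit 464) ln16_14_1 ln16_14_1_ok))) (M (nat_lit 460) (B (L (nat_lit 491) ln15_14_1 ln15_14_1_ok) (L (nat_lit 365) ln13_11_5 ln13_11_5_ok))))))))) (B (M (nat_lit 493) (B (M (nat_lit 364) (B (L (nat_lit 396) ln13_15_7 ln13_15_7_ok) (M (nat_lit 365) (B (L (nat_lit 494) ln13_11_4 ln13_11_4_ok) (L (nat_lit 332) ln13_14_7 ln13_14_7_ok))))) (B (M (nat_lit 525) (B (M (nat_lit 524) (B (L (nat_lit 556) ln13_13_5 ln13_13_5_ok) (L (nat_lit 492) ln13_12_5 ln13_12_5_ok))) (M (nat_lit 396) (B (L (nat_lit 428) ln13_16_7 ln13_16_7_ok) (L (nat_lit 364) ln13_15_7 ln13_15_7_ok))))) (M (nat_lit 494) (B (L (nat_lit 365) ln13_11_4 ln13_11_4_ok) (M (nat_lit 492) (B (L (nat_lit 524) ln13_12_5 ln13_12_5_ok) (M (nat_lit 491) (B (L (nat_lit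 490) ln10_15_2 ln10_15_2_ok) (L (nat_lit 463) ln11_15_2 ln11_15_2_ok)))))))))) (B (M (nat_lit 365) (B (L (nat_lit 494) ln13_11_4 ln13_11_4_ok) (M (nat_lit 493) (B (M (nat_lit 492) (B (L (nat_lit 524) ln13_12_5 ln13_12_5_ok) (L (nat_lit 460) ln13_11_5 ln13_11_5_ok))) (M (nat_lit 364) (B (L (nat_lit 396) ln13_15_7 ln13_15_7_ok) (L (nat_lit 332) ln13_14_7 ln13_14_7_ok))))))) (M (nat_lit 463) (B (M (nat_lit 428) (B (L (nat_lit 464) ln16_14_3 ln16_14_3_ok) (M (nat_lit 427) (B (L (nat_lit 460) ln15_14_3 ln15_14_3_ok) (L (nat_lit 426) ln10_13_0 ln10_13_0_ok))))) (B (M (nat_lit 464) (B (L (nat_lit 428) ln16_14_3 ln16_14_3_ok) (M (nat_lit 465) (B (M (nat_lit 497) (B (L (nat_lit 496) ln13_14_0 ln13_14_0_ok) (L (nat_lit 498) ln14_14_0_c10 ln14_14_0_c10_ok))) (M (nat_lit 433) (B (L (nat_lit 432) ln13_14_2 ln13_14_2_ok) (L (nat_lit 434) ln14_14_2 ln14_14_2_ok))))))) (B (M (nat_lit 493) (B (M (nat_lit 492)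 (B (L (nat_lit 524) ln13_12_5 ln13_12_5_ok) (M (nat_lit 491) (B (L (nat_lit 490) ln10_15_2 ln10_15_2_ok) (L (nat_lit 494) ln11_15_2 ln11_15_2_ok))))) (M (nat_lit 428) (B (M (nat_lit 396) (B (L (nat_lit 525) ln13_16_7 ln13_16_7_ok) (L (nat_lit 364) ln13_15_7 ln13_15_7_ok))) (M (nat_lit 427) (B (L (nat_lit 460) ln15_14_3 ln15_14_3_ok) (L (nat_lit 426) ln10_13_0 ln10_13_0_ok))))))) (M (nat_lit 460) (B (M (nat_lit 492) (B (L (nat_lit 491) ln15_14_1 ln15_14_1_ok) (M (nat_lit 524) (B (L (nat_lit 556) ln12_17_6 ln12_17_6_ok) (L (nat_lit 493) ln13_12_5 ln13_12_5_ok))))) (B (M (nat_lit 492) (B (L (nat_lit 491) ln15_14_1 ln15_14_1_ok) (M (nat_lit 493) (B (L (nat_lit 524) ln13_12_5 ln13_12_5_ok) (L (nat_lit 464) ln16_14_1 ln16_14_1_ok))))) (B (M (nat_lit 464) (B (M (nat_lit 492) (B (L (nat_lit 491) ln15_14_1 ln15_14_1_ok) (L (nat_lit 493) ln16_14_1 ln16_14_1_ok))) (M (nat_lit 432) (B (L (nat_lit 431) ln12_14_2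 ln12_14_2_ok) (L (nat_lit 433) ln13_14_2 ln13_14_2_ok))))) (M (nat_lit 432) (B (L (nat_lit 431) ln12_14_2 ln12_14_2_ok) (M (nat_lit 464) (B (L (nat_lit 433) ln13_14_2 ln13_14_2_ok) (M (nat_lit 496) (B (L (nat_lit 495) ln12_14_0 ln12_14_0_ok) (L (nat_lit 497) ln13_14_0 ln13_14_0_ok))))))))))))))))))))) (B (K (nat_lit 5954262830815946494763249298768603811203561774969104571805089223376689777636098861358550851719243481454542035207245364041705138952691777536) (nat_lit 25573364124188608360517795646441251853358162402824153890646477751110568515971696711575342613843985322453656299797438808586539441115828738112937263104) (nat_lit 25573364124188608360517795646441251853358162402824153890646477751110568515971696711575342613843985322453656299797438808586539441115828738112937263104) c10_s450) (B (K (nat_lit 5954262830815946494763249298768603811203561774969104571805089223376689777636098861358550851719243481454542035207245364041705138952691777536)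 (nat_lit 54918381319404923909115250346583018322350893370459679528534775271695593513303341499557500009351684237515074637347497300820963479428595932955333292912042573824) (nat_lit 54918381319404923909115250346583018322350893370459679528534775271695593513303341499557500009351684237515074637347497300820963479428595932955333292912042573824) c10_s501) (M (nat_lit 365) (B (M (nat_lit 334) (B (L (nat_lit 366) ln13_14_6 ln13_14_6_ok) (M (nat_lit 333) (B (L (nat_lit 302) ln13_13_6 ln13_13_6_ok) (M (nat_lit 332) (B (L (nat_lit 364) ln13_14_7 ln13_14_7_ok) (L (nat_lit 300) ln13_13_7 ln13_13_7_ok))))))) (B (M (nat_lit 333) (B (M (nat_lit 460) (B (L (nat_lit 492) ln13_11_5 ln13_11_5_ok) (L (nat_lit 428) ln13_10_5 ln13_10_5_ok))) (M (nat_lit 332) (B (L (nat_lit 364) ln13_14_7 ln13_14_7_ok) (L (nat_lit 300) ln13_13_7 ln13_13_7_ok))))) (B (M (nat_lit 333) (B (M (nat_lit 460) (B (L (nat_lit 492) ln13_11_5 ln13_11_5_ok)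 (L (nat_lit 428) ln13_10_5 ln13_10_5_ok))) (M (nat_lit 334) (B (L (nat_lit 366) ln13_14_6 ln13_14_6_ok) (L (nat_lit 302) ln13_13_6 ln13_13_6_ok))))) (M (nat_lit 493) (B (M (nat_lit 492) (B (L (nat_lit 524) ln13_12_5 ln13_12_5_ok) (L (nat_lit 460) ln13_11_5 ln13_11_5_ok))) (M (nat_lit 366) (B (L (nat_lit 398) ln13_15_6 ln13_15_6_ok) (L (nat_lit 334) ln13_14_6 ln13_14_6_ok))))))))))))
noncomputable def c10_d15 : Cert := (B (M (nat_lit 463) (B (M (nat_lit 428) (B (L (nat_lit 464) ln16_14_3 ln16_14_3_ok) (M (nat_lit 427) (B (L (nat_lit 426) ln10_13_0 ln10_13_0_ok) (L (nat_lit 460) ln15_14_3 ln15_14_3_ok))))) (B (M (nat_lit 494) (B (M (nat_lit 526) (B (L (nat_lit 493) ln13_12_4 ln13_12_4_ok) (L (nat_lit 558) ln14_17_7 ln14_17_7_ok))) (B (M (nat_lit 431) (B (M (nat_lit 432) (B (L (nat_lit 460) ln12_14_2 ln12_14_2_ok) (M (nat_lit 433) (B (L (nat_lit 434) ln18_13_1_c10 ln18_13_1_c10_ok) (L (nat_lit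 464) ln13_14_2 ln13_14_2_ok))))) (M (nat_lit 526) (B (L (nat_lit 558) ln14_17_6_c10 ln14_17_6_c10_ok) (M (nat_lit 399) (B (L (nat_lit 367) ln15_11_5 ln15_11_5_ok) (L (nat_lit 495) ln15_12_5 ln15_12_5_ok))))))) (M (nat_lit 464) (B (M (nat_lit 465) (B (L (nat_lit 493) ln17_14_1 ln17_14_1_ok) (M (nat_lit 497) (B (L (nat_lit 498) ln14_14_0_c10 ln14_14_0_c10_ok) (L (nat_lit 496) ln13_14_0 ln13_14_0_ok))))) (B (M (nat_lit 460) (B (M (nat_lit 432) (B (L (nat_lit 433) ln13_14_2 ln13_14_2_ok) (L (nat_lit 431) ln12_14_2 ln12_14_2_ok))) (M (nat_lit 496) (B (L (nat_lit 497) ln13_14_0 ln13_14_0_ok) (L (nat_lit 495) ln12_14_0 ln12_14_0_ok))))) (M (nat_lit 433) (B (L (nat_lit 432) ln13_14_2 ln13_14_2_ok) (M (nat_lit 465) (B (L (nat_lit 434) ln14_14_2 ln14_14_2_ok) (L (nat_lit 493) ln17_14_1 ln17_14_1_ok))))))))))) (B (M (nat_lit 494) (B (M (nat_lit 526) (B (L (nat_lit 493) ln13_12_4 ln13_12_4_ok) (L (nat_lit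 558) ln14_17_7 ln14_17_7_ok))) (M (nat_lit 460) (B (M (nat_lit 495) (B (L (nat_lit 496) ln12_14_0 ln12_14_0_ok) (L (nat_lit 459) ln11_14_0 ln11_14_0_ok))) (M (nat_lit 399) (B (M (nat_lit 431) (B (L (nat_lit 367) ln15_11_5 ln15_11_5_ok) (L (nat_lit 432) ln12_14_2 ln12_14_2_ok))) (M (nat_lit 428) (B (L (nat_lit 400) ln16_12_1 ln16_12_1_ok) (L (nat_lit 427) ln15_14_3 ln15_14_3_ok))))))))) (M (nat_lit 464) (B (L (nat_lit 428) ln16_14_3 ln16_14_3_ok) (M (nat_lit 465) (B (M (nat_lit 433) (B (L (nat_lit 434) ln14_14_2 ln14_14_2_ok) (L (nat_lit 432) ln13_14_2 ln13_14_2_ok))) (M (nat_lit 497) (B (L (nat_lit 498) ln14_14_0_c10 ln14_14_0_c10_ok) (L (nat_lit 496) ln13_14_0 ln13_14_0_ok))))))))))) (M (nat_lit 463) (B (M (nat_lit 428) (B (L (nat_lit 464) ln16_14_3 ln16_14_3_ok) (M (nat_lit 427) (B (L (nat_lit 426) ln10_13_0 ln10_13_0_ok) (L (nat_lit 460) ln15_14_3 ln15_14_3_ok))))) (B (M (nat_lit 431) (B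 (M (nat_lit 432) (B (L (nat_lit 460) ln12_14_2 ln12_14_2_ok) (M (nat_lit 433) (B (L (nat_lit 434) ln18_13_1_c10 ln18_13_1_c10_ok) (L (nat_lit 464) ln13_14_2 ln13_14_2_ok))))) (B (M (nat_lit 399) (B (M (nat_lit 432) (B (L (nat_lit 460) ln12_14_2 ln12_14_2_ok) (M (nat_lit 433) (B (L (nat_lit 400) ln13_12_0 ln13_12_0_ok) (L (nat_lit 464) ln13_14_2 ln13_14_2_ok))))) (M (nat_lit 367) (B (L (nat_lit 494) ln15_11_5 ln15_11_5_ok) (M (nat_lit 366) (B (L (nat_lit 334) ln15_14_7 ln15_14_7_ok) (L (nat_lit 495) ln15_15_7 ln15_15_7_ok))))))) (B (M (nat_lit 399) (B (M (nat_lit 495) (B (L (nat_lit 366) ln15_15_7 ln15_15_7_ok) (M (nat_lit 496) (B (L (nat_lit 528) ln15_12_4 ln15_12_4_ok) (L (nat_lit 460) ln12_14_0 ln12_14_0_ok))))) (B (M (nat_lit 368) (B (M (nat_lit 367) (B (L (nat_lit 336) ln15_14_6 ln15_14_6_ok) (L (nat_lit 494) ln15_11_5 ln15_11_5_ok))) (M (nat_lit 400) (B (L (nat_lit 369) ln13_12_2 ln13_12_2_ok)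 (L (nat_lit 495) ln15_15_6 ln15_15_6_ok))))) (M (nat_lit 367) (B (L (nat_lit 494) ln15_11_5 ln15_11_5_ok) (M (nat_lit 368) (B (L (nat_lit 336) ln15_14_6 ln15_14_6_ok) (M (nat_lit 369) (B (L (nat_lit 370) ln18_11_1 ln18_11_1_ok) (L (nat_lit 366) ln17_11_1 ln17_11_1_ok)))))))))) (M (nat_lit 399) (B (M (nat_lit 367) (B (L (nat_lit 494) ln15_11_5 ln15_11_5_ok) (M (nat_lit 366) (B (L (nat_lit 334) ln15_14_7 ln15_14_7_ok) (L (nat_lit 495) ln15_15_7 ln15_15_7_ok))))) (B (M (nat_lit 368) (B (M (nat_lit 367) (B (L (nat_lit 336) ln15_14_6 ln15_14_6_ok) (L (nat_lit 494) ln15_11_5 ln15_11_5_ok))) (M (nat_lit 400) (B (L (nat_lit 369) ln13_12_2 ln13_12_2_ok) (L (nat_lit 495) ln15_15_6 ln15_15_6_ok))))) (B (M (nat_lit 495) (B (L (nat_lit 366) ln15_15_7 ln15_15_7_ok) (M (nat_lit 496) (B (L (nat_lit 528) ln15_12_4 ln15_12_4_ok) (M (nat_lit 497) (B (L (nat_lit 464) ln13_14_0 ln13_14_0_ok) (L (nat_lit 498) ln18_15_3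 ln18_15_3_ok))))))) (M (nat_lit 367) (B (L (nat_lit 494) ln15_11_5 ln15_11_5_ok) (M (nat_lit 368) (B (L (nat_lit 336) ln15_14_6 ln15_14_6_ok) (M (nat_lit 369) (B (L (nat_lit 370) ln18_11_1 ln18_11_1_ok) (L (nat_lit 366) ln17_11_1 ln17_11_1_ok))))))))))))))) (B (M (nat_lit 399) (B (M (nat_lit 428) (B (L (nat_lit 400) ln16_12_1 ln16_12_1_ok) (M (nat_lit 427) (B (L (nat_lit 426) ln10_13_0 ln10_13_0_ok) (L (nat_lit 460) ln15_14_3 ln15_14_3_ok))))) (B (M (nat_lit 495) (B (M (nat_lit 431) (B (L (nat_lit 366) ln15_15_7 ln15_15_7_ok) (M (nat_lit 494) (B (L (nat_lit 367) ln15_11_5 ln15_11_5_ok) (L (nat_lit 526) ln15_12_5 ln15_12_5_ok))))) (B (M (nat_lit 431) (B (L (nat_lit 366) ln15_15_7 ln15_15_7_ok) (M (nat_lit 496) (B (L (nat_lit 528) ln15_12_4 ln15_12_4_ok) (L (nat_lit 460) ln12_14_0 ln12_14_0_ok))))) (M (nat_lit 496) (B (L (nat_lit 460) ln12_14_0 ln12_14_0_ok) (M (nat_lit 497) (B (L (nat_lit 498)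 ln18_15_3 ln18_15_3_ok) (L (nat_lit 494) ln17_15_3 ln17_15_3_ok)))))))) (M (nat_lit 431) (B (M (nat_lit 400) (B (L (nat_lit 428) ln16_12_1 ln16_12_1_ok) (M (nat_lit 495) (B (L (nat_lit 368) ln15_15_6 ln15_15_6_ok) (L (nat_lit 366) ln15_15_7 ln15_15_7_ok))))) (B (M (nat_lit 495) (B (L (nat_lit 366) ln15_15_7 ln15_15_7_ok) (M (nat_lit 494) (B (L (nat_lit 367) ln15_11_5 ln15_11_5_ok) (L (nat_lit 526) ln15_12_5 ln15_12_5_ok))))) (B (M (nat_lit 400) (B (L (nat_lit 428) ln16_12_1 ln16_12_1_ok) (M (nat_lit 368) (B (L (nat_lit 369) ln13_12_2 ln13_12_2_ok) (L (nat_lit 495) ln15_15_6 ln15_15_6_ok))))) (M (nat_lit 368) (B (M (nat_lit 367) (B (L (nat_lit 336) ln15_14_6 ln15_14_6_ok) (L (nat_lit 494) ln15_11_5 ln15_11_5_ok))) (M (nat_lit 400) (B (L (nat_lit 369) ln13_12_2 ln13_12_2_ok) (L (nat_lit 428) ln16_12_1 ln16_12_1_ok)))))))))))) (M (nat_lit 464) (B (L (nat_lit 428) ln16_14_3 ln16_14_3_ok) (M (nat_lit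 465) (B (M (nat_lit 433) (B (L (nat_lit 434) ln14_14_2 ln14_14_2_ok) (L (nat_lit 432) ln13_14_2 ln13_14_2_ok))) (M (nat_lit 497) (B (L (nat_lit 498) ln14_14_0_c10 ln14_14_0_c10_ok) (L (nat_lit 496) ln13_14_0 ln13_14_0_ok))))))))))))
noncomputable def c10_d16 : Cert := (B (M (nat_lit 400) (B (M (nat_lit 369) (B (L (nat_lit 368) ln13_12_2 ln13_12_2_ok) (M (nat_lit 433) (B (L (nat_lit 432) ln13_12_0 ln13_12_0_ok) (M (nat_lit 401) (B (L (nat_lit 370) ln14_12_2 ln14_12_2_ok) (L (nat_lit 434) ln14_12_0 ln14_12_0_ok))))))) (B (M (nat_lit 368) (B (L (nat_lit 369) ln13_12_2 ln13_12_2_ok) (M (nat_lit 463) (B (M (nat_lit 431) (B (L (nat_lit 495) ln15_15_6 ln15_15_6_ok) (M (nat_lit 432) (B (L (nat_lit 336) ln16_10_5 ln16_10_5_ok) (L (nat_lit 433) ln13_12_0 ln13_12_0_ok))))) (B (M (nat_lit 495) (B (L (nat_lit 431) ln15_15_6 ln15_15_6_ok) (M (nat_lit 432) (B (L (nat_lit 464) ln16_11_5_c10 ln16_11_5_c10_ok)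 (L (nat_lit 433) ln13_12_0 ln13_12_0_ok))))) (B (M (nat_lit 431) (B (L (nat_lit 495) ln15_15_6 ln15_15_6_ok) (M (nat_lit 336) (B (L (nat_lit 304) ln16_9_5 ln16_9_5_ok) (L (nat_lit 432) ln16_10_5 ln16_10_5_ok))))) (B (M (nat_lit 431) (B (L (nat_lit 495) ln15_15_6 ln15_15_6_ok) (M (nat_lit 336) (B (L (nat_lit 304) ln16_9_5 ln16_9_5_ok) (L (nat_lit 367) ln15_14_6 ln15_14_6_ok))))) (B (M (nat_lit 432) (B (L (nat_lit 433) ln13_12_0 ln13_12_0_ok) (M (nat_lit 464) (B (L (nat_lit 495) ln16_11_5_c10 ln16_11_5_c10_ok) (M (nat_lit 367) (B (L (nat_lit 335) ln16_14_7 ln16_14_7_ok) (L (nat_lit 496) ln16_15_7 ln16_15_7_ok))))))) (M (nat_lit 431) (B (M (nat_lit 336) (B (L (nat_lit 304) ln16_9_5 ln16_9_5_ok) (L (nat_lit 367) ln15_14_6 ln15_14_6_ok))) (B (M (nat_lit 432) (B (L (nat_lit 336) ln16_10_5 ln16_10_5_ok) (L (nat_lit 433) ln13_12_0 ln13_12_0_ok))) (M (nat_lit 366) (B (L (nat_lit 493) ln13_15_6 ln13_15_6_ok)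 (M (nat_lit 334) (B (L (nat_lit 302) ln14_9_4 ln14_9_4_ok) (L (nat_lit 367) ln15_14_7 ln15_14_7_ok)))))))))))))))) (B (M (nat_lit 401) (B (M (nat_lit 433) (B (L (nat_lit 434) ln14_12_0 ln14_12_0_ok) (L (nat_lit 432) ln13_12_0 ln13_12_0_ok))) (B (M (nat_lit 402) (B (M (nat_lit 366) (B (L (nat_lit 367) ln18_12_3 ln18_12_3_ok) (L (nat_lit 493) ln13_15_6 ln13_15_6_ok))) (M (nat_lit 403) (B (M (nat_lit 371) (B (L (nat_lit 372) ln16_12_2_c10 ln16_12_2_c10_ok) (L (nat_lit 370) ln15_12_2 ln15_12_2_ok))) (M (nat_lit 432) (B (L (nat_lit 431) ln19_12_1_c10 ln19_12_1_c10_ok) (L (nat_lit 433) ln13_12_0 ln13_12_0_ok))))))) (M (nat_lit 402) (B (M (nat_lit 366) (B (L (nat_lit 367) ln18_12_3 ln18_12_3_ok) (L (nat_lit 493) ln13_15_6 ln13_15_6_ok))) (M (nat_lit 403) (B (M (nat_lit 371) (B (L (nat_lit 372) ln16_12_2_c10 ln16_12_2_c10_ok) (L (nat_lit 370) ln15_12_2 ln15_12_2_ok))) (M (nat_lit 435) (B (L (nat_lit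 436) ln16_12_0_c10 ln16_12_0_c10_ok) (L (nat_lit 434) ln15_12_0 ln15_12_0_ok)))))))))) (B (M (nat_lit 401) (B (M (nat_lit 369) (B (L (nat_lit 370) ln14_12_2 ln14_12_2_ok) (L (nat_lit 368) ln13_12_2 ln13_12_2_ok))) (B (M (nat_lit 431) (B (M (nat_lit 366) (B (L (nat_lit 493) ln13_15_6 ln13_15_6_ok) (M (nat_lit 334) (B (L (nat_lit 302) ln14_9_4 ln14_9_4_ok) (M (nat_lit 367) (B (L (nat_lit 463) ln15_14_7 ln15_14_7_ok) (L (nat_lit 402) ln18_12_3 ln18_12_3_ok))))))) (B (M (nat_lit 366) (B (L (nat_lit 493) ln13_15_6 ln13_15_6_ok) (M (nat_lit 367) (B (L (nat_lit 402) ln18_12_3 ln18_12_3_ok) (M (nat_lit 463) (B (L (nat_lit 334) ln15_14_7 ln15_14_7_ok) (L (nat_lit 495) ln15_15_7 ln15_15_7_ok))))))) (B (M (nat_lit 368) (B (L (nat_lit 369) ln13_12_2 ln13_12_2_ok) (M (nat_lit 463) (B (L (nat_lit 495) ln15_15_6 ln15_15_6_ok) (M (nat_lit 336) (B (L (nat_lit 304) ln16_9_5 ln16_9_5_ok) (L (nat_lit 432) ln16_10_5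 ln16_10_5_ok))))))) (M (nat_lit 402) (B (M (nat_lit 366) (B (L (nat_lit 367) ln18_12_3 ln18_12_3_ok) (L (nat_lit 493) ln13_15_6 ln13_15_6_ok))) (M (nat_lit 403) (B (L (nat_lit 432) ln19_12_1_c10 ln19_12_1_c10_ok) (M (nat_lit 435) (B (L (nat_lit 436) ln16_12_0_c10 ln16_12_0_c10_ok) (L (nat_lit 434) ln15_12_0 ln15_12_0_ok))))))))))) (M (nat_lit 402) (B (M (nat_lit 366) (B (L (nat_lit 367) ln18_12_3 ln18_12_3_ok) (L (nat_lit 493) ln13_15_6 ln13_15_6_ok))) (M (nat_lit 403) (B (M (nat_lit 371) (B (L (nat_lit 372) ln16_12_2_c10 ln16_12_2_c10_ok) (L (nat_lit 370) ln15_12_2 ln15_12_2_ok))) (M (nat_lit 435) (B (L (nat_lit 436) ln16_12_0_c10 ln16_12_0_c10_ok) (L (nat_lit 434) ln15_12_0 ln15_12_0_ok)))))))))) (M (nat_lit 401) (B (M (nat_lit 369) (B (L (nat_lit 370) ln14_12_2 ln14_12_2_ok) (L (nat_lit 368) ln13_12_2 ln13_12_2_ok))) (M (nat_lit 402) (B (M (nat_lit 366) (B (L (nat_lit 367) ln18_12_3 ln18_12_3_ok)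 (L (nat_lit 493) ln13_15_6 ln13_15_6_ok))) (M (nat_lit 434) (B (L (nat_lit 435) ln15_12_0 ln15_12_0_ok) (L (nat_lit 433) ln14_12_0 ln14_12_0_ok)))))))))))) (M (nat_lit 368) (B (M (nat_lit 369) (B (L (nat_lit 400) ln13_12_2 ln13_12_2_ok) (M (nat_lit 367) (B (L (nat_lit 366) ln17_11_1 ln17_11_1_ok) (L (nat_lit 396) ln12_12_2 ln12_12_2_ok))))) (B (M (nat_lit 431) (B (M (nat_lit 396) (B (L (nat_lit 367) ln12_12_2 ln12_12_2_ok) (L (nat_lit 432) ln12_12_0 ln12_12_0_ok))) (B (M (nat_lit 432) (B (L (nat_lit 396) ln12_12_0 ln12_12_0_ok) (M (nat_lit 433) (B (L (nat_lit 400) ln13_12_0 ln13_12_0_ok) (L (nat_lit 434) ln18_13_3 ln18_13_3_ok))))) (B (M (nat_lit 463) (B (M (nat_lit 495) (B (L (nat_lit 400) ln15_15_6 ln15_15_6_ok) (L (nat_lit 366) ln15_15_7 ln15_15_7_ok))) (B (M (nat_lit 336) (B (L (nat_lit 367) ln15_14_6 ln15_14_6_ok) (M (nat_lit 400) (B (L (nat_lit 304) ln16_9_5 ln16_9_5_ok) (L (nat_lit 495)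 ln15_15_6 ln15_15_6_ok))))) (B (M (nat_lit 367) (B (L (nat_lit 336) ln15_14_6 ln15_14_6_ok) (M (nat_lit 366) (B (L (nat_lit 334) ln15_14_7 ln15_14_7_ok) (L (nat_lit 495) ln15_15_7 ln15_15_7_ok))))) (M (nat_lit 336) (B (L (nat_lit 367) ln15_14_6 ln15_14_6_ok) (M (nat_lit 400) (B (L (nat_lit 304) ln16_9_5 ln16_9_5_ok) (L (nat_lit 432) ln16_10_5 ln16_10_5_ok))))))))) (M (nat_lit 463) (B (M (nat_lit 367) (B (L (nat_lit 336) ln15_14_6 ln15_14_6_ok) (L (nat_lit 396) ln12_12_2 ln12_12_2_ok))) (M (nat_lit 495) (B (L (nat_lit 400) ln15_15_6 ln15_15_6_ok) (L (nat_lit 366) ln15_15_7 ln15_15_7_ok))))))))) (B (M (nat_lit 400) (B (L (nat_lit 369) ln13_12_2 ln13_12_2_ok) (M (nat_lit 432) (B (L (nat_lit 433) ln13_12_0 ln13_12_0_ok) (M (nat_lit 431) (B (L (nat_lit 396) ln12_12_0 ln12_12_0_ok) (M (nat_lit 463) (B (L (nat_lit 336) ln16_10_5 ln16_10_5_ok) (L (nat_lit 495) ln15_15_6 ln15_15_6_ok))))))))) (B (M (nat_lit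 367) (B (L (nat_lit 396) ln12_12_2 ln12_12_2_ok) (M (nat_lit 369) (B (L (nat_lit 370) ln18_11_1 ln18_11_1_ok) (L (nat_lit 366) ln17_11_1 ln17_11_1_ok))))) (M (nat_lit 369) (B (L (nat_lit 400) ln13_12_2 ln13_12_2_ok) (M (nat_lit 367) (B (L (nat_lit 370) ln18_11_1 ln18_11_1_ok) (L (nat_lit 366) ln17_11_1 ln17_11_1_ok)))))))))))
noncomputable def c10_d17 : Cert := (B (M (nat_lit 399) (B (M (nat_lit 493) (B (L (nat_lit 366) ln13_15_6 ln13_15_6_ok) (M (nat_lit 396) (B (L (nat_lit 364) ln13_15_7 ln13_15_7_ok) (M (nat_lit 400) (B (M (nat_lit 368) (B (L (nat_lit 369) ln13_12_2 ln13_12_2_ok) (L (nat_lit 367) ln12_12_2 ln12_12_2_ok))) (M (nat_lit 432) (B (L (nat_lit 433) ln13_12_0 ln13_12_0_ok) (L (nat_lit 431) ln12_12_0 ln12_12_0_ok))))))))) (B (M (nat_lit 431) (B (M (nat_lit 432) (B (L (nat_lit 396) ln12_12_0 ln12_12_0_ok) (M (nat_lit 433) (B (L (nat_lit 400) ln13_12_0 ln13_12_0_ok) (L (nat_lit 434)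 ln18_13_3 ln18_13_3_ok))))) (M (nat_lit 366) (B (L (nat_lit 493) ln13_15_6 ln13_15_6_ok) (M (nat_lit 334) (B (L (nat_lit 302) ln14_9_4 ln14_9_4_ok) (M (nat_lit 463) (B (L (nat_lit 367) ln15_14_7 ln15_14_7_ok) (L (nat_lit 495) ln15_15_7 ln15_15_7_ok))))))))) (B (M (nat_lit 493) (B (L (nat_lit 366) ln13_15_6 ln13_15_6_ok) (M (nat_lit 494) (B (L (nat_lit 526) ln13_12_4 ln13_12_4_ok) (M (nat_lit 496) (B (M (nat_lit 495) (B (L (nat_lit 460) ln16_15_3 ln16_15_3_ok) (M (nat_lit 497) (B (L (nat_lit 462) ln17_15_3 ln17_15_3_ok) (M (nat_lit 465) (B (L (nat_lit 466) ln14_15_2_c10 ln14_15_2_c10_ok) (L (nat_lit 464) ln13_15_2 ln13_15_2_ok))))))) (B (M (nat_lit 495) (B (L (nat_lit 460) ln16_15_3 ln16_15_3_ok) (M (nat_lit 497) (B (L (nat_lit 462) ln17_15_3 ln17_15_3_ok) (M (nat_lit 529) (B (L (nat_lit 530) ln14_15_0 ln14_15_0_ok) (L (nat_lit 528) ln13_15_0 ln13_15_0_ok))))))) (B (M (nat_lit 495) (B (L (nat_lit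 460) ln16_15_3 ln16_15_3_ok) (M (nat_lit 497) (B (M (nat_lit 465) (B (L (nat_lit 466) ln14_15_2_c10 ln14_15_2_c10_ok) (L (nat_lit 464) ln13_15_2 ln13_15_2_ok))) (M (nat_lit 529) (B (L (nat_lit 530) ln14_15_0 ln14_15_0_ok) (L (nat_lit 528) ln13_15_0 ln13_15_0_ok))))))) (M (nat_lit 432) (B (M (nat_lit 396) (B (L (nat_lit 364) ln13_15_7 ln13_15_7_ok) (L (nat_lit 431) ln12_12_0 ln12_12_0_ok))) (M (nat_lit 400) (B (L (nat_lit 433) ln13_12_0 ln13_12_0_ok) (M (nat_lit 369) (B (L (nat_lit 368) ln13_12_2 ln13_12_2_ok) (M (nat_lit 401) (B (L (nat_lit 370) ln14_12_2 ln14_12_2_ok) (L (nat_lit 464) ln16_15_6_c10 ln16_15_6_c10_ok))))))))))))))))) (B (M (nat_lit 396) (B (M (nat_lit 364) (B (L (nat_lit 363) ln15_12_3 ln15_12_3_ok) (L (nat_lit 493) ln13_15_7 ln13_15_7_ok))) (M (nat_lit 400) (B (M (nat_lit 368) (B (L (nat_lit 369) ln13_12_2 ln13_12_2_ok) (L (nat_lit 367) ln12_12_2 ln12_12_2_ok))) (M (nat_lit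 432) (B (L (nat_lit 433) ln13_12_0 ln13_12_0_ok) (L (nat_lit 431) ln12_12_0 ln12_12_0_ok))))))) (B (M (nat_lit 396) (B (M (nat_lit 364) (B (L (nat_lit 363) ln15_12_3 ln15_12_3_ok) (L (nat_lit 493) ln13_15_7 ln13_15_7_ok))) (B (M (nat_lit 367) (B (L (nat_lit 368) ln12_12_2 ln12_12_2_ok) (M (nat_lit 366) (B (L (nat_lit 395) ln11_12_2 ln11_12_2_ok) (L (nat_lit 493) ln13_15_6 ln13_15_6_ok))))) (M (nat_lit 395) (B (M (nat_lit 367) (B (L (nat_lit 368) ln12_12_2 ln12_12_2_ok) (L (nat_lit 366) ln11_12_2 ln11_12_2_ok))) (M (nat_lit 363) (B (L (nat_lit 364) ln15_12_3 ln15_12_3_ok) (L (nat_lit 362) ln14_12_3 ln14_12_3_ok)))))))) c10_d16)))))) (M (nat_lit 399) (B (M (nat_lit 428) (B (L (nat_lit 400) ln16_12_1 ln16_12_1_ok) (M (nat_lit 427) (B (L (nat_lit 396) ln15_12_1 ln15_12_1_ok) (L (nat_lit 426) ln10_13_2 ln10_13_2_ok))))) (B (K (nat_lit 5954262830815946496699936707333785253445501153971363477552368567998607412259093378764036568231874377426776050167348737618632517932252397568)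 (nat_lit 1213042991419942428254110155251935162003248395464544103654119899588544073020890276839102243047283748373139803416773940398914535424) (nat_lit 1213042991419942428254110155251935162003248395464544103654119899588544073020890276839102243047283748373139803416773940398914535424) c10_s569) (B (M (nat_lit 400) (B (L (nat_lit 428) ln16_12_1 ln16_12_1_ok) (M (nat_lit 369) (B (L (nat_lit 368) ln13_12_2 ln13_12_2_ok) (M (nat_lit 433) (B (L (nat_lit 432) ln13_12_0 ln13_12_0_ok) (M (nat_lit 401) (B (L (nat_lit 370) ln14_12_2 ln14_12_2_ok) (L (nat_lit 434) ln14_12_0 ln14_12_0_ok))))))))) (M (nat_lit 432) (B (M (nat_lit 431) (B (L (nat_lit 396) ln12_12_0 ln12_12_0_ok) (M (nat_lit 433) (B (L (nat_lit 400) ln13_12_0 ln13_12_0_ok) (L (nat_lit 434) ln18_13_3 ln18_13_3_ok))))) (B (M (nat_lit 431) (B (L (nat_lit 396) ln12_12_0 ln12_12_0_ok) (M (nat_lit 463) (B (M (nat_lit 462) (B (L (nat_lit 460) ln12_14_2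 ln12_14_2_ok) (M (nat_lit 433) (B (L (nat_lit 434) ln18_13_1_c10 ln18_13_1_c10_ok) (L (nat_lit 464) ln13_14_2 ln13_14_2_ok))))) (M (nat_lit 366) (B (L (nat_lit 495) ln15_15_7 ln15_15_7_ok) (M (nat_lit 334) (B (L (nat_lit 302) ln14_9_4 ln14_9_4_ok) (L (nat_lit 367) ln15_14_7 ln15_14_7_ok))))))))) (B (M (nat_lit 431) (B (M (nat_lit 433) (B (L (nat_lit 400) ln13_12_0 ln13_12_0_ok) (L (nat_lit 434) ln18_13_3 ln18_13_3_ok))) (B (M (nat_lit 463) (B (M (nat_lit 462) (B (L (nat_lit 460) ln12_14_2 ln12_14_2_ok) (M (nat_lit 433) (B (L (nat_lit 434) ln18_13_1_c10 ln18_13_1_c10_ok) (L (nat_lit 464) ln13_14_2 ln13_14_2_ok))))) (M (nat_lit 366) (B (L (nat_lit 495) ln15_15_7 ln15_15_7_ok) (M (nat_lit 334) (B (L (nat_lit 302) ln14_9_4 ln14_9_4_ok) (L (nat_lit 367) ln15_14_7 ln15_14_7_ok))))))) (B (M (nat_lit 463) (B (M (nat_lit 366) (B (L (nat_lit 495) ln15_15_7 ln15_15_7_ok) (M (nat_lit 334) (B (L (nat_lit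 302) ln14_9_4 ln14_9_4_ok) (L (nat_lit 367) ln15_14_7 ln15_14_7_ok))))) (M (nat_lit 433) (B (L (nat_lit 400) ln13_12_0 ln13_12_0_ok) (M (nat_lit 462) (B (L (nat_lit 464) ln13_14_2 ln13_14_2_ok) (L (nat_lit 460) ln12_14_2 ln12_14_2_ok))))))) (K (nat_lit 5954262847451964661424825864804270358304003374589985929807268019021484895946821225597790306471720814051613518751696003387053948906097344512) (nat_lit 439347050606386119583818979200631157885355645558174556262712392618387377493407699969418402544984793095015602933203068934388517606804586870593988325945429196800) (nat_lit 439347050606386119583818979200631157885355645558174556262712392618387377493407699969418402544984793095015602933203068934388517606804586870593988325945429196800) c10_s577))))) (B (M (nat_lit 368) (B (M (nat_lit 400) (B (L (nat_lit 369) ln13_12_2 ln13_12_2_ok) (L (nat_lit 433) ln13_12_0 ln13_12_0_ok))) (M (nat_lit 396) (B (L (nat_lit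 367) ln12_12_2 ln12_12_2_ok) (L (nat_lit 431) ln12_12_0 ln12_12_0_ok))))) (B (M (nat_lit 431) (B (L (nat_lit 396) ln12_12_0 ln12_12_0_ok) (K (nat_lit 5954262847451964661424825864804270358304003374589985929807268019021484895946821225597790306471720814051613518751696003387053948906097344512) (nat_lit 439347050606386119583818979200631157885355645558174556262712392618387377493407699969418402544984793095015602933203068934388517606804586870593988325945429196800) (nat_lit 439347050606386119583818979200631157885355645558174556262712392618387377493407699969418402544984793095015602933203068934388517606804586870593988325945429196800) c10_s577))) (M (nat_lit 400) (B (L (nat_lit 433) ln13_12_0 ln13_12_0_ok) (M (nat_lit 368) (B (L (nat_lit 369) ln13_12_2 ln13_12_2_ok) (M (nat_lit 367) (B (L (nat_lit 396) ln12_12_2 ln12_12_2_ok) (M (nat_lit 335) (B (L (nat_lit 303) ln15_9_4 ln15_9_4_ok) (L (nat_lit 464) ln16_14_7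 ln16_14_7_ok))))))))))))))))))))
noncomputable def c10_d18 : Cert := (B (M (nat_lit 493) (B (L (nat_lit 366) ln13_15_6 ln13_15_6_ok) (M (nat_lit 525) (B (M (nat_lit 396) (B (L (nat_lit 364) ln13_15_7 ln13_15_7_ok) (L (nat_lit 428) ln13_16_7 ln13_16_7_ok))) (M (nat_lit 526) (B (L (nat_lit 494) ln13_12_4 ln13_12_4_ok) (L (nat_lit 558) ln13_13_4 ln13_13_4_ok))))))) (B (M (nat_lit 396) (B (M (nat_lit 364) (B (L (nat_lit 493) ln13_15_7 ln13_15_7_ok) (M (nat_lit 332) (B (L (nat_lit 300) ln12_9_4 ln12_9_4_ok) (L (nat_lit 428) ln12_10_4 ln12_10_4_ok))))) (B (M (nat_lit 399) (B (M (nat_lit 364) (B (L (nat_lit 363) ln15_12_3 ln15_12_3_ok) (L (nat_lit 493) ln13_15_7 ln13_15_7_ok))) (M (nat_lit 428) (B (L (nat_lit 400) ln16_12_1 ln16_12_1_ok) (L (nat_lit 427) ln15_12_1 ln15_12_1_ok))))) (B (M (nat_lit 395) (B (M (nat_lit 426) (B (L (nat_lit 427) ln14_12_1 ln14_12_1_ok) (M (nat_lit 394) (B (L (nat_lit 425)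 ln13_12_1 ln13_12_1_ok) (M (nat_lit 362) (B (L (nat_lit 363) ln14_12_3 ln14_12_3_ok) (L (nat_lit 361) ln13_12_3 ln13_12_3_ok))))))) (B (M (nat_lit 399) (B (M (nat_lit 428) (B (L (nat_lit 400) ln16_12_1 ln16_12_1_ok) (L (nat_lit 427) ln15_12_1 ln15_12_1_ok))) (B (M (nat_lit 427) (B (L (nat_lit 428) ln15_12_1 ln15_12_1_ok) (L (nat_lit 426) ln14_12_1 ln14_12_1_ok))) (M (nat_lit 400) (B (M (nat_lit 368) (B (L (nat_lit 369) ln13_12_2 ln13_12_2_ok) (L (nat_lit 367) ln12_12_2 ln12_12_2_ok))) (M (nat_lit 432) (B (L (nat_lit 433) ln13_12_0 ln13_12_0_ok) (L (nat_lit 431) ln12_12_0 ln12_12_0_ok)))))))) (B (M (nat_lit 394) (B (M (nat_lit 362) (B (L (nat_lit 363) ln14_12_3 ln14_12_3_ok) (L (nat_lit 361) ln13_12_3 ln13_12_3_ok))) (M (nat_lit 393) (B (L (nat_lit 428) ln9_12_0 ln9_12_0_ok) (M (nat_lit 425) (B (L (nat_lit 426) ln13_12_1 ln13_12_1_ok) (L (nat_lit 424) ln12_12_1 ln12_12_1_ok))))))) (M (nat_lit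 362) (B (L (nat_lit 363) ln14_12_3 ln14_12_3_ok) (M (nat_lit 428) (B (M (nat_lit 399) (B (L (nat_lit 400) ln16_12_1 ln16_12_1_ok) (L (nat_lit 427) ln15_12_1 ln15_12_1_ok))) (M (nat_lit 394) (B (L (nat_lit 361) ln13_12_3 ln13_12_3_ok) (L (nat_lit 393) ln9_12_0 ln9_12_0_ok))))))))))) (M (nat_lit 364) (B (L (nat_lit 493) ln13_15_7 ln13_15_7_ok) (M (nat_lit 363) (B (L (nat_lit 399) ln15_12_3 ln15_12_3_ok) (M (nat_lit 362) (B (L (nat_lit 361) ln9_11_0 ln9_11_0_ok) (L (nat_lit 395) ln14_12_3 ln14_12_3_ok))))))))))) (B (M (nat_lit 493) (B (L (nat_lit 366) ln13_15_6 ln13_15_6_ok) (M (nat_lit 525) (B (M (nat_lit 526) (B (L (nat_lit 494) ln13_12_4 ln13_12_4_ok) (L (nat_lit 558) ln13_13_4 ln13_13_4_ok))) (M (nat_lit 557) (B (M (nat_lit 428) (B (L (nat_lit 396) ln13_16_7 ln13_16_7_ok) (L (nat_lit 460) ln13_17_7 ln13_17_7_ok))) (M (nat_lit 556) (B (L (nat_lit 524) ln13_13_5 ln13_13_5_ok) (L (nat_lit 588)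 ln13_14_5 ln13_14_5_ok))))))))) (B (M (nat_lit 462) (B (M (nat_lit 366) (B (L (nat_lit 493) ln13_15_6 ln13_15_6_ok) (M (nat_lit 463) (B (M (nat_lit 428) (B (L (nat_lit 464) ln16_14_3 ln16_14_3_ok) (M (nat_lit 427) (B (L (nat_lit 426) ln10_13_0 ln10_13_0_ok) (L (nat_lit 460) ln15_14_3 ln15_14_3_ok))))) (B (M (nat_lit 431) (B (M (nat_lit 334) (B (L (nat_lit 302) ln14_9_5 ln14_9_5_ok) (M (nat_lit 399) (B (L (nat_lit 367) ln15_14_7 ln15_14_7_ok) (L (nat_lit 495) ln15_15_7 ln15_15_7_ok))))) (M (nat_lit 432) (B (L (nat_lit 460) ln12_14_2 ln12_14_2_ok) (M (nat_lit 433) (B (L (nat_lit 434) ln18_13_1_c10 ln18_13_1_c10_ok) (L (nat_lit 464) ln13_14_2 ln13_14_2_ok))))))) (B (M (nat_lit 399) (B (M (nat_lit 428) (B (L (nat_lit 400) ln16_12_1 ln16_12_1_ok) (M (nat_lit 427) (B (L (nat_lit 426) ln10_13_0 ln10_13_0_ok) (L (nat_lit 460) ln15_14_3 ln15_14_3_ok))))) (M (nat_lit 334) (B (L (nat_lit 302) ln14_9_5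 ln14_9_5_ok) (M (nat_lit 431) (B (L (nat_lit 367) ln15_14_7 ln15_14_7_ok) (L (nat_lit 495) ln15_15_7 ln15_15_7_ok))))))) (M (nat_lit 464) (B (L (nat_lit 428) ln16_14_3 ln16_14_3_ok) (M (nat_lit 465) (B (M (nat_lit 433) (B (L (nat_lit 434) ln14_14_2 ln14_14_2_ok) (L (nat_lit 432) ln13_14_2 ln13_14_2_ok))) (M (nat_lit 497) (B (L (nat_lit 498) ln14_14_0_c10 ln14_14_0_c10_ok) (L (nat_lit 496) ln13_14_0 ln13_14_0_ok))))))))))))) (B (M (nat_lit 366) (B (L (nat_lit 493) ln13_15_6 ln13_15_6_ok) (M (nat_lit 463) (B (M (nat_lit 428) (B (L (nat_lit 464) ln16_14_3 ln16_14_3_ok) (M (nat_lit 427) (B (L (nat_lit 426) ln10_13_0 ln10_13_0_ok) (L (nat_lit 460) ln15_14_3 ln15_14_3_ok))))) (B (M (nat_lit 431) (B (M (nat_lit 432) (B (L (nat_lit 460) ln12_14_2 ln12_14_2_ok) (M (nat_lit 433) (B (L (nat_lit 434) ln18_13_1_c10 ln18_13_1_c10_ok) (L (nat_lit 464) ln13_14_2 ln13_14_2_ok))))) (M (nat_lit 399) (B (L (nat_lit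 495) ln15_15_7 ln15_15_7_ok) (M (nat_lit 367) (B (L (nat_lit 334) ln15_14_7 ln15_14_7_ok) (L (nat_lit 494) ln15_11_5 ln15_11_5_ok))))))) (B (M (nat_lit 399) (B (M (nat_lit 431) (B (L (nat_lit 495) ln15_15_7 ln15_15_7_ok) (M (nat_lit 367) (B (L (nat_lit 334) ln15_14_7 ln15_14_7_ok) (L (nat_lit 494) ln15_11_5 ln15_11_5_ok))))) (M (nat_lit 428) (B (L (nat_lit 400) ln16_12_1 ln16_12_1_ok) (M (nat_lit 427) (B (L (nat_lit 426) ln10_13_0 ln10_13_0_ok) (L (nat_lit 460) ln15_14_3 ln15_14_3_ok))))))) (M (nat_lit 464) (B (L (nat_lit 428) ln16_14_3 ln16_14_3_ok) (M (nat_lit 465) (B (M (nat_lit 433) (B (L (nat_lit 434) ln14_14_2 ln14_14_2_ok) (L (nat_lit 432) ln13_14_2 ln13_14_2_ok))) (M (nat_lit 497) (B (L (nat_lit 498) ln14_14_0_c10 ln14_14_0_c10_ok) (L (nat_lit 496) ln13_14_0 ln13_14_0_ok))))))))))))) (B (M (nat_lit 493) (B (L (nat_lit 366) ln13_15_6 ln13_15_6_ok) (M (nat_lit 525) (B (M (nat_lit 526)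 (B (L (nat_lit 494) ln13_12_4 ln13_12_4_ok) (L (nat_lit 558) ln13_13_4 ln13_13_4_ok))) (B (M (nat_lit 557) (B (M (nat_lit 558) (B (L (nat_lit 526) ln13_13_4 ln13_13_4_ok) (L (nat_lit 590) ln13_14_4 ln13_14_4_ok))) (M (nat_lit 556) (B (L (nat_lit 524) ln13_13_5 ln13_13_5_ok) (L (nat_lit 588) ln13_14_5 ln13_14_5_ok))))) (B (M (nat_lit 557) (B (M (nat_lit 556) (B (L (nat_lit 524) ln13_13_5 ln13_13_5_ok) (L (nat_lit 588) ln13_14_5 ln13_14_5_ok))) (M (nat_lit 590) (B (L (nat_lit 558) ln13_14_4 ln13_14_4_ok) (M (nat_lit 589) (B (L (nat_lit 494) ln13_18_6 ln13_18_6_ok) (L (nat_lit 622) ln13_15_4_c10 ln13_15_4_c10_ok))))))) (M (nat_lit 557) (B (M (nat_lit 494) (B (L (nat_lit 526) ln13_12_4 ln13_12_4_ok) (L (nat_lit 589) ln13_18_6 ln13_18_6_ok))) (M (nat_lit 556) (B (L (nat_lit 524) ln13_13_5 ln13_13_5_ok) (L (nat_lit 588) ln13_14_5 ln13_14_5_ok))))))))))) c10_d15)))) c10_d17))))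
noncomputable def c10_d19 : Cert := (B (M (nat_lit 365) (B (M (nat_lit 333) (B (M (nat_lit 334) (B (L (nat_lit 302) ln13_13_6 ln13_13_6_ok) (L (nat_lit 366) ln13_14_6 ln13_14_6_ok))) (M (nat_lit 332) (B (L (nat_lit 300) ln13_13_7 ln13_13_7_ok) (L (nat_lit 364) ln13_14_7 ln13_14_7_ok))))) (B (M (nat_lit 364) (B (L (nat_lit 332) ln13_14_7 ln13_14_7_ok) (M (nat_lit 493) (B (L (nat_lit 396) ln13_15_7 ln13_15_7_ok) (M (nat_lit 366) (B (L (nat_lit 334) ln13_14_6 ln13_14_6_ok) (L (nat_lit 398) ln13_15_6 ln13_15_6_ok))))))) (B (K (nat_lit 5954262830815946494763249298843757173852324438261567950902348008252711619201165097221184162808274170258209505398083731990017737449713696768) (nat_lit 25573364124188608359478044511145946280941103721086738826958637098075746049341520856992095785854693661773493197748979046375217447786596905816764186624) (nat_lit 25573364124188608359478044511145946280941103721086738826958637098075746049341520856992095785854693661773493197748979046375217447786596905816764186624)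 c10_s578) (B (M (nat_lit 366) (B (L (nat_lit 334) ln13_14_6 ln13_14_6_ok) (M (nat_lit 396) (B (M (nat_lit 493) (B (L (nat_lit 398) ln13_15_6 ln13_15_6_ok) (L (nat_lit 364) ln13_15_7 ln13_15_7_ok))) (B (M (nat_lit 367) (B (L (nat_lit 368) ln16_11_1 ln16_11_1_ok) (M (nat_lit 398) (B (L (nat_lit 395) ln11_12_2 ln11_12_2_ok) (L (nat_lit 493) ln13_15_6 ln13_15_6_ok))))) (B (M (nat_lit 367) (B (L (nat_lit 368) ln16_11_1 ln16_11_1_ok) (M (nat_lit 364) (B (L (nat_lit 395) ln15_11_1 ln15_11_1_ok) (L (nat_lit 493) ln13_15_7 ln13_15_7_ok))))) (M (nat_lit 367) (B (L (nat_lit 368) ln16_11_1 ln16_11_1_ok) (M (nat_lit 395) (B (L (nat_lit 364) ln15_11_1 ln15_11_1_ok) (L (nat_lit 394) ln10_12_2 ln10_12_2_ok))))))))))) (B (M (nat_lit 333) (B (M (nat_lit 332) (B (L (nat_lit 300) ln13_13_7 ln13_13_7_ok) (L (nat_lit 364) ln13_14_7 ln13_14_7_ok))) (M (nat_lit 301) (B (M (nat_lit 302) (B (L (nat_lit 270) ln13_12_6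 ln13_12_6_ok) (L (nat_lit 334) ln13_13_6 ln13_13_6_ok))) (M (nat_lit 428) (B (L (nat_lit 396) ln13_9_5 ln13_9_5_ok) (L (nat_lit 460) ln13_10_5 ln13_10_5_ok))))))) (M (nat_lit 333) (B (M (nat_lit 334) (B (L (nat_lit 302) ln13_13_6 ln13_13_6_ok) (L (nat_lit 366) ln13_14_6 ln13_14_6_ok))) (M (nat_lit 301) (B (M (nat_lit 300) (B (L (nat_lit 268) ln13_12_7 ln13_12_7_ok) (L (nat_lit 332) ln13_13_7 ln13_13_7_ok))) (M (nat_lit 428) (B (L (nat_lit 396) ln13_9_5 ln13_9_5_ok) (L (nat_lit 460) ln13_10_5 ln13_10_5_ok))))))))))))) (M (nat_lit 365) (B (M (nat_lit 333) (B (M (nat_lit 334) (B (L (nat_lit 302) ln13_13_6 ln13_13_6_ok) (L (nat_lit 366) ln13_14_6 ln13_14_6_ok))) (M (nat_lit 332) (B (L (nat_lit 300) ln13_13_7 ln13_13_7_ok) (L (nat_lit 364) ln13_14_7 ln13_14_7_ok))))) (B (M (nat_lit 396) (B (M (nat_lit 364) (B (L (nat_lit 332) ln13_14_7 ln13_14_7_ok) (M (nat_lit 366) (B (L (nat_lit 334) ln13_14_6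 ln13_14_6_ok) (M (nat_lit 367) (B (L (nat_lit 368) ln16_11_1 ln16_11_1_ok) (L (nat_lit 395) ln15_11_1 ln15_11_1_ok))))))) (B (M (nat_lit 333) (B (M (nat_lit 332) (B (L (nat_lit 300) ln13_13_7 ln13_13_7_ok) (L (nat_lit 364) ln13_14_7 ln13_14_7_ok))) (M (nat_lit 428) (B (L (nat_lit 301) ln13_9_5 ln13_9_5_ok) (L (nat_lit 460) ln13_10_5 ln13_10_5_ok))))) (B (M (nat_lit 366) (B (L (nat_lit 334) ln13_14_6 ln13_14_6_ok) (M (nat_lit 367) (B (L (nat_lit 368) ln16_11_1 ln16_11_1_ok) (M (nat_lit 395) (B (L (nat_lit 364) ln15_11_1 ln15_11_1_ok) (L (nat_lit 394) ln10_12_2 ln10_12_2_ok))))))) (M (nat_lit 366) (B (L (nat_lit 334) ln13_14_6 ln13_14_6_ok) (M (nat_lit 367) (B (L (nat_lit 368) ln16_11_1 ln16_11_1_ok) (M (nat_lit 395) (B (L (nat_lit 398) ln11_12_2 ln11_12_2_ok) (L (nat_lit 394) ln10_12_2 ln10_12_2_ok))))))))))) (B (M (nat_lit 364) (B (L (nat_lit 332) ln13_14_7 ln13_14_7_ok) (M (nat_lit 366) (B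 (L (nat_lit 334) ln13_14_6 ln13_14_6_ok) (M (nat_lit 363) (B (M (nat_lit 398) (B (L (nat_lit 399) ln11_11_0 ln11_11_0_ok) (L (nat_lit 362) ln10_11_0 ln10_11_0_ok))) (B (M (nat_lit 367) (B (M (nat_lit 399) (B (L (nat_lit 400) ln12_11_0 ln12_11_0_ok) (L (nat_lit 398) ln11_11_0 ln11_11_0_ok))) (M (nat_lit 395) (B (L (nat_lit 396) ln15_11_1 ln15_11_1_ok) (L (nat_lit 394) ln14_11_1 ln14_11_1_ok))))) (B (M (nat_lit 362) (B (L (nat_lit 398) ln10_11_0 ln10_11_0_ok) (M (nat_lit 330) (B (L (nat_lit 331) ln14_11_3 ln14_11_3_ok) (L (nat_lit 329) ln13_11_3 ln13_11_3_ok))))) (M (nat_lit 362) (B (M (nat_lit 330) (B (L (nat_lit 331) ln14_11_3 ln14_11_3_ok) (L (nat_lit 329) ln13_11_3 ln13_11_3_ok))) (M (nat_lit 394) (B (L (nat_lit 395) ln14_11_1 ln14_11_1_ok) (L (nat_lit 393) ln13_11_1 ln13_11_1_ok))))))))))))) (B (M (nat_lit 398) (B (M (nat_lit 364) (B (L (nat_lit 332) ln13_14_7 ln13_14_7_ok) (M (nat_lit 399)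 (B (L (nat_lit 400) ln16_12_3 ln16_12_3_ok) (M (nat_lit 363) (B (L (nat_lit 366) ln11_11_0 ln11_11_0_ok) (L (nat_lit 362) ln10_11_0 ln10_11_0_ok))))))) (B (M (nat_lit 399) (B (M (nat_lit 400) (B (L (nat_lit 364) ln16_12_3 ln16_12_3_ok) (L (nat_lit 428) ln16_12_1 ln16_12_1_ok))) (B (M (nat_lit 428) (B (L (nat_lit 400) ln16_12_1 ln16_12_1_ok) (M (nat_lit 427) (B (L (nat_lit 396) ln15_12_1 ln15_12_1_ok) (L (nat_lit 426) ln10_13_2 ln10_13_2_ok))))) (B (M (nat_lit 396) (B (M (nat_lit 428) (B (L (nat_lit 427) ln15_12_1 ln15_12_1_ok) (M (nat_lit 333) (B (L (nat_lit 301) ln13_9_5 ln13_9_5_ok) (L (nat_lit 460) ln13_10_5 ln13_10_5_ok))))) (M (nat_lit 395) (B (M (nat_lit 367) (B (L (nat_lit 368) ln12_12_2 ln12_12_2_ok) (L (nat_lit 366) ln11_12_2 ln11_12_2_ok))) (M (nat_lit 363) (B (L (nat_lit 364) ln15_12_3 ln15_12_3_ok) (L (nat_lit 362) ln14_12_3 ln14_12_3_ok))))))) (M (nat_lit 364) (B (L (nat_lit 400)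 ln16_12_3 ln16_12_3_ok) (M (nat_lit 363) (B (L (nat_lit 366) ln11_11_0 ln11_11_0_ok) (L (nat_lit 362) ln10_11_0 ln10_11_0_ok))))))))) (B (M (nat_lit 364) (B (L (nat_lit 332) ln13_14_7 ln13_14_7_ok) (M (nat_lit 363) (B (L (nat_lit 362) ln10_11_0 ln10_11_0_ok) (M (nat_lit 399) (B (L (nat_lit 400) ln16_12_3 ln16_12_3_ok) (L (nat_lit 396) ln15_12_3 ln15_12_3_ok))))))) (B (M (nat_lit 428) (B (M (nat_lit 427) (B (L (nat_lit 426) ln10_13_2 ln10_13_2_ok) (M (nat_lit 399) (B (L (nat_lit 400) ln16_12_1 ln16_12_1_ok) (L (nat_lit 396) ln15_12_1 ln15_12_1_ok))))) (B (M (nat_lit 396) (B (M (nat_lit 333) (B (L (nat_lit 301) ln13_9_5 ln13_9_5_ok) (L (nat_lit 460) ln13_10_5 ln13_10_5_ok))) (M (nat_lit 427) (B (L (nat_lit 399) ln15_12_1 ln15_12_1_ok) (L (nat_lit 426) ln10_13_2 ln10_13_2_ok))))) (B (M (nat_lit 333) (B (L (nat_lit 460) ln13_10_5 ln13_10_5_ok) (M (nat_lit 301) (B (L (nat_lit 396) ln13_9_5 ln13_9_5_ok)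 (M (nat_lit 300) (B (L (nat_lit 268) ln13_12_7 ln13_12_7_ok) (L (nat_lit 332) ln13_13_7 ln13_13_7_ok))))))) (M (nat_lit 462) (B (L (nat_lit 494) ln13_11_4 ln13_11_4_ok) (M (nat_lit 427) (B (L (nat_lit 426) ln10_13_0 ln10_13_0_ok) (M (nat_lit 463) (B (L (nat_lit 464) ln16_14_3 ln16_14_3_ok) (L (nat_lit 460) ln15_14_3 ln15_14_3_ok))))))))))) (B (M (nat_lit 364) (B (L (nat_lit 332) ln13_14_7 ln13_14_7_ok) (M (nat_lit 363) (B (L (nat_lit 362) ln10_11_0 ln10_11_0_ok) (M (nat_lit 399) (B (L (nat_lit 366) ln11_11_0 ln11_11_0_ok) (L (nat_lit 396) ln15_12_3 ln15_12_3_ok))))))) (M (nat_lit 333) (B (M (nat_lit 332) (B (L (nat_lit 300) ln13_13_7 ln13_13_7_ok) (L (nat_lit 364) ln13_14_7 ln13_14_7_ok))) (M (nat_lit 301) (B (M (nat_lit 428) (B (L (nat_lit 396) ln13_9_5 ln13_9_5_ok) (L (nat_lit 460) ln13_10_5 ln13_10_5_ok))) (M (nat_lit 269) (B (L (nat_lit 366) ln13_8_4 ln13_8_4_ok) (M (nat_lit 270) (B (L (nat_lit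 238) ln13_11_6 ln13_11_6_ok) (L (nat_lit 302) ln13_12_6 ln13_12_6_ok))))))))))))))) (B (K (nat_lit 5954262830815946494763249298843757173852324438261567950902348008252711619201165097221184162808274170258209505398083731990017737449713696768) (nat_lit 2977131415407973248027187119056335778365780024479283550702090076485560952406116327393665210934724584336838486401512525805249119846353862656) (nat_lit 2977131415407973248027187119056335778365780024479283550702090076485560952406116327393665210934724584336838486401512525805249119846353862656) c10_s576) (M (nat_lit 333) (B (M (nat_lit 332) (B (L (nat_lit 300) ln13_13_7 ln13_13_7_ok) (L (nat_lit 364) ln13_14_7 ln13_14_7_ok))) (M (nat_lit 301) (B (M (nat_lit 302) (B (L (nat_lit 270) ln13_12_6 ln13_12_6_ok) (L (nat_lit 334) ln13_13_6 ln13_13_6_ok))) (M (nat_lit 428) (B (L (nat_lit 396) ln13_9_5 ln13_9_5_ok) (L (nat_lit 460) ln13_10_5 ln13_10_5_ok))))))))))))))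
noncomputable def c10_d20 : Cert := (B (M (nat_lit 428) (B (M (nat_lit 398) (B (M (nat_lit 427) (B (L (nat_lit 426) ln10_13_2 ln10_13_2_ok) (M (nat_lit 399) (B (L (nat_lit 400) ln16_12_1 ln16_12_1_ok) (L (nat_lit 396) ln15_12_1 ln15_12_1_ok))))) (M (nat_lit 366) (B (L (nat_lit 493) ln13_15_6 ln13_15_6_ok) (M (nat_lit 334) (B (L (nat_lit 302) ln14_9_5 ln14_9_5_ok) (L (nat_lit 365) ln13_14_6 ln13_14_6_ok))))))) (B (M (nat_lit 462) (B (M (nat_lit 494) (B (L (nat_lit 365) ln13_11_4 ln13_11_4_ok) (M (nat_lit 526) (B (L (nat_lit 493) ln13_12_4 ln13_12_4_ok) (L (nat_lit 558) ln14_17_7 ln14_17_7_ok))))) (M (nat_lit 427) (B (L (nat_lit 426) ln10_13_0 ln10_13_0_ok) (M (nat_lit 463) (B (L (nat_lit 464) ln16_14_3 ln16_14_3_ok) (L (nat_lit 460) ln15_14_3 ln15_14_3_ok))))))) (B (M (nat_lit 493) (B (M (nat_lit 525) (B (L (nat_lit 396) ln13_16_7 ln13_16_7_ok) (M (nat_lit 526) (B (L (nat_lit 494) ln13_12_4 ln13_12_4_ok)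 (L (nat_lit 558) ln13_13_4 ln13_13_4_ok))))) (B (M (nat_lit 525) (B (M (nat_lit 526) (B (L (nat_lit 494) ln13_12_4 ln13_12_4_ok) (L (nat_lit 558) ln13_13_4 ln13_13_4_ok))) (M (nat_lit 557) (B (L (nat_lit 460) ln13_17_7 ln13_17_7_ok) (M (nat_lit 556) (B (L (nat_lit 524) ln13_13_5 ln13_13_5_ok) (L (nat_lit 588) ln13_14_5 ln13_14_5_ok))))))) (B (M (nat_lit 525) (B (L (nat_lit 396) ln13_16_7 ln13_16_7_ok) (M (nat_lit 557) (B (L (nat_lit 460) ln13_17_7 ln13_17_7_ok) (M (nat_lit 556) (B (L (nat_lit 524) ln13_13_5 ln13_13_5_ok) (L (nat_lit 588) ln13_14_5 ln13_14_5_ok))))))) (M (nat_lit 398) (B (L (nat_lit 366) ln13_15_6 ln13_15_6_ok) (M (nat_lit 399) (B (L (nat_lit 400) ln16_12_1 ln16_12_1_ok) (M (nat_lit 427) (B (L (nat_lit 396) ln15_12_1 ln15_12_1_ok) (L (nat_lit 426) ln10_13_2 ln10_13_2_ok))))))))))) (B (M (nat_lit 493) (B (M (nat_lit 525) (B (L (nat_lit 396) ln13_16_7 ln13_16_7_ok) (M (nat_lit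 557) (B (L (nat_lit 460) ln13_17_7 ln13_17_7_ok) (M (nat_lit 556) (B (L (nat_lit 524) ln13_13_5 ln13_13_5_ok) (L (nat_lit 588) ln13_14_5 ln13_14_5_ok))))))) (M (nat_lit 365) (B (M (nat_lit 366) (B (L (nat_lit 334) ln13_14_6 ln13_14_6_ok) (L (nat_lit 398) ln13_15_6 ln13_15_6_ok))) (M (nat_lit 494) (B (L (nat_lit 462) ln13_11_4 ln13_11_4_ok) (L (nat_lit 526) ln13_12_4 ln13_12_4_ok))))))) (M (nat_lit 365) (B (M (nat_lit 333) (B (L (nat_lit 460) ln13_10_5 ln13_10_5_ok) (M (nat_lit 334) (B (L (nat_lit 302) ln13_13_6 ln13_13_6_ok) (L (nat_lit 366) ln13_14_6 ln13_14_6_ok))))) (B (M (nat_lit 333) (B (L (nat_lit 460) ln13_10_5 ln13_10_5_ok) (M (nat_lit 301) (B (L (nat_lit 396) ln13_9_5 ln13_9_5_ok) (M (nat_lit 300) (B (L (nat_lit 268) ln13_12_7 ln13_12_7_ok) (L (nat_lit 332) ln13_13_7 ln13_13_7_ok))))))) (B (M (nat_lit 462) (B (L (nat_lit 494) ln13_11_4 ln13_11_4_ok) (M (nat_lit 427) (B (L (nat_lit 426)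 ln10_13_0 ln10_13_0_ok) (M (nat_lit 463) (B (L (nat_lit 464) ln16_14_3 ln16_14_3_ok) (L (nat_lit 460) ln15_14_3 ln15_14_3_ok))))))) (M (nat_lit 333) (B (M (nat_lit 334) (B (L (nat_lit 302) ln13_13_6 ln13_13_6_ok) (L (nat_lit 366) ln13_14_6 ln13_14_6_ok))) (M (nat_lit 301) (B (L (nat_lit 396) ln13_9_5 ln13_9_5_ok) (M (nat_lit 300) (B (L (nat_lit 268) ln13_12_7 ln13_12_7_ok) (L (nat_lit 332) ln13_13_7 ln13_13_7_ok)))))))))))))))) (B (M (nat_lit 365) (B (M (nat_lit 333) (B (M (nat_lit 334) (B (L (nat_lit 302) ln13_13_6 ln13_13_6_ok) (L (nat_lit 366) ln13_14_6 ln13_14_6_ok))) (M (nat_lit 332) (B (L (nat_lit 300) ln13_13_7 ln13_13_7_ok) (L (nat_lit 364) ln13_14_7 ln13_14_7_ok))))) (B (M (nat_lit 493) (B (M (nat_lit 364) (B (L (nat_lit 332) ln13_14_7 ln13_14_7_ok) (L (nat_lit 396) ln13_15_7 ln13_15_7_ok))) (M (nat_lit 494) (B (L (nat_lit 462) ln13_11_4 ln13_11_4_ok) (L (nat_lit 526) ln13_12_4 ln13_12_4_ok)))))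 (B (M (nat_lit 396) (B (M (nat_lit 494) (B (L (nat_lit 462) ln13_11_4 ln13_11_4_ok) (M (nat_lit 493) (B (L (nat_lit 364) ln13_15_7 ln13_15_7_ok) (L (nat_lit 526) ln13_12_4 ln13_12_4_ok))))) (M (nat_lit 333) (B (M (nat_lit 334) (B (L (nat_lit 302) ln13_13_6 ln13_13_6_ok) (L (nat_lit 366) ln13_14_6 ln13_14_6_ok))) (M (nat_lit 428) (B (L (nat_lit 301) ln13_9_5 ln13_9_5_ok) (L (nat_lit 460) ln13_10_5 ln13_10_5_ok))))))) (M (nat_lit 333) (B (M (nat_lit 334) (B (L (nat_lit 302) ln13_13_6 ln13_13_6_ok) (L (nat_lit 366) ln13_14_6 ln13_14_6_ok))) (M (nat_lit 301) (B (M (nat_lit 300) (B (L (nat_lit 268) ln13_12_7 ln13_12_7_ok) (L (nat_lit 332) ln13_13_7 ln13_13_7_ok))) (M (nat_lit 428) (B (L (nat_lit 396) ln13_9_5 ln13_9_5_ok) (L (nat_lit 460) ln13_10_5 ln13_10_5_ok))))))))))) (B (K (nat_lit 5954262830815946494763249298768603811203561774969104571805089223376689777636098861358550851719243481454542035207245364041705138952691777536)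 (nat_lit 2830471819275176591176014755191888994073894825616656053780980988841853034100692336439785599714479908500567362291629210467646400696580027664453189457674016694625827291136) (nat_lit 2830471819275176591176014755191888994073894825616656053780980988841853034100692336439785599714479908500567362291629210467646400696580027664453189457674016694625827291136) c10_s568) (B (M (nat_lit 365) (B (M (nat_lit 333) (B (M (nat_lit 334) (B (L (nat_lit 302) ln13_13_6 ln13_13_6_ok) (L (nat_lit 366) ln13_14_6 ln13_14_6_ok))) (M (nat_lit 332) (B (L (nat_lit 300) ln13_13_7 ln13_13_7_ok) (L (nat_lit 364) ln13_14_7 ln13_14_7_ok))))) (B (M (nat_lit 364) (B (L (nat_lit 332) ln13_14_7 ln13_14_7_ok) (M (nat_lit 493) (B (L (nat_lit 396) ln13_15_7 ln13_15_7_ok) (M (nat_lit 366) (B (L (nat_lit 334) ln13_14_6 ln13_14_6_ok) (L (nat_lit 398) ln13_15_6 ln13_15_6_ok))))))) (B (K (nat_lit 5954262830815946494763249298843757173852324438261567950902348008252711619201165097221184162808274170258209505398083731990017737449713696768)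 (nat_lit 25573364124188608359478044511145946280941103721086738826958637098075746049341520856992095785854693661773493197748979046375217447786596905816764186624) (nat_lit 25573364124188608359478044511145946280941103721086738826958637098075746049341520856992095785854693661773493197748979046375217447786596905816764186624) c10_s578) (B (M (nat_lit 493) (B (M (nat_lit 366) (B (L (nat_lit 334) ln13_14_6 ln13_14_6_ok) (L (nat_lit 398) ln13_15_6 ln13_15_6_ok))) (M (nat_lit 525) (B (M (nat_lit 396) (B (L (nat_lit 364) ln13_15_7 ln13_15_7_ok) (L (nat_lit 428) ln13_16_7 ln13_16_7_ok))) (M (nat_lit 526) (B (L (nat_lit 494) ln13_12_4 ln13_12_4_ok) (L (nat_lit 558) ln13_13_4 ln13_13_4_ok))))))) (B (M (nat_lit 333) (B (M (nat_lit 332) (B (L (nat_lit 300) ln13_13_7 ln13_13_7_ok) (L (nat_lit 364) ln13_14_7 ln13_14_7_ok))) (M (nat_lit 301) (B (M (nat_lit 302) (B (L (nat_lit 270) ln13_12_6 ln13_12_6_ok) (L (nat_lit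 334) ln13_13_6 ln13_13_6_ok))) (M (nat_lit 428) (B (L (nat_lit 396) ln13_9_5 ln13_9_5_ok) (L (nat_lit 460) ln13_10_5 ln13_10_5_ok))))))) (M (nat_lit 333) (B (M (nat_lit 334) (B (L (nat_lit 302) ln13_13_6 ln13_13_6_ok) (L (nat_lit 366) ln13_14_6 ln13_14_6_ok))) (M (nat_lit 301) (B (M (nat_lit 300) (B (L (nat_lit 268) ln13_12_7 ln13_12_7_ok) (L (nat_lit 332) ln13_13_7 ln13_13_7_ok))) (M (nat_lit 428) (B (L (nat_lit 396) ln13_9_5 ln13_9_5_ok) (L (nat_lit 460) ln13_10_5 ln13_10_5_ok))))))))))))) c10_d19))))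
noncomputable def c10_d21 : Cert := (B (M (nat_lit 365) (B (M (nat_lit 493) (B (M (nat_lit 366) (B (L (nat_lit 334) ln13_14_6 ln13_14_6_ok) (L (nat_lit 398) ln13_15_6 ln13_15_6_ok))) (M (nat_lit 494) (B (L (nat_lit 462) ln13_11_4 ln13_11_4_ok) (L (nat_lit 526) ln13_12_4 ln13_12_4_ok))))) (B (M (nat_lit 493) (B (M (nat_lit 494) (B (L (nat_lit 462) ln13_11_4 ln13_11_4_ok) (L (nat_lit 526) ln13_12_4 ln13_12_4_ok))) (B (M (nat_lit 525) (B (M (nat_lit 396) (B (L (nat_lit 364) ln13_15_7 ln13_15_7_ok) (L (nat_lit 428) ln13_16_7 ln13_16_7_ok))) (M (nat_lit 526) (B (L (nat_lit 494) ln13_12_4 ln13_12_4_ok) (L (nat_lit 558) ln13_13_4 ln13_13_4_ok))))) (M (nat_lit 396) (B (L (nat_lit 364) ln13_15_7 ln13_15_7_ok) (M (nat_lit 428) (B (L (nat_lit 525) ln13_16_7 ln13_16_7_ok) (M (nat_lit 333) (B (L (nat_lit 301) ln13_9_5 ln13_9_5_ok) (L (nat_lit 460) ln13_10_5 ln13_10_5_ok)))))))))) (B (M (nat_lit 493) (B (M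 (nat_lit 366) (B (L (nat_lit 334) ln13_14_6 ln13_14_6_ok) (L (nat_lit 398) ln13_15_6 ln13_15_6_ok))) (M (nat_lit 525) (B (M (nat_lit 396) (B (L (nat_lit 364) ln13_15_7 ln13_15_7_ok) (L (nat_lit 428) ln13_16_7 ln13_16_7_ok))) (M (nat_lit 526) (B (L (nat_lit 494) ln13_12_4 ln13_12_4_ok) (L (nat_lit 558) ln13_13_4 ln13_13_4_ok))))))) (B (M (nat_lit 396) (B (M (nat_lit 493) (B (L (nat_lit 364) ln13_15_7 ln13_15_7_ok) (M (nat_lit 366) (B (L (nat_lit 334) ln13_14_6 ln13_14_6_ok) (L (nat_lit 398) ln13_15_6 ln13_15_6_ok))))) (B (M (nat_lit 428) (B (M (nat_lit 333) (B (L (nat_lit 301) ln13_9_5 ln13_9_5_ok) (L (nat_lit 460) ln13_10_5 ln13_10_5_ok))) (M (nat_lit 493) (B (L (nat_lit 364) ln13_15_7 ln13_15_7_ok) (L (nat_lit 525) ln13_16_7 ln13_16_7_ok))))) (M (nat_lit 333) (B (M (nat_lit 334) (B (L (nat_lit 302) ln13_13_6 ln13_13_6_ok) (L (nat_lit 366) ln13_14_6 ln13_14_6_ok))) (M (nat_lit 428) (B (L (nat_lit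 301) ln13_9_5 ln13_9_5_ok) (L (nat_lit 460) ln13_10_5 ln13_10_5_ok)))))))) (K (nat_lit 5954262830815946494763249298843757173852324438261567950902348008252711619201165097221184162808274170258209505398083731990017737449713696768) (nat_lit 2977131415407973248027187119056335778365780024479283550702090076485560952406116327393665210934724584336838486401512525805249119846353862656) (nat_lit 2977131415407973248027187119056335778365780024479283550702090076485560952406116327393665210934724584336838486401512525805249119846353862656) c10_s576)))))) (B (M (nat_lit 493) (B (M (nat_lit 365) (B (M (nat_lit 364) (B (L (nat_lit 332) ln13_14_7 ln13_14_7_ok) (L (nat_lit 396) ln13_15_7 ln13_15_7_ok))) (M (nat_lit 494) (B (L (nat_lit 462) ln13_11_4 ln13_11_4_ok) (L (nat_lit 526) ln13_12_4 ln13_12_4_ok))))) (B (M (nat_lit 525) (B (M (nat_lit 396) (B (L (nat_lit 364) ln13_15_7 ln13_15_7_ok) (L (nat_lit 428) ln13_16_7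 ln13_16_7_ok))) (M (nat_lit 526) (B (L (nat_lit 494) ln13_12_4 ln13_12_4_ok) (L (nat_lit 558) ln13_13_4 ln13_13_4_ok))))) (B (M (nat_lit 525) (B (M (nat_lit 526) (B (L (nat_lit 494) ln13_12_4 ln13_12_4_ok) (L (nat_lit 558) ln13_13_4 ln13_13_4_ok))) (M (nat_lit 557) (B (M (nat_lit 428) (B (L (nat_lit 396) ln13_16_7 ln13_16_7_ok) (L (nat_lit 460) ln13_17_7 ln13_17_7_ok))) (M (nat_lit 556) (B (L (nat_lit 524) ln13_13_5 ln13_13_5_ok) (L (nat_lit 588) ln13_14_5 ln13_14_5_ok))))))) (B (M (nat_lit 494) (B (L (nat_lit 526) ln13_12_4 ln13_12_4_ok) (M (nat_lit 462) (B (L (nat_lit 365) ln13_11_4 ln13_11_4_ok) (M (nat_lit 460) (B (M (nat_lit 459) (B (L (nat_lit 495) ln11_14_0 ln11_14_0_ok) (L (nat_lit 458) ln10_14_0 ln10_14_0_ok))) (B (M (nat_lit 463) (B (M (nat_lit 428) (B (L (nat_lit 464) ln16_14_3 ln16_14_3_ok) (L (nat_lit 427) ln15_14_3 ln15_14_3_ok))) (B (M (nat_lit 464) (B (L (nat_lit 465) ln17_14_1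 ln17_14_1_ok) (M (nat_lit 432) (B (L (nat_lit 433) ln13_14_2 ln13_14_2_ok) (L (nat_lit 431) ln12_14_2 ln12_14_2_ok))))) (M (nat_lit 431) (B (L (nat_lit 432) ln12_14_2 ln12_14_2_ok) (M (nat_lit 399) (B (L (nat_lit 367) ln15_11_5 ln15_11_5_ok) (M (nat_lit 400) (B (M (nat_lit 495) (B (L (nat_lit 368) ln15_15_6 ln15_15_6_ok) (L (nat_lit 496) ln12_14_0 ln12_14_0_ok))) (M (nat_lit 428) (B (L (nat_lit 398) ln16_12_1 ln16_12_1_ok) (L (nat_lit 427) ln15_14_3 ln15_14_3_ok)))))))))))) (M (nat_lit 463) (B (M (nat_lit 428) (B (L (nat_lit 464) ln16_14_3 ln16_14_3_ok) (L (nat_lit 427) ln15_14_3 ln15_14_3_ok))) (B (M (nat_lit 464) (B (L (nat_lit 465) ln17_14_1 ln17_14_1_ok) (M (nat_lit 432) (B (L (nat_lit 433) ln13_14_2 ln13_14_2_ok) (L (nat_lit 431) ln12_14_2 ln12_14_2_ok))))) (M (nat_lit 427) (B (L (nat_lit 428) ln15_14_3 ln15_14_3_ok) (M (nat_lit 459) (B (L (nat_lit 426) ln14_14_3 ln14_14_3_ok) (L (nat_lit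 458) ln10_14_0 ln10_14_0_ok))))))))))))))) (B (M (nat_lit 396) (B (L (nat_lit 364) ln13_15_7 ln13_15_7_ok) (M (nat_lit 525) (B (L (nat_lit 428) ln13_16_7 ln13_16_7_ok) (M (nat_lit 557) (B (M (nat_lit 558) (B (L (nat_lit 526) ln13_13_4 ln13_13_4_ok) (L (nat_lit 590) ln13_14_4 ln13_14_4_ok))) (M (nat_lit 556) (B (L (nat_lit 524) ln13_13_5 ln13_13_5_ok) (L (nat_lit 588) ln13_14_5 ln13_14_5_ok))))))))) (M (nat_lit 396) (B (L (nat_lit 364) ln13_15_7 ln13_15_7_ok) (M (nat_lit 428) (B (L (nat_lit 525) ln13_16_7 ln13_16_7_ok) (M (nat_lit 395) (B (M (nat_lit 394) (B (L (nat_lit 393) ln9_12_0 ln9_12_0_ok) (M (nat_lit 426) (B (L (nat_lit 425) ln13_12_1 ln13_12_1_ok) (M (nat_lit 398) (B (L (nat_lit 427) ln14_12_1 ln14_12_1_ok) (M (nat_lit 362) (B (L (nat_lit 363) ln14_12_3 ln14_12_3_ok) (L (nat_lit 361) ln13_12_3 ln13_12_3_ok))))))))) (B (M (nat_lit 394) (B (L (nat_lit 393) ln9_12_0 ln9_12_0_ok) (M (nat_lit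 426) (B (L (nat_lit 425) ln13_12_1 ln13_12_1_ok) (M (nat_lit 427) (B (L (nat_lit 398) ln14_12_1 ln14_12_1_ok) (M (nat_lit 362) (B (L (nat_lit 361) ln13_12_3 ln13_12_3_ok) (M (nat_lit 330) (B (L (nat_lit 298) ln10_9_4 ln10_9_4_ok) (L (nat_lit 459) ln10_10_4 ln10_10_4_ok))))))))))) (B (M (nat_lit 394) (B (L (nat_lit 393) ln9_12_0 ln9_12_0_ok) (M (nat_lit 426) (B (L (nat_lit 425) ln13_12_1 ln13_12_1_ok) (M (nat_lit 427) (B (L (nat_lit 398) ln14_12_1 ln14_12_1_ok) (M (nat_lit 458) (B (L (nat_lit 457) ln13_13_1 ln13_13_1_ok) (M (nat_lit 363) (B (L (nat_lit 331) ln11_10_5 ln11_10_5_ok) (L (nat_lit 490) ln10_15_6 ln10_15_6_ok))))))))))) (B (M (nat_lit 394) (B (L (nat_lit 393) ln9_12_0 ln9_12_0_ok) (M (nat_lit 426) (B (L (nat_lit 425) ln13_12_1 ln13_12_1_ok) (M (nat_lit 427) (B (M (nat_lit 362) (B (L (nat_lit 361) ln13_12_3 ln13_12_3_ok) (M (nat_lit 330) (B (L (nat_lit 298) ln10_9_4 ln10_9_4_ok) (L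 (nat_lit 459) ln10_10_4 ln10_10_4_ok))))) (M (nat_lit 458) (B (L (nat_lit 457) ln13_13_1 ln13_13_1_ok) (M (nat_lit 363) (B (L (nat_lit 331) ln11_10_5 ln11_10_5_ok) (L (nat_lit 490) ln10_15_6 ln10_15_6_ok))))))))))) (B (M (nat_lit 427) (B (M (nat_lit 398) (B (L (nat_lit 399) ln15_12_1 ln15_12_1_ok) (L (nat_lit 426) ln14_12_1 ln14_12_1_ok))) (B (M (nat_lit 426) (B (L (nat_lit 398) ln14_12_1 ln14_12_1_ok) (L (nat_lit 425) ln9_13_2 ln9_13_2_ok))) (B (M (nat_lit 426) (B (L (nat_lit 425) ln9_13_2 ln9_13_2_ok) (M (nat_lit 458) (B (L (nat_lit 457) ln13_13_1 ln13_13_1_ok) (M (nat_lit 363) (B (L (nat_lit 331) ln11_10_5 ln11_10_5_ok) (M (nat_lit 490) (B (L (nat_lit 459) ln11_11_5 ln11_11_5_ok) (L (nat_lit 522) ln10_16_6 ln10_16_6_ok))))))))) (M (nat_lit 363) (B (M (nat_lit 331) (B (L (nat_lit 299) ln11_9_4 ln11_9_4_ok) (L (nat_lit 460) ln11_10_4 ln11_10_4_ok))) (M (nat_lit 398) (B (L (nat_lit 362) ln14_12_3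 ln14_12_3_ok) (L (nat_lit 399) ln15_12_1 ln15_12_1_ok))))))))) (B (M (nat_lit 394) (B (L (nat_lit 393) ln9_12_0 ln9_12_0_ok) (M (nat_lit 426) (B (L (nat_lit 425) ln13_12_1 ln13_12_1_ok) (M (nat_lit 362) (B (L (nat_lit 361) ln13_12_3 ln13_12_3_ok) (M (nat_lit 363) (B (L (nat_lit 398) ln14_12_3 ln14_12_3_ok) (M (nat_lit 331) (B (L (nat_lit 299) ln11_9_4 ln11_9_4_ok) (L (nat_lit 458) ln10_14_6 ln10_14_6_ok))))))))))) (M (nat_lit 394) (B (L (nat_lit 393) ln9_12_0 ln9_12_0_ok) (M (nat_lit 362) (B (L (nat_lit 361) ln13_12_3 ln13_12_3_ok) (M (nat_lit 363) (B (L (nat_lit 398) ln14_12_3 ln14_12_3_ok) (M (nat_lit 427) (B (M (nat_lit 331) (B (L (nat_lit 299) ln11_9_4 ln11_9_4_ok) (L (nat_lit 460) ln11_10_4 ln11_10_4_ok))) (M (nat_lit 330) (B (L (nat_lit 298) ln10_9_4 ln10_9_4_ok) (L (nat_lit 459) ln11_14_7 ln11_14_7_ok)))))))))))))))))))))))))))) (B (M (nat_lit 398) c10_d18) c10_d20)))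
noncomputable def c10_d22 : Cert := (B (M (nat_lit 458) (B (L (nat_lit 457) ln9_14_2 ln9_14_2_ok) (M (nat_lit 462) (B (M (nat_lit 427) (B (L (nat_lit 426) ln10_13_0 ln10_13_0_ok) (L (nat_lit 463) ln15_14_3 ln15_14_3_ok))) (M (nat_lit 490) (B (L (nat_lit 489) ln13_14_1 ln13_14_1_ok) (L (nat_lit 491) ln14_14_1 ln14_14_1_ok))))))) (B (M (nat_lit 458) (B (L (nat_lit 457) ln9_14_2 ln9_14_2_ok) (M (nat_lit 462) (B (M (nat_lit 463) (B (L (nat_lit 427) ln15_14_3 ln15_14_3_ok) (L (nat_lit 464) ln16_14_3 ln16_14_3_ok))) (M (nat_lit 490) (B (L (nat_lit 489) ln13_14_1 ln13_14_1_ok) (L (nat_lit 491) ln14_14_1 ln14_14_1_ok))))))) (B (M (nat_lit 458) (B (L (nat_lit 457) ln9_14_2 ln9_14_2_ok) (M (nat_lit 426) (B (L (nat_lit 425) ln13_14_3 ln13_14_3_ok) (M (nat_lit 490) (B (L (nat_lit 489) ln13_14_1 ln13_14_1_ok) (M (nat_lit 491) (B (L (nat_lit 462) ln14_14_1 ln14_14_1_ok) (M (nat_lit 394) (B (L (nat_lit 362)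 ln10_11_4 ln10_11_4_ok) (L (nat_lit 523) ln10_12_4 ln10_12_4_ok))))))))))) (B (M (nat_lit 458) (B (M (nat_lit 490) (B (L (nat_lit 489) ln13_14_1 ln13_14_1_ok) (M (nat_lit 462) (B (L (nat_lit 491) ln14_14_1 ln14_14_1_ok) (M (nat_lit 426) (B (L (nat_lit 425) ln13_14_3 ln13_14_3_ok) (L (nat_lit 427) ln10_13_0 ln10_13_0_ok))))))) (B (M (nat_lit 462) (B (M (nat_lit 427) (B (L (nat_lit 426) ln10_13_0 ln10_13_0_ok) (L (nat_lit 463) ln15_14_3 ln15_14_3_ok))) (M (nat_lit 490) (B (L (nat_lit 489) ln13_14_1 ln13_14_1_ok) (L (nat_lit 491) ln14_14_1 ln14_14_1_ok))))) (B (M (nat_lit 462) (B (M (nat_lit 463) (B (L (nat_lit 427) ln15_14_3 ln15_14_3_ok) (L (nat_lit 464) ln16_14_3 ln16_14_3_ok))) (M (nat_lit 490) (B (L (nat_lit 489) ln13_14_1 ln13_14_1_ok) (L (nat_lit 491) ln14_14_1 ln14_14_1_ok))))) (B (M (nat_lit 426) (B (L (nat_lit 425) ln13_14_3 ln13_14_3_ok) (M (nat_lit 490) (B (L (nat_lit 489) ln13_14_1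 ln13_14_1_ok) (M (nat_lit 491) (B (L (nat_lit 462) ln14_14_1 ln14_14_1_ok) (M (nat_lit 394) (B (L (nat_lit 362) ln10_11_4 ln10_11_4_ok) (L (nat_lit 523) ln10_12_4 ln10_12_4_ok))))))))) (B (M (nat_lit 490) (B (L (nat_lit 489) ln13_14_1 ln13_14_1_ok) (M (nat_lit 426) (B (L (nat_lit 425) ln13_14_3 ln13_14_3_ok) (M (nat_lit 394) (B (M (nat_lit 393) (B (L (nat_lit 361) ln10_15_7 ln10_15_7_ok) (L (nat_lit 427) ln13_13_3 ln13_13_3_ok))) (M (nat_lit 491) (B (L (nat_lit 362) ln10_11_4 ln10_11_4_ok) (L (nat_lit 523) ln10_12_4 ln10_12_4_ok))))))))) (B (M (nat_lit 426) (B (L (nat_lit 425) ln13_14_3 ln13_14_3_ok) (M (nat_lit 427) (B (L (nat_lit 462) ln10_13_0 ln10_13_0_ok) (M (nat_lit 394) (B (L (nat_lit 393) ln13_13_3 ln13_13_3_ok) (M (nat_lit 362) (B (L (nat_lit 330) ln10_10_4 ln10_10_4_ok) (L (nat_lit 491) ln10_11_4 ln10_11_4_ok))))))))) (M (nat_lit 426) (B (L (nat_lit 425) ln13_14_3 ln13_14_3_ok) (M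 (nat_lit 427) (B (L (nat_lit 462) ln10_13_0 ln10_13_0_ok) (M (nat_lit 490) (B (L (nat_lit 489) ln13_14_1 ln13_14_1_ok) (M (nat_lit 395) (B (L (nat_lit 363) ln11_11_5 ln11_11_5_ok) (L (nat_lit 522) ln10_16_6 ln10_16_6_ok)))))))))))))))) (B (M (nat_lit 427) (B (M (nat_lit 426) (B (L (nat_lit 425) ln9_13_0 ln9_13_0_ok) (L (nat_lit 462) ln10_13_0 ln10_13_0_ok))) (B (M (nat_lit 462) (B (L (nat_lit 426) ln10_13_0 ln10_13_0_ok) (L (nat_lit 463) ln15_14_3 ln15_14_3_ok))) (B (M (nat_lit 491) (B (M (nat_lit 523) (B (L (nat_lit 396) ln11_16_6 ln11_16_6_ok) (L (nat_lit 555) ln11_17_6 ln11_17_6_ok))) (M (nat_lit 462) (B (L (nat_lit 463) ln15_14_3 ln15_14_3_ok) (L (nat_lit 490) ln14_14_1 ln14_14_1_ok))))) (M (nat_lit 426) (B (L (nat_lit 425) ln9_13_0 ln9_13_0_ok) (M (nat_lit 394) (B (L (nat_lit 393) ln13_13_3 ln13_13_3_ok) (M (nat_lit 491) (B (L (nat_lit 523) ln11_16_7 ln11_16_7_ok) (M (nat_lit 362) (B (L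 (nat_lit 330) ln10_10_4 ln10_10_4_ok) (L (nat_lit 395) ln11_15_7 ln11_15_7_ok))))))))))))) (B (M (nat_lit 427) (B (M (nat_lit 426) (B (L (nat_lit 425) ln9_13_0 ln9_13_0_ok) (M (nat_lit 458) (B (L (nat_lit 457) ln13_13_1 ln13_13_1_ok) (M (nat_lit 394) (B (L (nat_lit 393) ln13_13_3 ln13_13_3_ok) (M (nat_lit 362) (B (L (nat_lit 330) ln10_10_4 ln10_10_4_ok) (L (nat_lit 491) ln10_11_4 ln10_11_4_ok))))))))) (B (M (nat_lit 426) (B (L (nat_lit 425) ln9_13_0 ln9_13_0_ok) (M (nat_lit 458) (B (L (nat_lit 457) ln13_13_1 ln13_13_1_ok) (M (nat_lit 394) (B (L (nat_lit 393) ln13_13_3 ln13_13_3_ok) (M (nat_lit 491) (B (L (nat_lit 362) ln10_11_4 ln10_11_4_ok) (L (nat_lit 523) ln11_16_7 ln11_16_7_ok))))))))) (B (M (nat_lit 426) (B (L (nat_lit 425) ln9_13_0 ln9_13_0_ok) (M (nat_lit 458) (B (L (nat_lit 457) ln13_13_1 ln13_13_1_ok) (M (nat_lit 490) (B (L (nat_lit 489) ln13_14_1 ln13_14_1_ok) (M (nat_lit 395) (B (L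 (nat_lit 363) ln11_11_5 ln11_11_5_ok) (L (nat_lit 522) ln10_16_6 ln10_16_6_ok))))))))) (B (M (nat_lit 458) (B (L (nat_lit 457) ln9_14_2 ln9_14_2_ok) (M (nat_lit 490) (B (L (nat_lit 489) ln13_14_1 ln13_14_1_ok) (M (nat_lit 395) (B (L (nat_lit 363) ln11_11_5 ln11_11_5_ok) (M (nat_lit 522) (B (L (nat_lit 426) ln10_16_6 ln10_16_6_ok) (L (nat_lit 491) ln11_12_5 ln11_12_5_ok))))))))) (B (M (nat_lit 458) (B (L (nat_lit 457) ln9_14_2 ln9_14_2_ok) (M (nat_lit 490) (B (L (nat_lit 489) ln13_14_1 ln13_14_1_ok) (M (nat_lit 491) (B (M (nat_lit 395) (B (L (nat_lit 363) ln11_11_5 ln11_11_5_ok) (L (nat_lit 522) ln11_12_5 ln11_12_5_ok))) (M (nat_lit 523) (B (L (nat_lit 396) ln11_16_6 ln11_16_6_ok) (L (nat_lit 555) ln11_17_6 ln11_17_6_ok))))))))) (M (nat_lit 426) (B (L (nat_lit 425) ln9_13_0 ln9_13_0_ok) (M (nat_lit 394) (B (L (nat_lit 393) ln13_13_3 ln13_13_3_ok) (M (nat_lit 491) (B (L (nat_lit 523) ln11_16_7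 ln11_16_7_ok) (M (nat_lit 362) (B (L (nat_lit 330) ln10_10_4 ln10_10_4_ok) (L (nat_lit 395) ln11_15_7 ln11_15_7_ok))))))))))))))) (B (M (nat_lit 458) (B (L (nat_lit 457) ln9_14_2 ln9_14_2_ok) (M (nat_lit 426) (B (L (nat_lit 425) ln13_14_3 ln13_14_3_ok) (M (nat_lit 427) (B (L (nat_lit 462) ln10_13_0 ln10_13_0_ok) (M (nat_lit 394) (B (L (nat_lit 393) ln13_13_3 ln13_13_3_ok) (M (nat_lit 362) (B (L (nat_lit 330) ln10_10_4 ln10_10_4_ok) (L (nat_lit 491) ln10_11_4 ln10_11_4_ok))))))))))) (M (nat_lit 458) (B (L (nat_lit 457) ln9_14_2 ln9_14_2_ok) (M (nat_lit 426) (B (L (nat_lit 425) ln13_14_3 ln13_14_3_ok) (M (nat_lit 427) (B (L (nat_lit 462) ln10_13_0 ln10_13_0_ok) (M (nat_lit 490) (B (L (nat_lit 489) ln13_14_1 ln13_14_1_ok) (M (nat_lit 395) (B (L (nat_lit 363) ln11_11_5 ln11_11_5_ok) (L (nat_lit 522) ln10_16_6 ln10_16_6_ok))))))))))))))))))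
noncomputable def c10_d23 : Cert := (B (M (nat_lit 365) (B (M (nat_lit 333) (B (M (nat_lit 332) (B (L (nat_lit 300) ln13_13_7 ln13_13_7_ok) (L (nat_lit 364) ln13_14_7 ln13_14_7_ok))) (M (nat_lit 460) (B (L (nat_lit 428) ln13_10_5 ln13_10_5_ok) (L (nat_lit 492) ln13_11_5 ln13_11_5_ok))))) (B (M (nat_lit 493) (B (M (nat_lit 364) (B (L (nat_lit 332) ln13_14_7 ln13_14_7_ok) (L (nat_lit 396) ln13_15_7 ln13_15_7_ok))) (M (nat_lit 492) (B (L (nat_lit 460) ln13_11_5 ln13_11_5_ok) (L (nat_lit 524) ln13_12_5 ln13_12_5_ok))))) (B (M (nat_lit 493) (B (M (nat_lit 492) (B (L (nat_lit 460) ln13_11_5 ln13_11_5_ok) (L (nat_lit 524) ln13_12_5 ln13_12_5_ok))) (B (M (nat_lit 525) (B (M (nat_lit 396) (B (L (nat_lit 364) ln13_15_7 ln13_15_7_ok) (L (nat_lit 428) ln13_16_7 ln13_16_7_ok))) (M (nat_lit 524) (B (L (nat_lit 492) ln13_12_5 ln13_12_5_ok) (L (nat_lit 556) ln13_13_5 ln13_13_5_ok))))) (M (nat_lit 396) (B (L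 (nat_lit 364) ln13_15_7 ln13_15_7_ok) (M (nat_lit 428) (B (L (nat_lit 525) ln13_16_7 ln13_16_7_ok) (M (nat_lit 333) (B (L (nat_lit 301) ln13_9_5 ln13_9_5_ok) (L (nat_lit 460) ln13_10_5 ln13_10_5_ok)))))))))) (B (M (nat_lit 333) (B (M (nat_lit 460) (B (L (nat_lit 428) ln13_10_5 ln13_10_5_ok) (L (nat_lit 492) ln13_11_5 ln13_11_5_ok))) (M (nat_lit 301) (B (M (nat_lit 300) (B (L (nat_lit 268) ln13_12_7 ln13_12_7_ok) (L (nat_lit 332) ln13_13_7 ln13_13_7_ok))) (M (nat_lit 302) (B (L (nat_lit 270) ln13_12_6 ln13_12_6_ok) (L (nat_lit 334) ln13_13_6 ln13_13_6_ok))))))) (M (nat_lit 333) (B (M (nat_lit 332) (B (L (nat_lit 300) ln13_13_7 ln13_13_7_ok) (L (nat_lit 364) ln13_14_7 ln13_14_7_ok))) (B (M (nat_lit 364) (B (L (nat_lit 332) ln13_14_7 ln13_14_7_ok) (M (nat_lit 396) (B (L (nat_lit 493) ln13_15_7 ln13_15_7_ok) (M (nat_lit 301) (B (L (nat_lit 269) ln13_8_5 ln13_8_5_ok) (L (nat_lit 428) ln13_9_5 ln13_9_5_ok)))))))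 (B (M (nat_lit 301) (B (M (nat_lit 302) (B (L (nat_lit 270) ln13_12_6 ln13_12_6_ok) (L (nat_lit 334) ln13_13_6 ln13_13_6_ok))) (M (nat_lit 396) (B (L (nat_lit 428) ln13_9_5 ln13_9_5_ok) (M (nat_lit 364) (B (L (nat_lit 269) ln13_8_5 ln13_8_5_ok) (L (nat_lit 493) ln13_15_7 ln13_15_7_ok))))))) (M (nat_lit 301) (B (M (nat_lit 300) (B (L (nat_lit 268) ln13_12_7 ln13_12_7_ok) (L (nat_lit 332) ln13_13_7 ln13_13_7_ok))) (M (nat_lit 302) (B (L (nat_lit 270) ln13_12_6 ln13_12_6_ok) (L (nat_lit 334) ln13_13_6 ln13_13_6_ok)))))))))))))) (B (M (nat_lit 365) (B (M (nat_lit 333) (B (M (nat_lit 332) (B (L (nat_lit 300) ln13_13_7 ln13_13_7_ok) (L (nat_lit 364) ln13_14_7 ln13_14_7_ok))) (M (nat_lit 460) (B (L (nat_lit 428) ln13_10_5 ln13_10_5_ok) (L (nat_lit 492) ln13_11_5 ln13_11_5_ok))))) (B (M (nat_lit 334) (B (L (nat_lit 366) ln13_14_6 ln13_14_6_ok) (M (nat_lit 333) (B (L (nat_lit 302) ln13_13_6 ln13_13_6_ok)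 (M (nat_lit 460) (B (L (nat_lit 428) ln13_10_5 ln13_10_5_ok) (L (nat_lit 492) ln13_11_5 ln13_11_5_ok))))))) (B (M (nat_lit 493) (B (M (nat_lit 366) (B (L (nat_lit 334) ln13_14_6 ln13_14_6_ok) (L (nat_lit 398) ln13_15_6 ln13_15_6_ok))) (M (nat_lit 492) (B (L (nat_lit 460) ln13_11_5 ln13_11_5_ok) (L (nat_lit 524) ln13_12_5 ln13_12_5_ok))))) (M (nat_lit 333) (B (M (nat_lit 332) (B (L (nat_lit 300) ln13_13_7 ln13_13_7_ok) (L (nat_lit 364) ln13_14_7 ln13_14_7_ok))) (M (nat_lit 334) (B (L (nat_lit 302) ln13_13_6 ln13_13_6_ok) (L (nat_lit 366) ln13_14_6 ln13_14_6_ok))))))))) (B (K (nat_lit 5954262830815946494763249298768603811203561774969104571805089223376689777636098861358550851719243481454542035207245364041705138952691777536) (nat_lit 54918381319404923909115250346583018322350893370459679528534775271695593513303341499557500009351684237515074637347497300820963479428595932955333292912042573824) (nat_lit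 54918381319404923909115250346583018322350893370459679528534775271695593513303341499557500009351684237515074637347497300820963479428595932955333292912042573824) c10_s501) (B (M (nat_lit 364) (B (M (nat_lit 332) (B (L (nat_lit 365) ln13_14_7 ln13_14_7_ok) (M (nat_lit 396) (B (L (nat_lit 300) ln12_9_4 ln12_9_4_ok) (L (nat_lit 493) ln13_15_7 ln13_15_7_ok))))) (B (M (nat_lit 332) (B (L (nat_lit 365) ln13_14_7 ln13_14_7_ok) (M (nat_lit 396) (B (L (nat_lit 428) ln12_10_4 ln12_10_4_ok) (L (nat_lit 493) ln13_15_7 ln13_15_7_ok))))) (B (M (nat_lit 398) (B (M (nat_lit 493) (B (L (nat_lit 396) ln13_15_7 ln13_15_7_ok) (L (nat_lit 366) ln13_15_6 ln13_15_6_ok))) (B (M (nat_lit 399) (B (M (nat_lit 396) (B (L (nat_lit 363) ln15_12_3 ln15_12_3_ok) (L (nat_lit 493) ln13_15_7 ln13_15_7_ok))) (M (nat_lit 400) (B (L (nat_lit 365) ln16_12_3 ln16_12_3_ok) (L (nat_lit 428) ln16_12_1 ln16_12_1_ok))))) (B (M (nat_lit 366)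 (B (L (nat_lit 493) ln13_15_6 ln13_15_6_ok) (M (nat_lit 334) (B (L (nat_lit 302) ln14_9_5 ln14_9_5_ok) (L (nat_lit 365) ln13_14_6 ln13_14_6_ok))))) (M (nat_lit 399) (B (M (nat_lit 400) (B (L (nat_lit 365) ln16_12_3 ln16_12_3_ok) (L (nat_lit 428) ln16_12_1 ln16_12_1_ok))) (B (M (nat_lit 396) (B (L (nat_lit 363) ln15_12_3 ln15_12_3_ok) (M (nat_lit 428) (B (L (nat_lit 427) ln15_12_1 ln15_12_1_ok) (L (nat_lit 400) ln16_12_1 ln16_12_1_ok))))) (M (nat_lit 363) (B (L (nat_lit 396) ln15_12_3 ln15_12_3_ok) (M (nat_lit 365) (B (L (nat_lit 362) ln10_11_0 ln10_11_0_ok) (L (nat_lit 366) ln11_11_0 ln11_11_0_ok)))))))))))) (B (M (nat_lit 396) (B (L (nat_lit 493) ln13_15_7 ln13_15_7_ok) (M (nat_lit 332) (B (L (nat_lit 300) ln12_9_4 ln12_9_4_ok) (L (nat_lit 428) ln12_10_4 ln12_10_4_ok))))) (B (M (nat_lit 365) (B (L (nat_lit 332) ln13_14_7 ln13_14_7_ok) (M (nat_lit 366) (B (L (nat_lit 334) ln13_14_6 ln13_14_6_ok)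 (M (nat_lit 398) (B (L (nat_lit 493) ln13_15_6 ln13_15_6_ok) (M (nat_lit 363) (B (L (nat_lit 362) ln10_11_0 ln10_11_0_ok) (L (nat_lit 399) ln11_11_0 ln11_11_0_ok))))))))) (M (nat_lit 332) (B (L (nat_lit 365) ln13_14_7 ln13_14_7_ok) (M (nat_lit 396) (B (L (nat_lit 300) ln12_9_4 ln12_9_4_ok) (L (nat_lit 428) ln12_10_4 ln12_10_4_ok))))))))))) (M (nat_lit 365) (B (M (nat_lit 333) (B (M (nat_lit 332) (B (L (nat_lit 300) ln13_13_7 ln13_13_7_ok) (L (nat_lit 364) ln13_14_7 ln13_14_7_ok))) (M (nat_lit 460) (B (L (nat_lit 428) ln13_10_5 ln13_10_5_ok) (L (nat_lit 492) ln13_11_5 ln13_11_5_ok))))) (B (M (nat_lit 334) (B (L (nat_lit 366) ln13_14_6 ln13_14_6_ok) (M (nat_lit 333) (B (L (nat_lit 302) ln13_13_6 ln13_13_6_ok) (M (nat_lit 460) (B (L (nat_lit 428) ln13_10_5 ln13_10_5_ok) (L (nat_lit 492) ln13_11_5 ln13_11_5_ok))))))) (M (nat_lit 364) (B (L (nat_lit 332) ln13_14_7 ln13_14_7_ok) (M (nat_lit 366) (B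 (L (nat_lit 334) ln13_14_6 ln13_14_6_ok) (M (nat_lit 363) (B (M (nat_lit 398) (B (L (nat_lit 362) ln10_11_0 ln10_11_0_ok) (L (nat_lit 399) ln11_11_0 ln11_11_0_ok))) (B (M (nat_lit 367) (B (M (nat_lit 395) (B (L (nat_lit 394) ln14_11_1 ln14_11_1_ok) (L (nat_lit 396) ln15_11_1 ln15_11_1_ok))) (M (nat_lit 399) (B (L (nat_lit 398) ln11_11_0 ln11_11_0_ok) (L (nat_lit 400) ln12_11_0 ln12_11_0_ok))))) (M (nat_lit 362) (B (M (nat_lit 330) (B (L (nat_lit 329) ln13_11_3 ln13_11_3_ok) (L (nat_lit 331) ln14_11_3 ln14_11_3_ok))) (M (nat_lit 394) (B (L (nat_lit 393) ln13_11_1 ln13_11_1_ok) (L (nat_lit 395) ln14_11_1 ln14_11_1_ok)))))))))))))))))))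
noncomputable def c10_d24 : Cert := (B (M (nat_lit 398) (B (M (nat_lit 493) (B (L (nat_lit 366) ln13_15_6 ln13_15_6_ok) (M (nat_lit 396) (B (L (nat_lit 364) ln13_15_7 ln13_15_7_ok) (M (nat_lit 428) (B (L (nat_lit 525) ln13_16_7 ln13_16_7_ok) (M (nat_lit 399) (B (L (nat_lit 427) ln15_12_1 ln15_12_1_ok) (L (nat_lit 400) ln16_12_1 ln16_12_1_ok))))))))) (B (M (nat_lit 493) (B (L (nat_lit 366) ln13_15_6 ln13_15_6_ok) (M (nat_lit 525) (B (M (nat_lit 524) (B (L (nat_lit 492) ln13_12_5 ln13_12_5_ok) (L (nat_lit 556) ln13_13_5 ln13_13_5_ok))) (M (nat_lit 557) (B (M (nat_lit 428) (B (L (nat_lit 396) ln13_16_7 ln13_16_7_ok) (L (nat_lit 460) ln13_17_7 ln13_17_7_ok))) (M (nat_lit 558) (B (L (nat_lit 526) ln13_13_4 ln13_13_4_ok) (L (nat_lit 590) ln13_14_4 ln13_14_4_ok))))))))) (B (M (nat_lit 399) (B (M (nat_lit 428) (B (L (nat_lit 400) ln16_12_1 ln16_12_1_ok) (M (nat_lit 427) (B (L (nat_lit 396) ln15_12_1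 ln15_12_1_ok) (L (nat_lit 426) ln10_13_2 ln10_13_2_ok))))) (B (M (nat_lit 400) (B (L (nat_lit 428) ln16_12_1 ln16_12_1_ok) (M (nat_lit 401) (B (M (nat_lit 369) (B (L (nat_lit 368) ln13_12_2 ln13_12_2_ok) (L (nat_lit 370) ln14_12_2 ln14_12_2_ok))) (M (nat_lit 433) (B (L (nat_lit 432) ln13_12_0 ln13_12_0_ok) (L (nat_lit 434) ln14_12_0 ln14_12_0_ok))))))) (B (M (nat_lit 365) (B (M (nat_lit 364) (B (L (nat_lit 332) ln13_14_7 ln13_14_7_ok) (M (nat_lit 363) (B (L (nat_lit 362) ln10_11_0 ln10_11_0_ok) (L (nat_lit 396) ln15_12_3 ln15_12_3_ok))))) (B (M (nat_lit 428) (B (M (nat_lit 460) (B (L (nat_lit 333) ln13_10_5 ln13_10_5_ok) (L (nat_lit 492) ln13_11_5 ln13_11_5_ok))) (M (nat_lit 427) (B (L (nat_lit 396) ln15_12_1 ln15_12_1_ok) (L (nat_lit 426) ln10_13_2 ln10_13_2_ok))))) (M (nat_lit 333) (B (M (nat_lit 332) (B (L (nat_lit 300) ln13_13_7 ln13_13_7_ok) (L (nat_lit 364) ln13_14_7 ln13_14_7_ok))) (M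 (nat_lit 460) (B (L (nat_lit 428) ln13_10_5 ln13_10_5_ok) (L (nat_lit 492) ln13_11_5 ln13_11_5_ok)))))))) (M (nat_lit 364) (B (M (nat_lit 365) (B (L (nat_lit 332) ln13_14_7 ln13_14_7_ok) (L (nat_lit 400) ln16_12_3 ln16_12_3_ok))) (M (nat_lit 396) (B (L (nat_lit 363) ln15_12_3 ln15_12_3_ok) (L (nat_lit 493) ln13_15_7 ln13_15_7_ok))))))))) (B (M (nat_lit 365) (B (M (nat_lit 492) (B (L (nat_lit 460) ln13_11_5 ln13_11_5_ok) (M (nat_lit 493) (B (L (nat_lit 366) ln13_15_6 ln13_15_6_ok) (L (nat_lit 524) ln13_12_5 ln13_12_5_ok))))) (B (M (nat_lit 333) (B (M (nat_lit 332) (B (L (nat_lit 300) ln13_13_7 ln13_13_7_ok) (L (nat_lit 364) ln13_14_7 ln13_14_7_ok))) (M (nat_lit 460) (B (L (nat_lit 428) ln13_10_5 ln13_10_5_ok) (L (nat_lit 492) ln13_11_5 ln13_11_5_ok))))) (M (nat_lit 366) (B (L (nat_lit 493) ln13_15_6 ln13_15_6_ok) (M (nat_lit 364) (B (L (nat_lit 332) ln13_14_7 ln13_14_7_ok) (M (nat_lit 363) (B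 (L (nat_lit 362) ln10_11_0 ln10_11_0_ok) (L (nat_lit 399) ln11_11_0 ln11_11_0_ok)))))))))) (B (M (nat_lit 493) (B (L (nat_lit 366) ln13_15_6 ln13_15_6_ok) (M (nat_lit 365) (B (M (nat_lit 364) (B (L (nat_lit 332) ln13_14_7 ln13_14_7_ok) (L (nat_lit 396) ln13_15_7 ln13_15_7_ok))) (M (nat_lit 492) (B (L (nat_lit 460) ln13_11_5 ln13_11_5_ok) (L (nat_lit 524) ln13_12_5 ln13_12_5_ok))))))) (M (nat_lit 399) (B (M (nat_lit 428) (B (L (nat_lit 400) ln16_12_1 ln16_12_1_ok) (M (nat_lit 427) (B (L (nat_lit 396) ln15_12_1 ln15_12_1_ok) (L (nat_lit 426) ln10_13_2 ln10_13_2_ok))))) (B (M (nat_lit 400) (B (L (nat_lit 428) ln16_12_1 ln16_12_1_ok) (M (nat_lit 401) (B (M (nat_lit 369) (B (L (nat_lit 368) ln13_12_2 ln13_12_2_ok) (L (nat_lit 370) ln14_12_2 ln14_12_2_ok))) (M (nat_lit 433) (B (L (nat_lit 432) ln13_12_0 ln13_12_0_ok) (L (nat_lit 434) ln14_12_0 ln14_12_0_ok))))))) (B (M (nat_lit 365) (B (M (nat_lit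 364) (B (L (nat_lit 332) ln13_14_7 ln13_14_7_ok) (M (nat_lit 363) (B (L (nat_lit 362) ln10_11_0 ln10_11_0_ok) (L (nat_lit 366) ln11_11_0 ln11_11_0_ok))))) (M (nat_lit 428) (B (M (nat_lit 460) (B (L (nat_lit 333) ln13_10_5 ln13_10_5_ok) (L (nat_lit 492) ln13_11_5 ln13_11_5_ok))) (M (nat_lit 427) (B (L (nat_lit 396) ln15_12_1 ln15_12_1_ok) (L (nat_lit 426) ln10_13_2 ln10_13_2_ok))))))) (M (nat_lit 396) (B (M (nat_lit 364) (B (L (nat_lit 363) ln15_12_3 ln15_12_3_ok) (M (nat_lit 332) (B (L (nat_lit 300) ln12_9_4 ln12_9_4_ok) (L (nat_lit 365) ln13_14_7 ln13_14_7_ok))))) (B (M (nat_lit 364) (B (L (nat_lit 363) ln15_12_3 ln15_12_3_ok) (M (nat_lit 365) (B (L (nat_lit 332) ln13_14_7 ln13_14_7_ok) (L (nat_lit 400) ln16_12_3 ln16_12_3_ok))))) (B (M (nat_lit 400) (B (M (nat_lit 364) (B (L (nat_lit 363) ln15_12_3 ln15_12_3_ok) (L (nat_lit 365) ln16_12_3 ln16_12_3_ok))) (M (nat_lit 432) (B (L (nat_lit 431)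 ln12_12_0 ln12_12_0_ok) (L (nat_lit 433) ln13_12_0 ln13_12_0_ok))))) (M (nat_lit 432) (B (L (nat_lit 431) ln12_12_0 ln12_12_0_ok) (M (nat_lit 400) (B (L (nat_lit 433) ln13_12_0 ln13_12_0_ok) (M (nat_lit 368) (B (L (nat_lit 367) ln12_12_2 ln12_12_2_ok) (L (nat_lit 369) ln13_12_2 ln13_12_2_ok))))))))))))))))))))) (B (M (nat_lit 365) (B (M (nat_lit 493) (B (M (nat_lit 366) (B (L (nat_lit 334) ln13_14_6 ln13_14_6_ok) (L (nat_lit 398) ln13_15_6 ln13_15_6_ok))) (M (nat_lit 492) (B (L (nat_lit 460) ln13_11_5 ln13_11_5_ok) (L (nat_lit 524) ln13_12_5 ln13_12_5_ok))))) (B (M (nat_lit 460) (B (L (nat_lit 492) ln13_11_5 ln13_11_5_ok) (M (nat_lit 428) (B (L (nat_lit 333) ln13_10_5 ln13_10_5_ok) (M (nat_lit 459) (B (M (nat_lit 458) (B (L (nat_lit 457) ln9_14_2 ln9_14_2_ok) (M (nat_lit 490) (B (L (nat_lit 489) ln13_14_1 ln13_14_1_ok) (M (nat_lit 462) (B (L (nat_lit 491) ln14_14_1 ln14_14_1_ok) (M (nat_lit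 426) (B (L (nat_lit 425) ln13_14_3 ln13_14_3_ok) (L (nat_lit 427) ln10_13_0 ln10_13_0_ok))))))))) c10_d22)))))) (M (nat_lit 366) (B (L (nat_lit 334) ln13_14_6 ln13_14_6_ok) (M (nat_lit 398) (B (L (nat_lit 493) ln13_15_6 ln13_15_6_ok) (M (nat_lit 396) (B (M (nat_lit 367) (B (L (nat_lit 368) ln16_11_1 ln16_11_1_ok) (L (nat_lit 395) ln11_12_2 ln11_12_2_ok))) (B (M (nat_lit 399) (B (M (nat_lit 400) (B (L (nat_lit 401) ln17_12_3 ln17_12_3_ok) (L (nat_lit 428) ln16_12_1 ln16_12_1_ok))) (B (M (nat_lit 427) (B (L (nat_lit 428) ln15_12_1 ln15_12_1_ok) (M (nat_lit 395) (B (L (nat_lit 394) ln10_12_2 ln10_12_2_ok) (L (nat_lit 426) ln14_12_1 ln14_12_1_ok))))) (M (nat_lit 400) (B (L (nat_lit 401) ln17_12_3 ln17_12_3_ok) (M (nat_lit 432) (B (L (nat_lit 431) ln12_12_0 ln12_12_0_ok) (L (nat_lit 433) ln13_12_0 ln13_12_0_ok)))))))) (M (nat_lit 399) (B (M (nat_lit 400) (B (L (nat_lit 401) ln17_12_3 ln17_12_3_ok)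 (L (nat_lit 428) ln16_12_1 ln16_12_1_ok))) (B (M (nat_lit 431) (B (L (nat_lit 432) ln12_12_0 ln12_12_0_ok) (M (nat_lit 463) (B (L (nat_lit 495) ln15_15_7 ln15_15_7_ok) (M (nat_lit 464) (B (M (nat_lit 367) (B (L (nat_lit 368) ln16_11_1 ln16_11_1_ok) (L (nat_lit 496) ln15_11_4 ln15_11_4_ok))) (M (nat_lit 428) (B (L (nat_lit 427) ln15_12_1 ln15_12_1_ok) (L (nat_lit 462) ln16_14_3 ln16_14_3_ok))))))))) (M (nat_lit 400) (B (L (nat_lit 401) ln17_12_3 ln17_12_3_ok) (M (nat_lit 432) (B (L (nat_lit 431) ln12_12_0 ln12_12_0_ok) (L (nat_lit 433) ln13_12_0 ln13_12_0_ok)))))))))))))))))) (B (K (nat_lit 5954262830815946494763249298768603811203561774969104571805089223376689777636098861358550851719243481454542035207245364041705138952691777536) (nat_lit 235872651740128270218237321482061224168596640388969519237922572227973076643784911458758023214138525538825346504643074814754306769387264092678993132533628257313811857408)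 (nat_lit 235872651740128270218237321482061224168596640388969519237922572227973076643784911458758023214138525538825346504643074814754306769387264092678993132533628257313811857408) c10_s574) c10_d23)))
noncomputable def c10_d25 : Cert := (B (M (nat_lit 524) (B (L (nat_lit 556) ln13_13_5 ln13_13_5_ok) (M (nat_lit 526) (B (L (nat_lit 558) ln13_13_4 ln13_13_4_ok) (M (nat_lit 523) (B (M (nat_lit 494) (B (L (nat_lit 495) ln11_16_2 ln11_16_2_ok) (L (nat_lit 522) ln10_16_2 ln10_16_2_ok))) (B (M (nat_lit 522) (B (L (nat_lit 494) ln10_16_2 ln10_16_2_ok) (M (nat_lit 554) (B (L (nat_lit 555) ln14_16_1 ln14_16_1_ok) (L (nat_lit 553) ln13_16_1 ln13_16_1_ok))))) (B (M (nat_lit 522) (B (M (nat_lit 554) (B (L (nat_lit 555) ln14_16_1 ln14_16_1_ok) (L (nat_lit 553) ln13_16_1 ln13_16_1_ok))) (M (nat_lit 489) (B (L (nat_lit 490) ln13_16_3 ln13_16_3_ok) (M (nat_lit 521) (B (L (nat_lit 492) ln9_16_2 ln9_16_2_ok) (L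 (nat_lit 488) ln12_16_3 ln12_16_3_ok))))))) (M (nat_lit 527) (B (M (nat_lit 495) (B (L (nat_lit 496) ln12_16_2 ln12_16_2_ok) (L (nat_lit 494) ln11_16_2 ln11_16_2_ok))) (M (nat_lit 528) (B (L (nat_lit 492) ln16_16_3 ln16_16_3_ok) (M (nat_lit 560) (B (L (nat_lit 561) ln13_16_0 ln13_16_0_ok) (L (nat_lit 559) ln12_16_0 ln12_16_0_ok))))))))))))))) (B (M (nat_lit 557) (B (M (nat_lit 556) (B (L (nat_lit 588) ln13_14_5 ln13_14_5_ok) (M (nat_lit 428) (B (L (nat_lit 460) ln13_17_7 ln13_17_7_ok) (L (nat_lit 396) ln13_16_7 ln13_16_7_ok))))) (B (M (nat_lit 460) (B (L (nat_lit 428) ln13_17_7 ln13_17_7_ok) (M (nat_lit 589) (B (L (nat_lit 492) ln13_18_7 ln13_18_7_ok) (M (nat_lit 588) (B (L (nat_lit 556) ln13_14_5 ln13_14_5_ok) (L (nat_lit 620) ln13_15_5_c10 ln13_15_5_c10_ok))))))) (B (M (nat_lit 589) (B (M (nat_lit 588) (B (L (nat_lit 556) ln13_14_5 ln13_14_5_ok) (L (nat_lit 620) ln13_15_5_c10 ln13_15_5_c10_ok)))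 (M (nat_lit 621) (B (M (nat_lit 494) (B (L (nat_lit 462) ln13_18_6 ln13_18_6_ok) (L (nat_lit 526) ln13_19_6_c10 ln13_19_6_c10_ok))) (M (nat_lit 492) (B (L (nat_lit 460) ln13_18_7 ln13_18_7_ok) (L (nat_lit 524) ln13_19_7 ln13_19_7_ok))))))) (B (M (nat_lit 524) (B (L (nat_lit 556) ln13_13_5 ln13_13_5_ok) (M (nat_lit 494) (B (M (nat_lit 495) (B (L (nat_lit 496) ln16_15_1 ln16_15_1_ok) (M (nat_lit 523) (B (L (nat_lit 492) ln15_15_1 ln15_15_1_ok) (L (nat_lit 522) ln10_16_2 ln10_16_2_ok))))) (B (M (nat_lit 523) (B (L (nat_lit 522) ln10_16_2 ln10_16_2_ok) (M (nat_lit 495) (B (L (nat_lit 492) ln15_15_1 ln15_15_1_ok) (L (nat_lit 526) ln11_16_2 ln11_16_2_ok))))) (B (M (nat_lit 589) (B (L (nat_lit 462) ln13_18_6 ln13_18_6_ok) (M (nat_lit 621) (B (L (nat_lit 526) ln13_19_6_c10 ln13_19_6_c10_ok) (L (nat_lit 492) ln13_19_7 ln13_19_7_ok))))) (M (nat_lit 495) (B (L (nat_lit 496) ln16_15_1 ln16_15_1_ok) (M (nat_lit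 523) (B (L (nat_lit 526) ln11_16_2 ln11_16_2_ok) (L (nat_lit 522) ln10_16_2 ln10_16_2_ok))))))))))) (M (nat_lit 494) (B (M (nat_lit 589) (B (L (nat_lit 462) ln13_18_6 ln13_18_6_ok) (M (nat_lit 460) (B (L (nat_lit 428) ln13_17_7 ln13_17_7_ok) (L (nat_lit 492) ln13_18_7 ln13_18_7_ok))))) (B (M (nat_lit 589) (B (L (nat_lit 462) ln13_18_6 ln13_18_6_ok) (M (nat_lit 621) (B (L (nat_lit 526) ln13_19_6_c10 ln13_19_6_c10_ok) (M (nat_lit 492) (B (L (nat_lit 460) ln13_18_7 ln13_18_7_ok) (L (nat_lit 524) ln13_19_7 ln13_19_7_ok))))))) (B (M (nat_lit 460) (B (L (nat_lit 428) ln13_17_7 ln13_17_7_ok) (M (nat_lit 459) (B (L (nat_lit 458) ln10_14_0 ln10_14_0_ok) (M (nat_lit 495) (B (L (nat_lit 496) ln16_15_3 ln16_15_3_ok) (L (nat_lit 492) ln15_15_3 ln15_15_3_ok))))))) (B (M (nat_lit 524) (B (M (nat_lit 589) (B (L (nat_lit 462) ln13_18_6 ln13_18_6_ok) (M (nat_lit 621) (B (L (nat_lit 526) ln13_19_6_c10 ln13_19_6_c10_ok)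 (L (nat_lit 492) ln13_19_7 ln13_19_7_ok))))) (B (M (nat_lit 495) (B (L (nat_lit 496) ln16_15_1 ln16_15_1_ok) (M (nat_lit 523) (B (L (nat_lit 526) ln11_16_2 ln11_16_2_ok) (L (nat_lit 522) ln10_16_2 ln10_16_2_ok))))) (M (nat_lit 495) (B (L (nat_lit 496) ln16_15_1 ln16_15_1_ok) (M (nat_lit 523) (B (L (nat_lit 492) ln15_15_1 ln15_15_1_ok) (L (nat_lit 522) ln10_16_2 ln10_16_2_ok)))))))) (M (nat_lit 462) (B (L (nat_lit 589) ln13_18_6 ln13_18_6_ok) (M (nat_lit 460) (B (L (nat_lit 428) ln13_17_7 ln13_17_7_ok) (M (nat_lit 495) (B (L (nat_lit 459) ln11_14_0 ln11_14_0_ok) (L (nat_lit 496) ln16_15_3 ln16_15_3_ok))))))))))))))))) (M (nat_lit 557) (B (M (nat_lit 558) (B (L (nat_lit 590) ln13_14_4 ln13_14_4_ok) (L (nat_lit 526) ln13_13_4 ln13_13_4_ok))) (B (M (nat_lit 460) (B (L (nat_lit 428) ln13_17_7 ln13_17_7_ok) (M (nat_lit 589) (B (L (nat_lit 492) ln13_18_7 ln13_18_7_ok) (M (nat_lit 590) (B (L (nat_lit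 558) ln13_14_4 ln13_14_4_ok) (L (nat_lit 622) ln13_15_4_c10 ln13_15_4_c10_ok))))))) (M (nat_lit 494) (B (M (nat_lit 589) (B (L (nat_lit 462) ln13_18_6 ln13_18_6_ok) (M (nat_lit 460) (B (L (nat_lit 428) ln13_17_7 ln13_17_7_ok) (L (nat_lit 492) ln13_18_7 ln13_18_7_ok))))) (B (M (nat_lit 589) (B (L (nat_lit 462) ln13_18_6 ln13_18_6_ok) (M (nat_lit 621) (B (L (nat_lit 526) ln13_19_6_c10 ln13_19_6_c10_ok) (M (nat_lit 492) (B (L (nat_lit 460) ln13_18_7 ln13_18_7_ok) (L (nat_lit 524) ln13_19_7 ln13_19_7_ok))))))) (B (M (nat_lit 524) (B (M (nat_lit 495) (B (L (nat_lit 496) ln16_15_1 ln16_15_1_ok) (M (nat_lit 523) (B (L (nat_lit 492) ln15_15_1 ln15_15_1_ok) (L (nat_lit 522) ln10_16_2 ln10_16_2_ok))))) (B (M (nat_lit 495) (B (L (nat_lit 496) ln16_15_1 ln16_15_1_ok) (M (nat_lit 523) (B (L (nat_lit 522) ln10_16_2 ln10_16_2_ok) (L (nat_lit 526) ln11_16_2 ln11_16_2_ok))))) (M (nat_lit 589) (B (L (nat_lit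 462) ln13_18_6 ln13_18_6_ok) (M (nat_lit 621) (B (L (nat_lit 492) ln13_19_7 ln13_19_7_ok) (L (nat_lit 526) ln13_19_6_c10 ln13_19_6_c10_ok)))))))) (B (M (nat_lit 460) (B (L (nat_lit 428) ln13_17_7 ln13_17_7_ok) (M (nat_lit 492) (B (L (nat_lit 589) ln13_18_7 ln13_18_7_ok) (M (nat_lit 459) (B (L (nat_lit 458) ln10_14_0 ln10_14_0_ok) (L (nat_lit 495) ln15_15_3 ln15_15_3_ok))))))) (B (M (nat_lit 462) (B (L (nat_lit 589) ln13_18_6 ln13_18_6_ok) (M (nat_lit 460) (B (L (nat_lit 428) ln13_17_7 ln13_17_7_ok) (M (nat_lit 495) (B (L (nat_lit 459) ln11_14_0 ln11_14_0_ok) (L (nat_lit 496) ln16_15_3 ln16_15_3_ok))))))) (M (nat_lit 460) (B (L (nat_lit 428) ln13_17_7 ln13_17_7_ok) (M (nat_lit 459) (B (L (nat_lit 458) ln10_14_0 ln10_14_0_ok) (M (nat_lit 495) (B (L (nat_lit 492) ln15_15_3 ln15_15_3_ok) (L (nat_lit 496) ln16_15_3 ln16_15_3_ok))))))))))))))))))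
noncomputable def c10_d26 : Cert := (B (M (nat_lit 495) (B (M (nat_lit 460) (B (L (nat_lit 496) ln16_15_3 ln16_15_3_ok) (M (nat_lit 459) (B (L (nat_lit 462) ln11_14_0 ln11_14_0_ok) (L (nat_lit 458) ln10_14_0 ln10_14_0_ok))))) (B (M (nat_lit 460) (B (L (nat_lit 496) ln16_15_3 ln16_15_3_ok) (M (nat_lit 459) (B (L (nat_lit 458) ln10_14_0 ln10_14_0_ok) (L (nat_lit 492) ln15_15_3 ln15_15_3_ok))))) (B (M (nat_lit 496) (B (M (nat_lit 497) (B (L (nat_lit 462) ln17_15_3 ln17_15_3_ok) (M (nat_lit 465) (B (L (nat_lit 466) ln14_15_2_c10 ln14_15_2_c10_ok) (L (nat_lit 464) ln13_15_2 ln13_15_2_ok))))) (B (M (nat_lit 497) (B (L (nat_lit 462) ln17_15_3 ln17_15_3_ok) (M (nat_lit 529) (B (L (nat_lit 530) ln14_15_0 ln14_15_0_ok) (L (nat_lit 528) ln13_15_0 ln13_15_0_ok))))) (M (nat_lit 492) (B (M (nat_lit 464) (B (L (nat_lit 465) ln13_15_2 ln13_15_2_ok) (L (nat_lit 463) ln12_15_2 ln12_15_2_ok))) (M (nat_lit 528)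 (B (L (nat_lit 529) ln13_15_0 ln13_15_0_ok) (L (nat_lit 527) ln12_15_0 ln12_15_0_ok)))))))) (M (nat_lit 463) (B (M (nat_lit 464) (B (L (nat_lit 492) ln12_15_2 ln12_15_2_ok) (M (nat_lit 465) (B (L (nat_lit 466) ln18_14_1_c10 ln18_14_1_c10_ok) (L (nat_lit 462) ln17_14_1 ln17_14_1_ok))))) (B (M (nat_lit 492) (B (L (nat_lit 464) ln12_15_2 ln12_15_2_ok) (M (nat_lit 459) (B (L (nat_lit 460) ln15_15_3 ln15_15_3_ok) (M (nat_lit 491) (B (L (nat_lit 462) ln11_15_2 ln11_15_2_ok) (L (nat_lit 458) ln14_15_3 ln14_15_3_ok))))))) (B (M (nat_lit 492) (B (M (nat_lit 459) (B (L (nat_lit 460) ln15_15_3 ln15_15_3_ok) (M (nat_lit 491) (B (L (nat_lit 462) ln11_15_2 ln11_15_2_ok) (L (nat_lit 458) ln14_15_3 ln14_15_3_ok))))) (B (M (nat_lit 491) (B (M (nat_lit 459) (B (L (nat_lit 460) ln15_15_3 ln15_15_3_ok) (L (nat_lit 458) ln14_15_3 ln14_15_3_ok))) (M (nat_lit 527) (B (L (nat_lit 528) ln12_15_0 ln12_15_0_ok) (L (nat_lit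 526) ln11_15_0 ln11_15_0_ok))))) (B (M (nat_lit 491) (B (L (nat_lit 462) ln11_15_2 ln11_15_2_ok) (M (nat_lit 527) (B (L (nat_lit 528) ln12_15_0 ln12_15_0_ok) (L (nat_lit 526) ln11_15_0 ln11_15_0_ok))))) (M (nat_lit 431) (B (M (nat_lit 526) (B (L (nat_lit 399) ln15_12_5 ln15_12_5_ok) (M (nat_lit 527) (B (L (nat_lit 558) ln15_13_5_c10 ln15_13_5_c10_ok) (L (nat_lit 528) ln12_15_0 ln12_15_0_ok))))) (B (M (nat_lit 432) (B (M (nat_lit 527) (B (L (nat_lit 400) ln15_16_6 ln15_16_6_ok) (L (nat_lit 528) ln12_15_0 ln12_15_0_ok))) (M (nat_lit 460) (B (L (nat_lit 462) ln12_14_2 ln12_14_2_ok) (L (nat_lit 459) ln15_15_3 ln15_15_3_ok))))) (B (M (nat_lit 526) (B (L (nat_lit 399) ln15_12_5 ln15_12_5_ok) (M (nat_lit 558) (B (L (nat_lit 462) ln14_17_6_c10 ln14_17_6_c10_ok) (L (nat_lit 527) ln15_13_5_c10 ln15_13_5_c10_ok))))) (M (nat_lit 526) (B (L (nat_lit 399) ln15_12_5 ln15_12_5_ok) (M (nat_lit 558) (B (L (nat_lit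 462) ln14_17_6_c10 ln14_17_6_c10_ok) (L (nat_lit 525) ln13_13_4 ln13_13_4_ok))))))))))))) (B (M (nat_lit 526) (B (M (nat_lit 558) (B (L (nat_lit 525) ln13_13_4 ln13_13_4_ok) (L (nat_lit 590) ln14_18_6 ln14_18_6_ok))) (M (nat_lit 492) (B (L (nat_lit 464) ln12_15_2 ln12_15_2_ok) (M (nat_lit 527) (B (L (nat_lit 528) ln12_15_0 ln12_15_0_ok) (L (nat_lit 491) ln11_15_0 ln11_15_0_ok))))))) (M (nat_lit 431) (B (M (nat_lit 526) (B (L (nat_lit 399) ln15_12_5 ln15_12_5_ok) (M (nat_lit 558) (B (L (nat_lit 462) ln14_17_6_c10 ln14_17_6_c10_ok) (L (nat_lit 527) ln15_13_5_c10 ln15_13_5_c10_ok))))) (B (M (nat_lit 527) (B (M (nat_lit 526) (B (L (nat_lit 558) ln15_13_5_c10 ln15_13_5_c10_ok) (M (nat_lit 528) (B (L (nat_lit 560) ln15_13_4_c10 ln15_13_4_c10_ok) (L (nat_lit 529) ln17_16_3 ln17_16_3_ok))))) (M (nat_lit 464) (B (M (nat_lit 432) (B (L (nat_lit 400) ln15_16_6 ln15_16_6_ok) (L (nat_lit 559) ln15_17_6 ln15_17_6_ok)))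 (M (nat_lit 465) (B (L (nat_lit 466) ln18_14_1_c10 ln18_14_1_c10_ok) (L (nat_lit 462) ln17_14_1 ln17_14_1_ok))))))) (B (M (nat_lit 526) (B (L (nat_lit 399) ln15_12_5 ln15_12_5_ok) (M (nat_lit 558) (B (L (nat_lit 527) ln15_13_5_c10 ln15_13_5_c10_ok) (L (nat_lit 525) ln13_13_4 ln13_13_4_ok))))) (B (M (nat_lit 526) (B (L (nat_lit 399) ln15_12_5 ln15_12_5_ok) (M (nat_lit 558) (B (L (nat_lit 462) ln14_17_6_c10 ln14_17_6_c10_ok) (L (nat_lit 525) ln13_13_4 ln13_13_4_ok))))) (M (nat_lit 432) (B (M (nat_lit 400) (B (L (nat_lit 527) ln15_16_6 ln15_16_6_ok) (M (nat_lit 368) (B (L (nat_lit 336) ln16_10_5 ln16_10_5_ok) (L (nat_lit 464) ln16_11_5_c10 ln16_11_5_c10_ok))))) (B (M (nat_lit 400) (B (L (nat_lit 527) ln15_16_6 ln15_16_6_ok) (M (nat_lit 368) (B (L (nat_lit 399) ln15_15_6 ln15_15_6_ok) (L (nat_lit 464) ln16_11_5_c10 ln16_11_5_c10_ok))))) (B (M (nat_lit 462) (B (L (nat_lit 460) ln12_14_2 ln12_14_2_ok)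 (M (nat_lit 433) (B (L (nat_lit 434) ln18_13_1_c10 ln18_13_1_c10_ok) (L (nat_lit 464) ln13_14_2 ln13_14_2_ok))))) (M (nat_lit 400) (B (L (nat_lit 527) ln15_16_6 ln15_16_6_ok) (M (nat_lit 368) (B (L (nat_lit 336) ln16_10_5 ln16_10_5_ok) (L (nat_lit 399) ln15_15_6 ln15_15_6_ok))))))))))))))))))))))) (M (nat_lit 495) (B (M (nat_lit 460) (B (L (nat_lit 496) ln16_15_3 ln16_15_3_ok) (M (nat_lit 459) (B (L (nat_lit 492) ln15_15_3 ln15_15_3_ok) (L (nat_lit 462) ln11_14_0 ln11_14_0_ok))))) (B (M (nat_lit 492) (B (M (nat_lit 524) (B (L (nat_lit 523) ln15_15_1 ln15_15_1_ok) (L (nat_lit 397) ln13_12_5 ln13_12_5_ok))) (M (nat_lit 491) (B (M (nat_lit 463) (B (L (nat_lit 464) ln12_15_2 ln12_15_2_ok) (L (nat_lit 462) ln11_15_2 ln11_15_2_ok))) (M (nat_lit 459) (B (L (nat_lit 460) ln15_15_3 ln15_15_3_ok) (L (nat_lit 458) ln14_15_3 ln14_15_3_ok))))))) (B (M (nat_lit 460) (B (L (nat_lit 496) ln16_15_3 ln16_15_3_ok)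 (M (nat_lit 459) (B (L (nat_lit 462) ln11_14_0 ln11_14_0_ok) (L (nat_lit 458) ln10_14_0 ln10_14_0_ok))))) (B (M (nat_lit 460) (B (L (nat_lit 496) ln16_15_3 ln16_15_3_ok) (M (nat_lit 459) (B (L (nat_lit 492) ln15_15_3 ln15_15_3_ok) (L (nat_lit 458) ln10_14_0 ln10_14_0_ok))))) (M (nat_lit 492) (B (M (nat_lit 524) (B (L (nat_lit 523) ln15_15_1 ln15_15_1_ok) (L (nat_lit 397) ln13_12_5 ln13_12_5_ok))) (M (nat_lit 496) (B (M (nat_lit 528) (B (L (nat_lit 529) ln13_15_0 ln13_15_0_ok) (L (nat_lit 527) ln12_15_0 ln12_15_0_ok))) (M (nat_lit 464) (B (L (nat_lit 465) ln13_15_2 ln13_15_2_ok) (L (nat_lit 463) ln12_15_2 ln12_15_2_ok)))))))))))))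
noncomputable def c10_d27 : Cert := (B (M (nat_lit 525) (B (K (nat_lit 109836762587663119569853283975596282477217051242993142772519430893275632835127418117645511049141086917723837108972134280466351228802204252878131328343068377088) (nat_lit 21755412192866237635013494701831267599713925146033952691050477804137352877448377917105995862059072174205876031217520932383553874112923747473237012648661550616429814839327677527774606655488) (nat_lit 21755412192866237635013494701831267599713925146033952691050477804137352877448377917105995862059072174205876031217520932383553874112923747473237012648661550616429814839327677527774606655488) c10_s593) (B (M (nat_lit 557) (B (M (nat_lit 558) (B (L (nat_lit 590) ln13_14_4 ln13_14_4_ok) (L (nat_lit 526) ln13_13_4 ln13_13_4_ok))) (B (M (nat_lit 589) (B (M (nat_lit 588) (B (L (nat_lit 620) ln13_15_5_c10 ln13_15_5_c10_ok) (L (nat_lit 556) ln13_14_5 ln13_14_5_ok))) (M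 (nat_lit 494) (B (L (nat_lit 462) ln13_18_6 ln13_18_6_ok) (M (nat_lit 526) (B (L (nat_lit 621) ln13_19_6_c10 ln13_19_6_c10_ok) (L (nat_lit 397) ln13_12_4 ln13_12_4_ok))))))) (M (nat_lit 589) (B (M (nat_lit 590) (B (L (nat_lit 622) ln13_15_4_c10 ln13_15_4_c10_ok) (L (nat_lit 558) ln13_14_4 ln13_14_4_ok))) (M (nat_lit 588) (B (L (nat_lit 620) ln13_15_5_c10 ln13_15_5_c10_ok) (L (nat_lit 556) ln13_14_5 ln13_14_5_ok)))))))) (B (M (nat_lit 557) (B (M (nat_lit 428) (B (L (nat_lit 396) ln13_16_7 ln13_16_7_ok) (L (nat_lit 460) ln13_17_7 ln13_17_7_ok))) (B (M (nat_lit 589) (B (M (nat_lit 460) (B (L (nat_lit 428) ln13_17_7 ln13_17_7_ok) (L (nat_lit 492) ln13_18_7 ln13_18_7_ok))) (M (nat_lit 588) (B (L (nat_lit 556) ln13_14_5 ln13_14_5_ok) (L (nat_lit 620) ln13_15_5_c10 ln13_15_5_c10_ok))))) (M (nat_lit 589) (B (M (nat_lit 588) (B (L (nat_lit 556) ln13_14_5 ln13_14_5_ok) (L (nat_lit 620) ln13_15_5_c10 ln13_15_5_c10_ok)))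 (M (nat_lit 526) (B (L (nat_lit 558) ln13_13_4 ln13_13_4_ok) (M (nat_lit 494) (B (L (nat_lit 462) ln13_18_6 ln13_18_6_ok) (L (nat_lit 621) ln13_19_6_c10 ln13_19_6_c10_ok)))))))))) (B (M (nat_lit 557) (B (M (nat_lit 558) (B (L (nat_lit 590) ln13_14_4 ln13_14_4_ok) (L (nat_lit 526) ln13_13_4 ln13_13_4_ok))) (M (nat_lit 428) (B (L (nat_lit 460) ln13_17_7 ln13_17_7_ok) (L (nat_lit 396) ln13_16_7 ln13_16_7_ok))))) (B (M (nat_lit 557) (B (M (nat_lit 428) (B (L (nat_lit 460) ln13_17_7 ln13_17_7_ok) (L (nat_lit 396) ln13_16_7 ln13_16_7_ok))) (M (nat_lit 589) (B (M (nat_lit 588) (B (L (nat_lit 620) ln13_15_5_c10 ln13_15_5_c10_ok) (L (nat_lit 556) ln13_14_5 ln13_14_5_ok))) (M (nat_lit 494) (B (L (nat_lit 462) ln13_18_6 ln13_18_6_ok) (M (nat_lit 526) (B (L (nat_lit 621) ln13_19_6_c10 ln13_19_6_c10_ok) (L (nat_lit 397) ln13_12_4 ln13_12_4_ok))))))))) (M (nat_lit 526) (B (L (nat_lit 558) ln13_13_4 ln13_13_4_ok)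 (M (nat_lit 494) (B (L (nat_lit 397) ln13_12_4 ln13_12_4_ok) (M (nat_lit 492) (B (M (nat_lit 527) (B (L (nat_lit 491) ln11_15_0 ln11_15_0_ok) (L (nat_lit 528) ln16_16_3 ln16_16_3_ok))) (B (M (nat_lit 491) (B (L (nat_lit 490) ln10_15_0 ln10_15_0_ok) (L (nat_lit 527) ln11_15_0 ln11_15_0_ok))) (B (M (nat_lit 491) (B (L (nat_lit 490) ln10_15_0 ln10_15_0_ok) (M (nat_lit 523) (B (L (nat_lit 522) ln14_15_1 ln14_15_1_ok) (M (nat_lit 459) (B (L (nat_lit 458) ln14_15_3 ln14_15_3_ok) (M (nat_lit 460) (B (L (nat_lit 495) ln15_15_3 ln15_15_3_ok) (M (nat_lit 428) (B (L (nat_lit 396) ln12_12_4 ln12_12_4_ok) (L (nat_lit 555) ln11_17_6 ln11_17_6_ok))))))))))) (M (nat_lit 495) (B (M (nat_lit 460) (B (L (nat_lit 459) ln15_15_3 ln15_15_3_ok) (M (nat_lit 463) (B (L (nat_lit 464) ln12_15_2 ln12_15_2_ok) (M (nat_lit 462) (B (M (nat_lit 428) (B (L (nat_lit 396) ln12_12_4 ln12_12_4_ok) (L (nat_lit 427) ln15_14_3 ln15_14_3_ok)))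 (M (nat_lit 431) (B (L (nat_lit 399) ln15_12_5 ln15_12_5_ok) (L (nat_lit 432) ln12_14_2 ln12_14_2_ok))))))))) (B (M (nat_lit 496) (B (L (nat_lit 497) ln17_15_1 ln17_15_1_ok) (M (nat_lit 464) (B (L (nat_lit 465) ln13_15_2 ln13_15_2_ok) (L (nat_lit 463) ln12_15_2 ln12_15_2_ok))))) (M (nat_lit 460) (B (L (nat_lit 496) ln16_15_3 ln16_15_3_ok) (L (nat_lit 459) ln15_15_3 ln15_15_3_ok)))))))))))))))))))) (M (nat_lit 525) (B (M (nat_lit 557) (B (M (nat_lit 589) (B (M (nat_lit 460) (B (L (nat_lit 428) ln13_17_7 ln13_17_7_ok) (L (nat_lit 492) ln13_18_7 ln13_18_7_ok))) (M (nat_lit 590) (B (L (nat_lit 558) ln13_14_4 ln13_14_4_ok) (L (nat_lit 622) ln13_15_4_c10 ln13_15_4_c10_ok))))) (B (M (nat_lit 588) (B (L (nat_lit 556) ln13_14_5 ln13_14_5_ok) (M (nat_lit 589) (B (L (nat_lit 620) ln13_15_5_c10 ln13_15_5_c10_ok) (M (nat_lit 590) (B (L (nat_lit 558) ln13_14_4 ln13_14_4_ok) (L (nat_lit 622) ln13_15_4_c10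 ln13_15_4_c10_ok))))))) (B (M (nat_lit 589) (B (M (nat_lit 460) (B (L (nat_lit 428) ln13_17_7 ln13_17_7_ok) (L (nat_lit 492) ln13_18_7 ln13_18_7_ok))) (M (nat_lit 588) (B (L (nat_lit 556) ln13_14_5 ln13_14_5_ok) (L (nat_lit 620) ln13_15_5_c10 ln13_15_5_c10_ok))))) (M (nat_lit 428) (B (L (nat_lit 396) ln13_16_7 ln13_16_7_ok) (L (nat_lit 460) ln13_17_7 ln13_17_7_ok))))))) (B (M (nat_lit 557) (B (M (nat_lit 460) (B (L (nat_lit 428) ln13_17_7 ln13_17_7_ok) (M (nat_lit 588) (B (L (nat_lit 556) ln13_14_5 ln13_14_5_ok) (M (nat_lit 589) (B (L (nat_lit 620) ln13_15_5_c10 ln13_15_5_c10_ok) (L (nat_lit 492) ln13_18_7 ln13_18_7_ok))))))) (B (M (nat_lit 589) (B (M (nat_lit 590) (B (L (nat_lit 622) ln13_15_4_c10 ln13_15_4_c10_ok) (L (nat_lit 558) ln13_14_4 ln13_14_4_ok))) (M (nat_lit 460) (B (L (nat_lit 492) ln13_18_7 ln13_18_7_ok) (L (nat_lit 428) ln13_17_7 ln13_17_7_ok))))) (M (nat_lit 556) (B (L (nat_lit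 588) ln13_14_5 ln13_14_5_ok) (L (nat_lit 524) ln13_13_5 ln13_13_5_ok)))))) (B (M (nat_lit 557) (B (M (nat_lit 428) (B (L (nat_lit 396) ln13_16_7 ln13_16_7_ok) (L (nat_lit 460) ln13_17_7 ln13_17_7_ok))) (M (nat_lit 556) (B (L (nat_lit 524) ln13_13_5 ln13_13_5_ok) (L (nat_lit 588) ln13_14_5 ln13_14_5_ok))))) (B (M (nat_lit 428) (B (L (nat_lit 396) ln13_16_7 ln13_16_7_ok) (M (nat_lit 460) (B (L (nat_lit 557) ln13_17_7 ln13_17_7_ok) (M (nat_lit 462) (B (M (nat_lit 463) (B (L (nat_lit 427) ln15_14_3 ln15_14_3_ok) (L (nat_lit 464) ln16_14_3 ln16_14_3_ok))) (B (M (nat_lit 459) (B (M (nat_lit 494) (B (L (nat_lit 458) ln10_14_0 ln10_14_0_ok) (L (nat_lit 495) ln11_14_0 ln11_14_0_ok))) (B (M (nat_lit 458) (B (L (nat_lit 457) ln9_14_2 ln9_14_2_ok) (M (nat_lit 490) (B (L (nat_lit 489) ln13_14_1 ln13_14_1_ok) (L (nat_lit 491) ln14_14_1 ln14_14_1_ok))))) (M (nat_lit 491) (B (L (nat_lit 490) ln14_14_1 ln14_14_1_ok)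 (M (nat_lit 523) (B (L (nat_lit 555) ln11_17_6 ln11_17_6_ok) (M (nat_lit 522) (B (M (nat_lit 427) (B (L (nat_lit 554) ln11_13_5 ln11_13_5_ok) (L (nat_lit 426) ln10_13_0 ln10_13_0_ok))) (M (nat_lit 494) (B (L (nat_lit 524) ln10_16_2 ln10_16_2_ok) (L (nat_lit 495) ln11_14_0 ln11_14_0_ok)))))))))))) (M (nat_lit 459) (B (M (nat_lit 494) (B (L (nat_lit 458) ln10_14_0 ln10_14_0_ok) (L (nat_lit 495) ln11_14_0 ln11_14_0_ok))) (B (M (nat_lit 458) (B (L (nat_lit 457) ln9_14_2 ln9_14_2_ok) (M (nat_lit 490) (B (L (nat_lit 489) ln13_14_1 ln13_14_1_ok) (L (nat_lit 491) ln14_14_1 ln14_14_1_ok))))) (M (nat_lit 495) (B (L (nat_lit 494) ln11_14_0 ln11_14_0_ok) (M (nat_lit 463) (B (L (nat_lit 496) ln12_14_0 ln12_14_0_ok) (L (nat_lit 464) ln16_14_3 ln16_14_3_ok))))))))))))))) (B (M (nat_lit 524) (B (L (nat_lit 556) ln13_13_5 ln13_13_5_ok) (M (nat_lit 492) (B (L (nat_lit 397) ln13_12_5 ln13_12_5_ok) (M (nat_lit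 494) (B (M (nat_lit 495) (B (L (nat_lit 523) ln15_15_1 ln15_15_1_ok) (L (nat_lit 496) ln16_15_1 ln16_15_1_ok))) (B (M (nat_lit 491) (B (M (nat_lit 462) (B (L (nat_lit 490) ln10_15_2 ln10_15_2_ok) (L (nat_lit 463) ln11_15_2 ln11_15_2_ok))) (B (M (nat_lit 490) (B (L (nat_lit 489) ln9_15_0 ln9_15_0_ok) (M (nat_lit 458) (B (L (nat_lit 457) ln13_15_3 ln13_15_3_ok) (L (nat_lit 459) ln14_15_3 ln14_15_3_ok))))) (M (nat_lit 459) (B (L (nat_lit 458) ln14_15_3 ln14_15_3_ok) (M (nat_lit 427) (B (L (nat_lit 395) ln11_12_4 ln11_12_4_ok) (M (nat_lit 426) (B (M (nat_lit 523) (B (L (nat_lit 394) ln11_16_7 ln11_16_7_ok) (L (nat_lit 522) ln14_15_1 ln14_15_1_ok))) (M (nat_lit 462) (B (L (nat_lit 428) ln10_13_0 ln10_13_0_ok) (L (nat_lit 463) ln11_15_2 ln11_15_2_ok)))))))))))) (M (nat_lit 491) (B (M (nat_lit 462) (B (L (nat_lit 490) ln10_15_2 ln10_15_2_ok) (L (nat_lit 463) ln11_15_2 ln11_15_2_ok))) (B (M (nat_lit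 490) (B (L (nat_lit 489) ln9_15_0 ln9_15_0_ok) (M (nat_lit 458) (B (L (nat_lit 457) ln13_15_3 ln13_15_3_ok) (L (nat_lit 459) ln14_15_3 ln14_15_3_ok))))) (M (nat_lit 463) (B (L (nat_lit 462) ln11_15_2 ln11_15_2_ok) (M (nat_lit 495) (B (L (nat_lit 464) ln12_15_2 ln12_15_2_ok) (L (nat_lit 496) ln16_15_1 ln16_15_1_ok))))))))))))))) (M (nat_lit 557) (B (M (nat_lit 556) (B (L (nat_lit 588) ln13_14_5 ln13_14_5_ok) (L (nat_lit 524) ln13_13_5 ln13_13_5_ok))) (B (M (nat_lit 524) (B (L (nat_lit 556) ln13_13_5 ln13_13_5_ok) (M (nat_lit 492) (B (L (nat_lit 397) ln13_12_5 ln13_12_5_ok) (M (nat_lit 589) (B (L (nat_lit 621) ln13_19_7 ln13_19_7_ok) (L (nat_lit 460) ln13_18_7 ln13_18_7_ok))))))) (B (M (nat_lit 589) (B (M (nat_lit 590) (B (L (nat_lit 622) ln13_15_4_c10 ln13_15_4_c10_ok) (L (nat_lit 558) ln13_14_4 ln13_14_4_ok))) (M (nat_lit 492) (B (L (nat_lit 460) ln13_18_7 ln13_18_7_ok) (M (nat_lit 524) (B (L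 (nat_lit 621) ln13_19_7 ln13_19_7_ok) (L (nat_lit 397) ln13_12_5 ln13_12_5_ok))))))) (M (nat_lit 589) (B (M (nat_lit 588) (B (L (nat_lit 620) ln13_15_5_c10 ln13_15_5_c10_ok) (L (nat_lit 556) ln13_14_5 ln13_14_5_ok))) (M (nat_lit 590) (B (L (nat_lit 622) ln13_15_4_c10 ln13_15_4_c10_ok) (L (nat_lit 558) ln13_14_4 ln13_14_4_ok))))))))))))))))
noncomputable def c10_d28 : Cert := (B (M (nat_lit 494) (B (M (nat_lit 526) (B (L (nat_lit 397) ln13_12_4 ln13_12_4_ok) (M (nat_lit 558) (B (L (nat_lit 462) ln14_17_7 ln14_17_7_ok) (L (nat_lit 590) ln14_18_7 ln14_18_7_ok))))) (B (M (nat_lit 495) (B (M (nat_lit 460) (B (L (nat_lit 496) ln16_15_3 ln16_15_3_ok) (M (nat_lit 459) (B (L (nat_lit 458) ln10_14_0 ln10_14_0_ok) (L (nat_lit 492) ln15_15_3 ln15_15_3_ok))))) (B (M (nat_lit 460) (B (L (nat_lit 496) ln16_15_3 ln16_15_3_ok) (M (nat_lit 459) (B (L (nat_lit 462) ln11_14_0 ln11_14_0_ok) (L (nat_lit 492) ln15_15_3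 ln15_15_3_ok))))) (B (M (nat_lit 496) (B (L (nat_lit 460) ln16_15_3 ln16_15_3_ok) (M (nat_lit 497) (B (L (nat_lit 462) ln17_15_3 ln17_15_3_ok) (M (nat_lit 465) (B (L (nat_lit 464) ln13_15_2 ln13_15_2_ok) (L (nat_lit 466) ln14_15_2_c10 ln14_15_2_c10_ok))))))) (B (M (nat_lit 492) (B (M (nat_lit 527) (B (L (nat_lit 528) ln12_15_0 ln12_15_0_ok) (M (nat_lit 491) (B (L (nat_lit 526) ln11_15_0 ln11_15_0_ok) (M (nat_lit 523) (B (L (nat_lit 522) ln14_15_1 ln14_15_1_ok) (L (nat_lit 524) ln15_15_1 ln15_15_1_ok))))))) (B (M (nat_lit 496) (B (M (nat_lit 528) (B (L (nat_lit 527) ln12_15_0 ln12_15_0_ok) (L (nat_lit 529) ln13_15_0 ln13_15_0_ok))) (M (nat_lit 465) (B (L (nat_lit 464) ln13_15_2 ln13_15_2_ok) (M (nat_lit 497) (B (L (nat_lit 462) ln17_15_3 ln17_15_3_ok) (L (nat_lit 466) ln14_15_2_c10 ln14_15_2_c10_ok))))))) (M (nat_lit 491) (B (M (nat_lit 523) (B (L (nat_lit 522) ln14_15_1 ln14_15_1_ok) (L (nat_lit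 524) ln15_15_1 ln15_15_1_ok))) (M (nat_lit 490) (B (L (nat_lit 462) ln10_15_2 ln10_15_2_ok) (M (nat_lit 458) (B (L (nat_lit 457) ln13_15_3 ln13_15_3_ok) (L (nat_lit 459) ln14_15_3 ln14_15_3_ok)))))))))) (M (nat_lit 492) (B (M (nat_lit 524) (B (L (nat_lit 523) ln15_15_1 ln15_15_1_ok) (M (nat_lit 460) (B (L (nat_lit 556) ln12_17_6 ln12_17_6_ok) (L (nat_lit 459) ln15_15_3 ln15_15_3_ok))))) (B (M (nat_lit 527) (B (L (nat_lit 528) ln12_15_0 ln12_15_0_ok) (M (nat_lit 491) (B (L (nat_lit 526) ln11_15_0 ln11_15_0_ok) (M (nat_lit 523) (B (L (nat_lit 522) ln14_15_1 ln14_15_1_ok) (L (nat_lit 524) ln15_15_1 ln15_15_1_ok))))))) (M (nat_lit 491) (B (M (nat_lit 459) (B (L (nat_lit 458) ln14_15_3 ln14_15_3_ok) (L (nat_lit 460) ln15_15_3 ln15_15_3_ok))) (M (nat_lit 527) (B (L (nat_lit 526) ln11_15_0 ln11_15_0_ok) (L (nat_lit 528) ln12_15_0 ln12_15_0_ok))))))))))))) (B (M (nat_lit 492) (B (M (nat_lit 397) (B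 (L (nat_lit 524) ln13_12_5 ln13_12_5_ok) (L (nat_lit 526) ln13_12_4 ln13_12_4_ok))) (B (M (nat_lit 495) (B (M (nat_lit 460) (B (L (nat_lit 459) ln15_15_3 ln15_15_3_ok) (L (nat_lit 496) ln16_15_3 ln16_15_3_ok))) (M (nat_lit 527) (B (L (nat_lit 528) ln12_15_0 ln12_15_0_ok) (M (nat_lit 491) (B (L (nat_lit 526) ln11_15_0 ln11_15_0_ok) (M (nat_lit 523) (B (L (nat_lit 522) ln14_15_1 ln14_15_1_ok) (L (nat_lit 524) ln15_15_1 ln15_15_1_ok))))))))) (B (M (nat_lit 491) (B (M (nat_lit 526) (B (L (nat_lit 397) ln13_12_4 ln13_12_4_ok) (L (nat_lit 527) ln11_15_0 ln11_15_0_ok))) (M (nat_lit 490) (B (M (nat_lit 458) (B (L (nat_lit 457) ln13_15_3 ln13_15_3_ok) (L (nat_lit 459) ln14_15_3 ln14_15_3_ok))) (M (nat_lit 522) (B (L (nat_lit 521) ln13_15_1 ln13_15_1_ok) (L (nat_lit 523) ln14_15_1 ln14_15_1_ok))))))) (M (nat_lit 524) (B (L (nat_lit 397) ln13_12_5 ln13_12_5_ok) (M (nat_lit 556) (B (L (nat_lit 460) ln12_17_6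 ln12_17_6_ok) (L (nat_lit 588) ln12_18_6 ln12_18_6_ok))))))))) (M (nat_lit 492) (B (M (nat_lit 524) (B (L (nat_lit 397) ln13_12_5 ln13_12_5_ok) (M (nat_lit 556) (B (L (nat_lit 460) ln12_17_6 ln12_17_6_ok) (L (nat_lit 588) ln12_18_6 ln12_18_6_ok))))) (B (M (nat_lit 491) (B (M (nat_lit 490) (B (L (nat_lit 462) ln10_15_2 ln10_15_2_ok) (M (nat_lit 458) (B (L (nat_lit 457) ln13_15_3 ln13_15_3_ok) (L (nat_lit 459) ln14_15_3 ln14_15_3_ok))))) (B (M (nat_lit 490) (B (L (nat_lit 462) ln10_15_2 ln10_15_2_ok) (M (nat_lit 522) (B (L (nat_lit 521) ln13_15_1 ln13_15_1_ok) (L (nat_lit 523) ln14_15_1 ln14_15_1_ok))))) (M (nat_lit 495) (B (M (nat_lit 459) (B (L (nat_lit 458) ln14_15_3 ln14_15_3_ok) (L (nat_lit 460) ln15_15_3 ln15_15_3_ok))) (M (nat_lit 523) (B (L (nat_lit 522) ln14_15_1 ln14_15_1_ok) (L (nat_lit 524) ln15_15_1 ln15_15_1_ok)))))))) (B (M (nat_lit 524) (B (L (nat_lit 397) ln13_12_5 ln13_12_5_ok)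 (M (nat_lit 523) (B (L (nat_lit 495) ln15_15_1 ln15_15_1_ok) (M (nat_lit 522) (B (L (nat_lit 491) ln14_15_1 ln14_15_1_ok) (L (nat_lit 521) ln9_16_2 ln9_16_2_ok))))))) (M (nat_lit 495) (B (M (nat_lit 460) (B (L (nat_lit 459) ln15_15_3 ln15_15_3_ok) (L (nat_lit 496) ln16_15_3 ln16_15_3_ok))) (B (M (nat_lit 496) (B (L (nat_lit 460) ln16_15_3 ln16_15_3_ok) (M (nat_lit 528) (B (L (nat_lit 527) ln12_15_0 ln12_15_0_ok) (L (nat_lit 529) ln13_15_0 ln13_15_0_ok))))) (B (M (nat_lit 496) (B (M (nat_lit 528) (B (L (nat_lit 527) ln12_15_0 ln12_15_0_ok) (L (nat_lit 529) ln13_15_0 ln13_15_0_ok))) (M (nat_lit 465) (B (L (nat_lit 464) ln13_15_2 ln13_15_2_ok) (M (nat_lit 497) (B (L (nat_lit 462) ln17_15_3 ln17_15_3_ok) (L (nat_lit 466) ln14_15_2_c10 ln14_15_2_c10_ok))))))) (M (nat_lit 491) (B (M (nat_lit 459) (B (L (nat_lit 458) ln14_15_3 ln14_15_3_ok) (L (nat_lit 460) ln15_15_3 ln15_15_3_ok))) (M (nat_lit 490)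 (B (L (nat_lit 462) ln10_15_2 ln10_15_2_ok) (M (nat_lit 522) (B (L (nat_lit 521) ln13_15_1 ln13_15_1_ok) (L (nat_lit 523) ln14_15_1 ln14_15_1_ok))))))))))))))))))) (B (M (nat_lit 525) (B (M (nat_lit 428) (B (L (nat_lit 396) ln13_16_7 ln13_16_7_ok) (M (nat_lit 557) (B (L (nat_lit 460) ln13_17_7 ln13_17_7_ok) (M (nat_lit 556) (B (L (nat_lit 524) ln13_13_5 ln13_13_5_ok) (L (nat_lit 588) ln13_14_5 ln13_14_5_ok))))))) (B (M (nat_lit 524) (B (L (nat_lit 556) ln13_13_5 ln13_13_5_ok) (M (nat_lit 494) (B (M (nat_lit 397) (B (L (nat_lit 526) ln13_12_4 ln13_12_4_ok) (L (nat_lit 492) ln13_12_5 ln13_12_5_ok))) (B (M (nat_lit 495) (B (L (nat_lit 496) ln16_15_1 ln16_15_1_ok) (M (nat_lit 523) (B (L (nat_lit 492) ln15_15_1 ln15_15_1_ok) (L (nat_lit 522) ln10_16_2 ln10_16_2_ok))))) (M (nat_lit 526) (B (L (nat_lit 397) ln13_12_4 ln13_12_4_ok) (M (nat_lit 495) (B (L (nat_lit 496) ln16_15_1 ln16_15_1_ok) (L (nat_lit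 523) ln11_16_2 ln11_16_2_ok)))))))))) (M (nat_lit 460) (B (M (nat_lit 428) (B (L (nat_lit 396) ln13_16_7 ln13_16_7_ok) (L (nat_lit 557) ln13_17_7 ln13_17_7_ok))) (M (nat_lit 494) (B (M (nat_lit 459) (B (L (nat_lit 458) ln10_14_0 ln10_14_0_ok) (M (nat_lit 495) (B (L (nat_lit 462) ln11_14_0 ln11_14_0_ok) (L (nat_lit 496) ln16_15_3 ln16_15_3_ok))))) (B (M (nat_lit 459) (B (L (nat_lit 458) ln10_14_0 ln10_14_0_ok) (M (nat_lit 495) (B (L (nat_lit 496) ln16_15_3 ln16_15_3_ok) (L (nat_lit 492) ln15_15_3 ln15_15_3_ok))))) (M (nat_lit 397) (B (L (nat_lit 526) ln13_12_4 ln13_12_4_ok) (M (nat_lit 365) (B (L (nat_lit 462) ln13_11_4 ln13_11_4_ok) (L (nat_lit 492) ln13_11_5 ln13_11_5_ok))))))))))))) (B (M (nat_lit 494) (B (M (nat_lit 526) (B (L (nat_lit 397) ln13_12_4 ln13_12_4_ok) (M (nat_lit 558) (B (L (nat_lit 590) ln14_18_7 ln14_18_7_ok) (L (nat_lit 525) ln13_13_4 ln13_13_4_ok))))) (B (M (nat_lit 526)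 (B (L (nat_lit 397) ln13_12_4 ln13_12_4_ok) (M (nat_lit 558) (B (L (nat_lit 525) ln13_13_4 ln13_13_4_ok) (L (nat_lit 462) ln14_17_7 ln14_17_7_ok))))) (B (M (nat_lit 526) (B (L (nat_lit 397) ln13_12_4 ln13_12_4_ok) (M (nat_lit 558) (B (L (nat_lit 590) ln14_18_7 ln14_18_7_ok) (L (nat_lit 462) ln14_17_7 ln14_17_7_ok))))) c10_d26)))) c10_d27)))
noncomputable def c10_d29 : Cert := (B (M (nat_lit 524) (B (M (nat_lit 492) (B (L (nat_lit 397) ln13_12_5 ln13_12_5_ok) (M (nat_lit 556) (B (L (nat_lit 588) ln12_18_6 ln12_18_6_ok) (L (nat_lit 525) ln13_13_5 ln13_13_5_ok))))) (B (M (nat_lit 525) (B (L (nat_lit 556) ln13_13_5 ln13_13_5_ok) (M (nat_lit 526) (B (L (nat_lit 558) ln13_13_4 ln13_13_4_ok) (M (nat_lit 494) (B (L (nat_lit 397) ln13_12_4 ln13_12_4_ok) (M (nat_lit 523) (B (L (nat_lit 522) ln10_16_2 ln10_16_2_ok) (L (nat_lit 495) ln11_16_2 ln11_16_2_ok))))))))) (B (M (nat_lit 494) (B (M (nat_lit 397)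 (B (L (nat_lit 492) ln13_12_5 ln13_12_5_ok) (L (nat_lit 526) ln13_12_4 ln13_12_4_ok))) (B (M (nat_lit 526) (B (L (nat_lit 397) ln13_12_4 ln13_12_4_ok) (M (nat_lit 525) (B (L (nat_lit 558) ln13_13_4 ln13_13_4_ok) (M (nat_lit 495) (B (L (nat_lit 523) ln11_16_2 ln11_16_2_ok) (L (nat_lit 496) ln16_15_1 ln16_15_1_ok))))))) (B (M (nat_lit 495) (B (M (nat_lit 496) (B (L (nat_lit 460) ln16_15_3 ln16_15_3_ok) (L (nat_lit 525) ln16_15_1 ln16_15_1_ok))) (B (M (nat_lit 525) (B (L (nat_lit 496) ln16_15_1 ln16_15_1_ok) (M (nat_lit 523) (B (L (nat_lit 492) ln15_15_1 ln15_15_1_ok) (L (nat_lit 526) ln11_16_2 ln11_16_2_ok))))) (B (M (nat_lit 460) (B (L (nat_lit 496) ln16_15_3 ln16_15_3_ok) (M (nat_lit 492) (B (L (nat_lit 459) ln15_15_3 ln15_15_3_ok) (L (nat_lit 523) ln15_15_1 ln15_15_1_ok))))) (M (nat_lit 523) (B (L (nat_lit 492) ln15_15_1 ln15_15_1_ok) (M (nat_lit 525) (B (L (nat_lit 522) ln10_16_2 ln10_16_2_ok)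 (L (nat_lit 526) ln11_16_2 ln11_16_2_ok))))))))) (M (nat_lit 495) (B (M (nat_lit 492) (B (L (nat_lit 523) ln15_15_1 ln15_15_1_ok) (L (nat_lit 397) ln13_12_5 ln13_12_5_ok))) (M (nat_lit 496) (B (L (nat_lit 460) ln16_15_3 ln16_15_3_ok) (L (nat_lit 525) ln16_15_1 ln16_15_1_ok))))))))) (B (M (nat_lit 556) (B (L (nat_lit 525) ln13_13_5 ln13_13_5_ok) (M (nat_lit 492) (B (L (nat_lit 460) ln12_17_6 ln12_17_6_ok) (L (nat_lit 588) ln12_18_6 ln12_18_6_ok))))) (M (nat_lit 492) (B (L (nat_lit 397) ln13_12_5 ln13_12_5_ok) (M (nat_lit 556) (B (L (nat_lit 460) ln12_17_6 ln12_17_6_ok) (L (nat_lit 588) ln12_18_6 ln12_18_6_ok)))))))))) (B (M (nat_lit 526) (B (M (nat_lit 494) (B (L (nat_lit 397) ln13_12_4 ln13_12_4_ok) (M (nat_lit 558) (B (L (nat_lit 590) ln14_18_7 ln14_18_7_ok) (L (nat_lit 525) ln13_13_4 ln13_13_4_ok))))) (B (M (nat_lit 525) (B (L (nat_lit 558) ln13_13_4 ln13_13_4_ok) (M (nat_lit 524) (B (L (nat_lit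 556) ln13_13_5 ln13_13_5_ok) (M (nat_lit 492) (B (L (nat_lit 397) ln13_12_5 ln13_12_5_ok) (M (nat_lit 527) (B (L (nat_lit 528) ln16_16_3 ln16_16_3_ok) (L (nat_lit 491) ln15_16_3 ln15_16_3_ok))))))))) (B (M (nat_lit 492) (B (M (nat_lit 397) (B (L (nat_lit 494) ln13_12_4 ln13_12_4_ok) (L (nat_lit 524) ln13_12_5 ln13_12_5_ok))) (B (M (nat_lit 524) (B (L (nat_lit 397) ln13_12_5 ln13_12_5_ok) (M (nat_lit 525) (B (L (nat_lit 556) ln13_13_5 ln13_13_5_ok) (M (nat_lit 491) (B (L (nat_lit 527) ln15_16_3 ln15_16_3_ok) (L (nat_lit 490) ln10_15_0 ln10_15_0_ok))))))) (B (M (nat_lit 491) (B (M (nat_lit 490) (B (L (nat_lit 462) ln10_15_2 ln10_15_2_ok) (L (nat_lit 525) ln10_15_0 ln10_15_0_ok))) (B (M (nat_lit 525) (B (L (nat_lit 490) ln10_15_0 ln10_15_0_ok) (M (nat_lit 527) (B (L (nat_lit 494) ln11_15_0 ln11_15_0_ok) (L (nat_lit 524) ln15_16_3 ln15_16_3_ok))))) (B (M (nat_lit 462) (B (L (nat_lit 490) ln10_15_2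 ln10_15_2_ok) (M (nat_lit 494) (B (L (nat_lit 463) ln11_15_2 ln11_15_2_ok) (L (nat_lit 527) ln11_15_0 ln11_15_0_ok))))) (M (nat_lit 527) (B (L (nat_lit 494) ln11_15_0 ln11_15_0_ok) (M (nat_lit 525) (B (L (nat_lit 528) ln16_16_3 ln16_16_3_ok) (L (nat_lit 524) ln15_16_3 ln15_16_3_ok))))))))) (M (nat_lit 491) (B (M (nat_lit 494) (B (L (nat_lit 527) ln11_15_0 ln11_15_0_ok) (L (nat_lit 397) ln13_12_4 ln13_12_4_ok))) (M (nat_lit 490) (B (L (nat_lit 462) ln10_15_2 ln10_15_2_ok) (L (nat_lit 525) ln10_15_0 ln10_15_0_ok))))))))) (B (M (nat_lit 558) (B (L (nat_lit 525) ln13_13_4 ln13_13_4_ok) (M (nat_lit 494) (B (L (nat_lit 462) ln14_17_7 ln14_17_7_ok) (L (nat_lit 590) ln14_18_7 ln14_18_7_ok))))) (M (nat_lit 494) (B (L (nat_lit 397) ln13_12_4 ln13_12_4_ok) (M (nat_lit 558) (B (L (nat_lit 462) ln14_17_7 ln14_17_7_ok) (L (nat_lit 590) ln14_18_7 ln14_18_7_ok)))))))))) (B (M (nat_lit 525) (B (M (nat_lit 557)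 (B (M (nat_lit 556) (B (L (nat_lit 588) ln13_14_5 ln13_14_5_ok) (L (nat_lit 524) ln13_13_5 ln13_13_5_ok))) (M (nat_lit 558) (B (L (nat_lit 590) ln13_14_4 ln13_14_4_ok) (L (nat_lit 526) ln13_13_4 ln13_13_4_ok))))) (B (M (nat_lit 558) (B (L (nat_lit 526) ln13_13_4 ln13_13_4_ok) (M (nat_lit 557) (B (L (nat_lit 590) ln13_14_4 ln13_14_4_ok) (M (nat_lit 428) (B (L (nat_lit 460) ln13_17_7 ln13_17_7_ok) (L (nat_lit 396) ln13_16_7 ln13_16_7_ok))))))) (B (M (nat_lit 557) (B (M (nat_lit 556) (B (L (nat_lit 588) ln13_14_5 ln13_14_5_ok) (L (nat_lit 524) ln13_13_5 ln13_13_5_ok))) (M (nat_lit 428) (B (L (nat_lit 460) ln13_17_7 ln13_17_7_ok) (L (nat_lit 396) ln13_16_7 ln13_16_7_ok))))) (M (nat_lit 526) (B (L (nat_lit 558) ln13_13_4 ln13_13_4_ok) (M (nat_lit 524) (B (L (nat_lit 556) ln13_13_5 ln13_13_5_ok) (M (nat_lit 523) (B (M (nat_lit 494) (B (L (nat_lit 522) ln10_16_2 ln10_16_2_ok) (L (nat_lit 495) ln11_16_2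 ln11_16_2_ok))) (B (M (nat_lit 527) (B (M (nat_lit 495) (B (L (nat_lit 494) ln11_16_2 ln11_16_2_ok) (L (nat_lit 496) ln12_16_2 ln12_16_2_ok))) (B (M (nat_lit 528) (B (M (nat_lit 560) (B (L (nat_lit 559) ln12_16_0 ln12_16_0_ok) (L (nat_lit 561) ln13_16_0 ln13_16_0_ok))) (M (nat_lit 496) (B (L (nat_lit 495) ln12_16_2 ln12_16_2_ok) (L (nat_lit 497) ln13_16_2 ln13_16_2_ok))))) (B (M (nat_lit 528) (B (M (nat_lit 560) (B (L (nat_lit 559) ln12_16_0 ln12_16_0_ok) (L (nat_lit 561) ln13_16_0 ln13_16_0_ok))) (M (nat_lit 529) (B (L (nat_lit 494) ln17_16_3 ln17_16_3_ok) (M (nat_lit 497) (B (L (nat_lit 496) ln13_16_2 ln13_16_2_ok) (L (nat_lit 498) ln14_16_2 ln14_16_2_ok))))))) (M (nat_lit 528) (B (M (nat_lit 560) (B (L (nat_lit 559) ln12_16_0 ln12_16_0_ok) (L (nat_lit 561) ln13_16_0 ln13_16_0_ok))) (M (nat_lit 494) (B (L (nat_lit 495) ln11_16_2 ln11_16_2_ok) (L (nat_lit 529) ln17_16_3 ln17_16_3_ok)))))))))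 (M (nat_lit 522) (B (M (nat_lit 554) (B (L (nat_lit 553) ln13_16_1 ln13_16_1_ok) (L (nat_lit 555) ln14_16_1 ln14_16_1_ok))) (M (nat_lit 490) (B (L (nat_lit 489) ln13_16_3 ln13_16_3_ok) (L (nat_lit 491) ln14_16_3 ln14_16_3_ok)))))))))))))))) (B (M (nat_lit 525) (B (M (nat_lit 428) (B (L (nat_lit 396) ln13_16_7 ln13_16_7_ok) (M (nat_lit 556) (B (L (nat_lit 524) ln13_13_5 ln13_13_5_ok) (M (nat_lit 557) (B (L (nat_lit 588) ln13_14_5 ln13_14_5_ok) (L (nat_lit 460) ln13_17_7 ln13_17_7_ok))))))) (B (M (nat_lit 557) (B (M (nat_lit 558) (B (L (nat_lit 590) ln13_14_4 ln13_14_4_ok) (L (nat_lit 526) ln13_13_4 ln13_13_4_ok))) (M (nat_lit 428) (B (L (nat_lit 460) ln13_17_7 ln13_17_7_ok) (L (nat_lit 396) ln13_16_7 ln13_16_7_ok))))) (M (nat_lit 524) (B (L (nat_lit 556) ln13_13_5 ln13_13_5_ok) (M (nat_lit 492) (B (L (nat_lit 397) ln13_12_5 ln13_12_5_ok) (M (nat_lit 526) (B (L (nat_lit 558) ln13_13_4 ln13_13_4_ok)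 (M (nat_lit 527) (B (L (nat_lit 491) ln15_16_3 ln15_16_3_ok) (L (nat_lit 528) ln16_16_3 ln16_16_3_ok)))))))))))) c10_d28))))
noncomputable def c10_d30 : Cert := (B (M (nat_lit 525) (B (K (nat_lit 109836762587663119569853283975596282477217051242993142772519430893275632835127418117645511049141086917723837108972134280466351228802204252878131328343068377088) (nat_lit 21755412192866237635013494701831267599713925146033952691050477804137352877448377917105995862059072174205876031217520932383553874112923747473237012648661550616429814839327677527774606655488) (nat_lit 21755412192866237635013494701831267599713925146033952691050477804137352877448377917105995862059072174205876031217520932383553874112923747473237012648661550616429814839327677527774606655488) c10_s593) (B (M (nat_lit 557) (B (M (nat_lit 460) (B (L (nat_lit 428) ln13_17_7 ln13_17_7_ok) (M (nat_lit 588) (B (L (nat_lit 556) ln13_14_5 ln13_14_5_ok)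 (M (nat_lit 589) (B (L (nat_lit 620) ln13_15_5_c10 ln13_15_5_c10_ok) (L (nat_lit 492) ln13_18_7 ln13_18_7_ok))))))) (B (M (nat_lit 589) (B (M (nat_lit 590) (B (L (nat_lit 622) ln13_15_4_c10 ln13_15_4_c10_ok) (L (nat_lit 558) ln13_14_4 ln13_14_4_ok))) (M (nat_lit 460) (B (L (nat_lit 492) ln13_18_7 ln13_18_7_ok) (L (nat_lit 428) ln13_17_7 ln13_17_7_ok))))) (M (nat_lit 556) (B (L (nat_lit 588) ln13_14_5 ln13_14_5_ok) (M (nat_lit 558) (B (L (nat_lit 590) ln13_14_4 ln13_14_4_ok) (M (nat_lit 555) (B (L (nat_lit 526) ln13_13_4 ln13_13_4_ok) (M (nat_lit 554) (B (M (nat_lit 586) (B (L (nat_lit 585) ln13_17_1 ln13_17_1_ok) (L (nat_lit 587) ln14_17_1 ln14_17_1_ok))) (M (nat_lit 522) (B (L (nat_lit 521) ln13_17_3 ln13_17_3_ok) (L (nat_lit 523) ln14_17_3 ln14_17_3_ok)))))))))))))) (B (M (nat_lit 558) (B (M (nat_lit 590) (B (L (nat_lit 557) ln13_14_4 ln13_14_4_ok) (L (nat_lit 526) ln13_13_4 ln13_13_4_ok)))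 (B (M (nat_lit 524) (B (L (nat_lit 526) ln13_13_4 ln13_13_4_ok) (L (nat_lit 556) ln13_13_5 ln13_13_5_ok))) (M (nat_lit 557) (B (L (nat_lit 590) ln13_14_4 ln13_14_4_ok) (M (nat_lit 556) (B (L (nat_lit 588) ln13_14_5 ln13_14_5_ok) (L (nat_lit 524) ln13_13_5 ln13_13_5_ok)))))))) c10_d25)))) (B (M (nat_lit 525) (B (M (nat_lit 428) (B (L (nat_lit 396) ln13_16_7 ln13_16_7_ok) (M (nat_lit 556) (B (L (nat_lit 524) ln13_13_5 ln13_13_5_ok) (M (nat_lit 557) (B (L (nat_lit 588) ln13_14_5 ln13_14_5_ok) (L (nat_lit 460) ln13_17_7 ln13_17_7_ok))))))) (B (M (nat_lit 557) (B (M (nat_lit 558) (B (L (nat_lit 590) ln13_14_4 ln13_14_4_ok) (L (nat_lit 526) ln13_13_4 ln13_13_4_ok))) (M (nat_lit 428) (B (L (nat_lit 460) ln13_17_7 ln13_17_7_ok) (L (nat_lit 396) ln13_16_7 ln13_16_7_ok))))) (M (nat_lit 524) (B (L (nat_lit 556) ln13_13_5 ln13_13_5_ok) (M (nat_lit 526) (B (L (nat_lit 558) ln13_13_4 ln13_13_4_ok) (M (nat_lit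 523) (B (M (nat_lit 494) (B (L (nat_lit 522) ln10_16_2 ln10_16_2_ok) (L (nat_lit 495) ln11_16_2 ln11_16_2_ok))) (B (M (nat_lit 527) (B (M (nat_lit 491) (B (L (nat_lit 490) ln14_16_3 ln14_16_3_ok) (L (nat_lit 492) ln15_16_3 ln15_16_3_ok))) (M (nat_lit 495) (B (L (nat_lit 494) ln11_16_2 ln11_16_2_ok) (L (nat_lit 496) ln12_16_2 ln12_16_2_ok))))) (M (nat_lit 522) (B (M (nat_lit 554) (B (L (nat_lit 553) ln13_16_1 ln13_16_1_ok) (L (nat_lit 555) ln14_16_1 ln14_16_1_ok))) (M (nat_lit 490) (B (L (nat_lit 489) ln13_16_3 ln13_16_3_ok) (L (nat_lit 491) ln14_16_3 ln14_16_3_ok))))))))))))))) (B (M (nat_lit 524) (B (M (nat_lit 556) (B (L (nat_lit 525) ln13_13_5 ln13_13_5_ok) (M (nat_lit 492) (B (L (nat_lit 460) ln12_17_6 ln12_17_6_ok) (L (nat_lit 397) ln13_12_5 ln13_12_5_ok))))) (B (M (nat_lit 494) (B (M (nat_lit 397) (B (L (nat_lit 492) ln13_12_5 ln13_12_5_ok) (L (nat_lit 526) ln13_12_4 ln13_12_4_ok))) (B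 (M (nat_lit 526) (B (L (nat_lit 397) ln13_12_4 ln13_12_4_ok) (M (nat_lit 558) (B (L (nat_lit 525) ln13_13_4 ln13_13_4_ok) (L (nat_lit 590) ln14_18_7 ln14_18_7_ok))))) (B (M (nat_lit 495) (B (M (nat_lit 496) (B (L (nat_lit 525) ln16_15_1 ln16_15_1_ok) (L (nat_lit 460) ln16_15_3 ln16_15_3_ok))) (B (M (nat_lit 523) (B (L (nat_lit 492) ln15_15_1 ln15_15_1_ok) (M (nat_lit 525) (B (L (nat_lit 522) ln10_16_2 ln10_16_2_ok) (L (nat_lit 496) ln16_15_1 ln16_15_1_ok))))) (B (M (nat_lit 492) (B (L (nat_lit 523) ln15_15_1 ln15_15_1_ok) (M (nat_lit 460) (B (L (nat_lit 459) ln15_15_3 ln15_15_3_ok) (L (nat_lit 496) ln16_15_3 ln16_15_3_ok))))) (M (nat_lit 523) (B (L (nat_lit 492) ln15_15_1 ln15_15_1_ok) (M (nat_lit 525) (B (L (nat_lit 522) ln10_16_2 ln10_16_2_ok) (L (nat_lit 526) ln11_16_2 ln11_16_2_ok))))))))) (M (nat_lit 495) (B (M (nat_lit 492) (B (L (nat_lit 523) ln15_15_1 ln15_15_1_ok) (L (nat_lit 397) ln13_12_5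 ln13_12_5_ok))) (M (nat_lit 496) (B (L (nat_lit 525) ln16_15_1 ln16_15_1_ok) (L (nat_lit 460) ln16_15_3 ln16_15_3_ok))))))))) (B (M (nat_lit 525) (B (L (nat_lit 556) ln13_13_5 ln13_13_5_ok) (M (nat_lit 526) (B (L (nat_lit 558) ln13_13_4 ln13_13_4_ok) (M (nat_lit 494) (B (L (nat_lit 397) ln13_12_4 ln13_12_4_ok) (M (nat_lit 495) (B (L (nat_lit 523) ln11_16_2 ln11_16_2_ok) (L (nat_lit 496) ln16_15_1 ln16_15_1_ok))))))))) (B (M (nat_lit 492) (B (L (nat_lit 397) ln13_12_5 ln13_12_5_ok) (M (nat_lit 556) (B (L (nat_lit 588) ln12_18_6 ln12_18_6_ok) (L (nat_lit 460) ln12_17_6 ln12_17_6_ok))))) (M (nat_lit 556) (B (L (nat_lit 525) ln13_13_5 ln13_13_5_ok) (M (nat_lit 492) (B (L (nat_lit 588) ln12_18_6 ln12_18_6_ok) (L (nat_lit 460) ln12_17_6 ln12_17_6_ok)))))))))) (B (M (nat_lit 526) (B (M (nat_lit 558) (B (L (nat_lit 525) ln13_13_4 ln13_13_4_ok) (M (nat_lit 494) (B (L (nat_lit 462) ln14_17_7 ln14_17_7_ok)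 (L (nat_lit 397) ln13_12_4 ln13_12_4_ok))))) (B (M (nat_lit 492) (B (M (nat_lit 397) (B (L (nat_lit 494) ln13_12_4 ln13_12_4_ok) (L (nat_lit 524) ln13_12_5 ln13_12_5_ok))) (B (M (nat_lit 524) (B (L (nat_lit 397) ln13_12_5 ln13_12_5_ok) (M (nat_lit 556) (B (L (nat_lit 525) ln13_13_5 ln13_13_5_ok) (L (nat_lit 588) ln12_18_6 ln12_18_6_ok))))) (B (M (nat_lit 491) (B (M (nat_lit 490) (B (L (nat_lit 525) ln10_15_0 ln10_15_0_ok) (L (nat_lit 462) ln10_15_2 ln10_15_2_ok))) (B (M (nat_lit 527) (B (L (nat_lit 494) ln11_15_0 ln11_15_0_ok) (M (nat_lit 525) (B (L (nat_lit 528) ln16_16_3 ln16_16_3_ok) (L (nat_lit 490) ln10_15_0 ln10_15_0_ok))))) (B (M (nat_lit 494) (B (L (nat_lit 527) ln11_15_0 ln11_15_0_ok) (M (nat_lit 462) (B (L (nat_lit 463) ln11_15_2 ln11_15_2_ok) (L (nat_lit 490) ln10_15_2 ln10_15_2_ok))))) (M (nat_lit 527) (B (L (nat_lit 494) ln11_15_0 ln11_15_0_ok) (M (nat_lit 525) (B (L (nat_lit 528)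 ln16_16_3 ln16_16_3_ok) (L (nat_lit 524) ln15_16_3 ln15_16_3_ok))))))))) (M (nat_lit 491) (B (M (nat_lit 494) (B (L (nat_lit 527) ln11_15_0 ln11_15_0_ok) (L (nat_lit 397) ln13_12_4 ln13_12_4_ok))) (M (nat_lit 490) (B (L (nat_lit 525) ln10_15_0 ln10_15_0_ok) (L (nat_lit 462) ln10_15_2 ln10_15_2_ok))))))))) (B (M (nat_lit 525) (B (L (nat_lit 558) ln13_13_4 ln13_13_4_ok) (M (nat_lit 524) (B (L (nat_lit 556) ln13_13_5 ln13_13_5_ok) (M (nat_lit 492) (B (L (nat_lit 397) ln13_12_5 ln13_12_5_ok) (M (nat_lit 491) (B (L (nat_lit 527) ln15_16_3 ln15_16_3_ok) (L (nat_lit 490) ln10_15_0 ln10_15_0_ok))))))))) (B (M (nat_lit 494) (B (L (nat_lit 397) ln13_12_4 ln13_12_4_ok) (M (nat_lit 558) (B (L (nat_lit 590) ln14_18_7 ln14_18_7_ok) (L (nat_lit 462) ln14_17_7 ln14_17_7_ok))))) (M (nat_lit 558) (B (L (nat_lit 525) ln13_13_4 ln13_13_4_ok) (M (nat_lit 494) (B (L (nat_lit 590) ln14_18_7 ln14_18_7_ok) (L (nat_lit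 462) ln14_17_7 ln14_17_7_ok)))))))))) c10_d29))))
noncomputable def c10_d31 : Cert := (B (M (nat_lit 524) (B (L (nat_lit 556) ln13_13_5 ln13_13_5_ok) (M (nat_lit 526) (B (L (nat_lit 558) ln13_13_4 ln13_13_4_ok) (M (nat_lit 523) (B (M (nat_lit 494) (B (L (nat_lit 495) ln11_16_2 ln11_16_2_ok) (L (nat_lit 522) ln10_16_2 ln10_16_2_ok))) (B (M (nat_lit 522) (B (L (nat_lit 494) ln10_16_2 ln10_16_2_ok) (M (nat_lit 554) (B (L (nat_lit 555) ln14_16_1 ln14_16_1_ok) (L (nat_lit 553) ln13_16_1 ln13_16_1_ok))))) (B (M (nat_lit 522) (B (M (nat_lit 554) (B (L (nat_lit 555) ln14_16_1 ln14_16_1_ok) (L (nat_lit 553) ln13_16_1 ln13_16_1_ok))) (M (nat_lit 489) (B (L (nat_lit 490) ln13_16_3 ln13_16_3_ok) (M (nat_lit 521) (B (L (nat_lit 492) ln9_16_2 ln9_16_2_ok) (L (nat_lit 488) ln12_16_3 ln12_16_3_ok))))))) (M (nat_lit 527) (B (M (nat_lit 495) (B (L (nat_lit 496) ln12_16_2 ln12_16_2_ok) (L (nat_lit 494) ln11_16_2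 ln11_16_2_ok))) (M (nat_lit 528) (B (L (nat_lit 492) ln16_16_3 ln16_16_3_ok) (M (nat_lit 560) (B (L (nat_lit 561) ln13_16_0 ln13_16_0_ok) (L (nat_lit 559) ln12_16_0 ln12_16_0_ok))))))))))))))) (B (M (nat_lit 557) (B (M (nat_lit 556) (B (L (nat_lit 588) ln13_14_5 ln13_14_5_ok) (M (nat_lit 428) (B (L (nat_lit 460) ln13_17_7 ln13_17_7_ok) (L (nat_lit 396) ln13_16_7 ln13_16_7_ok))))) (B (M (nat_lit 460) (B (L (nat_lit 428) ln13_17_7 ln13_17_7_ok) (M (nat_lit 589) (B (L (nat_lit 492) ln13_18_7 ln13_18_7_ok) (M (nat_lit 588) (B (L (nat_lit 556) ln13_14_5 ln13_14_5_ok) (L (nat_lit 620) ln13_15_5_c10 ln13_15_5_c10_ok))))))) (B (M (nat_lit 589) (B (M (nat_lit 588) (B (L (nat_lit 556) ln13_14_5 ln13_14_5_ok) (L (nat_lit 620) ln13_15_5_c10 ln13_15_5_c10_ok))) (M (nat_lit 621) (B (M (nat_lit 494) (B (L (nat_lit 462) ln13_18_6 ln13_18_6_ok) (L (nat_lit 526) ln13_19_6_c10 ln13_19_6_c10_ok))) (M (nat_lit 492)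 (B (L (nat_lit 460) ln13_18_7 ln13_18_7_ok) (L (nat_lit 524) ln13_19_7 ln13_19_7_ok))))))) (B (M (nat_lit 524) (B (L (nat_lit 556) ln13_13_5 ln13_13_5_ok) (M (nat_lit 494) (B (M (nat_lit 495) (B (L (nat_lit 496) ln16_15_1 ln16_15_1_ok) (M (nat_lit 523) (B (L (nat_lit 492) ln15_15_1 ln15_15_1_ok) (L (nat_lit 522) ln10_16_2 ln10_16_2_ok))))) (B (M (nat_lit 523) (B (L (nat_lit 522) ln10_16_2 ln10_16_2_ok) (M (nat_lit 495) (B (L (nat_lit 492) ln15_15_1 ln15_15_1_ok) (L (nat_lit 526) ln11_16_2 ln11_16_2_ok))))) (B (M (nat_lit 589) (B (L (nat_lit 462) ln13_18_6 ln13_18_6_ok) (M (nat_lit 621) (B (L (nat_lit 526) ln13_19_6_c10 ln13_19_6_c10_ok) (L (nat_lit 492) ln13_19_7 ln13_19_7_ok))))) (M (nat_lit 495) (B (L (nat_lit 496) ln16_15_1 ln16_15_1_ok) (M (nat_lit 523) (B (L (nat_lit 526) ln11_16_2 ln11_16_2_ok) (L (nat_lit 522) ln10_16_2 ln10_16_2_ok))))))))))) (M (nat_lit 494) (B (M (nat_lit 589) (B (L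 (nat_lit 462) ln13_18_6 ln13_18_6_ok) (M (nat_lit 460) (B (L (nat_lit 428) ln13_17_7 ln13_17_7_ok) (L (nat_lit 492) ln13_18_7 ln13_18_7_ok))))) (B (M (nat_lit 589) (B (L (nat_lit 462) ln13_18_6 ln13_18_6_ok) (M (nat_lit 621) (B (L (nat_lit 526) ln13_19_6_c10 ln13_19_6_c10_ok) (M (nat_lit 492) (B (L (nat_lit 460) ln13_18_7 ln13_18_7_ok) (L (nat_lit 524) ln13_19_7 ln13_19_7_ok))))))) (B (M (nat_lit 460) (B (L (nat_lit 428) ln13_17_7 ln13_17_7_ok) (M (nat_lit 459) (B (L (nat_lit 458) ln10_14_0 ln10_14_0_ok) (M (nat_lit 495) (B (L (nat_lit 496) ln16_15_3 ln16_15_3_ok) (L (nat_lit 492) ln15_15_3 ln15_15_3_ok))))))) (B (M (nat_lit 524) (B (M (nat_lit 589) (B (L (nat_lit 462) ln13_18_6 ln13_18_6_ok) (M (nat_lit 621) (B (L (nat_lit 526) ln13_19_6_c10 ln13_19_6_c10_ok) (L (nat_lit 492) ln13_19_7 ln13_19_7_ok))))) (B (M (nat_lit 495) (B (L (nat_lit 496) ln16_15_1 ln16_15_1_ok) (M (nat_lit 523) (B (L (nat_lit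 526) ln11_16_2 ln11_16_2_ok) (L (nat_lit 522) ln10_16_2 ln10_16_2_ok))))) (M (nat_lit 495) (B (L (nat_lit 496) ln16_15_1 ln16_15_1_ok) (M (nat_lit 523) (B (L (nat_lit 492) ln15_15_1 ln15_15_1_ok) (L (nat_lit 522) ln10_16_2 ln10_16_2_ok)))))))) (M (nat_lit 462) (B (L (nat_lit 589) ln13_18_6 ln13_18_6_ok) (M (nat_lit 460) (B (L (nat_lit 428) ln13_17_7 ln13_17_7_ok) (M (nat_lit 495) (B (L (nat_lit 459) ln11_14_0 ln11_14_0_ok) (L (nat_lit 496) ln16_15_3 ln16_15_3_ok))))))))))))))))) (M (nat_lit 557) (B (M (nat_lit 558) (B (L (nat_lit 590) ln13_14_4 ln13_14_4_ok) (L (nat_lit 526) ln13_13_4 ln13_13_4_ok))) (B (M (nat_lit 460) (B (L (nat_lit 428) ln13_17_7 ln13_17_7_ok) (M (nat_lit 589) (B (L (nat_lit 492) ln13_18_7 ln13_18_7_ok) (M (nat_lit 590) (B (L (nat_lit 558) ln13_14_4 ln13_14_4_ok) (L (nat_lit 622) ln13_15_4_c10 ln13_15_4_c10_ok))))))) (M (nat_lit 494) (B (M (nat_lit 589) (B (L (nat_lit 462)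 ln13_18_6 ln13_18_6_ok) (M (nat_lit 460) (B (L (nat_lit 428) ln13_17_7 ln13_17_7_ok) (L (nat_lit 492) ln13_18_7 ln13_18_7_ok))))) (B (M (nat_lit 589) (B (L (nat_lit 462) ln13_18_6 ln13_18_6_ok) (M (nat_lit 621) (B (L (nat_lit 526) ln13_19_6_c10 ln13_19_6_c10_ok) (M (nat_lit 492) (B (L (nat_lit 460) ln13_18_7 ln13_18_7_ok) (L (nat_lit 524) ln13_19_7 ln13_19_7_ok))))))) (B (M (nat_lit 524) (B (M (nat_lit 495) (B (L (nat_lit 496) ln16_15_1 ln16_15_1_ok) (M (nat_lit 523) (B (L (nat_lit 492) ln15_15_1 ln15_15_1_ok) (L (nat_lit 522) ln10_16_2 ln10_16_2_ok))))) (B (M (nat_lit 495) (B (L (nat_lit 496) ln16_15_1 ln16_15_1_ok) (M (nat_lit 523) (B (L (nat_lit 522) ln10_16_2 ln10_16_2_ok) (L (nat_lit 526) ln11_16_2 ln11_16_2_ok))))) (M (nat_lit 589) (B (L (nat_lit 462) ln13_18_6 ln13_18_6_ok) (M (nat_lit 621) (B (L (nat_lit 492) ln13_19_7 ln13_19_7_ok) (L (nat_lit 526) ln13_19_6_c10 ln13_19_6_c10_ok))))))))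 (B (M (nat_lit 460) (B (L (nat_lit 428) ln13_17_7 ln13_17_7_ok) (M (nat_lit 492) (B (L (nat_lit 589) ln13_18_7 ln13_18_7_ok) (M (nat_lit 459) (B (L (nat_lit 458) ln10_14_0 ln10_14_0_ok) (L (nat_lit 495) ln15_15_3 ln15_15_3_ok))))))) (B (M (nat_lit 462) (B (L (nat_lit 589) ln13_18_6 ln13_18_6_ok) (M (nat_lit 460) (B (L (nat_lit 428) ln13_17_7 ln13_17_7_ok) (M (nat_lit 495) (B (L (nat_lit 459) ln11_14_0 ln11_14_0_ok) (L (nat_lit 496) ln16_15_3 ln16_15_3_ok))))))) (M (nat_lit 460) (B (L (nat_lit 428) ln13_17_7 ln13_17_7_ok) (M (nat_lit 459) (B (L (nat_lit 458) ln10_14_0 ln10_14_0_ok) (M (nat_lit 495) (B (L (nat_lit 492) ln15_15_3 ln15_15_3_ok) (L (nat_lit 496) ln16_15_3 ln16_15_3_ok))))))))))))))))))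
noncomputable def c10_d32 : Cert := (B (M (nat_lit 495) (B (M (nat_lit 460) (B (L (nat_lit 496) ln16_15_3 ln16_15_3_ok) (M (nat_lit 459) (B (L (nat_lit 462) ln11_14_0 ln11_14_0_ok) (L (nat_lit 458) ln10_14_0 ln10_14_0_ok))))) (B (M (nat_lit 460) (B (L (nat_lit 496) ln16_15_3 ln16_15_3_ok) (M (nat_lit 459) (B (L (nat_lit 458) ln10_14_0 ln10_14_0_ok) (L (nat_lit 492) ln15_15_3 ln15_15_3_ok))))) (B (M (nat_lit 496) (B (M (nat_lit 497) (B (L (nat_lit 462) ln17_15_3 ln17_15_3_ok) (M (nat_lit 465) (B (L (nat_lit 466) ln14_15_2_c10 ln14_15_2_c10_ok) (L (nat_lit 464) ln13_15_2 ln13_15_2_ok))))) (B (M (nat_lit 497) (B (L (nat_lit 462) ln17_15_3 ln17_15_3_ok) (M (nat_lit 529) (B (L (nat_lit 530) ln14_15_0 ln14_15_0_ok) (L (nat_lit 528) ln13_15_0 ln13_15_0_ok))))) (M (nat_lit 492) (B (M (nat_lit 464) (B (L (nat_lit 465) ln13_15_2 ln13_15_2_ok) (L (nat_lit 463) ln12_15_2 ln12_15_2_ok))) (M (nat_lit 528)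 (B (L (nat_lit 529) ln13_15_0 ln13_15_0_ok) (L (nat_lit 527) ln12_15_0 ln12_15_0_ok)))))))) (M (nat_lit 463) (B (M (nat_lit 464) (B (L (nat_lit 492) ln12_15_2 ln12_15_2_ok) (M (nat_lit 465) (B (L (nat_lit 466) ln18_14_1_c10 ln18_14_1_c10_ok) (L (nat_lit 462) ln17_14_1 ln17_14_1_ok))))) (B (M (nat_lit 492) (B (L (nat_lit 464) ln12_15_2 ln12_15_2_ok) (M (nat_lit 459) (B (L (nat_lit 460) ln15_15_3 ln15_15_3_ok) (M (nat_lit 491) (B (L (nat_lit 462) ln11_15_2 ln11_15_2_ok) (L (nat_lit 458) ln14_15_3 ln14_15_3_ok))))))) (B (M (nat_lit 492) (B (M (nat_lit 459) (B (L (nat_lit 460) ln15_15_3 ln15_15_3_ok) (M (nat_lit 491) (B (L (nat_lit 462) ln11_15_2 ln11_15_2_ok) (L (nat_lit 458) ln14_15_3 ln14_15_3_ok))))) (B (M (nat_lit 491) (B (M (nat_lit 459) (B (L (nat_lit 460) ln15_15_3 ln15_15_3_ok) (L (nat_lit 458) ln14_15_3 ln14_15_3_ok))) (M (nat_lit 527) (B (L (nat_lit 528) ln12_15_0 ln12_15_0_ok) (L (nat_lit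 526) ln11_15_0 ln11_15_0_ok))))) (B (M (nat_lit 491) (B (L (nat_lit 462) ln11_15_2 ln11_15_2_ok) (M (nat_lit 527) (B (L (nat_lit 528) ln12_15_0 ln12_15_0_ok) (L (nat_lit 526) ln11_15_0 ln11_15_0_ok))))) (M (nat_lit 431) (B (M (nat_lit 526) (B (L (nat_lit 399) ln15_12_5 ln15_12_5_ok) (M (nat_lit 527) (B (L (nat_lit 558) ln15_13_5_c10 ln15_13_5_c10_ok) (L (nat_lit 528) ln12_15_0 ln12_15_0_ok))))) (B (M (nat_lit 432) (B (M (nat_lit 527) (B (L (nat_lit 400) ln15_16_6 ln15_16_6_ok) (L (nat_lit 528) ln12_15_0 ln12_15_0_ok))) (M (nat_lit 460) (B (L (nat_lit 462) ln12_14_2 ln12_14_2_ok) (L (nat_lit 459) ln15_15_3 ln15_15_3_ok))))) (B (M (nat_lit 526) (B (L (nat_lit 399) ln15_12_5 ln15_12_5_ok) (M (nat_lit 558) (B (L (nat_lit 462) ln14_17_6_c10 ln14_17_6_c10_ok) (L (nat_lit 527) ln15_13_5_c10 ln15_13_5_c10_ok))))) (M (nat_lit 526) (B (L (nat_lit 399) ln15_12_5 ln15_12_5_ok) (M (nat_lit 558) (B (L (nat_lit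 462) ln14_17_6_c10 ln14_17_6_c10_ok) (L (nat_lit 525) ln13_13_4 ln13_13_4_ok))))))))))))) (B (M (nat_lit 526) (B (M (nat_lit 558) (B (L (nat_lit 525) ln13_13_4 ln13_13_4_ok) (L (nat_lit 590) ln14_18_6 ln14_18_6_ok))) (M (nat_lit 492) (B (L (nat_lit 464) ln12_15_2 ln12_15_2_ok) (M (nat_lit 527) (B (L (nat_lit 528) ln12_15_0 ln12_15_0_ok) (L (nat_lit 491) ln11_15_0 ln11_15_0_ok))))))) (M (nat_lit 431) (B (M (nat_lit 526) (B (L (nat_lit 399) ln15_12_5 ln15_12_5_ok) (M (nat_lit 558) (B (L (nat_lit 462) ln14_17_6_c10 ln14_17_6_c10_ok) (L (nat_lit 527) ln15_13_5_c10 ln15_13_5_c10_ok))))) (B (M (nat_lit 527) (B (M (nat_lit 526) (B (L (nat_lit 558) ln15_13_5_c10 ln15_13_5_c10_ok) (M (nat_lit 528) (B (L (nat_lit 560) ln15_13_4_c10 ln15_13_4_c10_ok) (L (nat_lit 529) ln17_16_3 ln17_16_3_ok))))) (M (nat_lit 464) (B (M (nat_lit 432) (B (L (nat_lit 400) ln15_16_6 ln15_16_6_ok) (L (nat_lit 559) ln15_17_6 ln15_17_6_ok)))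 (M (nat_lit 465) (B (L (nat_lit 466) ln18_14_1_c10 ln18_14_1_c10_ok) (L (nat_lit 462) ln17_14_1 ln17_14_1_ok))))))) (B (M (nat_lit 526) (B (L (nat_lit 399) ln15_12_5 ln15_12_5_ok) (M (nat_lit 558) (B (L (nat_lit 527) ln15_13_5_c10 ln15_13_5_c10_ok) (L (nat_lit 525) ln13_13_4 ln13_13_4_ok))))) (B (M (nat_lit 526) (B (L (nat_lit 399) ln15_12_5 ln15_12_5_ok) (M (nat_lit 558) (B (L (nat_lit 462) ln14_17_6_c10 ln14_17_6_c10_ok) (L (nat_lit 525) ln13_13_4 ln13_13_4_ok))))) (M (nat_lit 432) (B (M (nat_lit 400) (B (L (nat_lit 527) ln15_16_6 ln15_16_6_ok) (M (nat_lit 368) (B (L (nat_lit 336) ln16_10_5 ln16_10_5_ok) (L (nat_lit 464) ln16_11_5_c10 ln16_11_5_c10_ok))))) (B (M (nat_lit 400) (B (L (nat_lit 527) ln15_16_6 ln15_16_6_ok) (M (nat_lit 368) (B (L (nat_lit 399) ln15_15_6 ln15_15_6_ok) (L (nat_lit 464) ln16_11_5_c10 ln16_11_5_c10_ok))))) (B (M (nat_lit 462) (B (L (nat_lit 460) ln12_14_2 ln12_14_2_ok)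 (M (nat_lit 433) (B (L (nat_lit 434) ln18_13_1_c10 ln18_13_1_c10_ok) (L (nat_lit 464) ln13_14_2 ln13_14_2_ok))))) (M (nat_lit 400) (B (L (nat_lit 527) ln15_16_6 ln15_16_6_ok) (M (nat_lit 368) (B (L (nat_lit 336) ln16_10_5 ln16_10_5_ok) (L (nat_lit 399) ln15_15_6 ln15_15_6_ok))))))))))))))))))))))) (M (nat_lit 495) (B (M (nat_lit 460) (B (L (nat_lit 496) ln16_15_3 ln16_15_3_ok) (M (nat_lit 459) (B (L (nat_lit 492) ln15_15_3 ln15_15_3_ok) (L (nat_lit 462) ln11_14_0 ln11_14_0_ok))))) (B (M (nat_lit 492) (B (M (nat_lit 524) (B (L (nat_lit 523) ln15_15_1 ln15_15_1_ok) (L (nat_lit 397) ln13_12_5 ln13_12_5_ok))) (M (nat_lit 491) (B (M (nat_lit 463) (B (L (nat_lit 464) ln12_15_2 ln12_15_2_ok) (L (nat_lit 462) ln11_15_2 ln11_15_2_ok))) (M (nat_lit 459) (B (L (nat_lit 460) ln15_15_3 ln15_15_3_ok) (L (nat_lit 458) ln14_15_3 ln14_15_3_ok))))))) (B (M (nat_lit 460) (B (L (nat_lit 496) ln16_15_3 ln16_15_3_ok)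 (M (nat_lit 459) (B (L (nat_lit 462) ln11_14_0 ln11_14_0_ok) (L (nat_lit 458) ln10_14_0 ln10_14_0_ok))))) (B (M (nat_lit 460) (B (L (nat_lit 496) ln16_15_3 ln16_15_3_ok) (M (nat_lit 459) (B (L (nat_lit 492) ln15_15_3 ln15_15_3_ok) (L (nat_lit 458) ln10_14_0 ln10_14_0_ok))))) (M (nat_lit 492) (B (M (nat_lit 524) (B (L (nat_lit 523) ln15_15_1 ln15_15_1_ok) (L (nat_lit 397) ln13_12_5 ln13_12_5_ok))) (M (nat_lit 496) (B (M (nat_lit 528) (B (L (nat_lit 529) ln13_15_0 ln13_15_0_ok) (L (nat_lit 527) ln12_15_0 ln12_15_0_ok))) (M (nat_lit 464) (B (L (nat_lit 465) ln13_15_2 ln13_15_2_ok) (L (nat_lit 463) ln12_15_2 ln12_15_2_ok)))))))))))))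
noncomputable def c10_d33 : Cert := (B (M (nat_lit 462) (B (M (nat_lit 492) (B (M (nat_lit 524) (B (L (nat_lit 397) ln13_12_5 ln13_12_5_ok) (M (nat_lit 556) (B (L (nat_lit 460) ln12_17_6 ln12_17_6_ok) (L (nat_lit 588) ln12_18_6 ln12_18_6_ok))))) (B (M (nat_lit 463) (B (L (nat_lit 464) ln16_14_1 ln16_14_1_ok) (M (nat_lit 491) (B (L (nat_lit 460) ln15_14_1 ln15_14_1_ok) (L (nat_lit 490) ln10_15_2 ln10_15_2_ok))))) (M (nat_lit 463) (B (L (nat_lit 464) ln16_14_1 ln16_14_1_ok) (M (nat_lit 491) (B (L (nat_lit 494) ln11_15_2 ln11_15_2_ok) (L (nat_lit 490) ln10_15_2 ln10_15_2_ok)))))))) (B (M (nat_lit 525) (B (M (nat_lit 428) (B (L (nat_lit 396) ln13_16_7 ln13_16_7_ok) (M (nat_lit 427) (B (L (nat_lit 426) ln10_13_0 ln10_13_0_ok) (M (nat_lit 463) (B (L (nat_lit 464) ln16_14_3 ln16_14_3_ok) (L (nat_lit 460) ln15_14_3 ln15_14_3_ok))))))) (B (M (nat_lit 492) (B (M (nat_lit 463) (B (L (nat_lit 464) ln16_14_1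 ln16_14_1_ok) (M (nat_lit 491) (B (L (nat_lit 494) ln11_15_2 ln11_15_2_ok) (L (nat_lit 490) ln10_15_2 ln10_15_2_ok))))) (B (M (nat_lit 491) (B (L (nat_lit 490) ln10_15_2 ln10_15_2_ok) (M (nat_lit 463) (B (L (nat_lit 460) ln15_14_1 ln15_14_1_ok) (L (nat_lit 494) ln11_15_2 ln11_15_2_ok))))) (M (nat_lit 557) (B (M (nat_lit 556) (B (L (nat_lit 524) ln13_13_5 ln13_13_5_ok) (L (nat_lit 588) ln13_14_5 ln13_14_5_ok))) (M (nat_lit 460) (B (L (nat_lit 428) ln13_17_7 ln13_17_7_ok) (L (nat_lit 589) ln13_18_7 ln13_18_7_ok)))))))) (B (M (nat_lit 492) (B (M (nat_lit 463) (B (L (nat_lit 464) ln16_14_1 ln16_14_1_ok) (M (nat_lit 491) (B (L (nat_lit 494) ln11_15_2 ln11_15_2_ok) (L (nat_lit 490) ln10_15_2 ln10_15_2_ok))))) (B (M (nat_lit 491) (B (L (nat_lit 490) ln10_15_2 ln10_15_2_ok) (M (nat_lit 463) (B (L (nat_lit 460) ln15_14_1 ln15_14_1_ok) (L (nat_lit 494) ln11_15_2 ln11_15_2_ok))))) (B (M (nat_lit 557) (B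 (M (nat_lit 556) (B (L (nat_lit 524) ln13_13_5 ln13_13_5_ok) (L (nat_lit 588) ln13_14_5 ln13_14_5_ok))) (M (nat_lit 589) (B (L (nat_lit 494) ln13_18_6 ln13_18_6_ok) (L (nat_lit 460) ln13_18_7 ln13_18_7_ok))))) (M (nat_lit 463) (B (L (nat_lit 464) ln16_14_1 ln16_14_1_ok) (M (nat_lit 491) (B (L (nat_lit 460) ln15_14_1 ln15_14_1_ok) (L (nat_lit 490) ln10_15_2 ln10_15_2_ok))))))))) (B (M (nat_lit 428) (B (L (nat_lit 396) ln13_16_7 ln13_16_7_ok) (M (nat_lit 557) (B (L (nat_lit 460) ln13_17_7 ln13_17_7_ok) (M (nat_lit 556) (B (L (nat_lit 524) ln13_13_5 ln13_13_5_ok) (L (nat_lit 588) ln13_14_5 ln13_14_5_ok))))))) (M (nat_lit 557) (B (M (nat_lit 556) (B (L (nat_lit 524) ln13_13_5 ln13_13_5_ok) (L (nat_lit 588) ln13_14_5 ln13_14_5_ok))) (M (nat_lit 590) (B (L (nat_lit 558) ln13_14_4 ln13_14_4_ok) (M (nat_lit 589) (B (L (nat_lit 494) ln13_18_6 ln13_18_6_ok) (L (nat_lit 622) ln13_15_4_c10 ln13_15_4_c10_ok))))))))))))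 (B (M (nat_lit 492) (B (M (nat_lit 524) (B (L (nat_lit 397) ln13_12_5 ln13_12_5_ok) (M (nat_lit 556) (B (L (nat_lit 460) ln12_17_6 ln12_17_6_ok) (L (nat_lit 525) ln13_13_5 ln13_13_5_ok))))) (B (M (nat_lit 491) (B (L (nat_lit 490) ln10_15_2 ln10_15_2_ok) (M (nat_lit 463) (B (L (nat_lit 460) ln15_14_1 ln15_14_1_ok) (L (nat_lit 494) ln11_15_2 ln11_15_2_ok))))) (M (nat_lit 524) (B (L (nat_lit 397) ln13_12_5 ln13_12_5_ok) (M (nat_lit 556) (B (L (nat_lit 525) ln13_13_5 ln13_13_5_ok) (L (nat_lit 588) ln12_18_6 ln12_18_6_ok)))))))) (B (M (nat_lit 525) (B (M (nat_lit 524) (B (L (nat_lit 556) ln13_13_5 ln13_13_5_ok) (M (nat_lit 396) (B (L (nat_lit 428) ln13_16_7 ln13_16_7_ok) (M (nat_lit 397) (B (L (nat_lit 364) ln13_15_7 ln13_15_7_ok) (L (nat_lit 492) ln13_12_5 ln13_12_5_ok))))))) (B (M (nat_lit 428) (B (L (nat_lit 396) ln13_16_7 ln13_16_7_ok) (M (nat_lit 557) (B (L (nat_lit 460) ln13_17_7 ln13_17_7_ok)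 (M (nat_lit 556) (B (L (nat_lit 524) ln13_13_5 ln13_13_5_ok) (L (nat_lit 588) ln13_14_5 ln13_14_5_ok))))))) (B (M (nat_lit 557) (B (M (nat_lit 556) (B (L (nat_lit 524) ln13_13_5 ln13_13_5_ok) (L (nat_lit 588) ln13_14_5 ln13_14_5_ok))) (M (nat_lit 590) (B (L (nat_lit 558) ln13_14_4 ln13_14_4_ok) (M (nat_lit 589) (B (L (nat_lit 494) ln13_18_6 ln13_18_6_ok) (L (nat_lit 622) ln13_15_4_c10 ln13_15_4_c10_ok))))))) (M (nat_lit 557) (B (M (nat_lit 428) (B (L (nat_lit 396) ln13_16_7 ln13_16_7_ok) (L (nat_lit 460) ln13_17_7 ln13_17_7_ok))) (M (nat_lit 590) (B (L (nat_lit 558) ln13_14_4 ln13_14_4_ok) (M (nat_lit 589) (B (L (nat_lit 494) ln13_18_6 ln13_18_6_ok) (L (nat_lit 622) ln13_15_4_c10 ln13_15_4_c10_ok))))))))))) (B (M (nat_lit 492) (B (M (nat_lit 524) (B (L (nat_lit 397) ln13_12_5 ln13_12_5_ok) (M (nat_lit 556) (B (L (nat_lit 525) ln13_13_5 ln13_13_5_ok) (L (nat_lit 588) ln12_18_6 ln12_18_6_ok)))))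 (M (nat_lit 463) (B (L (nat_lit 464) ln16_14_1 ln16_14_1_ok) (M (nat_lit 491) (B (L (nat_lit 494) ln11_15_2 ln11_15_2_ok) (L (nat_lit 490) ln10_15_2 ln10_15_2_ok))))))) (B (M (nat_lit 492) (B (M (nat_lit 524) (B (L (nat_lit 397) ln13_12_5 ln13_12_5_ok) (M (nat_lit 556) (B (L (nat_lit 460) ln12_17_6 ln12_17_6_ok) (L (nat_lit 525) ln13_13_5 ln13_13_5_ok))))) (B (M (nat_lit 463) (B (L (nat_lit 464) ln16_14_1 ln16_14_1_ok) (M (nat_lit 491) (B (L (nat_lit 460) ln15_14_1 ln15_14_1_ok) (L (nat_lit 490) ln10_15_2 ln10_15_2_ok))))) (M (nat_lit 524) (B (L (nat_lit 397) ln13_12_5 ln13_12_5_ok) (M (nat_lit 556) (B (L (nat_lit 525) ln13_13_5 ln13_13_5_ok) (L (nat_lit 588) ln12_18_6 ln12_18_6_ok)))))))) (M (nat_lit 428) (B (M (nat_lit 396) (B (L (nat_lit 525) ln13_16_7 ln13_16_7_ok) (M (nat_lit 364) (B (L (nat_lit 332) ln12_10_4 ln12_10_4_ok) (L (nat_lit 460) ln12_11_4 ln12_11_4_ok))))) (B (M (nat_lit 396)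 (B (L (nat_lit 525) ln13_16_7 ln13_16_7_ok) (M (nat_lit 364) (B (L (nat_lit 397) ln13_15_7 ln13_15_7_ok) (L (nat_lit 460) ln12_11_4 ln12_11_4_ok))))) (B (M (nat_lit 463) (B (L (nat_lit 464) ln16_14_3 ln16_14_3_ok) (M (nat_lit 427) (B (L (nat_lit 426) ln10_13_0 ln10_13_0_ok) (L (nat_lit 460) ln15_14_3 ln15_14_3_ok))))) (M (nat_lit 396) (B (L (nat_lit 525) ln13_16_7 ln13_16_7_ok) (M (nat_lit 364) (B (L (nat_lit 332) ln12_10_4 ln12_10_4_ok) (L (nat_lit 397) ln13_15_7 ln13_15_7_ok)))))))))))))))) (B (M (nat_lit 494) (B (M (nat_lit 526) (B (L (nat_lit 397) ln13_12_4 ln13_12_4_ok) (M (nat_lit 558) (B (L (nat_lit 590) ln14_18_7 ln14_18_7_ok) (L (nat_lit 525) ln13_13_4 ln13_13_4_ok))))) (B (M (nat_lit 526) (B (L (nat_lit 397) ln13_12_4 ln13_12_4_ok) (M (nat_lit 558) (B (L (nat_lit 525) ln13_13_4 ln13_13_4_ok) (L (nat_lit 462) ln14_17_7 ln14_17_7_ok))))) (B (M (nat_lit 526) (B (L (nat_lit 397) ln13_12_4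 ln13_12_4_ok) (M (nat_lit 558) (B (L (nat_lit 590) ln14_18_7 ln14_18_7_ok) (L (nat_lit 462) ln14_17_7 ln14_17_7_ok))))) c10_d32)))) (M (nat_lit 492) (B (M (nat_lit 524) (B (L (nat_lit 397) ln13_12_5 ln13_12_5_ok) (M (nat_lit 556) (B (L (nat_lit 525) ln13_13_5 ln13_13_5_ok) (L (nat_lit 460) ln12_17_6 ln12_17_6_ok))))) (B (M (nat_lit 491) (B (M (nat_lit 462) (B (L (nat_lit 490) ln10_15_2 ln10_15_2_ok) (M (nat_lit 463) (B (L (nat_lit 494) ln11_15_2 ln11_15_2_ok) (L (nat_lit 460) ln15_14_1 ln15_14_1_ok))))) (B (M (nat_lit 494) (B (M (nat_lit 526) (B (L (nat_lit 527) ln11_15_0 ln11_15_0_ok) (L (nat_lit 397) ln13_12_4 ln13_12_4_ok))) (M (nat_lit 495) (B (M (nat_lit 459) (B (L (nat_lit 458) ln14_15_3 ln14_15_3_ok) (L (nat_lit 460) ln15_15_3 ln15_15_3_ok))) (M (nat_lit 463) (B (L (nat_lit 462) ln11_15_2 ln11_15_2_ok) (L (nat_lit 464) ln12_15_2 ln12_15_2_ok))))))) (B (M (nat_lit 462) (B (L (nat_lit 490)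 ln10_15_2 ln10_15_2_ok) (M (nat_lit 463) (B (L (nat_lit 460) ln15_14_1 ln15_14_1_ok) (L (nat_lit 464) ln16_14_1 ln16_14_1_ok))))) (B (M (nat_lit 462) (B (L (nat_lit 490) ln10_15_2 ln10_15_2_ok) (M (nat_lit 463) (B (L (nat_lit 494) ln11_15_2 ln11_15_2_ok) (L (nat_lit 464) ln16_14_1 ln16_14_1_ok))))) (M (nat_lit 494) (B (M (nat_lit 526) (B (L (nat_lit 527) ln11_15_0 ln11_15_0_ok) (L (nat_lit 397) ln13_12_4 ln13_12_4_ok))) (M (nat_lit 490) (B (M (nat_lit 522) (B (L (nat_lit 521) ln13_15_1 ln13_15_1_ok) (L (nat_lit 523) ln14_15_1 ln14_15_1_ok))) (M (nat_lit 458) (B (L (nat_lit 457) ln13_15_3 ln13_15_3_ok) (L (nat_lit 459) ln14_15_3 ln14_15_3_ok)))))))))))) (B (M (nat_lit 494) (B (M (nat_lit 397) (B (L (nat_lit 526) ln13_12_4 ln13_12_4_ok) (L (nat_lit 524) ln13_12_5 ln13_12_5_ok))) (B (M (nat_lit 524) (B (L (nat_lit 397) ln13_12_5 ln13_12_5_ok) (M (nat_lit 523) (B (L (nat_lit 495) ln15_15_1 ln15_15_1_ok)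 (M (nat_lit 522) (B (L (nat_lit 491) ln14_15_1 ln14_15_1_ok) (L (nat_lit 521) ln9_16_2 ln9_16_2_ok))))))) (B (M (nat_lit 491) (B (M (nat_lit 462) (B (L (nat_lit 463) ln11_15_2 ln11_15_2_ok) (L (nat_lit 490) ln10_15_2 ln10_15_2_ok))) (M (nat_lit 495) (B (M (nat_lit 527) (B (L (nat_lit 528) ln12_15_0 ln12_15_0_ok) (L (nat_lit 526) ln11_15_0 ln11_15_0_ok))) (M (nat_lit 523) (B (L (nat_lit 524) ln15_15_1 ln15_15_1_ok) (L (nat_lit 522) ln14_15_1 ln14_15_1_ok))))))) (M (nat_lit 491) (B (M (nat_lit 526) (B (L (nat_lit 527) ln11_15_0 ln11_15_0_ok) (L (nat_lit 397) ln13_12_4 ln13_12_4_ok))) (M (nat_lit 462) (B (L (nat_lit 463) ln11_15_2 ln11_15_2_ok) (L (nat_lit 490) ln10_15_2 ln10_15_2_ok))))))))) (M (nat_lit 491) (B (M (nat_lit 462) (B (L (nat_lit 490) ln10_15_2 ln10_15_2_ok) (M (nat_lit 463) (B (L (nat_lit 494) ln11_15_2 ln11_15_2_ok) (L (nat_lit 464) ln16_14_1 ln16_14_1_ok))))) (B (M (nat_lit 462)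 (B (M (nat_lit 463) (B (L (nat_lit 494) ln11_15_2 ln11_15_2_ok) (L (nat_lit 460) ln15_14_1 ln15_14_1_ok))) (B (M (nat_lit 463) (B (L (nat_lit 460) ln15_14_1 ln15_14_1_ok) (L (nat_lit 464) ln16_14_1 ln16_14_1_ok))) (B (M (nat_lit 463) (B (L (nat_lit 494) ln11_15_2 ln11_15_2_ok) (L (nat_lit 464) ln16_14_1 ln16_14_1_ok))) (M (nat_lit 494) (B (M (nat_lit 459) (B (L (nat_lit 458) ln14_15_3 ln14_15_3_ok) (M (nat_lit 495) (B (L (nat_lit 460) ln11_14_0 ln11_14_0_ok) (M (nat_lit 527) (B (L (nat_lit 526) ln11_15_0 ln11_15_0_ok) (L (nat_lit 528) ln12_15_0 ln12_15_0_ok))))))) (B (M (nat_lit 495) (B (M (nat_lit 523) (B (L (nat_lit 522) ln14_15_1 ln14_15_1_ok) (L (nat_lit 524) ln15_15_1 ln15_15_1_ok))) (M (nat_lit 459) (B (L (nat_lit 458) ln14_15_3 ln14_15_3_ok) (L (nat_lit 460) ln11_14_0 ln11_14_0_ok))))) (B (M (nat_lit 459) (B (L (nat_lit 458) ln14_15_3 ln14_15_3_ok) (M (nat_lit 427) (B (M (nat_lit 523)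 (B (L (nat_lit 522) ln14_15_1 ln14_15_1_ok) (M (nat_lit 524) (B (L (nat_lit 556) ln11_13_4 ln11_13_4_ok) (L (nat_lit 395) ln11_12_4 ln11_12_4_ok))))) (B (M (nat_lit 523) (B (L (nat_lit 522) ln14_15_1 ln14_15_1_ok) (M (nat_lit 426) (B (L (nat_lit 394) ln11_16_7 ln11_16_7_ok) (L (nat_lit 460) ln14_14_3 ln14_14_3_ok))))) (M (nat_lit 524) (B (L (nat_lit 395) ln11_12_4 ln11_12_4_ok) (M (nat_lit 460) (B (L (nat_lit 556) ln12_17_6 ln12_17_6_ok) (L (nat_lit 426) ln14_14_3 ln14_14_3_ok)))))))))) (M (nat_lit 495) (B (M (nat_lit 523) (B (L (nat_lit 522) ln14_15_1 ln14_15_1_ok) (L (nat_lit 524) ln15_15_1 ln15_15_1_ok))) (M (nat_lit 527) (B (L (nat_lit 526) ln11_15_0 ln11_15_0_ok) (L (nat_lit 528) ln12_15_0 ln12_15_0_ok))))))))))))) (B (M (nat_lit 462) (B (L (nat_lit 490) ln10_15_2 ln10_15_2_ok) (M (nat_lit 463) (B (L (nat_lit 460) ln15_14_1 ln15_14_1_ok) (L (nat_lit 464) ln16_14_1 ln16_14_1_ok))))) (M (nat_lit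 490) (B (M (nat_lit 489) (B (L (nat_lit 460) ln9_15_2 ln9_15_2_ok) (M (nat_lit 457) (B (L (nat_lit 456) ln12_15_3 ln12_15_3_ok) (L (nat_lit 458) ln13_15_3 ln13_15_3_ok))))) (B (M (nat_lit 494) (B (M (nat_lit 522) (B (L (nat_lit 521) ln13_15_1 ln13_15_1_ok) (L (nat_lit 523) ln14_15_1 ln14_15_1_ok))) (M (nat_lit 458) (B (L (nat_lit 457) ln13_15_3 ln13_15_3_ok) (L (nat_lit 459) ln14_15_3 ln14_15_3_ok))))) (M (nat_lit 489) (B (L (nat_lit 460) ln9_15_2 ln9_15_2_ok) (M (nat_lit 521) (B (L (nat_lit 520) ln12_15_1 ln12_15_1_ok) (L (nat_lit 522) ln13_15_1 ln13_15_1_ok))))))))))))))))))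
noncomputable def c10_d34 : Cert := (B (M (nat_lit 525) (B (M (nat_lit 557) (B (M (nat_lit 558) (B (L (nat_lit 590) ln13_14_4 ln13_14_4_ok) (L (nat_lit 526) ln13_13_4 ln13_13_4_ok))) (M (nat_lit 428) (B (L (nat_lit 460) ln13_17_7 ln13_17_7_ok) (L (nat_lit 396) ln13_16_7 ln13_16_7_ok))))) (B (M (nat_lit 397) (B (M (nat_lit 526) (B (L (nat_lit 558) ln13_13_4 ln13_13_4_ok) (L (nat_lit 494) ln13_12_4 ln13_12_4_ok))) (M (nat_lit 396) (B (L (nat_lit 428) ln13_16_7 ln13_16_7_ok) (L (nat_lit 364) ln13_15_7 ln13_15_7_ok))))) (B (M (nat_lit 557) (B (M (nat_lit 428) (B (L (nat_lit 460) ln13_17_7 ln13_17_7_ok) (L (nat_lit 396) ln13_16_7 ln13_16_7_ok))) (M (nat_lit 589) (B (M (nat_lit 588) (B (L (nat_lit 620) ln13_15_5_c10 ln13_15_5_c10_ok) (L (nat_lit 556) ln13_14_5 ln13_14_5_ok))) (M (nat_lit 494) (B (L (nat_lit 462) ln13_18_6 ln13_18_6_ok) (M (nat_lit 526) (B (L (nat_lit 621) ln13_19_6_c10 ln13_19_6_c10_ok)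 (L (nat_lit 397) ln13_12_4 ln13_12_4_ok))))))))) (B (M (nat_lit 557) (B (M (nat_lit 428) (B (L (nat_lit 460) ln13_17_7 ln13_17_7_ok) (L (nat_lit 396) ln13_16_7 ln13_16_7_ok))) (M (nat_lit 589) (B (M (nat_lit 590) (B (L (nat_lit 622) ln13_15_4_c10 ln13_15_4_c10_ok) (L (nat_lit 558) ln13_14_4 ln13_14_4_ok))) (M (nat_lit 588) (B (L (nat_lit 620) ln13_15_5_c10 ln13_15_5_c10_ok) (L (nat_lit 556) ln13_14_5 ln13_14_5_ok))))))) (M (nat_lit 557) (B (M (nat_lit 558) (B (L (nat_lit 590) ln13_14_4 ln13_14_4_ok) (L (nat_lit 526) ln13_13_4 ln13_13_4_ok))) (B (M (nat_lit 526) (B (L (nat_lit 558) ln13_13_4 ln13_13_4_ok) (M (nat_lit 494) (B (L (nat_lit 397) ln13_12_4 ln13_12_4_ok) (M (nat_lit 589) (B (L (nat_lit 621) ln13_19_6_c10 ln13_19_6_c10_ok) (L (nat_lit 462) ln13_18_6 ln13_18_6_ok))))))) (B (M (nat_lit 589) (B (M (nat_lit 588) (B (L (nat_lit 620) ln13_15_5_c10 ln13_15_5_c10_ok) (L (nat_lit 556) ln13_14_5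 ln13_14_5_ok))) (M (nat_lit 494) (B (L (nat_lit 462) ln13_18_6 ln13_18_6_ok) (M (nat_lit 526) (B (L (nat_lit 621) ln13_19_6_c10 ln13_19_6_c10_ok) (L (nat_lit 397) ln13_12_4 ln13_12_4_ok))))))) (M (nat_lit 589) (B (M (nat_lit 590) (B (L (nat_lit 622) ln13_15_4_c10 ln13_15_4_c10_ok) (L (nat_lit 558) ln13_14_4 ln13_14_4_ok))) (M (nat_lit 588) (B (L (nat_lit 620) ln13_15_5_c10 ln13_15_5_c10_ok) (L (nat_lit 556) ln13_14_5 ln13_14_5_ok)))))))))))))) (B (M (nat_lit 494) (B (M (nat_lit 526) (B (L (nat_lit 397) ln13_12_4 ln13_12_4_ok) (M (nat_lit 558) (B (L (nat_lit 462) ln14_17_7 ln14_17_7_ok) (L (nat_lit 590) ln14_18_7 ln14_18_7_ok))))) (B (M (nat_lit 495) (B (M (nat_lit 460) (B (L (nat_lit 496) ln16_15_3 ln16_15_3_ok) (M (nat_lit 459) (B (L (nat_lit 458) ln10_14_0 ln10_14_0_ok) (L (nat_lit 492) ln15_15_3 ln15_15_3_ok))))) (B (M (nat_lit 460) (B (L (nat_lit 496) ln16_15_3 ln16_15_3_ok) (M (nat_lit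 459) (B (L (nat_lit 462) ln11_14_0 ln11_14_0_ok) (L (nat_lit 492) ln15_15_3 ln15_15_3_ok))))) (B (M (nat_lit 496) (B (L (nat_lit 460) ln16_15_3 ln16_15_3_ok) (M (nat_lit 497) (B (L (nat_lit 462) ln17_15_3 ln17_15_3_ok) (M (nat_lit 465) (B (L (nat_lit 464) ln13_15_2 ln13_15_2_ok) (L (nat_lit 466) ln14_15_2_c10 ln14_15_2_c10_ok))))))) (B (M (nat_lit 492) (B (M (nat_lit 527) (B (L (nat_lit 528) ln12_15_0 ln12_15_0_ok) (M (nat_lit 491) (B (L (nat_lit 526) ln11_15_0 ln11_15_0_ok) (M (nat_lit 523) (B (L (nat_lit 522) ln14_15_1 ln14_15_1_ok) (L (nat_lit 524) ln15_15_1 ln15_15_1_ok))))))) (B (M (nat_lit 496) (B (M (nat_lit 528) (B (L (nat_lit 527) ln12_15_0 ln12_15_0_ok) (L (nat_lit 529) ln13_15_0 ln13_15_0_ok))) (M (nat_lit 465) (B (L (nat_lit 464) ln13_15_2 ln13_15_2_ok) (M (nat_lit 497) (B (L (nat_lit 462) ln17_15_3 ln17_15_3_ok) (L (nat_lit 466) ln14_15_2_c10 ln14_15_2_c10_ok))))))) (M (nat_lit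 491) (B (M (nat_lit 523) (B (L (nat_lit 522) ln14_15_1 ln14_15_1_ok) (L (nat_lit 524) ln15_15_1 ln15_15_1_ok))) (M (nat_lit 490) (B (L (nat_lit 462) ln10_15_2 ln10_15_2_ok) (M (nat_lit 458) (B (L (nat_lit 457) ln13_15_3 ln13_15_3_ok) (L (nat_lit 459) ln14_15_3 ln14_15_3_ok)))))))))) (M (nat_lit 492) (B (M (nat_lit 524) (B (L (nat_lit 523) ln15_15_1 ln15_15_1_ok) (M (nat_lit 460) (B (L (nat_lit 556) ln12_17_6 ln12_17_6_ok) (L (nat_lit 459) ln15_15_3 ln15_15_3_ok))))) (B (M (nat_lit 527) (B (L (nat_lit 528) ln12_15_0 ln12_15_0_ok) (M (nat_lit 491) (B (L (nat_lit 526) ln11_15_0 ln11_15_0_ok) (M (nat_lit 523) (B (L (nat_lit 522) ln14_15_1 ln14_15_1_ok) (L (nat_lit 524) ln15_15_1 ln15_15_1_ok))))))) (M (nat_lit 491) (B (M (nat_lit 459) (B (L (nat_lit 458) ln14_15_3 ln14_15_3_ok) (L (nat_lit 460) ln15_15_3 ln15_15_3_ok))) (M (nat_lit 527) (B (L (nat_lit 526) ln11_15_0 ln11_15_0_ok) (L (nat_lit 528)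 ln12_15_0 ln12_15_0_ok))))))))))))) (B (M (nat_lit 492) (B (M (nat_lit 397) (B (L (nat_lit 524) ln13_12_5 ln13_12_5_ok) (L (nat_lit 526) ln13_12_4 ln13_12_4_ok))) (B (M (nat_lit 495) (B (M (nat_lit 460) (B (L (nat_lit 459) ln15_15_3 ln15_15_3_ok) (L (nat_lit 496) ln16_15_3 ln16_15_3_ok))) (M (nat_lit 527) (B (L (nat_lit 528) ln12_15_0 ln12_15_0_ok) (M (nat_lit 491) (B (L (nat_lit 526) ln11_15_0 ln11_15_0_ok) (M (nat_lit 523) (B (L (nat_lit 522) ln14_15_1 ln14_15_1_ok) (L (nat_lit 524) ln15_15_1 ln15_15_1_ok))))))))) (B (M (nat_lit 491) (B (M (nat_lit 526) (B (L (nat_lit 397) ln13_12_4 ln13_12_4_ok) (L (nat_lit 527) ln11_15_0 ln11_15_0_ok))) (M (nat_lit 490) (B (M (nat_lit 458) (B (L (nat_lit 457) ln13_15_3 ln13_15_3_ok) (L (nat_lit 459) ln14_15_3 ln14_15_3_ok))) (M (nat_lit 522) (B (L (nat_lit 521) ln13_15_1 ln13_15_1_ok) (L (nat_lit 523) ln14_15_1 ln14_15_1_ok))))))) (M (nat_lit 524) (B (L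 (nat_lit 397) ln13_12_5 ln13_12_5_ok) (M (nat_lit 556) (B (L (nat_lit 460) ln12_17_6 ln12_17_6_ok) (L (nat_lit 588) ln12_18_6 ln12_18_6_ok))))))))) (M (nat_lit 492) (B (M (nat_lit 524) (B (L (nat_lit 397) ln13_12_5 ln13_12_5_ok) (M (nat_lit 556) (B (L (nat_lit 460) ln12_17_6 ln12_17_6_ok) (L (nat_lit 588) ln12_18_6 ln12_18_6_ok))))) (B (M (nat_lit 491) (B (M (nat_lit 490) (B (L (nat_lit 462) ln10_15_2 ln10_15_2_ok) (M (nat_lit 458) (B (L (nat_lit 457) ln13_15_3 ln13_15_3_ok) (L (nat_lit 459) ln14_15_3 ln14_15_3_ok))))) (B (M (nat_lit 490) (B (L (nat_lit 462) ln10_15_2 ln10_15_2_ok) (M (nat_lit 522) (B (L (nat_lit 521) ln13_15_1 ln13_15_1_ok) (L (nat_lit 523) ln14_15_1 ln14_15_1_ok))))) (M (nat_lit 495) (B (M (nat_lit 459) (B (L (nat_lit 458) ln14_15_3 ln14_15_3_ok) (L (nat_lit 460) ln15_15_3 ln15_15_3_ok))) (M (nat_lit 523) (B (L (nat_lit 522) ln14_15_1 ln14_15_1_ok) (L (nat_lit 524) ln15_15_1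 ln15_15_1_ok)))))))) (B (M (nat_lit 524) (B (L (nat_lit 397) ln13_12_5 ln13_12_5_ok) (M (nat_lit 523) (B (L (nat_lit 495) ln15_15_1 ln15_15_1_ok) (M (nat_lit 522) (B (L (nat_lit 491) ln14_15_1 ln14_15_1_ok) (L (nat_lit 521) ln9_16_2 ln9_16_2_ok))))))) (M (nat_lit 495) (B (M (nat_lit 460) (B (L (nat_lit 459) ln15_15_3 ln15_15_3_ok) (L (nat_lit 496) ln16_15_3 ln16_15_3_ok))) (B (M (nat_lit 496) (B (L (nat_lit 460) ln16_15_3 ln16_15_3_ok) (M (nat_lit 528) (B (L (nat_lit 527) ln12_15_0 ln12_15_0_ok) (L (nat_lit 529) ln13_15_0 ln13_15_0_ok))))) (B (M (nat_lit 496) (B (M (nat_lit 528) (B (L (nat_lit 527) ln12_15_0 ln12_15_0_ok) (L (nat_lit 529) ln13_15_0 ln13_15_0_ok))) (M (nat_lit 465) (B (L (nat_lit 464) ln13_15_2 ln13_15_2_ok) (M (nat_lit 497) (B (L (nat_lit 462) ln17_15_3 ln17_15_3_ok) (L (nat_lit 466) ln14_15_2_c10 ln14_15_2_c10_ok))))))) (M (nat_lit 491) (B (M (nat_lit 459) (B (L (nat_lit 458)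 ln14_15_3 ln14_15_3_ok) (L (nat_lit 460) ln15_15_3 ln15_15_3_ok))) (M (nat_lit 490) (B (L (nat_lit 462) ln10_15_2 ln10_15_2_ok) (M (nat_lit 522) (B (L (nat_lit 521) ln13_15_1 ln13_15_1_ok) (L (nat_lit 523) ln14_15_1 ln14_15_1_ok))))))))))))))))))) c10_d33))
noncomputable def c10_d35 : Cert := (B (M (nat_lit 524) (B (M (nat_lit 556) (B (L (nat_lit 525) ln13_13_5 ln13_13_5_ok) (M (nat_lit 492) (B (L (nat_lit 460) ln12_17_6 ln12_17_6_ok) (L (nat_lit 397) ln13_12_5 ln13_12_5_ok))))) (B (M (nat_lit 494) (B (M (nat_lit 397) (B (L (nat_lit 492) ln13_12_5 ln13_12_5_ok) (L (nat_lit 526) ln13_12_4 ln13_12_4_ok))) (B (M (nat_lit 526) (B (L (nat_lit 397) ln13_12_4 ln13_12_4_ok) (M (nat_lit 558) (B (L (nat_lit 525) ln13_13_4 ln13_13_4_ok) (L (nat_lit 590) ln14_18_7 ln14_18_7_ok))))) (B (M (nat_lit 495) (B (M (nat_lit 496) (B (L (nat_lit 525) ln16_15_1 ln16_15_1_ok) (L (nat_lit 460) ln16_15_3 ln16_15_3_ok)))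 (B (M (nat_lit 523) (B (L (nat_lit 492) ln15_15_1 ln15_15_1_ok) (M (nat_lit 525) (B (L (nat_lit 522) ln10_16_2 ln10_16_2_ok) (L (nat_lit 496) ln16_15_1 ln16_15_1_ok))))) (B (M (nat_lit 492) (B (L (nat_lit 523) ln15_15_1 ln15_15_1_ok) (M (nat_lit 460) (B (L (nat_lit 459) ln15_15_3 ln15_15_3_ok) (L (nat_lit 496) ln16_15_3 ln16_15_3_ok))))) (M (nat_lit 523) (B (L (nat_lit 492) ln15_15_1 ln15_15_1_ok) (M (nat_lit 525) (B (L (nat_lit 522) ln10_16_2 ln10_16_2_ok) (L (nat_lit 526) ln11_16_2 ln11_16_2_ok))))))))) (M (nat_lit 495) (B (M (nat_lit 492) (B (L (nat_lit 523) ln15_15_1 ln15_15_1_ok) (L (nat_lit 397) ln13_12_5 ln13_12_5_ok))) (M (nat_lit 496) (B (L (nat_lit 525) ln16_15_1 ln16_15_1_ok) (L (nat_lit 460) ln16_15_3 ln16_15_3_ok))))))))) (B (M (nat_lit 525) (B (L (nat_lit 556) ln13_13_5 ln13_13_5_ok) (M (nat_lit 526) (B (L (nat_lit 558) ln13_13_4 ln13_13_4_ok) (M (nat_lit 494) (B (L (nat_lit 397)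 ln13_12_4 ln13_12_4_ok) (M (nat_lit 495) (B (L (nat_lit 523) ln11_16_2 ln11_16_2_ok) (L (nat_lit 496) ln16_15_1 ln16_15_1_ok))))))))) (B (M (nat_lit 492) (B (L (nat_lit 397) ln13_12_5 ln13_12_5_ok) (M (nat_lit 556) (B (L (nat_lit 588) ln12_18_6 ln12_18_6_ok) (L (nat_lit 460) ln12_17_6 ln12_17_6_ok))))) (M (nat_lit 556) (B (L (nat_lit 525) ln13_13_5 ln13_13_5_ok) (M (nat_lit 492) (B (L (nat_lit 588) ln12_18_6 ln12_18_6_ok) (L (nat_lit 460) ln12_17_6 ln12_17_6_ok)))))))))) (B (M (nat_lit 526) (B (M (nat_lit 558) (B (L (nat_lit 525) ln13_13_4 ln13_13_4_ok) (M (nat_lit 494) (B (L (nat_lit 462) ln14_17_7 ln14_17_7_ok) (L (nat_lit 397) ln13_12_4 ln13_12_4_ok))))) (B (M (nat_lit 492) (B (M (nat_lit 397) (B (L (nat_lit 494) ln13_12_4 ln13_12_4_ok) (L (nat_lit 524) ln13_12_5 ln13_12_5_ok))) (B (M (nat_lit 524) (B (L (nat_lit 397) ln13_12_5 ln13_12_5_ok) (M (nat_lit 556) (B (L (nat_lit 525) ln13_13_5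 ln13_13_5_ok) (L (nat_lit 588) ln12_18_6 ln12_18_6_ok))))) (B (M (nat_lit 491) (B (M (nat_lit 490) (B (L (nat_lit 525) ln10_15_0 ln10_15_0_ok) (L (nat_lit 462) ln10_15_2 ln10_15_2_ok))) (B (M (nat_lit 527) (B (L (nat_lit 494) ln11_15_0 ln11_15_0_ok) (M (nat_lit 525) (B (L (nat_lit 528) ln16_16_3 ln16_16_3_ok) (L (nat_lit 490) ln10_15_0 ln10_15_0_ok))))) (B (M (nat_lit 494) (B (L (nat_lit 527) ln11_15_0 ln11_15_0_ok) (M (nat_lit 462) (B (L (nat_lit 463) ln11_15_2 ln11_15_2_ok) (L (nat_lit 490) ln10_15_2 ln10_15_2_ok))))) (M (nat_lit 527) (B (L (nat_lit 494) ln11_15_0 ln11_15_0_ok) (M (nat_lit 525) (B (L (nat_lit 528) ln16_16_3 ln16_16_3_ok) (L (nat_lit 524) ln15_16_3 ln15_16_3_ok))))))))) (M (nat_lit 491) (B (M (nat_lit 494) (B (L (nat_lit 527) ln11_15_0 ln11_15_0_ok) (L (nat_lit 397) ln13_12_4 ln13_12_4_ok))) (M (nat_lit 490) (B (L (nat_lit 525) ln10_15_0 ln10_15_0_ok) (L (nat_lit 462) ln10_15_2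 ln10_15_2_ok))))))))) (B (M (nat_lit 525) (B (L (nat_lit 558) ln13_13_4 ln13_13_4_ok) (M (nat_lit 524) (B (L (nat_lit 556) ln13_13_5 ln13_13_5_ok) (M (nat_lit 492) (B (L (nat_lit 397) ln13_12_5 ln13_12_5_ok) (M (nat_lit 491) (B (L (nat_lit 527) ln15_16_3 ln15_16_3_ok) (L (nat_lit 490) ln10_15_0 ln10_15_0_ok))))))))) (B (M (nat_lit 494) (B (L (nat_lit 397) ln13_12_4 ln13_12_4_ok) (M (nat_lit 558) (B (L (nat_lit 590) ln14_18_7 ln14_18_7_ok) (L (nat_lit 462) ln14_17_7 ln14_17_7_ok))))) (M (nat_lit 558) (B (L (nat_lit 525) ln13_13_4 ln13_13_4_ok) (M (nat_lit 494) (B (L (nat_lit 590) ln14_18_7 ln14_18_7_ok) (L (nat_lit 462) ln14_17_7 ln14_17_7_ok)))))))))) (B (M (nat_lit 525) (B (M (nat_lit 557) (B (M (nat_lit 558) (B (L (nat_lit 590) ln13_14_4 ln13_14_4_ok) (L (nat_lit 526) ln13_13_4 ln13_13_4_ok))) (M (nat_lit 428) (B (L (nat_lit 460) ln13_17_7 ln13_17_7_ok) (L (nat_lit 396) ln13_16_7 ln13_16_7_ok)))))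 (B (M (nat_lit 397) (B (M (nat_lit 524) (B (L (nat_lit 556) ln13_13_5 ln13_13_5_ok) (L (nat_lit 492) ln13_12_5 ln13_12_5_ok))) (M (nat_lit 396) (B (L (nat_lit 428) ln13_16_7 ln13_16_7_ok) (L (nat_lit 364) ln13_15_7 ln13_15_7_ok))))) (M (nat_lit 397) (B (M (nat_lit 524) (B (L (nat_lit 556) ln13_13_5 ln13_13_5_ok) (L (nat_lit 492) ln13_12_5 ln13_12_5_ok))) (M (nat_lit 526) (B (L (nat_lit 558) ln13_13_4 ln13_13_4_ok) (L (nat_lit 494) ln13_12_4 ln13_12_4_ok)))))))) (B (M (nat_lit 524) (B (M (nat_lit 492) (B (L (nat_lit 397) ln13_12_5 ln13_12_5_ok) (M (nat_lit 556) (B (L (nat_lit 588) ln12_18_6 ln12_18_6_ok) (L (nat_lit 525) ln13_13_5 ln13_13_5_ok))))) (B (M (nat_lit 525) (B (L (nat_lit 556) ln13_13_5 ln13_13_5_ok) (M (nat_lit 526) (B (L (nat_lit 558) ln13_13_4 ln13_13_4_ok) (M (nat_lit 494) (B (L (nat_lit 397) ln13_12_4 ln13_12_4_ok) (M (nat_lit 523) (B (L (nat_lit 522) ln10_16_2 ln10_16_2_ok) (L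 (nat_lit 495) ln11_16_2 ln11_16_2_ok))))))))) (B (M (nat_lit 494) (B (M (nat_lit 397) (B (L (nat_lit 492) ln13_12_5 ln13_12_5_ok) (L (nat_lit 526) ln13_12_4 ln13_12_4_ok))) (B (M (nat_lit 526) (B (L (nat_lit 397) ln13_12_4 ln13_12_4_ok) (M (nat_lit 525) (B (L (nat_lit 558) ln13_13_4 ln13_13_4_ok) (M (nat_lit 495) (B (L (nat_lit 523) ln11_16_2 ln11_16_2_ok) (L (nat_lit 496) ln16_15_1 ln16_15_1_ok))))))) (B (M (nat_lit 495) (B (M (nat_lit 496) (B (L (nat_lit 460) ln16_15_3 ln16_15_3_ok) (L (nat_lit 525) ln16_15_1 ln16_15_1_ok))) (B (M (nat_lit 525) (B (L (nat_lit 496) ln16_15_1 ln16_15_1_ok) (M (nat_lit 523) (B (L (nat_lit 492) ln15_15_1 ln15_15_1_ok) (L (nat_lit 526) ln11_16_2 ln11_16_2_ok))))) (B (M (nat_lit 460) (B (L (nat_lit 496) ln16_15_3 ln16_15_3_ok) (M (nat_lit 492) (B (L (nat_lit 459) ln15_15_3 ln15_15_3_ok) (L (nat_lit 523) ln15_15_1 ln15_15_1_ok))))) (M (nat_lit 523) (B (L (nat_lit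 492) ln15_15_1 ln15_15_1_ok) (M (nat_lit 525) (B (L (nat_lit 522) ln10_16_2 ln10_16_2_ok) (L (nat_lit 526) ln11_16_2 ln11_16_2_ok))))))))) (M (nat_lit 495) (B (M (nat_lit 492) (B (L (nat_lit 523) ln15_15_1 ln15_15_1_ok) (L (nat_lit 397) ln13_12_5 ln13_12_5_ok))) (M (nat_lit 496) (B (L (nat_lit 460) ln16_15_3 ln16_15_3_ok) (L (nat_lit 525) ln16_15_1 ln16_15_1_ok))))))))) (B (M (nat_lit 556) (B (L (nat_lit 525) ln13_13_5 ln13_13_5_ok) (M (nat_lit 492) (B (L (nat_lit 460) ln12_17_6 ln12_17_6_ok) (L (nat_lit 588) ln12_18_6 ln12_18_6_ok))))) (M (nat_lit 492) (B (L (nat_lit 397) ln13_12_5 ln13_12_5_ok) (M (nat_lit 556) (B (L (nat_lit 460) ln12_17_6 ln12_17_6_ok) (L (nat_lit 588) ln12_18_6 ln12_18_6_ok)))))))))) c10_d34))))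
noncomputable def c10_d36 : Cert := (B (M (nat_lit 396) (B (M (nat_lit 364) (B (L (nat_lit 493) ln13_15_7 ln13_15_7_ok) (M (nat_lit 332) (B (L (nat_lit 300) ln12_9_4 ln12_9_4_ok) (L (nat_lit 365) ln13_14_7 ln13_14_7_ok))))) (B (M (nat_lit 364) (B (L (nat_lit 493) ln13_15_7 ln13_15_7_ok) (M (nat_lit 332) (B (L (nat_lit 365) ln13_14_7 ln13_14_7_ok) (L (nat_lit 428) ln12_10_4 ln12_10_4_ok))))) (B (M (nat_lit 399) (B (M (nat_lit 364) (B (L (nat_lit 363) ln15_12_3 ln15_12_3_ok) (L (nat_lit 493) ln13_15_7 ln13_15_7_ok))) (M (nat_lit 428) (B (L (nat_lit 400) ln16_12_1 ln16_12_1_ok) (L (nat_lit 427) ln15_12_1 ln15_12_1_ok))))) (B (M (nat_lit 428) (B (M (nat_lit 427) (B (L (nat_lit 399) ln15_12_1 ln15_12_1_ok) (L (nat_lit 426) ln10_13_2 ln10_13_2_ok))) (M (nat_lit 365) (B (M (nat_lit 333) (B (L (nat_lit 301) ln13_9_5 ln13_9_5_ok) (L (nat_lit 460) ln13_10_5 ln13_10_5_ok))) (M (nat_lit 494) (B (L (nat_lit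 462) ln13_11_4 ln13_11_4_ok) (M (nat_lit 493) (B (L (nat_lit 526) ln13_12_4 ln13_12_4_ok) (L (nat_lit 525) ln13_16_7 ln13_16_7_ok))))))))) (M (nat_lit 399) (B (M (nat_lit 428) (B (L (nat_lit 400) ln16_12_1 ln16_12_1_ok) (L (nat_lit 427) ln15_12_1 ln15_12_1_ok))) (B (M (nat_lit 364) (B (L (nat_lit 363) ln15_12_3 ln15_12_3_ok) (M (nat_lit 428) (B (L (nat_lit 332) ln12_10_4 ln12_10_4_ok) (L (nat_lit 427) ln15_12_1 ln15_12_1_ok))))) (M (nat_lit 364) (B (L (nat_lit 363) ln15_12_3 ln15_12_3_ok) (M (nat_lit 332) (B (L (nat_lit 300) ln12_9_4 ln12_9_4_ok) (L (nat_lit 365) ln13_14_7 ln13_14_7_ok))))))))))))) (B (M (nat_lit 428) (B (M (nat_lit 427) (B (L (nat_lit 426) ln10_13_2 ln10_13_2_ok) (M (nat_lit 399) (B (L (nat_lit 400) ln16_12_1 ln16_12_1_ok) (L (nat_lit 396) ln15_12_1 ln15_12_1_ok))))) (B (M (nat_lit 396) (B (M (nat_lit 427) (B (L (nat_lit 399) ln15_12_1 ln15_12_1_ok) (L (nat_lit 426) ln10_13_2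 ln10_13_2_ok))) (M (nat_lit 493) (B (L (nat_lit 366) ln13_15_6 ln13_15_6_ok) (L (nat_lit 525) ln13_16_7 ln13_16_7_ok))))) (B (M (nat_lit 493) (B (L (nat_lit 366) ln13_15_6 ln13_15_6_ok) (M (nat_lit 525) (B (L (nat_lit 396) ln13_16_7 ln13_16_7_ok) (M (nat_lit 526) (B (L (nat_lit 494) ln13_12_4 ln13_12_4_ok) (L (nat_lit 558) ln13_13_4 ln13_13_4_ok))))))) (M (nat_lit 462) (B (M (nat_lit 493) (B (L (nat_lit 366) ln13_15_6 ln13_15_6_ok) (M (nat_lit 494) (B (L (nat_lit 365) ln13_11_4 ln13_11_4_ok) (L (nat_lit 526) ln13_12_4 ln13_12_4_ok))))) (M (nat_lit 427) (B (L (nat_lit 426) ln10_13_0 ln10_13_0_ok) (M (nat_lit 463) (B (L (nat_lit 464) ln16_14_3 ln16_14_3_ok) (L (nat_lit 460) ln15_14_3 ln15_14_3_ok))))))))))) (B (M (nat_lit 399) (B (M (nat_lit 400) (B (L (nat_lit 428) ln16_12_1 ln16_12_1_ok) (M (nat_lit 365) (B (L (nat_lit 364) ln16_12_3 ln16_12_3_ok) (M (nat_lit 366) (B (L (nat_lit 401) ln17_12_3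 ln17_12_3_ok) (L (nat_lit 493) ln13_15_6 ln13_15_6_ok))))))) (B (M (nat_lit 400) (B (L (nat_lit 428) ln16_12_1 ln16_12_1_ok) (M (nat_lit 369) (B (L (nat_lit 368) ln13_12_2 ln13_12_2_ok) (M (nat_lit 433) (B (L (nat_lit 432) ln13_12_0 ln13_12_0_ok) (M (nat_lit 401) (B (L (nat_lit 370) ln14_12_2 ln14_12_2_ok) (L (nat_lit 434) ln14_12_0 ln14_12_0_ok))))))))) (B (M (nat_lit 365) (B (M (nat_lit 364) (B (L (nat_lit 332) ln13_14_7 ln13_14_7_ok) (L (nat_lit 400) ln16_12_3 ln16_12_3_ok))) (M (nat_lit 494) (B (L (nat_lit 462) ln13_11_4 ln13_11_4_ok) (M (nat_lit 493) (B (L (nat_lit 366) ln13_15_6 ln13_15_6_ok) (L (nat_lit 526) ln13_12_4 ln13_12_4_ok))))))) (M (nat_lit 494) (B (M (nat_lit 493) (B (L (nat_lit 366) ln13_15_6 ln13_15_6_ok) (L (nat_lit 526) ln13_12_4 ln13_12_4_ok))) (B (M (nat_lit 462) (B (L (nat_lit 365) ln13_11_4 ln13_11_4_ok) (M (nat_lit 526) (B (L (nat_lit 493) ln13_12_4 ln13_12_4_ok) (L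 (nat_lit 558) ln14_17_7 ln14_17_7_ok))))) (M (nat_lit 365) (B (L (nat_lit 462) ln13_11_4 ln13_11_4_ok) (M (nat_lit 364) (B (L (nat_lit 332) ln13_14_7 ln13_14_7_ok) (M (nat_lit 363) (B (L (nat_lit 366) ln11_11_0 ln11_11_0_ok) (L (nat_lit 362) ln10_11_0 ln10_11_0_ok)))))))))))))) (B (M (nat_lit 493) (B (L (nat_lit 366) ln13_15_6 ln13_15_6_ok) (M (nat_lit 396) (B (L (nat_lit 364) ln13_15_7 ln13_15_7_ok) (M (nat_lit 428) (B (L (nat_lit 525) ln13_16_7 ln13_16_7_ok) (M (nat_lit 399) (B (L (nat_lit 400) ln16_12_1 ln16_12_1_ok) (L (nat_lit 427) ln15_12_1 ln15_12_1_ok))))))))) (M (nat_lit 399) (B (M (nat_lit 428) (B (L (nat_lit 400) ln16_12_1 ln16_12_1_ok) (M (nat_lit 427) (B (L (nat_lit 396) ln15_12_1 ln15_12_1_ok) (L (nat_lit 426) ln10_13_2 ln10_13_2_ok))))) (B (M (nat_lit 396) (B (M (nat_lit 364) (B (L (nat_lit 363) ln15_12_3 ln15_12_3_ok) (M (nat_lit 428) (B (L (nat_lit 332) ln12_10_4 ln12_10_4_ok)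 (L (nat_lit 427) ln15_12_1 ln15_12_1_ok))))) (B (M (nat_lit 395) (B (M (nat_lit 367) (B (L (nat_lit 368) ln12_12_2 ln12_12_2_ok) (L (nat_lit 366) ln11_12_2 ln11_12_2_ok))) (M (nat_lit 427) (B (L (nat_lit 428) ln15_12_1 ln15_12_1_ok) (L (nat_lit 426) ln14_12_1 ln14_12_1_ok))))) (M (nat_lit 395) (B (M (nat_lit 367) (B (L (nat_lit 368) ln12_12_2 ln12_12_2_ok) (L (nat_lit 366) ln11_12_2 ln11_12_2_ok))) (M (nat_lit 363) (B (L (nat_lit 364) ln15_12_3 ln15_12_3_ok) (L (nat_lit 362) ln14_12_3 ln14_12_3_ok)))))))) (B (M (nat_lit 400) (B (L (nat_lit 428) ln16_12_1 ln16_12_1_ok) (M (nat_lit 401) (B (M (nat_lit 369) (B (L (nat_lit 370) ln14_12_2 ln14_12_2_ok) (L (nat_lit 368) ln13_12_2 ln13_12_2_ok))) (M (nat_lit 365) (B (L (nat_lit 366) ln17_12_3 ln17_12_3_ok) (L (nat_lit 364) ln16_12_3 ln16_12_3_ok))))))) (M (nat_lit 396) (B (M (nat_lit 364) (B (L (nat_lit 363) ln15_12_3 ln15_12_3_ok) (M (nat_lit 332)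 (B (L (nat_lit 300) ln12_9_4 ln12_9_4_ok) (L (nat_lit 365) ln13_14_7 ln13_14_7_ok))))) (B (M (nat_lit 364) (B (L (nat_lit 363) ln15_12_3 ln15_12_3_ok) (M (nat_lit 365) (B (L (nat_lit 332) ln13_14_7 ln13_14_7_ok) (L (nat_lit 400) ln16_12_3 ln16_12_3_ok))))) (B (M (nat_lit 400) (B (M (nat_lit 368) (B (L (nat_lit 369) ln13_12_2 ln13_12_2_ok) (L (nat_lit 367) ln12_12_2 ln12_12_2_ok))) (M (nat_lit 364) (B (L (nat_lit 365) ln16_12_3 ln16_12_3_ok) (L (nat_lit 363) ln15_12_3 ln15_12_3_ok))))) (M (nat_lit 400) (B (M (nat_lit 368) (B (L (nat_lit 369) ln13_12_2 ln13_12_2_ok) (L (nat_lit 367) ln12_12_2 ln12_12_2_ok))) (M (nat_lit 432) (B (L (nat_lit 433) ln13_12_0 ln13_12_0_ok) (L (nat_lit 431) ln12_12_0 ln12_12_0_ok)))))))))))))))))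
noncomputable def c10_d37 : Cert := (B (M (nat_lit 365) (B (M (nat_lit 460) (B (L (nat_lit 492) ln13_11_5 ln13_11_5_ok) (M (nat_lit 332) (B (L (nat_lit 364) ln13_14_7 ln13_14_7_ok) (M (nat_lit 333) (B (L (nat_lit 300) ln13_13_7 ln13_13_7_ok) (L (nat_lit 428) ln13_10_5 ln13_10_5_ok))))))) (B (M (nat_lit 333) (B (M (nat_lit 334) (B (L (nat_lit 302) ln13_13_6 ln13_13_6_ok) (L (nat_lit 366) ln13_14_6 ln13_14_6_ok))) (M (nat_lit 460) (B (L (nat_lit 428) ln13_10_5 ln13_10_5_ok) (L (nat_lit 492) ln13_11_5 ln13_11_5_ok))))) (M (nat_lit 364) (B (L (nat_lit 332) ln13_14_7 ln13_14_7_ok) (M (nat_lit 366) (B (L (nat_lit 334) ln13_14_6 ln13_14_6_ok) (M (nat_lit 363) (B (M (nat_lit 398) (B (L (nat_lit 362) ln10_11_0 ln10_11_0_ok) (L (nat_lit 399) ln11_11_0 ln11_11_0_ok))) (B (M (nat_lit 367) (B (M (nat_lit 395) (B (L (nat_lit 394) ln14_11_1 ln14_11_1_ok) (L (nat_lit 396) ln15_11_1 ln15_11_1_ok))) (M (nat_lit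 399) (B (L (nat_lit 398) ln11_11_0 ln11_11_0_ok) (L (nat_lit 400) ln12_11_0 ln12_11_0_ok))))) (M (nat_lit 362) (B (M (nat_lit 330) (B (L (nat_lit 329) ln13_11_3 ln13_11_3_ok) (L (nat_lit 331) ln14_11_3 ln14_11_3_ok))) (M (nat_lit 394) (B (L (nat_lit 393) ln13_11_1 ln13_11_1_ok) (L (nat_lit 395) ln14_11_1 ln14_11_1_ok))))))))))))))) (B (M (nat_lit 398) (B (M (nat_lit 493) (B (L (nat_lit 366) ln13_15_6 ln13_15_6_ok) (M (nat_lit 494) (B (L (nat_lit 526) ln13_12_4 ln13_12_4_ok) (M (nat_lit 365) (B (L (nat_lit 462) ln13_11_4 ln13_11_4_ok) (M (nat_lit 364) (B (L (nat_lit 332) ln13_14_7 ln13_14_7_ok) (L (nat_lit 396) ln13_15_7 ln13_15_7_ok))))))))) (B (M (nat_lit 493) (B (L (nat_lit 366) ln13_15_6 ln13_15_6_ok) (M (nat_lit 525) (B (M (nat_lit 396) (B (L (nat_lit 364) ln13_15_7 ln13_15_7_ok) (L (nat_lit 428) ln13_16_7 ln13_16_7_ok))) (M (nat_lit 526) (B (L (nat_lit 494) ln13_12_4 ln13_12_4_ok) (L (nat_lit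 558) ln13_13_4 ln13_13_4_ok))))))) c10_d36))) (B (M (nat_lit 364) (B (M (nat_lit 332) (B (L (nat_lit 365) ln13_14_7 ln13_14_7_ok) (M (nat_lit 396) (B (L (nat_lit 428) ln12_10_4 ln12_10_4_ok) (L (nat_lit 493) ln13_15_7 ln13_15_7_ok))))) (B (M (nat_lit 398) (B (M (nat_lit 493) (B (L (nat_lit 396) ln13_15_7 ln13_15_7_ok) (L (nat_lit 366) ln13_15_6 ln13_15_6_ok))) (B (M (nat_lit 366) (B (L (nat_lit 493) ln13_15_6 ln13_15_6_ok) (M (nat_lit 334) (B (L (nat_lit 365) ln13_14_6 ln13_14_6_ok) (L (nat_lit 302) ln14_9_5 ln14_9_5_ok))))) (B (M (nat_lit 399) (B (M (nat_lit 400) (B (L (nat_lit 365) ln16_12_3 ln16_12_3_ok) (L (nat_lit 428) ln16_12_1 ln16_12_1_ok))) (B (M (nat_lit 363) (B (L (nat_lit 396) ln15_12_3 ln15_12_3_ok) (M (nat_lit 365) (B (L (nat_lit 362) ln10_11_0 ln10_11_0_ok) (L (nat_lit 400) ln16_12_3 ln16_12_3_ok))))) (B (M (nat_lit 396) (B (L (nat_lit 363) ln15_12_3 ln15_12_3_ok) (M (nat_lit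 428) (B (L (nat_lit 427) ln15_12_1 ln15_12_1_ok) (L (nat_lit 400) ln16_12_1 ln16_12_1_ok))))) (M (nat_lit 363) (B (L (nat_lit 396) ln15_12_3 ln15_12_3_ok) (M (nat_lit 365) (B (L (nat_lit 362) ln10_11_0 ln10_11_0_ok) (L (nat_lit 366) ln11_11_0 ln11_11_0_ok))))))))) (M (nat_lit 399) (B (M (nat_lit 396) (B (L (nat_lit 363) ln15_12_3 ln15_12_3_ok) (L (nat_lit 493) ln13_15_7 ln13_15_7_ok))) (M (nat_lit 400) (B (L (nat_lit 365) ln16_12_3 ln16_12_3_ok) (L (nat_lit 428) ln16_12_1 ln16_12_1_ok))))))))) (B (M (nat_lit 365) (B (L (nat_lit 332) ln13_14_7 ln13_14_7_ok) (M (nat_lit 366) (B (L (nat_lit 334) ln13_14_6 ln13_14_6_ok) (M (nat_lit 398) (B (L (nat_lit 493) ln13_15_6 ln13_15_6_ok) (M (nat_lit 399) (B (L (nat_lit 363) ln11_11_0 ln11_11_0_ok) (L (nat_lit 400) ln16_12_3 ln16_12_3_ok))))))))) (B (M (nat_lit 396) (B (L (nat_lit 493) ln13_15_7 ln13_15_7_ok) (M (nat_lit 332) (B (L (nat_lit 300) ln12_9_4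 ln12_9_4_ok) (L (nat_lit 428) ln12_10_4 ln12_10_4_ok))))) (M (nat_lit 332) (B (L (nat_lit 365) ln13_14_7 ln13_14_7_ok) (M (nat_lit 396) (B (L (nat_lit 300) ln12_9_4 ln12_9_4_ok) (L (nat_lit 428) ln12_10_4 ln12_10_4_ok)))))))))) (B (M (nat_lit 365) (B (M (nat_lit 366) (B (L (nat_lit 334) ln13_14_6 ln13_14_6_ok) (M (nat_lit 494) (B (L (nat_lit 462) ln13_11_4 ln13_11_4_ok) (M (nat_lit 493) (B (L (nat_lit 526) ln13_12_4 ln13_12_4_ok) (L (nat_lit 398) ln13_15_6 ln13_15_6_ok))))))) (B (M (nat_lit 493) (B (M (nat_lit 492) (B (L (nat_lit 524) ln13_12_5 ln13_12_5_ok) (L (nat_lit 460) ln13_11_5 ln13_11_5_ok))) (M (nat_lit 366) (B (L (nat_lit 398) ln13_15_6 ln13_15_6_ok) (L (nat_lit 334) ln13_14_6 ln13_14_6_ok))))) (B (M (nat_lit 333) (B (M (nat_lit 460) (B (L (nat_lit 492) ln13_11_5 ln13_11_5_ok) (L (nat_lit 428) ln13_10_5 ln13_10_5_ok))) (M (nat_lit 334) (B (L (nat_lit 366) ln13_14_6 ln13_14_6_ok) (L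 (nat_lit 302) ln13_13_6 ln13_13_6_ok))))) (M (nat_lit 493) (B (M (nat_lit 494) (B (L (nat_lit 526) ln13_12_4 ln13_12_4_ok) (L (nat_lit 462) ln13_11_4 ln13_11_4_ok))) (M (nat_lit 492) (B (L (nat_lit 524) ln13_12_5 ln13_12_5_ok) (L (nat_lit 460) ln13_11_5 ln13_11_5_ok))))))))) (B (M (nat_lit 365) (B (M (nat_lit 493) (B (M (nat_lit 492) (B (L (nat_lit 460) ln13_11_5 ln13_11_5_ok) (L (nat_lit 524) ln13_12_5 ln13_12_5_ok))) (M (nat_lit 494) (B (L (nat_lit 462) ln13_11_4 ln13_11_4_ok) (L (nat_lit 526) ln13_12_4 ln13_12_4_ok))))) (B (M (nat_lit 493) (B (M (nat_lit 364) (B (L (nat_lit 332) ln13_14_7 ln13_14_7_ok) (L (nat_lit 396) ln13_15_7 ln13_15_7_ok))) (M (nat_lit 494) (B (L (nat_lit 462) ln13_11_4 ln13_11_4_ok) (L (nat_lit 526) ln13_12_4 ln13_12_4_ok))))) (B (M (nat_lit 493) (B (M (nat_lit 364) (B (L (nat_lit 332) ln13_14_7 ln13_14_7_ok) (L (nat_lit 396) ln13_15_7 ln13_15_7_ok))) (M (nat_lit 492)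 (B (L (nat_lit 460) ln13_11_5 ln13_11_5_ok) (L (nat_lit 524) ln13_12_5 ln13_12_5_ok))))) (M (nat_lit 333) (B (M (nat_lit 332) (B (L (nat_lit 300) ln13_13_7 ln13_13_7_ok) (L (nat_lit 364) ln13_14_7 ln13_14_7_ok))) (M (nat_lit 460) (B (L (nat_lit 428) ln13_10_5 ln13_10_5_ok) (L (nat_lit 492) ln13_11_5 ln13_11_5_ok))))))))) (M (nat_lit 493) (B (M (nat_lit 525) (B (M (nat_lit 526) (B (L (nat_lit 558) ln13_13_4 ln13_13_4_ok) (L (nat_lit 494) ln13_12_4 ln13_12_4_ok))) (M (nat_lit 396) (B (L (nat_lit 428) ln13_16_7 ln13_16_7_ok) (L (nat_lit 364) ln13_15_7 ln13_15_7_ok))))) (B (M (nat_lit 492) (B (L (nat_lit 524) ln13_12_5 ln13_12_5_ok) (M (nat_lit 494) (B (L (nat_lit 526) ln13_12_4 ln13_12_4_ok) (M (nat_lit 491) (B (M (nat_lit 462) (B (L (nat_lit 490) ln10_15_2 ln10_15_2_ok) (L (nat_lit 463) ln11_15_2 ln11_15_2_ok))) (B (M (nat_lit 495) (B (M (nat_lit 459) (B (L (nat_lit 458) ln14_15_3 ln14_15_3_ok)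 (L (nat_lit 460) ln15_15_3 ln15_15_3_ok))) (M (nat_lit 463) (B (L (nat_lit 462) ln11_15_2 ln11_15_2_ok) (L (nat_lit 464) ln12_15_2 ln12_15_2_ok))))) (M (nat_lit 490) (B (M (nat_lit 522) (B (L (nat_lit 521) ln13_15_1 ln13_15_1_ok) (L (nat_lit 523) ln14_15_1 ln14_15_1_ok))) (M (nat_lit 458) (B (L (nat_lit 457) ln13_15_3 ln13_15_3_ok) (L (nat_lit 459) ln14_15_3 ln14_15_3_ok)))))))))))) (M (nat_lit 396) (B (L (nat_lit 364) ln13_15_7 ln13_15_7_ok) (M (nat_lit 428) (B (L (nat_lit 525) ln13_16_7 ln13_16_7_ok) (M (nat_lit 398) (B (L (nat_lit 366) ln13_15_6 ln13_15_6_ok) (M (nat_lit 399) (B (L (nat_lit 400) ln16_12_1 ln16_12_1_ok) (L (nat_lit 427) ln15_12_1 ln15_12_1_ok)))))))))))))))))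
noncomputable def c10_d38 : Cert := (B (M (nat_lit 525) (B (M (nat_lit 556) (B (L (nat_lit 524) ln13_13_5 ln13_13_5_ok) (M (nat_lit 557) (B (L (nat_lit 588) ln13_14_5 ln13_14_5_ok) (M (nat_lit 558) (B (L (nat_lit 590) ln13_14_4 ln13_14_4_ok) (L (nat_lit 526) ln13_13_4 ln13_13_4_ok))))))) (B (M (nat_lit 397) (B (M (nat_lit 524) (B (L (nat_lit 556) ln13_13_5 ln13_13_5_ok) (L (nat_lit 492) ln13_12_5 ln13_12_5_ok))) (M (nat_lit 526) (B (L (nat_lit 558) ln13_13_4 ln13_13_4_ok) (L (nat_lit 494) ln13_12_4 ln13_12_4_ok))))) (B (M (nat_lit 557) (B (M (nat_lit 558) (B (L (nat_lit 526) ln13_13_4 ln13_13_4_ok) (L (nat_lit 590) ln13_14_4 ln13_14_4_ok))) (M (nat_lit 589) (B (M (nat_lit 460) (B (L (nat_lit 428) ln13_17_7 ln13_17_7_ok) (L (nat_lit 492) ln13_18_7 ln13_18_7_ok))) (M (nat_lit 588) (B (L (nat_lit 556) ln13_14_5 ln13_14_5_ok) (L (nat_lit 620) ln13_15_5_c10 ln13_15_5_c10_ok))))))) (B (M (nat_lit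 557) (B (M (nat_lit 558) (B (L (nat_lit 590) ln13_14_4 ln13_14_4_ok) (L (nat_lit 526) ln13_13_4 ln13_13_4_ok))) (B (M (nat_lit 589) (B (M (nat_lit 460) (B (L (nat_lit 492) ln13_18_7 ln13_18_7_ok) (L (nat_lit 428) ln13_17_7 ln13_17_7_ok))) (M (nat_lit 621) (B (M (nat_lit 620) (B (L (nat_lit 652) ln13_16_5_c10 ln13_16_5_c10_ok) (L (nat_lit 588) ln13_15_5_c10 ln13_15_5_c10_ok))) (M (nat_lit 526) (B (L (nat_lit 494) ln13_19_6_c10 ln13_19_6_c10_ok) (L (nat_lit 558) ln13_13_4 ln13_13_4_ok))))))) (M (nat_lit 589) (B (M (nat_lit 460) (B (L (nat_lit 492) ln13_18_7 ln13_18_7_ok) (L (nat_lit 428) ln13_17_7 ln13_17_7_ok))) (M (nat_lit 621) (B (M (nat_lit 622) (B (L (nat_lit 654) ln13_16_4_c10 ln13_16_4_c10_ok) (L (nat_lit 590) ln13_15_4_c10 ln13_15_4_c10_ok))) (M (nat_lit 620) (B (L (nat_lit 652) ln13_16_5_c10 ln13_16_5_c10_ok) (L (nat_lit 588) ln13_15_5_c10 ln13_15_5_c10_ok)))))))))) (B (M (nat_lit 557)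 (B (M (nat_lit 556) (B (L (nat_lit 588) ln13_14_5 ln13_14_5_ok) (L (nat_lit 524) ln13_13_5 ln13_13_5_ok))) (M (nat_lit 589) (B (M (nat_lit 590) (B (L (nat_lit 622) ln13_15_4_c10 ln13_15_4_c10_ok) (L (nat_lit 558) ln13_14_4 ln13_14_4_ok))) (M (nat_lit 460) (B (L (nat_lit 492) ln13_18_7 ln13_18_7_ok) (L (nat_lit 428) ln13_17_7 ln13_17_7_ok))))))) (M (nat_lit 557) (B (M (nat_lit 556) (B (L (nat_lit 524) ln13_13_5 ln13_13_5_ok) (L (nat_lit 588) ln13_14_5 ln13_14_5_ok))) (B (M (nat_lit 589) (B (M (nat_lit 460) (B (L (nat_lit 428) ln13_17_7 ln13_17_7_ok) (L (nat_lit 492) ln13_18_7 ln13_18_7_ok))) (M (nat_lit 588) (B (L (nat_lit 556) ln13_14_5 ln13_14_5_ok) (L (nat_lit 620) ln13_15_5_c10 ln13_15_5_c10_ok))))) (M (nat_lit 460) (B (L (nat_lit 428) ln13_17_7 ln13_17_7_ok) (M (nat_lit 492) (B (L (nat_lit 589) ln13_18_7 ln13_18_7_ok) (M (nat_lit 397) (B (L (nat_lit 365) ln13_11_5 ln13_11_5_ok) (L (nat_lit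 524) ln13_12_5 ln13_12_5_ok)))))))))))))))) (B (M (nat_lit 525) (B (M (nat_lit 557) (B (M (nat_lit 590) (B (L (nat_lit 558) ln13_14_4 ln13_14_4_ok) (M (nat_lit 589) (B (L (nat_lit 622) ln13_15_4_c10 ln13_15_4_c10_ok) (M (nat_lit 588) (B (L (nat_lit 556) ln13_14_5 ln13_14_5_ok) (L (nat_lit 620) ln13_15_5_c10 ln13_15_5_c10_ok))))))) (B (M (nat_lit 589) (B (M (nat_lit 460) (B (L (nat_lit 428) ln13_17_7 ln13_17_7_ok) (L (nat_lit 492) ln13_18_7 ln13_18_7_ok))) (M (nat_lit 588) (B (L (nat_lit 556) ln13_14_5 ln13_14_5_ok) (L (nat_lit 620) ln13_15_5_c10 ln13_15_5_c10_ok))))) (B (M (nat_lit 589) (B (M (nat_lit 460) (B (L (nat_lit 428) ln13_17_7 ln13_17_7_ok) (L (nat_lit 492) ln13_18_7 ln13_18_7_ok))) (M (nat_lit 590) (B (L (nat_lit 558) ln13_14_4 ln13_14_4_ok) (L (nat_lit 622) ln13_15_4_c10 ln13_15_4_c10_ok))))) (M (nat_lit 428) (B (L (nat_lit 396) ln13_16_7 ln13_16_7_ok) (L (nat_lit 460) ln13_17_7 ln13_17_7_ok)))))))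 (B (M (nat_lit 557) (B (M (nat_lit 558) (B (L (nat_lit 590) ln13_14_4 ln13_14_4_ok) (L (nat_lit 526) ln13_13_4 ln13_13_4_ok))) (M (nat_lit 556) (B (L (nat_lit 588) ln13_14_5 ln13_14_5_ok) (L (nat_lit 524) ln13_13_5 ln13_13_5_ok))))) (B (M (nat_lit 557) (B (M (nat_lit 589) (B (M (nat_lit 590) (B (L (nat_lit 622) ln13_15_4_c10 ln13_15_4_c10_ok) (L (nat_lit 558) ln13_14_4 ln13_14_4_ok))) (M (nat_lit 460) (B (L (nat_lit 492) ln13_18_7 ln13_18_7_ok) (L (nat_lit 428) ln13_17_7 ln13_17_7_ok))))) (B (M (nat_lit 558) (B (L (nat_lit 590) ln13_14_4 ln13_14_4_ok) (L (nat_lit 526) ln13_13_4 ln13_13_4_ok))) (B (M (nat_lit 589) (B (M (nat_lit 460) (B (L (nat_lit 492) ln13_18_7 ln13_18_7_ok) (L (nat_lit 428) ln13_17_7 ln13_17_7_ok))) (M (nat_lit 621) (B (M (nat_lit 620) (B (L (nat_lit 652) ln13_16_5_c10 ln13_16_5_c10_ok) (L (nat_lit 588) ln13_15_5_c10 ln13_15_5_c10_ok))) (M (nat_lit 526) (B (L (nat_lit 494)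 ln13_19_6_c10 ln13_19_6_c10_ok) (L (nat_lit 558) ln13_13_4 ln13_13_4_ok))))))) (M (nat_lit 589) (B (M (nat_lit 460) (B (L (nat_lit 492) ln13_18_7 ln13_18_7_ok) (L (nat_lit 428) ln13_17_7 ln13_17_7_ok))) (M (nat_lit 621) (B (M (nat_lit 622) (B (L (nat_lit 654) ln13_16_4_c10 ln13_16_4_c10_ok) (L (nat_lit 590) ln13_15_4_c10 ln13_15_4_c10_ok))) (M (nat_lit 620) (B (L (nat_lit 652) ln13_16_5_c10 ln13_16_5_c10_ok) (L (nat_lit 588) ln13_15_5_c10 ln13_15_5_c10_ok))))))))))) (B (M (nat_lit 557) (B (M (nat_lit 558) (B (L (nat_lit 590) ln13_14_4 ln13_14_4_ok) (L (nat_lit 526) ln13_13_4 ln13_13_4_ok))) (M (nat_lit 428) (B (L (nat_lit 460) ln13_17_7 ln13_17_7_ok) (L (nat_lit 396) ln13_16_7 ln13_16_7_ok))))) (B (M (nat_lit 557) (B (M (nat_lit 428) (B (L (nat_lit 396) ln13_16_7 ln13_16_7_ok) (L (nat_lit 460) ln13_17_7 ln13_17_7_ok))) (M (nat_lit 556) (B (L (nat_lit 524) ln13_13_5 ln13_13_5_ok) (L (nat_lit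 588) ln13_14_5 ln13_14_5_ok))))) (M (nat_lit 524) (B (L (nat_lit 556) ln13_13_5 ln13_13_5_ok) (M (nat_lit 526) (B (L (nat_lit 558) ln13_13_4 ln13_13_4_ok) (M (nat_lit 523) (B (M (nat_lit 522) (B (L (nat_lit 494) ln10_16_2 ln10_16_2_ok) (M (nat_lit 554) (B (L (nat_lit 555) ln14_16_1 ln14_16_1_ok) (L (nat_lit 553) ln13_16_1 ln13_16_1_ok))))) (B (M (nat_lit 522) (B (L (nat_lit 494) ln10_16_2 ln10_16_2_ok) (M (nat_lit 490) (B (L (nat_lit 489) ln13_16_3 ln13_16_3_ok) (L (nat_lit 491) ln14_16_3 ln14_16_3_ok))))) (M (nat_lit 491) (B (L (nat_lit 490) ln14_16_3 ln14_16_3_ok) (M (nat_lit 428) (B (L (nat_lit 396) ln13_16_7 ln13_16_7_ok) (M (nat_lit 555) (B (L (nat_lit 554) ln14_16_1 ln14_16_1_ok) (M (nat_lit 460) (B (L (nat_lit 459) ln11_17_6 ln11_17_6_ok) (L (nat_lit 492) ln12_13_5 ln12_13_5_ok)))))))))))))))))))))) (M (nat_lit 397) (B (M (nat_lit 366) (B (L (nat_lit 398) ln13_15_6 ln13_15_6_ok) (M (nat_lit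 365) (B (L (nat_lit 334) ln13_14_6 ln13_14_6_ok) (M (nat_lit 364) (B (L (nat_lit 332) ln13_14_7 ln13_14_7_ok) (L (nat_lit 396) ln13_15_7 ln13_15_7_ok))))))) (B (M (nat_lit 365) (B (M (nat_lit 366) (B (L (nat_lit 334) ln13_14_6 ln13_14_6_ok) (L (nat_lit 398) ln13_15_6 ln13_15_6_ok))) (M (nat_lit 492) (B (L (nat_lit 460) ln13_11_5 ln13_11_5_ok) (L (nat_lit 524) ln13_12_5 ln13_12_5_ok))))) (B (M (nat_lit 365) (B (M (nat_lit 492) (B (L (nat_lit 524) ln13_12_5 ln13_12_5_ok) (L (nat_lit 460) ln13_11_5 ln13_11_5_ok))) (M (nat_lit 364) (B (L (nat_lit 396) ln13_15_7 ln13_15_7_ok) (L (nat_lit 332) ln13_14_7 ln13_14_7_ok))))) (M (nat_lit 492) (B (L (nat_lit 524) ln13_12_5 ln13_12_5_ok) (M (nat_lit 494) (B (L (nat_lit 526) ln13_12_4 ln13_12_4_ok) (M (nat_lit 396) (B (L (nat_lit 364) ln13_15_7 ln13_15_7_ok) (M (nat_lit 398) (B (L (nat_lit 366) ln13_15_6 ln13_15_6_ok) (M (nat_lit 491) (B (M (nat_lit 523)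 (B (L (nat_lit 522) ln14_15_1 ln14_15_1_ok) (M (nat_lit 428) (B (L (nat_lit 460) ln12_12_5 ln12_12_5_ok) (M (nat_lit 427) (B (L (nat_lit 426) ln10_13_2 ln10_13_2_ok) (L (nat_lit 459) ln11_16_6 ln11_16_6_ok))))))) (B (M (nat_lit 490) (B (M (nat_lit 522) (B (L (nat_lit 523) ln14_15_1 ln14_15_1_ok) (L (nat_lit 521) ln13_15_1 ln13_15_1_ok))) (M (nat_lit 457) (B (L (nat_lit 458) ln13_15_3 ln13_15_3_ok) (M (nat_lit 489) (B (L (nat_lit 460) ln9_15_2 ln9_15_2_ok) (L (nat_lit 456) ln12_15_3 ln12_15_3_ok))))))) (B (M (nat_lit 490) (B (M (nat_lit 458) (B (L (nat_lit 459) ln14_15_3 ln14_15_3_ok) (L (nat_lit 457) ln13_15_3 ln13_15_3_ok))) (M (nat_lit 521) (B (L (nat_lit 522) ln13_15_1 ln13_15_1_ok) (M (nat_lit 489) (B (L (nat_lit 520) ln12_15_1 ln12_15_1_ok) (L (nat_lit 460) ln9_15_2 ln9_15_2_ok))))))) (B (M (nat_lit 522) (B (L (nat_lit 523) ln14_15_1 ln14_15_1_ok) (M (nat_lit 490) (B (L (nat_lit 521) ln13_15_1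 ln13_15_1_ok) (M (nat_lit 458) (B (L (nat_lit 457) ln13_15_3 ln13_15_3_ok) (L (nat_lit 459) ln14_15_3 ln14_15_3_ok))))))) (M (nat_lit 458) (B (L (nat_lit 459) ln14_15_3 ln14_15_3_ok) (M (nat_lit 490) (B (L (nat_lit 457) ln13_15_3 ln13_15_3_ok) (M (nat_lit 489) (B (L (nat_lit 460) ln9_15_2 ln9_15_2_ok) (M (nat_lit 521) (B (L (nat_lit 520) ln12_15_1 ln12_15_1_ok) (M (nat_lit 426) (B (L (nat_lit 394) ln10_12_5 ln10_12_5_ok) (M (nat_lit 427) (B (L (nat_lit 428) ln10_13_2 ln10_13_2_ok) (L (nat_lit 395) ln14_12_1 ln14_12_1_ok))))))))))))))))))))))))))))))))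
noncomputable def c10_d39 : Cert := (B (M (nat_lit 397) (B (M (nat_lit 526) (B (L (nat_lit 494) ln13_12_4 ln13_12_4_ok) (M (nat_lit 525) (B (L (nat_lit 558) ln13_13_4 ln13_13_4_ok) (M (nat_lit 524) (B (L (nat_lit 556) ln13_13_5 ln13_13_5_ok) (L (nat_lit 492) ln13_12_5 ln13_12_5_ok))))))) (M (nat_lit 366) (B (L (nat_lit 398) ln13_15_6 ln13_15_6_ok) (M (nat_lit 365) (B (L (nat_lit 334) ln13_14_6 ln13_14_6_ok) (M (nat_lit 364) (B (L (nat_lit 396) ln13_15_7 ln13_15_7_ok) (L (nat_lit 332) ln13_14_7 ln13_14_7_ok))))))))) (B (M (nat_lit 397) (B (M (nat_lit 525) (B (M (nat_lit 526) (B (L (nat_lit 558) ln13_13_4 ln13_13_4_ok) (L (nat_lit 494) ln13_12_4 ln13_12_4_ok))) (M (nat_lit 396) (B (L (nat_lit 428) ln13_16_7 ln13_16_7_ok) (L (nat_lit 364) ln13_15_7 ln13_15_7_ok))))) (M (nat_lit 365) (B (M (nat_lit 492) (B (L (nat_lit 524) ln13_12_5 ln13_12_5_ok) (L (nat_lit 460) ln13_11_5 ln13_11_5_ok))) (M (nat_lit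 366) (B (L (nat_lit 398) ln13_15_6 ln13_15_6_ok) (L (nat_lit 334) ln13_14_6 ln13_14_6_ok))))))) (B (M (nat_lit 525) (B (M (nat_lit 558) (B (L (nat_lit 526) ln13_13_4 ln13_13_4_ok) (M (nat_lit 557) (B (L (nat_lit 590) ln13_14_4 ln13_14_4_ok) (M (nat_lit 556) (B (L (nat_lit 524) ln13_13_5 ln13_13_5_ok) (L (nat_lit 588) ln13_14_5 ln13_14_5_ok))))))) (B (M (nat_lit 557) (B (M (nat_lit 428) (B (L (nat_lit 396) ln13_16_7 ln13_16_7_ok) (L (nat_lit 460) ln13_17_7 ln13_17_7_ok))) (M (nat_lit 556) (B (L (nat_lit 524) ln13_13_5 ln13_13_5_ok) (L (nat_lit 588) ln13_14_5 ln13_14_5_ok))))) (B (M (nat_lit 557) (B (M (nat_lit 428) (B (L (nat_lit 396) ln13_16_7 ln13_16_7_ok) (L (nat_lit 460) ln13_17_7 ln13_17_7_ok))) (M (nat_lit 558) (B (L (nat_lit 526) ln13_13_4 ln13_13_4_ok) (L (nat_lit 590) ln13_14_4 ln13_14_4_ok))))) (M (nat_lit 397) (B (M (nat_lit 396) (B (L (nat_lit 364) ln13_15_7 ln13_15_7_ok) (L (nat_lit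 428) ln13_16_7 ln13_16_7_ok))) (M (nat_lit 526) (B (L (nat_lit 494) ln13_12_4 ln13_12_4_ok) (L (nat_lit 558) ln13_13_4 ln13_13_4_ok))))))))) (B (M (nat_lit 525) (B (M (nat_lit 557) (B (M (nat_lit 428) (B (L (nat_lit 396) ln13_16_7 ln13_16_7_ok) (L (nat_lit 460) ln13_17_7 ln13_17_7_ok))) (M (nat_lit 558) (B (L (nat_lit 526) ln13_13_4 ln13_13_4_ok) (L (nat_lit 590) ln13_14_4 ln13_14_4_ok))))) (B (M (nat_lit 556) (B (L (nat_lit 524) ln13_13_5 ln13_13_5_ok) (M (nat_lit 557) (B (L (nat_lit 588) ln13_14_5 ln13_14_5_ok) (M (nat_lit 558) (B (L (nat_lit 526) ln13_13_4 ln13_13_4_ok) (L (nat_lit 590) ln13_14_4 ln13_14_4_ok))))))) (B (M (nat_lit 557) (B (M (nat_lit 428) (B (L (nat_lit 396) ln13_16_7 ln13_16_7_ok) (L (nat_lit 460) ln13_17_7 ln13_17_7_ok))) (M (nat_lit 556) (B (L (nat_lit 524) ln13_13_5 ln13_13_5_ok) (L (nat_lit 588) ln13_14_5 ln13_14_5_ok))))) (M (nat_lit 397) (B (M (nat_lit 396) (B (L (nat_lit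 364) ln13_15_7 ln13_15_7_ok) (L (nat_lit 428) ln13_16_7 ln13_16_7_ok))) (M (nat_lit 524) (B (L (nat_lit 492) ln13_12_5 ln13_12_5_ok) (L (nat_lit 556) ln13_13_5 ln13_13_5_ok))))))))) (B (M (nat_lit 397) (B (M (nat_lit 365) (B (M (nat_lit 492) (B (L (nat_lit 524) ln13_12_5 ln13_12_5_ok) (L (nat_lit 460) ln13_11_5 ln13_11_5_ok))) (M (nat_lit 366) (B (L (nat_lit 398) ln13_15_6 ln13_15_6_ok) (L (nat_lit 334) ln13_14_6 ln13_14_6_ok))))) (B (M (nat_lit 364) (B (L (nat_lit 396) ln13_15_7 ln13_15_7_ok) (M (nat_lit 365) (B (L (nat_lit 332) ln13_14_7 ln13_14_7_ok) (M (nat_lit 366) (B (L (nat_lit 398) ln13_15_6 ln13_15_6_ok) (L (nat_lit 334) ln13_14_6 ln13_14_6_ok))))))) (B (M (nat_lit 365) (B (M (nat_lit 492) (B (L (nat_lit 524) ln13_12_5 ln13_12_5_ok) (L (nat_lit 460) ln13_11_5 ln13_11_5_ok))) (M (nat_lit 364) (B (L (nat_lit 396) ln13_15_7 ln13_15_7_ok) (L (nat_lit 332) ln13_14_7 ln13_14_7_ok))))) (M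 (nat_lit 525) (B (M (nat_lit 524) (B (L (nat_lit 556) ln13_13_5 ln13_13_5_ok) (L (nat_lit 492) ln13_12_5 ln13_12_5_ok))) (M (nat_lit 396) (B (L (nat_lit 428) ln13_16_7 ln13_16_7_ok) (L (nat_lit 364) ln13_15_7 ln13_15_7_ok))))))))) (B (M (nat_lit 397) (B (M (nat_lit 365) (B (M (nat_lit 366) (B (L (nat_lit 334) ln13_14_6 ln13_14_6_ok) (L (nat_lit 398) ln13_15_6 ln13_15_6_ok))) (M (nat_lit 364) (B (L (nat_lit 332) ln13_14_7 ln13_14_7_ok) (L (nat_lit 396) ln13_15_7 ln13_15_7_ok))))) (B (M (nat_lit 525) (B (M (nat_lit 396) (B (L (nat_lit 364) ln13_15_7 ln13_15_7_ok) (L (nat_lit 428) ln13_16_7 ln13_16_7_ok))) (M (nat_lit 526) (B (L (nat_lit 494) ln13_12_4 ln13_12_4_ok) (L (nat_lit 558) ln13_13_4 ln13_13_4_ok))))) (B (M (nat_lit 428) (B (M (nat_lit 526) (B (L (nat_lit 494) ln13_12_4 ln13_12_4_ok) (M (nat_lit 525) (B (L (nat_lit 396) ln13_16_7 ln13_16_7_ok) (L (nat_lit 558) ln13_13_4 ln13_13_4_ok)))))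 (M (nat_lit 365) (B (M (nat_lit 366) (B (L (nat_lit 334) ln13_14_6 ln13_14_6_ok) (L (nat_lit 398) ln13_15_6 ln13_15_6_ok))) (M (nat_lit 460) (B (L (nat_lit 333) ln13_10_5 ln13_10_5_ok) (L (nat_lit 492) ln13_11_5 ln13_11_5_ok))))))) (M (nat_lit 365) (B (M (nat_lit 366) (B (L (nat_lit 334) ln13_14_6 ln13_14_6_ok) (L (nat_lit 398) ln13_15_6 ln13_15_6_ok))) (M (nat_lit 333) (B (M (nat_lit 332) (B (L (nat_lit 300) ln13_13_7 ln13_13_7_ok) (L (nat_lit 364) ln13_14_7 ln13_14_7_ok))) (M (nat_lit 460) (B (L (nat_lit 428) ln13_10_5 ln13_10_5_ok) (L (nat_lit 492) ln13_11_5 ln13_11_5_ok))))))))))) (B (M (nat_lit 525) (B (M (nat_lit 557) (B (M (nat_lit 428) (B (L (nat_lit 396) ln13_16_7 ln13_16_7_ok) (L (nat_lit 460) ln13_17_7 ln13_17_7_ok))) (M (nat_lit 556) (B (L (nat_lit 524) ln13_13_5 ln13_13_5_ok) (L (nat_lit 588) ln13_14_5 ln13_14_5_ok))))) (B (M (nat_lit 557) (B (M (nat_lit 556) (B (L (nat_lit 524)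 ln13_13_5 ln13_13_5_ok) (L (nat_lit 588) ln13_14_5 ln13_14_5_ok))) (M (nat_lit 558) (B (L (nat_lit 526) ln13_13_4 ln13_13_4_ok) (L (nat_lit 590) ln13_14_4 ln13_14_4_ok))))) (B (M (nat_lit 557) (B (M (nat_lit 428) (B (L (nat_lit 396) ln13_16_7 ln13_16_7_ok) (L (nat_lit 460) ln13_17_7 ln13_17_7_ok))) (M (nat_lit 558) (B (L (nat_lit 526) ln13_13_4 ln13_13_4_ok) (L (nat_lit 590) ln13_14_4 ln13_14_4_ok))))) (M (nat_lit 397) (B (M (nat_lit 524) (B (L (nat_lit 492) ln13_12_5 ln13_12_5_ok) (L (nat_lit 556) ln13_13_5 ln13_13_5_ok))) (M (nat_lit 526) (B (L (nat_lit 494) ln13_12_4 ln13_12_4_ok) (L (nat_lit 558) ln13_13_4 ln13_13_4_ok))))))))) c10_d38)))))))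
noncomputable def c10_d40 : Cert := (B (M (nat_lit 493) (B (M (nat_lit 525) (B (M (nat_lit 396) (B (L (nat_lit 364) ln13_15_7 ln13_15_7_ok) (L (nat_lit 428) ln13_16_7 ln13_16_7_ok))) (M (nat_lit 524) (B (L (nat_lit 492) ln13_12_5 ln13_12_5_ok) (L (nat_lit 556) ln13_13_5 ln13_13_5_ok))))) (M (nat_lit 365) (B (M (nat_lit 366) (B (L (nat_lit 334) ln13_14_6 ln13_14_6_ok) (L (nat_lit 398) ln13_15_6 ln13_15_6_ok))) (M (nat_lit 494) (B (L (nat_lit 462) ln13_11_4 ln13_11_4_ok) (L (nat_lit 526) ln13_12_4 ln13_12_4_ok))))))) (B (M (nat_lit 493) (B (M (nat_lit 525) (B (M (nat_lit 396) (B (L (nat_lit 364) ln13_15_7 ln13_15_7_ok) (L (nat_lit 428) ln13_16_7 ln13_16_7_ok))) (M (nat_lit 526) (B (L (nat_lit 494) ln13_12_4 ln13_12_4_ok) (L (nat_lit 558) ln13_13_4 ln13_13_4_ok))))) (B (M (nat_lit 525) (B (M (nat_lit 526) (B (L (nat_lit 494) ln13_12_4 ln13_12_4_ok) (L (nat_lit 558) ln13_13_4 ln13_13_4_ok))) (M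 (nat_lit 524) (B (L (nat_lit 492) ln13_12_5 ln13_12_5_ok) (L (nat_lit 556) ln13_13_5 ln13_13_5_ok))))) (B (M (nat_lit 525) (B (M (nat_lit 396) (B (L (nat_lit 364) ln13_15_7 ln13_15_7_ok) (L (nat_lit 428) ln13_16_7 ln13_16_7_ok))) (M (nat_lit 524) (B (L (nat_lit 492) ln13_12_5 ln13_12_5_ok) (L (nat_lit 556) ln13_13_5 ln13_13_5_ok))))) (M (nat_lit 398) (B (L (nat_lit 366) ln13_15_6 ln13_15_6_ok) (M (nat_lit 396) (B (L (nat_lit 364) ln13_15_7 ln13_15_7_ok) (M (nat_lit 395) (B (M (nat_lit 426) (B (L (nat_lit 427) ln14_12_1 ln14_12_1_ok) (M (nat_lit 394) (B (L (nat_lit 425) ln13_12_1 ln13_12_1_ok) (M (nat_lit 362) (B (L (nat_lit 363) ln14_12_3 ln14_12_3_ok) (L (nat_lit 361) ln13_12_3 ln13_12_3_ok))))))) (B (M (nat_lit 399) (B (M (nat_lit 428) (B (L (nat_lit 400) ln16_12_1 ln16_12_1_ok) (L (nat_lit 427) ln15_12_1 ln15_12_1_ok))) (B (M (nat_lit 427) (B (L (nat_lit 428) ln15_12_1 ln15_12_1_ok) (L (nat_lit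 426) ln14_12_1 ln14_12_1_ok))) (M (nat_lit 400) (B (M (nat_lit 368) (B (L (nat_lit 369) ln13_12_2 ln13_12_2_ok) (L (nat_lit 367) ln12_12_2 ln12_12_2_ok))) (M (nat_lit 432) (B (L (nat_lit 433) ln13_12_0 ln13_12_0_ok) (L (nat_lit 431) ln12_12_0 ln12_12_0_ok)))))))) (B (M (nat_lit 394) (B (M (nat_lit 362) (B (L (nat_lit 363) ln14_12_3 ln14_12_3_ok) (L (nat_lit 361) ln13_12_3 ln13_12_3_ok))) (M (nat_lit 393) (B (L (nat_lit 428) ln9_12_0 ln9_12_0_ok) (M (nat_lit 425) (B (L (nat_lit 426) ln13_12_1 ln13_12_1_ok) (L (nat_lit 424) ln12_12_1 ln12_12_1_ok))))))) (M (nat_lit 362) (B (L (nat_lit 363) ln14_12_3 ln14_12_3_ok) (M (nat_lit 428) (B (M (nat_lit 399) (B (L (nat_lit 400) ln16_12_1 ln16_12_1_ok) (L (nat_lit 427) ln15_12_1 ln15_12_1_ok))) (M (nat_lit 394) (B (L (nat_lit 361) ln13_12_3 ln13_12_3_ok) (L (nat_lit 393) ln9_12_0 ln9_12_0_ok))))))))))))))))))) (B (M (nat_lit 493) (B (M (nat_lit 365) (B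 (M (nat_lit 366) (B (L (nat_lit 334) ln13_14_6 ln13_14_6_ok) (L (nat_lit 398) ln13_15_6 ln13_15_6_ok))) (M (nat_lit 492) (B (L (nat_lit 460) ln13_11_5 ln13_11_5_ok) (L (nat_lit 524) ln13_12_5 ln13_12_5_ok))))) (B (M (nat_lit 365) (B (M (nat_lit 494) (B (L (nat_lit 462) ln13_11_4 ln13_11_4_ok) (L (nat_lit 526) ln13_12_4 ln13_12_4_ok))) (M (nat_lit 492) (B (L (nat_lit 460) ln13_11_5 ln13_11_5_ok) (L (nat_lit 524) ln13_12_5 ln13_12_5_ok))))) (B (M (nat_lit 525) (B (M (nat_lit 526) (B (L (nat_lit 494) ln13_12_4 ln13_12_4_ok) (L (nat_lit 558) ln13_13_4 ln13_13_4_ok))) (M (nat_lit 524) (B (L (nat_lit 492) ln13_12_5 ln13_12_5_ok) (L (nat_lit 556) ln13_13_5 ln13_13_5_ok))))) (M (nat_lit 365) (B (M (nat_lit 366) (B (L (nat_lit 334) ln13_14_6 ln13_14_6_ok) (L (nat_lit 398) ln13_15_6 ln13_15_6_ok))) (M (nat_lit 494) (B (L (nat_lit 462) ln13_11_4 ln13_11_4_ok) (L (nat_lit 526) ln13_12_4 ln13_12_4_ok)))))))))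 (B (M (nat_lit 493) (B (M (nat_lit 365) (B (M (nat_lit 366) (B (L (nat_lit 334) ln13_14_6 ln13_14_6_ok) (L (nat_lit 398) ln13_15_6 ln13_15_6_ok))) (M (nat_lit 492) (B (L (nat_lit 460) ln13_11_5 ln13_11_5_ok) (L (nat_lit 524) ln13_12_5 ln13_12_5_ok))))) (B (M (nat_lit 365) (B (M (nat_lit 364) (B (L (nat_lit 332) ln13_14_7 ln13_14_7_ok) (L (nat_lit 396) ln13_15_7 ln13_15_7_ok))) (M (nat_lit 492) (B (L (nat_lit 460) ln13_11_5 ln13_11_5_ok) (L (nat_lit 524) ln13_12_5 ln13_12_5_ok))))) (B (M (nat_lit 525) (B (M (nat_lit 396) (B (L (nat_lit 364) ln13_15_7 ln13_15_7_ok) (L (nat_lit 428) ln13_16_7 ln13_16_7_ok))) (M (nat_lit 524) (B (L (nat_lit 492) ln13_12_5 ln13_12_5_ok) (L (nat_lit 556) ln13_13_5 ln13_13_5_ok))))) (M (nat_lit 365) (B (M (nat_lit 366) (B (L (nat_lit 334) ln13_14_6 ln13_14_6_ok) (L (nat_lit 398) ln13_15_6 ln13_15_6_ok))) (M (nat_lit 364) (B (L (nat_lit 332) ln13_14_7 ln13_14_7_ok)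 (L (nat_lit 396) ln13_15_7 ln13_15_7_ok))))))))) (B (M (nat_lit 365) (B (M (nat_lit 333) (B (M (nat_lit 332) (B (L (nat_lit 300) ln13_13_7 ln13_13_7_ok) (L (nat_lit 364) ln13_14_7 ln13_14_7_ok))) (M (nat_lit 460) (B (L (nat_lit 428) ln13_10_5 ln13_10_5_ok) (L (nat_lit 492) ln13_11_5 ln13_11_5_ok))))) (B (M (nat_lit 333) (B (M (nat_lit 334) (B (L (nat_lit 302) ln13_13_6 ln13_13_6_ok) (L (nat_lit 366) ln13_14_6 ln13_14_6_ok))) (M (nat_lit 460) (B (L (nat_lit 428) ln13_10_5 ln13_10_5_ok) (L (nat_lit 492) ln13_11_5 ln13_11_5_ok))))) (M (nat_lit 366) (B (L (nat_lit 334) ln13_14_6 ln13_14_6_ok) (M (nat_lit 364) (B (L (nat_lit 332) ln13_14_7 ln13_14_7_ok) (M (nat_lit 367) (B (M (nat_lit 396) (B (L (nat_lit 368) ln16_11_1 ln16_11_1_ok) (L (nat_lit 395) ln15_11_1 ln15_11_1_ok))) (B (M (nat_lit 363) (B (M (nat_lit 399) (B (L (nat_lit 400) ln12_11_0 ln12_11_0_ok) (L (nat_lit 398) ln11_11_0 ln11_11_0_ok)))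 (M (nat_lit 395) (B (L (nat_lit 396) ln15_11_1 ln15_11_1_ok) (L (nat_lit 394) ln14_11_1 ln14_11_1_ok))))) (M (nat_lit 368) (B (M (nat_lit 336) (B (L (nat_lit 337) ln13_11_2 ln13_11_2_ok) (L (nat_lit 335) ln12_11_2 ln12_11_2_ok))) (M (nat_lit 400) (B (L (nat_lit 401) ln13_11_0 ln13_11_0_ok) (L (nat_lit 399) ln12_11_0 ln12_11_0_ok))))))))))))))) (K (nat_lit 5954262830815946494763249298768603811203561774969104571805089223376689777636098861358550851719243481454542035207245364041705138952691777536) (nat_lit 943490606534895625823378003950672811823123703771537134701504648206942337699088278908924086068567889729341498351273316655032315558439110173478664656766582174135246389248) (nat_lit 943490606534895625823378003950672811823123703771537134701504648206942337699088278908924086068567889729341498351273316655032315558439110173478664656766582174135246389248) c10_s575))))))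
noncomputable def c10_d41 : Cert := (B (M (nat_lit 397) (B (M (nat_lit 365) (B (M (nat_lit 492) (B (L (nat_lit 524) ln13_12_5 ln13_12_5_ok) (L (nat_lit 460) ln13_11_5 ln13_11_5_ok))) (M (nat_lit 364) (B (L (nat_lit 396) ln13_15_7 ln13_15_7_ok) (L (nat_lit 332) ln13_14_7 ln13_14_7_ok))))) (B (M (nat_lit 365) (B (M (nat_lit 364) (B (L (nat_lit 396) ln13_15_7 ln13_15_7_ok) (L (nat_lit 332) ln13_14_7 ln13_14_7_ok))) (M (nat_lit 333) (B (M (nat_lit 460) (B (L (nat_lit 492) ln13_11_5 ln13_11_5_ok) (L (nat_lit 428) ln13_10_5 ln13_10_5_ok))) (M (nat_lit 334) (B (L (nat_lit 366) ln13_14_6 ln13_14_6_ok) (L (nat_lit 302) ln13_13_6 ln13_13_6_ok))))))) (B (M (nat_lit 365) (B (M (nat_lit 364) (B (L (nat_lit 396) ln13_15_7 ln13_15_7_ok) (L (nat_lit 332) ln13_14_7 ln13_14_7_ok))) (B (M (nat_lit 333) (B (M (nat_lit 332) (B (L (nat_lit 364) ln13_14_7 ln13_14_7_ok) (L (nat_lit 300) ln13_13_7 ln13_13_7_ok))) (M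 (nat_lit 334) (B (L (nat_lit 366) ln13_14_6 ln13_14_6_ok) (L (nat_lit 302) ln13_13_6 ln13_13_6_ok))))) (M (nat_lit 333) (B (M (nat_lit 334) (B (L (nat_lit 366) ln13_14_6 ln13_14_6_ok) (L (nat_lit 302) ln13_13_6 ln13_13_6_ok))) (M (nat_lit 428) (B (L (nat_lit 460) ln13_10_5 ln13_10_5_ok) (M (nat_lit 396) (B (L (nat_lit 525) ln13_16_7 ln13_16_7_ok) (L (nat_lit 301) ln13_9_5 ln13_9_5_ok)))))))))) (B (M (nat_lit 396) (B (L (nat_lit 364) ln13_15_7 ln13_15_7_ok) (M (nat_lit 524) (B (L (nat_lit 492) ln13_12_5 ln13_12_5_ok) (M (nat_lit 525) (B (L (nat_lit 556) ln13_13_5 ln13_13_5_ok) (L (nat_lit 428) ln13_16_7 ln13_16_7_ok))))))) (B (M (nat_lit 365) (B (M (nat_lit 492) (B (L (nat_lit 524) ln13_12_5 ln13_12_5_ok) (L (nat_lit 460) ln13_11_5 ln13_11_5_ok))) (M (nat_lit 333) (B (M (nat_lit 332) (B (L (nat_lit 364) ln13_14_7 ln13_14_7_ok) (L (nat_lit 300) ln13_13_7 ln13_13_7_ok))) (M (nat_lit 334) (B (L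 (nat_lit 366) ln13_14_6 ln13_14_6_ok) (L (nat_lit 302) ln13_13_6 ln13_13_6_ok))))))) (M (nat_lit 492) (B (L (nat_lit 524) ln13_12_5 ln13_12_5_ok) (M (nat_lit 462) (B (M (nat_lit 365) (B (L (nat_lit 460) ln13_11_5 ln13_11_5_ok) (L (nat_lit 494) ln13_11_4 ln13_11_4_ok))) (B (M (nat_lit 491) (B (L (nat_lit 490) ln10_15_2 ln10_15_2_ok) (M (nat_lit 463) (B (L (nat_lit 460) ln15_14_1 ln15_14_1_ok) (L (nat_lit 464) ln16_14_1 ln16_14_1_ok))))) (M (nat_lit 491) (B (L (nat_lit 490) ln10_15_2 ln10_15_2_ok) (M (nat_lit 463) (B (L (nat_lit 494) ln11_15_2 ln11_15_2_ok) (L (nat_lit 464) ln16_14_1 ln16_14_1_ok)))))))))))))))) (B (M (nat_lit 525) (B (M (nat_lit 557) (B (M (nat_lit 556) (B (L (nat_lit 588) ln13_14_5 ln13_14_5_ok) (L (nat_lit 524) ln13_13_5 ln13_13_5_ok))) (M (nat_lit 428) (B (L (nat_lit 460) ln13_17_7 ln13_17_7_ok) (L (nat_lit 396) ln13_16_7 ln13_16_7_ok))))) (B (M (nat_lit 558) (B (L (nat_lit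 526) ln13_13_4 ln13_13_4_ok) (M (nat_lit 557) (B (L (nat_lit 590) ln13_14_4 ln13_14_4_ok) (M (nat_lit 428) (B (L (nat_lit 460) ln13_17_7 ln13_17_7_ok) (L (nat_lit 396) ln13_16_7 ln13_16_7_ok))))))) (B (M (nat_lit 397) (B (M (nat_lit 526) (B (L (nat_lit 558) ln13_13_4 ln13_13_4_ok) (L (nat_lit 494) ln13_12_4 ln13_12_4_ok))) (M (nat_lit 396) (B (L (nat_lit 428) ln13_16_7 ln13_16_7_ok) (L (nat_lit 364) ln13_15_7 ln13_15_7_ok))))) (M (nat_lit 557) (B (M (nat_lit 556) (B (L (nat_lit 588) ln13_14_5 ln13_14_5_ok) (L (nat_lit 524) ln13_13_5 ln13_13_5_ok))) (M (nat_lit 558) (B (L (nat_lit 590) ln13_14_4 ln13_14_4_ok) (L (nat_lit 526) ln13_13_4 ln13_13_4_ok))))))))) (B (M (nat_lit 525) (B (M (nat_lit 558) (B (L (nat_lit 526) ln13_13_4 ln13_13_4_ok) (M (nat_lit 557) (B (L (nat_lit 590) ln13_14_4 ln13_14_4_ok) (M (nat_lit 428) (B (L (nat_lit 460) ln13_17_7 ln13_17_7_ok) (L (nat_lit 396) ln13_16_7 ln13_16_7_ok)))))))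 (B (M (nat_lit 557) (B (M (nat_lit 556) (B (L (nat_lit 588) ln13_14_5 ln13_14_5_ok) (L (nat_lit 524) ln13_13_5 ln13_13_5_ok))) (M (nat_lit 428) (B (L (nat_lit 460) ln13_17_7 ln13_17_7_ok) (L (nat_lit 396) ln13_16_7 ln13_16_7_ok))))) (B (M (nat_lit 397) (B (M (nat_lit 524) (B (L (nat_lit 556) ln13_13_5 ln13_13_5_ok) (L (nat_lit 492) ln13_12_5 ln13_12_5_ok))) (M (nat_lit 396) (B (L (nat_lit 428) ln13_16_7 ln13_16_7_ok) (L (nat_lit 364) ln13_15_7 ln13_15_7_ok))))) (M (nat_lit 557) (B (M (nat_lit 556) (B (L (nat_lit 588) ln13_14_5 ln13_14_5_ok) (L (nat_lit 524) ln13_13_5 ln13_13_5_ok))) (M (nat_lit 558) (B (L (nat_lit 590) ln13_14_4 ln13_14_4_ok) (L (nat_lit 526) ln13_13_4 ln13_13_4_ok))))))))) (B (M (nat_lit 525) (B (M (nat_lit 526) (B (L (nat_lit 558) ln13_13_4 ln13_13_4_ok) (M (nat_lit 397) (B (L (nat_lit 494) ln13_12_4 ln13_12_4_ok) (M (nat_lit 524) (B (L (nat_lit 556) ln13_13_5 ln13_13_5_ok)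 (L (nat_lit 492) ln13_12_5 ln13_12_5_ok))))))) (B (M (nat_lit 397) (B (M (nat_lit 526) (B (L (nat_lit 558) ln13_13_4 ln13_13_4_ok) (L (nat_lit 494) ln13_12_4 ln13_12_4_ok))) (M (nat_lit 396) (B (L (nat_lit 428) ln13_16_7 ln13_16_7_ok) (L (nat_lit 364) ln13_15_7 ln13_15_7_ok))))) (B (M (nat_lit 397) (B (M (nat_lit 524) (B (L (nat_lit 556) ln13_13_5 ln13_13_5_ok) (L (nat_lit 492) ln13_12_5 ln13_12_5_ok))) (M (nat_lit 396) (B (L (nat_lit 428) ln13_16_7 ln13_16_7_ok) (L (nat_lit 364) ln13_15_7 ln13_15_7_ok))))) (M (nat_lit 557) (B (M (nat_lit 556) (B (L (nat_lit 588) ln13_14_5 ln13_14_5_ok) (L (nat_lit 524) ln13_13_5 ln13_13_5_ok))) (M (nat_lit 558) (B (L (nat_lit 590) ln13_14_4 ln13_14_4_ok) (L (nat_lit 526) ln13_13_4 ln13_13_4_ok))))))))) (B (M (nat_lit 397) (B (M (nat_lit 365) (B (M (nat_lit 492) (B (L (nat_lit 524) ln13_12_5 ln13_12_5_ok) (L (nat_lit 460) ln13_11_5 ln13_11_5_ok))) (M (nat_lit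 494) (B (L (nat_lit 526) ln13_12_4 ln13_12_4_ok) (L (nat_lit 462) ln13_11_4 ln13_11_4_ok))))) (B (M (nat_lit 365) (B (M (nat_lit 494) (B (L (nat_lit 526) ln13_12_4 ln13_12_4_ok) (L (nat_lit 462) ln13_11_4 ln13_11_4_ok))) (M (nat_lit 333) (B (M (nat_lit 332) (B (L (nat_lit 364) ln13_14_7 ln13_14_7_ok) (L (nat_lit 300) ln13_13_7 ln13_13_7_ok))) (M (nat_lit 334) (B (L (nat_lit 366) ln13_14_6 ln13_14_6_ok) (L (nat_lit 302) ln13_13_6 ln13_13_6_ok))))))) (B (M (nat_lit 365) (B (M (nat_lit 492) (B (L (nat_lit 524) ln13_12_5 ln13_12_5_ok) (L (nat_lit 460) ln13_11_5 ln13_11_5_ok))) (M (nat_lit 333) (B (M (nat_lit 332) (B (L (nat_lit 364) ln13_14_7 ln13_14_7_ok) (L (nat_lit 300) ln13_13_7 ln13_13_7_ok))) (M (nat_lit 334) (B (L (nat_lit 366) ln13_14_6 ln13_14_6_ok) (L (nat_lit 302) ln13_13_6 ln13_13_6_ok))))))) (M (nat_lit 525) (B (M (nat_lit 524) (B (L (nat_lit 556) ln13_13_5 ln13_13_5_ok) (L (nat_lit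 492) ln13_12_5 ln13_12_5_ok))) (M (nat_lit 526) (B (L (nat_lit 558) ln13_13_4 ln13_13_4_ok) (L (nat_lit 494) ln13_12_4 ln13_12_4_ok))))))))) (M (nat_lit 525) (B (M (nat_lit 557) (B (M (nat_lit 556) (B (L (nat_lit 588) ln13_14_5 ln13_14_5_ok) (L (nat_lit 524) ln13_13_5 ln13_13_5_ok))) (M (nat_lit 428) (B (L (nat_lit 460) ln13_17_7 ln13_17_7_ok) (L (nat_lit 396) ln13_16_7 ln13_16_7_ok))))) (B (M (nat_lit 558) (B (L (nat_lit 526) ln13_13_4 ln13_13_4_ok) (M (nat_lit 557) (B (L (nat_lit 590) ln13_14_4 ln13_14_4_ok) (M (nat_lit 428) (B (L (nat_lit 460) ln13_17_7 ln13_17_7_ok) (L (nat_lit 396) ln13_16_7 ln13_16_7_ok))))))) (M (nat_lit 524) (B (L (nat_lit 556) ln13_13_5 ln13_13_5_ok) (M (nat_lit 526) (B (L (nat_lit 558) ln13_13_4 ln13_13_4_ok) (M (nat_lit 523) (B (M (nat_lit 494) (B (L (nat_lit 522) ln10_16_2 ln10_16_2_ok) (L (nat_lit 495) ln11_16_2 ln11_16_2_ok))) (B (M (nat_lit 527) (B (M (nat_lit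 491) (B (L (nat_lit 490) ln14_16_3 ln14_16_3_ok) (L (nat_lit 492) ln15_16_3 ln15_16_3_ok))) (M (nat_lit 495) (B (L (nat_lit 494) ln11_16_2 ln11_16_2_ok) (L (nat_lit 496) ln12_16_2 ln12_16_2_ok))))) (M (nat_lit 522) (B (M (nat_lit 554) (B (L (nat_lit 553) ln13_16_1 ln13_16_1_ok) (L (nat_lit 555) ln14_16_1 ln14_16_1_ok))) (M (nat_lit 490) (B (L (nat_lit 489) ln13_16_3 ln13_16_3_ok) (L (nat_lit 491) ln14_16_3 ln14_16_3_ok))))))))))))))))))))
noncomputable def c10_d42 : Cert := (B (M (nat_lit 397) (B (M (nat_lit 493) (B (M (nat_lit 525) (B (M (nat_lit 396) (B (L (nat_lit 364) ln13_15_7 ln13_15_7_ok) (L (nat_lit 428) ln13_16_7 ln13_16_7_ok))) (M (nat_lit 526) (B (L (nat_lit 494) ln13_12_4 ln13_12_4_ok) (L (nat_lit 558) ln13_13_4 ln13_13_4_ok))))) (B (M (nat_lit 365) (B (M (nat_lit 494) (B (L (nat_lit 462) ln13_11_4 ln13_11_4_ok) (L (nat_lit 526) ln13_12_4 ln13_12_4_ok))) (M (nat_lit 492) (B (L (nat_lit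 460) ln13_11_5 ln13_11_5_ok) (L (nat_lit 524) ln13_12_5 ln13_12_5_ok))))) (M (nat_lit 365) (B (M (nat_lit 364) (B (L (nat_lit 332) ln13_14_7 ln13_14_7_ok) (L (nat_lit 396) ln13_15_7 ln13_15_7_ok))) (M (nat_lit 492) (B (L (nat_lit 460) ln13_11_5 ln13_11_5_ok) (L (nat_lit 524) ln13_12_5 ln13_12_5_ok)))))))) c10_d40)) (M (nat_lit 493) (B (M (nat_lit 397) (B (M (nat_lit 525) (B (M (nat_lit 526) (B (L (nat_lit 558) ln13_13_4 ln13_13_4_ok) (L (nat_lit 494) ln13_12_4 ln13_12_4_ok))) (M (nat_lit 396) (B (L (nat_lit 428) ln13_16_7 ln13_16_7_ok) (L (nat_lit 364) ln13_15_7 ln13_15_7_ok))))) (B (M (nat_lit 365) (B (M (nat_lit 492) (B (L (nat_lit 524) ln13_12_5 ln13_12_5_ok) (L (nat_lit 460) ln13_11_5 ln13_11_5_ok))) (M (nat_lit 494) (B (L (nat_lit 526) ln13_12_4 ln13_12_4_ok) (L (nat_lit 462) ln13_11_4 ln13_11_4_ok))))) (M (nat_lit 396) (B (L (nat_lit 364) ln13_15_7 ln13_15_7_ok) (M (nat_lit 524) (B (L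 (nat_lit 492) ln13_12_5 ln13_12_5_ok) (M (nat_lit 525) (B (L (nat_lit 556) ln13_13_5 ln13_13_5_ok) (L (nat_lit 428) ln13_16_7 ln13_16_7_ok)))))))))) (B (M (nat_lit 397) (B (M (nat_lit 365) (B (M (nat_lit 492) (B (L (nat_lit 524) ln13_12_5 ln13_12_5_ok) (L (nat_lit 460) ln13_11_5 ln13_11_5_ok))) (M (nat_lit 494) (B (L (nat_lit 526) ln13_12_4 ln13_12_4_ok) (L (nat_lit 462) ln13_11_4 ln13_11_4_ok))))) (B (M (nat_lit 365) (B (M (nat_lit 494) (B (L (nat_lit 526) ln13_12_4 ln13_12_4_ok) (L (nat_lit 462) ln13_11_4 ln13_11_4_ok))) (M (nat_lit 364) (B (L (nat_lit 396) ln13_15_7 ln13_15_7_ok) (L (nat_lit 332) ln13_14_7 ln13_14_7_ok))))) (B (M (nat_lit 365) (B (M (nat_lit 492) (B (L (nat_lit 524) ln13_12_5 ln13_12_5_ok) (L (nat_lit 460) ln13_11_5 ln13_11_5_ok))) (M (nat_lit 364) (B (L (nat_lit 396) ln13_15_7 ln13_15_7_ok) (L (nat_lit 332) ln13_14_7 ln13_14_7_ok))))) (M (nat_lit 525) (B (M (nat_lit 526)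 (B (L (nat_lit 558) ln13_13_4 ln13_13_4_ok) (L (nat_lit 494) ln13_12_4 ln13_12_4_ok))) (M (nat_lit 396) (B (L (nat_lit 428) ln13_16_7 ln13_16_7_ok) (L (nat_lit 364) ln13_15_7 ln13_15_7_ok))))))))) (B (M (nat_lit 397) (B (M (nat_lit 365) (B (M (nat_lit 492) (B (L (nat_lit 524) ln13_12_5 ln13_12_5_ok) (L (nat_lit 460) ln13_11_5 ln13_11_5_ok))) (M (nat_lit 494) (B (L (nat_lit 526) ln13_12_4 ln13_12_4_ok) (L (nat_lit 462) ln13_11_4 ln13_11_4_ok))))) (B (M (nat_lit 365) (B (M (nat_lit 494) (B (L (nat_lit 526) ln13_12_4 ln13_12_4_ok) (L (nat_lit 462) ln13_11_4 ln13_11_4_ok))) (M (nat_lit 364) (B (L (nat_lit 396) ln13_15_7 ln13_15_7_ok) (L (nat_lit 332) ln13_14_7 ln13_14_7_ok))))) (B (M (nat_lit 365) (B (M (nat_lit 492) (B (L (nat_lit 524) ln13_12_5 ln13_12_5_ok) (L (nat_lit 460) ln13_11_5 ln13_11_5_ok))) (M (nat_lit 364) (B (L (nat_lit 396) ln13_15_7 ln13_15_7_ok) (L (nat_lit 332) ln13_14_7 ln13_14_7_ok)))))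 (M (nat_lit 396) (B (L (nat_lit 364) ln13_15_7 ln13_15_7_ok) (M (nat_lit 524) (B (L (nat_lit 492) ln13_12_5 ln13_12_5_ok) (M (nat_lit 525) (B (L (nat_lit 556) ln13_13_5 ln13_13_5_ok) (L (nat_lit 428) ln13_16_7 ln13_16_7_ok))))))))))) (B (M (nat_lit 397) (B (M (nat_lit 365) (B (M (nat_lit 494) (B (L (nat_lit 526) ln13_12_4 ln13_12_4_ok) (L (nat_lit 462) ln13_11_4 ln13_11_4_ok))) (M (nat_lit 364) (B (L (nat_lit 396) ln13_15_7 ln13_15_7_ok) (L (nat_lit 332) ln13_14_7 ln13_14_7_ok))))) (B (M (nat_lit 365) (B (M (nat_lit 364) (B (L (nat_lit 396) ln13_15_7 ln13_15_7_ok) (L (nat_lit 332) ln13_14_7 ln13_14_7_ok))) (M (nat_lit 333) (B (M (nat_lit 460) (B (L (nat_lit 492) ln13_11_5 ln13_11_5_ok) (L (nat_lit 428) ln13_10_5 ln13_10_5_ok))) (M (nat_lit 334) (B (L (nat_lit 366) ln13_14_6 ln13_14_6_ok) (L (nat_lit 302) ln13_13_6 ln13_13_6_ok))))))) (B (M (nat_lit 365) (B (M (nat_lit 494) (B (L (nat_lit 526)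 ln13_12_4 ln13_12_4_ok) (L (nat_lit 462) ln13_11_4 ln13_11_4_ok))) (M (nat_lit 333) (B (M (nat_lit 460) (B (L (nat_lit 492) ln13_11_5 ln13_11_5_ok) (L (nat_lit 428) ln13_10_5 ln13_10_5_ok))) (M (nat_lit 334) (B (L (nat_lit 366) ln13_14_6 ln13_14_6_ok) (L (nat_lit 302) ln13_13_6 ln13_13_6_ok))))))) (M (nat_lit 525) (B (M (nat_lit 526) (B (L (nat_lit 558) ln13_13_4 ln13_13_4_ok) (L (nat_lit 494) ln13_12_4 ln13_12_4_ok))) (M (nat_lit 396) (B (L (nat_lit 428) ln13_16_7 ln13_16_7_ok) (L (nat_lit 364) ln13_15_7 ln13_15_7_ok))))))))) (B (M (nat_lit 397) (B (M (nat_lit 365) (B (M (nat_lit 494) (B (L (nat_lit 526) ln13_12_4 ln13_12_4_ok) (L (nat_lit 462) ln13_11_4 ln13_11_4_ok))) (M (nat_lit 364) (B (L (nat_lit 396) ln13_15_7 ln13_15_7_ok) (L (nat_lit 332) ln13_14_7 ln13_14_7_ok))))) (B (M (nat_lit 365) (B (M (nat_lit 492) (B (L (nat_lit 524) ln13_12_5 ln13_12_5_ok) (L (nat_lit 460) ln13_11_5 ln13_11_5_ok)))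 (M (nat_lit 364) (B (L (nat_lit 396) ln13_15_7 ln13_15_7_ok) (L (nat_lit 332) ln13_14_7 ln13_14_7_ok))))) (B (M (nat_lit 365) (B (M (nat_lit 492) (B (L (nat_lit 524) ln13_12_5 ln13_12_5_ok) (L (nat_lit 460) ln13_11_5 ln13_11_5_ok))) (M (nat_lit 494) (B (L (nat_lit 526) ln13_12_4 ln13_12_4_ok) (L (nat_lit 462) ln13_11_4 ln13_11_4_ok))))) (M (nat_lit 492) (B (L (nat_lit 524) ln13_12_5 ln13_12_5_ok) (M (nat_lit 494) (B (L (nat_lit 526) ln13_12_4 ln13_12_4_ok) (M (nat_lit 491) (B (M (nat_lit 462) (B (L (nat_lit 490) ln10_15_2 ln10_15_2_ok) (L (nat_lit 463) ln11_15_2 ln11_15_2_ok))) (B (M (nat_lit 495) (B (M (nat_lit 459) (B (L (nat_lit 458) ln14_15_3 ln14_15_3_ok) (L (nat_lit 460) ln15_15_3 ln15_15_3_ok))) (M (nat_lit 463) (B (L (nat_lit 462) ln11_15_2 ln11_15_2_ok) (L (nat_lit 464) ln12_15_2 ln12_15_2_ok))))) (M (nat_lit 490) (B (M (nat_lit 522) (B (L (nat_lit 521) ln13_15_1 ln13_15_1_ok) (L (nat_lit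 523) ln14_15_1 ln14_15_1_ok))) (M (nat_lit 458) (B (L (nat_lit 457) ln13_15_3 ln13_15_3_ok) (L (nat_lit 459) ln14_15_3 ln14_15_3_ok)))))))))))))))) c10_d41)))))))
noncomputable def c10_d43 : Cert := (B (M (nat_lit 493) (B (M (nat_lit 525) (B (M (nat_lit 557) (B (M (nat_lit 590) (B (L (nat_lit 558) ln13_14_4 ln13_14_4_ok) (M (nat_lit 589) (B (L (nat_lit 622) ln13_15_4_c10 ln13_15_4_c10_ok) (M (nat_lit 588) (B (L (nat_lit 556) ln13_14_5 ln13_14_5_ok) (L (nat_lit 620) ln13_15_5_c10 ln13_15_5_c10_ok))))))) (B (M (nat_lit 589) (B (M (nat_lit 460) (B (L (nat_lit 428) ln13_17_7 ln13_17_7_ok) (L (nat_lit 492) ln13_18_7 ln13_18_7_ok))) (M (nat_lit 588) (B (L (nat_lit 556) ln13_14_5 ln13_14_5_ok) (L (nat_lit 620) ln13_15_5_c10 ln13_15_5_c10_ok))))) (B (M (nat_lit 589) (B (M (nat_lit 460) (B (L (nat_lit 428) ln13_17_7 ln13_17_7_ok) (L (nat_lit 492) ln13_18_7 ln13_18_7_ok))) (M (nat_lit 590) (B (L (nat_lit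 558) ln13_14_4 ln13_14_4_ok) (L (nat_lit 622) ln13_15_4_c10 ln13_15_4_c10_ok))))) (M (nat_lit 428) (B (L (nat_lit 396) ln13_16_7 ln13_16_7_ok) (L (nat_lit 460) ln13_17_7 ln13_17_7_ok))))))) (B (M (nat_lit 557) (B (M (nat_lit 460) (B (L (nat_lit 428) ln13_17_7 ln13_17_7_ok) (M (nat_lit 588) (B (L (nat_lit 556) ln13_14_5 ln13_14_5_ok) (M (nat_lit 589) (B (L (nat_lit 620) ln13_15_5_c10 ln13_15_5_c10_ok) (L (nat_lit 492) ln13_18_7 ln13_18_7_ok))))))) (B (M (nat_lit 589) (B (M (nat_lit 590) (B (L (nat_lit 622) ln13_15_4_c10 ln13_15_4_c10_ok) (L (nat_lit 558) ln13_14_4 ln13_14_4_ok))) (M (nat_lit 460) (B (L (nat_lit 492) ln13_18_7 ln13_18_7_ok) (L (nat_lit 428) ln13_17_7 ln13_17_7_ok))))) (M (nat_lit 556) (B (L (nat_lit 588) ln13_14_5 ln13_14_5_ok) (M (nat_lit 558) (B (L (nat_lit 590) ln13_14_4 ln13_14_4_ok) (M (nat_lit 555) (B (L (nat_lit 526) ln13_13_4 ln13_13_4_ok) (M (nat_lit 554) (B (M (nat_lit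 586) (B (L (nat_lit 585) ln13_17_1 ln13_17_1_ok) (L (nat_lit 587) ln14_17_1 ln14_17_1_ok))) (M (nat_lit 522) (B (L (nat_lit 521) ln13_17_3 ln13_17_3_ok) (L (nat_lit 523) ln14_17_3 ln14_17_3_ok)))))))))))))) (B (M (nat_lit 558) (B (M (nat_lit 590) (B (L (nat_lit 557) ln13_14_4 ln13_14_4_ok) (L (nat_lit 526) ln13_13_4 ln13_13_4_ok))) (B (M (nat_lit 524) (B (L (nat_lit 526) ln13_13_4 ln13_13_4_ok) (L (nat_lit 556) ln13_13_5 ln13_13_5_ok))) (M (nat_lit 557) (B (L (nat_lit 590) ln13_14_4 ln13_14_4_ok) (M (nat_lit 556) (B (L (nat_lit 588) ln13_14_5 ln13_14_5_ok) (L (nat_lit 524) ln13_13_5 ln13_13_5_ok)))))))) c10_d31)))) (B (M (nat_lit 525) (B (M (nat_lit 558) (B (L (nat_lit 526) ln13_13_4 ln13_13_4_ok) (M (nat_lit 557) (B (L (nat_lit 590) ln13_14_4 ln13_14_4_ok) (M (nat_lit 556) (B (L (nat_lit 524) ln13_13_5 ln13_13_5_ok) (L (nat_lit 588) ln13_14_5 ln13_14_5_ok))))))) (B (M (nat_lit 557) (B (M (nat_lit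 428) (B (L (nat_lit 396) ln13_16_7 ln13_16_7_ok) (L (nat_lit 460) ln13_17_7 ln13_17_7_ok))) (M (nat_lit 556) (B (L (nat_lit 524) ln13_13_5 ln13_13_5_ok) (L (nat_lit 588) ln13_14_5 ln13_14_5_ok))))) (B (M (nat_lit 557) (B (M (nat_lit 428) (B (L (nat_lit 396) ln13_16_7 ln13_16_7_ok) (L (nat_lit 460) ln13_17_7 ln13_17_7_ok))) (M (nat_lit 558) (B (L (nat_lit 526) ln13_13_4 ln13_13_4_ok) (L (nat_lit 590) ln13_14_4 ln13_14_4_ok))))) (M (nat_lit 397) (B (M (nat_lit 396) (B (L (nat_lit 364) ln13_15_7 ln13_15_7_ok) (L (nat_lit 428) ln13_16_7 ln13_16_7_ok))) (M (nat_lit 526) (B (L (nat_lit 494) ln13_12_4 ln13_12_4_ok) (L (nat_lit 558) ln13_13_4 ln13_13_4_ok))))))))) (B (M (nat_lit 525) (B (M (nat_lit 557) (B (M (nat_lit 428) (B (L (nat_lit 396) ln13_16_7 ln13_16_7_ok) (L (nat_lit 460) ln13_17_7 ln13_17_7_ok))) (M (nat_lit 558) (B (L (nat_lit 526) ln13_13_4 ln13_13_4_ok) (L (nat_lit 590) ln13_14_4 ln13_14_4_ok)))))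 (B (M (nat_lit 556) (B (L (nat_lit 524) ln13_13_5 ln13_13_5_ok) (M (nat_lit 557) (B (L (nat_lit 588) ln13_14_5 ln13_14_5_ok) (M (nat_lit 558) (B (L (nat_lit 526) ln13_13_4 ln13_13_4_ok) (L (nat_lit 590) ln13_14_4 ln13_14_4_ok))))))) (B (M (nat_lit 557) (B (M (nat_lit 428) (B (L (nat_lit 396) ln13_16_7 ln13_16_7_ok) (L (nat_lit 460) ln13_17_7 ln13_17_7_ok))) (M (nat_lit 556) (B (L (nat_lit 524) ln13_13_5 ln13_13_5_ok) (L (nat_lit 588) ln13_14_5 ln13_14_5_ok))))) (M (nat_lit 397) (B (M (nat_lit 396) (B (L (nat_lit 364) ln13_15_7 ln13_15_7_ok) (L (nat_lit 428) ln13_16_7 ln13_16_7_ok))) (M (nat_lit 524) (B (L (nat_lit 492) ln13_12_5 ln13_12_5_ok) (L (nat_lit 556) ln13_13_5 ln13_13_5_ok))))))))) c10_d35)))) (B (M (nat_lit 397) (B (M (nat_lit 365) (B (M (nat_lit 492) (B (L (nat_lit 460) ln13_11_5 ln13_11_5_ok) (M (nat_lit 493) (B (L (nat_lit 524) ln13_12_5 ln13_12_5_ok) (M (nat_lit 494) (B (L (nat_lit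 526) ln13_12_4 ln13_12_4_ok) (L (nat_lit 462) ln13_11_4 ln13_11_4_ok))))))) (M (nat_lit 332) (B (L (nat_lit 364) ln13_14_7 ln13_14_7_ok) (M (nat_lit 333) (B (L (nat_lit 300) ln13_13_7 ln13_13_7_ok) (M (nat_lit 334) (B (L (nat_lit 366) ln13_14_6 ln13_14_6_ok) (L (nat_lit 302) ln13_13_6 ln13_13_6_ok))))))))) (B (M (nat_lit 365) (B (M (nat_lit 493) (B (M (nat_lit 494) (B (L (nat_lit 526) ln13_12_4 ln13_12_4_ok) (L (nat_lit 462) ln13_11_4 ln13_11_4_ok))) (M (nat_lit 364) (B (L (nat_lit 396) ln13_15_7 ln13_15_7_ok) (L (nat_lit 332) ln13_14_7 ln13_14_7_ok))))) (M (nat_lit 333) (B (M (nat_lit 460) (B (L (nat_lit 492) ln13_11_5 ln13_11_5_ok) (L (nat_lit 428) ln13_10_5 ln13_10_5_ok))) (M (nat_lit 334) (B (L (nat_lit 366) ln13_14_6 ln13_14_6_ok) (L (nat_lit 302) ln13_13_6 ln13_13_6_ok))))))) (B (M (nat_lit 493) (B (M (nat_lit 365) (B (M (nat_lit 366) (B (L (nat_lit 334) ln13_14_6 ln13_14_6_ok) (L (nat_lit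 398) ln13_15_6 ln13_15_6_ok))) (M (nat_lit 492) (B (L (nat_lit 460) ln13_11_5 ln13_11_5_ok) (L (nat_lit 524) ln13_12_5 ln13_12_5_ok))))) (M (nat_lit 525) (B (M (nat_lit 396) (B (L (nat_lit 364) ln13_15_7 ln13_15_7_ok) (L (nat_lit 428) ln13_16_7 ln13_16_7_ok))) (M (nat_lit 526) (B (L (nat_lit 494) ln13_12_4 ln13_12_4_ok) (L (nat_lit 558) ln13_13_4 ln13_13_4_ok))))))) (B (M (nat_lit 365) (B (M (nat_lit 334) (B (L (nat_lit 366) ln13_14_6 ln13_14_6_ok) (M (nat_lit 333) (B (L (nat_lit 302) ln13_13_6 ln13_13_6_ok) (M (nat_lit 332) (B (L (nat_lit 364) ln13_14_7 ln13_14_7_ok) (L (nat_lit 300) ln13_13_7 ln13_13_7_ok))))))) (B (M (nat_lit 333) (B (M (nat_lit 460) (B (L (nat_lit 492) ln13_11_5 ln13_11_5_ok) (L (nat_lit 428) ln13_10_5 ln13_10_5_ok))) (M (nat_lit 332) (B (L (nat_lit 364) ln13_14_7 ln13_14_7_ok) (L (nat_lit 300) ln13_13_7 ln13_13_7_ok))))) (B (M (nat_lit 333) (B (M (nat_lit 460) (B (L (nat_lit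 492) ln13_11_5 ln13_11_5_ok) (L (nat_lit 428) ln13_10_5 ln13_10_5_ok))) (M (nat_lit 334) (B (L (nat_lit 366) ln13_14_6 ln13_14_6_ok) (L (nat_lit 302) ln13_13_6 ln13_13_6_ok))))) (M (nat_lit 493) (B (M (nat_lit 492) (B (L (nat_lit 524) ln13_12_5 ln13_12_5_ok) (L (nat_lit 460) ln13_11_5 ln13_11_5_ok))) (M (nat_lit 366) (B (L (nat_lit 398) ln13_15_6 ln13_15_6_ok) (L (nat_lit 334) ln13_14_6 ln13_14_6_ok))))))))) c10_d37))))) (B (M (nat_lit 493) c10_d39) c10_d42)))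
noncomputable def c10_d44 : Cert := (B (M (nat_lit 397) (B (K (nat_lit 5954262830815946494763249298768603811203561774969104571805089223376689777636098861358550851719243481454542035207245364041705138952691777536) (nat_lit 12786682065071435595666871088395566144512937030194299662338014207335492880798373249765205013750442956759470315202891290968723300526087824898844000256) (nat_lit 12786682065071435595666871088395566144512937030194299662338014207335492880798373249765205013750442956759470315202891290968723300526087824898844000256) c10_s571) (B (M (nat_lit 493) (B (K (nat_lit 25573364130142871190293991001228867675461119795915005442807318385056134507788209737661646457654677079460545701201105089966755180806434772181820899328) (nat_lit 40160387605602722428271549737641734491547102788568034398135156676747638944538067177271086891375649993611220186804226330629777653760) (nat_lit 40160387605602722428271549737641734491547102788568034398135156676747638944538067177271086891375649993611220186804226330629777653760)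 c10_s565) (M (nat_lit 492) (B (L (nat_lit 524) ln13_12_5 ln13_12_5_ok) (M (nat_lit 494) (B (L (nat_lit 526) ln13_12_4 ln13_12_4_ok) (M (nat_lit 491) (B (M (nat_lit 462) (B (L (nat_lit 490) ln10_15_2 ln10_15_2_ok) (L (nat_lit 463) ln11_15_2 ln11_15_2_ok))) (B (M (nat_lit 495) (B (M (nat_lit 459) (B (L (nat_lit 458) ln14_15_3 ln14_15_3_ok) (L (nat_lit 460) ln15_15_3 ln15_15_3_ok))) (M (nat_lit 463) (B (L (nat_lit 462) ln11_15_2 ln11_15_2_ok) (L (nat_lit 464) ln12_15_2 ln12_15_2_ok))))) (M (nat_lit 490) (B (M (nat_lit 522) (B (L (nat_lit 521) ln13_15_1 ln13_15_1_ok) (L (nat_lit 523) ln14_15_1 ln14_15_1_ok))) (M (nat_lit 458) (B (L (nat_lit 457) ln13_15_3 ln13_15_3_ok) (L (nat_lit 459) ln14_15_3 ln14_15_3_ok)))))))))))))) (B (K (nat_lit 5954262830815946494763249298768603811203561774969104571805089223376689777636098861358550851719243481454542035207245364041705138952691777536) (nat_lit 25573364124188608360517795646441251853358162402824153890646477751110568515971696711575342613843985322453656299797438808586539441115828738112937263104)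 (nat_lit 25573364124188608360517795646441251853358162402824153890646477751110568515971696711575342613843985322453656299797438808586539441115828738112937263104) c10_s450) (B (M (nat_lit 492) (B (M (nat_lit 524) (B (L (nat_lit 493) ln13_12_5 ln13_12_5_ok) (M (nat_lit 460) (B (L (nat_lit 428) ln12_16_6 ln12_16_6_ok) (L (nat_lit 365) ln13_11_5 ln13_11_5_ok))))) (B (M (nat_lit 462) (B (M (nat_lit 365) (B (L (nat_lit 460) ln13_11_5 ln13_11_5_ok) (L (nat_lit 494) ln13_11_4 ln13_11_4_ok))) (B (M (nat_lit 494) (B (L (nat_lit 365) ln13_11_4 ln13_11_4_ok) (M (nat_lit 526) (B (L (nat_lit 493) ln13_12_4 ln13_12_4_ok) (L (nat_lit 558) ln14_17_7 ln14_17_7_ok))))) (B (M (nat_lit 463) (B (M (nat_lit 464) (B (L (nat_lit 493) ln16_14_1 ln16_14_1_ok) (L (nat_lit 428) ln16_14_3 ln16_14_3_ok))) (B (M (nat_lit 491) (B (L (nat_lit 460) ln15_14_1 ln15_14_1_ok) (M (nat_lit 493) (B (L (nat_lit 490) ln10_15_2 ln10_15_2_ok)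 (L (nat_lit 464) ln16_14_1 ln16_14_1_ok))))) (B (M (nat_lit 460) (B (L (nat_lit 491) ln15_14_1 ln15_14_1_ok) (M (nat_lit 428) (B (L (nat_lit 427) ln15_14_3 ln15_14_3_ok) (L (nat_lit 464) ln16_14_3 ln16_14_3_ok))))) (M (nat_lit 491) (B (L (nat_lit 460) ln15_14_1 ln15_14_1_ok) (M (nat_lit 493) (B (L (nat_lit 490) ln10_15_2 ln10_15_2_ok) (L (nat_lit 494) ln11_15_2 ln11_15_2_ok))))))))) (M (nat_lit 463) (B (M (nat_lit 460) (B (L (nat_lit 491) ln15_14_1 ln15_14_1_ok) (L (nat_lit 365) ln13_11_5 ln13_11_5_ok))) (M (nat_lit 464) (B (L (nat_lit 493) ln16_14_1 ln16_14_1_ok) (L (nat_lit 428) ln16_14_3 ln16_14_3_ok))))))))) (B (M (nat_lit 493) (B (L (nat_lit 524) ln13_12_5 ln13_12_5_ok) (M (nat_lit 494) (B (L (nat_lit 526) ln13_12_4 ln13_12_4_ok) (M (nat_lit 462) (B (L (nat_lit 365) ln13_11_4 ln13_11_4_ok) (M (nat_lit 463) (B (L (nat_lit 491) ln11_15_2 ln11_15_2_ok) (L (nat_lit 464) ln16_14_1 ln16_14_1_ok)))))))))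 (B (M (nat_lit 460) (B (L (nat_lit 365) ln13_11_5 ln13_11_5_ok) (M (nat_lit 524) (B (L (nat_lit 556) ln12_17_6 ln12_17_6_ok) (L (nat_lit 428) ln12_16_6 ln12_16_6_ok))))) (M (nat_lit 524) (B (L (nat_lit 493) ln13_12_5 ln13_12_5_ok) (M (nat_lit 460) (B (L (nat_lit 556) ln12_17_6 ln12_17_6_ok) (L (nat_lit 428) ln12_16_6 ln12_16_6_ok)))))))))) (K (nat_lit 5954262830815946494763249298768603811203561774969104571805089223376689777636098861358550851719243481454542035207245364041705138952691777536) (nat_lit 54918381319404923909115250346583018322350893370459679528534775271695593513303341499557500009351684237515074637347497300820963479428595932955333292912042573824) (nat_lit 54918381319404923909115250346583018322350893370459679528534775271695593513303341499557500009351684237515074637347497300820963479428595932955333292912042573824) c10_s501)))))) (B (M (nat_lit 397) (B (M (nat_lit 365) (B (M (nat_lit 334)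 (B (L (nat_lit 366) ln13_14_6 ln13_14_6_ok) (M (nat_lit 333) (B (L (nat_lit 302) ln13_13_6 ln13_13_6_ok) (M (nat_lit 460) (B (L (nat_lit 428) ln13_10_5 ln13_10_5_ok) (L (nat_lit 492) ln13_11_5 ln13_11_5_ok))))))) (B (M (nat_lit 333) (B (M (nat_lit 332) (B (L (nat_lit 300) ln13_13_7 ln13_13_7_ok) (L (nat_lit 364) ln13_14_7 ln13_14_7_ok))) (M (nat_lit 460) (B (L (nat_lit 428) ln13_10_5 ln13_10_5_ok) (L (nat_lit 492) ln13_11_5 ln13_11_5_ok))))) (B (M (nat_lit 493) (B (M (nat_lit 364) (B (L (nat_lit 332) ln13_14_7 ln13_14_7_ok) (L (nat_lit 396) ln13_15_7 ln13_15_7_ok))) (M (nat_lit 492) (B (L (nat_lit 460) ln13_11_5 ln13_11_5_ok) (L (nat_lit 524) ln13_12_5 ln13_12_5_ok))))) (M (nat_lit 333) (B (M (nat_lit 332) (B (L (nat_lit 300) ln13_13_7 ln13_13_7_ok) (L (nat_lit 364) ln13_14_7 ln13_14_7_ok))) (M (nat_lit 334) (B (L (nat_lit 302) ln13_13_6 ln13_13_6_ok) (L (nat_lit 366) ln13_14_6 ln13_14_6_ok)))))))))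 (B (M (nat_lit 365) (B (M (nat_lit 366) (B (L (nat_lit 334) ln13_14_6 ln13_14_6_ok) (M (nat_lit 493) (B (L (nat_lit 398) ln13_15_6 ln13_15_6_ok) (M (nat_lit 364) (B (L (nat_lit 332) ln13_14_7 ln13_14_7_ok) (L (nat_lit 396) ln13_15_7 ln13_15_7_ok))))))) (B (M (nat_lit 493) (B (M (nat_lit 366) (B (L (nat_lit 334) ln13_14_6 ln13_14_6_ok) (L (nat_lit 398) ln13_15_6 ln13_15_6_ok))) (M (nat_lit 492) (B (L (nat_lit 460) ln13_11_5 ln13_11_5_ok) (L (nat_lit 524) ln13_12_5 ln13_12_5_ok))))) (B (M (nat_lit 493) (B (M (nat_lit 364) (B (L (nat_lit 332) ln13_14_7 ln13_14_7_ok) (L (nat_lit 396) ln13_15_7 ln13_15_7_ok))) (M (nat_lit 492) (B (L (nat_lit 460) ln13_11_5 ln13_11_5_ok) (L (nat_lit 524) ln13_12_5 ln13_12_5_ok))))) (M (nat_lit 334) (B (L (nat_lit 366) ln13_14_6 ln13_14_6_ok) (M (nat_lit 333) (B (L (nat_lit 302) ln13_13_6 ln13_13_6_ok) (M (nat_lit 460) (B (L (nat_lit 428) ln13_10_5 ln13_10_5_ok) (L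 (nat_lit 492) ln13_11_5 ln13_11_5_ok))))))))))) (B (M (nat_lit 365) (B (M (nat_lit 366) (B (L (nat_lit 334) ln13_14_6 ln13_14_6_ok) (M (nat_lit 493) (B (L (nat_lit 398) ln13_15_6 ln13_15_6_ok) (M (nat_lit 364) (B (L (nat_lit 332) ln13_14_7 ln13_14_7_ok) (L (nat_lit 396) ln13_15_7 ln13_15_7_ok))))))) (B (M (nat_lit 493) (B (M (nat_lit 366) (B (L (nat_lit 334) ln13_14_6 ln13_14_6_ok) (L (nat_lit 398) ln13_15_6 ln13_15_6_ok))) (M (nat_lit 492) (B (L (nat_lit 460) ln13_11_5 ln13_11_5_ok) (L (nat_lit 524) ln13_12_5 ln13_12_5_ok))))) (B (M (nat_lit 493) (B (M (nat_lit 364) (B (L (nat_lit 332) ln13_14_7 ln13_14_7_ok) (L (nat_lit 396) ln13_15_7 ln13_15_7_ok))) (M (nat_lit 492) (B (L (nat_lit 460) ln13_11_5 ln13_11_5_ok) (L (nat_lit 524) ln13_12_5 ln13_12_5_ok))))) (M (nat_lit 333) (B (M (nat_lit 332) (B (L (nat_lit 300) ln13_13_7 ln13_13_7_ok) (L (nat_lit 364) ln13_14_7 ln13_14_7_ok))) (M (nat_lit 460)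 (B (L (nat_lit 428) ln13_10_5 ln13_10_5_ok) (L (nat_lit 492) ln13_11_5 ln13_11_5_ok))))))))) (B (M (nat_lit 493) (B (M (nat_lit 365) (B (M (nat_lit 366) (B (L (nat_lit 334) ln13_14_6 ln13_14_6_ok) (L (nat_lit 398) ln13_15_6 ln13_15_6_ok))) (M (nat_lit 492) (B (L (nat_lit 460) ln13_11_5 ln13_11_5_ok) (L (nat_lit 524) ln13_12_5 ln13_12_5_ok))))) (B (M (nat_lit 525) (B (M (nat_lit 396) (B (L (nat_lit 364) ln13_15_7 ln13_15_7_ok) (L (nat_lit 428) ln13_16_7 ln13_16_7_ok))) (M (nat_lit 524) (B (L (nat_lit 492) ln13_12_5 ln13_12_5_ok) (L (nat_lit 556) ln13_13_5 ln13_13_5_ok))))) (B (M (nat_lit 525) (B (M (nat_lit 396) (B (L (nat_lit 364) ln13_15_7 ln13_15_7_ok) (L (nat_lit 428) ln13_16_7 ln13_16_7_ok))) (M (nat_lit 557) (B (M (nat_lit 556) (B (L (nat_lit 524) ln13_13_5 ln13_13_5_ok) (L (nat_lit 588) ln13_14_5 ln13_14_5_ok))) (M (nat_lit 558) (B (L (nat_lit 526) ln13_13_4 ln13_13_4_ok) (L (nat_lit 590)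 ln13_14_4 ln13_14_4_ok))))))) (M (nat_lit 365) (B (M (nat_lit 366) (B (L (nat_lit 334) ln13_14_6 ln13_14_6_ok) (L (nat_lit 398) ln13_15_6 ln13_15_6_ok))) (M (nat_lit 428) (B (M (nat_lit 460) (B (L (nat_lit 333) ln13_10_5 ln13_10_5_ok) (L (nat_lit 492) ln13_11_5 ln13_11_5_ok))) (M (nat_lit 396) (B (L (nat_lit 364) ln13_15_7 ln13_15_7_ok) (L (nat_lit 525) ln13_16_7 ln13_16_7_ok))))))))))) (B (M (nat_lit 493) (B (M (nat_lit 365) (B (M (nat_lit 366) (B (L (nat_lit 334) ln13_14_6 ln13_14_6_ok) (L (nat_lit 398) ln13_15_6 ln13_15_6_ok))) (M (nat_lit 492) (B (L (nat_lit 460) ln13_11_5 ln13_11_5_ok) (L (nat_lit 524) ln13_12_5 ln13_12_5_ok))))) (B (M (nat_lit 492) (B (L (nat_lit 524) ln13_12_5 ln13_12_5_ok) (M (nat_lit 364) (B (L (nat_lit 396) ln13_15_7 ln13_15_7_ok) (M (nat_lit 365) (B (L (nat_lit 332) ln13_14_7 ln13_14_7_ok) (L (nat_lit 460) ln13_11_5 ln13_11_5_ok))))))) (B (M (nat_lit 525) (B (M (nat_lit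 396) (B (L (nat_lit 364) ln13_15_7 ln13_15_7_ok) (L (nat_lit 428) ln13_16_7 ln13_16_7_ok))) (M (nat_lit 524) (B (L (nat_lit 492) ln13_12_5 ln13_12_5_ok) (L (nat_lit 556) ln13_13_5 ln13_13_5_ok))))) (M (nat_lit 365) (B (M (nat_lit 364) (B (L (nat_lit 332) ln13_14_7 ln13_14_7_ok) (L (nat_lit 396) ln13_15_7 ln13_15_7_ok))) (M (nat_lit 366) (B (L (nat_lit 334) ln13_14_6 ln13_14_6_ok) (L (nat_lit 398) ln13_15_6 ln13_15_6_ok))))))))) c10_d24)))))) (B (K (nat_lit 5954262830815946494440468064007740237496571878468728087513875999273036838532266441790969898967138332125836366047228135112217242456098340864) (nat_lit 31545347677224687793449247355589775212704255946183600167446237778333709374762759230888505611518287578952409481600419359313294026944663166712583697683885512677820044263295408673595777351680) (nat_lit 31545347677224687793449247355589775212704255946183600167446237778333709374762759230888505611518287578952409481600419359313294026944663166712583697683885512677820044263295408673595777351680)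 c10_s592) (B (M (nat_lit 493) c10_d30) c10_d43))))
noncomputable def c10_d45 : Cert := (B (M (nat_lit 397) (B (K (nat_lit 5954262830815946494763249298768603811203561774969104571805089223376689777636098861358550851719243481454542035207245364041705138952691777536) (nat_lit 759190119877372252352401770101837629892014766161447737896813517241346445600318404069470990417726264189528674825610838517358220276090371802624592039021573736136295529891740777200255441218362369114112) (nat_lit 759190119877372252352401770101837629892014766161447737896813517241346445600318404069470990417726264189528674825610838517358220276090371802624592039021573736136295529891740777200255441218362369114112) c10_s477) (B (K (nat_lit 5954262830815946494763249298768603811203561774969104571805089223376689777636098861358550851719243481454542035207245364041705138952691777536) (nat_lit 759190119019801098052697172377036489814640404186172171348735507665608893751107217770592403401585516587228570320519299967437640967584815193376265593089404333871829228549609003784361727034948942036992)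 (nat_lit 759190119019801098052697172377036489814640404186172171348735507665608893751107217770592403401585516587228570320519299967437640967584815193376265593089404333871829228549609003784361727034948942036992) c10_s499) (B (M (nat_lit 493) (B (M (nat_lit 492) (B (L (nat_lit 524) ln13_12_5 ln13_12_5_ok) (M (nat_lit 365) (B (L (nat_lit 460) ln13_11_5 ln13_11_5_ok) (M (nat_lit 494) (B (L (nat_lit 526) ln13_12_4 ln13_12_4_ok) (L (nat_lit 462) ln13_11_4 ln13_11_4_ok))))))) (B (M (nat_lit 365) (B (M (nat_lit 492) (B (L (nat_lit 524) ln13_12_5 ln13_12_5_ok) (L (nat_lit 460) ln13_11_5 ln13_11_5_ok))) (M (nat_lit 366) (B (L (nat_lit 398) ln13_15_6 ln13_15_6_ok) (L (nat_lit 334) ln13_14_6 ln13_14_6_ok))))) (B (M (nat_lit 365) (B (M (nat_lit 494) (B (L (nat_lit 526) ln13_12_4 ln13_12_4_ok) (L (nat_lit 462) ln13_11_4 ln13_11_4_ok))) (M (nat_lit 366) (B (L (nat_lit 398) ln13_15_6 ln13_15_6_ok) (L (nat_lit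 334) ln13_14_6 ln13_14_6_ok))))) (M (nat_lit 525) (B (M (nat_lit 526) (B (L (nat_lit 558) ln13_13_4 ln13_13_4_ok) (L (nat_lit 494) ln13_12_4 ln13_12_4_ok))) (M (nat_lit 524) (B (L (nat_lit 556) ln13_13_5 ln13_13_5_ok) (L (nat_lit 492) ln13_12_5 ln13_12_5_ok))))))))) (B (M (nat_lit 493) (B (M (nat_lit 494) (B (L (nat_lit 526) ln13_12_4 ln13_12_4_ok) (M (nat_lit 365) (B (L (nat_lit 462) ln13_11_4 ln13_11_4_ok) (M (nat_lit 492) (B (L (nat_lit 524) ln13_12_5 ln13_12_5_ok) (L (nat_lit 460) ln13_11_5 ln13_11_5_ok))))))) (B (M (nat_lit 365) (B (M (nat_lit 494) (B (L (nat_lit 526) ln13_12_4 ln13_12_4_ok) (L (nat_lit 462) ln13_11_4 ln13_11_4_ok))) (M (nat_lit 364) (B (L (nat_lit 396) ln13_15_7 ln13_15_7_ok) (L (nat_lit 332) ln13_14_7 ln13_14_7_ok))))) (B (M (nat_lit 365) (B (M (nat_lit 492) (B (L (nat_lit 524) ln13_12_5 ln13_12_5_ok) (L (nat_lit 460) ln13_11_5 ln13_11_5_ok))) (M (nat_lit 364) (B (L (nat_lit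 396) ln13_15_7 ln13_15_7_ok) (L (nat_lit 332) ln13_14_7 ln13_14_7_ok))))) (M (nat_lit 525) (B (M (nat_lit 524) (B (L (nat_lit 556) ln13_13_5 ln13_13_5_ok) (L (nat_lit 492) ln13_12_5 ln13_12_5_ok))) (M (nat_lit 526) (B (L (nat_lit 558) ln13_13_4 ln13_13_4_ok) (L (nat_lit 494) ln13_12_4 ln13_12_4_ok))))))))) (B (K (nat_lit 5954262830815946494763249298768603811203561774969104571805089223376689777636098861358550851719243481454542035207245364041705138952691777536) (nat_lit 219673525200899603263895176307897939767585859090265583049206608834031714959462606244647906897602348633246611083525717916942385639058858904051477606554914521088) (nat_lit 219673525200899603263895176307897939767585859090265583049206608834031714959462606244647906897602348633246611083525717916942385639058858904051477606554914521088) c10_s500) (K (nat_lit 5954262830815946494763249298768603811203561774969104571805089223376689777636098861358550851719243481454542035207245364041705138952691777536)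 (nat_lit 54918381319404923909115250346583018322350893370459679528534775271695593513303341499557500009351684237515074637347497300820963479428595932955333292912042573824) (nat_lit 54918381319404923909115250346583018322350893370459679528534775271695593513303341499557500009351684237515074637347497300820963479428595932955333292912042573824) c10_s501))))))) (B (K (nat_lit 5954262830815946494440468064007740237496571878468728087513875999273036838532266441790969898967138332125836366047228135112217242456098340864) (nat_lit 20683696007099594933881615820491883460567066829369972280590297678874879536455724457666344847030206539780355025711829316663979806703507095964941386544294567849054119736159502945718090909905306358095370495774808380276736) (nat_lit 20683696007099594933881615820491883460567066829369972280590297678874879536455724457666344847030206539780355025711829316663979806703507095964941386544294567849054119736159502945718090909905306358095370495774808380276736)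 c10_s564) (B (M (nat_lit 397) c10_d12) (B (M (nat_lit 397) (B (K (nat_lit 5954262830815946494763249298768603811203561774969104571805089223376689777636098861358550851719243481454542035207245364041705138952691777536) (nat_lit 12786682065071435595666871088395566144512937030194299662338014207335492880798373249765205013750442956759470315202891290968723300526087824898844000256) (nat_lit 12786682065071435595666871088395566144512937030194299662338014207335492880798373249765205013750442956759470315202891290968723300526087824898844000256) c10_s571) (B (K (nat_lit 5954262830815946494763249298768603811203561774969104571805089223376689777636098861358550851719243481454542035207245364041705138952691777536) (nat_lit 235872651740128270218237321482061224168596640388969519237922572227973076643784911458758023214138525538825346504643074814754306769387264092678993132533628257313811857408) (nat_lit 235872651740128270218237321482061224168596640388969519237922572227973076643784911458758023214138525538825346504643074814754306769387264092678993132533628257313811857408)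 c10_s574) (B (M (nat_lit 462) (B (M (nat_lit 365) (B (L (nat_lit 494) ln13_11_4 ln13_11_4_ok) (M (nat_lit 366) (B (L (nat_lit 334) ln13_14_6 ln13_14_6_ok) (M (nat_lit 493) (B (L (nat_lit 398) ln13_15_6 ln13_15_6_ok) (M (nat_lit 492) (B (L (nat_lit 524) ln13_12_5 ln13_12_5_ok) (L (nat_lit 460) ln13_11_5 ln13_11_5_ok))))))))) (B (M (nat_lit 365) (B (L (nat_lit 494) ln13_11_4 ln13_11_4_ok) (M (nat_lit 333) (B (M (nat_lit 460) (B (L (nat_lit 492) ln13_11_5 ln13_11_5_ok) (L (nat_lit 428) ln13_10_5 ln13_10_5_ok))) (M (nat_lit 334) (B (L (nat_lit 366) ln13_14_6 ln13_14_6_ok) (L (nat_lit 302) ln13_13_6 ln13_13_6_ok))))))) c10_d13))) c10_d14)))) (B (M (nat_lit 397) (B (K (nat_lit 5954262830815946494763249298768603811203561774969104571805089223376689777636098861358550851719243481454542035207245364041705138952691777536) (nat_lit 219673525200899603263895176307897939767585859090265583049206608834031714959462606244647906897602348633246611083525717916942385639058858904051477606554914521088)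 (nat_lit 219673525200899603263895176307897939767585859090265583049206608834031714959462606244647906897602348633246611083525717916942385639058858904051477606554914521088) c10_s500) (B (K (nat_lit 5954262830815946494763249298768603811203561774969104571805089223376689777636098861358550851719243481454542035207245364041705138952691777536) (nat_lit 943490606534895625823378003950672811823123703771537134701504648206942337699088278908924086068567889729341498351273316655032315558439110173478664656766582174135246389248) (nat_lit 943490606534895625823378003950672811823123703771537134701504648206942337699088278908924086068567889729341498351273316655032315558439110173478664656766582174135246389248) c10_s575) (B (K (nat_lit 5954262830815946494763249298768603811203561774969104571805089223376689777636098861358550851719243481454542035207245364041705138952691777536) (nat_lit 943490606534895625823378004025101097274693815764178561089291470935698564697583051701413941485884083752273869051284260521577722005087893363672139776708803820481373274112)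 (nat_lit 943490606534895625823378004025101097274693815764178561089291470935698564697583051701413941485884083752273869051284260521577722005087893363672139776708803820481373274112) c10_s570) c10_d21)))) c10_d44)))))
noncomputable def c10_kids : Cert := (B (M (nat_lit 365) (B (K (nat_lit 5954262830815946494440468064082893600145334541761191466611134784149058680097332677653603210056169020929503836238066503060529840953120260096) (nat_lit 1723641332851444552320660979215680871826052726469839204343789646087487878431243173229817126078604402438210356187266865754745687121178002046193353301252515013588085161298363117780862229619282096815135621042531272228864) (nat_lit 1723641332851444552320660979215680871826052726469839204343789646087487878431243173229817126078604402438210356187266865754745687121178002046193353301252515013588085161298363117780862229619282096815135621042531272228864) c10_s172) c10_d2)) (B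 (M (nat_lit 397) (B (M (nat_lit 494) (B (M (nat_lit 493) (B (M (nat_lit 495) (B (M (nat_lit 398) (B (K (nat_lit 179013548875274521347162258040668140405137942851597647242837354233144832662464635376022596874566596351412569318337894756843848539253788364549782503424) (nat_lit 28501485178915904328808422503396128077794773480598581637530888742881284230444834231450908116699043155039567098002624343824099114813909977252884597592966911439427914758497251360686530915740272919779824497985836124167730932744192) (nat_lit 28501485178915904328808422503396128077794773480598581637530888742881284230444834231450908116699043155039567098002624343824099114813909977252884597592966911439427914758497251360686530915740272919779824497985836124167730932744192) c10_s431) (L (nat_lit 366) ln13_15_6 ln13_15_6_ok))) (B (M (nat_lit 463) (B (K (nat_lit 179013548899091572664880704629542820472490348285883787556838639463866277061008517690714755186984062795696963535975549726517944199920874397723040677888)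 (nat_lit 37739624261890090464272723827526876821148685565373815621288236014828564519478912846153522758779820488914250081348043793322958827154383983735679246628562094185731953000448) (nat_lit 37739624261890090464272723827526876821148685565373815621288236014828564519478912846153522758779820488914250081348043793322958827154383983735679246628562094185731953000448) c10_s446) (B (M (nat_lit 400) c10_d3) (M (nat_lit 492) (B (L (nat_lit 464) ln12_15_2 ln12_15_2_ok) (L (nat_lit 524) ln13_12_5 ln13_12_5_ok)))))) (B (M (nat_lit 496) c10_d6) (M (nat_lit 524) (B (M (nat_lit 525) (B (L (nat_lit 496) ln16_15_1 ln16_15_1_ok) (L (nat_lit 556) ln13_13_5 ln13_13_5_ok))) (L (nat_lit 492) ln13_12_5 ln13_12_5_ok))))))) (L (nat_lit 526) ln13_12_4 ln13_12_4_ok))) (B (M (nat_lit 526) (B (L (nat_lit 493) ln13_12_4 ln13_12_4_ok) (M (nat_lit 558) (B (L (nat_lit 462) ln14_17_7 ln14_17_7_ok) (M (nat_lit 590) (B (M (nat_lit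 495) (B (L (nat_lit 463) ln14_18_6 ln14_18_6_ok) (M (nat_lit 623) (B (L (nat_lit 591) ln14_15_4 ln14_15_4_ok) (M (nat_lit 622) (B (L (nat_lit 655) ln14_16_4 ln14_16_4_ok) (L (nat_lit 527) ln14_19_6 ln14_19_6_ok))))))) (B (M (nat_lit 622) (B (M (nat_lit 621) (B (L (nat_lit 653) ln14_16_5 ln14_16_5_ok) (L (nat_lit 589) ln14_15_5 ln14_15_5_ok))) (M (nat_lit 495) (B (L (nat_lit 527) ln14_19_6 ln14_19_6_ok) (L (nat_lit 463) ln14_18_6 ln14_18_6_ok))))) (M (nat_lit 591) (B (L (nat_lit 623) ln14_15_4 ln14_15_4_ok) (M (nat_lit 589) (B (L (nat_lit 621) ln14_15_5 ln14_15_5_ok) (M (nat_lit 592) (B (M (nat_lit 557) (B (L (nat_lit 593) ln17_18_3_c10 ln17_18_3_c10_ok) (L (nat_lit 556) ln16_18_3_c10 ln16_18_3_c10_ok))) (B (M (nat_lit 588) (B (M (nat_lit 560) (B (L (nat_lit 561) ln13_18_2_c10 ln13_18_2_c10_ok) (L (nat_lit 559) ln12_18_2_c10 ln12_18_2_c10_ok))) (M (nat_lit 556) (B (L (nat_lit 557) ln16_18_3_c10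 ln16_18_3_c10_ok) (L (nat_lit 555) ln15_18_3_c10 ln15_18_3_c10_ok))))) (M (nat_lit 593) (B (M (nat_lit 625) (B (L (nat_lit 626) ln14_18_0_c10 ln14_18_0_c10_ok) (L (nat_lit 624) ln13_18_0_c10 ln13_18_0_c10_ok))) (M (nat_lit 561) (B (L (nat_lit 562) ln14_18_2_c10 ln14_18_2_c10_ok) (L (nat_lit 560) ln13_18_2_c10 ln13_18_2_c10_ok))))))))))))))))))) (M (nat_lit 365) (B (L (nat_lit 462) ln13_11_4 ln13_11_4_ok) (M (nat_lit 333) (B (M (nat_lit 332) (B (L (nat_lit 364) ln13_14_7 ln13_14_7_ok) (L (nat_lit 300) ln13_13_7 ln13_13_7_ok))) (M (nat_lit 334) (B (L (nat_lit 366) ln13_14_6 ln13_14_6_ok) (L (nat_lit 302) ln13_13_6 ln13_13_6_ok)))))))))) (B (K (nat_lit 5954262830815946494763249298768603811203561774969104571805089223376689777636098861358550851719243481454542035207245364041705138952691777536) (nat_lit 633165841186404667301192165495663090666088690274556714232141249950391677378484011697708608349543686851630085895771634875639662341023623278029455567404565553837308968486580518912)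 (nat_lit 633165841186404667301192165495663090666088690274556714232141249950391677378484011697708608349543686851630085895771634875639662341023623278029455567404565553837308968486580518912) c10_s447) c10_d8))) c10_d45))
theorem c10_win : ∃ n, ∀ B : Set Cell, Avoids B c10_U → MakerForces n (cellsOf (1 <<< 429)) B :=
  forces_of_chk (1 <<< 429) (nat_lit 461) c10_kids c10_U c10_U (by decide +kernel)

end Vale.Agent.Lib.P062.Data
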