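import Vale.Agent.Lib.P062.Data.o1_lines
import Vale.Agent.Lib.P062.Data.o1_0_0
import Vale.Agent.Lib.P062.Data.o1_0_1

namespace Vale.Agent.Lib.P062.Data

theorem o1_s236 : Sem (nat_lit 2599377838238263930854763297646444257298882487110725627700840671645133019454212633491381267922848737032012371922536131570759106560) (nat_lit 43322964005941929751083380017934910312703055640265110860215819108117833593234244480873399035831279182935775570790832889208504320) (nat_lit 43322964005941929751083380017934910312703055640265110860215819108117833593234244480873399035831279182935775570790832889208504320) := sem_of_chk (M (nat_lit 265) (B (M (nat_lit 233) (B (lo19_7_4 (nat_lit 362)) (M (nat_lit 201) (B (lo19_6_4 (nat_lit 298)) (M (nat_lit 202) (B (lo19_9_6 (nat_lit 170)) (lo19_10_6 (nat_lit 234)))))))) (B (M (nat_lit 233) (B (lo19_7_4 (nat_lit 362)) (M (nat_lit 201) (B (lo19_6_4 (nat_lit 298)) (M (nat_lit 200) (B (lo19_9_7 (nat_lit 168)) (lo19_10_7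 (nat_lit 232)))))))) (B (K _ _ _ o1_s217) (B (K _ _ _ o1_s218) (M (nat_lit 361) (B (M (nat_lit 266) (B (lo19_11_6 (nat_lit 234)) (M (nat_lit 393) (B (lo19_12_6 (nat_lit 298)) (M (nat_lit 392) (B (lo19_8_5 (nat_lit 360)) (lo19_9_5 (nat_lit 424)))))))) (B (M (nat_lit 393) (B (M (nat_lit 264) (B (lo19_11_7 (nat_lit 232)) (lo19_12_7 (nat_lit 296)))) (M (nat_lit 392) (B (lo19_8_5 (nat_lit 360)) (lo19_9_5 (nat_lit 424)))))) (B (M (nat_lit 266) (B (lo19_11_6 (nat_lit 234)) (M (nat_lit 264) (B (lo19_11_7 (nat_lit 232)) (M (nat_lit 359) (B (M (nat_lit 360) (B (lo16_11_2 (nat_lit 358)) (lo19_8_5 (nat_lit 392)))) (M (nat_lit 296) (B (lo111_8_1 (nat_lit 267)) (lo17_12_6 (nat_lit 391)))))))))) (M (nat_lit 393) (B (M (nat_lit 266) (B (lo19_11_6 (nat_lit 234)) (lo19_12_6 (nat_lit 298)))) (M (nat_lit 264) (B (lo19_11_7 (nat_lit 232)) (lo19_12_7 (nat_lit 296))))))))))))))) _ _ _ (by decide +kernel)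
theorem o1_s348 : Sem (nat_lit 2599377838238263930859460382811991923754661448304304301755592036742949659195627215434445685973077953918939769919305668976822976512) (nat_lit 5043456808404020127338336288091072399027308428971094011363045508010082819660697267577675082671508695115502471274823680) (nat_lit 5043456808404020127338336288091072399027308428971094011363045508010082819660697267577675082671508695115502471274823680) := sem_of_chk (M (nat_lit 298) (B (M (nat_lit 266) (B (lo110_7_5 (nat_lit 234)) (M (nat_lit 265) (B (M (nat_lit 233) (B (lo19_7_4 (nat_lit 362)) (lo19_6_4 (nat_lit 201)))) (M (nat_lit 264) (B (lo19_11_7 (nat_lit 232)) (M (nat_lit 299) (B (lo112_9_3 (nat_lit 300)) (lo17_8_0 (nat_lit 263)))))))))) (B (K _ _ _ o1_s341) (M (nat_lit 296) (B (lo110_9_1 (nat_lit 326)) (M (nat_lit 266) (B (lo17_9_2 (nat_lit 267)) (M (nat_lit 234) (B (lo110_6_5 (nat_lit 202)) (lo110_7_5 (nat_lit 361))))))))))) _ _ _ (by decide +kernel)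
theorem o1_s1140 : Sem (nat_lit 2599377838238263930854763297646444257298882487110725627700840671645133019454212633491381267922848737032012371922536131570759106560) (nat_lit 20173827186645228853329867898793428800165381660144183084090018145349952660704193109181600824810044863164842125935247360) (nat_lit 20173827186645228853329867898793428800165381660144183084090018145349952660704193109181600824810044863164842125935247360) := sem_of_chk (M (nat_lit 265) (B (K _ _ _ o1_s217) (B (M (nat_lit 264) (B (M (nat_lit 232) (B (lo19_11_7 (nat_lit 361)) (M (nat_lit 233) (B (lo19_7_4 (nat_lit 362)) (lo19_10_7 (nat_lit 200)))))) (B (M (nat_lit 232) (B (lo19_11_7 (nat_lit 361)) (M (nat_lit 200) (B (lo19_10_7 (nat_lit 233)) (lo18_6_4 (nat_lit 296)))))) (B (M (nat_lit 232) (B (lo19_11_7 (nat_lit 361)) (M (nat_lit 296) (B (lo16_9_0 (nat_lit 294)) (lo18_6_4 (nat_lit 200)))))) (M (nat_lit 294) (B (lo16_9_0 (nat_lit 296)) (M (nat_lit 263) (B (lo110_8_1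 (nat_lit 266)) (M (nat_lit 293) (B (lo19_8_1 (nat_lit 262)) (lo14_9_2 (nat_lit 292)))))))))))) (B (K _ _ _ o1_s738) (B (M (nat_lit 264) (B (M (nat_lit 232) (B (lo19_11_7 (nat_lit 361)) (M (nat_lit 296) (B (lo16_9_0 (nat_lit 294)) (lo18_6_4 (nat_lit 200)))))) (B (M (nat_lit 294) (B (lo16_9_0 (nat_lit 296)) (M (nat_lit 263) (B (lo110_8_1 (nat_lit 266)) (M (nat_lit 293) (B (lo19_8_1 (nat_lit 262)) (lo14_9_2 (nat_lit 292)))))))) (B (K _ _ _ o1_s1116) (M (nat_lit 232) (B (lo19_11_7 (nat_lit 361)) (M (nat_lit 200) (B (lo18_5_4 (nat_lit 168)) (lo18_6_4 (nat_lit 296)))))))))) (B (M (nat_lit 233) (B (lo19_7_4 (nat_lit 362)) (M (nat_lit 296) (B (lo16_9_0 (nat_lit 294)) (M (nat_lit 361) (B (M (nat_lit 234) (B (lo19_10_6 (nat_lit 202)) (lo19_11_6 (nat_lit 266)))) (M (nat_lit 264) (B (lo19_11_7 (nat_lit 232)) (lo19_12_7 (nat_lit 393)))))))))) (M (nat_lit 233) (B (lo19_7_4 (nat_lit 362)) (M (nat_lit 201) (B (M (nat_lit 202) (B (lo19_9_6 (nat_lit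 170)) (lo19_10_6 (nat_lit 234)))) (M (nat_lit 169) (B (M (nat_lit 168) (B (lo19_8_7 (nat_lit 136)) (lo19_9_7 (nat_lit 200)))) (M (nat_lit 296) (B (lo16_9_0 (nat_lit 294)) (lo19_5_5 (nat_lit 264)))))))))))))))) _ _ _ (by decide +kernel)
theorem o1_s1990 : Sem (nat_lit 2599377838238263930854763297646444257299073459233506985771428338428421398656811208653287449446345875199139345169388944386963800064) (nat_lit 86645927961449291548470672107801233638574299992358734186171240133239764108253584803100637306514023061084507727528254537054814208) (nat_lit 86645927961449291548470672107801233638574299992358734186171240133239764108253584803100637306514023061084507727528254537054814208) := sem_of_chk (M (nat_lit 266) (B (M (nat_lit 361) (B (lo110_7_5 (nat_lit 234)) (M (nat_lit 393) (B (lo19_12_6 (nat_lit 297)) (lo19_13_6 (nat_lit 425)))))) (B (M (nat_lit 265) (B (M (nat_lit 233) (B (lo110_11_7 (nat_lit 362)) (M (nat_lit 201) (B (lo19_5_4 (nat_lit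 169)) (lo19_6_4 (nat_lit 297)))))) (B (M (nat_lit 264) (B (M (nat_lit 299) (B (lo17_8_0 (nat_lit 263)) (M (nat_lit 300) (B (lo113_9_3 (nat_lit 301)) (lo18_8_0 (nat_lit 267)))))) (B (M (nat_lit 299) (B (lo17_8_0 (nat_lit 263)) (M (nat_lit 300) (B (lo18_8_0 (nat_lit 267)) (lo112_9_3 (nat_lit 297)))))) (B (M (nat_lit 267) (B (M (nat_lit 299) (B (lo17_8_0 (nat_lit 263)) (M (nat_lit 235) (B (lo18_8_2 (nat_lit 236)) (lo111_6_5 (nat_lit 203)))))) (M (nat_lit 297) (B (M (nat_lit 296) (B (lo112_8_1 (nat_lit 268)) (lo17_9_2 (nat_lit 295)))) (M (nat_lit 361) (B (lo19_12_6 (nat_lit 393)) (lo19_11_7 (nat_lit 232)))))))) (B (M (nat_lit 299) (B (lo17_8_0 (nat_lit 263)) (M (nat_lit 300) (B (lo113_9_3 (nat_lit 301)) (lo112_9_3 (nat_lit 297)))))) (B (M (nat_lit 232) (B (M (nat_lit 231) (B (lo111_8_3 (nat_lit 267)) (M (nat_lit 230) (B (lo110_8_3 (nat_lit 263)) (lo15_7_0 (nat_lit 229)))))) (M (nat_lit 297) (B (lo19_11_7 (nat_lit 361)) (M (nat_lit 200)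 (B (lo19_10_7 (nat_lit 233)) (lo18_6_4 (nat_lit 296)))))))) (M (nat_lit 267) (B (M (nat_lit 299) (B (lo18_8_0 (nat_lit 300)) (M (nat_lit 235) (B (lo18_8_2 (nat_lit 236)) (lo111_6_5 (nat_lit 203)))))) (M (nat_lit 297) (B (M (nat_lit 296) (B (lo112_8_1 (nat_lit 268)) (lo17_9_2 (nat_lit 295)))) (M (nat_lit 361) (B (lo19_12_6 (nat_lit 393)) (lo19_11_7 (nat_lit 232)))))))))))))) (B (K _ _ _ o1_s1954) (K _ _ _ o1_s1979))))) (B (M (nat_lit 361) (B (lo110_7_5 (nat_lit 234)) (M (nat_lit 393) (B (lo110_8_5 (nat_lit 362)) (lo19_13_6 (nat_lit 425)))))) (K _ _ _ o1_s1989))))) _ _ _ (by decide +kernel)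
theorem o1_s4296 : Sem (nat_lit 2599377838238263930854763297649451727045140841635435554812147956383679662084026508654956399967500525460699891738880440828824649728) (nat_lit 20173827190168042729131055792116380218685221960973620507329343621079215446436101407404748741352283507669965705668722688) (nat_lit 20173827190168042729131055792116380218685221960973620507329343621079215446436101407404748741352283507669965705668722688) := sem_of_chk (M (nat_lit 329) (B (M (nat_lit 296) (B (lo112_10_3 (nat_lit 297)) (M (nat_lit 328) (B (lo111_10_3 (nat_lit 295)) (M (nat_lit 360) (B (lo111_10_1 (nat_lit 359)) (lo112_10_1 (nat_lit 361)))))))) (B (M (nat_lit 328) (B (M (nat_lit 296) (B (lo111_10_3 (nat_lit 295)) (lo112_10_3 (nat_lit 297)))) (M (nat_lit 300) (B (lo18_10_2 (nat_lit 299)) (lo19_10_2 (nat_lit 301)))))) (B (K _ _ _ o1_s3824) (M (nat_lit 328) (B (M (nat_lit 360) (B (lo111_10_1 (nat_lit 359)) (lo112_10_1 (nat_lit 361)))) (M (nat_lit 300)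 (B (lo18_10_2 (nat_lit 299)) (lo19_10_2 (nat_lit 301)))))))))) _ _ _ (by decide +kernel)
theorem o1_s7957 : Sem (nat_lit 68647976601306097155773270822842921658312677566506350537003805590577601141967356272135718061665708813728894222961935715167617311462003228033571588042425106432) (nat_lit 107727583501992373733127639883723027157780921363072646792219544491939322716865998897396462552659254033583912323036196225044893998219880731137337522678441324066528067292972418009278104677725143949698512935377543626752) (nat_lit 107727583501992373733127639883723027157780921363072646792219544491939322716865998897396462552659254033583912323036196225044893998219880731137337522678441324066528067292972418009278104677725143949698512935377543626752) := sem_of_chk (M (nat_lit 521) (B (M (nat_lit 489) (B (M (nat_lit 520) (B (M (nat_lit 585) (B (M (nat_lit 584) (B (M (nat_lit 552) (B (lo18_19_6 (nat_lit 616)) (M (nat_lit 488) (B (lo18_15_4 (nat_lit 617)) (M (nat_lit 487) (B (lo18_18_7 (nat_lit 455)) (lo16_15_0 (nat_lit 486)))))))) (B (M (nat_lit 586) (B (M (nat_lit 618) (B (lo110_19_7 (nat_lit 554)) (M (nat_lit 619) (B (lo17_18_0 (nat_lit 583)) (M (nat_lit 620) (B (lo112_19_3 (nat_lit 617)) (lo18_18_0 (nat_lit 587)))))))) (B (M (nat_lit 554) (B (lo110_19_7 (nat_lit 618)) (M (nat_lit 555) (B (lo17_18_2 (nat_lit 583)) (M (nat_lit 556) (B (lo18_18_2 (nat_lit 587)) (lo113_17_1 (nat_lit 557)))))))) (B (M (nat_lit 552) (B (M (nat_lit 551) (B (lo111_18_3 (nat_lit 587)) (M (nat_lit 550) (B (lo110_18_3 (nat_lit 583)) (lo15_17_0 (nat_lit 549)))))) (M (nat_lit 488) (B (lo18_15_4 (nat_lit 617)) (M (nat_lit 487) (B (lo18_18_7 (nat_lit 455)) (lo16_15_0 (nat_lit 486)))))))) (M (nat_lit 554) (B (lo110_19_7 (nat_lit 618)) (M (nat_lit 490) (B (lo110_15_5 (nat_lit 617)) (M (nat_lit 491) (B (lo110_18_6 (nat_lit 459)) (lo112_15_1 (nat_lit 492)))))))))))) (B (K _ _ _ o1_s5256) (M (nat_lit 586) (B (M (nat_lit 618) (B (lo110_19_7 (nat_lit 554)) (M (nat_lit 619) (B (lo17_18_0 (nat_lit 583)) (M (nat_lit 620) (B (lo112_19_3 (nat_lit 617)) (lo18_18_0 (nat_lit 587)))))))) (B (M (nat_lit 554) (B (lo110_19_7 (nat_lit 618)) (M (nat_lit 555) (B (lo17_18_2 (nat_lit 583)) (M (nat_lit 556) (B (lo18_18_2 (nat_lit 587)) (lo113_17_1 (nat_lit 557)))))))) (B (M (nat_lit 554) (B (M (nat_lit 555) (B (lo17_18_2 (nat_lit 583)) (M (nat_lit 556) (B (lo18_18_2 (nat_lit 587)) (lo113_17_1 (nat_lit 557)))))) (M (nat_lit 490) (B (lo110_15_5 (nat_lit 617)) (M (nat_lit 491) (B (lo110_18_6 (nat_lit 459)) (lo112_15_1 (nat_lit 492)))))))) (B (M (nat_lit 554) (B (lo110_19_7 (nat_lit 618)) (M (nat_lit 490) (B (lo110_15_5 (nat_lit 617)) (M (nat_lit 491) (B (lo110_18_6 (nat_lit 459)) (lo112_15_1 (nat_lit 492)))))))) (M (nat_lit 583) (B (M (nat_lit 582) (B (M (nat_lit 618) (B (lo16_18_0 (nat_lit 617)) (lo17_18_0 (nat_lit 619)))) (M (nat_lit 550) (B (lo19_18_3 (nat_lit 549)) (lo110_18_3 (nat_lit 551)))))) (B (M (nat_lit 587) (B (M (nat_lit 615) (B (lo110_18_1 (nat_lit 614)) (lo111_18_1 (nat_lit 616)))) (M (nat_lit 619) (B (lo17_18_0 (nat_lit 618)) (lo18_18_0 (nat_lit 620)))))) (M (nat_lit 582) (B (M (nat_lit 614) (B (lo19_18_1 (nat_lit 613)) (lo110_18_1 (nat_lit 615)))) (M (nat_lit 550) (B (lo19_18_3 (nat_lit 549)) (lo110_18_3 (nat_lit 551)))))))))))))))))) (B (M (nat_lit 584) (B (M (nat_lit 616) (B (lo19_15_5 (nat_lit 553)) (lo18_19_6 (nat_lit 552)))) (B (M (nat_lit 586) (B (M (nat_lit 618) (B (lo19_15_4 (nat_lit 553)) (lo110_19_7 (nat_lit 554)))) (B (M (nat_lit 583) (B (M (nat_lit 582) (B (M (nat_lit 614) (B (lo19_18_1 (nat_lit 613)) (lo110_18_1 (nat_lit 615)))) (M (nat_lit 554) (B (lo16_18_2 (nat_lit 553)) (lo17_18_2 (nat_lit 555)))))) (B (M (nat_lit 587) (B (M (nat_lit 551) (B (lo110_18_3 (nat_lit 550)) (lo111_18_3 (nat_lit 552)))) (M (nat_lit 555) (B (lo17_18_2 (nat_lit 554)) (lo18_18_2 (nat_lit 556)))))) (M (nat_lit 582) (B (M (nat_lit 614) (B (lo19_18_1 (nat_lit 613)) (lo110_18_1 (nat_lit 615)))) (M (nat_lit 550) (B (lo19_18_3 (nat_lit 549)) (lo110_18_3 (nat_lit 551))))))))) (B (M (nat_lit 554) (B (lo110_19_7 (nat_lit 618)) (M (nat_lit 555) (B (lo17_18_2 (nat_lit 583)) (M (nat_lit 556) (B (lo18_18_2 (nat_lit 587)) (lo113_17_1 (nat_lit 557)))))))) (M (nat_lit 552) (B (M (nat_lit 553) (B (lo19_15_4 (nat_lit 618)) (M (nat_lit 551) (B (lo111_18_3 (nat_lit 587)) (lo16_17_0 (nat_lit 550)))))) (B (M (nat_lit 551) (B (lo111_18_3 (nat_lit 587)) (M (nat_lit 550) (B (lo110_18_3 (nat_lit 583)) (lo15_17_0 (nat_lit 549)))))) (M (nat_lit 488) (B (M (nat_lit 553) (B (lo19_15_4 (nat_lit 618)) (lo18_14_4 (nat_lit 456)))) (M (nat_lit 487) (B (lo18_18_7 (nat_lit 455)) (lo16_15_0 (nat_lit 486))))))))))))) (B (M (nat_lit 586) (B (M (nat_lit 553) (B (lo19_15_5 (nat_lit 616)) (lo19_15_4 (nat_lit 618)))) (B (M (nat_lit 618) (B (lo19_15_4 (nat_lit 553)) (lo110_19_7 (nat_lit 554)))) (B (M (nat_lit 616) (B (lo19_15_5 (nat_lit 553)) (M (nat_lit 615) (B (lo111_18_1 (nat_lit 587)) (M (nat_lit 614) (B (lo15_19_2 (nat_lit 613)) (lo110_18_1 (nat_lit 583)))))))) (M (nat_lit 554) (B (lo110_19_7 (nat_lit 618)) (M (nat_lit 555) (B (lo17_18_2 (nat_lit 583)) (M (nat_lit 556) (B (lo18_18_2 (nat_lit 587)) (lo113_17_1 (nat_lit 557)))))))))))) (K _ _ _ o1_s5256))))) (B (M (nat_lit 553) (B (M (nat_lit 584) (B (lo19_15_5 (nat_lit 616)) (M (nat_lit 552) (B (M (nat_lit 488) (B (lo18_14_4 (nat_lit 456)) (M (nat_lit 487) (B (lo16_15_0 (nat_lit 486)) (lo18_18_7 (nat_lit 455)))))) (M (nat_lit 551) (B (lo16_17_2 (nat_lit 550)) (M (nat_lit 586) (B (lo111_18_3 (nat_lit 587)) (lo19_15_4 (nat_lit 618)))))))))) (B (M (nat_lit 617) (B (M (nat_lit 618) (B (lo19_15_4 (nat_lit 586)) (lo19_16_4 (nat_lit 650)))) (M (nat_lit 648) (B (lo19_16_5 (nat_lit 616)) (M (nat_lit 649) (B (lo19_20_7 (nat_lit 552)) (lo19_17_5 (nat_lit 680)))))))) (M (nat_lit 488) (B (lo19_18_7 (nat_lit 456)) (lo19_19_7 (nat_lit 617))))))) (B (M (nat_lit 553) (B (M (nat_lit 488) (B (lo19_18_7 (nat_lit 456)) (M (nat_lit 584) (B (lo19_15_5 (nat_lit 616)) (M (nat_lit 552) (B (M (nat_lit 487) (B (lo18_18_7 (nat_lit 455)) (M (nat_lit 486) (B (lo15_15_0 (nat_lit 485)) (lo16_15_0 (nat_lit 522)))))) (M (nat_lit 583) (B (lo18_15_5 (nat_lit 615)) (M (nat_lit 554) (B (lo16_18_2 (nat_lit 582)) (lo111_17_1 (nat_lit 555)))))))))))) (B (M (nat_lit 617) (B (M (nat_lit 649) (B (lo19_20_6 (nat_lit 554)) (lo19_20_7 (nat_lit 552)))) (M (nat_lit 616) (B (lo19_16_5 (nat_lit 648)) (lo19_15_5 (nat_lit 584)))))) (M (nat_lit 488) (B (lo19_18_7 (nat_lit 456)) (lo19_19_7 (nat_lit 617))))))) (M (nat_lit 490) (B (M (nat_lit 397) (B (M (nat_lit 492) (B (lo113_12_5 (nat_lit 493)) (lo112_15_1 (nat_lit 491)))) (lo110_13_2 (nat_lit 398)))) (M (nat_lit 586) (B (M (nat_lit 553) (B (lo19_19_6 (nat_lit 617)) (lo19_15_4 (nat_lit 618)))) (B (M (nat_lit 554) (B (lo110_15_5 (nat_lit 617)) (lo110_19_7 (nat_lit 618)))) (B (M (nat_lit 618) (B (lo19_15_4 (nat_lit 553)) (lo110_19_7 (nat_lit 554)))) (M (nat_lit 617) (B (lo19_19_6 (nat_lit 553)) (lo110_15_5 (nat_lit 554))))))))))))))) (B (M (nat_lit 519) (B (M (nat_lit 585) (B (M (nat_lit 554) (B (lo17_16_0 (nat_lit 555)) (M (nat_lit 490) (B (lo17_16_2 (nat_lit 491)) (M (nat_lit 586) (B (lo110_15_5 (nat_lit 617)) (lo110_19_7 (nat_lit 618)))))))) (B (M (nat_lit 554) (B (lo17_16_0 (nat_lit 555)) (M (nat_lit 617) (B (M (nat_lit 586) (B (lo110_15_5 (nat_lit 490)) (lo110_19_7 (nat_lit 618)))) (M (nat_lit 553) (B (lo19_20_6 (nat_lit 649)) (lo19_19_7 (nat_lit 488)))))))) (B (M (nat_lit 490) (B (lo17_16_2 (nat_lit 491)) (M (nat_lit 586) (B (M (nat_lit 617) (B (lo110_15_5 (nat_lit 554)) (lo19_19_6 (nat_lit 553)))) (B (M (nat_lit 553) (B (lo19_19_6 (nat_lit 617)) (lo19_15_4 (nat_lit 618)))) (B (M (nat_lit 554) (B (lo110_15_5 (nat_lit 617)) (lo110_19_7 (nat_lit 618)))) (M (nat_lit 618) (B (lo110_19_7 (nat_lit 554)) (lo19_15_4 (nat_lit 553)))))))))) (B (M (nat_lit 553) (B (M (nat_lit 488) (B (lo19_18_7 (nat_lit 456)) (lo19_19_7 (nat_lit 617)))) (M (nat_lit 586) (B (lo19_15_4 (nat_lit 618)) (M (nat_lit 587) (B (M (nat_lit 588) (B (lo112_18_3 (nat_lit 552)) (M (nat_lit 554) (B (lo113_18_3 (nat_lit 589)) (lo17_16_0 (nat_lit 555)))))) (B (M (nat_lit 555) (B (lo17_16_0 (nat_lit 554)) (M (nat_lit 584) (B (lo18_18_2 (nat_lit 556)) (lo19_15_5 (nat_lit 616)))))) (M (nat_lit 620) (B (M (nat_lit 588) (B (lo19_18_0 (nat_lit 621)) (lo112_18_3 (nat_lit 552)))) (M (nat_lit 584) (B (lo18_18_0 (nat_lit 619)) (lo19_15_5 (nat_lit 616))))))))))))) (B (M (nat_lit 488) (B (M (nat_lit 553) (B (lo19_18_7 (nat_lit 456)) (lo19_19_7 (nat_lit 617)))) (M (nat_lit 487) (B (lo16_15_0 (nat_lit 486)) (M (nat_lit 455) (B (M (nat_lit 490) (B (lo17_16_2 (nat_lit 491)) (lo110_15_3 (nat_lit 454)))) (M (nat_lit 423) (B (lo17_12_4 (nat_lit 391)) (lo17_13_4 (nat_lit 552)))))))))) (M (nat_lit 586) (B (M (nat_lit 554) (B (lo17_16_0 (nat_lit 555)) (lo110_19_7 (nat_lit 618)))) (B (M (nat_lit 618) (B (lo110_19_7 (nat_lit 554)) (lo19_15_4 (nat_lit 553)))) (B (M (nat_lit 488) (B (M (nat_lit 553) (B (lo19_15_4 (nat_lit 618)) (lo19_18_7 (nat_lit 456)))) (M (nat_lit 487) (B (lo16_15_0 (nat_lit 486)) (M (nat_lit 455) (B (M (nat_lit 490) (B (lo17_16_2 (nat_lit 491)) (lo110_15_3 (nat_lit 454)))) (M (nat_lit 423) (B (lo17_12_4 (nat_lit 391)) (lo17_13_4 (nat_lit 552)))))))))) (M (nat_lit 584) (B (M (nat_lit 616) (B (lo19_15_5 (nat_lit 553)) (lo18_19_6 (nat_lit 552)))) (M (nat_lit 587) (B (M (nat_lit 555) (B (lo18_18_2 (nat_lit 556)) (lo17_16_0 (nat_lit 554)))) (B (M (nat_lit 619) (B (lo18_18_0 (nat_lit 620)) (M (nat_lit 490) (B (lo17_16_2 (nat_lit 491)) (lo110_15_4 (nat_lit 554)))))) (M (nat_lit 588) (B (M (nat_lit 556) (B (lo19_18_2 (nat_lit 557)) (lo18_18_2 (nat_lit 555)))) (M (nat_lit 620) (B (lo19_18_0 (nat_lit 621)) (lo18_18_0 (nat_lit 619))))))))))))))))))))) (B (M (nat_lit 518) (B (M (nat_lit 517) (B (lo15_16_2 (nat_lit 488)) (M (nat_lit 485) (B (lo18_16_3 (nat_lit 484)) (lo19_16_3 (nat_lit 486)))))) (B (M (nat_lit 486) (B (lo19_16_3 (nat_lit 485)) (M (nat_lit 487) (B (lo110_16_3 (nat_lit 522)) (M (nat_lit 550) (B (lo19_16_1 (nat_lit 549)) (M (nat_lit 582) (B (lo16_19_6 (nat_lit 614)) (lo16_18_6 (nat_lit 455)))))))))) (M (nat_lit 517) (B (lo15_16_2 (nat_lit 488)) (M (nat_lit 549) (B (lo18_16_1 (nat_lit 548)) (lo19_16_1 (nat_lit 550))))))))) (M (nat_lit 490) (B (lo17_16_2 (nat_lit 491)) (lo16_16_2 (nat_lit 518))))))) (B (M (nat_lit 488) (B (M (nat_lit 456) (B (M (nat_lit 424) (B (lo18_13_4 (nat_lit 553)) (lo18_12_4 (nat_lit 392)))) (K _ _ _ o1_s5525))) (B (M (nat_lit 519) (B (M (nat_lit 518) (B (lo15_16_2 (nat_lit 517)) (lo16_16_2 (nat_lit 490)))) (B (M (nat_lit 490) (B (lo16_16_2 (nat_lit 518)) (lo111_15_1 (nat_lit 491)))) (B (M (nat_lit 487) (B (M (nat_lit 486) (B (lo110_16_3 (nat_lit 522)) (lo15_15_0 (nat_lit 485)))) (B (M (nat_lit 490) (B (lo111_15_1 (nat_lit 491)) (M (nat_lit 486) (B (lo15_15_0 (nat_lit 485)) (M (nat_lit 454) (B (lo19_15_3 (nat_lit 453)) (lo110_15_3 (nat_lit 455)))))))) (B (M (nat_lit 490) (B (lo111_15_1 (nat_lit 491)) (M (nat_lit 486) (B (lo110_16_3 (nat_lit 522)) (M (nat_lit 454) (B (lo19_15_3 (nat_lit 453)) (lo110_15_3 (nat_lit 455)))))))) (M (nat_lit 424) (B (M (nat_lit 456) (B (lo18_13_5 (nat_lit 551)) (lo18_13_4 (nat_lit 553)))) (B (M (nat_lit 456) (B (lo18_13_4 (nat_lit 553)) (lo18_12_5 (nat_lit 392)))) (B (M (nat_lit 456) (B (lo18_13_5 (nat_lit 551)) (lo18_12_5 (nat_lit 392)))) (M (nat_lit 455) (B (M (nat_lit 423) (B (lo17_16_6 (nat_lit 392)) (lo17_12_4 (nat_lit 391)))) (M (nat_lit 490) (B (lo111_15_1 (nat_lit 491)) (lo110_15_3 (nat_lit 454)))))))))))))) (M (nat_lit 553) (B (M (nat_lit 518) (B (lo16_16_0 (nat_lit 554)) (lo15_16_2 (nat_lit 517)))) (M (nat_lit 456) (B (lo19_18_7 (nat_lit 585)) (lo18_13_4 (nat_lit 424)))))))))) (B (M (nat_lit 456) (B (M (nat_lit 424) (B (lo18_12_4 (nat_lit 392)) (M (nat_lit 519) (B (lo18_13_5 (nat_lit 551)) (M (nat_lit 518) (B (lo15_16_2 (nat_lit 517)) (lo16_16_2 (nat_lit 490)))))))) (B (K _ _ _ o1_s5525) (K _ _ _ o1_s5582)))) (B (M (nat_lit 456) (B (M (nat_lit 553) (B (lo19_18_7 (nat_lit 585)) (lo18_13_4 (nat_lit 424)))) (B (M (nat_lit 424) (B (lo18_13_4 (nat_lit 553)) (lo18_12_4 (nat_lit 392)))) (B (M (nat_lit 519) (B (M (nat_lit 424) (B (lo18_13_5 (nat_lit 551)) (lo18_12_4 (nat_lit 392)))) (M (nat_lit 490) (B (lo16_16_2 (nat_lit 518)) (lo111_15_1 (nat_lit 491)))))) (M (nat_lit 552) (B (M (nat_lit 455) (B (lo18_17_7 (nat_lit 423)) (M (nat_lit 584) (B (lo18_19_6 (nat_lit 616)) (lo18_18_7 (nat_lit 487)))))) (B (M (nat_lit 584) (B (M (nat_lit 583) (B (lo18_15_5 (nat_lit 615)) (lo18_14_5 (nat_lit 551)))) (M (nat_lit 455) (B (lo18_18_7 (nat_lit 487)) (lo18_17_7 (nat_lit 423)))))) (B (M (nat_lit 455) (B (lo18_17_7 (nat_lit 423)) (M (nat_lit 490) (B (lo111_15_3 (nat_lit 491)) (M (nat_lit 454) (B (lo110_15_3 (nat_lit 487)) (lo15_14_0 (nat_lit 453)))))))) (M (nat_lit 583) (B (lo18_14_5 (nat_lit 551)) (M (nat_lit 584) (B (lo18_15_5 (nat_lit 615)) (lo18_19_6 (nat_lit 616)))))))))))))) (B (M (nat_lit 456) (B (M (nat_lit 553) (B (lo19_18_7 (nat_lit 585)) (lo18_13_4 (nat_lit 424)))) (B (M (nat_lit 424) (B (lo18_13_4 (nat_lit 553)) (lo18_12_4 (nat_lit 392)))) (B (M (nat_lit 519) (B (M (nat_lit 424) (B (lo18_13_5 (nat_lit 551)) (lo18_12_4 (nat_lit 392)))) (M (nat_lit 490) (B (lo16_16_2 (nat_lit 518)) (lo111_15_1 (nat_lit 491)))))) (M (nat_lit 552) (B (M (nat_lit 585) (B (lo18_14_4 (nat_lit 553)) (M (nat_lit 584) (B (lo18_19_6 (nat_lit 616)) (lo18_15_4 (nat_lit 617)))))) (B (M (nat_lit 584) (B (M (nat_lit 583) (B (lo18_15_5 (nat_lit 615)) (lo18_14_5 (nat_lit 551)))) (M (nat_lit 585) (B (lo18_15_4 (nat_lit 617)) (lo18_14_4 (nat_lit 553)))))) (B (M (nat_lit 583) (B (lo18_14_5 (nat_lit 551)) (M (nat_lit 584) (B (lo18_15_5 (nat_lit 615)) (lo18_19_6 (nat_lit 616)))))) (K _ _ _ o1_s5636))))))))) (B (M (nat_lit 456) (B (M (nat_lit 553) (B (lo19_18_7 (nat_lit 585)) (lo18_13_4 (nat_lit 424)))) (B (M (nat_lit 424) (B (lo18_13_4 (nat_lit 553)) (lo18_12_4 (nat_lit 392)))) (B (K _ _ _ o1_s5582) (M (nat_lit 552) (B (M (nat_lit 583) (B (lo18_14_5 (nat_lit 551)) (M (nat_lit 584) (B (lo18_15_5 (nat_lit 615)) (lo18_19_6 (nat_lit 616)))))) (B (M (nat_lit 455) (B (lo18_17_7 (nat_lit 423)) (M (nat_lit 584) (B (lo18_19_6 (nat_lit 616)) (lo18_18_7 (nat_lit 487)))))) (B (M (nat_lit 584) (B (M (nat_lit 583) (B (lo18_15_5 (nat_lit 615)) (lo18_14_5 (nat_lit 551)))) (M (nat_lit 455) (B (lo18_18_7 (nat_lit 487)) (lo18_17_7 (nat_lit 423)))))) (K _ _ _ o1_s5636))))))))) (M (nat_lit 519) (B (M (nat_lit 518) (B (lo15_16_2 (nat_lit 517)) (lo16_16_2 (nat_lit 490)))) (B (M (nat_lit 490) (B (lo16_16_2 (nat_lit 518)) (lo111_15_1 (nat_lit 491)))) (B (M (nat_lit 487) (B (M (nat_lit 486) (B (lo110_16_3 (nat_lit 522)) (lo15_15_0 (nat_lit 485)))) (M (nat_lit 455) (B (M (nat_lit 552) (B (lo18_18_7 (nat_lit 584)) (lo17_13_4 (nat_lit 423)))) (M (nat_lit 490) (B (lo111_15_1 (nat_lit 491)) (lo110_15_3 (nat_lit 454)))))))) (M (nat_lit 518) (B (lo15_16_2 (nat_lit 517)) (M (nat_lit 554) (B (lo16_16_0 (nat_lit 553)) (lo17_16_0 (nat_lit 555))))))))))))))))) (B (M (nat_lit 519) (B (M (nat_lit 490) (B (lo16_16_2 (nat_lit 518)) (M (nat_lit 491) (B (lo111_15_1 (nat_lit 488)) (lo112_15_1 (nat_lit 492)))))) (B (M (nat_lit 487) (B (M (nat_lit 486) (B (lo110_16_3 (nat_lit 522)) (M (nat_lit 485) (B (lo14_15_0 (nat_lit 484)) (lo15_15_0 (nat_lit 488)))))) (B (M (nat_lit 455) (B (M (nat_lit 423) (B (lo17_13_4 (nat_lit 552)) (M (nat_lit 391) (B (lo17_12_4 (nat_lit 488)) (M (nat_lit 392) (B (lo17_16_6 (nat_lit 424)) (lo17_15_6 (nat_lit 360)))))))) (B (M (nat_lit 488) (B (M (nat_lit 490) (B (lo111_15_1 (nat_lit 491)) (lo110_15_3 (nat_lit 454)))) (M (nat_lit 424) (B (M (nat_lit 456) (B (lo18_13_5 (nat_lit 551)) (lo18_13_4 (nat_lit 553)))) (M (nat_lit 423) (B (lo17_16_6 (nat_lit 392)) (lo17_12_4 (nat_lit 391)))))))) (B (M (nat_lit 551) (B (M (nat_lit 550) (B (lo17_14_5 (nat_lit 582)) (M (nat_lit 549) (B (lo14_17_2 (nat_lit 548)) (lo15_17_2 (nat_lit 552)))))) (B (M (nat_lit 422) (B (lo17_17_7 (nat_lit 454)) (M (nat_lit 423) (B (lo17_13_4 (nat_lit 552)) (lo17_16_7 (nat_lit 390)))))) (M (nat_lit 583) (B (M (nat_lit 582) (B (lo17_15_5 (nat_lit 614)) (lo17_14_5 (nat_lit 550)))) (M (nat_lit 454) (B (lo17_18_7 (nat_lit 486)) (lo17_17_7 (nat_lit 422))))))))) (M (nat_lit 551) (B (M (nat_lit 550) (B (lo17_14_5 (nat_lit 582)) (M (nat_lit 549) (B (lo14_17_2 (nat_lit 548)) (lo15_17_2 (nat_lit 552)))))) (M (nat_lit 488) (B (M (nat_lit 583) (B (lo17_19_6 (nat_lit 615)) (lo17_18_6 (nat_lit 456)))) (M (nat_lit 454) (B (lo17_17_7 (nat_lit 422)) (lo110_15_3 (nat_lit 490)))))))))))) (B (M (nat_lit 488) (B (M (nat_lit 490) (B (lo111_15_1 (nat_lit 491)) (M (nat_lit 455) (B (lo110_15_3 (nat_lit 454)) (M (nat_lit 423) (B (lo17_13_4 (nat_lit 552)) (lo17_12_4 (nat_lit 391)))))))) (B (M (nat_lit 551) (B (M (nat_lit 456) (B (lo17_18_6 (nat_lit 583)) (lo18_13_5 (nat_lit 424)))) (M (nat_lit 455) (B (M (nat_lit 550) (B (lo17_14_5 (nat_lit 582)) (lo110_16_1 (nat_lit 522)))) (M (nat_lit 490) (B (lo111_15_1 (nat_lit 491)) (lo110_15_3 (nat_lit 454)))))))) (M (nat_lit 551) (B (M (nat_lit 456) (B (lo17_18_6 (nat_lit 583)) (lo18_13_5 (nat_lit 424)))) (M (nat_lit 550) (B (lo110_16_1 (nat_lit 522)) (M (nat_lit 549) (B (lo14_17_2 (nat_lit 548)) (lo15_17_2 (nat_lit 552))))))))))) (M (nat_lit 551) (B (lo110_16_1 (nat_lit 550)) (B (M (nat_lit 486) (B (lo110_16_3 (nat_lit 522)) (M (nat_lit 454) (B (lo17_18_7 (nat_lit 583)) (M (nat_lit 422) (B (lo17_17_7 (nat_lit 455)) (lo16_12_4 (nat_lit 390)))))))) (B (M (nat_lit 455) (B (M (nat_lit 550) (B (lo17_14_5 (nat_lit 582)) (M (nat_lit 549) (B (lo14_17_2 (nat_lit 548)) (lo15_17_2 (nat_lit 552)))))) (B (M (nat_lit 422) (B (lo17_17_7 (nat_lit 454)) (M (nat_lit 423) (B (lo17_13_4 (nat_lit 552)) (lo17_16_7 (nat_lit 390)))))) (M (nat_lit 583) (B (M (nat_lit 582) (B (lo17_15_5 (nat_lit 614)) (lo17_14_5 (nat_lit 550)))) (M (nat_lit 454) (B (lo17_18_7 (nat_lit 486)) (lo17_17_7 (nat_lit 422))))))))) (M (nat_lit 550) (B (lo110_16_1 (nat_lit 522)) (M (nat_lit 549) (B (lo14_17_2 (nat_lit 548)) (lo15_17_2 (nat_lit 552)))))))))))))) (B (M (nat_lit 490) (B (lo16_16_2 (nat_lit 518)) (M (nat_lit 491) (B (lo17_16_2 (nat_lit 522)) (lo112_15_1 (nat_lit 492)))))) (M (nat_lit 518) (B (M (nat_lit 517) (B (lo15_16_2 (nat_lit 488)) (M (nat_lit 485) (B (lo18_16_3 (nat_lit 484)) (lo19_16_3 (nat_lit 486)))))) (B (M (nat_lit 550) (B (lo19_16_1 (nat_lit 549)) (lo110_16_1 (nat_lit 551)))) (M (nat_lit 517) (B (lo15_16_2 (nat_lit 488)) (M (nat_lit 549) (B (lo18_16_1 (nat_lit 548)) (lo19_16_1 (nat_lit 550))))))))))))) (B (M (nat_lit 519) (B (M (nat_lit 518) (B (M (nat_lit 550) (B (lo19_16_1 (nat_lit 549)) (lo110_16_1 (nat_lit 551)))) (M (nat_lit 486) (B (lo19_16_3 (nat_lit 485)) (lo110_16_3 (nat_lit 487)))))) (B (M (nat_lit 486) (B (lo110_16_3 (nat_lit 487)) (M (nat_lit 518) (B (lo19_16_3 (nat_lit 485)) (M (nat_lit 554) (B (lo16_16_0 (nat_lit 553)) (lo17_16_0 (nat_lit 555)))))))) (B (M (nat_lit 518) (B (M (nat_lit 550) (B (lo19_16_1 (nat_lit 549)) (lo110_16_1 (nat_lit 551)))) (M (nat_lit 554) (B (lo16_16_0 (nat_lit 553)) (lo17_16_0 (nat_lit 555)))))) (M (nat_lit 487) (B (lo110_16_3 (nat_lit 486)) (M (nat_lit 551) (B (lo110_16_1 (nat_lit 550)) (M (nat_lit 583) (B (M (nat_lit 488) (B (lo17_19_6 (nat_lit 615)) (lo17_18_6 (nat_lit 456)))) (B (M (nat_lit 455) (B (M (nat_lit 456) (B (lo17_18_6 (nat_lit 488)) (lo17_17_6 (nat_lit 424)))) (B (M (nat_lit 423) (B (M (nat_lit 422) (B (lo17_17_7 (nat_lit 454)) (lo17_16_7 (nat_lit 390)))) (M (nat_lit 424) (B (lo17_17_6 (nat_lit 456)) (lo17_16_6 (nat_lit 392)))))) (B (M (nat_lit 423) (B (M (nat_lit 422) (B (lo17_17_7 (nat_lit 454)) (lo17_16_7 (nat_lit 390)))) (M (nat_lit 391) (B (lo17_12_4 (nat_lit 488)) (M (nat_lit 392) (B (lo17_16_6 (nat_lit 424)) (lo17_15_6 (nat_lit 360)))))))) (M (nat_lit 423) (B (M (nat_lit 422) (B (lo17_17_7 (nat_lit 454)) (lo17_16_7 (nat_lit 390)))) (M (nat_lit 488) (B (lo17_18_6 (nat_lit 456)) (lo17_12_4 (nat_lit 391)))))))))) (M (nat_lit 615) (B (M (nat_lit 614) (B (lo17_16_5 (nat_lit 646)) (lo17_15_5 (nat_lit 582)))) (M (nat_lit 616) (B (lo17_16_4 (nat_lit 648)) (lo17_15_4 (nat_lit 584))))))))))))))))) (B (M (nat_lit 519) (B (M (nat_lit 518) (B (M (nat_lit 486) (B (lo19_16_3 (nat_lit 485)) (lo110_16_3 (nat_lit 487)))) (M (nat_lit 550) (B (lo19_16_1 (nat_lit 549)) (lo110_16_1 (nat_lit 551)))))) (B (M (nat_lit 550) (B (lo110_16_1 (nat_lit 551)) (M (nat_lit 518) (B (lo19_16_1 (nat_lit 549)) (M (nat_lit 490) (B (lo16_16_2 (nat_lit 489)) (lo17_16_2 (nat_lit 491)))))))) (B (M (nat_lit 518) (B (M (nat_lit 486) (B (lo19_16_3 (nat_lit 485)) (lo110_16_3 (nat_lit 487)))) (M (nat_lit 490) (B (lo16_16_2 (nat_lit 489)) (lo17_16_2 (nat_lit 491)))))) (M (nat_lit 551) (B (lo110_16_1 (nat_lit 550)) (M (nat_lit 487) (B (lo110_16_3 (nat_lit 486)) (M (nat_lit 455) (B (M (nat_lit 552) (B (lo17_13_4 (nat_lit 423)) (lo17_14_4 (nat_lit 584)))) (B (M (nat_lit 583) (B (M (nat_lit 584) (B (lo17_14_4 (nat_lit 552)) (lo17_15_4 (nat_lit 616)))) (B (M (nat_lit 615) (B (M (nat_lit 614) (B (lo17_15_5 (nat_lit 582)) (lo17_16_5 (nat_lit 646)))) (M (nat_lit 616) (B (lo17_15_4 (nat_lit 584)) (lo17_16_4 (nat_lit 648)))))) (B (M (nat_lit 615) (B (M (nat_lit 614) (B (lo17_15_5 (nat_lit 582)) (lo17_16_5 (nat_lit 646)))) (M (nat_lit 647) (B (lo17_20_6 (nat_lit 552)) (M (nat_lit 648) (B (lo17_16_4 (nat_lit 616)) (lo17_17_4 (nat_lit 680)))))))) (M (nat_lit 615) (B (M (nat_lit 614) (B (lo17_15_5 (nat_lit 582)) (lo17_16_5 (nat_lit 646)))) (M (nat_lit 552) (B (lo17_14_4 (nat_lit 584)) (lo17_20_6 (nat_lit 647)))))))))) (M (nat_lit 423) (B (M (nat_lit 422) (B (lo17_16_7 (nat_lit 390)) (lo17_17_7 (nat_lit 454)))) (M (nat_lit 424) (B (lo17_16_6 (nat_lit 392)) (lo17_17_6 (nat_lit 456))))))))))))))))) (M (nat_lit 519) (B (M (nat_lit 554) (B (lo17_16_0 (nat_lit 555)) (M (nat_lit 586) (B (lo110_19_7 (nat_lit 618)) (M (nat_lit 585) (B (M (nat_lit 490) (B (lo110_15_5 (nat_lit 617)) (lo17_16_2 (nat_lit 491)))) (B (M (nat_lit 551) (B (lo110_16_1 (nat_lit 550)) (M (nat_lit 587) (B (M (nat_lit 490) (B (lo110_15_4 (nat_lit 619)) (lo17_16_2 (nat_lit 491)))) (M (nat_lit 552) (B (lo111_18_3 (nat_lit 584)) (lo17_17_0 (nat_lit 553)))))))) (M (nat_lit 552) (B (M (nat_lit 551) (B (lo110_16_1 (nat_lit 550)) (M (nat_lit 584) (B (lo18_19_6 (nat_lit 616)) (lo111_18_3 (nat_lit 587)))))) (B (M (nat_lit 551) (B (lo110_16_1 (nat_lit 550)) (M (nat_lit 587) (B (lo111_18_3 (nat_lit 584)) (lo17_17_0 (nat_lit 553)))))) (B (M (nat_lit 553) (B (M (nat_lit 617) (B (lo19_20_7 (nat_lit 649)) (lo19_19_7 (nat_lit 488)))) (M (nat_lit 551) (B (lo16_17_0 (nat_lit 550)) (lo17_17_0 (nat_lit 587)))))) (M (nat_lit 617) (B (M (nat_lit 649) (B (lo19_21_6 (nat_lit 681)) (lo19_20_7 (nat_lit 553)))) (B (M (nat_lit 553) (B (lo19_20_7 (nat_lit 649)) (lo19_19_7 (nat_lit 488)))) (B (M (nat_lit 488) (B (lo18_15_4 (nat_lit 584)) (lo19_19_7 (nat_lit 553)))) (M (nat_lit 584) (B (lo18_19_6 (nat_lit 616)) (lo18_15_4 (nat_lit 488))))))))))))))))))) (B (M (nat_lit 518) (B (M (nat_lit 517) (B (lo15_16_2 (nat_lit 488)) (M (nat_lit 549) (B (lo19_16_1 (nat_lit 550)) (lo18_16_1 (nat_lit 548)))))) (B (M (nat_lit 517) (B (lo15_16_2 (nat_lit 488)) (M (nat_lit 553) (B (lo16_16_0 (nat_lit 554)) (lo15_16_0 (nat_lit 552)))))) (M (nat_lit 554) (B (lo17_16_0 (nat_lit 555)) (lo16_16_0 (nat_lit 553))))))) (M (nat_lit 490) (B (lo17_16_2 (nat_lit 491)) (lo16_16_2 (nat_lit 518)))))))))))))) (B (M (nat_lit 425) (B (M (nat_lit 520) (B (M (nat_lit 519) (B (M (nat_lit 490) (B (lo16_16_2 (nat_lit 518)) (M (nat_lit 491) (B (lo17_16_2 (nat_lit 522)) (lo111_15_1 (nat_lit 488)))))) (B (M (nat_lit 487) (B (M (nat_lit 486) (B (lo110_16_3 (nat_lit 522)) (M (nat_lit 485) (B (lo14_15_0 (nat_lit 484)) (lo15_15_0 (nat_lit 488)))))) (B (M (nat_lit 455) (B (M (nat_lit 552) (B (lo17_13_4 (nat_lit 423)) (M (nat_lit 584) (B (lo18_19_7 (nat_lit 616)) (lo18_18_7 (nat_lit 488)))))) (B (M (nat_lit 552) (B (lo17_13_4 (nat_lit 423)) (M (nat_lit 584) (B (lo17_14_4 (nat_lit 551)) (lo18_18_7 (nat_lit 488)))))) (B (M (nat_lit 454) (B (M (nat_lit 488) (B (lo110_15_3 (nat_lit 490)) (M (nat_lit 453) (B (lo19_15_3 (nat_lit 486)) (lo14_14_0 (nat_lit 452)))))) (M (nat_lit 422) (B (lo17_17_7 (nat_lit 551)) (M (nat_lit 390) (B (lo17_16_7 (nat_lit 423)) (lo16_11_4 (nat_lit 358)))))))) (B (M (nat_lit 552) (B (lo17_13_4 (nat_lit 423)) (M (nat_lit 584) (B (lo18_19_7 (nat_lit 616)) (lo17_14_4 (nat_lit 551)))))) (M (nat_lit 551) (B (M (nat_lit 552) (B (lo17_14_4 (nat_lit 584)) (M (nat_lit 550) (B (lo17_14_5 (nat_lit 582)) (lo15_17_2 (nat_lit 549)))))) (B (M (nat_lit 583) (B (M (nat_lit 584) (B (lo17_15_4 (nat_lit 616)) (lo17_14_4 (nat_lit 552)))) (M (nat_lit 454) (B (lo17_18_7 (nat_lit 486)) (lo17_17_7 (nat_lit 422)))))) (M (nat_lit 583) (B (M (nat_lit 582) (B (lo17_15_5 (nat_lit 614)) (lo17_14_5 (nat_lit 550)))) (M (nat_lit 454) (B (lo17_18_7 (nat_lit 486)) (lo17_17_7 (nat_lit 422)))))))))))))) (B (M (nat_lit 455) (B (M (nat_lit 552) (B (lo17_13_4 (nat_lit 423)) (M (nat_lit 584) (B (lo18_19_7 (nat_lit 616)) (lo17_14_4 (nat_lit 551)))))) (B (M (nat_lit 552) (B (lo17_13_4 (nat_lit 423)) (M (nat_lit 584) (B (lo17_14_4 (nat_lit 551)) (lo18_18_7 (nat_lit 488)))))) (B (M (nat_lit 490) (B (M (nat_lit 491) (B (lo17_16_2 (nat_lit 522)) (lo111_15_1 (nat_lit 488)))) (B (M (nat_lit 491) (B (lo111_15_1 (nat_lit 488)) (lo112_15_1 (nat_lit 492)))) (B (M (nat_lit 491) (B (lo17_16_2 (nat_lit 522)) (lo112_15_1 (nat_lit 492)))) (M (nat_lit 551) (B (M (nat_lit 550) (B (lo17_14_5 (nat_lit 582)) (lo110_16_1 (nat_lit 522)))) (M (nat_lit 454) (B (lo17_17_7 (nat_lit 422)) (lo110_15_3 (nat_lit 488)))))))))) (M (nat_lit 552) (B (lo17_13_4 (nat_lit 423)) (M (nat_lit 584) (B (lo18_19_7 (nat_lit 616)) (lo18_18_7 (nat_lit 488)))))))))) (M (nat_lit 551) (B (lo110_16_1 (nat_lit 550)) (B (M (nat_lit 486) (B (lo110_16_3 (nat_lit 522)) (M (nat_lit 454) (B (lo17_18_7 (nat_lit 583)) (M (nat_lit 422) (B (lo17_17_7 (nat_lit 455)) (lo16_12_4 (nat_lit 390)))))))) (B (M (nat_lit 455) (B (M (nat_lit 552) (B (lo17_14_4 (nat_lit 584)) (lo17_13_4 (nat_lit 423)))) (M (nat_lit 583) (B (M (nat_lit 582) (B (lo17_15_5 (nat_lit 614)) (lo17_14_5 (nat_lit 550)))) (M (nat_lit 454) (B (lo17_18_7 (nat_lit 486)) (lo17_17_7 (nat_lit 422)))))))) (M (nat_lit 550) (B (lo110_16_1 (nat_lit 522)) (M (nat_lit 549) (B (lo14_17_2 (nat_lit 548)) (lo15_17_2 (nat_lit 552)))))))))))))) (B (M (nat_lit 490) (B (lo16_16_2 (nat_lit 518)) (M (nat_lit 491) (B (lo111_15_1 (nat_lit 488)) (lo112_15_1 (nat_lit 492)))))) (B (M (nat_lit 490) (B (lo16_16_2 (nat_lit 518)) (M (nat_lit 491) (B (lo17_16_2 (nat_lit 522)) (lo112_15_1 (nat_lit 492)))))) (M (nat_lit 518) (B (M (nat_lit 517) (B (lo15_16_2 (nat_lit 488)) (M (nat_lit 485) (B (lo18_16_3 (nat_lit 484)) (lo19_16_3 (nat_lit 486)))))) (B (M (nat_lit 550) (B (lo19_16_1 (nat_lit 549)) (lo110_16_1 (nat_lit 551)))) (M (nat_lit 517) (B (lo15_16_2 (nat_lit 488)) (M (nat_lit 549) (B (lo18_16_1 (nat_lit 548)) (lo19_16_1 (nat_lit 550)))))))))))))) (B (M (nat_lit 457) (B (M (nat_lit 393) (B (lo19_12_4 (nat_lit 490)) (lo19_12_5 (nat_lit 488)))) (lo112_13_1 (nat_lit 456)))) (M (nat_lit 457) (B (lo112_13_1 (nat_lit 456)) (lo19_13_5 (nat_lit 552))))))) (B (M (nat_lit 520) (B (M (nat_lit 519) (B (M (nat_lit 487) (B (lo110_16_3 (nat_lit 486)) (M (nat_lit 551) (B (lo110_16_1 (nat_lit 550)) (M (nat_lit 583) (B (M (nat_lit 488) (B (lo17_19_6 (nat_lit 615)) (lo17_18_6 (nat_lit 456)))) (B (M (nat_lit 455) (B (M (nat_lit 456) (B (lo17_18_6 (nat_lit 488)) (lo17_17_6 (nat_lit 424)))) (B (M (nat_lit 423) (B (M (nat_lit 422) (B (lo17_17_7 (nat_lit 454)) (lo17_16_7 (nat_lit 390)))) (M (nat_lit 424) (B (lo17_17_6 (nat_lit 456)) (lo17_16_6 (nat_lit 392)))))) (B (M (nat_lit 423) (B (M (nat_lit 422) (B (lo17_17_7 (nat_lit 454)) (lo17_16_7 (nat_lit 390)))) (M (nat_lit 391) (B (lo17_12_4 (nat_lit 488)) (M (nat_lit 392) (B (lo17_16_6 (nat_lit 424)) (lo17_15_6 (nat_lit 360)))))))) (M (nat_lit 423) (B (M (nat_lit 422) (B (lo17_17_7 (nat_lit 454)) (lo17_16_7 (nat_lit 390)))) (M (nat_lit 488) (B (lo17_18_6 (nat_lit 456)) (lo17_12_4 (nat_lit 391)))))))))) (M (nat_lit 615) (B (M (nat_lit 614) (B (lo17_16_5 (nat_lit 646)) (lo17_15_5 (nat_lit 582)))) (M (nat_lit 616) (B (lo17_16_4 (nat_lit 648)) (lo17_15_4 (nat_lit 584))))))))))))) (M (nat_lit 490) (B (lo17_16_2 (nat_lit 491)) (lo16_16_2 (nat_lit 518)))))) (B (M (nat_lit 519) (B (M (nat_lit 490) (B (lo16_16_2 (nat_lit 518)) (M (nat_lit 491) (B (lo17_16_2 (nat_lit 522)) (lo112_15_1 (nat_lit 492)))))) (B (M (nat_lit 487) (B (M (nat_lit 486) (B (lo110_16_3 (nat_lit 522)) (M (nat_lit 485) (B (lo14_15_0 (nat_lit 484)) (lo15_15_0 (nat_lit 488)))))) (M (nat_lit 552) (B (lo19_13_5 (nat_lit 457)) (M (nat_lit 584) (B (lo18_19_7 (nat_lit 616)) (M (nat_lit 455) (B (lo17_14_4 (nat_lit 551)) (lo17_13_4 (nat_lit 423)))))))))) (M (nat_lit 490) (B (lo16_16_2 (nat_lit 518)) (M (nat_lit 491) (B (lo111_15_1 (nat_lit 488)) (lo112_15_1 (nat_lit 492))))))))) (M (nat_lit 457) (B (lo112_13_1 (nat_lit 456)) (lo19_13_5 (nat_lit 552))))))) (B (K _ _ _ o1_s6066) (M (nat_lit 392) (B (lo112_13_3 (nat_lit 393)) (M (nat_lit 424) (B (lo111_13_3 (nat_lit 391)) (M (nat_lit 456) (B (lo111_13_1 (nat_lit 455)) (lo18_12_4 (nat_lit 488)))))))))))) (B (M (nat_lit 397) (B (M (nat_lit 553) (B (M (nat_lit 586) (B (M (nat_lit 618) (B (lo19_15_4 (nat_lit 585)) (lo110_19_7 (nat_lit 554)))) (B (M (nat_lit 554) (B (lo19_14_4 (nat_lit 457)) (M (nat_lit 555) (B (M (nat_lit 556) (B (lo113_17_3 (nat_lit 557)) (lo112_17_3 (nat_lit 520)))) (M (nat_lit 587) (B (M (nat_lit 619) (B (lo111_20_7 (nat_lit 651)) (lo110_15_4 (nat_lit 490)))) (M (nat_lit 588) (B (lo113_18_3 (nat_lit 589)) (lo18_17_0 (nat_lit 552)))))))))) (M (nat_lit 585) (B (lo19_15_4 (nat_lit 618)) (M (nat_lit 617) (B (lo19_19_6 (nat_lit 490)) (M (nat_lit 649) (B (M (nat_lit 648) (B (lo19_17_5 (nat_lit 680)) (lo19_16_5 (nat_lit 616)))) (M (nat_lit 520) (B (lo19_20_7 (nat_lit 552)) (lo19_19_7 (nat_lit 488))))))))))))) (B (M (nat_lit 554) (B (M (nat_lit 586) (B (lo110_19_7 (nat_lit 618)) (lo19_14_4 (nat_lit 457)))) (B (M (nat_lit 457) (B (lo19_14_4 (nat_lit 586)) (lo19_13_4 (nat_lit 425)))) (B (M (nat_lit 555) (B (M (nat_lit 556) (B (lo113_17_3 (nat_lit 557)) (lo112_17_3 (nat_lit 520)))) (B (M (nat_lit 520) (B (lo112_17_3 (nat_lit 556)) (lo17_16_0 (nat_lit 519)))) (B (M (nat_lit 552) (B (M (nat_lit 457) (B (lo19_13_4 (nat_lit 425)) (lo19_14_5 (nat_lit 584)))) (M (nat_lit 519) (B (lo17_16_0 (nat_lit 520)) (M (nat_lit 551) (B (lo110_17_3 (nat_lit 518)) (lo16_17_2 (nat_lit 550)))))))) (M (nat_lit 552) (B (M (nat_lit 457) (B (lo19_13_4 (nat_lit 425)) (lo19_14_5 (nat_lit 584)))) (M (nat_lit 588) (B (lo18_17_0 (nat_lit 587)) (M (nat_lit 556) (B (lo19_17_0 (nat_lit 589)) (lo113_17_3 (nat_lit 557)))))))))))) (M (nat_lit 555) (B (M (nat_lit 520) (B (lo112_17_3 (nat_lit 556)) (lo17_16_0 (nat_lit 519)))) (M (nat_lit 586) (B (lo110_19_7 (nat_lit 618)) (M (nat_lit 587) (B (M (nat_lit 588) (B (lo113_18_3 (nat_lit 589)) (lo18_17_0 (nat_lit 552)))) (M (nat_lit 619) (B (lo111_20_7 (nat_lit 651)) (lo110_15_4 (nat_lit 490)))))))))))))) (B (M (nat_lit 585) (B (M (nat_lit 618) (B (lo19_15_4 (nat_lit 586)) (M (nat_lit 617) (B (lo19_16_4 (nat_lit 650)) (lo19_19_6 (nat_lit 490)))))) (B (M (nat_lit 617) (B (lo19_19_6 (nat_lit 490)) (M (nat_lit 616) (B (lo19_16_5 (nat_lit 648)) (lo19_15_5 (nat_lit 584)))))) (B (M (nat_lit 586) (B (lo19_15_4 (nat_lit 618)) (M (nat_lit 587) (B (M (nat_lit 584) (B (lo19_15_5 (nat_lit 616)) (M (nat_lit 552) (B (lo112_18_3 (nat_lit 588)) (lo111_18_3 (nat_lit 551)))))) (B (M (nat_lit 552) (B (lo112_18_3 (nat_lit 588)) (M (nat_lit 551) (B (lo111_18_3 (nat_lit 584)) (lo17_17_0 (nat_lit 554)))))) (B (M (nat_lit 555) (B (M (nat_lit 584) (B (lo19_15_5 (nat_lit 616)) (lo18_18_2 (nat_lit 556)))) (B (M (nat_lit 554) (B (M (nat_lit 619) (B (lo111_20_7 (nat_lit 651)) (lo110_15_4 (nat_lit 490)))) (M (nat_lit 556) (B (lo18_18_2 (nat_lit 584)) (lo112_17_3 (nat_lit 520)))))) (B (M (nat_lit 554) (B (M (nat_lit 619) (B (lo111_20_7 (nat_lit 651)) (lo110_15_4 (nat_lit 490)))) (M (nat_lit 520) (B (lo112_17_3 (nat_lit 556)) (lo17_16_0 (nat_lit 519)))))) (M (nat_lit 554) (B (M (nat_lit 619) (B (lo111_20_7 (nat_lit 651)) (lo110_15_4 (nat_lit 490)))) (M (nat_lit 584) (B (lo19_15_5 (nat_lit 616)) (lo17_18_2 (nat_lit 583)))))))))) (M (nat_lit 554) (B (M (nat_lit 552) (B (lo112_18_3 (nat_lit 588)) (lo17_17_0 (nat_lit 551)))) (M (nat_lit 555) (B (M (nat_lit 619) (B (lo111_20_7 (nat_lit 651)) (lo110_15_4 (nat_lit 490)))) (M (nat_lit 520) (B (lo112_17_3 (nat_lit 556)) (lo17_16_0 (nat_lit 519)))))))))))))) (M (nat_lit 617) (B (M (nat_lit 618) (B (lo19_16_4 (nat_lit 650)) (lo19_15_4 (nat_lit 586)))) (M (nat_lit 616) (B (lo19_16_5 (nat_lit 648)) (lo19_15_5 (nat_lit 584)))))))))) (B (M (nat_lit 552) (B (M (nat_lit 584) (B (lo19_14_5 (nat_lit 457)) (M (nat_lit 616) (B (lo18_20_6 (nat_lit 648)) (lo18_19_6 (nat_lit 520)))))) (B (M (nat_lit 554) (B (M (nat_lit 586) (B (lo110_19_7 (nat_lit 618)) (lo19_14_4 (nat_lit 457)))) (B (M (nat_lit 457) (B (lo19_14_4 (nat_lit 586)) (lo19_14_5 (nat_lit 584)))) (B (M (nat_lit 555) (B (M (nat_lit 584) (B (lo111_17_1 (nat_lit 583)) (lo19_14_5 (nat_lit 457)))) (M (nat_lit 556) (B (lo113_17_3 (nat_lit 557)) (lo112_17_3 (nat_lit 520)))))) (M (nat_lit 586) (B (lo110_19_7 (nat_lit 618)) (M (nat_lit 551) (B (lo17_17_0 (nat_lit 587)) (lo16_17_2 (nat_lit 550)))))))))) (B (M (nat_lit 554) (B (M (nat_lit 586) (B (lo110_19_7 (nat_lit 618)) (lo19_14_4 (nat_lit 457)))) (B (M (nat_lit 551) (B (lo16_17_2 (nat_lit 550)) (M (nat_lit 586) (B (lo17_17_0 (nat_lit 587)) (lo19_14_4 (nat_lit 457)))))) (M (nat_lit 555) (B (M (nat_lit 556) (B (lo113_17_3 (nat_lit 557)) (lo112_17_3 (nat_lit 520)))) (B (M (nat_lit 520) (B (lo112_17_3 (nat_lit 556)) (lo111_17_3 (nat_lit 519)))) (B (M (nat_lit 519) (B (lo111_17_3 (nat_lit 520)) (M (nat_lit 551) (B (lo110_17_3 (nat_lit 518)) (lo16_17_2 (nat_lit 550)))))) (M (nat_lit 588) (B (lo18_17_0 (nat_lit 587)) (M (nat_lit 556) (B (lo19_17_0 (nat_lit 589)) (lo113_17_3 (nat_lit 557))))))))))))) (B (M (nat_lit 554) (B (M (nat_lit 586) (B (lo110_19_7 (nat_lit 618)) (lo19_14_4 (nat_lit 457)))) (B (M (nat_lit 457) (B (lo19_14_4 (nat_lit 586)) (lo19_14_5 (nat_lit 584)))) (B (M (nat_lit 583) (B (M (nat_lit 584) (B (lo111_17_1 (nat_lit 555)) (lo19_14_5 (nat_lit 457)))) (M (nat_lit 551) (B (lo110_17_1 (nat_lit 582)) (lo16_17_2 (nat_lit 550)))))) (M (nat_lit 586) (B (lo110_19_7 (nat_lit 618)) (M (nat_lit 551) (B (lo17_17_0 (nat_lit 587)) (lo16_17_2 (nat_lit 550)))))))))) (M (nat_lit 584) (B (M (nat_lit 616) (B (lo18_20_6 (nat_lit 648)) (lo18_19_6 (nat_lit 520)))) (M (nat_lit 551) (B (lo16_17_2 (nat_lit 550)) (M (nat_lit 554) (B (M (nat_lit 586) (B (lo110_19_7 (nat_lit 618)) (lo17_17_0 (nat_lit 587)))) (M (nat_lit 583) (B (lo111_17_1 (nat_lit 555)) (lo110_17_1 (nat_lit 582))))))))))))))) (B (M (nat_lit 585) (B (M (nat_lit 457) (B (M (nat_lit 584) (B (lo19_15_5 (nat_lit 616)) (lo19_14_5 (nat_lit 552)))) (M (nat_lit 425) (B (lo19_13_4 (nat_lit 554)) (M (nat_lit 393) (B (lo19_12_4 (nat_lit 490)) (M (nat_lit 392) (B (lo19_16_7 (nat_lit 424)) (lo19_15_7 (nat_lit 360)))))))))) (B (M (nat_lit 617) (B (lo19_19_6 (nat_lit 490)) (M (nat_lit 649) (B (M (nat_lit 520) (B (lo19_19_7 (nat_lit 488)) (lo19_20_7 (nat_lit 552)))) (M (nat_lit 650) (B (lo19_16_4 (nat_lit 618)) (lo19_17_4 (nat_lit 682)))))))) (M (nat_lit 617) (B (M (nat_lit 616) (B (lo19_15_5 (nat_lit 584)) (lo19_16_5 (nat_lit 648)))) (M (nat_lit 650) (B (lo19_16_4 (nat_lit 618)) (M (nat_lit 649) (B (lo19_20_6 (nat_lit 554)) (lo19_17_4 (nat_lit 682))))))))))) (B (M (nat_lit 585) (B (M (nat_lit 618) (B (lo19_15_4 (nat_lit 586)) (M (nat_lit 617) (B (lo19_16_4 (nat_lit 650)) (lo19_19_6 (nat_lit 490)))))) (B (M (nat_lit 617) (B (lo19_19_6 (nat_lit 490)) (M (nat_lit 616) (B (lo19_16_5 (nat_lit 648)) (lo19_15_5 (nat_lit 584)))))) (M (nat_lit 584) (B (lo19_15_5 (nat_lit 616)) (M (nat_lit 552) (B (lo19_14_5 (nat_lit 457)) (M (nat_lit 586) (B (lo19_15_4 (nat_lit 618)) (M (nat_lit 587) (B (lo112_18_3 (nat_lit 588)) (lo111_18_3 (nat_lit 551))))))))))))) (B (M (nat_lit 585) (B (M (nat_lit 617) (B (lo19_19_6 (nat_lit 490)) (M (nat_lit 616) (B (lo19_16_5 (nat_lit 648)) (lo19_15_5 (nat_lit 584)))))) (B (M (nat_lit 618) (B (lo19_15_4 (nat_lit 586)) (M (nat_lit 617) (B (lo19_16_4 (nat_lit 650)) (lo19_19_6 (nat_lit 490)))))) (M (nat_lit 586) (B (lo19_15_4 (nat_lit 618)) (M (nat_lit 554) (B (lo19_14_4 (nat_lit 457)) (M (nat_lit 584) (B (lo19_15_5 (nat_lit 616)) (M (nat_lit 555) (B (lo17_18_2 (nat_lit 583)) (lo112_17_1 (nat_lit 556))))))))))))) (M (nat_lit 585) (B (M (nat_lit 617) (B (lo19_19_6 (nat_lit 490)) (M (nat_lit 616) (B (lo19_16_5 (nat_lit 648)) (lo19_15_5 (nat_lit 584)))))) (B (M (nat_lit 554) (B (M (nat_lit 617) (B (lo19_20_6 (nat_lit 649)) (lo19_19_6 (nat_lit 490)))) (M (nat_lit 457) (B (lo19_14_4 (nat_lit 586)) (lo19_13_4 (nat_lit 425)))))) (M (nat_lit 457) (B (M (nat_lit 584) (B (lo19_15_5 (nat_lit 616)) (lo19_14_5 (nat_lit 552)))) (M (nat_lit 554) (B (lo19_14_4 (nat_lit 586)) (lo19_13_4 (nat_lit 425))))))))))))))))) (lo110_13_2 (nat_lit 398)))) (B (M (nat_lit 553) (B (M (nat_lit 552) (B (M (nat_lit 584) (B (lo19_14_5 (nat_lit 457)) (M (nat_lit 616) (B (lo18_20_6 (nat_lit 648)) (lo18_19_6 (nat_lit 520)))))) (B (M (nat_lit 554) (B (M (nat_lit 586) (B (lo110_19_7 (nat_lit 618)) (lo19_14_4 (nat_lit 457)))) (B (M (nat_lit 457) (B (lo19_14_4 (nat_lit 586)) (lo19_14_5 (nat_lit 584)))) (B (M (nat_lit 555) (B (M (nat_lit 584) (B (lo111_17_1 (nat_lit 583)) (lo19_14_5 (nat_lit 457)))) (M (nat_lit 556) (B (lo113_17_3 (nat_lit 557)) (lo112_17_3 (nat_lit 520)))))) (M (nat_lit 586) (B (lo110_19_7 (nat_lit 618)) (M (nat_lit 551) (B (lo17_17_0 (nat_lit 587)) (lo16_17_2 (nat_lit 550)))))))))) (B (M (nat_lit 554) (B (M (nat_lit 586) (B (lo110_19_7 (nat_lit 618)) (lo19_14_4 (nat_lit 457)))) (B (M (nat_lit 551) (B (lo16_17_2 (nat_lit 550)) (M (nat_lit 586) (B (lo17_17_0 (nat_lit 587)) (lo19_14_4 (nat_lit 457)))))) (M (nat_lit 555) (B (M (nat_lit 556) (B (lo113_17_3 (nat_lit 557)) (lo112_17_3 (nat_lit 520)))) (B (M (nat_lit 520) (B (lo112_17_3 (nat_lit 556)) (lo111_17_3 (nat_lit 519)))) (B (M (nat_lit 519) (B (lo111_17_3 (nat_lit 520)) (M (nat_lit 551) (B (lo110_17_3 (nat_lit 518)) (lo16_17_2 (nat_lit 550)))))) (M (nat_lit 588) (B (lo18_17_0 (nat_lit 587)) (M (nat_lit 556) (B (lo19_17_0 (nat_lit 589)) (lo113_17_3 (nat_lit 557))))))))))))) (B (M (nat_lit 554) (B (M (nat_lit 586) (B (lo110_19_7 (nat_lit 618)) (lo19_14_4 (nat_lit 457)))) (B (M (nat_lit 457) (B (lo19_14_4 (nat_lit 586)) (lo19_14_5 (nat_lit 584)))) (B (M (nat_lit 583) (B (M (nat_lit 584) (B (lo111_17_1 (nat_lit 555)) (lo19_14_5 (nat_lit 457)))) (M (nat_lit 551) (B (lo110_17_1 (nat_lit 582)) (lo16_17_2 (nat_lit 550)))))) (M (nat_lit 586) (B (lo110_19_7 (nat_lit 618)) (M (nat_lit 551) (B (lo17_17_0 (nat_lit 587)) (lo16_17_2 (nat_lit 550)))))))))) (M (nat_lit 584) (B (M (nat_lit 616) (B (lo18_20_6 (nat_lit 648)) (lo18_19_6 (nat_lit 520)))) (M (nat_lit 551) (B (lo16_17_2 (nat_lit 550)) (M (nat_lit 554) (B (M (nat_lit 586) (B (lo110_19_7 (nat_lit 618)) (lo17_17_0 (nat_lit 587)))) (M (nat_lit 583) (B (lo111_17_1 (nat_lit 555)) (lo110_17_1 (nat_lit 582))))))))))))))) (B (M (nat_lit 585) (B (M (nat_lit 618) (B (lo19_15_4 (nat_lit 586)) (M (nat_lit 617) (B (lo19_16_4 (nat_lit 650)) (lo19_19_6 (nat_lit 490)))))) (B (M (nat_lit 617) (B (lo19_19_6 (nat_lit 490)) (M (nat_lit 616) (B (lo19_16_5 (nat_lit 648)) (lo19_15_5 (nat_lit 584)))))) (B (M (nat_lit 586) (B (lo19_15_4 (nat_lit 618)) (M (nat_lit 587) (B (M (nat_lit 584) (B (lo19_15_5 (nat_lit 616)) (M (nat_lit 552) (B (lo112_18_3 (nat_lit 588)) (lo111_18_3 (nat_lit 551)))))) (B (M (nat_lit 552) (B (lo112_18_3 (nat_lit 588)) (M (nat_lit 551) (B (lo111_18_3 (nat_lit 584)) (lo17_17_0 (nat_lit 554)))))) (B (M (nat_lit 555) (B (M (nat_lit 584) (B (lo19_15_5 (nat_lit 616)) (lo18_18_2 (nat_lit 556)))) (B (M (nat_lit 554) (B (M (nat_lit 619) (B (lo111_20_7 (nat_lit 651)) (lo110_15_4 (nat_lit 490)))) (M (nat_lit 556) (B (lo18_18_2 (nat_lit 584)) (lo112_17_3 (nat_lit 520)))))) (B (M (nat_lit 554) (B (M (nat_lit 619) (B (lo111_20_7 (nat_lit 651)) (lo110_15_4 (nat_lit 490)))) (M (nat_lit 520) (B (lo112_17_3 (nat_lit 556)) (lo17_16_0 (nat_lit 519)))))) (M (nat_lit 554) (B (M (nat_lit 619) (B (lo111_20_7 (nat_lit 651)) (lo110_15_4 (nat_lit 490)))) (M (nat_lit 584) (B (lo19_15_5 (nat_lit 616)) (lo17_18_2 (nat_lit 583)))))))))) (M (nat_lit 554) (B (M (nat_lit 552) (B (lo112_18_3 (nat_lit 588)) (lo17_17_0 (nat_lit 551)))) (M (nat_lit 555) (B (M (nat_lit 619) (B (lo111_20_7 (nat_lit 651)) (lo110_15_4 (nat_lit 490)))) (M (nat_lit 520) (B (lo112_17_3 (nat_lit 556)) (lo17_16_0 (nat_lit 519)))))))))))))) (M (nat_lit 617) (B (M (nat_lit 618) (B (lo19_16_4 (nat_lit 650)) (lo19_15_4 (nat_lit 586)))) (M (nat_lit 616) (B (lo19_16_5 (nat_lit 648)) (lo19_15_5 (nat_lit 584)))))))))) (B (M (nat_lit 585) (B (M (nat_lit 618) (B (lo19_15_4 (nat_lit 586)) (M (nat_lit 617) (B (lo19_16_4 (nat_lit 650)) (lo19_19_6 (nat_lit 490)))))) (M (nat_lit 584) (B (lo19_15_5 (nat_lit 616)) (M (nat_lit 457) (B (lo19_14_5 (nat_lit 552)) (M (nat_lit 456) (B (lo19_18_7 (nat_lit 488)) (lo19_17_7 (nat_lit 424)))))))))) (B (M (nat_lit 585) (B (M (nat_lit 617) (B (lo19_19_6 (nat_lit 490)) (M (nat_lit 488) (B (lo19_18_7 (nat_lit 456)) (lo19_19_7 (nat_lit 520)))))) (B (M (nat_lit 617) (B (M (nat_lit 488) (B (lo19_18_7 (nat_lit 456)) (lo19_19_7 (nat_lit 520)))) (M (nat_lit 616) (B (lo19_15_5 (nat_lit 584)) (lo19_16_5 (nat_lit 648)))))) (B (M (nat_lit 457) (B (M (nat_lit 456) (B (lo19_17_7 (nat_lit 424)) (lo19_18_7 (nat_lit 488)))) (M (nat_lit 584) (B (lo19_14_5 (nat_lit 552)) (lo19_15_5 (nat_lit 616)))))) (M (nat_lit 617) (B (lo19_19_6 (nat_lit 490)) (M (nat_lit 616) (B (lo19_15_5 (nat_lit 584)) (lo19_16_5 (nat_lit 648)))))))))) (M (nat_lit 585) (B (M (nat_lit 617) (B (lo19_19_6 (nat_lit 490)) (M (nat_lit 488) (B (lo19_18_7 (nat_lit 456)) (lo19_19_7 (nat_lit 520)))))) (B (M (nat_lit 618) (B (lo19_15_4 (nat_lit 586)) (M (nat_lit 617) (B (lo19_19_6 (nat_lit 490)) (lo19_16_4 (nat_lit 650)))))) (M (nat_lit 457) (B (M (nat_lit 456) (B (lo19_17_7 (nat_lit 424)) (lo19_18_7 (nat_lit 488)))) (M (nat_lit 586) (B (lo19_14_4 (nat_lit 554)) (lo19_15_4 (nat_lit 618)))))))))))))) (B (M (nat_lit 457) (B (M (nat_lit 553) (B (M (nat_lit 586) (B (lo19_14_4 (nat_lit 554)) (M (nat_lit 585) (B (lo19_15_4 (nat_lit 618)) (M (nat_lit 584) (B (lo19_15_5 (nat_lit 616)) (lo19_14_5 (nat_lit 552)))))))) (B (M (nat_lit 585) (B (M (nat_lit 586) (B (lo19_15_4 (nat_lit 618)) (lo19_14_4 (nat_lit 554)))) (B (M (nat_lit 554) (B (lo19_14_4 (nat_lit 586)) (M (nat_lit 617) (B (lo19_20_6 (nat_lit 649)) (lo19_19_6 (nat_lit 490)))))) (B (M (nat_lit 617) (B (lo19_19_6 (nat_lit 490)) (M (nat_lit 649) (B (lo19_20_6 (nat_lit 554)) (M (nat_lit 552) (B (lo19_20_7 (nat_lit 520)) (lo19_14_5 (nat_lit 584)))))))) (M (nat_lit 617) (B (lo19_19_6 (nat_lit 490)) (M (nat_lit 618) (B (lo19_16_4 (nat_lit 650)) (lo19_15_4 (nat_lit 586)))))))))) (B (M (nat_lit 554) (B (lo19_14_4 (nat_lit 586)) (M (nat_lit 585) (B (M (nat_lit 584) (B (lo19_15_5 (nat_lit 616)) (lo19_14_5 (nat_lit 552)))) (M (nat_lit 617) (B (lo19_20_6 (nat_lit 649)) (lo19_19_6 (nat_lit 490)))))))) (B (M (nat_lit 585) (B (M (nat_lit 586) (B (lo19_15_4 (nat_lit 618)) (lo19_14_4 (nat_lit 554)))) (B (M (nat_lit 554) (B (lo19_14_4 (nat_lit 586)) (M (nat_lit 617) (B (lo19_20_6 (nat_lit 649)) (lo19_19_6 (nat_lit 490)))))) (B (M (nat_lit 617) (B (lo19_19_6 (nat_lit 490)) (M (nat_lit 649) (B (lo19_20_6 (nat_lit 554)) (M (nat_lit 648) (B (lo19_17_5 (nat_lit 680)) (lo19_16_5 (nat_lit 616)))))))) (M (nat_lit 617) (B (lo19_19_6 (nat_lit 490)) (M (nat_lit 618) (B (lo19_16_4 (nat_lit 650)) (lo19_15_4 (nat_lit 586)))))))))) (B (M (nat_lit 554) (B (lo19_14_4 (nat_lit 586)) (M (nat_lit 552) (B (lo19_14_5 (nat_lit 584)) (M (nat_lit 555) (B (M (nat_lit 520) (B (lo111_17_3 (nat_lit 519)) (lo112_17_3 (nat_lit 556)))) (B (M (nat_lit 519) (B (lo111_17_3 (nat_lit 520)) (M (nat_lit 551) (B (lo16_17_2 (nat_lit 550)) (lo110_17_3 (nat_lit 518)))))) (B (M (nat_lit 556) (B (lo112_17_3 (nat_lit 520)) (lo113_17_3 (nat_lit 557)))) (M (nat_lit 588) (B (lo18_17_0 (nat_lit 587)) (M (nat_lit 556) (B (lo19_17_0 (nat_lit 589)) (lo113_17_3 (nat_lit 557)))))))))))))) (B (M (nat_lit 585) (B (M (nat_lit 584) (B (lo19_15_5 (nat_lit 616)) (lo19_14_5 (nat_lit 552)))) (B (M (nat_lit 617) (B (lo19_19_6 (nat_lit 490)) (M (nat_lit 649) (B (lo19_20_6 (nat_lit 554)) (M (nat_lit 552) (B (lo19_20_7 (nat_lit 520)) (lo19_14_5 (nat_lit 584)))))))) (M (nat_lit 617) (B (lo19_19_6 (nat_lit 490)) (M (nat_lit 649) (B (lo19_20_6 (nat_lit 554)) (M (nat_lit 648) (B (lo19_17_5 (nat_lit 680)) (lo19_16_5 (nat_lit 616))))))))))) (M (nat_lit 585) (B (M (nat_lit 584) (B (lo19_15_5 (nat_lit 616)) (lo19_14_5 (nat_lit 552)))) (M (nat_lit 617) (B (lo19_19_6 (nat_lit 490)) (M (nat_lit 618) (B (lo19_16_4 (nat_lit 650)) (lo19_15_4 (nat_lit 586))))))))))))))) (B (M (nat_lit 425) (B (M (nat_lit 393) (B (lo112_13_3 (nat_lit 392)) (lo19_12_4 (nat_lit 490)))) (lo112_13_1 (nat_lit 456)))) (M (nat_lit 425) (B (lo112_13_1 (nat_lit 456)) (lo19_13_4 (nat_lit 554))))))) (B (M (nat_lit 425) (B (K _ _ _ o1_s6066) (B (M (nat_lit 392) (B (lo112_13_3 (nat_lit 393)) (M (nat_lit 424) (B (lo111_13_3 (nat_lit 391)) (M (nat_lit 456) (B (lo111_13_1 (nat_lit 455)) (lo18_12_4 (nat_lit 488)))))))) (M (nat_lit 457) (B (lo112_13_1 (nat_lit 456)) (lo19_13_4 (nat_lit 554))))))) (M (nat_lit 425) (B (M (nat_lit 457) (B (lo19_13_4 (nat_lit 554)) (M (nat_lit 393) (B (M (nat_lit 520) (B (lo19_13_5 (nat_lit 552)) (lo19_12_5 (nat_lit 488)))) (M (nat_lit 392) (B (lo19_16_7 (nat_lit 424)) (lo19_15_7 (nat_lit 360)))))))) (B (M (nat_lit 392) (B (lo112_13_3 (nat_lit 393)) (M (nat_lit 424) (B (lo111_13_3 (nat_lit 391)) (M (nat_lit 456) (B (lo111_13_1 (nat_lit 455)) (lo18_12_4 (nat_lit 488)))))))) (M (nat_lit 457) (B (lo112_13_1 (nat_lit 456)) (lo19_13_4 (nat_lit 554)))))))))))))) (B (M (nat_lit 492) (B (M (nat_lit 489) (B (M (nat_lit 553) (B (M (nat_lit 585) (B (M (nat_lit 586) (B (lo19_15_4 (nat_lit 618)) (M (nat_lit 584) (B (lo19_15_5 (nat_lit 616)) (M (nat_lit 551) (B (M (nat_lit 550) (B (lo110_18_3 (nat_lit 583)) (lo16_17_0 (nat_lit 552)))) (B (M (nat_lit 587) (B (lo111_18_3 (nat_lit 552)) (M (nat_lit 588) (B (M (nat_lit 620) (B (lo18_18_0 (nat_lit 619)) (lo19_18_0 (nat_lit 621)))) (M (nat_lit 556) (B (lo18_18_2 (nat_lit 555)) (lo19_18_2 (nat_lit 557)))))))) (M (nat_lit 583) (B (lo110_18_3 (nat_lit 550)) (M (nat_lit 614) (B (lo110_18_1 (nat_lit 615)) (M (nat_lit 487) (B (M (nat_lit 582) (B (lo19_18_1 (nat_lit 613)) (lo17_15_5 (nat_lit 519)))) (M (nat_lit 488) (B (lo16_15_0 (nat_lit 486)) (lo19_18_7 (nat_lit 456))))))))))))))))) (B (K _ _ _ o1_s6557) (M (nat_lit 617) (B (M (nat_lit 618) (B (lo19_15_4 (nat_lit 586)) (lo19_16_4 (nat_lit 650)))) (lo19_19_6 (nat_lit 490))))))) (B (M (nat_lit 585) (B (M (nat_lit 584) (B (lo19_15_5 (nat_lit 616)) (M (nat_lit 583) (B (M (nat_lit 586) (B (lo19_15_4 (nat_lit 618)) (M (nat_lit 550) (B (lo110_18_3 (nat_lit 551)) (M (nat_lit 582) (B (lo19_18_3 (nat_lit 549)) (lo16_18_2 (nat_lit 554)))))))) (B (M (nat_lit 586) (B (lo19_15_4 (nat_lit 618)) (M (nat_lit 582) (B (lo16_18_2 (nat_lit 554)) (M (nat_lit 614) (B (lo19_18_1 (nat_lit 613)) (lo110_18_1 (nat_lit 615)))))))) (B (M (nat_lit 551) (B (M (nat_lit 586) (B (lo110_18_3 (nat_lit 550)) (lo19_15_4 (nat_lit 618)))) (B (M (nat_lit 552) (B (M (nat_lit 586) (B (lo111_18_3 (nat_lit 587)) (lo19_15_4 (nat_lit 618)))) (M (nat_lit 523) (B (lo17_17_2 (nat_lit 554)) (lo112_16_1 (nat_lit 524)))))) (M (nat_lit 552) (B (lo16_17_2 (nat_lit 550)) (M (nat_lit 523) (B (lo17_17_2 (nat_lit 554)) (lo112_16_1 (nat_lit 524))))))))) (B (M (nat_lit 586) (B (lo19_15_4 (nat_lit 618)) (M (nat_lit 582) (B (M (nat_lit 550) (B (lo19_18_3 (nat_lit 549)) (lo110_18_3 (nat_lit 551)))) (M (nat_lit 614) (B (lo19_18_1 (nat_lit 613)) (lo110_18_1 (nat_lit 615)))))))) (M (nat_lit 582) (B (lo16_18_2 (nat_lit 554)) (M (nat_lit 581) (B (lo15_18_2 (nat_lit 552)) (M (nat_lit 613) (B (lo18_18_1 (nat_lit 612)) (lo19_18_1 (nat_lit 614))))))))))))))) (B (K _ _ _ o1_s6557) (M (nat_lit 617) (B (M (nat_lit 618) (B (lo19_15_4 (nat_lit 586)) (lo19_16_4 (nat_lit 650)))) (lo19_19_6 (nat_lit 490))))))) (B (M (nat_lit 585) (B (M (nat_lit 617) (B (lo19_19_6 (nat_lit 490)) (M (nat_lit 616) (B (lo19_15_5 (nat_lit 584)) (lo19_16_5 (nat_lit 648)))))) (B (M (nat_lit 617) (B (M (nat_lit 616) (B (lo19_15_5 (nat_lit 584)) (lo19_16_5 (nat_lit 648)))) (M (nat_lit 649) (B (lo19_20_6 (nat_lit 554)) (M (nat_lit 650) (B (lo19_16_4 (nat_lit 618)) (lo19_17_4 (nat_lit 682)))))))) (B (M (nat_lit 617) (B (lo19_19_6 (nat_lit 490)) (M (nat_lit 649) (B (lo19_20_6 (nat_lit 554)) (M (nat_lit 650) (B (lo19_16_4 (nat_lit 618)) (lo19_17_4 (nat_lit 682)))))))) (M (nat_lit 488) (B (lo19_18_7 (nat_lit 456)) (M (nat_lit 487) (B (lo16_15_0 (nat_lit 486)) (M (nat_lit 523) (B (lo17_15_0 (nat_lit 490)) (lo112_16_3 (nat_lit 524)))))))))))) (M (nat_lit 523) (B (lo112_16_1 (nat_lit 552)) (lo112_16_3 (nat_lit 488)))))))) (B (M (nat_lit 523) (B (M (nat_lit 586) (B (M (nat_lit 554) (B (lo110_19_7 (nat_lit 618)) (M (nat_lit 457) (B (lo19_14_4 (nat_lit 553)) (lo19_13_4 (nat_lit 425)))))) (B (M (nat_lit 554) (B (M (nat_lit 457) (B (lo19_14_4 (nat_lit 553)) (lo110_18_7 (nat_lit 490)))) (B (M (nat_lit 457) (B (lo110_18_7 (nat_lit 490)) (lo19_13_4 (nat_lit 425)))) (B (M (nat_lit 457) (B (lo19_14_4 (nat_lit 553)) (lo19_13_4 (nat_lit 425)))) (M (nat_lit 585) (B (M (nat_lit 617) (B (lo110_15_5 (nat_lit 490)) (M (nat_lit 649) (B (lo19_21_6 (nat_lit 681)) (lo19_20_6 (nat_lit 553)))))) (B (M (nat_lit 587) (B (M (nat_lit 490) (B (lo110_15_4 (nat_lit 619)) (lo110_15_5 (nat_lit 617)))) (M (nat_lit 584) (B (M (nat_lit 616) (B (lo111_18_1 (nat_lit 615)) (lo19_15_5 (nat_lit 553)))) (M (nat_lit 555) (B (lo18_18_2 (nat_lit 556)) (lo17_18_2 (nat_lit 583)))))))) (B (M (nat_lit 584) (B (M (nat_lit 555) (B (lo17_18_2 (nat_lit 583)) (M (nat_lit 556) (B (lo18_18_2 (nat_lit 587)) (lo113_17_1 (nat_lit 557)))))) (B (M (nat_lit 555) (B (lo17_18_2 (nat_lit 583)) (M (nat_lit 556) (B (lo113_17_1 (nat_lit 557)) (lo112_17_1 (nat_lit 553)))))) (M (nat_lit 587) (B (M (nat_lit 619) (B (lo18_18_0 (nat_lit 620)) (lo110_15_4 (nat_lit 490)))) (M (nat_lit 616) (B (lo111_18_1 (nat_lit 615)) (lo19_15_5 (nat_lit 553))))))))) (B (M (nat_lit 587) (B (M (nat_lit 490) (B (lo110_15_4 (nat_lit 619)) (lo110_15_5 (nat_lit 617)))) (B (M (nat_lit 555) (B (M (nat_lit 556) (B (lo18_18_2 (nat_lit 584)) (lo113_17_1 (nat_lit 557)))) (M (nat_lit 588) (B (M (nat_lit 620) (B (lo19_18_0 (nat_lit 621)) (lo111_15_4 (nat_lit 491)))) (M (nat_lit 617) (B (lo112_18_1 (nat_lit 616)) (lo110_15_5 (nat_lit 490)))))))) (B (M (nat_lit 555) (B (M (nat_lit 619) (B (lo111_20_7 (nat_lit 651)) (lo110_15_4 (nat_lit 490)))) (M (nat_lit 584) (B (lo18_18_2 (nat_lit 556)) (lo17_18_2 (nat_lit 583)))))) (M (nat_lit 555) (B (M (nat_lit 556) (B (lo18_18_2 (nat_lit 584)) (lo113_17_1 (nat_lit 557)))) (M (nat_lit 620) (B (M (nat_lit 619) (B (lo111_16_4 (nat_lit 652)) (lo111_20_7 (nat_lit 651)))) (M (nat_lit 588) (B (lo19_18_0 (nat_lit 621)) (lo111_15_4 (nat_lit 491)))))))))))) (M (nat_lit 584) (B (M (nat_lit 555) (B (lo17_18_2 (nat_lit 583)) (M (nat_lit 556) (B (lo18_18_2 (nat_lit 587)) (lo113_17_1 (nat_lit 557)))))) (B (M (nat_lit 555) (B (lo17_18_2 (nat_lit 583)) (M (nat_lit 556) (B (lo113_17_1 (nat_lit 557)) (lo112_17_1 (nat_lit 553)))))) (B (M (nat_lit 587) (B (M (nat_lit 616) (B (lo111_18_1 (nat_lit 615)) (lo19_15_5 (nat_lit 553)))) (M (nat_lit 588) (B (M (nat_lit 620) (B (lo19_18_0 (nat_lit 621)) (lo18_18_0 (nat_lit 619)))) (M (nat_lit 556) (B (lo19_18_2 (nat_lit 557)) (lo18_18_2 (nat_lit 555)))))))) (B (M (nat_lit 555) (B (lo17_18_2 (nat_lit 583)) (M (nat_lit 556) (B (lo18_18_2 (nat_lit 587)) (lo112_17_1 (nat_lit 553)))))) (M (nat_lit 587) (B (M (nat_lit 616) (B (lo111_18_1 (nat_lit 615)) (lo19_15_5 (nat_lit 553)))) (B (M (nat_lit 588) (B (M (nat_lit 620) (B (lo19_18_0 (nat_lit 621)) (lo18_18_0 (nat_lit 619)))) (M (nat_lit 553) (B (lo113_18_3 (nat_lit 589)) (lo112_18_3 (nat_lit 552)))))) (M (nat_lit 588) (B (M (nat_lit 620) (B (lo19_18_0 (nat_lit 621)) (lo18_18_0 (nat_lit 619)))) (M (nat_lit 616) (B (lo112_18_1 (nat_lit 617)) (lo111_18_1 (nat_lit 615))))))))))))))))))))))) (B (M (nat_lit 585) (B (M (nat_lit 553) (B (lo19_15_4 (nat_lit 618)) (M (nat_lit 616) (B (lo19_15_5 (nat_lit 584)) (M (nat_lit 617) (B (lo19_16_5 (nat_lit 648)) (lo19_19_6 (nat_lit 490)))))))) (B (M (nat_lit 553) (B (lo19_15_4 (nat_lit 618)) (M (nat_lit 584) (B (lo19_15_5 (nat_lit 616)) (M (nat_lit 552) (B (lo19_14_5 (nat_lit 457)) (M (nat_lit 587) (B (lo112_18_3 (nat_lit 588)) (lo111_18_3 (nat_lit 551)))))))))) (B (M (nat_lit 587) (B (M (nat_lit 553) (B (M (nat_lit 552) (B (lo112_18_3 (nat_lit 588)) (M (nat_lit 584) (B (lo19_15_5 (nat_lit 616)) (lo111_18_3 (nat_lit 551)))))) (B (M (nat_lit 552) (B (lo112_18_3 (nat_lit 588)) (M (nat_lit 551) (B (lo111_18_3 (nat_lit 584)) (lo16_17_0 (nat_lit 550)))))) (B (M (nat_lit 584) (B (lo19_15_5 (nat_lit 616)) (M (nat_lit 552) (B (lo111_18_3 (nat_lit 551)) (lo19_14_5 (nat_lit 457)))))) (B (M (nat_lit 617) (B (lo19_19_6 (nat_lit 490)) (M (nat_lit 588) (B (lo112_18_1 (nat_lit 616)) (lo112_18_3 (nat_lit 552)))))) (M (nat_lit 617) (B (lo19_19_6 (nat_lit 490)) (M (nat_lit 616) (B (lo112_18_1 (nat_lit 588)) (lo19_15_5 (nat_lit 584))))))))))) (B (M (nat_lit 584) (B (M (nat_lit 616) (B (lo111_18_1 (nat_lit 615)) (lo19_15_5 (nat_lit 553)))) (M (nat_lit 619) (B (lo18_18_0 (nat_lit 620)) (M (nat_lit 555) (B (lo111_19_7 (nat_lit 490)) (lo18_18_2 (nat_lit 556)))))))) (B (K _ _ _ o1_s6755) (B (K _ _ _ o1_s6767) (B (K _ _ _ o1_s6779) (M (nat_lit 584) (B (M (nat_lit 616) (B (lo111_18_1 (nat_lit 615)) (lo19_15_5 (nat_lit 553)))) (B (M (nat_lit 552) (B (lo111_18_3 (nat_lit 551)) (M (nat_lit 553) (B (lo112_18_3 (nat_lit 588)) (lo19_14_5 (nat_lit 457)))))) (M (nat_lit 588) (B (M (nat_lit 620) (B (lo19_18_0 (nat_lit 621)) (lo18_18_0 (nat_lit 619)))) (M (nat_lit 616) (B (lo112_18_1 (nat_lit 617)) (lo111_18_1 (nat_lit 615))))))))))))))) (B (M (nat_lit 587) (B (M (nat_lit 553) (B (lo19_15_4 (nat_lit 618)) (M (nat_lit 552) (B (lo112_18_3 (nat_lit 588)) (M (nat_lit 551) (B (lo111_18_3 (nat_lit 584)) (lo16_17_0 (nat_lit 550)))))))) (B (K _ _ _ o1_s6755) (B (M (nat_lit 618) (B (lo19_15_4 (nat_lit 553)) (M (nat_lit 555) (B (lo111_15_5 (nat_lit 491)) (M (nat_lit 650) (B (lo110_21_6 (nat_lit 682)) (lo111_16_5 (nat_lit 619)))))))) (K _ _ _ o1_s6801))))) (B (M (nat_lit 587) (B (M (nat_lit 553) (B (lo19_15_4 (nat_lit 618)) (M (nat_lit 617) (B (lo19_19_6 (nat_lit 490)) (M (nat_lit 588) (B (lo112_18_1 (nat_lit 616)) (lo112_18_3 (nat_lit 552)))))))) (B (K _ _ _ o1_s6767) (B (M (nat_lit 618) (B (lo19_15_4 (nat_lit 553)) (M (nat_lit 555) (B (lo111_15_5 (nat_lit 491)) (M (nat_lit 650) (B (lo110_21_6 (nat_lit 682)) (lo111_16_5 (nat_lit 619)))))))) (K _ _ _ o1_s6828))))) (M (nat_lit 587) (B (M (nat_lit 555) (B (M (nat_lit 556) (B (lo18_18_2 (nat_lit 584)) (M (nat_lit 557) (B (lo19_18_2 (nat_lit 588)) (lo114_17_1 (nat_lit 558)))))) (B (M (nat_lit 619) (B (lo111_19_7 (nat_lit 490)) (M (nat_lit 584) (B (lo18_18_0 (nat_lit 620)) (lo18_18_2 (nat_lit 556)))))) (M (nat_lit 619) (B (lo111_19_7 (nat_lit 490)) (M (nat_lit 618) (B (lo111_16_5 (nat_lit 650)) (lo111_15_5 (nat_lit 491))))))))) (B (K _ _ _ o1_s6779) (B (K _ _ _ o1_s6801) (B (M (nat_lit 588) (B (M (nat_lit 555) (B (M (nat_lit 620) (B (lo19_18_0 (nat_lit 621)) (lo111_15_4 (nat_lit 491)))) (M (nat_lit 556) (B (lo19_18_2 (nat_lit 557)) (lo18_18_2 (nat_lit 584)))))) (B (M (nat_lit 555) (B (M (nat_lit 491) (B (lo111_15_4 (nat_lit 620)) (lo111_15_5 (nat_lit 618)))) (M (nat_lit 556) (B (lo19_18_2 (nat_lit 557)) (lo18_18_2 (nat_lit 584)))))) (B (M (nat_lit 584) (B (M (nat_lit 616) (B (lo112_18_1 (nat_lit 617)) (lo111_18_1 (nat_lit 615)))) (M (nat_lit 556) (B (lo19_18_2 (nat_lit 557)) (lo18_18_2 (nat_lit 555)))))) (M (nat_lit 589) (B (M (nat_lit 621) (B (lo110_18_0 (nat_lit 622)) (lo19_18_0 (nat_lit 620)))) (M (nat_lit 617) (B (lo113_18_1 (nat_lit 618)) (lo112_18_1 (nat_lit 616)))))))))) (B (M (nat_lit 584) (B (M (nat_lit 619) (B (lo18_18_0 (nat_lit 620)) (M (nat_lit 555) (B (lo111_19_7 (nat_lit 490)) (lo18_18_2 (nat_lit 556)))))) (M (nat_lit 583) (B (M (nat_lit 615) (B (lo111_18_1 (nat_lit 616)) (lo110_18_1 (nat_lit 614)))) (M (nat_lit 551) (B (lo111_18_3 (nat_lit 552)) (lo110_18_3 (nat_lit 550)))))))) (B (K _ _ _ o1_s6828) (B (M (nat_lit 619) (B (M (nat_lit 620) (B (lo18_18_0 (nat_lit 584)) (M (nat_lit 621) (B (lo114_19_3 (nat_lit 622)) (lo19_18_0 (nat_lit 588)))))) (B (M (nat_lit 620) (B (lo18_18_0 (nat_lit 584)) (M (nat_lit 621) (B (lo113_19_3 (nat_lit 618)) (lo19_18_0 (nat_lit 588)))))) (M (nat_lit 555) (B (lo111_19_7 (nat_lit 490)) (M (nat_lit 618) (B (lo111_16_5 (nat_lit 650)) (lo111_15_5 (nat_lit 491))))))))) (M (nat_lit 588) (B (M (nat_lit 557) (B (lo19_18_2 (nat_lit 556)) (M (nat_lit 617) (B (lo112_18_1 (nat_lit 616)) (M (nat_lit 589) (B (lo113_18_1 (nat_lit 618)) (lo110_18_2 (nat_lit 558)))))))) (B (M (nat_lit 589) (B (M (nat_lit 621) (B (lo110_18_0 (nat_lit 622)) (lo19_18_0 (nat_lit 620)))) (M (nat_lit 557) (B (lo110_18_2 (nat_lit 558)) (lo19_18_2 (nat_lit 556)))))) (M (nat_lit 584) (B (M (nat_lit 620) (B (lo19_18_0 (nat_lit 621)) (lo18_18_0 (nat_lit 619)))) (M (nat_lit 616) (B (lo112_18_1 (nat_lit 617)) (lo111_18_1 (nat_lit 615))))))))))))))))))))))) (B (M (nat_lit 554) (B (lo110_19_7 (nat_lit 618)) (M (nat_lit 457) (B (lo110_18_7 (nat_lit 490)) (lo19_13_4 (nat_lit 425)))))) (M (nat_lit 585) (B (M (nat_lit 618) (B (lo19_15_4 (nat_lit 553)) (lo110_19_7 (nat_lit 554)))) (B (M (nat_lit 584) (B (M (nat_lit 616) (B (lo19_15_5 (nat_lit 553)) (M (nat_lit 615) (B (lo111_18_1 (nat_lit 587)) (M (nat_lit 614) (B (lo16_19_2 (nat_lit 617)) (lo110_18_1 (nat_lit 583)))))))) (B (M (nat_lit 587) (B (M (nat_lit 616) (B (lo111_18_1 (nat_lit 615)) (lo19_15_5 (nat_lit 553)))) (M (nat_lit 619) (B (lo18_18_0 (nat_lit 620)) (M (nat_lit 555) (B (lo111_19_7 (nat_lit 490)) (lo18_18_2 (nat_lit 556)))))))) (B (M (nat_lit 587) (B (M (nat_lit 619) (B (lo18_18_0 (nat_lit 620)) (M (nat_lit 555) (B (lo111_19_7 (nat_lit 490)) (lo18_18_2 (nat_lit 556)))))) (B (M (nat_lit 588) (B (M (nat_lit 556) (B (lo19_18_2 (nat_lit 557)) (lo18_18_2 (nat_lit 555)))) (M (nat_lit 552) (B (lo112_18_3 (nat_lit 553)) (lo111_18_3 (nat_lit 551)))))) (M (nat_lit 588) (B (M (nat_lit 620) (B (lo19_18_0 (nat_lit 621)) (lo18_18_0 (nat_lit 619)))) (M (nat_lit 552) (B (lo112_18_3 (nat_lit 553)) (lo111_18_3 (nat_lit 551))))))))) (B (M (nat_lit 553) (B (lo19_15_5 (nat_lit 616)) (M (nat_lit 554) (B (M (nat_lit 617) (B (lo19_20_6 (nat_lit 649)) (lo110_15_5 (nat_lit 490)))) (M (nat_lit 555) (B (lo17_18_2 (nat_lit 583)) (lo112_17_1 (nat_lit 556)))))))) (M (nat_lit 587) (B (M (nat_lit 619) (B (lo18_18_0 (nat_lit 620)) (M (nat_lit 555) (B (lo111_19_7 (nat_lit 490)) (lo18_18_2 (nat_lit 556)))))) (B (M (nat_lit 588) (B (M (nat_lit 616) (B (lo112_18_1 (nat_lit 617)) (lo111_18_1 (nat_lit 615)))) (M (nat_lit 556) (B (lo19_18_2 (nat_lit 557)) (lo18_18_2 (nat_lit 555)))))) (M (nat_lit 588) (B (M (nat_lit 620) (B (lo19_18_0 (nat_lit 621)) (lo18_18_0 (nat_lit 619)))) (M (nat_lit 616) (B (lo112_18_1 (nat_lit 617)) (lo111_18_1 (nat_lit 615)))))))))))))) (B (M (nat_lit 553) (B (lo19_15_4 (nat_lit 618)) (M (nat_lit 616) (B (lo19_15_5 (nat_lit 584)) (M (nat_lit 617) (B (lo19_16_5 (nat_lit 648)) (lo19_19_6 (nat_lit 490)))))))) (M (nat_lit 587) (B (M (nat_lit 554) (B (lo110_19_7 (nat_lit 618)) (M (nat_lit 490) (B (lo110_15_4 (nat_lit 619)) (lo110_15_5 (nat_lit 617)))))) (B (M (nat_lit 555) (B (M (nat_lit 618) (B (lo111_15_5 (nat_lit 491)) (lo110_19_7 (nat_lit 554)))) (M (nat_lit 556) (B (lo18_18_2 (nat_lit 584)) (M (nat_lit 557) (B (lo19_18_2 (nat_lit 588)) (lo114_17_1 (nat_lit 558)))))))) (K _ _ _ o1_s6779))))))))))))) (lo112_16_3 (nat_lit 488)))) (B (M (nat_lit 457) (B (M (nat_lit 553) (B (M (nat_lit 586) (B (lo19_14_4 (nat_lit 554)) (M (nat_lit 585) (B (lo19_15_4 (nat_lit 618)) (M (nat_lit 584) (B (lo19_15_5 (nat_lit 616)) (lo19_14_5 (nat_lit 552)))))))) (B (M (nat_lit 554) (B (lo19_14_4 (nat_lit 586)) (M (nat_lit 552) (B (lo19_14_5 (nat_lit 584)) (M (nat_lit 523) (B (lo17_17_2 (nat_lit 551)) (lo112_16_1 (nat_lit 524)))))))) (B (M (nat_lit 585) (B (M (nat_lit 586) (B (lo19_15_4 (nat_lit 618)) (lo19_14_4 (nat_lit 554)))) (B (M (nat_lit 554) (B (lo19_14_4 (nat_lit 586)) (M (nat_lit 617) (B (lo19_20_6 (nat_lit 649)) (lo19_19_6 (nat_lit 490)))))) (B (M (nat_lit 617) (B (lo19_19_6 (nat_lit 490)) (M (nat_lit 649) (B (lo19_20_6 (nat_lit 554)) (M (nat_lit 648) (B (lo19_17_5 (nat_lit 680)) (lo19_16_5 (nat_lit 616)))))))) (M (nat_lit 617) (B (lo19_19_6 (nat_lit 490)) (M (nat_lit 618) (B (lo19_16_4 (nat_lit 650)) (lo19_15_4 (nat_lit 586)))))))))) (B (M (nat_lit 585) (B (M (nat_lit 584) (B (lo19_15_5 (nat_lit 616)) (lo19_14_5 (nat_lit 552)))) (M (nat_lit 617) (B (lo19_19_6 (nat_lit 490)) (M (nat_lit 649) (B (lo19_20_6 (nat_lit 554)) (M (nat_lit 650) (B (lo19_17_4 (nat_lit 682)) (lo19_16_4 (nat_lit 618)))))))))) (M (nat_lit 585) (B (M (nat_lit 584) (B (lo19_15_5 (nat_lit 616)) (lo19_14_5 (nat_lit 552)))) (M (nat_lit 617) (B (lo19_19_6 (nat_lit 490)) (M (nat_lit 618) (B (lo19_16_4 (nat_lit 650)) (lo19_15_4 (nat_lit 586))))))))))))) (M (nat_lit 425) (B (lo112_13_1 (nat_lit 456)) (M (nat_lit 392) (B (lo112_13_3 (nat_lit 393)) (M (nat_lit 424) (B (lo111_13_3 (nat_lit 391)) (lo19_16_7 (nat_lit 521)))))))))) (B (M (nat_lit 553) (B (M (nat_lit 585) (B (M (nat_lit 618) (B (lo19_15_4 (nat_lit 586)) (M (nat_lit 617) (B (lo19_16_4 (nat_lit 650)) (lo19_19_6 (nat_lit 490)))))) (B (M (nat_lit 617) (B (lo19_19_6 (nat_lit 490)) (M (nat_lit 616) (B (lo19_16_5 (nat_lit 648)) (lo19_15_5 (nat_lit 584)))))) (M (nat_lit 584) (B (lo19_15_5 (nat_lit 616)) (M (nat_lit 552) (B (lo19_14_5 (nat_lit 457)) (M (nat_lit 586) (B (lo19_15_4 (nat_lit 618)) (M (nat_lit 587) (B (lo112_18_3 (nat_lit 588)) (lo111_18_3 (nat_lit 551))))))))))))) (B (M (nat_lit 488) (B (M (nat_lit 456) (B (lo19_18_7 (nat_lit 585)) (M (nat_lit 424) (B (lo18_12_4 (nat_lit 392)) (lo19_17_7 (nat_lit 457)))))) (M (nat_lit 523) (B (lo112_16_3 (nat_lit 524)) (M (nat_lit 487) (B (lo16_15_0 (nat_lit 486)) (lo17_15_0 (nat_lit 490)))))))) (M (nat_lit 523) (B (lo112_16_1 (nat_lit 552)) (lo112_16_3 (nat_lit 488))))))) (B (M (nat_lit 553) (B (M (nat_lit 585) (B (M (nat_lit 617) (B (M (nat_lit 616) (B (lo19_16_5 (nat_lit 648)) (lo19_15_5 (nat_lit 584)))) (M (nat_lit 618) (B (lo19_16_4 (nat_lit 650)) (lo19_15_4 (nat_lit 586)))))) (B (M (nat_lit 457) (B (M (nat_lit 586) (B (lo19_15_4 (nat_lit 618)) (lo19_14_4 (nat_lit 554)))) (M (nat_lit 456) (B (lo19_18_7 (nat_lit 488)) (lo19_17_7 (nat_lit 424)))))) (B (M (nat_lit 457) (B (M (nat_lit 456) (B (lo19_18_7 (nat_lit 488)) (lo19_17_7 (nat_lit 424)))) (M (nat_lit 554) (B (lo19_14_4 (nat_lit 586)) (lo19_13_4 (nat_lit 425)))))) (M (nat_lit 617) (B (M (nat_lit 616) (B (lo19_16_5 (nat_lit 648)) (lo19_15_5 (nat_lit 584)))) (M (nat_lit 649) (B (lo19_20_6 (nat_lit 554)) (M (nat_lit 650) (B (lo19_17_4 (nat_lit 682)) (lo19_16_4 (nat_lit 618)))))))))))) (B (M (nat_lit 457) (B (M (nat_lit 552) (B (lo19_14_5 (nat_lit 584)) (lo112_16_1 (nat_lit 523)))) (M (nat_lit 554) (B (lo19_14_4 (nat_lit 586)) (lo19_13_4 (nat_lit 425)))))) (M (nat_lit 523) (B (lo112_16_1 (nat_lit 552)) (lo112_16_3 (nat_lit 488))))))) (M (nat_lit 425) (B (M (nat_lit 392) (B (M (nat_lit 424) (B (lo19_16_7 (nat_lit 457)) (lo111_13_3 (nat_lit 391)))) (B (M (nat_lit 393) (B (lo112_13_3 (nat_lit 428)) (M (nat_lit 391) (B (lo111_13_3 (nat_lit 424)) (lo16_12_0 (nat_lit 390)))))) (M (nat_lit 393) (B (lo112_13_3 (nat_lit 428)) (M (nat_lit 457) (B (lo19_12_4 (nat_lit 490)) (lo19_15_7 (nat_lit 360))))))))) (B (M (nat_lit 392) (B (lo112_13_3 (nat_lit 393)) (M (nat_lit 424) (B (lo111_13_3 (nat_lit 391)) (M (nat_lit 456) (B (lo111_13_1 (nat_lit 455)) (lo18_12_4 (nat_lit 488)))))))) (M (nat_lit 457) (B (lo112_13_1 (nat_lit 456)) (lo19_13_4 (nat_lit 554))))))))))))) (M (nat_lit 397) (B (lo113_12_5 (nat_lit 493)) (lo110_13_2 (nat_lit 398)))))) (B (M (nat_lit 520) (B (M (nat_lit 523) (B (M (nat_lit 488) (B (lo111_16_3 (nat_lit 487)) (lo112_16_3 (nat_lit 489)))) (B (M (nat_lit 519) (B (M (nat_lit 555) (B (lo17_16_0 (nat_lit 554)) (lo18_16_0 (nat_lit 556)))) (M (nat_lit 491) (B (lo17_16_2 (nat_lit 490)) (lo18_16_2 (nat_lit 492)))))) (M (nat_lit 519) (B (M (nat_lit 487) (B (lo110_16_3 (nat_lit 486)) (lo111_16_3 (nat_lit 488)))) (M (nat_lit 491) (B (lo17_16_2 (nat_lit 490)) (lo18_16_2 (nat_lit 492))))))))) (B (M (nat_lit 523) (B (M (nat_lit 488) (B (lo111_16_3 (nat_lit 487)) (lo112_16_3 (nat_lit 489)))) (M (nat_lit 519) (B (M (nat_lit 551) (B (lo110_16_1 (nat_lit 550)) (lo111_16_1 (nat_lit 552)))) (M (nat_lit 555) (B (lo17_16_0 (nat_lit 554)) (lo18_16_0 (nat_lit 556)))))))) (B (M (nat_lit 523) (B (M (nat_lit 488) (B (lo111_16_3 (nat_lit 487)) (lo112_16_3 (nat_lit 489)))) (B (M (nat_lit 556) (B (lo18_16_0 (nat_lit 555)) (lo19_16_0 (nat_lit 557)))) (B (M (nat_lit 488) (B (lo111_16_3 (nat_lit 487)) (lo112_16_3 (nat_lit 489)))) (M (nat_lit 552) (B (lo111_16_1 (nat_lit 551)) (M (nat_lit 488) (B (lo111_16_3 (nat_lit 487)) (M (nat_lit 456) (B (M (nat_lit 425) (B (lo18_17_6 (nat_lit 457)) (M (nat_lit 424) (B (lo18_16_6 (nat_lit 393)) (M (nat_lit 423) (B (lo18_17_7 (nat_lit 455)) (lo18_16_7 (nat_lit 391)))))))) (B (M (nat_lit 584) (B (M (nat_lit 489) (B (lo18_19_6 (nat_lit 616)) (lo18_18_6 (nat_lit 457)))) (B (M (nat_lit 457) (B (lo18_18_6 (nat_lit 489)) (lo18_17_6 (nat_lit 425)))) (M (nat_lit 616) (B (M (nat_lit 615) (B (lo18_16_5 (nat_lit 647)) (lo18_15_5 (nat_lit 583)))) (M (nat_lit 617) (B (lo18_16_4 (nat_lit 649)) (lo18_15_4 (nat_lit 585))))))))) (B (M (nat_lit 424) (B (M (nat_lit 423) (B (lo18_17_7 (nat_lit 455)) (lo18_16_7 (nat_lit 391)))) (M (nat_lit 392) (B (lo18_12_4 (nat_lit 489)) (M (nat_lit 393) (B (lo18_16_6 (nat_lit 425)) (lo18_15_6 (nat_lit 361)))))))) (M (nat_lit 423) (B (lo18_17_7 (nat_lit 455)) (M (nat_lit 489) (B (M (nat_lit 584) (B (lo18_19_6 (nat_lit 616)) (lo18_18_6 (nat_lit 457)))) (M (nat_lit 424) (B (lo18_16_7 (nat_lit 391)) (lo18_12_4 (nat_lit 392)))))))))))))))))))) (B (M (nat_lit 523) (B (M (nat_lit 519) (B (M (nat_lit 551) (B (lo110_16_1 (nat_lit 550)) (lo111_16_1 (nat_lit 552)))) (M (nat_lit 491) (B (lo17_16_2 (nat_lit 490)) (lo18_16_2 (nat_lit 492)))))) (B (M (nat_lit 519) (B (M (nat_lit 555) (B (lo17_16_0 (nat_lit 554)) (lo18_16_0 (nat_lit 556)))) (M (nat_lit 491) (B (lo17_16_2 (nat_lit 490)) (lo18_16_2 (nat_lit 492)))))) (B (M (nat_lit 556) (B (lo18_16_0 (nat_lit 555)) (lo19_16_0 (nat_lit 557)))) (M (nat_lit 519) (B (M (nat_lit 551) (B (lo110_16_1 (nat_lit 550)) (lo111_16_1 (nat_lit 552)))) (M (nat_lit 555) (B (lo17_16_0 (nat_lit 554)) (lo18_16_0 (nat_lit 556)))))))))) (B (M (nat_lit 523) (B (M (nat_lit 519) (B (M (nat_lit 551) (B (lo110_16_1 (nat_lit 550)) (lo111_16_1 (nat_lit 552)))) (M (nat_lit 491) (B (lo17_16_2 (nat_lit 490)) (lo18_16_2 (nat_lit 492)))))) (B (M (nat_lit 519) (B (M (nat_lit 487) (B (lo110_16_3 (nat_lit 486)) (lo111_16_3 (nat_lit 488)))) (M (nat_lit 491) (B (lo17_16_2 (nat_lit 490)) (lo18_16_2 (nat_lit 492)))))) (B (M (nat_lit 488) (B (lo111_16_3 (nat_lit 487)) (lo112_16_3 (nat_lit 489)))) (M (nat_lit 519) (B (M (nat_lit 551) (B (lo110_16_1 (nat_lit 550)) (lo111_16_1 (nat_lit 552)))) (M (nat_lit 487) (B (lo110_16_3 (nat_lit 486)) (lo111_16_3 (nat_lit 488)))))))))) (B (M (nat_lit 519) (B (M (nat_lit 518) (B (M (nat_lit 486) (B (lo19_16_3 (nat_lit 485)) (lo110_16_3 (nat_lit 487)))) (M (nat_lit 490) (B (lo16_16_2 (nat_lit 489)) (lo17_16_2 (nat_lit 491)))))) (B (M (nat_lit 518) (B (M (nat_lit 550) (B (lo19_16_1 (nat_lit 549)) (lo110_16_1 (nat_lit 551)))) (M (nat_lit 490) (B (lo16_16_2 (nat_lit 489)) (lo17_16_2 (nat_lit 491)))))) (K _ _ _ o1_s7139)))) (M (nat_lit 523) (B (M (nat_lit 555) (B (lo18_16_0 (nat_lit 556)) (M (nat_lit 551) (B (lo111_16_1 (nat_lit 552)) (M (nat_lit 519) (B (lo110_16_1 (nat_lit 550)) (lo17_16_0 (nat_lit 554)))))))) (B (M (nat_lit 519) (B (M (nat_lit 487) (B (lo110_16_3 (nat_lit 486)) (lo111_16_3 (nat_lit 488)))) (M (nat_lit 555) (B (lo17_16_0 (nat_lit 554)) (lo18_16_0 (nat_lit 556)))))) (B (M (nat_lit 488) (B (lo111_16_3 (nat_lit 487)) (lo112_16_3 (nat_lit 489)))) (M (nat_lit 519) (B (M (nat_lit 551) (B (lo110_16_1 (nat_lit 550)) (lo111_16_1 (nat_lit 552)))) (M (nat_lit 487) (B (lo110_16_3 (nat_lit 486)) (lo111_16_3 (nat_lit 488))))))))))))))))) (B (M (nat_lit 520) (B (M (nat_lit 523) (B (M (nat_lit 556) (B (lo18_16_0 (nat_lit 555)) (lo19_16_0 (nat_lit 557)))) (B (M (nat_lit 552) (B (lo111_16_1 (nat_lit 551)) (lo112_16_1 (nat_lit 553)))) (B (M (nat_lit 552) (B (lo111_16_1 (nat_lit 551)) (lo112_16_1 (nat_lit 553)))) (M (nat_lit 519) (B (M (nat_lit 551) (B (lo110_16_1 (nat_lit 550)) (lo111_16_1 (nat_lit 552)))) (M (nat_lit 491) (B (lo17_16_2 (nat_lit 490)) (lo18_16_2 (nat_lit 492)))))))))) (B (M (nat_lit 523) (B (M (nat_lit 552) (B (lo111_16_1 (nat_lit 551)) (lo112_16_1 (nat_lit 553)))) (B (M (nat_lit 488) (B (lo111_16_3 (nat_lit 487)) (lo112_16_3 (nat_lit 489)))) (B (M (nat_lit 552) (B (lo111_16_1 (nat_lit 551)) (lo112_16_1 (nat_lit 553)))) (M (nat_lit 519) (B (M (nat_lit 487) (B (lo110_16_3 (nat_lit 486)) (lo111_16_3 (nat_lit 488)))) (M (nat_lit 491) (B (lo17_16_2 (nat_lit 490)) (lo18_16_2 (nat_lit 492)))))))))) (B (M (nat_lit 523) (B (M (nat_lit 556) (B (lo18_16_0 (nat_lit 555)) (lo19_16_0 (nat_lit 557)))) (B (M (nat_lit 488) (B (lo111_16_3 (nat_lit 487)) (lo112_16_3 (nat_lit 489)))) (B (M (nat_lit 488) (B (lo111_16_3 (nat_lit 487)) (lo112_16_3 (nat_lit 489)))) (M (nat_lit 519) (B (M (nat_lit 487) (B (lo110_16_3 (nat_lit 486)) (lo111_16_3 (nat_lit 488)))) (M (nat_lit 491) (B (lo17_16_2 (nat_lit 490)) (lo18_16_2 (nat_lit 492)))))))))) (B (M (nat_lit 488) (B (M (nat_lit 487) (B (lo111_16_3 (nat_lit 523)) (M (nat_lit 486) (B (lo15_15_0 (nat_lit 485)) (lo16_15_0 (nat_lit 489)))))) (B (M (nat_lit 523) (B (lo111_16_3 (nat_lit 487)) (lo112_16_3 (nat_lit 489)))) (B (M (nat_lit 552) (B (M (nat_lit 523) (B (lo111_16_1 (nat_lit 551)) (lo112_16_1 (nat_lit 553)))) (B (M (nat_lit 456) (B (M (nat_lit 553) (B (lo18_14_4 (nat_lit 585)) (lo18_13_4 (nat_lit 424)))) (B (M (nat_lit 584) (B (M (nat_lit 585) (B (lo18_15_4 (nat_lit 617)) (lo18_14_4 (nat_lit 553)))) (M (nat_lit 615) (B (lo18_15_5 (nat_lit 583)) (M (nat_lit 616) (B (lo18_16_5 (nat_lit 647)) (lo18_19_6 (nat_lit 489)))))))) (B (M (nat_lit 424) (B (lo18_13_4 (nat_lit 553)) (M (nat_lit 423) (B (lo18_17_7 (nat_lit 455)) (lo18_16_7 (nat_lit 391)))))) (K _ _ _ o1_s7187))))) (B (M (nat_lit 523) (B (lo111_16_1 (nat_lit 551)) (lo112_16_3 (nat_lit 489)))) (M (nat_lit 456) (B (M (nat_lit 551) (B (lo18_14_5 (nat_lit 583)) (lo111_16_1 (nat_lit 523)))) (M (nat_lit 553) (B (lo18_14_4 (nat_lit 585)) (lo18_13_4 (nat_lit 424)))))))))) (B (M (nat_lit 523) (B (lo111_16_3 (nat_lit 487)) (M (nat_lit 552) (B (lo111_16_1 (nat_lit 551)) (lo112_16_1 (nat_lit 553)))))) (M (nat_lit 456) (B (M (nat_lit 553) (B (lo18_13_4 (nat_lit 424)) (M (nat_lit 585) (B (lo18_14_4 (nat_lit 552)) (lo19_19_7 (nat_lit 617)))))) (B (M (nat_lit 553) (B (lo18_13_4 (nat_lit 424)) (M (nat_lit 585) (B (lo19_19_7 (nat_lit 617)) (lo19_18_7 (nat_lit 489)))))) (B (M (nat_lit 552) (B (M (nat_lit 553) (B (lo18_14_4 (nat_lit 585)) (M (nat_lit 551) (B (lo16_17_2 (nat_lit 550)) (lo18_14_5 (nat_lit 583)))))) (B (M (nat_lit 584) (B (M (nat_lit 455) (B (lo18_18_7 (nat_lit 487)) (lo18_17_7 (nat_lit 423)))) (M (nat_lit 585) (B (lo18_15_4 (nat_lit 617)) (lo18_14_4 (nat_lit 553)))))) (M (nat_lit 584) (B (M (nat_lit 583) (B (lo18_15_5 (nat_lit 615)) (lo18_14_5 (nat_lit 551)))) (M (nat_lit 455) (B (lo18_18_7 (nat_lit 487)) (lo18_17_7 (nat_lit 423))))))))) (B (M (nat_lit 553) (B (lo18_13_4 (nat_lit 424)) (M (nat_lit 585) (B (lo18_14_4 (nat_lit 552)) (lo19_18_7 (nat_lit 489)))))) (B (M (nat_lit 424) (B (lo18_13_4 (nat_lit 553)) (M (nat_lit 392) (B (lo18_12_4 (nat_lit 489)) (M (nat_lit 393) (B (lo18_16_6 (nat_lit 425)) (lo18_15_6 (nat_lit 361)))))))) (M (nat_lit 552) (B (M (nat_lit 584) (B (M (nat_lit 583) (B (lo18_15_5 (nat_lit 615)) (lo18_14_5 (nat_lit 551)))) (M (nat_lit 455) (B (lo18_18_7 (nat_lit 487)) (lo18_17_7 (nat_lit 423)))))) (B (K _ _ _ o1_s7187) (M (nat_lit 584) (B (M (nat_lit 583) (B (lo18_15_5 (nat_lit 615)) (lo18_14_5 (nat_lit 551)))) (M (nat_lit 616) (B (lo18_19_6 (nat_lit 489)) (M (nat_lit 617) (B (lo18_16_4 (nat_lit 649)) (lo18_15_4 (nat_lit 585)))))))))))))))))))))) (B (M (nat_lit 519) (B (M (nat_lit 518) (B (M (nat_lit 550) (B (lo19_16_1 (nat_lit 549)) (lo110_16_1 (nat_lit 551)))) (M (nat_lit 486) (B (lo19_16_3 (nat_lit 485)) (lo110_16_3 (nat_lit 487)))))) (B (M (nat_lit 518) (B (M (nat_lit 486) (B (lo19_16_3 (nat_lit 485)) (lo110_16_3 (nat_lit 487)))) (M (nat_lit 490) (B (lo16_16_2 (nat_lit 489)) (lo17_16_2 (nat_lit 491)))))) (B (M (nat_lit 518) (B (M (nat_lit 550) (B (lo19_16_1 (nat_lit 549)) (lo110_16_1 (nat_lit 551)))) (M (nat_lit 490) (B (lo16_16_2 (nat_lit 489)) (lo17_16_2 (nat_lit 491)))))) (K _ _ _ o1_s7139))))) (M (nat_lit 523) (B (M (nat_lit 552) (B (lo111_16_1 (nat_lit 551)) (lo112_16_1 (nat_lit 553)))) (B (M (nat_lit 488) (B (lo111_16_3 (nat_lit 487)) (lo112_16_3 (nat_lit 489)))) (B (M (nat_lit 552) (B (lo111_16_1 (nat_lit 551)) (lo112_16_1 (nat_lit 553)))) (M (nat_lit 519) (B (M (nat_lit 551) (B (lo110_16_1 (nat_lit 550)) (lo111_16_1 (nat_lit 552)))) (M (nat_lit 487) (B (lo110_16_3 (nat_lit 486)) (lo111_16_3 (nat_lit 488)))))))))))))))) (B (M (nat_lit 520) (B (M (nat_lit 523) (B (M (nat_lit 492) (B (lo18_16_2 (nat_lit 491)) (lo19_16_2 (nat_lit 493)))) (B (M (nat_lit 488) (B (lo111_16_3 (nat_lit 487)) (lo112_16_3 (nat_lit 489)))) (B (M (nat_lit 488) (B (lo111_16_3 (nat_lit 487)) (lo112_16_3 (nat_lit 489)))) (M (nat_lit 519) (B (M (nat_lit 487) (B (lo110_16_3 (nat_lit 486)) (lo111_16_3 (nat_lit 488)))) (M (nat_lit 555) (B (lo17_16_0 (nat_lit 554)) (lo18_16_0 (nat_lit 556)))))))))) (B (M (nat_lit 523) (B (M (nat_lit 488) (B (lo111_16_3 (nat_lit 487)) (lo112_16_3 (nat_lit 489)))) (B (M (nat_lit 552) (B (lo111_16_1 (nat_lit 551)) (lo112_16_1 (nat_lit 553)))) (B (M (nat_lit 488) (B (lo111_16_3 (nat_lit 487)) (lo112_16_3 (nat_lit 489)))) (M (nat_lit 519) (B (M (nat_lit 551) (B (lo110_16_1 (nat_lit 550)) (lo111_16_1 (nat_lit 552)))) (M (nat_lit 555) (B (lo17_16_0 (nat_lit 554)) (lo18_16_0 (nat_lit 556)))))))))) (B (M (nat_lit 523) (B (M (nat_lit 492) (B (lo18_16_2 (nat_lit 491)) (lo19_16_2 (nat_lit 493)))) (B (M (nat_lit 552) (B (lo111_16_1 (nat_lit 551)) (lo112_16_1 (nat_lit 553)))) (B (M (nat_lit 552) (B (lo111_16_1 (nat_lit 551)) (lo112_16_1 (nat_lit 553)))) (M (nat_lit 519) (B (M (nat_lit 551) (B (lo110_16_1 (nat_lit 550)) (lo111_16_1 (nat_lit 552)))) (M (nat_lit 555) (B (lo17_16_0 (nat_lit 554)) (lo18_16_0 (nat_lit 556)))))))))) (B (M (nat_lit 552) (B (M (nat_lit 551) (B (lo111_16_1 (nat_lit 523)) (M (nat_lit 550) (B (lo15_17_2 (nat_lit 549)) (lo16_17_2 (nat_lit 553)))))) (B (M (nat_lit 523) (B (lo111_16_1 (nat_lit 551)) (lo112_16_1 (nat_lit 553)))) (B (M (nat_lit 488) (B (M (nat_lit 523) (B (lo111_16_3 (nat_lit 487)) (lo112_16_3 (nat_lit 489)))) (B (M (nat_lit 584) (B (M (nat_lit 489) (B (lo18_18_6 (nat_lit 457)) (lo18_19_6 (nat_lit 616)))) (B (M (nat_lit 456) (B (M (nat_lit 457) (B (lo18_17_6 (nat_lit 425)) (lo18_18_6 (nat_lit 489)))) (M (nat_lit 423) (B (lo18_17_7 (nat_lit 455)) (M (nat_lit 424) (B (lo18_16_7 (nat_lit 391)) (lo18_13_4 (nat_lit 553)))))))) (B (M (nat_lit 616) (B (lo18_19_6 (nat_lit 489)) (M (nat_lit 615) (B (lo18_15_5 (nat_lit 583)) (lo18_16_5 (nat_lit 647)))))) (K _ _ _ o1_s7276))))) (B (M (nat_lit 523) (B (lo111_16_3 (nat_lit 487)) (lo112_16_1 (nat_lit 553)))) (M (nat_lit 584) (B (M (nat_lit 487) (B (lo18_18_7 (nat_lit 455)) (lo111_16_3 (nat_lit 523)))) (M (nat_lit 489) (B (lo18_18_6 (nat_lit 457)) (lo18_19_6 (nat_lit 616)))))))))) (B (M (nat_lit 523) (B (lo111_16_1 (nat_lit 551)) (M (nat_lit 488) (B (lo111_16_3 (nat_lit 487)) (lo112_16_3 (nat_lit 489)))))) (M (nat_lit 584) (B (M (nat_lit 489) (B (lo18_19_6 (nat_lit 616)) (M (nat_lit 457) (B (lo18_18_6 (nat_lit 488)) (lo19_13_5 (nat_lit 425)))))) (B (M (nat_lit 489) (B (lo18_19_6 (nat_lit 616)) (M (nat_lit 457) (B (lo19_13_5 (nat_lit 425)) (lo19_14_5 (nat_lit 553)))))) (B (M (nat_lit 488) (B (M (nat_lit 489) (B (lo18_18_6 (nat_lit 457)) (M (nat_lit 487) (B (lo16_15_0 (nat_lit 486)) (lo18_18_7 (nat_lit 455)))))) (B (M (nat_lit 456) (B (M (nat_lit 583) (B (lo18_14_5 (nat_lit 551)) (lo18_15_5 (nat_lit 615)))) (M (nat_lit 457) (B (lo18_17_6 (nat_lit 425)) (lo18_18_6 (nat_lit 489)))))) (M (nat_lit 456) (B (M (nat_lit 455) (B (lo18_17_7 (nat_lit 423)) (lo18_18_7 (nat_lit 487)))) (M (nat_lit 583) (B (lo18_14_5 (nat_lit 551)) (lo18_15_5 (nat_lit 615))))))))) (B (M (nat_lit 489) (B (lo18_19_6 (nat_lit 616)) (M (nat_lit 457) (B (lo18_18_6 (nat_lit 488)) (lo19_14_5 (nat_lit 553)))))) (B (M (nat_lit 616) (B (lo18_19_6 (nat_lit 489)) (M (nat_lit 648) (B (lo18_20_6 (nat_lit 553)) (M (nat_lit 649) (B (lo18_16_4 (nat_lit 617)) (lo18_17_4 (nat_lit 681)))))))) (M (nat_lit 488) (B (M (nat_lit 456) (B (M (nat_lit 455) (B (lo18_17_7 (nat_lit 423)) (lo18_18_7 (nat_lit 487)))) (M (nat_lit 583) (B (lo18_14_5 (nat_lit 551)) (lo18_15_5 (nat_lit 615)))))) (B (K _ _ _ o1_s7276) (M (nat_lit 456) (B (M (nat_lit 455) (B (lo18_17_7 (nat_lit 423)) (lo18_18_7 (nat_lit 487)))) (M (nat_lit 424) (B (lo18_13_4 (nat_lit 553)) (M (nat_lit 425) (B (lo18_16_6 (nat_lit 393)) (lo18_17_6 (nat_lit 457)))))))))))))))))))))) (B (M (nat_lit 519) (B (M (nat_lit 518) (B (M (nat_lit 486) (B (lo19_16_3 (nat_lit 485)) (lo110_16_3 (nat_lit 487)))) (M (nat_lit 550) (B (lo19_16_1 (nat_lit 549)) (lo110_16_1 (nat_lit 551)))))) (B (M (nat_lit 518) (B (M (nat_lit 550) (B (lo19_16_1 (nat_lit 549)) (lo110_16_1 (nat_lit 551)))) (M (nat_lit 554) (B (lo16_16_0 (nat_lit 553)) (lo17_16_0 (nat_lit 555)))))) (B (M (nat_lit 518) (B (M (nat_lit 486) (B (lo19_16_3 (nat_lit 485)) (lo110_16_3 (nat_lit 487)))) (M (nat_lit 554) (B (lo16_16_0 (nat_lit 553)) (lo17_16_0 (nat_lit 555)))))) (M (nat_lit 487) (B (lo110_16_3 (nat_lit 486)) (M (nat_lit 551) (B (lo110_16_1 (nat_lit 550)) (M (nat_lit 455) (B (M (nat_lit 552) (B (lo17_13_4 (nat_lit 423)) (lo17_14_4 (nat_lit 584)))) (B (M (nat_lit 583) (B (M (nat_lit 456) (B (lo17_17_6 (nat_lit 424)) (lo17_18_6 (nat_lit 488)))) (M (nat_lit 584) (B (lo17_14_4 (nat_lit 552)) (lo17_15_4 (nat_lit 616)))))) (M (nat_lit 423) (B (M (nat_lit 422) (B (lo17_16_7 (nat_lit 390)) (lo17_17_7 (nat_lit 454)))) (M (nat_lit 424) (B (lo17_16_6 (nat_lit 392)) (lo17_17_6 (nat_lit 456))))))))))))))))) (M (nat_lit 523) (B (M (nat_lit 488) (B (lo111_16_3 (nat_lit 487)) (lo112_16_3 (nat_lit 489)))) (B (M (nat_lit 552) (B (lo111_16_1 (nat_lit 551)) (lo112_16_1 (nat_lit 553)))) (B (M (nat_lit 488) (B (lo111_16_3 (nat_lit 487)) (lo112_16_3 (nat_lit 489)))) (M (nat_lit 519) (B (M (nat_lit 487) (B (lo110_16_3 (nat_lit 486)) (lo111_16_3 (nat_lit 488)))) (M (nat_lit 551) (B (lo110_16_1 (nat_lit 550)) (lo111_16_1 (nat_lit 552)))))))))))))))) (B (M (nat_lit 520) (B (M (nat_lit 519) (B (M (nat_lit 518) (B (M (nat_lit 486) (B (lo19_16_3 (nat_lit 485)) (lo110_16_3 (nat_lit 487)))) (M (nat_lit 550) (B (lo19_16_1 (nat_lit 549)) (lo110_16_1 (nat_lit 551)))))) (B (M (nat_lit 518) (B (M (nat_lit 550) (B (lo19_16_1 (nat_lit 549)) (lo110_16_1 (nat_lit 551)))) (M (nat_lit 554) (B (lo16_16_0 (nat_lit 553)) (lo17_16_0 (nat_lit 555)))))) (B (M (nat_lit 551) (B (lo110_16_1 (nat_lit 550)) (M (nat_lit 487) (B (lo110_16_3 (nat_lit 486)) (M (nat_lit 523) (B (lo111_16_3 (nat_lit 488)) (lo111_16_1 (nat_lit 552)))))))) (M (nat_lit 518) (B (M (nat_lit 486) (B (lo19_16_3 (nat_lit 485)) (lo110_16_3 (nat_lit 487)))) (M (nat_lit 554) (B (lo16_16_0 (nat_lit 553)) (lo17_16_0 (nat_lit 555)))))))))) (B (M (nat_lit 519) (B (M (nat_lit 551) (B (lo110_16_1 (nat_lit 550)) (M (nat_lit 487) (B (lo110_16_3 (nat_lit 486)) (M (nat_lit 523) (B (lo111_16_3 (nat_lit 488)) (lo111_16_1 (nat_lit 552)))))))) (B (M (nat_lit 523) (B (M (nat_lit 551) (B (lo110_16_1 (nat_lit 550)) (lo111_16_1 (nat_lit 552)))) (M (nat_lit 555) (B (lo17_16_0 (nat_lit 554)) (lo18_16_0 (nat_lit 556)))))) (B (M (nat_lit 518) (B (M (nat_lit 550) (B (lo19_16_1 (nat_lit 549)) (lo110_16_1 (nat_lit 551)))) (M (nat_lit 554) (B (lo16_16_0 (nat_lit 553)) (lo17_16_0 (nat_lit 555)))))) (M (nat_lit 523) (B (M (nat_lit 487) (B (lo110_16_3 (nat_lit 486)) (lo111_16_3 (nat_lit 488)))) (M (nat_lit 555) (B (lo17_16_0 (nat_lit 554)) (lo18_16_0 (nat_lit 556)))))))))) (B (M (nat_lit 523) (B (M (nat_lit 552) (B (lo111_16_1 (nat_lit 551)) (lo112_16_1 (nat_lit 553)))) (B (M (nat_lit 552) (B (lo111_16_1 (nat_lit 551)) (lo112_16_1 (nat_lit 553)))) (B (M (nat_lit 519) (B (M (nat_lit 551) (B (lo110_16_1 (nat_lit 550)) (lo111_16_1 (nat_lit 552)))) (M (nat_lit 555) (B (lo17_16_0 (nat_lit 554)) (lo18_16_0 (nat_lit 556)))))) (M (nat_lit 488) (B (lo111_16_3 (nat_lit 487)) (lo112_16_3 (nat_lit 489)))))))) (B (M (nat_lit 519) (B (M (nat_lit 518) (B (M (nat_lit 550) (B (lo19_16_1 (nat_lit 549)) (lo110_16_1 (nat_lit 551)))) (M (nat_lit 554) (B (lo16_16_0 (nat_lit 553)) (lo17_16_0 (nat_lit 555)))))) (B (M (nat_lit 523) (B (M (nat_lit 551) (B (lo110_16_1 (nat_lit 550)) (lo111_16_1 (nat_lit 552)))) (M (nat_lit 555) (B (lo17_16_0 (nat_lit 554)) (lo18_16_0 (nat_lit 556)))))) (B (M (nat_lit 518) (B (M (nat_lit 554) (B (lo16_16_0 (nat_lit 553)) (lo17_16_0 (nat_lit 555)))) (M (nat_lit 517) (B (M (nat_lit 485) (B (lo18_16_3 (nat_lit 484)) (lo19_16_3 (nat_lit 486)))) (M (nat_lit 489) (B (lo15_16_2 (nat_lit 488)) (lo16_16_2 (nat_lit 490)))))))) (M (nat_lit 518) (B (M (nat_lit 550) (B (lo19_16_1 (nat_lit 549)) (lo110_16_1 (nat_lit 551)))) (M (nat_lit 517) (B (M (nat_lit 485) (B (lo18_16_3 (nat_lit 484)) (lo19_16_3 (nat_lit 486)))) (M (nat_lit 489) (B (lo15_16_2 (nat_lit 488)) (lo16_16_2 (nat_lit 490)))))))))))) (B (M (nat_lit 519) (B (M (nat_lit 518) (B (M (nat_lit 486) (B (lo19_16_3 (nat_lit 485)) (lo110_16_3 (nat_lit 487)))) (M (nat_lit 554) (B (lo16_16_0 (nat_lit 553)) (lo17_16_0 (nat_lit 555)))))) (B (M (nat_lit 518) (B (M (nat_lit 550) (B (lo19_16_1 (nat_lit 549)) (lo110_16_1 (nat_lit 551)))) (M (nat_lit 554) (B (lo16_16_0 (nat_lit 553)) (lo17_16_0 (nat_lit 555)))))) (B (M (nat_lit 523) (B (M (nat_lit 551) (B (lo110_16_1 (nat_lit 550)) (lo111_16_1 (nat_lit 552)))) (M (nat_lit 555) (B (lo17_16_0 (nat_lit 554)) (lo18_16_0 (nat_lit 556)))))) (M (nat_lit 518) (B (M (nat_lit 486) (B (lo19_16_3 (nat_lit 485)) (lo110_16_3 (nat_lit 487)))) (M (nat_lit 550) (B (lo19_16_1 (nat_lit 549)) (lo110_16_1 (nat_lit 551)))))))))) (B (M (nat_lit 552) (B (M (nat_lit 551) (B (lo111_16_1 (nat_lit 523)) (M (nat_lit 550) (B (lo15_17_2 (nat_lit 549)) (lo16_17_2 (nat_lit 553)))))) (B (M (nat_lit 584) (B (M (nat_lit 489) (B (lo18_19_6 (nat_lit 616)) (M (nat_lit 457) (B (lo18_18_6 (nat_lit 488)) (lo19_14_5 (nat_lit 553)))))) (B (M (nat_lit 616) (B (lo18_19_6 (nat_lit 489)) (M (nat_lit 648) (B (lo18_20_6 (nat_lit 553)) (M (nat_lit 647) (B (lo18_16_5 (nat_lit 615)) (lo18_17_5 (nat_lit 679)))))))) (B (M (nat_lit 616) (B (M (nat_lit 648) (B (lo18_20_6 (nat_lit 553)) (M (nat_lit 647) (B (lo18_16_5 (nat_lit 615)) (lo18_17_5 (nat_lit 679)))))) (B (M (nat_lit 648) (B (M (nat_lit 647) (B (lo18_16_5 (nat_lit 615)) (lo18_17_5 (nat_lit 679)))) (M (nat_lit 649) (B (lo18_16_4 (nat_lit 617)) (lo18_17_4 (nat_lit 681)))))) (B (M (nat_lit 648) (B (lo18_20_6 (nat_lit 553)) (M (nat_lit 649) (B (lo18_16_4 (nat_lit 617)) (lo18_17_4 (nat_lit 681)))))) (M (nat_lit 488) (B (M (nat_lit 615) (B (lo18_15_5 (nat_lit 583)) (lo18_16_5 (nat_lit 647)))) (M (nat_lit 617) (B (lo18_15_4 (nat_lit 585)) (lo18_16_4 (nat_lit 649)))))))))) (B (M (nat_lit 489) (B (lo18_19_6 (nat_lit 616)) (M (nat_lit 488) (B (lo18_18_6 (nat_lit 457)) (M (nat_lit 487) (B (lo18_18_7 (nat_lit 455)) (lo16_15_0 (nat_lit 486)))))))) (M (nat_lit 488) (B (M (nat_lit 487) (B (lo18_18_7 (nat_lit 455)) (M (nat_lit 486) (B (lo15_15_0 (nat_lit 485)) (lo16_15_0 (nat_lit 489)))))) (M (nat_lit 456) (B (M (nat_lit 583) (B (lo18_14_5 (nat_lit 551)) (lo18_15_5 (nat_lit 615)))) (M (nat_lit 585) (B (lo18_14_4 (nat_lit 553)) (lo18_15_4 (nat_lit 617))))))))))))) (B (M (nat_lit 584) (B (M (nat_lit 489) (B (lo18_19_6 (nat_lit 616)) (M (nat_lit 457) (B (lo18_18_6 (nat_lit 488)) (lo19_14_5 (nat_lit 553)))))) (B (M (nat_lit 616) (B (lo18_19_6 (nat_lit 489)) (M (nat_lit 648) (B (lo18_20_6 (nat_lit 553)) (M (nat_lit 649) (B (lo18_16_4 (nat_lit 617)) (lo18_17_4 (nat_lit 681)))))))) (B (M (nat_lit 616) (B (M (nat_lit 648) (B (lo18_20_6 (nat_lit 553)) (M (nat_lit 649) (B (lo18_16_4 (nat_lit 617)) (lo18_17_4 (nat_lit 681)))))) (B (M (nat_lit 488) (B (M (nat_lit 487) (B (lo18_18_7 (nat_lit 455)) (lo111_16_3 (nat_lit 523)))) (M (nat_lit 617) (B (lo18_15_4 (nat_lit 585)) (lo18_16_4 (nat_lit 649)))))) (M (nat_lit 488) (B (M (nat_lit 487) (B (lo18_18_7 (nat_lit 455)) (lo111_16_3 (nat_lit 523)))) (M (nat_lit 615) (B (lo18_15_5 (nat_lit 583)) (lo18_16_5 (nat_lit 647))))))))) (B (M (nat_lit 488) (B (M (nat_lit 489) (B (lo18_18_6 (nat_lit 457)) (lo18_19_6 (nat_lit 616)))) (M (nat_lit 487) (B (lo18_18_7 (nat_lit 455)) (lo111_16_3 (nat_lit 523)))))) (M (nat_lit 488) (B (M (nat_lit 487) (B (lo18_18_7 (nat_lit 455)) (lo111_16_3 (nat_lit 523)))) (B (M (nat_lit 489) (B (lo18_18_6 (nat_lit 457)) (M (nat_lit 523) (B (lo111_16_3 (nat_lit 487)) (lo112_16_3 (nat_lit 524)))))) (B (M (nat_lit 553) (B (M (nat_lit 585) (B (lo18_14_4 (nat_lit 456)) (lo19_19_7 (nat_lit 617)))) (M (nat_lit 555) (B (M (nat_lit 523) (B (lo18_16_0 (nat_lit 556)) (lo112_16_1 (nat_lit 524)))) (B (M (nat_lit 554) (B (lo112_17_3 (nat_lit 556)) (lo111_17_1 (nat_lit 583)))) (M (nat_lit 583) (B (lo18_15_5 (nat_lit 615)) (lo111_17_1 (nat_lit 554))))))))) (M (nat_lit 489) (B (lo18_18_6 (nat_lit 457)) (M (nat_lit 487) (B (lo18_18_7 (nat_lit 455)) (lo16_15_0 (nat_lit 486))))))))))))))) (M (nat_lit 523) (B (lo111_16_1 (nat_lit 551)) (M (nat_lit 488) (B (lo111_16_3 (nat_lit 487)) (M (nat_lit 489) (B (lo112_16_3 (nat_lit 524)) (M (nat_lit 584) (B (lo18_18_6 (nat_lit 457)) (lo18_19_6 (nat_lit 616)))))))))))))) (B (M (nat_lit 519) (B (M (nat_lit 518) (B (M (nat_lit 550) (B (lo19_16_1 (nat_lit 549)) (lo110_16_1 (nat_lit 551)))) (M (nat_lit 554) (B (lo16_16_0 (nat_lit 553)) (lo17_16_0 (nat_lit 555)))))) (B (M (nat_lit 551) (B (lo110_16_1 (nat_lit 550)) (M (nat_lit 487) (B (lo110_16_3 (nat_lit 486)) (M (nat_lit 583) (B (M (nat_lit 488) (B (lo17_18_6 (nat_lit 456)) (lo17_19_6 (nat_lit 615)))) (B (M (nat_lit 615) (B (lo17_19_6 (nat_lit 488)) (M (nat_lit 614) (B (lo17_15_5 (nat_lit 582)) (lo17_16_5 (nat_lit 646)))))) (B (M (nat_lit 615) (B (M (nat_lit 614) (B (lo17_15_5 (nat_lit 582)) (lo17_16_5 (nat_lit 646)))) (M (nat_lit 616) (B (lo17_15_4 (nat_lit 584)) (lo17_16_4 (nat_lit 648)))))) (M (nat_lit 455) (B (M (nat_lit 456) (B (lo17_17_6 (nat_lit 424)) (lo17_18_6 (nat_lit 488)))) (M (nat_lit 584) (B (lo17_14_4 (nat_lit 552)) (lo17_15_4 (nat_lit 616)))))))))))))) (M (nat_lit 518) (B (M (nat_lit 486) (B (lo19_16_3 (nat_lit 485)) (lo110_16_3 (nat_lit 487)))) (M (nat_lit 554) (B (lo16_16_0 (nat_lit 553)) (lo17_16_0 (nat_lit 555))))))))) (B (M (nat_lit 523) (B (M (nat_lit 552) (B (lo111_16_1 (nat_lit 551)) (lo112_16_1 (nat_lit 553)))) (B (M (nat_lit 552) (B (lo111_16_1 (nat_lit 551)) (lo112_16_1 (nat_lit 553)))) (M (nat_lit 519) (B (M (nat_lit 487) (B (lo110_16_3 (nat_lit 486)) (lo111_16_3 (nat_lit 488)))) (M (nat_lit 555) (B (lo17_16_0 (nat_lit 554)) (lo18_16_0 (nat_lit 556))))))))) (B (M (nat_lit 519) (B (M (nat_lit 518) (B (M (nat_lit 486) (B (lo19_16_3 (nat_lit 485)) (lo110_16_3 (nat_lit 487)))) (M (nat_lit 554) (B (lo16_16_0 (nat_lit 553)) (lo17_16_0 (nat_lit 555)))))) (B (M (nat_lit 523) (B (M (nat_lit 487) (B (lo110_16_3 (nat_lit 486)) (lo111_16_3 (nat_lit 488)))) (M (nat_lit 555) (B (lo17_16_0 (nat_lit 554)) (lo18_16_0 (nat_lit 556)))))) (B (M (nat_lit 518) (B (M (nat_lit 554) (B (lo16_16_0 (nat_lit 553)) (lo17_16_0 (nat_lit 555)))) (M (nat_lit 517) (B (M (nat_lit 489) (B (lo15_16_2 (nat_lit 488)) (lo16_16_2 (nat_lit 490)))) (M (nat_lit 549) (B (lo18_16_1 (nat_lit 548)) (lo19_16_1 (nat_lit 550)))))))) (M (nat_lit 518) (B (M (nat_lit 486) (B (lo19_16_3 (nat_lit 485)) (lo110_16_3 (nat_lit 487)))) (M (nat_lit 517) (B (M (nat_lit 489) (B (lo15_16_2 (nat_lit 488)) (lo16_16_2 (nat_lit 490)))) (M (nat_lit 549) (B (lo18_16_1 (nat_lit 548)) (lo19_16_1 (nat_lit 550)))))))))))) (B (M (nat_lit 519) (B (M (nat_lit 523) (B (M (nat_lit 551) (B (lo110_16_1 (nat_lit 550)) (lo111_16_1 (nat_lit 552)))) (M (nat_lit 555) (B (lo17_16_0 (nat_lit 554)) (lo18_16_0 (nat_lit 556)))))) (B (M (nat_lit 518) (B (M (nat_lit 486) (B (lo19_16_3 (nat_lit 485)) (lo110_16_3 (nat_lit 487)))) (M (nat_lit 550) (B (lo19_16_1 (nat_lit 549)) (lo110_16_1 (nat_lit 551)))))) (M (nat_lit 523) (B (M (nat_lit 487) (B (lo110_16_3 (nat_lit 486)) (lo111_16_3 (nat_lit 488)))) (M (nat_lit 555) (B (lo17_16_0 (nat_lit 554)) (lo18_16_0 (nat_lit 556))))))))) (B (M (nat_lit 523) (B (M (nat_lit 552) (B (lo111_16_1 (nat_lit 551)) (lo112_16_1 (nat_lit 553)))) (B (M (nat_lit 551) (B (lo111_16_1 (nat_lit 552)) (M (nat_lit 519) (B (lo110_16_1 (nat_lit 550)) (M (nat_lit 487) (B (lo110_16_3 (nat_lit 486)) (lo111_16_3 (nat_lit 488)))))))) (M (nat_lit 488) (B (lo111_16_3 (nat_lit 487)) (lo112_16_3 (nat_lit 489))))))) (M (nat_lit 519) (B (M (nat_lit 518) (B (M (nat_lit 486) (B (lo19_16_3 (nat_lit 485)) (lo110_16_3 (nat_lit 487)))) (M (nat_lit 550) (B (lo19_16_1 (nat_lit 549)) (lo110_16_1 (nat_lit 551)))))) (B (M (nat_lit 551) (B (lo110_16_1 (nat_lit 550)) (M (nat_lit 487) (B (lo110_16_3 (nat_lit 486)) (M (nat_lit 523) (B (lo111_16_3 (nat_lit 488)) (lo111_16_1 (nat_lit 552)))))))) (B (M (nat_lit 518) (B (M (nat_lit 550) (B (lo19_16_1 (nat_lit 549)) (lo110_16_1 (nat_lit 551)))) (M (nat_lit 517) (B (M (nat_lit 489) (B (lo15_16_2 (nat_lit 488)) (lo16_16_2 (nat_lit 490)))) (M (nat_lit 553) (B (lo15_16_0 (nat_lit 552)) (lo16_16_0 (nat_lit 554)))))))) (M (nat_lit 518) (B (M (nat_lit 486) (B (lo19_16_3 (nat_lit 485)) (lo110_16_3 (nat_lit 487)))) (M (nat_lit 517) (B (M (nat_lit 489) (B (lo15_16_2 (nat_lit 488)) (lo16_16_2 (nat_lit 490)))) (M (nat_lit 553) (B (lo15_16_0 (nat_lit 552)) (lo16_16_0 (nat_lit 554)))))))))))))))))))))))) (B (M (nat_lit 520) (B (M (nat_lit 519) (B (M (nat_lit 518) (B (M (nat_lit 550) (B (lo19_16_1 (nat_lit 549)) (lo110_16_1 (nat_lit 551)))) (M (nat_lit 486) (B (lo19_16_3 (nat_lit 485)) (lo110_16_3 (nat_lit 487)))))) (B (M (nat_lit 518) (B (M (nat_lit 486) (B (lo19_16_3 (nat_lit 485)) (lo110_16_3 (nat_lit 487)))) (M (nat_lit 490) (B (lo16_16_2 (nat_lit 489)) (lo17_16_2 (nat_lit 491)))))) (B (M (nat_lit 487) (B (lo110_16_3 (nat_lit 486)) (M (nat_lit 551) (B (lo110_16_1 (nat_lit 550)) (M (nat_lit 523) (B (lo111_16_1 (nat_lit 552)) (lo111_16_3 (nat_lit 488)))))))) (M (nat_lit 518) (B (M (nat_lit 550) (B (lo19_16_1 (nat_lit 549)) (lo110_16_1 (nat_lit 551)))) (M (nat_lit 490) (B (lo16_16_2 (nat_lit 489)) (lo17_16_2 (nat_lit 491)))))))))) (B (M (nat_lit 519) (B (M (nat_lit 487) (B (lo110_16_3 (nat_lit 486)) (M (nat_lit 551) (B (lo110_16_1 (nat_lit 550)) (M (nat_lit 523) (B (lo111_16_1 (nat_lit 552)) (lo111_16_3 (nat_lit 488)))))))) (B (M (nat_lit 523) (B (M (nat_lit 487) (B (lo110_16_3 (nat_lit 486)) (lo111_16_3 (nat_lit 488)))) (M (nat_lit 491) (B (lo17_16_2 (nat_lit 490)) (lo18_16_2 (nat_lit 492)))))) (B (M (nat_lit 518) (B (M (nat_lit 486) (B (lo19_16_3 (nat_lit 485)) (lo110_16_3 (nat_lit 487)))) (M (nat_lit 490) (B (lo16_16_2 (nat_lit 489)) (lo17_16_2 (nat_lit 491)))))) (M (nat_lit 523) (B (M (nat_lit 551) (B (lo110_16_1 (nat_lit 550)) (lo111_16_1 (nat_lit 552)))) (M (nat_lit 491) (B (lo17_16_2 (nat_lit 490)) (lo18_16_2 (nat_lit 492)))))))))) (B (M (nat_lit 523) (B (M (nat_lit 488) (B (lo111_16_3 (nat_lit 487)) (lo112_16_3 (nat_lit 489)))) (B (M (nat_lit 488) (B (lo111_16_3 (nat_lit 487)) (lo112_16_3 (nat_lit 489)))) (B (M (nat_lit 519) (B (M (nat_lit 487) (B (lo110_16_3 (nat_lit 486)) (lo111_16_3 (nat_lit 488)))) (M (nat_lit 491) (B (lo17_16_2 (nat_lit 490)) (lo18_16_2 (nat_lit 492)))))) (M (nat_lit 552) (B (lo111_16_1 (nat_lit 551)) (lo112_16_1 (nat_lit 553)))))))) (B (M (nat_lit 519) (B (M (nat_lit 518) (B (M (nat_lit 486) (B (lo19_16_3 (nat_lit 485)) (lo110_16_3 (nat_lit 487)))) (M (nat_lit 490) (B (lo16_16_2 (nat_lit 489)) (lo17_16_2 (nat_lit 491)))))) (B (M (nat_lit 523) (B (M (nat_lit 487) (B (lo110_16_3 (nat_lit 486)) (lo111_16_3 (nat_lit 488)))) (M (nat_lit 491) (B (lo17_16_2 (nat_lit 490)) (lo18_16_2 (nat_lit 492)))))) (B (M (nat_lit 518) (B (M (nat_lit 490) (B (lo16_16_2 (nat_lit 489)) (lo17_16_2 (nat_lit 491)))) (M (nat_lit 517) (B (M (nat_lit 549) (B (lo18_16_1 (nat_lit 548)) (lo19_16_1 (nat_lit 550)))) (M (nat_lit 553) (B (lo15_16_0 (nat_lit 552)) (lo16_16_0 (nat_lit 554)))))))) (M (nat_lit 518) (B (M (nat_lit 486) (B (lo19_16_3 (nat_lit 485)) (lo110_16_3 (nat_lit 487)))) (M (nat_lit 517) (B (M (nat_lit 549) (B (lo18_16_1 (nat_lit 548)) (lo19_16_1 (nat_lit 550)))) (M (nat_lit 553) (B (lo15_16_0 (nat_lit 552)) (lo16_16_0 (nat_lit 554)))))))))))) (B (M (nat_lit 519) (B (M (nat_lit 518) (B (M (nat_lit 550) (B (lo19_16_1 (nat_lit 549)) (lo110_16_1 (nat_lit 551)))) (M (nat_lit 490) (B (lo16_16_2 (nat_lit 489)) (lo17_16_2 (nat_lit 491)))))) (B (M (nat_lit 518) (B (M (nat_lit 486) (B (lo19_16_3 (nat_lit 485)) (lo110_16_3 (nat_lit 487)))) (M (nat_lit 490) (B (lo16_16_2 (nat_lit 489)) (lo17_16_2 (nat_lit 491)))))) (B (M (nat_lit 523) (B (M (nat_lit 487) (B (lo110_16_3 (nat_lit 486)) (lo111_16_3 (nat_lit 488)))) (M (nat_lit 491) (B (lo17_16_2 (nat_lit 490)) (lo18_16_2 (nat_lit 492)))))) (M (nat_lit 518) (B (M (nat_lit 550) (B (lo19_16_1 (nat_lit 549)) (lo110_16_1 (nat_lit 551)))) (M (nat_lit 486) (B (lo19_16_3 (nat_lit 485)) (lo110_16_3 (nat_lit 487)))))))))) (B (M (nat_lit 488) (B (M (nat_lit 487) (B (lo111_16_3 (nat_lit 523)) (M (nat_lit 486) (B (lo15_15_0 (nat_lit 485)) (lo16_15_0 (nat_lit 489)))))) (B (M (nat_lit 456) (B (M (nat_lit 553) (B (lo18_13_4 (nat_lit 424)) (M (nat_lit 585) (B (lo18_14_4 (nat_lit 552)) (lo19_18_7 (nat_lit 489)))))) (B (M (nat_lit 424) (B (lo18_13_4 (nat_lit 553)) (M (nat_lit 392) (B (lo18_12_4 (nat_lit 489)) (M (nat_lit 391) (B (lo18_16_7 (nat_lit 423)) (lo18_15_7 (nat_lit 359)))))))) (B (M (nat_lit 424) (B (M (nat_lit 392) (B (lo18_12_4 (nat_lit 489)) (M (nat_lit 391) (B (lo18_16_7 (nat_lit 423)) (lo18_15_7 (nat_lit 359)))))) (B (M (nat_lit 392) (B (M (nat_lit 391) (B (lo18_16_7 (nat_lit 423)) (lo18_15_7 (nat_lit 359)))) (M (nat_lit 393) (B (lo18_16_6 (nat_lit 425)) (lo18_15_6 (nat_lit 361)))))) (B (M (nat_lit 392) (B (lo18_12_4 (nat_lit 489)) (M (nat_lit 393) (B (lo18_16_6 (nat_lit 425)) (lo18_15_6 (nat_lit 361)))))) (M (nat_lit 552) (B (M (nat_lit 423) (B (lo18_17_7 (nat_lit 455)) (lo18_16_7 (nat_lit 391)))) (M (nat_lit 425) (B (lo18_17_6 (nat_lit 457)) (lo18_16_6 (nat_lit 393)))))))))) (B (M (nat_lit 553) (B (lo18_13_4 (nat_lit 424)) (M (nat_lit 552) (B (lo18_14_4 (nat_lit 585)) (M (nat_lit 551) (B (lo18_14_5 (nat_lit 583)) (lo16_17_2 (nat_lit 550)))))))) (M (nat_lit 552) (B (M (nat_lit 551) (B (lo18_14_5 (nat_lit 583)) (M (nat_lit 550) (B (lo15_17_2 (nat_lit 549)) (lo16_17_2 (nat_lit 553)))))) (M (nat_lit 584) (B (M (nat_lit 455) (B (lo18_18_7 (nat_lit 487)) (lo18_17_7 (nat_lit 423)))) (M (nat_lit 457) (B (lo18_18_6 (nat_lit 489)) (lo18_17_6 (nat_lit 425))))))))))))) (B (M (nat_lit 456) (B (M (nat_lit 553) (B (lo18_13_4 (nat_lit 424)) (M (nat_lit 585) (B (lo18_14_4 (nat_lit 552)) (lo19_18_7 (nat_lit 489)))))) (B (M (nat_lit 424) (B (lo18_13_4 (nat_lit 553)) (M (nat_lit 392) (B (lo18_12_4 (nat_lit 489)) (M (nat_lit 393) (B (lo18_16_6 (nat_lit 425)) (lo18_15_6 (nat_lit 361)))))))) (B (M (nat_lit 424) (B (M (nat_lit 392) (B (lo18_12_4 (nat_lit 489)) (M (nat_lit 393) (B (lo18_16_6 (nat_lit 425)) (lo18_15_6 (nat_lit 361)))))) (B (M (nat_lit 552) (B (M (nat_lit 551) (B (lo18_14_5 (nat_lit 583)) (lo111_16_1 (nat_lit 523)))) (M (nat_lit 425) (B (lo18_17_6 (nat_lit 457)) (lo18_16_6 (nat_lit 393)))))) (M (nat_lit 552) (B (M (nat_lit 551) (B (lo18_14_5 (nat_lit 583)) (lo111_16_1 (nat_lit 523)))) (M (nat_lit 423) (B (lo18_17_7 (nat_lit 455)) (lo18_16_7 (nat_lit 391))))))))) (B (M (nat_lit 552) (B (M (nat_lit 553) (B (lo18_14_4 (nat_lit 585)) (lo18_13_4 (nat_lit 424)))) (M (nat_lit 551) (B (lo18_14_5 (nat_lit 583)) (lo111_16_1 (nat_lit 523)))))) (M (nat_lit 552) (B (M (nat_lit 551) (B (lo18_14_5 (nat_lit 583)) (lo111_16_1 (nat_lit 523)))) (B (M (nat_lit 553) (B (lo18_14_4 (nat_lit 585)) (M (nat_lit 523) (B (lo111_16_1 (nat_lit 551)) (lo112_16_1 (nat_lit 524)))))) (B (M (nat_lit 489) (B (M (nat_lit 457) (B (lo18_18_6 (nat_lit 584)) (lo19_13_5 (nat_lit 425)))) (M (nat_lit 491) (B (M (nat_lit 523) (B (lo18_16_2 (nat_lit 492)) (lo112_16_3 (nat_lit 524)))) (B (M (nat_lit 490) (B (lo112_15_1 (nat_lit 492)) (lo111_15_3 (nat_lit 455)))) (M (nat_lit 455) (B (lo18_17_7 (nat_lit 423)) (lo111_15_3 (nat_lit 490))))))))) (M (nat_lit 553) (B (lo18_14_4 (nat_lit 585)) (M (nat_lit 551) (B (lo18_14_5 (nat_lit 583)) (lo16_17_2 (nat_lit 550))))))))))))))) (M (nat_lit 523) (B (lo111_16_3 (nat_lit 487)) (M (nat_lit 552) (B (lo111_16_1 (nat_lit 551)) (M (nat_lit 553) (B (lo112_16_1 (nat_lit 524)) (M (nat_lit 456) (B (lo18_14_4 (nat_lit 585)) (lo18_13_4 (nat_lit 424)))))))))))))) (B (M (nat_lit 519) (B (M (nat_lit 518) (B (M (nat_lit 486) (B (lo19_16_3 (nat_lit 485)) (lo110_16_3 (nat_lit 487)))) (M (nat_lit 490) (B (lo16_16_2 (nat_lit 489)) (lo17_16_2 (nat_lit 491)))))) (B (M (nat_lit 487) (B (lo110_16_3 (nat_lit 486)) (M (nat_lit 551) (B (lo110_16_1 (nat_lit 550)) (M (nat_lit 455) (B (M (nat_lit 552) (B (lo17_14_4 (nat_lit 584)) (lo17_13_4 (nat_lit 423)))) (B (M (nat_lit 423) (B (lo17_13_4 (nat_lit 552)) (M (nat_lit 422) (B (lo17_17_7 (nat_lit 454)) (lo17_16_7 (nat_lit 390)))))) (B (M (nat_lit 423) (B (M (nat_lit 422) (B (lo17_17_7 (nat_lit 454)) (lo17_16_7 (nat_lit 390)))) (M (nat_lit 424) (B (lo17_17_6 (nat_lit 456)) (lo17_16_6 (nat_lit 392)))))) (M (nat_lit 583) (B (M (nat_lit 584) (B (lo17_15_4 (nat_lit 616)) (lo17_14_4 (nat_lit 552)))) (M (nat_lit 456) (B (lo17_18_6 (nat_lit 488)) (lo17_17_6 (nat_lit 424)))))))))))))) (M (nat_lit 518) (B (M (nat_lit 550) (B (lo19_16_1 (nat_lit 549)) (lo110_16_1 (nat_lit 551)))) (M (nat_lit 490) (B (lo16_16_2 (nat_lit 489)) (lo17_16_2 (nat_lit 491))))))))) (B (M (nat_lit 523) (B (M (nat_lit 488) (B (lo111_16_3 (nat_lit 487)) (lo112_16_3 (nat_lit 489)))) (B (M (nat_lit 488) (B (lo111_16_3 (nat_lit 487)) (lo112_16_3 (nat_lit 489)))) (M (nat_lit 519) (B (M (nat_lit 551) (B (lo110_16_1 (nat_lit 550)) (lo111_16_1 (nat_lit 552)))) (M (nat_lit 491) (B (lo17_16_2 (nat_lit 490)) (lo18_16_2 (nat_lit 492))))))))) (B (M (nat_lit 519) (B (M (nat_lit 518) (B (M (nat_lit 550) (B (lo19_16_1 (nat_lit 549)) (lo110_16_1 (nat_lit 551)))) (M (nat_lit 490) (B (lo16_16_2 (nat_lit 489)) (lo17_16_2 (nat_lit 491)))))) (B (M (nat_lit 523) (B (M (nat_lit 551) (B (lo110_16_1 (nat_lit 550)) (lo111_16_1 (nat_lit 552)))) (M (nat_lit 491) (B (lo17_16_2 (nat_lit 490)) (lo18_16_2 (nat_lit 492)))))) (B (M (nat_lit 518) (B (M (nat_lit 490) (B (lo16_16_2 (nat_lit 489)) (lo17_16_2 (nat_lit 491)))) (M (nat_lit 517) (B (M (nat_lit 553) (B (lo15_16_0 (nat_lit 552)) (lo16_16_0 (nat_lit 554)))) (M (nat_lit 485) (B (lo18_16_3 (nat_lit 484)) (lo19_16_3 (nat_lit 486)))))))) (M (nat_lit 518) (B (M (nat_lit 550) (B (lo19_16_1 (nat_lit 549)) (lo110_16_1 (nat_lit 551)))) (M (nat_lit 517) (B (M (nat_lit 553) (B (lo15_16_0 (nat_lit 552)) (lo16_16_0 (nat_lit 554)))) (M (nat_lit 485) (B (lo18_16_3 (nat_lit 484)) (lo19_16_3 (nat_lit 486)))))))))))) (B (M (nat_lit 519) (B (M (nat_lit 523) (B (M (nat_lit 487) (B (lo110_16_3 (nat_lit 486)) (lo111_16_3 (nat_lit 488)))) (M (nat_lit 491) (B (lo17_16_2 (nat_lit 490)) (lo18_16_2 (nat_lit 492)))))) (B (M (nat_lit 518) (B (M (nat_lit 550) (B (lo19_16_1 (nat_lit 549)) (lo110_16_1 (nat_lit 551)))) (M (nat_lit 486) (B (lo19_16_3 (nat_lit 485)) (lo110_16_3 (nat_lit 487)))))) (M (nat_lit 523) (B (M (nat_lit 551) (B (lo110_16_1 (nat_lit 550)) (lo111_16_1 (nat_lit 552)))) (M (nat_lit 491) (B (lo17_16_2 (nat_lit 490)) (lo18_16_2 (nat_lit 492))))))))) (B (M (nat_lit 523) (B (M (nat_lit 488) (B (lo111_16_3 (nat_lit 487)) (lo112_16_3 (nat_lit 489)))) (B (M (nat_lit 487) (B (lo111_16_3 (nat_lit 488)) (M (nat_lit 519) (B (lo110_16_3 (nat_lit 486)) (M (nat_lit 551) (B (lo110_16_1 (nat_lit 550)) (lo111_16_1 (nat_lit 552)))))))) (M (nat_lit 552) (B (lo111_16_1 (nat_lit 551)) (lo112_16_1 (nat_lit 553))))))) (M (nat_lit 519) (B (M (nat_lit 518) (B (M (nat_lit 550) (B (lo19_16_1 (nat_lit 549)) (lo110_16_1 (nat_lit 551)))) (M (nat_lit 486) (B (lo19_16_3 (nat_lit 485)) (lo110_16_3 (nat_lit 487)))))) (B (M (nat_lit 487) (B (lo110_16_3 (nat_lit 486)) (M (nat_lit 551) (B (lo110_16_1 (nat_lit 550)) (M (nat_lit 523) (B (lo111_16_1 (nat_lit 552)) (lo111_16_3 (nat_lit 488)))))))) (B (M (nat_lit 518) (B (M (nat_lit 486) (B (lo19_16_3 (nat_lit 485)) (lo110_16_3 (nat_lit 487)))) (M (nat_lit 517) (B (M (nat_lit 553) (B (lo15_16_0 (nat_lit 552)) (lo16_16_0 (nat_lit 554)))) (M (nat_lit 489) (B (lo15_16_2 (nat_lit 488)) (lo16_16_2 (nat_lit 490)))))))) (M (nat_lit 518) (B (M (nat_lit 550) (B (lo19_16_1 (nat_lit 549)) (lo110_16_1 (nat_lit 551)))) (M (nat_lit 517) (B (M (nat_lit 553) (B (lo15_16_0 (nat_lit 552)) (lo16_16_0 (nat_lit 554)))) (M (nat_lit 489) (B (lo15_16_2 (nat_lit 488)) (lo16_16_2 (nat_lit 490)))))))))))))))))))))))) (B (M (nat_lit 523) (B (M (nat_lit 556) (B (M (nat_lit 588) (B (M (nat_lit 491) (B (lo112_19_7 (nat_lit 620)) (M (nat_lit 459) (B (lo112_18_7 (nat_lit 492)) (lo111_13_4 (nat_lit 427)))))) (B (M (nat_lit 587) (B (M (nat_lit 619) (B (lo112_15_5 (nat_lit 492)) (M (nat_lit 651) (B (lo111_21_6 (nat_lit 683)) (lo111_20_6 (nat_lit 555)))))) (B (M (nat_lit 554) (B (M (nat_lit 553) (B (M (nat_lit 589) (B (lo19_17_0 (nat_lit 555)) (lo113_18_3 (nat_lit 586)))) (B (M (nat_lit 552) (B (lo18_17_0 (nat_lit 555)) (lo112_16_1 (nat_lit 521)))) (M (nat_lit 552) (B (lo112_16_1 (nat_lit 521)) (lo17_17_2 (nat_lit 551))))))) (B (M (nat_lit 619) (B (M (nat_lit 651) (B (lo111_21_6 (nat_lit 683)) (lo111_20_6 (nat_lit 555)))) (B (M (nat_lit 555) (B (lo111_20_6 (nat_lit 651)) (lo111_19_7 (nat_lit 490)))) (B (M (nat_lit 490) (B (lo111_19_7 (nat_lit 555)) (lo110_15_4 (nat_lit 586)))) (M (nat_lit 651) (B (lo111_21_6 (nat_lit 683)) (M (nat_lit 586) (B (lo110_16_4 (nat_lit 618)) (lo110_15_4 (nat_lit 490)))))))))) (B (M (nat_lit 586) (B (M (nat_lit 491) (B (lo110_19_6 (nat_lit 618)) (M (nat_lit 459) (B (lo111_13_4 (nat_lit 427)) (lo110_18_6 (nat_lit 490)))))) (M (nat_lit 553) (B (lo113_18_3 (nat_lit 589)) (M (nat_lit 552) (B (lo112_18_3 (nat_lit 585)) (lo112_16_1 (nat_lit 521)))))))) (M (nat_lit 555) (B (M (nat_lit 553) (B (lo19_17_0 (nat_lit 589)) (lo18_17_0 (nat_lit 552)))) (M (nat_lit 619) (B (lo111_20_6 (nat_lit 651)) (lo111_19_7 (nat_lit 490)))))))))) (B (M (nat_lit 619) (B (lo112_15_5 (nat_lit 492)) (M (nat_lit 555) (B (lo111_20_6 (nat_lit 651)) (lo111_19_7 (nat_lit 490)))))) (B (M (nat_lit 619) (B (lo112_15_5 (nat_lit 492)) (M (nat_lit 554) (B (M (nat_lit 490) (B (lo111_19_7 (nat_lit 555)) (lo110_15_4 (nat_lit 586)))) (B (M (nat_lit 553) (B (M (nat_lit 586) (B (lo113_18_3 (nat_lit 589)) (lo110_15_4 (nat_lit 490)))) (M (nat_lit 552) (B (lo112_16_1 (nat_lit 521)) (lo17_17_2 (nat_lit 551)))))) (B (M (nat_lit 555) (B (lo111_19_7 (nat_lit 490)) (M (nat_lit 589) (B (lo114_18_3 (nat_lit 590)) (lo19_17_0 (nat_lit 553)))))) (M (nat_lit 553) (B (M (nat_lit 589) (B (lo19_17_0 (nat_lit 555)) (lo113_18_3 (nat_lit 586)))) (B (M (nat_lit 552) (B (lo18_17_0 (nat_lit 555)) (lo112_16_1 (nat_lit 521)))) (M (nat_lit 552) (B (lo112_16_1 (nat_lit 521)) (lo17_17_2 (nat_lit 551))))))))))))) (B (M (nat_lit 586) (B (M (nat_lit 491) (B (M (nat_lit 459) (B (lo112_18_7 (nat_lit 492)) (lo111_14_4 (nat_lit 555)))) (B (M (nat_lit 459) (B (lo111_14_4 (nat_lit 555)) (lo111_13_4 (nat_lit 427)))) (B (M (nat_lit 459) (B (lo112_18_7 (nat_lit 492)) (lo111_13_4 (nat_lit 427)))) (M (nat_lit 618) (B (lo111_15_5 (nat_lit 555)) (lo110_19_6 (nat_lit 554)))))))) (B (M (nat_lit 491) (B (M (nat_lit 459) (B (lo111_14_4 (nat_lit 555)) (lo111_13_4 (nat_lit 427)))) (B (M (nat_lit 459) (B (lo111_13_4 (nat_lit 427)) (M (nat_lit 554) (B (lo110_19_6 (nat_lit 618)) (lo110_18_6 (nat_lit 490)))))) (M (nat_lit 618) (B (lo111_15_5 (nat_lit 555)) (lo110_19_6 (nat_lit 554))))))) (B (M (nat_lit 491) (B (M (nat_lit 459) (B (lo112_18_7 (nat_lit 492)) (lo111_13_4 (nat_lit 427)))) (B (M (nat_lit 459) (B (lo111_13_4 (nat_lit 427)) (M (nat_lit 554) (B (lo110_19_6 (nat_lit 618)) (lo110_18_6 (nat_lit 490)))))) (M (nat_lit 589) (B (M (nat_lit 621) (B (lo110_18_0 (nat_lit 622)) (lo112_15_4 (nat_lit 492)))) (M (nat_lit 554) (B (lo113_18_3 (nat_lit 553)) (lo110_19_6 (nat_lit 618))))))))) (B (K _ _ _ o1_s7665) (M (nat_lit 491) (B (M (nat_lit 459) (B (lo112_18_7 (nat_lit 492)) (lo111_14_4 (nat_lit 555)))) (B (M (nat_lit 555) (B (lo111_14_4 (nat_lit 459)) (lo111_15_5 (nat_lit 618)))) (B (M (nat_lit 459) (B (lo112_18_7 (nat_lit 492)) (lo111_13_4 (nat_lit 427)))) (M (nat_lit 589) (B (M (nat_lit 621) (B (lo110_18_0 (nat_lit 622)) (lo112_15_4 (nat_lit 492)))) (M (nat_lit 618) (B (lo113_18_1 (nat_lit 617)) (lo111_15_5 (nat_lit 555))))))))))))))) (M (nat_lit 586) (B (M (nat_lit 619) (B (lo112_15_5 (nat_lit 492)) (M (nat_lit 554) (B (lo110_15_4 (nat_lit 490)) (M (nat_lit 651) (B (lo111_21_6 (nat_lit 683)) (lo110_16_4 (nat_lit 618)))))))) (B (M (nat_lit 554) (B (M (nat_lit 553) (B (lo113_18_3 (nat_lit 589)) (M (nat_lit 552) (B (lo112_18_3 (nat_lit 585)) (lo112_16_1 (nat_lit 521)))))) (M (nat_lit 618) (B (lo110_19_6 (nat_lit 491)) (M (nat_lit 619) (B (lo110_16_4 (nat_lit 651)) (lo110_15_4 (nat_lit 490)))))))) (B (M (nat_lit 589) (B (M (nat_lit 621) (B (lo110_18_0 (nat_lit 622)) (lo112_15_4 (nat_lit 492)))) (B (M (nat_lit 492) (B (lo112_15_4 (nat_lit 621)) (lo112_15_5 (nat_lit 619)))) (B (M (nat_lit 619) (B (lo112_15_5 (nat_lit 492)) (M (nat_lit 618) (B (lo114_18_1 (nat_lit 590)) (lo113_18_1 (nat_lit 617)))))) (M (nat_lit 590) (B (M (nat_lit 622) (B (lo111_18_0 (nat_lit 623)) (lo110_18_0 (nat_lit 621)))) (M (nat_lit 618) (B (lo114_18_1 (nat_lit 619)) (lo113_18_1 (nat_lit 617)))))))))) (K _ _ _ o1_s7665))))))))))) (B (M (nat_lit 491) (B (lo112_19_7 (nat_lit 620)) (M (nat_lit 459) (B (lo111_14_4 (nat_lit 555)) (lo111_13_4 (nat_lit 427)))))) (M (nat_lit 620) (B (M (nat_lit 652) (B (lo112_20_7 (nat_lit 555)) (M (nat_lit 651) (B (lo112_17_5 (nat_lit 683)) (lo112_16_5 (nat_lit 619)))))) (B (M (nat_lit 492) (B (M (nat_lit 621) (B (lo112_16_4 (nat_lit 653)) (lo112_15_4 (nat_lit 589)))) (M (nat_lit 619) (B (lo112_16_5 (nat_lit 651)) (lo112_15_5 (nat_lit 587)))))) (M (nat_lit 652) (B (lo112_20_7 (nat_lit 555)) (M (nat_lit 653) (B (lo112_17_4 (nat_lit 685)) (lo112_16_4 (nat_lit 621))))))))))))) (lo19_16_0 (nat_lit 557)))) (B (M (nat_lit 520) (B (M (nat_lit 519) (B (M (nat_lit 551) (B (lo110_16_1 (nat_lit 550)) (lo111_16_1 (nat_lit 552)))) (M (nat_lit 491) (B (lo17_16_2 (nat_lit 490)) (lo18_16_2 (nat_lit 492)))))) (B (M (nat_lit 552) (B (lo111_16_1 (nat_lit 551)) (lo112_16_1 (nat_lit 553)))) (B (M (nat_lit 519) (B (M (nat_lit 491) (B (lo17_16_2 (nat_lit 490)) (lo18_16_2 (nat_lit 492)))) (M (nat_lit 518) (B (M (nat_lit 554) (B (lo16_16_0 (nat_lit 553)) (lo17_16_0 (nat_lit 555)))) (M (nat_lit 486) (B (lo19_16_3 (nat_lit 485)) (lo110_16_3 (nat_lit 487)))))))) (M (nat_lit 519) (B (M (nat_lit 551) (B (lo110_16_1 (nat_lit 550)) (lo111_16_1 (nat_lit 552)))) (M (nat_lit 518) (B (M (nat_lit 554) (B (lo16_16_0 (nat_lit 553)) (lo17_16_0 (nat_lit 555)))) (M (nat_lit 486) (B (lo19_16_3 (nat_lit 485)) (lo110_16_3 (nat_lit 487)))))))))))) (B (M (nat_lit 491) (B (M (nat_lit 459) (B (lo111_13_4 (nat_lit 556)) (lo111_13_5 (nat_lit 554)))) (M (nat_lit 492) (B (lo19_16_2 (nat_lit 493)) (lo18_16_2 (nat_lit 520)))))) (M (nat_lit 520) (B (M (nat_lit 556) (B (lo19_16_0 (nat_lit 557)) (lo18_16_0 (nat_lit 555)))) (M (nat_lit 552) (B (lo112_16_1 (nat_lit 553)) (lo111_16_1 (nat_lit 551)))))))))) (B (M (nat_lit 523) (B (M (nat_lit 556) (B (M (nat_lit 489) (B (M (nat_lit 554) (B (M (nat_lit 588) (B (M (nat_lit 491) (B (lo112_19_7 (nat_lit 620)) (M (nat_lit 459) (B (lo111_13_5 (nat_lit 427)) (lo112_18_7 (nat_lit 492)))))) (B (M (nat_lit 589) (B (M (nat_lit 555) (B (lo19_17_0 (nat_lit 553)) (M (nat_lit 590) (B (lo114_18_3 (nat_lit 587)) (lo115_18_3 (nat_lit 591)))))) (M (nat_lit 492) (B (lo112_15_4 (nat_lit 621)) (M (nat_lit 493) (B (lo19_16_2 (nat_lit 521)) (lo112_18_6 (nat_lit 461)))))))) (M (nat_lit 491) (B (lo112_19_7 (nat_lit 620)) (M (nat_lit 459) (B (lo111_13_5 (nat_lit 427)) (lo111_14_4 (nat_lit 555))))))))) (M (nat_lit 457) (B (M (nat_lit 586) (B (lo110_18_7 (nat_lit 490)) (lo110_19_7 (nat_lit 618)))) (lo19_13_4 (nat_lit 425)))))) (lo112_16_3 (nat_lit 488)))) (lo19_16_0 (nat_lit 557)))) (B (M (nat_lit 520) (B (M (nat_lit 488) (B (lo111_16_3 (nat_lit 487)) (M (nat_lit 492) (B (lo18_16_2 (nat_lit 491)) (lo19_16_2 (nat_lit 493)))))) (B (M (nat_lit 491) (B (lo18_16_2 (nat_lit 492)) (M (nat_lit 519) (B (lo17_16_2 (nat_lit 490)) (M (nat_lit 487) (B (lo111_16_3 (nat_lit 488)) (lo110_16_3 (nat_lit 486)))))))) (B (M (nat_lit 519) (B (M (nat_lit 487) (B (lo111_16_3 (nat_lit 488)) (lo110_16_3 (nat_lit 486)))) (M (nat_lit 518) (B (M (nat_lit 554) (B (lo17_16_0 (nat_lit 555)) (lo16_16_0 (nat_lit 553)))) (M (nat_lit 490) (B (lo17_16_2 (nat_lit 491)) (lo16_16_2 (nat_lit 489)))))))) (B (M (nat_lit 489) (B (M (nat_lit 488) (B (lo112_16_3 (nat_lit 524)) (lo111_16_3 (nat_lit 487)))) (M (nat_lit 554) (B (M (nat_lit 586) (B (lo110_19_7 (nat_lit 618)) (M (nat_lit 457) (B (lo110_18_7 (nat_lit 490)) (lo19_13_4 (nat_lit 425)))))) (B (M (nat_lit 457) (B (lo19_13_4 (nat_lit 425)) (M (nat_lit 586) (B (lo110_18_7 (nat_lit 490)) (lo19_14_4 (nat_lit 553)))))) (B (M (nat_lit 519) (B (lo17_16_0 (nat_lit 555)) (M (nat_lit 518) (B (lo16_16_0 (nat_lit 553)) (lo16_16_2 (nat_lit 490)))))) (M (nat_lit 586) (B (lo110_19_7 (nat_lit 618)) (M (nat_lit 457) (B (lo19_14_4 (nat_lit 553)) (lo19_13_4 (nat_lit 425)))))))))))) (M (nat_lit 554) (B (M (nat_lit 519) (B (lo17_16_0 (nat_lit 555)) (M (nat_lit 491) (B (lo18_16_2 (nat_lit 492)) (lo17_16_2 (nat_lit 490)))))) (B (M (nat_lit 519) (B (lo17_16_0 (nat_lit 555)) (M (nat_lit 518) (B (lo16_16_0 (nat_lit 553)) (M (nat_lit 490) (B (lo17_16_2 (nat_lit 491)) (lo16_16_2 (nat_lit 489)))))))) (B (M (nat_lit 491) (B (lo18_16_2 (nat_lit 492)) (M (nat_lit 459) (B (lo111_13_5 (nat_lit 427)) (M (nat_lit 586) (B (lo110_19_6 (nat_lit 618)) (lo110_18_6 (nat_lit 490)))))))) (B (M (nat_lit 489) (B (M (nat_lit 519) (B (lo17_16_0 (nat_lit 555)) (M (nat_lit 518) (B (lo16_16_0 (nat_lit 553)) (lo16_16_2 (nat_lit 490)))))) (B (M (nat_lit 586) (B (lo110_19_7 (nat_lit 618)) (M (nat_lit 457) (B (lo19_14_4 (nat_lit 553)) (lo19_13_4 (nat_lit 425)))))) (M (nat_lit 586) (B (lo110_19_7 (nat_lit 618)) (M (nat_lit 457) (B (lo110_18_7 (nat_lit 490)) (lo19_13_4 (nat_lit 425))))))))) (M (nat_lit 555) (B (lo17_16_0 (nat_lit 519)) (M (nat_lit 491) (B (lo18_16_2 (nat_lit 492)) (M (nat_lit 586) (B (lo111_14_5 (nat_lit 459)) (lo110_19_6 (nat_lit 618)))))))))))))))))) (B (M (nat_lit 491) (B (M (nat_lit 459) (B (lo111_13_4 (nat_lit 556)) (lo111_13_5 (nat_lit 554)))) (M (nat_lit 492) (B (lo19_16_2 (nat_lit 493)) (lo18_16_2 (nat_lit 520)))))) (M (nat_lit 520) (B (M (nat_lit 488) (B (lo111_16_3 (nat_lit 487)) (lo112_16_3 (nat_lit 489)))) (M (nat_lit 556) (B (lo18_16_0 (nat_lit 555)) (lo19_16_0 (nat_lit 557)))))))))) (B (M (nat_lit 523) (B (K _ _ _ o1_s7871) (B (M (nat_lit 552) (B (M (nat_lit 551) (B (lo111_16_1 (nat_lit 520)) (M (nat_lit 553) (B (lo17_17_2 (nat_lit 554)) (lo112_16_1 (nat_lit 524)))))) (B (M (nat_lit 489) (B (lo112_16_1 (nat_lit 553)) (B (M (nat_lit 488) (B (lo112_16_3 (nat_lit 524)) (M (nat_lit 487) (B (lo111_16_3 (nat_lit 520)) (lo16_15_0 (nat_lit 486)))))) (B (M (nat_lit 457) (B (M (nat_lit 425) (B (lo19_13_5 (nat_lit 520)) (lo19_13_4 (nat_lit 554)))) (B (M (nat_lit 584) (B (lo19_14_5 (nat_lit 553)) (M (nat_lit 520) (B (lo18_19_6 (nat_lit 616)) (lo19_13_5 (nat_lit 425)))))) (B (M (nat_lit 553) (B (lo19_14_5 (nat_lit 584)) (M (nat_lit 554) (B (lo19_14_4 (nat_lit 586)) (lo19_13_4 (nat_lit 425)))))) (M (nat_lit 584) (B (lo19_14_5 (nat_lit 553)) (M (nat_lit 520) (B (lo18_19_6 (nat_lit 616)) (lo18_18_6 (nat_lit 488)))))))))) (M (nat_lit 457) (B (M (nat_lit 553) (B (lo19_14_5 (nat_lit 584)) (lo112_16_1 (nat_lit 524)))) (M (nat_lit 425) (B (lo19_13_5 (nat_lit 520)) (lo19_13_4 (nat_lit 554)))))))))) (B (M (nat_lit 520) (B (lo111_16_1 (nat_lit 551)) (M (nat_lit 488) (B (lo111_16_3 (nat_lit 487)) (M (nat_lit 489) (B (lo112_16_3 (nat_lit 524)) (M (nat_lit 457) (B (lo18_18_6 (nat_lit 584)) (lo19_13_5 (nat_lit 425)))))))))) (B (M (nat_lit 553) (B (lo112_16_1 (nat_lit 524)) (M (nat_lit 551) (B (lo16_17_2 (nat_lit 550)) (lo17_17_2 (nat_lit 554)))))) (M (nat_lit 551) (B (lo111_16_1 (nat_lit 520)) (M (nat_lit 553) (B (lo16_17_2 (nat_lit 550)) (lo17_17_2 (nat_lit 554))))))))))) (B (M (nat_lit 491) (B (M (nat_lit 459) (B (lo111_13_4 (nat_lit 556)) (lo111_13_5 (nat_lit 554)))) (M (nat_lit 492) (B (lo19_16_2 (nat_lit 493)) (lo18_16_2 (nat_lit 520)))))) (M (nat_lit 520) (B (M (nat_lit 556) (B (lo19_16_0 (nat_lit 557)) (lo18_16_0 (nat_lit 555)))) (M (nat_lit 552) (B (lo112_16_1 (nat_lit 553)) (lo111_16_1 (nat_lit 551)))))))))) (M (nat_lit 523) (B (K _ _ _ o1_s7871) (B (M (nat_lit 520) (B (M (nat_lit 552) (B (lo111_16_1 (nat_lit 551)) (lo112_16_1 (nat_lit 553)))) (B (M (nat_lit 491) (B (lo18_16_2 (nat_lit 492)) (M (nat_lit 519) (B (lo17_16_2 (nat_lit 490)) (M (nat_lit 551) (B (lo111_16_1 (nat_lit 552)) (lo110_16_1 (nat_lit 550)))))))) (B (M (nat_lit 519) (B (M (nat_lit 551) (B (lo111_16_1 (nat_lit 552)) (lo110_16_1 (nat_lit 550)))) (M (nat_lit 518) (B (M (nat_lit 490) (B (lo17_16_2 (nat_lit 491)) (lo16_16_2 (nat_lit 489)))) (M (nat_lit 554) (B (lo17_16_0 (nat_lit 555)) (lo16_16_0 (nat_lit 553)))))))) (B (M (nat_lit 519) (B (M (nat_lit 551) (B (lo111_16_1 (nat_lit 552)) (lo110_16_1 (nat_lit 550)))) (M (nat_lit 554) (B (lo17_16_0 (nat_lit 555)) (M (nat_lit 489) (B (M (nat_lit 518) (B (lo16_16_2 (nat_lit 490)) (lo16_16_0 (nat_lit 553)))) (B (M (nat_lit 586) (B (lo110_19_7 (nat_lit 618)) (M (nat_lit 457) (B (lo19_13_4 (nat_lit 425)) (lo19_14_4 (nat_lit 553)))))) (M (nat_lit 490) (B (lo16_16_2 (nat_lit 518)) (M (nat_lit 586) (B (lo110_18_7 (nat_lit 457)) (lo110_19_7 (nat_lit 618))))))))))))) (M (nat_lit 554) (B (M (nat_lit 519) (B (lo17_16_0 (nat_lit 555)) (M (nat_lit 491) (B (lo18_16_2 (nat_lit 492)) (lo17_16_2 (nat_lit 490)))))) (B (M (nat_lit 519) (B (lo17_16_0 (nat_lit 555)) (M (nat_lit 518) (B (lo16_16_0 (nat_lit 553)) (M (nat_lit 490) (B (lo17_16_2 (nat_lit 491)) (lo16_16_2 (nat_lit 489)))))))) (B (M (nat_lit 489) (B (M (nat_lit 586) (B (lo110_19_7 (nat_lit 618)) (M (nat_lit 457) (B (lo110_18_7 (nat_lit 490)) (lo19_13_4 (nat_lit 425)))))) (B (M (nat_lit 586) (B (lo110_19_7 (nat_lit 618)) (M (nat_lit 457) (B (lo19_13_4 (nat_lit 425)) (lo19_14_4 (nat_lit 553)))))) (M (nat_lit 519) (B (lo17_16_0 (nat_lit 555)) (M (nat_lit 518) (B (lo16_16_2 (nat_lit 490)) (lo16_16_0 (nat_lit 553))))))))) (B (M (nat_lit 491) (B (lo18_16_2 (nat_lit 492)) (M (nat_lit 490) (B (lo17_16_2 (nat_lit 519)) (M (nat_lit 459) (B (lo111_13_5 (nat_lit 427)) (lo110_18_6 (nat_lit 586)))))))) (B (M (nat_lit 555) (B (lo17_16_0 (nat_lit 519)) (M (nat_lit 491) (B (lo18_16_2 (nat_lit 492)) (M (nat_lit 586) (B (lo111_14_5 (nat_lit 459)) (lo110_19_6 (nat_lit 618)))))))) (M (nat_lit 491) (B (lo18_16_2 (nat_lit 492)) (M (nat_lit 459) (B (lo111_13_5 (nat_lit 427)) (M (nat_lit 586) (B (lo110_18_6 (nat_lit 490)) (lo110_19_6 (nat_lit 618))))))))))))))))))) (B (M (nat_lit 491) (B (M (nat_lit 459) (B (lo111_13_4 (nat_lit 556)) (lo111_13_5 (nat_lit 554)))) (M (nat_lit 492) (B (lo19_16_2 (nat_lit 493)) (lo18_16_2 (nat_lit 520)))))) (M (nat_lit 520) (B (M (nat_lit 556) (B (lo19_16_0 (nat_lit 557)) (lo18_16_0 (nat_lit 555)))) (M (nat_lit 552) (B (lo112_16_1 (nat_lit 553)) (lo111_16_1 (nat_lit 551))))))))))))))))))))) _ _ _ (by decide +kernel)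
theorem o1_s9087 : Sem (nat_lit 2599377838238263930854763297634140971971659758164828039222324606826207476067774021599976005722630854466304260276315848589663272960) (nat_lit 506532662423306655911390789374656735120787723651664166240290046811819265649822078292418429973692956110875634794478478060070962615274774793958835336275584475654550166961639129088) (nat_lit 506532662423306655911390789374656735120787723651664166240290046811819265649822078292418429973692956110875634794478478060070962615274774793958835336275584475654550166961639129088) := sem_of_chk (M (nat_lit 458) (B (M (nat_lit 457) (B (lo113_13_1 (nat_lit 429)) (M (nat_lit 456) (B (lo18_14_2 (nat_lit 459)) (lo17_14_2 (nat_lit 455)))))) (B (M (nat_lit 490) (B (M (nat_lit 395) (B (lo110_16_6 (nat_lit 522)) (M (nat_lit 363) (B (lo111_10_5 (nat_lit 331)) (lo110_15_6 (nat_lit 394)))))) (B (M (nat_lit 395) (B (lo110_16_6 (nat_lit 522)) (M (nat_lit 363) (B (lo111_11_5 (nat_lit 459))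 (lo110_15_6 (nat_lit 394)))))) (B (M (nat_lit 522) (B (lo110_16_6 (nat_lit 395)) (M (nat_lit 554) (B (lo110_17_6 (nat_lit 459)) (M (nat_lit 555) (B (lo110_13_4 (nat_lit 523)) (lo110_14_4 (nat_lit 587)))))))) (B (M (nat_lit 394) (B (M (nat_lit 489) (B (lo110_12_5 (nat_lit 521)) (M (nat_lit 362) (B (lo110_11_5 (nat_lit 457)) (M (nat_lit 361) (B (lo110_14_7 (nat_lit 329)) (lo110_15_7 (nat_lit 393)))))))) (B (K _ _ _ o1_s9021) (M (nat_lit 362) (B (M (nat_lit 361) (B (lo110_14_7 (nat_lit 329)) (lo110_15_7 (nat_lit 393)))) (M (nat_lit 330) (B (lo110_10_4 (nat_lit 459)) (M (nat_lit 331) (B (lo110_13_6 (nat_lit 299)) (lo110_14_6 (nat_lit 363))))))))))) (M (nat_lit 394) (B (M (nat_lit 393) (B (lo110_15_7 (nat_lit 361)) (M (nat_lit 395) (B (lo18_12_0 (nat_lit 392)) (lo110_15_6 (nat_lit 363)))))) (B (M (nat_lit 489) (B (lo110_12_5 (nat_lit 521)) (M (nat_lit 362) (B (lo110_11_5 (nat_lit 457)) (M (nat_lit 361) (B (lo110_14_7 (nat_lit 329)) (lo110_15_7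 (nat_lit 393)))))))) (M (nat_lit 362) (B (M (nat_lit 363) (B (lo110_14_6 (nat_lit 331)) (lo110_15_6 (nat_lit 395)))) (M (nat_lit 489) (B (lo110_11_5 (nat_lit 457)) (lo110_12_5 (nat_lit 521)))))))))))))) (B (M (nat_lit 394) (B (lo113_13_3 (nat_lit 393)) (B (M (nat_lit 490) (B (M (nat_lit 395) (B (lo110_15_6 (nat_lit 363)) (lo110_16_6 (nat_lit 522)))) (M (nat_lit 489) (B (lo110_12_5 (nat_lit 521)) (M (nat_lit 362) (B (lo110_11_5 (nat_lit 457)) (M (nat_lit 361) (B (lo110_14_7 (nat_lit 329)) (lo110_15_7 (nat_lit 393)))))))))) (B (M (nat_lit 362) (B (M (nat_lit 457) (B (lo113_13_1 (nat_lit 429)) (lo110_11_5 (nat_lit 489)))) (M (nat_lit 330) (B (M (nat_lit 331) (B (lo110_13_6 (nat_lit 299)) (lo110_14_6 (nat_lit 363)))) (M (nat_lit 329) (B (lo110_13_7 (nat_lit 297)) (lo110_14_7 (nat_lit 361)))))))) (M (nat_lit 393) (B (lo113_13_3 (nat_lit 429)) (M (nat_lit 392) (B (lo18_12_0 (nat_lit 395)) (lo17_12_0 (nat_lit 391)))))))))) (M (nat_lit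 394) (B (M (nat_lit 393) (B (lo113_13_3 (nat_lit 429)) (M (nat_lit 392) (B (lo18_12_0 (nat_lit 395)) (lo17_12_0 (nat_lit 391)))))) (B (M (nat_lit 362) (B (M (nat_lit 330) (B (lo110_10_4 (nat_lit 459)) (M (nat_lit 331) (B (lo110_13_6 (nat_lit 299)) (lo110_14_6 (nat_lit 363)))))) (B (M (nat_lit 330) (B (lo110_10_4 (nat_lit 459)) (M (nat_lit 329) (B (lo110_13_7 (nat_lit 297)) (lo110_14_7 (nat_lit 361)))))) (M (nat_lit 490) (B (M (nat_lit 363) (B (lo110_14_6 (nat_lit 331)) (lo110_15_6 (nat_lit 395)))) (M (nat_lit 361) (B (lo110_14_7 (nat_lit 329)) (lo110_15_7 (nat_lit 393))))))))) (B (M (nat_lit 393) (B (lo113_13_3 (nat_lit 429)) (M (nat_lit 361) (B (lo110_15_7 (nat_lit 490)) (M (nat_lit 329) (B (lo110_14_7 (nat_lit 362)) (lo19_9_4 (nat_lit 297)))))))) (M (nat_lit 490) (B (M (nat_lit 395) (B (lo110_15_6 (nat_lit 363)) (lo110_16_6 (nat_lit 522)))) (B (M (nat_lit 522) (B (lo110_16_6 (nat_lit 395)) (M (nat_lit 521) (B (lo110_12_5 (nat_lit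 489)) (lo110_13_5 (nat_lit 553)))))) (B (K _ _ _ o1_s9021) (M (nat_lit 362) (B (M (nat_lit 363) (B (lo110_14_6 (nat_lit 331)) (lo110_15_6 (nat_lit 395)))) (M (nat_lit 330) (B (lo110_10_4 (nat_lit 459)) (M (nat_lit 329) (B (lo110_13_7 (nat_lit 297)) (lo110_14_7 (nat_lit 361)))))))))))))))))))) _ _ _ (by decide +kernel)
theorem o1_s9332 : Sem (nat_lit 2686023766260234703906804634315359811829142537843125613222315328496372496828595060508001493245561633571852042851231684333467074560) (nat_lit 253266331521236183188917834189743984512536527235640664664235857617565102014073507719678855911312389624250644203354258249532551409580678599152832042813220024888751679702059450368) (nat_lit 253266331521236183188917834189743984512536527235640664664235857617565102014073507719678855911312389624250644203354258249532551409580678599152832042813220024888751679702059450368) := sem_of_chk (M (nat_lit 363) (B (M (nat_lit 458) (B (lo111_10_5 (nat_lit 331)) (M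 (nat_lit 490) (B (lo110_16_6 (nat_lit 522)) (lo111_11_5 (nat_lit 459)))))) (B (M (nat_lit 330) (B (M (nat_lit 362) (B (lo111_14_7 (nat_lit 459)) (M (nat_lit 298) (B (lo110_8_4 (nat_lit 266)) (lo111_13_7 (nat_lit 331)))))) (B (M (nat_lit 331) (B (lo111_13_7 (nat_lit 298)) (M (nat_lit 332) (B (lo111_13_6 (nat_lit 300)) (M (nat_lit 459) (B (lo111_14_7 (nat_lit 362)) (lo111_14_6 (nat_lit 364)))))))) (B (M (nat_lit 364) (B (M (nat_lit 459) (B (lo111_14_7 (nat_lit 362)) (lo111_14_6 (nat_lit 332)))) (B (M (nat_lit 332) (B (lo111_14_6 (nat_lit 459)) (M (nat_lit 331) (B (lo111_13_6 (nat_lit 300)) (M (nat_lit 329) (B (lo18_10_0 (nat_lit 328)) (lo19_10_0 (nat_lit 365)))))))) (B (M (nat_lit 329) (B (M (nat_lit 328) (B (lo18_10_0 (nat_lit 331)) (M (nat_lit 362) (B (lo112_11_3 (nat_lit 361)) (lo113_11_3 (nat_lit 365)))))) (B (M (nat_lit 365) (B (lo113_11_3 (nat_lit 362)) (M (nat_lit 331) (B (lo19_10_0 (nat_lit 332)) (lo114_11_3 (nat_lit 366))))))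 (B (M (nat_lit 331) (B (lo18_10_0 (nat_lit 328)) (M (nat_lit 365) (B (lo19_10_0 (nat_lit 332)) (lo114_11_3 (nat_lit 366)))))) (B (M (nat_lit 362) (B (lo113_11_3 (nat_lit 365)) (M (nat_lit 328) (B (lo17_10_0 (nat_lit 327)) (lo112_11_3 (nat_lit 361)))))) (M (nat_lit 328) (B (lo18_10_0 (nat_lit 331)) (M (nat_lit 362) (B (lo17_10_0 (nat_lit 327)) (lo112_11_3 (nat_lit 361))))))))))) (M (nat_lit 362) (B (lo111_14_7 (nat_lit 459)) (M (nat_lit 329) (B (lo113_11_3 (nat_lit 365)) (M (nat_lit 328) (B (lo17_10_0 (nat_lit 327)) (lo112_11_3 (nat_lit 361)))))))))))) (B (M (nat_lit 331) (B (lo111_13_7 (nat_lit 298)) (M (nat_lit 332) (B (lo111_13_6 (nat_lit 300)) (M (nat_lit 364) (B (lo111_14_6 (nat_lit 459)) (M (nat_lit 329) (B (lo18_10_0 (nat_lit 328)) (lo19_10_0 (nat_lit 365)))))))))) (B (M (nat_lit 392) (B (M (nat_lit 391) (B (lo111_13_3 (nat_lit 424)) (M (nat_lit 393) (B (lo16_12_0 (nat_lit 390)) (lo112_13_3 (nat_lit 428)))))) (B (M (nat_lit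 362) (B (lo111_14_7 (nat_lit 459)) (M (nat_lit 361) (B (M (nat_lit 391) (B (lo111_11_1 (nat_lit 360)) (lo111_13_3 (nat_lit 424)))) (M (nat_lit 393) (B (lo112_11_1 (nat_lit 364)) (lo112_13_3 (nat_lit 428)))))))) (B (M (nat_lit 362) (B (lo111_14_7 (nat_lit 459)) (M (nat_lit 393) (B (lo112_13_3 (nat_lit 428)) (M (nat_lit 298) (B (lo110_8_4 (nat_lit 266)) (M (nat_lit 361) (B (lo112_11_1 (nat_lit 364)) (lo19_13_6 (nat_lit 329)))))))))) (M (nat_lit 328) (B (M (nat_lit 362) (B (lo111_14_7 (nat_lit 459)) (M (nat_lit 329) (B (lo17_10_0 (nat_lit 327)) (M (nat_lit 364) (B (lo112_11_3 (nat_lit 361)) (lo113_11_3 (nat_lit 365)))))))) (M (nat_lit 424) (B (lo111_13_3 (nat_lit 391)) (M (nat_lit 455) (B (lo111_13_1 (nat_lit 456)) (M (nat_lit 423) (B (lo110_13_1 (nat_lit 454)) (lo18_10_5 (nat_lit 360)))))))))))))) (M (nat_lit 329) (B (M (nat_lit 331) (B (lo111_13_7 (nat_lit 298)) (M (nat_lit 332) (B (lo111_13_6 (nat_lit 300)) (M (nat_lit 364) (B (lo18_10_0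 (nat_lit 328)) (lo19_10_0 (nat_lit 365)))))))) (B (M (nat_lit 393) (B (M (nat_lit 298) (B (lo19_13_6 (nat_lit 361)) (lo111_13_7 (nat_lit 331)))) (M (nat_lit 392) (B (lo112_13_3 (nat_lit 428)) (M (nat_lit 391) (B (lo16_12_0 (nat_lit 390)) (lo111_13_3 (nat_lit 424)))))))) (B (M (nat_lit 364) (B (M (nat_lit 331) (B (lo18_10_0 (nat_lit 328)) (M (nat_lit 365) (B (lo113_11_3 (nat_lit 362)) (lo19_10_0 (nat_lit 332)))))) (B (M (nat_lit 365) (B (lo113_11_3 (nat_lit 362)) (M (nat_lit 331) (B (lo19_10_0 (nat_lit 332)) (lo114_11_3 (nat_lit 366)))))) (B (M (nat_lit 331) (B (lo18_10_0 (nat_lit 328)) (M (nat_lit 365) (B (lo19_10_0 (nat_lit 332)) (lo114_11_3 (nat_lit 366)))))) (B (M (nat_lit 362) (B (lo113_11_3 (nat_lit 365)) (M (nat_lit 328) (B (lo17_10_0 (nat_lit 327)) (lo112_11_3 (nat_lit 361)))))) (M (nat_lit 328) (B (lo18_10_0 (nat_lit 331)) (M (nat_lit 362) (B (lo17_10_0 (nat_lit 327)) (lo112_11_3 (nat_lit 361))))))))))) (M (nat_lit 393)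 (B (M (nat_lit 392) (B (lo112_13_3 (nat_lit 428)) (M (nat_lit 391) (B (lo16_12_0 (nat_lit 390)) (lo111_13_3 (nat_lit 424)))))) (M (nat_lit 361) (B (lo19_13_6 (nat_lit 298)) (M (nat_lit 328) (B (lo19_13_7 (nat_lit 296)) (M (nat_lit 362) (B (lo17_10_0 (nat_lit 327)) (lo112_11_3 (nat_lit 364)))))))))))))))))))) (B (M (nat_lit 459) (B (M (nat_lit 458) (B (lo111_11_5 (nat_lit 490)) (M (nat_lit 424) (B (lo17_13_0 (nat_lit 423)) (M (nat_lit 392) (B (lo111_13_3 (nat_lit 391)) (M (nat_lit 393) (B (lo112_13_3 (nat_lit 428)) (M (nat_lit 361) (B (lo19_10_4 (nat_lit 329)) (M (nat_lit 362) (B (lo112_11_1 (nat_lit 364)) (lo111_14_7 (nat_lit 330)))))))))))))) (B (M (nat_lit 491) (B (M (nat_lit 490) (B (lo111_11_5 (nat_lit 458)) (lo111_12_5 (nat_lit 522)))) (B (M (nat_lit 523) (B (M (nat_lit 522) (B (lo111_12_5 (nat_lit 490)) (lo111_13_5 (nat_lit 554)))) (M (nat_lit 524) (B (lo111_12_4 (nat_lit 492)) (lo111_13_4 (nat_lit 556)))))) (B (K _ _ _ o1_s9245)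 (M (nat_lit 523) (B (M (nat_lit 458) (B (lo111_17_7 (nat_lit 555)) (lo111_11_5 (nat_lit 490)))) (M (nat_lit 524) (B (lo111_12_4 (nat_lit 492)) (lo111_13_4 (nat_lit 556)))))))))) (M (nat_lit 392) (B (M (nat_lit 391) (B (lo111_13_3 (nat_lit 424)) (M (nat_lit 393) (B (lo16_12_0 (nat_lit 390)) (lo112_13_3 (nat_lit 428)))))) (B (M (nat_lit 362) (B (lo111_14_7 (nat_lit 330)) (M (nat_lit 393) (B (lo112_13_3 (nat_lit 428)) (M (nat_lit 364) (B (lo112_11_1 (nat_lit 361)) (lo111_14_6 (nat_lit 332)))))))) (M (nat_lit 360) (B (M (nat_lit 391) (B (lo111_13_3 (nat_lit 424)) (M (nat_lit 362) (B (lo111_11_1 (nat_lit 361)) (lo111_14_7 (nat_lit 330)))))) (B (M (nat_lit 328) (B (M (nat_lit 362) (B (lo111_14_7 (nat_lit 330)) (M (nat_lit 361) (B (lo111_11_3 (nat_lit 327)) (M (nat_lit 364) (B (lo112_11_3 (nat_lit 329)) (lo111_14_6 (nat_lit 332)))))))) (B (M (nat_lit 329) (B (M (nat_lit 424) (B (lo18_13_6 (nat_lit 297)) (M (nat_lit 455) (B (lo18_10_5 (nat_lit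 423)) (lo111_13_1 (nat_lit 456)))))) (B (M (nat_lit 424) (B (lo18_13_6 (nat_lit 297)) (M (nat_lit 456) (B (lo111_13_1 (nat_lit 455)) (lo18_14_6 (nat_lit 361)))))) (M (nat_lit 362) (B (lo111_14_7 (nat_lit 330)) (M (nat_lit 364) (B (lo112_11_3 (nat_lit 361)) (lo111_14_6 (nat_lit 332))))))))) (B (M (nat_lit 424) (B (M (nat_lit 455) (B (lo18_10_5 (nat_lit 423)) (lo111_13_1 (nat_lit 456)))) (M (nat_lit 327) (B (lo18_13_7 (nat_lit 295)) (M (nat_lit 362) (B (lo111_11_3 (nat_lit 361)) (lo111_14_7 (nat_lit 330)))))))) (M (nat_lit 424) (B (M (nat_lit 455) (B (lo18_10_5 (nat_lit 423)) (lo111_13_1 (nat_lit 456)))) (M (nat_lit 296) (B (M (nat_lit 295) (B (lo18_12_7 (nat_lit 263)) (lo18_13_7 (nat_lit 327)))) (M (nat_lit 297) (B (lo18_12_6 (nat_lit 265)) (lo18_13_6 (nat_lit 329)))))))))))) (B (M (nat_lit 362) (B (lo111_14_7 (nat_lit 330)) (M (nat_lit 361) (B (lo111_11_1 (nat_lit 391)) (M (nat_lit 328) (B (lo111_11_3 (nat_lit 327)) (M (nat_lit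 364) (B (lo112_11_3 (nat_lit 329)) (lo111_14_6 (nat_lit 332)))))))))) (M (nat_lit 424) (B (lo111_13_3 (nat_lit 391)) (M (nat_lit 455) (B (lo111_13_1 (nat_lit 456)) (M (nat_lit 423) (B (lo110_13_1 (nat_lit 454)) (lo18_10_5 (nat_lit 328)))))))))))))))))) (M (nat_lit 331) (B (lo111_10_5 (nat_lit 458)) (M (nat_lit 299) (B (M (nat_lit 298) (B (lo111_12_7 (nat_lit 266)) (lo111_13_7 (nat_lit 330)))) (M (nat_lit 300) (B (lo111_12_6 (nat_lit 268)) (lo111_13_6 (nat_lit 332)))))))))))) _ _ _ (by decide +kernel)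
theorem o1_s9370 : Sem (nat_lit 1488565710043426678105249862480226261333807984339885770073932237363270050943878002766292660142046947714920145369194767246188698093125369856) (nat_lit 253266331521236183188917834189743984510722337779040677995900759153663866459776905135345130731523083953191332805399467592412871775727786278836962784046166144446170721673220718592) (nat_lit 253266331521236183188917834189743984510722337779040677995900759153663866459776905135345130731523083953191332805399467592412871775727786278836962784046166144446170721673220718592) := sem_of_chk (M (nat_lit 491) (B (M (nat_lit 490) (B (lo111_11_5 (nat_lit 458)) (lo111_12_5 (nat_lit 522)))) (B (M (nat_lit 523) (B (M (nat_lit 522) (B (lo111_12_5 (nat_lit 490)) (lo111_13_5 (nat_lit 554)))) (M (nat_lit 524) (B (lo111_12_4 (nat_lit 492)) (lo111_13_4 (nat_lit 556)))))) (B (K _ _ _ o1_s9245) (M (nat_lit 523) (B (M (nat_lit 458) (B (lo111_11_5 (nat_lit 490)) (lo111_17_7 (nat_lit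 555)))) (M (nat_lit 524) (B (lo111_12_4 (nat_lit 492)) (lo111_13_4 (nat_lit 556)))))))))) _ _ _ (by decide +kernel)
theorem o1_s10644 : Sem (nat_lit 2426085982355713002131112411125198240506882440953839503274169633037793644329922420159977605341122130835217309591228125350352388096) (nat_lit 93438783879360135145833776423771669433731025900095705996446026967556006945493185792134148840480009658672010244345793169608607474027329231624516604664937576259125907933554617533829156413509453479936) (nat_lit 93438783879360135145833776423771669433731025900095705996446026967556006945493185792134148840480009658672010244345793169608607474027329231624516604664937576259125907933554617533829156413509453479936) := sem_of_chk (M (nat_lit 461) (B (M (nat_lit 426) (B (lo110_13_0 (nat_lit 462)) (M (nat_lit 425) (B (M (nat_lit 397) (B (lo110_13_2 (nat_lit 398)) (lo19_13_2 (nat_lit 396)))) (M (nat_lit 457) (B (lo113_13_1 (nat_lit 458)) (lo112_13_1 (nat_lit 456))))))))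 (B (M (nat_lit 397) (B (M (nat_lit 398) (B (lo110_13_2 (nat_lit 426)) (M (nat_lit 399) (B (lo116_12_1 (nat_lit 400)) (lo115_12_1 (nat_lit 396)))))) (B (M (nat_lit 493) (B (M (nat_lit 398) (B (lo113_15_6 (nat_lit 366)) (lo110_13_2 (nat_lit 426)))) (M (nat_lit 396) (B (lo113_16_7 (nat_lit 525)) (lo113_15_7 (nat_lit 364)))))) (B (M (nat_lit 365) (B (M (nat_lit 332) (B (lo113_14_7 (nat_lit 364)) (M (nat_lit 333) (B (lo113_13_7 (nat_lit 300)) (M (nat_lit 334) (B (lo113_14_6 (nat_lit 366)) (lo113_13_6 (nat_lit 302)))))))) (B (K _ _ _ o1_s10130) (B (K _ _ _ o1_s10139) (M (nat_lit 334) (B (lo113_14_6 (nat_lit 366)) (M (nat_lit 396) (B (M (nat_lit 493) (B (lo113_16_7 (nat_lit 525)) (lo113_15_7 (nat_lit 364)))) (M (nat_lit 333) (B (lo113_13_6 (nat_lit 302)) (lo113_9_5 (nat_lit 301)))))))))))) (M (nat_lit 398) (B (lo110_13_2 (nat_lit 426)) (M (nat_lit 366) (B (lo113_15_6 (nat_lit 493)) (M (nat_lit 334) (B (lo114_9_5 (nat_lit 302)) (lo113_14_6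 (nat_lit 365)))))))))))) (B (M (nat_lit 426) (B (lo110_13_0 (nat_lit 462)) (M (nat_lit 425) (B (M (nat_lit 457) (B (lo113_13_1 (nat_lit 458)) (lo112_13_1 (nat_lit 456)))) (M (nat_lit 424) (B (M (nat_lit 396) (B (lo19_13_2 (nat_lit 397)) (lo18_13_2 (nat_lit 395)))) (M (nat_lit 392) (B (lo112_13_3 (nat_lit 393)) (lo111_13_3 (nat_lit 391)))))))))) (B (M (nat_lit 459) (B (M (nat_lit 462) (B (lo110_13_0 (nat_lit 426)) (M (nat_lit 491) (B (M (nat_lit 396) (B (lo111_16_6 (nat_lit 523)) (M (nat_lit 364) (B (lo112_10_4 (nat_lit 332)) (lo111_15_6 (nat_lit 395)))))) (B (M (nat_lit 492) (B (M (nat_lit 463) (B (lo116_14_3 (nat_lit 464)) (M (nat_lit 493) (B (lo111_15_2 (nat_lit 494)) (lo110_15_2 (nat_lit 490)))))) (M (nat_lit 524) (B (lo111_12_4 (nat_lit 395)) (M (nat_lit 556) (B (lo112_18_7 (nat_lit 588)) (lo111_13_4 (nat_lit 523)))))))) (B (M (nat_lit 493) (B (M (nat_lit 396) (B (lo113_16_7 (nat_lit 525)) (M (nat_lit 364) (B (lo112_10_4 (nat_lit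 332)) (lo111_15_6 (nat_lit 395)))))) (M (nat_lit 463) (B (lo116_14_3 (nat_lit 464)) (M (nat_lit 492) (B (lo111_15_2 (nat_lit 494)) (lo110_15_2 (nat_lit 490)))))))) (K _ _ _ o1_s10200))))))) (B (M (nat_lit 462) (B (lo110_13_0 (nat_lit 426)) (M (nat_lit 491) (B (M (nat_lit 396) (B (lo111_16_6 (nat_lit 523)) (M (nat_lit 364) (B (lo112_10_4 (nat_lit 332)) (lo111_15_6 (nat_lit 395)))))) (B (M (nat_lit 492) (B (M (nat_lit 524) (B (lo111_12_4 (nat_lit 395)) (M (nat_lit 556) (B (lo112_18_7 (nat_lit 588)) (lo111_13_4 (nat_lit 523)))))) (M (nat_lit 493) (B (lo110_15_2 (nat_lit 490)) (M (nat_lit 494) (B (lo111_15_2 (nat_lit 463)) (lo114_15_3 (nat_lit 458)))))))) (B (M (nat_lit 493) (B (M (nat_lit 492) (B (lo110_15_2 (nat_lit 490)) (M (nat_lit 494) (B (lo111_15_2 (nat_lit 463)) (lo114_15_3 (nat_lit 458)))))) (M (nat_lit 396) (B (lo113_16_7 (nat_lit 525)) (M (nat_lit 364) (B (lo112_10_4 (nat_lit 332)) (lo111_15_6 (nat_lit 395)))))))) (K _ _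 _ o1_s10200))))))) (B (M (nat_lit 426) (B (lo110_13_0 (nat_lit 462)) (M (nat_lit 425) (B (M (nat_lit 457) (B (lo113_13_1 (nat_lit 458)) (lo112_13_1 (nat_lit 456)))) (B (M (nat_lit 424) (B (M (nat_lit 456) (B (lo112_13_1 (nat_lit 457)) (lo111_13_1 (nat_lit 455)))) (M (nat_lit 392) (B (lo112_13_3 (nat_lit 393)) (lo111_13_3 (nat_lit 391)))))) (B (M (nat_lit 424) (B (M (nat_lit 392) (B (lo112_13_3 (nat_lit 393)) (lo111_13_3 (nat_lit 391)))) (M (nat_lit 455) (B (lo111_13_1 (nat_lit 456)) (M (nat_lit 423) (B (lo17_13_0 (nat_lit 458)) (lo110_13_1 (nat_lit 454)))))))) (M (nat_lit 424) (B (M (nat_lit 458) (B (lo113_13_1 (nat_lit 457)) (lo17_13_0 (nat_lit 423)))) (M (nat_lit 392) (B (lo112_13_3 (nat_lit 393)) (lo111_13_3 (nat_lit 391)))))))))))) (B (M (nat_lit 491) (B (M (nat_lit 396) (B (lo111_16_6 (nat_lit 523)) (M (nat_lit 364) (B (lo112_10_4 (nat_lit 332)) (lo111_15_6 (nat_lit 395)))))) (B (M (nat_lit 458) (B (M (nat_lit 457) (B (lo113_13_1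 (nat_lit 426)) (lo18_14_2 (nat_lit 456)))) (B (M (nat_lit 492) (B (M (nat_lit 524) (B (lo111_12_4 (nat_lit 395)) (M (nat_lit 556) (B (lo112_18_7 (nat_lit 588)) (lo111_13_4 (nat_lit 523)))))) (M (nat_lit 457) (B (lo18_14_0 (nat_lit 456)) (M (nat_lit 493) (B (lo114_15_3 (nat_lit 494)) (lo113_15_3 (nat_lit 490)))))))) (M (nat_lit 523) (B (M (nat_lit 555) (B (lo111_17_7 (nat_lit 426)) (M (nat_lit 554) (B (lo111_14_5 (nat_lit 586)) (lo111_13_5 (nat_lit 522)))))) (B (M (nat_lit 395) (B (M (nat_lit 524) (B (lo111_13_4 (nat_lit 556)) (lo111_12_4 (nat_lit 492)))) (M (nat_lit 522) (B (lo111_13_5 (nat_lit 554)) (lo111_12_5 (nat_lit 490)))))) (M (nat_lit 556) (B (lo111_13_4 (nat_lit 524)) (M (nat_lit 555) (B (lo111_14_4 (nat_lit 588)) (lo111_17_7 (nat_lit 426)))))))))))) (B (M (nat_lit 458) (B (M (nat_lit 457) (B (lo113_13_1 (nat_lit 426)) (lo18_14_2 (nat_lit 456)))) (M (nat_lit 395) (B (M (nat_lit 490) (B (lo111_12_5 (nat_lit 522)) (lo111_11_5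 (nat_lit 363)))) (M (nat_lit 493) (B (M (nat_lit 492) (B (lo114_15_3 (nat_lit 494)) (lo111_12_4 (nat_lit 524)))) (M (nat_lit 396) (B (lo113_16_7 (nat_lit 525)) (lo111_15_6 (nat_lit 364)))))))))) (K _ _ _ o1_s10294))))) (M (nat_lit 491) (B (M (nat_lit 396) (B (lo111_16_6 (nat_lit 523)) (M (nat_lit 364) (B (lo112_10_4 (nat_lit 332)) (lo111_15_6 (nat_lit 395)))))) (B (M (nat_lit 492) (B (M (nat_lit 524) (B (lo111_12_4 (nat_lit 395)) (M (nat_lit 556) (B (lo112_18_7 (nat_lit 588)) (lo111_13_4 (nat_lit 523)))))) (B (M (nat_lit 493) (B (M (nat_lit 524) (B (lo111_12_4 (nat_lit 395)) (M (nat_lit 556) (B (lo113_13_5 (nat_lit 525)) (lo111_13_4 (nat_lit 523)))))) (M (nat_lit 494) (B (lo114_15_3 (nat_lit 458)) (M (nat_lit 462) (B (lo111_15_2 (nat_lit 463)) (lo110_15_2 (nat_lit 490)))))))) (B (M (nat_lit 493) (B (M (nat_lit 490) (B (lo110_15_2 (nat_lit 462)) (M (nat_lit 522) (B (lo113_15_1 (nat_lit 521)) (lo111_12_5 (nat_lit 395)))))) (B (M (nat_lit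 526) (B (M (nat_lit 494) (B (lo111_15_0 (nat_lit 527)) (lo114_15_3 (nat_lit 458)))) (M (nat_lit 525) (B (lo113_13_4 (nat_lit 558)) (lo110_15_0 (nat_lit 490)))))) (M (nat_lit 494) (B (lo114_15_3 (nat_lit 458)) (M (nat_lit 526) (B (lo111_15_0 (nat_lit 527)) (M (nat_lit 558) (B (lo114_18_7 (nat_lit 590)) (lo114_17_7 (nat_lit 462))))))))))) (M (nat_lit 493) (B (M (nat_lit 494) (B (lo114_15_3 (nat_lit 458)) (M (nat_lit 462) (B (lo111_15_2 (nat_lit 463)) (lo110_15_2 (nat_lit 490)))))) (B (M (nat_lit 526) (B (M (nat_lit 494) (B (lo111_15_0 (nat_lit 527)) (lo114_15_3 (nat_lit 458)))) (M (nat_lit 525) (B (lo113_13_4 (nat_lit 558)) (lo110_15_0 (nat_lit 490)))))) (B (M (nat_lit 490) (B (lo110_15_2 (nat_lit 462)) (M (nat_lit 522) (B (lo113_15_1 (nat_lit 521)) (M (nat_lit 554) (B (lo111_13_5 (nat_lit 523)) (lo110_18_6 (nat_lit 586)))))))) (M (nat_lit 494) (B (lo114_15_3 (nat_lit 458)) (M (nat_lit 526) (B (lo111_15_0 (nat_lit 527)) (M (nat_lit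 558) (B (lo114_18_7 (nat_lit 590)) (lo114_17_7 (nat_lit 462)))))))))))))))) (B (M (nat_lit 493) (B (M (nat_lit 396) (B (lo113_16_7 (nat_lit 525)) (M (nat_lit 364) (B (lo112_10_4 (nat_lit 332)) (lo111_15_6 (nat_lit 395)))))) (B (M (nat_lit 490) (B (M (nat_lit 492) (B (lo110_15_2 (nat_lit 462)) (M (nat_lit 458) (B (lo114_15_3 (nat_lit 494)) (lo113_15_3 (nat_lit 457)))))) (B (M (nat_lit 492) (B (lo110_15_2 (nat_lit 462)) (M (nat_lit 522) (B (lo113_15_1 (nat_lit 521)) (lo111_12_5 (nat_lit 395)))))) (M (nat_lit 522) (B (lo111_12_5 (nat_lit 395)) (M (nat_lit 554) (B (lo110_18_6 (nat_lit 586)) (lo110_17_6 (nat_lit 458))))))))) (M (nat_lit 492) (B (M (nat_lit 525) (B (lo113_16_7 (nat_lit 396)) (M (nat_lit 490) (B (lo110_15_0 (nat_lit 526)) (lo110_15_2 (nat_lit 462)))))) (B (M (nat_lit 490) (B (lo110_15_2 (nat_lit 462)) (M (nat_lit 458) (B (lo114_15_3 (nat_lit 494)) (lo113_15_3 (nat_lit 457)))))) (B (M (nat_lit 525) (B (lo113_16_7 (nat_lit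 396)) (M (nat_lit 526) (B (lo113_13_4 (nat_lit 558)) (lo110_15_0 (nat_lit 490)))))) (M (nat_lit 526) (B (M (nat_lit 494) (B (lo111_15_0 (nat_lit 527)) (lo114_15_3 (nat_lit 458)))) (M (nat_lit 525) (B (lo113_13_4 (nat_lit 558)) (lo113_16_7 (nat_lit 396))))))))))))) (K _ _ _ o1_s10294)))))))))) (B (M (nat_lit 493) (B (M (nat_lit 426) (B (lo110_13_0 (nat_lit 462)) (M (nat_lit 397) (B (lo110_13_2 (nat_lit 398)) (M (nat_lit 525) (B (M (nat_lit 526) (B (lo113_13_4 (nat_lit 558)) (lo113_12_4 (nat_lit 494)))) (M (nat_lit 524) (B (lo113_13_5 (nat_lit 556)) (lo113_12_5 (nat_lit 492)))))))))) (B (M (nat_lit 492) (B (M (nat_lit 524) (B (lo113_12_5 (nat_lit 397)) (M (nat_lit 556) (B (lo113_13_5 (nat_lit 525)) (lo112_18_6 (nat_lit 588)))))) (M (nat_lit 462) (B (lo110_13_0 (nat_lit 426)) (M (nat_lit 463) (B (lo116_14_1 (nat_lit 464)) (M (nat_lit 491) (B (lo111_15_2 (nat_lit 494)) (lo110_15_2 (nat_lit 490)))))))))) (B (M (nat_lit 426) (B (lo110_13_0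 (nat_lit 462)) (M (nat_lit 458) (B (lo113_13_1 (nat_lit 457)) (M (nat_lit 522) (B (M (nat_lit 490) (B (lo110_16_6 (nat_lit 395)) (M (nat_lit 554) (B (lo110_17_6 (nat_lit 459)) (M (nat_lit 555) (B (lo110_14_4 (nat_lit 587)) (lo110_13_4 (nat_lit 523)))))))) (B (M (nat_lit 490) (B (lo110_16_6 (nat_lit 395)) (M (nat_lit 554) (B (lo110_17_6 (nat_lit 459)) (M (nat_lit 553) (B (lo110_14_5 (nat_lit 585)) (lo110_13_5 (nat_lit 521)))))))) (B (M (nat_lit 490) (B (lo110_16_6 (nat_lit 395)) (M (nat_lit 554) (B (M (nat_lit 555) (B (lo110_14_4 (nat_lit 587)) (lo110_13_4 (nat_lit 523)))) (M (nat_lit 553) (B (lo110_14_5 (nat_lit 585)) (lo110_13_5 (nat_lit 521)))))))) (M (nat_lit 524) (B (M (nat_lit 397) (B (lo110_13_2 (nat_lit 398)) (lo113_12_5 (nat_lit 492)))) (M (nat_lit 525) (B (lo113_13_5 (nat_lit 556)) (M (nat_lit 558) (B (lo113_13_4 (nat_lit 526)) (M (nat_lit 557) (B (lo113_14_4 (nat_lit 590)) (lo110_16_0 (nat_lit 523)))))))))))))))))) (B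 (M (nat_lit 397) (B (M (nat_lit 398) (B (lo113_15_6 (nat_lit 366)) (lo110_13_2 (nat_lit 426)))) (M (nat_lit 525) (B (M (nat_lit 526) (B (lo113_13_4 (nat_lit 558)) (lo113_12_4 (nat_lit 494)))) (M (nat_lit 524) (B (lo113_13_5 (nat_lit 556)) (lo113_12_5 (nat_lit 492)))))))) (B (M (nat_lit 397) (B (M (nat_lit 398) (B (lo113_15_6 (nat_lit 366)) (lo110_13_2 (nat_lit 426)))) (B (M (nat_lit 494) (B (lo113_12_4 (nat_lit 526)) (M (nat_lit 462) (B (lo113_11_4 (nat_lit 365)) (lo110_13_0 (nat_lit 426)))))) (M (nat_lit 365) (B (M (nat_lit 494) (B (lo113_12_4 (nat_lit 526)) (lo113_11_4 (nat_lit 462)))) (M (nat_lit 366) (B (lo113_15_6 (nat_lit 398)) (lo113_14_6 (nat_lit 334))))))))) (B (M (nat_lit 525) (B (M (nat_lit 558) (B (lo113_13_4 (nat_lit 526)) (M (nat_lit 556) (B (lo113_13_5 (nat_lit 524)) (M (nat_lit 557) (B (lo113_14_4 (nat_lit 590)) (lo113_14_5 (nat_lit 588)))))))) (B (M (nat_lit 526) (B (lo113_13_4 (nat_lit 558)) (M (nat_lit 491) (B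 (M (nat_lit 492) (B (lo110_15_0 (nat_lit 490)) (M (nat_lit 524) (B (lo115_16_3 (nat_lit 527)) (lo113_13_5 (nat_lit 556)))))) (B (M (nat_lit 490) (B (lo110_15_0 (nat_lit 492)) (M (nat_lit 524) (B (lo114_16_3 (nat_lit 523)) (lo113_13_5 (nat_lit 556)))))) (B (M (nat_lit 492) (B (lo110_15_0 (nat_lit 490)) (M (nat_lit 527) (B (lo116_16_3 (nat_lit 528)) (lo115_16_3 (nat_lit 524)))))) (B (M (nat_lit 492) (B (lo110_15_0 (nat_lit 490)) (M (nat_lit 527) (B (lo116_16_3 (nat_lit 528)) (lo111_15_0 (nat_lit 494)))))) (B (M (nat_lit 524) (B (lo113_13_5 (nat_lit 556)) (M (nat_lit 523) (B (lo114_16_3 (nat_lit 490)) (M (nat_lit 494) (B (lo111_16_2 (nat_lit 495)) (lo110_16_2 (nat_lit 522)))))))) (M (nat_lit 492) (B (M (nat_lit 527) (B (lo116_16_3 (nat_lit 528)) (lo111_15_0 (nat_lit 494)))) (B (M (nat_lit 524) (B (lo115_16_3 (nat_lit 527)) (lo113_13_5 (nat_lit 556)))) (M (nat_lit 462) (B (lo110_13_0 (nat_lit 426)) (M (nat_lit 463) (B (lo116_14_1 (nat_lit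 464)) (lo111_15_2 (nat_lit 494))))))))))))))))) (B (M (nat_lit 557) (B (M (nat_lit 556) (B (lo113_14_5 (nat_lit 588)) (lo113_13_5 (nat_lit 524)))) (B (M (nat_lit 589) (B (M (nat_lit 462) (B (lo113_18_6 (nat_lit 494)) (lo110_13_0 (nat_lit 426)))) (M (nat_lit 621) (B (M (nat_lit 622) (B (lo113_16_4 (nat_lit 654)) (lo113_15_4 (nat_lit 590)))) (M (nat_lit 524) (B (lo113_19_7 (nat_lit 492)) (lo113_13_5 (nat_lit 556)))))))) (K _ _ _ o1_s10495)))) (B (M (nat_lit 557) (B (M (nat_lit 558) (B (lo113_14_4 (nat_lit 590)) (lo113_13_4 (nat_lit 526)))) (B (M (nat_lit 492) (B (M (nat_lit 462) (B (lo110_13_0 (nat_lit 426)) (M (nat_lit 463) (B (lo116_14_1 (nat_lit 464)) (M (nat_lit 494) (B (lo111_15_2 (nat_lit 491)) (lo113_18_6 (nat_lit 589)))))))) (B (M (nat_lit 462) (B (lo110_13_0 (nat_lit 426)) (M (nat_lit 494) (B (lo113_18_6 (nat_lit 589)) (M (nat_lit 491) (B (lo111_15_2 (nat_lit 463)) (lo110_15_2 (nat_lit 490)))))))) (B (M (nat_lit 526) (B (lo113_13_4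 (nat_lit 558)) (M (nat_lit 491) (B (lo110_15_0 (nat_lit 490)) (M (nat_lit 527) (B (lo116_16_3 (nat_lit 528)) (lo115_16_3 (nat_lit 524)))))))) (M (nat_lit 589) (B (M (nat_lit 462) (B (lo113_18_6 (nat_lit 494)) (lo110_13_0 (nat_lit 426)))) (M (nat_lit 621) (B (lo113_19_7 (nat_lit 524)) (M (nat_lit 620) (B (lo113_16_5 (nat_lit 652)) (lo113_15_5 (nat_lit 588)))))))))))) (K _ _ _ o1_s10495)))) (M (nat_lit 557) (B (M (nat_lit 558) (B (lo113_14_4 (nat_lit 590)) (lo113_13_4 (nat_lit 526)))) (M (nat_lit 589) (B (M (nat_lit 462) (B (lo113_18_6 (nat_lit 494)) (lo110_13_0 (nat_lit 426)))) (M (nat_lit 588) (B (lo113_15_5 (nat_lit 620)) (lo113_14_5 (nat_lit 556))))))))))))) (M (nat_lit 526) (B (M (nat_lit 558) (B (lo113_13_4 (nat_lit 525)) (M (nat_lit 494) (B (lo114_17_7 (nat_lit 462)) (lo113_12_4 (nat_lit 397)))))) (B (M (nat_lit 492) (B (M (nat_lit 397) (B (lo113_12_4 (nat_lit 494)) (lo113_12_5 (nat_lit 524)))) (B (M (nat_lit 524) (B (lo113_12_5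 (nat_lit 397)) (M (nat_lit 556) (B (lo113_13_5 (nat_lit 525)) (lo112_18_6 (nat_lit 588)))))) (B (M (nat_lit 491) (B (M (nat_lit 490) (B (lo110_15_0 (nat_lit 525)) (lo110_15_2 (nat_lit 462)))) (B (M (nat_lit 527) (B (lo111_15_0 (nat_lit 494)) (M (nat_lit 525) (B (lo116_16_3 (nat_lit 528)) (lo110_15_0 (nat_lit 490)))))) (B (M (nat_lit 494) (B (lo111_15_0 (nat_lit 527)) (M (nat_lit 462) (B (lo111_15_2 (nat_lit 463)) (lo110_15_2 (nat_lit 490)))))) (M (nat_lit 527) (B (lo111_15_0 (nat_lit 494)) (M (nat_lit 525) (B (lo116_16_3 (nat_lit 528)) (lo115_16_3 (nat_lit 524)))))))))) (M (nat_lit 491) (B (M (nat_lit 494) (B (lo111_15_0 (nat_lit 527)) (lo113_12_4 (nat_lit 397)))) (M (nat_lit 490) (B (lo110_15_0 (nat_lit 525)) (lo110_15_2 (nat_lit 462)))))))))) (B (M (nat_lit 525) (B (lo113_13_4 (nat_lit 558)) (M (nat_lit 524) (B (lo113_13_5 (nat_lit 556)) (M (nat_lit 492) (B (lo113_12_5 (nat_lit 397)) (M (nat_lit 491) (B (lo115_16_3 (nat_lit 527))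 (lo110_15_0 (nat_lit 490)))))))))) (B (M (nat_lit 494) (B (lo113_12_4 (nat_lit 397)) (M (nat_lit 558) (B (lo114_18_7 (nat_lit 590)) (lo114_17_7 (nat_lit 462)))))) (M (nat_lit 558) (B (lo113_13_4 (nat_lit 525)) (M (nat_lit 494) (B (lo114_18_7 (nat_lit 590)) (lo114_17_7 (nat_lit 462)))))))))))))))))) (M (nat_lit 493) (B (M (nat_lit 396) (B (lo113_16_7 (nat_lit 525)) (M (nat_lit 364) (B (lo113_15_7 (nat_lit 397)) (lo112_10_4 (nat_lit 332)))))) (B (M (nat_lit 397) (B (M (nat_lit 398) (B (lo113_15_6 (nat_lit 366)) (M (nat_lit 396) (B (lo115_12_1 (nat_lit 399)) (lo113_15_7 (nat_lit 364)))))) (B (M (nat_lit 365) (B (M (nat_lit 494) (B (lo113_12_4 (nat_lit 526)) (lo113_11_4 (nat_lit 462)))) (M (nat_lit 364) (B (lo113_15_7 (nat_lit 396)) (lo113_14_7 (nat_lit 332)))))) (M (nat_lit 365) (B (M (nat_lit 494) (B (lo113_12_4 (nat_lit 526)) (lo113_11_4 (nat_lit 462)))) (M (nat_lit 366) (B (lo113_15_6 (nat_lit 398)) (lo113_14_6 (nat_lit 334)))))))))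 (B (M (nat_lit 525) (B (lo113_16_7 (nat_lit 396)) (M (nat_lit 558) (B (lo113_13_4 (nat_lit 526)) (M (nat_lit 556) (B (lo113_13_5 (nat_lit 524)) (M (nat_lit 557) (B (lo113_14_4 (nat_lit 590)) (lo113_14_5 (nat_lit 588)))))))))) (M (nat_lit 524) (B (M (nat_lit 492) (B (lo113_12_5 (nat_lit 397)) (M (nat_lit 556) (B (lo113_13_5 (nat_lit 525)) (lo112_18_6 (nat_lit 588)))))) (B (M (nat_lit 492) (B (lo113_12_5 (nat_lit 397)) (K _ _ _ o1_s10606))) (B (M (nat_lit 492) (B (M (nat_lit 556) (B (lo113_13_5 (nat_lit 525)) (lo112_18_6 (nat_lit 588)))) (B (K _ _ _ o1_s10606) (B (M (nat_lit 491) (B (M (nat_lit 462) (B (lo110_15_2 (nat_lit 490)) (M (nat_lit 463) (B (lo116_14_1 (nat_lit 464)) (lo111_15_2 (nat_lit 494)))))) (M (nat_lit 556) (B (lo113_13_5 (nat_lit 525)) (M (nat_lit 459) (B (lo111_13_4 (nat_lit 523)) (lo111_12_4 (nat_lit 395)))))))) (K _ _ _ o1_s10625))))) (B (M (nat_lit 526) (B (M (nat_lit 525) (B (lo113_13_4 (nat_lit 558)) (lo113_13_5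 (nat_lit 556)))) (M (nat_lit 397) (B (lo113_12_4 (nat_lit 494)) (lo113_12_5 (nat_lit 492)))))) (B (M (nat_lit 492) (B (lo113_12_5 (nat_lit 397)) (K _ _ _ o1_s10625))) (M (nat_lit 525) (B (lo113_13_5 (nat_lit 556)) (M (nat_lit 526) (B (lo113_13_4 (nat_lit 558)) (M (nat_lit 494) (B (lo113_12_4 (nat_lit 397)) (M (nat_lit 495) (B (lo116_15_1 (nat_lit 496)) (lo111_16_2 (nat_lit 523)))))))))))))))))))))))))) _ _ _ (by decide +kernel)
theorem o1_s10864 : Sem (nat_lit 2426085982678494236967129347480950800299722304342311512253844413706692299760136684001113443473495270186072906469028620343967744000) (nat_lit 173291860401488215892420286894825434667435594814596995653148640766769967560289723460878238095514026942367534072652630676782186496) (nat_lit 173291860401488215892420286894825434667435594814596995653148640766769967560289723460878238095514026942367534072652630676782186496) := sem_of_chk (M (nat_lit 333) (B (M (nat_lit 302) (B (lo113_13_6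 (nat_lit 334)) (M (nat_lit 300) (B (lo113_13_7 (nat_lit 332)) (M (nat_lit 301) (B (lo113_12_6 (nat_lit 270)) (lo113_12_7 (nat_lit 268)))))))) (B (M (nat_lit 334) (B (lo113_13_6 (nat_lit 302)) (M (nat_lit 363) (B (M (nat_lit 364) (B (lo110_11_2 (nat_lit 362)) (M (nat_lit 332) (B (lo115_10_1 (nat_lit 335)) (lo113_13_7 (nat_lit 300)))))) (B (M (nat_lit 362) (B (lo110_11_2 (nat_lit 364)) (M (nat_lit 332) (B (lo114_10_1 (nat_lit 331)) (lo113_13_7 (nat_lit 300)))))) (B (M (nat_lit 364) (B (lo110_11_2 (nat_lit 362)) (M (nat_lit 335) (B (lo116_10_1 (nat_lit 336)) (lo115_10_1 (nat_lit 332)))))) (B (M (nat_lit 364) (B (lo110_11_2 (nat_lit 362)) (M (nat_lit 335) (B (lo116_10_1 (nat_lit 336)) (lo111_11_2 (nat_lit 366)))))) (B (M (nat_lit 332) (B (lo113_13_7 (nat_lit 300)) (M (nat_lit 331) (B (lo114_10_1 (nat_lit 362)) (M (nat_lit 366) (B (lo111_10_0 (nat_lit 367)) (lo110_10_0 (nat_lit 330)))))))) (M (nat_lit 364) (B (M (nat_lit 335) (B (lo116_10_1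 (nat_lit 336)) (lo111_11_2 (nat_lit 366)))) (B (M (nat_lit 332) (B (lo115_10_1 (nat_lit 335)) (lo113_13_7 (nat_lit 300)))) (M (nat_lit 398) (B (lo110_13_2 (nat_lit 426)) (M (nat_lit 399) (B (lo116_12_3 (nat_lit 400)) (lo111_11_0 (nat_lit 366))))))))))))))))) (B (M (nat_lit 301) (B (M (nat_lit 300) (B (lo113_12_7 (nat_lit 268)) (lo113_13_7 (nat_lit 332)))) (B (M (nat_lit 269) (B (M (nat_lit 398) (B (lo113_8_4 (nat_lit 366)) (lo110_13_2 (nat_lit 426)))) (M (nat_lit 237) (B (M (nat_lit 238) (B (lo113_10_6 (nat_lit 206)) (lo113_11_6 (nat_lit 270)))) (M (nat_lit 332) (B (lo113_7_5 (nat_lit 364)) (lo113_13_7 (nat_lit 300)))))))) (K _ _ _ o1_s10823)))) (B (M (nat_lit 301) (B (M (nat_lit 302) (B (lo113_12_6 (nat_lit 270)) (lo113_13_6 (nat_lit 334)))) (B (M (nat_lit 364) (B (M (nat_lit 398) (B (lo110_13_2 (nat_lit 426)) (M (nat_lit 399) (B (lo116_12_3 (nat_lit 400)) (M (nat_lit 366) (B (lo111_11_0 (nat_lit 363)) (lo113_8_4 (nat_lit 269))))))))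 (B (M (nat_lit 398) (B (lo110_13_2 (nat_lit 426)) (M (nat_lit 366) (B (lo113_8_4 (nat_lit 269)) (M (nat_lit 363) (B (lo111_11_0 (nat_lit 399)) (lo110_11_0 (nat_lit 362)))))))) (B (M (nat_lit 334) (B (lo113_13_6 (nat_lit 302)) (M (nat_lit 363) (B (lo110_11_2 (nat_lit 362)) (M (nat_lit 335) (B (lo116_10_1 (nat_lit 336)) (lo115_10_1 (nat_lit 332)))))))) (M (nat_lit 269) (B (M (nat_lit 398) (B (lo113_8_4 (nat_lit 366)) (lo110_13_2 (nat_lit 426)))) (M (nat_lit 237) (B (lo113_7_5 (nat_lit 332)) (M (nat_lit 236) (B (lo113_10_7 (nat_lit 204)) (lo113_11_7 (nat_lit 268)))))))))))) (K _ _ _ o1_s10823)))) (M (nat_lit 301) (B (M (nat_lit 302) (B (lo113_12_6 (nat_lit 270)) (lo113_13_6 (nat_lit 334)))) (M (nat_lit 269) (B (M (nat_lit 398) (B (lo113_8_4 (nat_lit 366)) (lo110_13_2 (nat_lit 426)))) (M (nat_lit 268) (B (lo113_11_7 (nat_lit 236)) (lo113_12_7 (nat_lit 300))))))))))))) _ _ _ (by decide +kernel)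
theorem o1_s11148 : Sem (nat_lit 2426085982678494236891975984832188137007258925245052727377822572141626063897503372912082754669827799995234538520716021846945824768) (nat_lit 329510287762989358711048417629987245807116317466427345618918287463633546910996937755825783824181449498179868434673266668278846736270475459246226739692602130432) (nat_lit 329510287762989358711048417629987245807116317466427345618918287463633546910996937755825783824181449498179868434673266668278846736270475459246226739692602130432) := sem_of_chk (M (nat_lit 365) (B (M (nat_lit 333) (B (M (nat_lit 301) (B (lo113_9_5 (nat_lit 396)) (M (nat_lit 300) (B (lo113_12_7 (nat_lit 268)) (lo113_13_7 (nat_lit 332)))))) (B (M (nat_lit 461) (B (M (nat_lit 334) (B (lo113_13_6 (nat_lit 302)) (lo113_14_6 (nat_lit 366)))) (M (nat_lit 332) (B (lo113_13_7 (nat_lit 300)) (lo113_14_7 (nat_lit 364)))))) (M (nat_lit 301) (B (lo113_9_5 (nat_lit 396)) (M (nat_lit 302) (B (lo113_12_6 (nat_lit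 270)) (lo113_13_6 (nat_lit 334))))))))) (B (M (nat_lit 398) (B (M (nat_lit 399) (B (lo116_12_1 (nat_lit 400)) (lo115_12_1 (nat_lit 396)))) (B (K _ _ _ o1_s10927) (B (M (nat_lit 461) (B (M (nat_lit 366) (B (lo113_14_6 (nat_lit 334)) (lo113_15_6 (nat_lit 493)))) (B (M (nat_lit 493) (B (lo113_15_6 (nat_lit 366)) (M (nat_lit 494) (B (lo113_11_4 (nat_lit 462)) (lo113_12_4 (nat_lit 526)))))) (B (M (nat_lit 493) (B (M (nat_lit 494) (B (lo113_11_4 (nat_lit 462)) (lo113_12_4 (nat_lit 526)))) (M (nat_lit 364) (B (lo113_14_7 (nat_lit 332)) (lo113_15_7 (nat_lit 396)))))) (M (nat_lit 333) (B (M (nat_lit 334) (B (lo113_13_6 (nat_lit 302)) (lo113_14_6 (nat_lit 366)))) (M (nat_lit 332) (B (lo113_13_7 (nat_lit 300)) (lo113_14_7 (nat_lit 364)))))))))) (K _ _ _ o1_s10947))))) (B (M (nat_lit 398) (B (M (nat_lit 399) (B (lo116_12_1 (nat_lit 400)) (lo115_12_1 (nat_lit 396)))) (B (K _ _ _ o1_s10927) (B (M (nat_lit 333) (B (M (nat_lit 301) (B (lo113_9_5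 (nat_lit 396)) (M (nat_lit 300) (B (lo113_12_7 (nat_lit 268)) (lo113_13_7 (nat_lit 332)))))) (B (M (nat_lit 461) (B (M (nat_lit 366) (B (lo113_14_6 (nat_lit 334)) (lo113_15_6 (nat_lit 493)))) (M (nat_lit 332) (B (lo113_13_7 (nat_lit 300)) (lo113_14_7 (nat_lit 364)))))) (M (nat_lit 366) (B (M (nat_lit 301) (B (lo113_8_4 (nat_lit 269)) (lo113_9_5 (nat_lit 396)))) (M (nat_lit 461) (B (lo113_14_6 (nat_lit 334)) (lo113_15_6 (nat_lit 493))))))))) (K _ _ _ o1_s10947))))) (B (M (nat_lit 398) (B (M (nat_lit 399) (B (lo116_12_1 (nat_lit 400)) (lo115_12_1 (nat_lit 396)))) (B (K _ _ _ o1_s10927) (B (M (nat_lit 333) (B (M (nat_lit 301) (B (lo113_9_5 (nat_lit 396)) (M (nat_lit 300) (B (lo113_12_7 (nat_lit 268)) (lo113_13_7 (nat_lit 332)))))) (B (M (nat_lit 461) (B (M (nat_lit 332) (B (lo113_13_7 (nat_lit 300)) (lo113_14_7 (nat_lit 364)))) (M (nat_lit 493) (B (lo113_15_6 (nat_lit 366)) (M (nat_lit 494) (B (lo113_11_4 (nat_lit 462)) (lo113_12_4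 (nat_lit 526)))))))) (M (nat_lit 301) (B (lo113_9_5 (nat_lit 396)) (M (nat_lit 270) (B (lo113_12_6 (nat_lit 302)) (M (nat_lit 269) (B (lo113_11_6 (nat_lit 238)) (lo113_8_4 (nat_lit 366))))))))))) (K _ _ _ o1_s10947))))) (B (M (nat_lit 333) (B (M (nat_lit 301) (B (lo113_9_5 (nat_lit 396)) (M (nat_lit 300) (B (lo113_12_7 (nat_lit 268)) (lo113_13_7 (nat_lit 332)))))) (B (M (nat_lit 332) (B (lo113_13_7 (nat_lit 300)) (M (nat_lit 364) (B (lo113_14_7 (nat_lit 461)) (M (nat_lit 334) (B (lo113_13_6 (nat_lit 302)) (M (nat_lit 335) (B (lo116_10_1 (nat_lit 336)) (lo115_10_1 (nat_lit 363)))))))))) (M (nat_lit 301) (B (lo113_9_5 (nat_lit 396)) (M (nat_lit 302) (B (lo113_12_6 (nat_lit 270)) (lo113_13_6 (nat_lit 334))))))))) (B (M (nat_lit 364) (B (M (nat_lit 332) (B (lo113_14_7 (nat_lit 461)) (M (nat_lit 300) (B (lo112_8_4 (nat_lit 268)) (lo112_9_4 (nat_lit 396)))))) (B (M (nat_lit 332) (B (M (nat_lit 300) (B (lo112_8_4 (nat_lit 268)) (lo112_9_4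 (nat_lit 396)))) (B (M (nat_lit 396) (B (lo112_9_4 (nat_lit 300)) (lo112_10_5 (nat_lit 459)))) (B (M (nat_lit 398) (B (M (nat_lit 399) (B (lo116_12_3 (nat_lit 400)) (lo115_12_1 (nat_lit 396)))) (B (M (nat_lit 396) (B (lo115_12_1 (nat_lit 399)) (lo112_10_5 (nat_lit 459)))) (B (M (nat_lit 363) (B (lo110_11_0 (nat_lit 362)) (M (nat_lit 459) (B (lo112_10_5 (nat_lit 396)) (lo111_14_6 (nat_lit 395)))))) (M (nat_lit 363) (B (lo110_11_0 (nat_lit 362)) (M (nat_lit 399) (B (lo116_12_3 (nat_lit 400)) (lo111_11_0 (nat_lit 366)))))))))) (M (nat_lit 363) (B (M (nat_lit 395) (B (lo111_14_6 (nat_lit 459)) (M (nat_lit 300) (B (lo112_8_4 (nat_lit 268)) (lo111_13_6 (nat_lit 331)))))) (M (nat_lit 398) (B (lo110_11_0 (nat_lit 362)) (M (nat_lit 399) (B (lo116_12_3 (nat_lit 400)) (lo111_11_0 (nat_lit 366)))))))))))) (B (M (nat_lit 332) (B (lo113_14_7 (nat_lit 461)) (M (nat_lit 396) (B (lo112_9_4 (nat_lit 300)) (lo112_10_5 (nat_lit 459)))))) (B (M (nat_lit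 461) (B (lo113_14_7 (nat_lit 332)) (M (nat_lit 366) (B (lo113_14_6 (nat_lit 334)) (M (nat_lit 493) (B (lo113_15_6 (nat_lit 398)) (lo113_15_7 (nat_lit 396)))))))) (B (K _ _ _ o1_s11053) (K _ _ _ o1_s11059))))))) (B (M (nat_lit 333) (B (M (nat_lit 301) (B (lo113_9_5 (nat_lit 396)) (M (nat_lit 302) (B (lo113_12_6 (nat_lit 270)) (lo113_13_6 (nat_lit 334)))))) (B (M (nat_lit 301) (B (lo113_9_5 (nat_lit 396)) (M (nat_lit 300) (B (lo113_12_7 (nat_lit 268)) (lo113_13_7 (nat_lit 332)))))) (B (M (nat_lit 332) (B (lo113_13_7 (nat_lit 300)) (M (nat_lit 364) (B (M (nat_lit 334) (B (lo113_13_6 (nat_lit 302)) (M (nat_lit 335) (B (lo116_10_1 (nat_lit 336)) (lo115_10_1 (nat_lit 363)))))) (M (nat_lit 331) (B (M (nat_lit 366) (B (lo115_11_3 (nat_lit 367)) (lo110_10_0 (nat_lit 330)))) (M (nat_lit 396) (B (lo112_13_7 (nat_lit 299)) (lo112_10_5 (nat_lit 459)))))))))) (M (nat_lit 302) (B (lo113_13_6 (nat_lit 334)) (M (nat_lit 300) (B (lo113_13_7 (nat_lit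 332)) (M (nat_lit 301) (B (lo113_12_6 (nat_lit 270)) (lo113_12_7 (nat_lit 268)))))))))))) (B (M (nat_lit 333) (B (M (nat_lit 301) (B (lo113_9_5 (nat_lit 396)) (M (nat_lit 302) (B (lo113_12_6 (nat_lit 270)) (lo113_13_6 (nat_lit 334)))))) (B (M (nat_lit 461) (B (M (nat_lit 334) (B (lo113_13_6 (nat_lit 302)) (lo113_14_6 (nat_lit 366)))) (M (nat_lit 332) (B (lo113_13_7 (nat_lit 300)) (lo113_14_7 (nat_lit 364)))))) (M (nat_lit 332) (B (lo113_13_7 (nat_lit 300)) (M (nat_lit 364) (B (lo113_14_7 (nat_lit 461)) (M (nat_lit 396) (B (lo113_9_5 (nat_lit 301)) (lo112_10_5 (nat_lit 459))))))))))) (B (M (nat_lit 364) (B (M (nat_lit 461) (B (lo113_14_7 (nat_lit 332)) (M (nat_lit 493) (B (lo113_15_7 (nat_lit 396)) (M (nat_lit 494) (B (lo113_11_4 (nat_lit 462)) (lo113_12_4 (nat_lit 526)))))))) (B (M (nat_lit 461) (B (lo113_14_7 (nat_lit 332)) (M (nat_lit 366) (B (lo113_14_6 (nat_lit 334)) (M (nat_lit 493) (B (lo113_15_6 (nat_lit 398)) (lo113_15_7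 (nat_lit 396)))))))) (B (M (nat_lit 363) (B (M (nat_lit 398) (B (lo110_11_0 (nat_lit 362)) (M (nat_lit 399) (B (lo116_12_3 (nat_lit 400)) (lo115_12_3 (nat_lit 396)))))) (B (M (nat_lit 398) (B (lo110_11_0 (nat_lit 362)) (M (nat_lit 399) (B (lo111_11_0 (nat_lit 366)) (lo115_12_3 (nat_lit 396)))))) (B (M (nat_lit 366) (B (M (nat_lit 334) (B (lo111_11_2 (nat_lit 335)) (M (nat_lit 302) (B (lo114_8_5 (nat_lit 270)) (lo114_9_5 (nat_lit 398)))))) (M (nat_lit 367) (B (M (nat_lit 331) (B (lo115_11_3 (nat_lit 332)) (lo114_11_3 (nat_lit 330)))) (M (nat_lit 395) (B (lo115_11_1 (nat_lit 396)) (lo114_11_1 (nat_lit 394)))))))) (B (M (nat_lit 366) (B (M (nat_lit 334) (B (lo111_11_2 (nat_lit 335)) (M (nat_lit 302) (B (lo114_8_5 (nat_lit 270)) (lo113_13_6 (nat_lit 333)))))) (M (nat_lit 367) (B (M (nat_lit 331) (B (lo115_11_3 (nat_lit 332)) (lo114_11_3 (nat_lit 330)))) (M (nat_lit 395) (B (lo115_11_1 (nat_lit 396)) (lo114_11_1 (nat_lit 394))))))))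 (M (nat_lit 398) (B (lo110_11_0 (nat_lit 362)) (M (nat_lit 399) (B (lo116_12_3 (nat_lit 400)) (lo111_11_0 (nat_lit 366))))))))))) (B (K _ _ _ o1_s11053) (K _ _ _ o1_s11059)))))) (B (M (nat_lit 333) (B (M (nat_lit 301) (B (lo113_9_5 (nat_lit 396)) (M (nat_lit 302) (B (lo113_12_6 (nat_lit 270)) (lo113_13_6 (nat_lit 334)))))) (B (M (nat_lit 461) (B (M (nat_lit 334) (B (lo113_13_6 (nat_lit 302)) (lo113_14_6 (nat_lit 366)))) (M (nat_lit 493) (B (M (nat_lit 494) (B (lo113_11_4 (nat_lit 462)) (lo113_12_4 (nat_lit 526)))) (M (nat_lit 396) (B (lo113_9_5 (nat_lit 301)) (lo113_16_7 (nat_lit 525)))))))) (B (M (nat_lit 301) (B (lo113_9_5 (nat_lit 396)) (K _ _ _ o1_s11121))) (B (M (nat_lit 301) (B (lo113_9_5 (nat_lit 396)) (M (nat_lit 269) (B (M (nat_lit 270) (B (lo113_11_6 (nat_lit 238)) (lo113_12_6 (nat_lit 302)))) (M (nat_lit 268) (B (lo113_11_7 (nat_lit 236)) (lo113_12_7 (nat_lit 300)))))))) (B (M (nat_lit 461) (B (M (nat_lit 334) (B (lo113_13_6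 (nat_lit 302)) (lo113_14_6 (nat_lit 366)))) (M (nat_lit 493) (B (M (nat_lit 494) (B (lo113_11_4 (nat_lit 462)) (lo113_12_4 (nat_lit 526)))) (M (nat_lit 396) (B (lo113_15_7 (nat_lit 364)) (lo113_16_7 (nat_lit 525)))))))) (M (nat_lit 301) (B (M (nat_lit 302) (B (lo113_12_6 (nat_lit 270)) (lo113_13_6 (nat_lit 334)))) (B (M (nat_lit 334) (B (lo113_13_6 (nat_lit 302)) (M (nat_lit 366) (B (lo113_14_6 (nat_lit 461)) (M (nat_lit 269) (B (lo113_7_4 (nat_lit 237)) (lo113_8_4 (nat_lit 398)))))))) (B (K _ _ _ o1_s11121) (M (nat_lit 269) (B (M (nat_lit 270) (B (lo113_11_6 (nat_lit 238)) (lo113_12_6 (nat_lit 302)))) (M (nat_lit 268) (B (lo113_11_7 (nat_lit 236)) (lo113_12_7 (nat_lit 300)))))))))))))))) (B (M (nat_lit 333) (B (M (nat_lit 301) (B (lo113_9_5 (nat_lit 396)) (M (nat_lit 302) (B (lo113_12_6 (nat_lit 270)) (lo113_13_6 (nat_lit 334)))))) (B (M (nat_lit 301) (B (lo113_9_5 (nat_lit 396)) (M (nat_lit 300) (B (lo113_12_7 (nat_lit 268)) (lo113_13_7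 (nat_lit 332)))))) (M (nat_lit 334) (B (lo113_13_6 (nat_lit 302)) (M (nat_lit 366) (B (lo113_14_6 (nat_lit 461)) (M (nat_lit 332) (B (lo113_13_7 (nat_lit 300)) (M (nat_lit 367) (B (lo116_11_3 (nat_lit 368)) (lo111_10_0 (nat_lit 331))))))))))))) (K _ _ _ o1_s10910))))))))))))) _ _ _ (by decide +kernel)
theorem o1_s11743 : Sem (nat_lit 27459190648514115150597250445285301399510228893614036901870700106808031225506030273045444760761894171796696201722292708995963092758472118090350829068168986624) (nat_lit 63316582821340882898237578732137811817365363418315673194294378809249913051256502099982988640984641893123622023329464468171741878656882826377053840765335552625515519776296796160) (nat_lit 63316582821340882898237578732137811817365363418315673194294378809249913051256502099982988640984641893123622023329464468171741878656882826377053840765335552625515519776296796160) := sem_of_chk (M (nat_lit 425) (B (M (nat_lit 521) (B (M (nat_lit 456) (B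 (M (nat_lit 490) (B (M (nat_lit 455) (B (lo111_15_3 (nat_lit 488)) (lo16_14_0 (nat_lit 454)))) (lo112_15_3 (nat_lit 492)))) (M (nat_lit 424) (B (lo19_16_7 (nat_lit 392)) (lo19_17_7 (nat_lit 553)))))) (B (M (nat_lit 520) (B (M (nat_lit 490) (B (M (nat_lit 488) (B (lo19_12_5 (nat_lit 393)) (lo111_15_1 (nat_lit 519)))) (lo112_15_1 (nat_lit 492)))) (lo19_13_5 (nat_lit 552)))) (M (nat_lit 553) (B (M (nat_lit 424) (B (lo19_17_7 (nat_lit 456)) (lo19_16_7 (nat_lit 392)))) (M (nat_lit 552) (B (lo19_13_5 (nat_lit 520)) (lo19_14_5 (nat_lit 584))))))))) (B (M (nat_lit 392) (B (M (nat_lit 521) (B (M (nat_lit 520) (B (M (nat_lit 490) (B (M (nat_lit 519) (B (lo111_15_1 (nat_lit 488)) (lo16_16_2 (nat_lit 518)))) (lo112_15_1 (nat_lit 492)))) (lo19_13_5 (nat_lit 552)))) (lo19_16_7 (nat_lit 424)))) (M (nat_lit 393) (B (lo112_13_3 (nat_lit 426)) (lo19_15_7 (nat_lit 360)))))) (B (K _ _ _ o1_s11735) (M (nat_lit 456) (B (M (nat_lit 490) (B (M (nat_lit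 455) (B (lo16_14_0 (nat_lit 454)) (lo111_15_3 (nat_lit 488)))) (lo112_15_3 (nat_lit 492)))) (lo112_13_1 (nat_lit 426)))))))) _ _ _ (by decide +kernel)
theorem o1_s12225 : Sem (nat_lit 6393341032907859226492350748778386544497533015248381040825970128587215734279486200614479227119003066922537888113314949837136179292259113826888187904) (nat_lit 1266331656006669497347727130086805886988587247013452175774941826428071803495023856943669608978398036465513605919200450556989767687828672920241410850689285766782411037928220262400) (nat_lit 1266331656006669497347727130086805886988587247013452175774941826428071803495023856943669608978398036465513605919200450556989767687828672920241410850689285766782411037928220262400) := sem_of_chk (M (nat_lit 523) (B (K _ _ _ o1_s12215) (B (M (nat_lit 554) (B (M (nat_lit 555) (B (lo111_17_6 (nat_lit 460)) (lo111_14_5 (nat_lit 586)))) (lo111_13_5 (nat_lit 522)))) (M (nat_lit 555) (B (M (nat_lit 556) (B (lo111_13_4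 (nat_lit 524)) (lo111_14_4 (nat_lit 588)))) (lo111_17_6 (nat_lit 460))))))) _ _ _ (by decide +kernel)
theorem o1_s12849 : Sem (nat_lit 1488565709783488894362118778066177484334950695444698070555938043247945364645948801085752168397817962273916609664859056463850937734051921920) (nat_lit 12786682065071435594627119935145554386791966177046308366117248485879608601025506180932961330675892145054491279848243793517289375866435292844242501632) (nat_lit 12786682065071435594627119935145554386791966177046308366117248485879608601025506180932961330675892145054491279848243793517289375866435292844242501632) := sem_of_chk (M (nat_lit 397) (B (M (nat_lit 365) (B (K _ _ _ o1_s12834) (B (M (nat_lit 364) (B (M (nat_lit 363) (B (M (nat_lit 362) (B (M (nat_lit 330) (B (lo111_14_7 (nat_lit 395)) (lo113_11_3 (nat_lit 329)))) (lo19_11_0 (nat_lit 361)))) (M (nat_lit 460) (B (lo112_15_6 (nat_lit 492)) (lo112_14_7 (nat_lit 331)))))) (lo112_10_5 (nat_lit 332))))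 (M (nat_lit 333) (B (lo113_10_5 (nat_lit 460)) (lo113_9_5 (nat_lit 301))))))) (M (nat_lit 398) (B (lo110_13_2 (nat_lit 426)) (lo115_12_1 (nat_lit 399)))))) _ _ _ (by decide +kernel)
theorem o1_s13085 : Sem (nat_lit 1488565709783488894362118778066177484334950695444698070555938043247945364645948801085752168397817962273916609664859056463850937734051921920) (nat_lit 96107167264205229622133057770249593122764763059292978279522694300033594770439786958750314669667998580066929632163312868151865664691008866800647140205391773696) (nat_lit 96107167264205229622133057770249593122764763059292978279522694300033594770439786958750314669667998580066929632163312868151865664691008866800647140205391773696) := sem_of_chk (M (nat_lit 397) (B (M (nat_lit 365) (B (M (nat_lit 491) (B (M (nat_lit 492) (B (M (nat_lit 395) (B (M (nat_lit 363) (B (M (nat_lit 330) (B (M (nat_lit 331) (B (lo111_9_4 (nat_lit 299)) (lo111_13_7 (nat_lit 298)))) (lo111_14_7 (nat_lit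 362)))) (M (nat_lit 490) (B (lo111_11_5 (nat_lit 458)) (lo111_12_5 (nat_lit 522)))))) (lo111_12_4 (nat_lit 524)))) (lo112_15_6 (nat_lit 460)))) (lo111_16_6 (nat_lit 523)))) (B (K _ _ _ o1_s12834) (M (nat_lit 333) (B (lo113_10_5 (nat_lit 460)) (lo113_9_5 (nat_lit 301))))))) (M (nat_lit 398) (B (lo110_13_2 (nat_lit 426)) (lo115_12_1 (nat_lit 399)))))) _ _ _ (by decide +kernel)
theorem o1_s13165 : Sem (nat_lit 1488565709783488894200728160685745697481455747194509828410331431196118895094032591301961692021765387609563775084850441999106989485755203584) (nat_lit 1266331655955072355030246448049208233589852750686919214148106783374830769028909342195598172482782569419998015087917554068861435861116416554013536997519395513652182910088110931968) (nat_lit 1266331655955072355030246448049208233589852750686919214148106783374830769028909342195598172482782569419998015087917554068861435861116416554013536997519395513652182910088110931968) := sem_of_chk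 (M (nat_lit 458) (B (M (nat_lit 491) (B (M (nat_lit 395) (B (M (nat_lit 363) (B (M (nat_lit 331) (B (M (nat_lit 299) (B (M (nat_lit 300) (B (lo111_13_6 (nat_lit 332)) (lo111_12_6 (nat_lit 268)))) (lo111_9_4 (nat_lit 396)))) (M (nat_lit 330) (B (lo111_14_7 (nat_lit 362)) (lo111_13_7 (nat_lit 298)))))) (B (M (nat_lit 331) (B (M (nat_lit 330) (B (lo111_14_7 (nat_lit 362)) (lo111_13_7 (nat_lit 298)))) (M (nat_lit 332) (B (lo111_14_6 (nat_lit 364)) (lo111_13_6 (nat_lit 300)))))) (B (M (nat_lit 331) (B (M (nat_lit 396) (B (lo111_9_4 (nat_lit 299)) (lo111_15_6 (nat_lit 364)))) (M (nat_lit 330) (B (lo111_14_7 (nat_lit 362)) (lo111_13_7 (nat_lit 298)))))) (M (nat_lit 364) (B (lo111_14_6 (nat_lit 332)) (lo111_15_6 (nat_lit 396)))))))) (M (nat_lit 492) (B (M (nat_lit 490) (B (M (nat_lit 457) (B (lo113_15_3 (nat_lit 493)) (lo18_14_0 (nat_lit 456)))) (lo111_12_5 (nat_lit 522)))) (lo111_12_4 (nat_lit 524)))))) (B (K _ _ _ o1_s12931) (B (M (nat_lit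 523) (B (M (nat_lit 555) (B (M (nat_lit 556) (B (lo111_13_4 (nat_lit 524)) (lo111_14_4 (nat_lit 588)))) (M (nat_lit 554) (B (lo111_14_5 (nat_lit 586)) (lo111_13_5 (nat_lit 522)))))) (lo111_16_6 (nat_lit 396)))) (M (nat_lit 395) (B (M (nat_lit 396) (B (lo111_16_6 (nat_lit 523)) (lo111_15_6 (nat_lit 364)))) (M (nat_lit 490) (B (lo111_11_5 (nat_lit 363)) (lo111_12_5 (nat_lit 522)))))))))) (B (M (nat_lit 491) (B (M (nat_lit 395) (B (M (nat_lit 492) (B (M (nat_lit 490) (B (M (nat_lit 396) (B (M (nat_lit 493) (B (M (nat_lit 525) (B (lo112_12_4 (nat_lit 460)) (lo110_15_0 (nat_lit 526)))) (lo114_15_3 (nat_lit 494)))) (lo111_15_6 (nat_lit 364)))) (lo111_12_5 (nat_lit 522)))) (lo111_12_4 (nat_lit 524)))) (B (M (nat_lit 363) (B (M (nat_lit 460) (B (lo111_11_4 (nat_lit 492)) (lo111_10_4 (nat_lit 331)))) (M (nat_lit 364) (B (lo111_14_6 (nat_lit 332)) (lo111_15_6 (nat_lit 396)))))) (M (nat_lit 490) (B (lo111_11_5 (nat_lit 363)) (lo111_12_5 (nat_lit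 522))))))) (B (M (nat_lit 523) (B (M (nat_lit 395) (B (M (nat_lit 524) (B (lo111_12_4 (nat_lit 492)) (lo111_13_4 (nat_lit 556)))) (M (nat_lit 490) (B (lo111_11_5 (nat_lit 363)) (lo111_12_5 (nat_lit 522)))))) (B (M (nat_lit 554) (B (M (nat_lit 555) (B (lo111_17_6 (nat_lit 460)) (lo111_14_5 (nat_lit 586)))) (lo111_13_5 (nat_lit 522)))) (M (nat_lit 555) (B (M (nat_lit 556) (B (lo111_13_4 (nat_lit 524)) (lo111_14_4 (nat_lit 588)))) (lo111_17_6 (nat_lit 460))))))) (B (M (nat_lit 395) (B (M (nat_lit 396) (B (lo111_16_6 (nat_lit 523)) (lo111_15_6 (nat_lit 364)))) (M (nat_lit 490) (B (lo111_11_5 (nat_lit 363)) (lo111_12_5 (nat_lit 522)))))) (M (nat_lit 396) (B (M (nat_lit 364) (B (lo112_11_5 (nat_lit 460)) (lo112_10_5 (nat_lit 332)))) (lo111_16_6 (nat_lit 523)))))))) (M (nat_lit 457) (B (lo19_14_2 (nat_lit 460)) (lo18_14_2 (nat_lit 456))))))) _ _ _ (by decide +kernel)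
theorem o1_s13264 : Sem (nat_lit 2686023766502320629996240655279665407275370865079575249790236706869045064778871227208595733507107282981568315767660888100398170112) (nat_lit 325623748549416332959879591259897370478566096527649614127642340957773921787925506317582524624902836967671627386108665332967953468628140032) (nat_lit 325623748549416332959879591259897370478566096527649614127642340957773921787925506317582524624902836967671627386108665332967953468628140032) := sem_of_chk (M (nat_lit 332) (B (M (nat_lit 424) (B (M (nat_lit 329) (B (M (nat_lit 361) (B (M (nat_lit 362) (B (lo19_11_2 (nat_lit 364)) (lo18_11_2 (nat_lit 360)))) (M (nat_lit 456) (B (lo19_10_5 (nat_lit 393)) (lo111_13_1 (nat_lit 455)))))) (M (nat_lit 330) (B (M (nat_lit 297) (B (lo113_10_3 (nat_lit 298)) (lo112_10_3 (nat_lit 296)))) (M (nat_lit 301) (B (lo110_10_2 (nat_lit 302)) (lo19_10_2 (nat_lit 300)))))))) (B (M (nat_lit 423) (B (M (nat_lit 455) (B (lo111_13_1 (nat_lit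 456)) (lo110_13_1 (nat_lit 454)))) (M (nat_lit 391) (B (lo111_13_3 (nat_lit 392)) (lo110_13_3 (nat_lit 390)))))) (M (nat_lit 392) (B (lo112_13_3 (nat_lit 393)) (lo111_13_3 (nat_lit 391))))))) (B (K _ _ _ o1_s13255) (B (M (nat_lit 362) (B (M (nat_lit 361) (B (lo18_11_2 (nat_lit 360)) (lo19_11_2 (nat_lit 364)))) (lo114_10_1 (nat_lit 334)))) (M (nat_lit 362) (B (M (nat_lit 361) (B (lo18_11_2 (nat_lit 360)) (lo113_10_1 (nat_lit 330)))) (lo114_10_1 (nat_lit 334)))))))) _ _ _ (by decide +kernel)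
theorem o1_s13895 : Sem (nat_lit 6393341032535717799912937804721654456634566916849478235476323378612378862247144580558998342874665889305114830450644041511362629450292956776152170496) (nat_lit 40347654410867139046351822520498413675814527119647870053714343312493219458452527517077777780327928874134045266701975552) (nat_lit 40347654410867139046351822520498413675814527119647870053714343312493219458452527517077777780327928874134045266701975552) := sem_of_chk (M (nat_lit 363) (B (K _ _ _ o1_s13886) (B (M (nat_lit 331) (B (M (nat_lit 330) (B (lo111_14_7 (nat_lit 362)) (lo111_13_7 (nat_lit 298)))) (M (nat_lit 332) (B (lo111_13_6 (nat_lit 300)) (lo111_14_6 (nat_lit 364)))))) (B (M (nat_lit 331) (B (M (nat_lit 394) (B (lo111_9_5 (nat_lit 299)) (lo111_15_7 (nat_lit 362)))) (M (nat_lit 332) (B (lo111_13_6 (nat_lit 300)) (lo111_14_6 (nat_lit 364)))))) (M (nat_lit 362) (B (lo111_15_7 (nat_lit 394)) (lo111_14_7 (nat_lit 330)))))))) _ _ _ (by decide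 +kernel)
theorem o1_s14157 : Sem (nat_lit 1488565709956780750163974398099612477417145952784381266694123273170187103658404527931708531649790075323248916005941699916566686849214447616) (nat_lit 158291457289224858872882105443854040623483037121893273405038941179605642411373825006316573927864342308988323486394414275722284349345495596710658180718531387102398702480332423168) (nat_lit 158291457289224858872882105443854040623483037121893273405038941179605642411373825006316573927864342308988323486394414275722284349345495596710658180718531387102398702480332423168) := sem_of_chk (M (nat_lit 491) (B (M (nat_lit 425) (B (K _ _ _ o1_s13877) (B (K _ _ _ o1_s14038) (M (nat_lit 424) (B (M (nat_lit 394) (B (lo111_15_7 (nat_lit 362)) (lo17_13_2 (nat_lit 423)))) (lo18_13_0 (nat_lit 460))))))) (B (M (nat_lit 523) (B (M (nat_lit 522) (B (lo111_12_5 (nat_lit 490)) (lo111_13_5 (nat_lit 554)))) (M (nat_lit 524) (B (lo111_12_4 (nat_lit 492)) (lo111_13_4 (nat_lit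 556)))))) (M (nat_lit 394) (B (lo111_15_7 (nat_lit 362)) (lo111_16_7 (nat_lit 523))))))) _ _ _ (by decide +kernel)
theorem o1_s14172 : Sem (nat_lit 6393341032535717799826291876780378992272741473595006869743934720006884594273067093664791427005740088585115630259889679695819154107749095156496728064) (nat_lit 40347654410867139046351822520498413675814527119647870053714343312493219458452527517077777780327928874134045266701975552) (nat_lit 40347654410867139046351822520498413675814527119647870053714343312493219458452527517077777780327928874134045266701975552) := sem_of_chk (M (nat_lit 363) (B (K _ _ _ o1_s14166) (B (M (nat_lit 331) (B (M (nat_lit 330) (B (lo111_14_7 (nat_lit 362)) (lo111_13_7 (nat_lit 298)))) (M (nat_lit 332) (B (lo111_13_6 (nat_lit 300)) (lo111_14_6 (nat_lit 364)))))) (B (M (nat_lit 331) (B (M (nat_lit 394) (B (lo111_9_5 (nat_lit 299)) (lo111_15_7 (nat_lit 362)))) (M (nat_lit 332) (B (lo111_13_6 (nat_lit 300)) (lo111_14_6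 (nat_lit 364)))))) (M (nat_lit 362) (B (lo111_14_7 (nat_lit 330)) (lo111_15_7 (nat_lit 394)))))))) _ _ _ (by decide +kernel)
theorem o1_s14185 : Sem (nat_lit 1488565709956780750163974398118400818079336618607497111468437969389192564049671086897366859422047747524165783553651291903644836473469927424) (nat_lit 1013065324846613311822781578762100152300878690778999554579669990208876091916577187342588555872846456053118303319205406063358324068910807669259927038893631654897805021917128687616) (nat_lit 1013065324846613311822781578762100152300878690778999554579669990208876091916577187342588555872846456053118303319205406063358324068910807669259927038893631654897805021917128687616) := sem_of_chk (M (nat_lit 491) (B (K _ _ _ o1_s14179) (B (M (nat_lit 523) (B (M (nat_lit 524) (B (lo111_12_4 (nat_lit 492)) (lo111_13_4 (nat_lit 556)))) (M (nat_lit 522) (B (lo111_12_5 (nat_lit 490)) (lo111_13_5 (nat_lit 554)))))) (B (M (nat_lit 523) (B (M (nat_lit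 460) (B (lo111_17_6 (nat_lit 555)) (lo111_11_4 (nat_lit 492)))) (M (nat_lit 522) (B (lo111_12_5 (nat_lit 490)) (lo111_13_5 (nat_lit 554)))))) (M (nat_lit 492) (B (lo111_11_4 (nat_lit 460)) (lo111_12_4 (nat_lit 524)))))))) _ _ _ (by decide +kernel)
theorem o1_s14189 : Sem (nat_lit 1488565709956780750163974398099612477417145952784381266694123273170187103658404527931708531649790075323248916005941699916566686849214447616) (nat_lit 294840814535290085408076681261097282019282070153694296720014083966262160827826865989592140792934549812430493673493426790844847634964327561835205551634706902286587658240) (nat_lit 294840814535290085408076681261097282019282070153694296720014083966262160827826865989592140792934549812430493673493426790844847634964327561835205551634706902286587658240) := sem_of_chk (M (nat_lit 491) (B (M (nat_lit 363) (B (K _ _ _ o1_s14166) (M (nat_lit 492) (B (lo111_11_4 (nat_lit 460)) (lo111_12_4 (nat_lit 524)))))) (B (M (nat_lit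 523) (B (M (nat_lit 522) (B (lo111_12_5 (nat_lit 490)) (lo111_13_5 (nat_lit 554)))) (M (nat_lit 524) (B (lo111_12_4 (nat_lit 492)) (lo111_13_4 (nat_lit 556)))))) (M (nat_lit 523) (B (M (nat_lit 522) (B (lo111_12_5 (nat_lit 490)) (lo111_13_5 (nat_lit 554)))) (lo111_16_7 (nat_lit 394))))))) _ _ _ (by decide +kernel)
theorem o1_s14249 : Sem (nat_lit 1488565709956780750163974398099612477417145952784381266694123273170187103658404527931708531649790075323248916005941699916566686849214447616) (nat_lit 353808977429991466699778668006220437558776320741749052092355360865918721685940424654887130771994313845822896334999439166258607933180063300432624657869598349415340310528) (nat_lit 353808977429991466699778668006220437558776320741749052092355360865918721685940424654887130771994313845822896334999439166258607933180063300432624657869598349415340310528) := sem_of_chk (M (nat_lit 491) (B (M (nat_lit 458) (B (K _ _ _ o1_s14242) (lo113_13_1 (nat_lit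 457)))) (B (M (nat_lit 523) (B (M (nat_lit 458) (B (lo113_13_1 (nat_lit 457)) (lo111_17_7 (nat_lit 555)))) (M (nat_lit 524) (B (lo111_12_4 (nat_lit 492)) (lo111_13_4 (nat_lit 556)))))) (M (nat_lit 394) (B (lo111_15_7 (nat_lit 362)) (lo111_16_7 (nat_lit 523))))))) _ _ _ (by decide +kernel)
theorem o1_s14314 : Sem (nat_lit 2599377838318959239544979191060888446096753879237631345248237841602165580959669259788002293054807271756308567508687822713811632128) (nat_lit 353808977409397073713393081646342666498186521577443765839369252646972717891672518035154151382602681068868568036877885889751187126452303576649243320314887113677056507904) (nat_lit 353808977409397073713393081646342666498186521577443765839369252646972717891672518035154151382602681068868568036877885889751187126452303576649243320314887113677056507904) := sem_of_chk (M (nat_lit 363) (B (M (nat_lit 459) (B (M (nat_lit 425) (B (M (nat_lit 362) (B (M (nat_lit 364) (B (M (nat_lit 365)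 (B (M (nat_lit 397) (B (M (nat_lit 333) (B (lo113_10_5 (nat_lit 460)) (lo110_11_2 (nat_lit 334)))) (lo110_11_0 (nat_lit 398)))) (M (nat_lit 394) (B (lo111_15_7 (nat_lit 491)) (lo114_11_1 (nat_lit 366)))))) (lo111_14_6 (nat_lit 332)))) (lo111_14_7 (nat_lit 330)))) (M (nat_lit 457) (B (lo113_13_1 (nat_lit 458)) (lo112_13_1 (nat_lit 456)))))) (B (K _ _ _ o1_s14300) (B (M (nat_lit 425) (B (M (nat_lit 457) (B (lo113_13_1 (nat_lit 458)) (lo112_13_1 (nat_lit 456)))) (M (nat_lit 460) (B (lo18_13_0 (nat_lit 424)) (lo111_11_4 (nat_lit 492)))))) (M (nat_lit 491) (B (M (nat_lit 362) (B (lo111_14_7 (nat_lit 330)) (lo111_15_7 (nat_lit 394)))) (M (nat_lit 492) (B (lo111_11_4 (nat_lit 460)) (lo111_12_4 (nat_lit 524)))))))))) (B (M (nat_lit 460) (B (M (nat_lit 492) (B (lo111_11_4 (nat_lit 459)) (lo112_16_7 (nat_lit 524)))) (lo111_10_4 (nat_lit 331)))) (M (nat_lit 458) (B (lo111_10_5 (nat_lit 331)) (lo113_13_1 (nat_lit 457))))))) _ _ _ (by decide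 +kernel)
theorem o1_s14788 : Sem (nat_lit 2426085982355713002187477433111770237976229975276783591931186014211593321226897403476750621943872733478346085552462574223118827520) (nat_lit 27459190646915779895440452408267292741467408561622783666846202780787787387844192742815168037821349059149453415759773575588377234128293522760146537040003989504) (nat_lit 27459190646915779895440452408267292741467408561622783666846202780787787387844192742815168037821349059149453415759773575588377234128293522760146537040003989504) := sem_of_chk (M (nat_lit 396) (B (K _ _ _ o1_s14627) (B (M (nat_lit 332) (B (M (nat_lit 300) (B (M (nat_lit 301) (B (lo112_13_6 (nat_lit 333)) (lo112_12_6 (nat_lit 269)))) (lo112_9_4 (nat_lit 397)))) (lo112_10_5 (nat_lit 459)))) (M (nat_lit 459) (B (M (nat_lit 491) (B (lo112_11_5 (nat_lit 460)) (lo111_16_6 (nat_lit 523)))) (lo112_10_5 (nat_lit 332))))))) _ _ _ (by decide +kernel)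
theorem o1_s14991 : Sem (nat_lit 2426085982436408310840116645214136380455092406800957505519088328205018308187475986120261564874215415672931208810678249098756227072) (nat_lit 27459190650112450409289392032554938911824007427712028690778259531516468889402721736580834051841116493679819811605596787979920082841752527755260550224352903168) (nat_lit 27459190650112450409289392032554938911824007427712028690778259531516468889402721736580834051841116493679819811605596787979920082841752527755260550224352903168) := sem_of_chk (M (nat_lit 362) (B (K _ _ _ o1_s14854) (B (M (nat_lit 330) (B (M (nat_lit 396) (B (M (nat_lit 329) (B (M (nat_lit 361) (B (M (nat_lit 393) (B (M (nat_lit 328) (B (M (nat_lit 425) (B (lo19_13_7 (nat_lit 296)) (lo19_14_6 (nat_lit 457)))) (lo17_10_0 (nat_lit 327)))) (lo19_12_0 (nat_lit 394)))) (lo18_11_0 (nat_lit 360)))) (B (M (nat_lit 361) (B (M (nat_lit 393) (B (M (nat_lit 364) (B (lo112_11_1 (nat_lit 392)) (lo113_11_3 (nat_lit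 365)))) (lo19_12_0 (nat_lit 394)))) (lo18_11_0 (nat_lit 360)))) (M (nat_lit 331) (B (M (nat_lit 364) (B (lo18_10_0 (nat_lit 328)) (lo113_11_3 (nat_lit 365)))) (lo111_9_4 (nat_lit 299))))))) (B (M (nat_lit 365) (B (M (nat_lit 333) (B (M (nat_lit 364) (B (lo110_11_2 (nat_lit 334)) (lo113_11_3 (nat_lit 329)))) (M (nat_lit 397) (B (lo114_12_3 (nat_lit 398)) (lo113_9_5 (nat_lit 301)))))) (B (M (nat_lit 331) (B (M (nat_lit 364) (B (lo113_11_3 (nat_lit 329)) (lo114_11_3 (nat_lit 366)))) (lo111_9_4 (nat_lit 299)))) (M (nat_lit 397) (B (M (nat_lit 394) (B (lo19_12_0 (nat_lit 393)) (lo110_12_2 (nat_lit 366)))) (lo114_12_3 (nat_lit 398))))))) (B (M (nat_lit 397) (B (M (nat_lit 361) (B (lo19_11_0 (nat_lit 364)) (lo18_11_0 (nat_lit 360)))) (lo114_12_3 (nat_lit 398)))) (M (nat_lit 397) (B (M (nat_lit 361) (B (lo113_12_3 (nat_lit 394)) (lo18_11_0 (nat_lit 360)))) (lo114_12_3 (nat_lit 398)))))))) (B (M (nat_lit 298) (B (lo111_13_7 (nat_lit 331))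 (lo110_8_4 (nat_lit 266)))) (M (nat_lit 298) (B (lo110_9_4 (nat_lit 394)) (lo110_8_4 (nat_lit 266))))))) (B (M (nat_lit 394) (B (M (nat_lit 459) (B (lo111_15_7 (nat_lit 491)) (lo111_14_7 (nat_lit 330)))) (M (nat_lit 393) (B (lo19_12_0 (nat_lit 396)) (lo18_12_0 (nat_lit 392)))))) (M (nat_lit 330) (B (M (nat_lit 298) (B (lo111_13_7 (nat_lit 331)) (lo110_8_4 (nat_lit 266)))) (lo111_14_7 (nat_lit 459)))))))) _ _ _ (by decide +kernel)
theorem o1_s15447 : Sem (nat_lit 2426085982355713002187477433111770237976229975276783591931186014211593321226897403476750621943872733478346085552462574223118827520) (nat_lit 54918381293831559784926641987104973820222647836143395840492124417323760905700016738925043669100342219375861348995328596420585083158121198683299947533062635520) (nat_lit 54918381293831559784926641987104973820222647836143395840492124417323760905700016738925043669100342219375861348995328596420585083158121198683299947533062635520) := sem_of_chk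 (M (nat_lit 365) (B (K _ _ _ o1_s15418) (B (K _ _ _ o1_s15435) (B (K _ _ _ o1_s14781) (B (K _ _ _ o1_s15436) (B (K _ _ _ o1_s15437) (M (nat_lit 397) (B (M (nat_lit 460) (B (M (nat_lit 492) (B (lo112_15_6 (nat_lit 396)) (lo112_16_6 (nat_lit 524)))) (lo113_10_5 (nat_lit 333)))) (M (nat_lit 398) (B (M (nat_lit 399) (B (lo111_11_0 (nat_lit 366)) (lo116_12_1 (nat_lit 400)))) (lo110_11_0 (nat_lit 362)))))))))))) _ _ _ (by decide +kernel)
theorem o1_s16330 : Sem (nat_lit 2426085982517103619511544197978693188757070683099446115325996102589709854113712896536030180005474965415225924055972073598649106432) (nat_lit 506532663042472366377835668379487969024421806972796161820161789615479774140643310269037425965889078275239721772167139231794687904387991050428703698486602034772574941906294800384) (nat_lit 506532663042472366377835668379487969024421806972796161820161789615479774140643310269037425965889078275239721772167139231794687904387991050428703698486602034772574941906294800384)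 := sem_of_chk (M (nat_lit 364) (B (M (nat_lit 460) (B (M (nat_lit 363) (B (M (nat_lit 365) (B (M (nat_lit 362) (B (M (nat_lit 366) (B (M (nat_lit 367) (B (M (nat_lit 335) (B (lo111_11_2 (nat_lit 334)) (lo112_11_2 (nat_lit 336)))) (M (nat_lit 399) (B (lo111_11_0 (nat_lit 398)) (lo112_11_0 (nat_lit 400)))))) (M (nat_lit 394) (B (lo114_11_1 (nat_lit 395)) (lo113_11_1 (nat_lit 393)))))) (B (M (nat_lit 361) (B (M (nat_lit 329) (B (lo113_11_3 (nat_lit 330)) (lo112_11_3 (nat_lit 328)))) (M (nat_lit 393) (B (lo113_11_1 (nat_lit 394)) (lo112_11_1 (nat_lit 392)))))) (M (nat_lit 330) (B (M (nat_lit 459) (B (lo112_11_5 (nat_lit 491)) (lo111_14_7 (nat_lit 395)))) (lo113_11_3 (nat_lit 329))))))) (lo112_14_6 (nat_lit 333)))) (lo112_14_7 (nat_lit 331)))) (B (K _ _ _ o1_s16221) (M (nat_lit 363) (B (M (nat_lit 395) (B (M (nat_lit 365) (B (M (nat_lit 394) (B (lo19_12_0 (nat_lit 393)) (lo114_11_1 (nat_lit 366)))) (lo112_14_6 (nat_lit 333)))) (lo112_15_7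 (nat_lit 492)))) (lo112_14_7 (nat_lit 331))))))) (B (K _ _ _ o1_s16329) (B (M (nat_lit 459) (B (M (nat_lit 491) (B (lo112_11_5 (nat_lit 460)) (lo111_16_6 (nat_lit 523)))) (lo112_10_5 (nat_lit 332)))) (M (nat_lit 459) (B (M (nat_lit 491) (B (lo111_15_6 (nat_lit 395)) (lo111_16_6 (nat_lit 523)))) (lo112_10_5 (nat_lit 332)))))))) _ _ _ (by decide +kernel)
theorem o1_s16649 : Sem (nat_lit 2426085982517103619511544197978693188757070683099446115325996102589709854113712896536030180005474965415225924055972073598649106432) (nat_lit 82377571940747339677389962980830752580840197741840620273714065675901166302039143402465876610351736131531864852485414173078281709993490599908348776749417365504) (nat_lit 82377571940747339677389962980830752580840197741840620273714065675901166302039143402465876610351736131531864852485414173078281709993490599908348776749417365504) := sem_of_chk (M (nat_lit 397) (B (M (nat_lit 364) (B (M (nat_lit 460) (B (M (nat_lit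 363) (B (M (nat_lit 365) (B (M (nat_lit 366) (B (M (nat_lit 362) (B (M (nat_lit 330) (B (M (nat_lit 459) (B (lo111_14_7 (nat_lit 395)) (lo112_11_5 (nat_lit 491)))) (lo113_11_3 (nat_lit 329)))) (lo19_11_0 (nat_lit 361)))) (M (nat_lit 335) (B (M (nat_lit 367) (B (lo116_11_1 (nat_lit 368)) (lo112_11_2 (nat_lit 336)))) (lo111_11_2 (nat_lit 334)))))) (lo113_10_5 (nat_lit 333)))) (lo112_14_7 (nat_lit 331)))) (B (M (nat_lit 492) (B (M (nat_lit 491) (B (lo112_11_5 (nat_lit 459)) (lo112_12_5 (nat_lit 523)))) (lo112_16_6 (nat_lit 524)))) (M (nat_lit 492) (B (lo112_16_6 (nat_lit 524)) (lo112_15_6 (nat_lit 365))))))) (B (K _ _ _ o1_s16285) (M (nat_lit 332) (B (lo112_9_4 (nat_lit 300)) (lo112_10_5 (nat_lit 459))))))) (M (nat_lit 398) (B (lo110_13_2 (nat_lit 426)) (lo115_12_1 (nat_lit 399)))))) _ _ _ (by decide +kernel)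
theorem o1_s16739 : Sem (nat_lit 2426085982517103619511544197978693188757070683099446115325996102589709854113712896536030180005474965415225924055972073598649106432) (nat_lit 82377571940747339677389962980657460723091567798603579774383938238023402792129420887960788825379946212718518683997609411613910177324750835457490327551799721984) (nat_lit 82377571940747339677389962980657460723091567798603579774383938238023402792129420887960788825379946212718518683997609411613910177324750835457490327551799721984) := sem_of_chk (M (nat_lit 364) (B (M (nat_lit 460) (B (M (nat_lit 363) (B (M (nat_lit 365) (B (M (nat_lit 362) (B (M (nat_lit 330) (B (M (nat_lit 459) (B (lo112_11_5 (nat_lit 491)) (lo111_14_7 (nat_lit 395)))) (lo113_11_3 (nat_lit 329)))) (M (nat_lit 393) (B (M (nat_lit 361) (B (lo19_11_0 (nat_lit 397)) (lo112_11_1 (nat_lit 392)))) (lo113_11_1 (nat_lit 394)))))) (lo112_14_6 (nat_lit 333)))) (lo112_14_7 (nat_lit 331)))) (B (M (nat_lit 492)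 (B (M (nat_lit 365) (B (lo112_14_6 (nat_lit 333)) (lo112_15_6 (nat_lit 397)))) (M (nat_lit 491) (B (lo112_11_5 (nat_lit 459)) (lo112_12_5 (nat_lit 523)))))) (B (M (nat_lit 492) (B (M (nat_lit 491) (B (lo112_11_5 (nat_lit 459)) (lo112_12_5 (nat_lit 523)))) (M (nat_lit 395) (B (lo112_16_7 (nat_lit 524)) (lo112_15_7 (nat_lit 363)))))) (M (nat_lit 492) (B (M (nat_lit 365) (B (lo112_14_6 (nat_lit 333)) (lo112_15_6 (nat_lit 397)))) (M (nat_lit 395) (B (lo112_16_7 (nat_lit 524)) (lo112_15_7 (nat_lit 363)))))))))) (B (K _ _ _ o1_s16329) (B (M (nat_lit 459) (B (M (nat_lit 491) (B (lo112_11_5 (nat_lit 460)) (lo111_16_6 (nat_lit 523)))) (lo112_10_5 (nat_lit 332)))) (M (nat_lit 459) (B (M (nat_lit 491) (B (lo111_15_6 (nat_lit 395)) (lo111_16_6 (nat_lit 523)))) (lo112_10_5 (nat_lit 332)))))))) _ _ _ (by decide +kernel)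
theorem o1_s17016 : Sem (nat_lit 2426085982839884854272407771685683085257447167390659339429649041693542273681293849288135329334180634575243152985459970095242543104) (nat_lit 6393341032535717797226914040539323952097351354331321908494312729214499902250131773171820760724944351698026275758305013525739597768918240689934827520) (nat_lit 6393341032535717797226914040539323952097351354331321908494312729214499902250131773171820760724944351698026275758305013525739597768918240689934827520) := sem_of_chk (M (nat_lit 395) (B (M (nat_lit 364) (B (K _ _ _ o1_s16821) (B (K _ _ _ o1_s16962) (M (nat_lit 332) (B (lo112_9_4 (nat_lit 300)) (lo112_10_5 (nat_lit 459))))))) (B (K _ _ _ o1_s17006) (B (M (nat_lit 362) (B (M (nat_lit 394) (B (lo19_12_0 (nat_lit 393)) (lo113_12_3 (nat_lit 361)))) (M (nat_lit 398) (B (lo115_12_1 (nat_lit 399)) (lo114_12_3 (nat_lit 363)))))) (M (nat_lit 366) (B (M (nat_lit 398) (B (lo115_12_1 (nat_lit 399)) (lo111_12_2 (nat_lit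 367)))) (M (nat_lit 394) (B (lo19_12_0 (nat_lit 393)) (lo110_12_2 (nat_lit 365)))))))))) _ _ _ (by decide +kernel)
theorem o1_s17089 : Sem (nat_lit 2426085982517103619511544197978693188757070683099446115325996102589709854113712896536030180005474965415225924055972073598649106432) (nat_lit 27459190659702461957534756588309575733376111992677384533297147837777119857190992888005621167500303945723253641814742212021996505508018728566351621863814201344) (nat_lit 27459190659702461957534756588309575733376111992677384533297147837777119857190992888005621167500303945723253641814742212021996505508018728566351621863814201344) := sem_of_chk (M (nat_lit 426) (B (M (nat_lit 397) (B (K _ _ _ o1_s17077) (lo110_13_2 (nat_lit 398)))) (B (M (nat_lit 459) (B (M (nat_lit 425) (B (M (nat_lit 393) (B (lo112_13_3 (nat_lit 392)) (lo113_13_3 (nat_lit 394)))) (M (nat_lit 424) (B (lo18_13_0 (nat_lit 460)) (lo18_13_2 (nat_lit 395)))))) (B (M (nat_lit 364) (B (M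 (nat_lit 491) (B (lo112_11_5 (nat_lit 460)) (lo111_16_6 (nat_lit 523)))) (lo112_10_5 (nat_lit 332)))) (M (nat_lit 364) (B (M (nat_lit 491) (B (lo111_16_6 (nat_lit 523)) (lo111_15_6 (nat_lit 395)))) (lo112_10_5 (nat_lit 332))))))) (M (nat_lit 397) (B (lo110_13_2 (nat_lit 398)) (lo19_13_2 (nat_lit 425))))))) _ _ _ (by decide +kernel)
theorem o1_s17140 : Sem (nat_lit 2426085982517103619511544197978693188757070683099446115325996102589709854113712896536030180005474965415225924055972073598649106432) (nat_lit 27459190646915779895440452408527230517453703097626179468191614660293275477810798114963594924616418557611493500487206635719535808998324138860521840242132516864) (nat_lit 27459190646915779895440452408527230517453703097626179468191614660293275477810798114963594924616418557611493500487206635719535808998324138860521840242132516864) := sem_of_chk (M (nat_lit 397) (B (M (nat_lit 365) (B (M (nat_lit 364) (B (M (nat_lit 395) (B (M (nat_lit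 366) (B (M (nat_lit 398) (B (M (nat_lit 363) (B (M (nat_lit 334) (B (lo111_11_2 (nat_lit 335)) (lo114_9_5 (nat_lit 302)))) (lo110_11_0 (nat_lit 362)))) (lo115_12_1 (nat_lit 399)))) (lo115_11_1 (nat_lit 367)))) (B (M (nat_lit 362) (B (M (nat_lit 398) (B (lo110_11_0 (nat_lit 363)) (lo115_12_1 (nat_lit 399)))) (M (nat_lit 394) (B (lo19_12_0 (nat_lit 393)) (lo113_12_3 (nat_lit 361)))))) (M (nat_lit 394) (B (lo19_12_0 (nat_lit 393)) (lo110_12_2 (nat_lit 366))))))) (M (nat_lit 332) (B (lo112_9_4 (nat_lit 300)) (lo112_10_5 (nat_lit 459)))))) (M (nat_lit 333) (B (lo113_10_5 (nat_lit 460)) (lo113_9_5 (nat_lit 301)))))) (B (K _ _ _ o1_s17139) (M (nat_lit 398) (B (lo110_13_2 (nat_lit 426)) (lo115_12_1 (nat_lit 399))))))) _ _ _ (by decide +kernel)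
theorem o1_s17167 : Sem (nat_lit 2426085982517103619511544197978693188757070683099446115325996102589709854113712896536030180005474965415225924055972073598649106432) (nat_lit 82377571940747339677389962980917398508841994686780690603674249646632834646561857964985211780434632405466947843094697750887588377647314625290902350096586768384) (nat_lit 82377571940747339677389962980917398508841994686780690603674249646632834646561857964985211780434632405466947843094697750887588377647314625290902350096586768384) := sem_of_chk (M (nat_lit 397) (B (M (nat_lit 460) (B (M (nat_lit 394) (B (M (nat_lit 395) (B (M (nat_lit 362) (B (M (nat_lit 363) (B (M (nat_lit 330) (B (lo111_14_7 (nat_lit 459)) (lo110_9_4 (nat_lit 298)))) (lo111_10_4 (nat_lit 331)))) (lo113_12_3 (nat_lit 361)))) (M (nat_lit 365) (B (lo113_10_5 (nat_lit 333)) (lo110_12_2 (nat_lit 366)))))) (M (nat_lit 426) (B (lo19_13_2 (nat_lit 425)) (lo113_13_3 (nat_lit 393)))))) (B (M (nat_lit 492)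 (B (M (nat_lit 395) (B (M (nat_lit 394) (B (M (nat_lit 362) (B (M (nat_lit 491) (B (lo111_15_7 (nat_lit 459)) (lo112_12_5 (nat_lit 523)))) (lo113_12_3 (nat_lit 361)))) (lo19_12_0 (nat_lit 393)))) (lo112_15_7 (nat_lit 363)))) (lo112_16_6 (nat_lit 524)))) (M (nat_lit 492) (B (lo112_16_6 (nat_lit 524)) (lo112_15_6 (nat_lit 365))))))) (B (K _ _ _ o1_s16451) (M (nat_lit 398) (B (lo110_13_2 (nat_lit 426)) (lo115_12_1 (nat_lit 399))))))) _ _ _ (by decide +kernel)
theorem o1_s19820 : Sem (nat_lit 25573364130142871191333742136362782630422593328115166883345794046176459111425313110840213238297996211724483528825804597173268270452217163369389490176) (nat_lit 63316583116181698968668041026576633740087147229496096465263961131787612844285267347054881200170071150979626756598360444650050911012259799567344909891091194539278914432773652480) (nat_lit 63316583116181698968668041026576633740087147229496096465263961131787612844285267347054881200170071150979626756598360444650050911012259799567344909891091194539278914432773652480) := sem_of_chk (M (nat_lit 393) (B (M (nat_lit 394) (B (lo19_12_0 (nat_lit 395)) (lo113_13_3 (nat_lit 426)))) (B (M (nat_lit 425) (B (M (nat_lit 426) (B (lo19_13_0 (nat_lit 460)) (lo112_13_3 (nat_lit 392)))) (B (M (nat_lit 426) (B (lo112_13_3 (nat_lit 392)) (M (nat_lit 456) (B (lo112_13_1 (nat_lit 457)) (M (nat_lit 424) (B (lo18_13_2 (nat_lit 395)) (lo111_13_1 (nat_lit 455)))))))) (B (M (nat_lit 361) (B (M (nat_lit 329) (B (M (nat_lit 328) (B (lo19_13_7 (nat_lit 296)) (M (nat_lit 457) (B (lo19_14_7 (nat_lit 360)) (M (nat_lit 330) (B (lo19_13_6 (nat_lit 298)) (lo19_14_6 (nat_lit 362)))))))) (B (M (nat_lit 457) (B (M (nat_lit 328) (B (lo19_13_7 (nat_lit 296)) (lo19_14_7 (nat_lit 360)))) (M (nat_lit 456) (B (lo19_10_5 (nat_lit 424)) (lo19_11_5 (nat_lit 488)))))) (M (nat_lit 297) (B (M (nat_lit 298) (B (lo19_12_6 (nat_lit 266)) (lo19_13_6 (nat_lit 330)))) (M (nat_lit 424) (B (lo19_9_5 (nat_lit 392)) (lo19_10_5 (nat_lit 456))))))))) (B (M (nat_lit 457) (B (M (nat_lit 329) (B (M (nat_lit 330) (B (lo19_13_6 (nat_lit 298)) (lo19_14_6 (nat_lit 362)))) (M (nat_lit 456) (B (lo19_10_5 (nat_lit 424)) (lo19_11_5 (nat_lit 488)))))) (B (M (nat_lit 329) (B (M (nat_lit 328) (B (lo19_13_7 (nat_lit 296)) (lo19_14_7 (nat_lit 360)))) (M (nat_lit 456) (B (lo19_10_5 (nat_lit 424)) (lo19_11_5 (nat_lit 488)))))) (B (M (nat_lit 489) (B (M (nat_lit 360) (B (lo19_14_7 (nat_lit 328)) (lo19_15_7 (nat_lit 392)))) (M (nat_lit 488) (B (lo19_11_5 (nat_lit 456)) (lo19_12_5 (nat_lit 520)))))) (M (nat_lit 329) (B (M (nat_lit 330) (B (lo19_13_6 (nat_lit 298)) (lo19_14_6 (nat_lit 362)))) (M (nat_lit 328) (B (lo19_13_7 (nat_lit 296)) (lo19_14_7 (nat_lit 360)))))))))) (B (M (nat_lit 457) (B (M (nat_lit 489) (B (M (nat_lit 360) (B (lo19_14_7 (nat_lit 328)) (lo19_15_7 (nat_lit 392)))) (M (nat_lit 488) (B (lo19_11_5 (nat_lit 456)) (lo19_12_5 (nat_lit 520)))))) (B (M (nat_lit 329) (B (M (nat_lit 328) (B (lo19_13_7 (nat_lit 296)) (lo19_14_7 (nat_lit 360)))) (M (nat_lit 456) (B (lo19_10_5 (nat_lit 424)) (lo19_11_5 (nat_lit 488)))))) (B (K _ _ _ o1_s17524) (B (K _ _ _ o1_s17535) (B (K _ _ _ o1_s17536) (M (nat_lit 360) (B (lo19_14_7 (nat_lit 328)) (M (nat_lit 392) (B (lo19_15_7 (nat_lit 489)) (M (nat_lit 362) (B (lo19_14_6 (nat_lit 330)) (M (nat_lit 363) (B (lo18_11_0 (nat_lit 395)) (lo111_11_1 (nat_lit 391)))))))))))))))) (B (M (nat_lit 457) (B (M (nat_lit 329) (B (M (nat_lit 328) (B (lo19_13_7 (nat_lit 296)) (lo19_14_7 (nat_lit 360)))) (M (nat_lit 456) (B (lo19_10_5 (nat_lit 424)) (lo19_11_5 (nat_lit 488)))))) (B (M (nat_lit 489) (B (M (nat_lit 360) (B (lo19_14_7 (nat_lit 328)) (lo19_15_7 (nat_lit 392)))) (M (nat_lit 488) (B (lo19_11_5 (nat_lit 456)) (lo19_12_5 (nat_lit 520)))))) (B (K _ _ _ o1_s17524) (B (K _ _ _ o1_s17535) (B (K _ _ _ o1_s17536) (M (nat_lit 329) (B (M (nat_lit 328) (B (lo19_13_7 (nat_lit 296)) (lo19_14_7 (nat_lit 360)))) (B (M (nat_lit 392) (B (M (nat_lit 424) (B (lo19_9_5 (nat_lit 297)) (lo19_10_5 (nat_lit 456)))) (M (nat_lit 360) (B (lo19_14_7 (nat_lit 328)) (lo19_15_7 (nat_lit 489)))))) (M (nat_lit 297) (B (M (nat_lit 424) (B (lo19_9_5 (nat_lit 392)) (lo19_10_5 (nat_lit 456)))) (M (nat_lit 265) (B (M (nat_lit 266) (B (lo19_11_6 (nat_lit 234)) (lo19_12_6 (nat_lit 298)))) (M (nat_lit 264) (B (lo19_11_7 (nat_lit 232)) (lo19_12_7 (nat_lit 296))))))))))))))))) (B (M (nat_lit 362) (B (M (nat_lit 457) (B (lo19_14_6 (nat_lit 330)) (M (nat_lit 360) (B (lo19_14_7 (nat_lit 328)) (M (nat_lit 489) (B (lo19_15_7 (nat_lit 392)) (M (nat_lit 488) (B (lo19_11_5 (nat_lit 456)) (lo19_12_5 (nat_lit 520)))))))))) (B (M (nat_lit 360) (B (M (nat_lit 363) (B (lo18_11_0 (nat_lit 395)) (M (nat_lit 328) (B (lo111_11_3 (nat_lit 327)) (lo19_14_7 (nat_lit 457)))))) (B (M (nat_lit 328) (B (lo19_14_7 (nat_lit 457)) (M (nat_lit 296) (B (lo18_8_4 (nat_lit 264)) (lo18_9_4 (nat_lit 392)))))) (B (M (nat_lit 328) (B (M (nat_lit 363) (B (lo18_11_0 (nat_lit 395)) (lo111_11_3 (nat_lit 327)))) (M (nat_lit 296) (B (lo18_8_4 (nat_lit 264)) (lo18_9_4 (nat_lit 392)))))) (K _ _ _ o1_s17613))))) (B (M (nat_lit 363) (B (M (nat_lit 395) (B (lo18_11_0 (nat_lit 360)) (M (nat_lit 460) (B (lo112_15_7 (nat_lit 492)) (lo111_10_4 (nat_lit 331)))))) (B (M (nat_lit 395) (B (lo18_11_0 (nat_lit 360)) (M (nat_lit 331) (B (lo111_9_4 (nat_lit 299)) (M (nat_lit 330) (B (lo111_13_7 (nat_lit 298)) (lo111_14_7 (nat_lit 459)))))))) (B (M (nat_lit 360) (B (lo18_11_0 (nat_lit 395)) (M (nat_lit 392) (B (lo111_11_1 (nat_lit 391)) (M (nat_lit 328) (B (lo111_11_3 (nat_lit 327)) (lo18_9_4 (nat_lit 296)))))))) (B (M (nat_lit 360) (B (M (nat_lit 392) (B (lo111_11_1 (nat_lit 391)) (M (nat_lit 328) (B (lo111_11_3 (nat_lit 327)) (lo18_9_4 (nat_lit 296)))))) (B (M (nat_lit 359) (B (M (nat_lit 331) (B (lo18_11_2 (nat_lit 332)) (lo17_11_2 (nat_lit 330)))) (M (nat_lit 391) (B (lo111_11_1 (nat_lit 392)) (lo110_11_1 (nat_lit 390)))))) (M (nat_lit 359) (B (M (nat_lit 331) (B (lo18_11_2 (nat_lit 332)) (lo17_11_2 (nat_lit 330)))) (M (nat_lit 327) (B (lo111_11_3 (nat_lit 328)) (lo110_11_3 (nat_lit 326))))))))) (M (nat_lit 395) (B (M (nat_lit 460) (B (lo112_15_7 (nat_lit 492)) (lo111_10_4 (nat_lit 331)))) (B (M (nat_lit 331) (B (lo111_9_4 (nat_lit 299)) (M (nat_lit 330) (B (lo111_13_7 (nat_lit 298)) (lo111_14_7 (nat_lit 459)))))) (M (nat_lit 492) (B (lo112_15_7 (nat_lit 460)) (M (nat_lit 459) (B (lo111_14_7 (nat_lit 330)) (M (nat_lit 491) (B (lo111_16_6 (nat_lit 523)) (lo111_12_4 (nat_lit 524)))))))))))))))) (B (M (nat_lit 457) (B (lo19_14_6 (nat_lit 330)) (M (nat_lit 489) (B (M (nat_lit 488) (B (lo19_11_5 (nat_lit 456)) (lo19_12_5 (nat_lit 520)))) (M (nat_lit 521) (B (M (nat_lit 522) (B (lo19_12_4 (nat_lit 490)) (lo19_13_4 (nat_lit 554)))) (M (nat_lit 392) (B (lo19_15_7 (nat_lit 360)) (lo19_16_7 (nat_lit 424)))))))))) (B (M (nat_lit 457) (B (lo19_14_6 (nat_lit 330)) (M (nat_lit 489) (B (M (nat_lit 488) (B (lo19_11_5 (nat_lit 456)) (lo19_12_5 (nat_lit 520)))) (B (M (nat_lit 521) (B (M (nat_lit 522) (B (lo19_12_4 (nat_lit 490)) (lo19_13_4 (nat_lit 554)))) (M (nat_lit 520) (B (lo19_12_5 (nat_lit 488)) (lo19_13_5 (nat_lit 552)))))) (B (M (nat_lit 521) (B (M (nat_lit 522) (B (lo19_12_4 (nat_lit 490)) (lo19_13_4 (nat_lit 554)))) (M (nat_lit 553) (B (M (nat_lit 424) (B (lo19_16_7 (nat_lit 392)) (lo19_17_7 (nat_lit 456)))) (M (nat_lit 552) (B (lo19_13_5 (nat_lit 520)) (lo19_14_5 (nat_lit 584)))))))) (M (nat_lit 521) (B (M (nat_lit 522) (B (lo19_12_4 (nat_lit 490)) (lo19_13_4 (nat_lit 554)))) (M (nat_lit 424) (B (lo19_16_7 (nat_lit 392)) (M (nat_lit 456) (B (lo19_11_5 (nat_lit 488)) (lo19_17_7 (nat_lit 553)))))))))))))) (M (nat_lit 360) (B (M (nat_lit 457) (B (lo19_14_6 (nat_lit 330)) (lo19_14_7 (nat_lit 328)))) (B (M (nat_lit 363) (B (lo18_11_0 (nat_lit 395)) (M (nat_lit 328) (B (lo111_11_3 (nat_lit 327)) (lo19_14_7 (nat_lit 457)))))) (B (M (nat_lit 363) (B (lo18_11_0 (nat_lit 395)) (M (nat_lit 359) (B (M (nat_lit 331) (B (lo18_11_2 (nat_lit 332)) (lo17_11_2 (nat_lit 330)))) (M (nat_lit 327) (B (lo111_11_3 (nat_lit 328)) (lo110_11_3 (nat_lit 326)))))))) (M (nat_lit 331) (B (M (nat_lit 363) (B (lo18_11_2 (nat_lit 332)) (lo18_11_0 (nat_lit 395)))) (M (nat_lit 330) (B (lo17_11_2 (nat_lit 359)) (lo19_14_6 (nat_lit 457)))))))))))))))) (B (M (nat_lit 329) (B (M (nat_lit 296) (B (lo19_13_7 (nat_lit 328)) (M (nat_lit 297) (B (lo19_12_7 (nat_lit 264)) (M (nat_lit 298) (B (lo19_12_6 (nat_lit 266)) (lo19_13_6 (nat_lit 330)))))))) (B (M (nat_lit 297) (B (M (nat_lit 296) (B (lo19_12_7 (nat_lit 264)) (lo19_13_7 (nat_lit 328)))) (M (nat_lit 424) (B (lo19_9_5 (nat_lit 392)) (lo19_10_5 (nat_lit 456)))))) (B (M (nat_lit 328) (B (lo19_13_7 (nat_lit 296)) (M (nat_lit 327) (B (M (nat_lit 326) (B (lo16_10_0 (nat_lit 362)) (M (nat_lit 325) (B (lo15_10_0 (nat_lit 360)) (M (nat_lit 293) (B (lo19_10_3 (nat_lit 294)) (lo18_10_3 (nat_lit 292)))))))) (B (M (nat_lit 326) (B (M (nat_lit 330) (B (lo19_13_6 (nat_lit 298)) (M (nat_lit 294) (B (lo110_10_3 (nat_lit 295)) (lo19_10_3 (nat_lit 293)))))) (B (M (nat_lit 325) (B (lo15_10_0 (nat_lit 360)) (M (nat_lit 293) (B (lo19_10_3 (nat_lit 294)) (lo18_10_3 (nat_lit 292)))))) (M (nat_lit 330) (B (lo19_13_6 (nat_lit 298)) (M (nat_lit 358) (B (lo110_10_1 (nat_lit 359)) (lo19_10_1 (nat_lit 357))))))))) (B (M (nat_lit 326) (B (lo16_10_0 (nat_lit 362)) (M (nat_lit 330) (B (lo19_13_6 (nat_lit 298)) (M (nat_lit 358) (B (lo110_10_1 (nat_lit 359)) (lo19_10_1 (nat_lit 357)))))))) (M (nat_lit 330) (B (lo19_13_6 (nat_lit 298)) (M (nat_lit 360) (B (M (nat_lit 359) (B (lo111_10_1 (nat_lit 331)) (lo16_11_2 (nat_lit 358)))) (M (nat_lit 424) (B (lo19_10_5 (nat_lit 456)) (M (nat_lit 295) (B (lo110_10_3 (nat_lit 294)) (lo18_13_7 (nat_lit 392)))))))))))))))) (M (nat_lit 297) (B (M (nat_lit 298) (B (lo19_12_6 (nat_lit 266)) (lo19_13_6 (nat_lit 330)))) (M (nat_lit 424) (B (lo19_9_5 (nat_lit 392)) (lo19_10_5 (nat_lit 456)))))))))) (B (M (nat_lit 457) (B (M (nat_lit 329) (B (M (nat_lit 330) (B (lo19_13_6 (nat_lit 298)) (lo19_14_6 (nat_lit 362)))) (M (nat_lit 456) (B (lo19_10_5 (nat_lit 424)) (lo19_11_5 (nat_lit 488)))))) (B (M (nat_lit 489) (B (M (nat_lit 360) (B (lo19_14_7 (nat_lit 328)) (lo19_15_7 (nat_lit 392)))) (M (nat_lit 488) (B (lo19_11_5 (nat_lit 456)) (lo19_12_5 (nat_lit 520)))))) (B (K _ _ _ o1_s17536) (M (nat_lit 329) (B (M (nat_lit 330) (B (lo19_13_6 (nat_lit 298)) (lo19_14_6 (nat_lit 362)))) (M (nat_lit 392) (B (M (nat_lit 424) (B (lo19_9_5 (nat_lit 297)) (lo19_10_5 (nat_lit 456)))) (M (nat_lit 360) (B (lo19_14_7 (nat_lit 328)) (lo19_15_7 (nat_lit 489)))))))))))) (B (M (nat_lit 330) (B (M (nat_lit 298) (B (lo19_13_6 (nat_lit 329)) (M (nat_lit 362) (B (lo110_8_5 (nat_lit 266)) (lo19_14_6 (nat_lit 457)))))) (B (M (nat_lit 456) (B (M (nat_lit 329) (B (lo19_13_6 (nat_lit 298)) (lo19_10_5 (nat_lit 424)))) (M (nat_lit 457) (B (lo19_14_6 (nat_lit 362)) (lo19_11_5 (nat_lit 488)))))) (B (M (nat_lit 457) (B (lo19_14_6 (nat_lit 362)) (M (nat_lit 489) (B (M (nat_lit 488) (B (lo19_11_5 (nat_lit 456)) (lo19_12_5 (nat_lit 520)))) (M (nat_lit 521) (B (M (nat_lit 522) (B (lo19_12_4 (nat_lit 490)) (lo19_13_4 (nat_lit 554)))) (M (nat_lit 392) (B (lo19_15_7 (nat_lit 360)) (lo19_16_7 (nat_lit 424)))))))))) (B (M (nat_lit 491) (B (M (nat_lit 523) (B (lo111_16_6 (nat_lit 459)) (M (nat_lit 492) (B (lo112_12_5 (nat_lit 460)) (M (nat_lit 522) (B (lo114_15_1 (nat_lit 494)) (M (nat_lit 521) (B (lo19_16_2 (nat_lit 524)) (lo113_15_1 (nat_lit 490)))))))))) (B (M (nat_lit 492) (B (M (nat_lit 523) (B (lo112_12_5 (nat_lit 460)) (lo111_16_6 (nat_lit 459)))) (B (M (nat_lit 490) (B (M (nat_lit 522) (B (lo113_15_1 (nat_lit 521)) (M (nat_lit 459) (B (lo111_16_6 (nat_lit 523)) (lo111_12_5 (nat_lit 395)))))) (M (nat_lit 456) (B (M (nat_lit 329) (B (lo19_13_6 (nat_lit 298)) (lo19_10_5 (nat_lit 424)))) (M (nat_lit 457) (B (lo112_15_3 (nat_lit 489)) (lo19_11_5 (nat_lit 488)))))))) (B (M (nat_lit 460) (B (lo112_12_5 (nat_lit 523)) (M (nat_lit 524) (B (lo112_17_6 (nat_lit 556)) (lo112_16_7 (nat_lit 395)))))) (M (nat_lit 490) (B (M (nat_lit 460) (B (lo19_15_2 (nat_lit 489)) (M (nat_lit 524) (B (lo112_17_6 (nat_lit 556)) (lo112_16_7 (nat_lit 395)))))) (B (M (nat_lit 456) (B (M (nat_lit 329) (B (lo19_13_6 (nat_lit 298)) (lo19_10_5 (nat_lit 424)))) (M (nat_lit 457) (B (lo112_15_3 (nat_lit 489)) (lo19_11_5 (nat_lit 488)))))) (M (nat_lit 395) (B (M (nat_lit 460) (B (lo112_15_7 (nat_lit 363)) (lo112_16_7 (nat_lit 524)))) (B (M (nat_lit 459) (B (lo111_12_4 (nat_lit 524)) (lo111_12_5 (nat_lit 522)))) (M (nat_lit 522) (B (lo113_15_1 (nat_lit 521)) (lo111_12_5 (nat_lit 459)))))))))))))) (B (M (nat_lit 457) (B (M (nat_lit 456) (B (lo19_11_5 (nat_lit 488)) (M (nat_lit 329) (B (lo19_13_6 (nat_lit 298)) (lo19_10_5 (nat_lit 424)))))) (B (K _ _ _ o1_s17826) (B (K _ _ _ o1_s17835) (B (M (nat_lit 523) (B (lo111_16_6 (nat_lit 459)) (M (nat_lit 489) (B (M (nat_lit 490) (B (lo19_12_4 (nat_lit 522)) (M (nat_lit 488) (B (lo18_15_0 (nat_lit 524)) (lo19_12_5 (nat_lit 520)))))) (B (M (nat_lit 521) (B (M (nat_lit 522) (B (lo19_12_4 (nat_lit 490)) (lo19_13_4 (nat_lit 554)))) (M (nat_lit 520) (B (lo19_12_5 (nat_lit 488)) (lo19_13_5 (nat_lit 552)))))) (B (M (nat_lit 521) (B (M (nat_lit 392) (B (lo19_15_7 (nat_lit 360)) (lo19_16_7 (nat_lit 424)))) (M (nat_lit 520) (B (lo19_12_5 (nat_lit 488)) (lo19_13_5 (nat_lit 552)))))) (M (nat_lit 521) (B (M (nat_lit 522) (B (lo19_12_4 (nat_lit 490)) (lo19_13_4 (nat_lit 554)))) (M (nat_lit 392) (B (lo19_15_7 (nat_lit 360)) (lo19_16_7 (nat_lit 424)))))))))))) (M (nat_lit 522) (B (M (nat_lit 459) (B (lo111_16_6 (nat_lit 523)) (M (nat_lit 490) (B (lo111_12_5 (nat_lit 395)) (lo19_12_4 (nat_lit 489)))))) (B (M (nat_lit 492) (B (M (nat_lit 523) (B (lo114_15_1 (nat_lit 494)) (lo111_16_6 (nat_lit 459)))) (M (nat_lit 490) (B (lo113_15_1 (nat_lit 521)) (lo19_12_4 (nat_lit 489)))))) (B (M (nat_lit 489) (B (lo19_12_4 (nat_lit 490)) (M (nat_lit 521) (B (lo19_13_4 (nat_lit 554)) (M (nat_lit 392) (B (lo19_15_7 (nat_lit 360)) (lo19_16_7 (nat_lit 424)))))))) (M (nat_lit 523) (B (lo111_16_6 (nat_lit 459)) (M (nat_lit 492) (B (lo114_15_1 (nat_lit 494)) (M (nat_lit 521) (B (lo19_16_2 (nat_lit 524)) (lo18_16_2 (nat_lit 520))))))))))))))))) (B (M (nat_lit 457) (B (M (nat_lit 456) (B (lo19_11_5 (nat_lit 488)) (M (nat_lit 329) (B (lo19_13_6 (nat_lit 298)) (lo19_10_5 (nat_lit 424)))))) (B (K _ _ _ o1_s17826) (B (K _ _ _ o1_s17835) (B (M (nat_lit 489) (B (M (nat_lit 392) (B (lo19_15_7 (nat_lit 360)) (M (nat_lit 329) (B (lo19_13_6 (nat_lit 298)) (M (nat_lit 424) (B (lo19_9_5 (nat_lit 297)) (lo19_16_7 (nat_lit 521)))))))) (B (M (nat_lit 521) (B (M (nat_lit 522) (B (lo19_12_4 (nat_lit 490)) (lo19_13_4 (nat_lit 554)))) (M (nat_lit 392) (B (lo19_15_7 (nat_lit 360)) (lo19_16_7 (nat_lit 424)))))) (M (nat_lit 523) (B (lo111_16_6 (nat_lit 459)) (M (nat_lit 490) (B (lo19_12_4 (nat_lit 522)) (M (nat_lit 488) (B (lo18_15_0 (nat_lit 524)) (lo19_12_5 (nat_lit 520))))))))))) (K _ _ _ o1_s17897)))))) (B (M (nat_lit 523) (B (lo111_16_6 (nat_lit 459)) (M (nat_lit 492) (B (lo112_12_5 (nat_lit 460)) (M (nat_lit 522) (B (lo114_15_1 (nat_lit 494)) (M (nat_lit 521) (B (lo113_15_1 (nat_lit 490)) (lo18_16_2 (nat_lit 520)))))))))) (B (M (nat_lit 457) (B (M (nat_lit 456) (B (lo19_11_5 (nat_lit 488)) (M (nat_lit 329) (B (lo19_13_6 (nat_lit 298)) (lo19_10_5 (nat_lit 424)))))) (B (K _ _ _ o1_s17826) (B (M (nat_lit 489) (B (M (nat_lit 488) (B (lo19_11_5 (nat_lit 456)) (lo19_12_5 (nat_lit 520)))) (B (M (nat_lit 490) (B (lo19_12_4 (nat_lit 522)) (M (nat_lit 492) (B (lo19_15_2 (nat_lit 460)) (M (nat_lit 520) (B (lo112_15_1 (nat_lit 521)) (lo19_12_5 (nat_lit 488)))))))) (M (nat_lit 490) (B (lo19_12_4 (nat_lit 522)) (M (nat_lit 492) (B (lo19_15_2 (nat_lit 460)) (lo112_15_3 (nat_lit 456))))))))) (B (M (nat_lit 492) (B (M (nat_lit 460) (B (lo112_12_5 (nat_lit 523)) (M (nat_lit 524) (B (lo112_17_6 (nat_lit 556)) (lo112_16_7 (nat_lit 395)))))) (B (M (nat_lit 521) (B (M (nat_lit 522) (B (lo113_15_1 (nat_lit 490)) (M (nat_lit 523) (B (lo114_15_1 (nat_lit 494)) (lo19_16_2 (nat_lit 524)))))) (B (M (nat_lit 522) (B (lo113_15_1 (nat_lit 490)) (M (nat_lit 523) (B (lo19_16_2 (nat_lit 524)) (lo18_16_2 (nat_lit 520)))))) (B (M (nat_lit 522) (B (lo113_15_1 (nat_lit 490)) (M (nat_lit 523) (B (lo114_15_1 (nat_lit 494)) (lo18_16_2 (nat_lit 520)))))) (B (M (nat_lit 489) (B (M (nat_lit 490) (B (lo113_15_1 (nat_lit 522)) (lo112_15_1 (nat_lit 520)))) (M (nat_lit 392) (B (lo19_15_7 (nat_lit 360)) (lo19_16_7 (nat_lit 424)))))) (M (nat_lit 489) (B (M (nat_lit 392) (B (lo19_15_7 (nat_lit 360)) (lo19_16_7 (nat_lit 424)))) (M (nat_lit 520) (B (lo19_12_5 (nat_lit 488)) (lo19_13_5 (nat_lit 552))))))))))) (B (M (nat_lit 522) (B (M (nat_lit 523) (B (lo114_15_1 (nat_lit 494)) (lo112_12_5 (nat_lit 460)))) (M (nat_lit 490) (B (lo113_15_1 (nat_lit 521)) (lo19_12_4 (nat_lit 489)))))) (M (nat_lit 489) (B (M (nat_lit 490) (B (lo19_15_2 (nat_lit 460)) (lo19_12_4 (nat_lit 522)))) (B (M (nat_lit 490) (B (lo19_12_4 (nat_lit 522)) (M (nat_lit 520) (B (lo112_15_1 (nat_lit 521)) (lo19_12_5 (nat_lit 488)))))) (M (nat_lit 521) (B (M (nat_lit 392) (B (lo19_15_7 (nat_lit 360)) (lo19_16_7 (nat_lit 424)))) (M (nat_lit 520) (B (lo19_12_5 (nat_lit 488)) (lo19_13_5 (nat_lit 552))))))))))))) (K _ _ _ o1_s17956)))))) (B (M (nat_lit 457) (B (M (nat_lit 456) (B (lo19_11_5 (nat_lit 488)) (M (nat_lit 329) (B (lo19_13_6 (nat_lit 298)) (lo19_10_5 (nat_lit 424)))))) (B (M (nat_lit 489) (B (M (nat_lit 488) (B (lo19_11_5 (nat_lit 456)) (lo19_12_5 (nat_lit 520)))) (B (M (nat_lit 521) (B (M (nat_lit 522) (B (lo19_12_4 (nat_lit 490)) (lo19_13_4 (nat_lit 554)))) (M (nat_lit 520) (B (lo19_12_5 (nat_lit 488)) (lo19_13_5 (nat_lit 552)))))) (M (nat_lit 490) (B (lo19_12_4 (nat_lit 522)) (M (nat_lit 492) (B (lo19_15_2 (nat_lit 460)) (lo112_15_3 (nat_lit 456))))))))) (B (M (nat_lit 489) (B (M (nat_lit 490) (B (lo19_12_4 (nat_lit 522)) (M (nat_lit 460) (B (lo19_15_2 (nat_lit 492)) (M (nat_lit 488) (B (lo18_15_2 (nat_lit 459)) (lo19_12_5 (nat_lit 520)))))))) (M (nat_lit 392) (B (lo19_15_7 (nat_lit 360)) (M (nat_lit 329) (B (lo19_13_6 (nat_lit 298)) (M (nat_lit 424) (B (lo19_9_5 (nat_lit 297)) (lo19_16_7 (nat_lit 521)))))))))) (K _ _ _ o1_s17956))))) (B (M (nat_lit 523) (B (lo111_16_6 (nat_lit 459)) (M (nat_lit 492) (B (lo112_12_5 (nat_lit 460)) (M (nat_lit 522) (B (lo114_15_1 (nat_lit 494)) (M (nat_lit 521) (B (lo19_16_2 (nat_lit 524)) (lo18_16_2 (nat_lit 520)))))))))) (B (M (nat_lit 457) (B (M (nat_lit 456) (B (lo19_11_5 (nat_lit 488)) (M (nat_lit 329) (B (lo19_13_6 (nat_lit 298)) (lo19_10_5 (nat_lit 424)))))) (B (M (nat_lit 456) (B (lo19_11_5 (nat_lit 488)) (M (nat_lit 489) (B (M (nat_lit 392) (B (lo19_15_7 (nat_lit 360)) (M (nat_lit 424) (B (lo19_10_5 (nat_lit 329)) (lo19_16_7 (nat_lit 521)))))) (M (nat_lit 492) (B (lo112_15_3 (nat_lit 490)) (M (nat_lit 523) (B (lo112_12_5 (nat_lit 460)) (lo111_16_6 (nat_lit 459)))))))))) (B (M (nat_lit 489) (B (M (nat_lit 488) (B (lo19_11_5 (nat_lit 456)) (lo19_12_5 (nat_lit 520)))) (B (M (nat_lit 520) (B (lo19_12_5 (nat_lit 488)) (M (nat_lit 521) (B (lo19_13_5 (nat_lit 552)) (M (nat_lit 392) (B (lo19_15_7 (nat_lit 360)) (lo19_16_7 (nat_lit 424)))))))) (B (M (nat_lit 492) (B (M (nat_lit 460) (B (lo19_15_2 (nat_lit 490)) (lo112_12_5 (nat_lit 523)))) (B (M (nat_lit 521) (B (M (nat_lit 490) (B (lo112_15_3 (nat_lit 456)) (lo112_15_1 (nat_lit 520)))) (M (nat_lit 392) (B (lo19_15_7 (nat_lit 360)) (lo19_16_7 (nat_lit 424)))))) (M (nat_lit 523) (B (lo112_12_5 (nat_lit 460)) (lo111_16_6 (nat_lit 459))))))) (M (nat_lit 492) (B (M (nat_lit 460) (B (lo19_15_2 (nat_lit 490)) (lo112_12_5 (nat_lit 523)))) (B (M (nat_lit 456) (B (lo112_15_3 (nat_lit 490)) (lo19_11_5 (nat_lit 488)))) (M (nat_lit 523) (B (lo112_12_5 (nat_lit 460)) (lo111_16_6 (nat_lit 459))))))))))) (B (M (nat_lit 488) (B (lo19_11_5 (nat_lit 456)) (M (nat_lit 489) (B (lo19_12_5 (nat_lit 520)) (M (nat_lit 460) (B (M (nat_lit 492) (B (lo19_15_2 (nat_lit 490)) (lo112_12_5 (nat_lit 523)))) (B (M (nat_lit 459) (B (lo111_16_6 (nat_lit 523)) (lo18_15_2 (nat_lit 490)))) (B (M (nat_lit 490) (B (lo19_15_2 (nat_lit 492)) (lo18_15_2 (nat_lit 459)))) (M (nat_lit 523) (B (lo112_12_5 (nat_lit 492)) (lo111_16_6 (nat_lit 459)))))))))))) (B (M (nat_lit 489) (B (M (nat_lit 392) (B (lo19_15_7 (nat_lit 360)) (M (nat_lit 329) (B (lo19_13_6 (nat_lit 298)) (M (nat_lit 424) (B (lo19_9_5 (nat_lit 297)) (lo19_16_7 (nat_lit 521)))))))) (B (M (nat_lit 520) (B (lo19_12_5 (nat_lit 488)) (M (nat_lit 521) (B (lo19_13_5 (nat_lit 552)) (M (nat_lit 392) (B (lo19_15_7 (nat_lit 360)) (lo19_16_7 (nat_lit 424)))))))) (M (nat_lit 460) (B (M (nat_lit 492) (B (lo19_15_2 (nat_lit 490)) (lo112_12_5 (nat_lit 523)))) (B (M (nat_lit 459) (B (lo111_16_6 (nat_lit 523)) (M (nat_lit 488) (B (lo18_15_2 (nat_lit 490)) (lo19_12_5 (nat_lit 520)))))) (B (M (nat_lit 492) (B (lo19_15_2 (nat_lit 490)) (M (nat_lit 524) (B (lo112_17_6 (nat_lit 556)) (lo112_16_7 (nat_lit 395)))))) (M (nat_lit 523) (B (lo112_12_5 (nat_lit 492)) (lo111_16_6 (nat_lit 459))))))))))) (K _ _ _ o1_s17897))))))) (M (nat_lit 523) (B (lo111_16_6 (nat_lit 459)) (M (nat_lit 492) (B (lo112_12_5 (nat_lit 460)) (M (nat_lit 494) (B (lo114_15_1 (nat_lit 522)) (M (nat_lit 495) (B (lo115_15_1 (nat_lit 524)) (M (nat_lit 527) (B (lo112_15_0 (nat_lit 528)) (lo111_15_0 (nat_lit 526)))))))))))))))))))))) (M (nat_lit 329) (B (lo19_13_6 (nat_lit 298)) (M (nat_lit 297) (B (M (nat_lit 424) (B (lo19_9_5 (nat_lit 392)) (lo19_10_5 (nat_lit 456)))) (M (nat_lit 265) (B (M (nat_lit 264) (B (lo19_11_7 (nat_lit 232)) (lo19_12_7 (nat_lit 296)))) (M (nat_lit 234) (B (lo19_11_6 (nat_lit 266)) (M (nat_lit 233) (B (lo19_10_6 (nat_lit 202)) (lo19_7_4 (nat_lit 362))))))))))))))))) (B (K _ _ _ o1_s18064) (B (M (nat_lit 329) (B (M (nat_lit 457) (B (M (nat_lit 328) (B (lo19_13_7 (nat_lit 296)) (lo19_14_7 (nat_lit 360)))) (M (nat_lit 456) (B (lo19_10_5 (nat_lit 424)) (lo19_11_5 (nat_lit 488)))))) (B (M (nat_lit 296) (B (lo19_13_7 (nat_lit 328)) (M (nat_lit 297) (B (lo19_12_7 (nat_lit 264)) (M (nat_lit 298) (B (lo19_12_6 (nat_lit 266)) (lo19_13_6 (nat_lit 330)))))))) (M (nat_lit 457) (B (M (nat_lit 330) (B (lo19_13_6 (nat_lit 298)) (lo19_14_6 (nat_lit 362)))) (M (nat_lit 456) (B (lo19_10_5 (nat_lit 424)) (lo19_11_5 (nat_lit 488))))))))) (M (nat_lit 360) (B (M (nat_lit 328) (B (lo19_14_7 (nat_lit 457)) (M (nat_lit 296) (B (lo19_13_7 (nat_lit 329)) (lo18_8_4 (nat_lit 264)))))) (B (M (nat_lit 328) (B (lo19_14_7 (nat_lit 457)) (M (nat_lit 296) (B (lo18_8_4 (nat_lit 264)) (lo18_9_4 (nat_lit 392)))))) (B (M (nat_lit 362) (B (M (nat_lit 363) (B (lo18_11_0 (nat_lit 395)) (M (nat_lit 328) (B (lo111_11_3 (nat_lit 327)) (M (nat_lit 296) (B (lo19_13_7 (nat_lit 329)) (lo18_8_4 (nat_lit 264)))))))) (B (M (nat_lit 359) (B (M (nat_lit 330) (B (lo17_11_2 (nat_lit 331)) (M (nat_lit 298) (B (lo110_8_5 (nat_lit 266)) (lo19_13_6 (nat_lit 329)))))) (M (nat_lit 358) (B (M (nat_lit 326) (B (lo110_11_3 (nat_lit 327)) (lo19_11_3 (nat_lit 325)))) (M (nat_lit 390) (B (lo110_11_1 (nat_lit 391)) (lo19_11_1 (nat_lit 389)))))))) (B (M (nat_lit 328) (B (M (nat_lit 363) (B (lo18_11_0 (nat_lit 395)) (lo111_11_3 (nat_lit 327)))) (M (nat_lit 296) (B (lo18_8_4 (nat_lit 264)) (lo18_9_4 (nat_lit 392)))))) (M (nat_lit 363) (B (lo18_11_0 (nat_lit 395)) (M (nat_lit 330) (B (M (nat_lit 331) (B (lo18_11_2 (nat_lit 332)) (lo17_11_2 (nat_lit 359)))) (M (nat_lit 298) (B (lo110_8_5 (nat_lit 266)) (lo19_13_6 (nat_lit 329)))))))))))) (B (M (nat_lit 328) (B (lo19_14_7 (nat_lit 457)) (M (nat_lit 296) (B (lo19_13_7 (nat_lit 329)) (lo18_9_4 (nat_lit 392)))))) (B (M (nat_lit 457) (B (lo19_14_7 (nat_lit 328)) (M (nat_lit 392) (B (lo19_15_7 (nat_lit 489)) (M (nat_lit 362) (B (lo19_14_6 (nat_lit 330)) (M (nat_lit 363) (B (lo18_11_0 (nat_lit 395)) (lo111_11_1 (nat_lit 391)))))))))) (M (nat_lit 362) (B (M (nat_lit 330) (B (lo19_14_6 (nat_lit 457)) (M (nat_lit 298) (B (lo110_8_5 (nat_lit 266)) (lo19_13_6 (nat_lit 329)))))) (B (M (nat_lit 359) (B (M (nat_lit 391) (B (lo110_11_1 (nat_lit 390)) (M (nat_lit 363) (B (lo18_11_0 (nat_lit 395)) (lo111_11_1 (nat_lit 392)))))) (M (nat_lit 330) (B (lo19_14_6 (nat_lit 457)) (M (nat_lit 329) (B (lo19_13_6 (nat_lit 298)) (lo16_11_2 (nat_lit 358)))))))) (B (M (nat_lit 359) (B (M (nat_lit 391) (B (lo110_11_1 (nat_lit 390)) (M (nat_lit 363) (B (lo18_11_0 (nat_lit 395)) (lo111_11_1 (nat_lit 392)))))) (M (nat_lit 358) (B (M (nat_lit 330) (B (lo19_14_6 (nat_lit 457)) (lo16_11_2 (nat_lit 329)))) (M (nat_lit 326) (B (lo110_11_3 (nat_lit 327)) (lo19_11_3 (nat_lit 325)))))))) (K _ _ _ o1_s17613)))))))))))))))))))))) (M (nat_lit 426) (B (lo19_13_0 (nat_lit 460)) (M (nat_lit 456) (B (lo112_13_1 (nat_lit 457)) (M (nat_lit 424) (B (lo18_13_2 (nat_lit 395)) (lo111_13_1 (nat_lit 455)))))))))))) (B (M (nat_lit 426) (B (lo113_13_3 (nat_lit 394)) (M (nat_lit 425) (B (lo19_13_0 (nat_lit 460)) (lo112_13_3 (nat_lit 392)))))) (M (nat_lit 361) (B (M (nat_lit 395) (B (lo19_12_0 (nat_lit 394)) (M (nat_lit 363) (B (M (nat_lit 460) (B (lo112_15_7 (nat_lit 492)) (lo111_10_4 (nat_lit 331)))) (B (M (nat_lit 330) (B (M (nat_lit 331) (B (lo111_9_4 (nat_lit 299)) (lo111_13_7 (nat_lit 298)))) (M (nat_lit 362) (B (lo18_11_0 (nat_lit 360)) (lo111_14_7 (nat_lit 459)))))) (K _ _ _ o1_s18140)))))) (B (M (nat_lit 362) (B (M (nat_lit 395) (B (lo19_12_0 (nat_lit 394)) (M (nat_lit 363) (B (lo18_11_0 (nat_lit 360)) (M (nat_lit 330) (B (lo111_14_7 (nat_lit 459)) (M (nat_lit 331) (B (lo111_9_4 (nat_lit 299)) (lo111_13_7 (nat_lit 298)))))))))) (B (M (nat_lit 330) (B (M (nat_lit 298) (B (lo110_8_5 (nat_lit 266)) (M (nat_lit 394) (B (lo19_12_0 (nat_lit 395)) (lo110_9_5 (nat_lit 425)))))) (B (M (nat_lit 298) (B (lo110_8_5 (nat_lit 266)) (M (nat_lit 425) (B (lo110_9_5 (nat_lit 394)) (lo19_14_6 (nat_lit 457)))))) (B (M (nat_lit 395) (B (lo19_12_0 (nat_lit 394)) (M (nat_lit 363) (B (lo18_11_0 (nat_lit 360)) (lo111_14_7 (nat_lit 459)))))) (M (nat_lit 298) (B (lo110_8_5 (nat_lit 266)) (M (nat_lit 425) (B (lo19_13_6 (nat_lit 329)) (lo19_14_6 (nat_lit 457)))))))))) (B (M (nat_lit 330) (B (M (nat_lit 298) (B (lo110_8_5 (nat_lit 266)) (M (nat_lit 394) (B (lo19_12_0 (nat_lit 395)) (lo110_9_5 (nat_lit 425)))))) (B (M (nat_lit 298) (B (lo110_8_5 (nat_lit 266)) (M (nat_lit 425) (B (lo110_9_5 (nat_lit 394)) (lo19_14_6 (nat_lit 457)))))) (B (M (nat_lit 394) (B (lo19_12_0 (nat_lit 395)) (M (nat_lit 425) (B (lo110_9_5 (nat_lit 298)) (lo19_14_6 (nat_lit 457)))))) (B (M (nat_lit 329) (B (M (nat_lit 394) (B (lo19_12_0 (nat_lit 395)) (M (nat_lit 425) (B (lo19_14_6 (nat_lit 457)) (M (nat_lit 297) (B (lo19_8_4 (nat_lit 265)) (M (nat_lit 424) (B (lo19_9_5 (nat_lit 392)) (lo19_10_5 (nat_lit 456)))))))))) (B (M (nat_lit 297) (B (M (nat_lit 265) (B (lo19_7_4 (nat_lit 233)) (lo19_8_4 (nat_lit 394)))) (M (nat_lit 296) (B (lo19_12_7 (nat_lit 264)) (M (nat_lit 425) (B (lo19_14_6 (nat_lit 457)) (lo19_13_7 (nat_lit 328)))))))) (B (M (nat_lit 297) (B (M (nat_lit 392) (B (lo19_9_5 (nat_lit 424)) (M (nat_lit 265) (B (lo19_7_4 (nat_lit 233)) (lo19_8_5 (nat_lit 360)))))) (M (nat_lit 296) (B (lo19_12_7 (nat_lit 264)) (M (nat_lit 425) (B (lo19_14_6 (nat_lit 457)) (lo19_13_7 (nat_lit 328)))))))) (B (M (nat_lit 394) (B (lo19_12_0 (nat_lit 395)) (M (nat_lit 425) (B (lo19_14_6 (nat_lit 457)) (M (nat_lit 297) (B (M (nat_lit 296) (B (lo19_12_7 (nat_lit 264)) (lo19_13_7 (nat_lit 328)))) (M (nat_lit 424) (B (lo19_9_5 (nat_lit 392)) (lo19_10_5 (nat_lit 456)))))))))) (B (M (nat_lit 328) (B (M (nat_lit 425) (B (lo19_14_6 (nat_lit 457)) (lo19_13_7 (nat_lit 296)))) (M (nat_lit 331) (B (M (nat_lit 332) (B (lo113_10_1 (nat_lit 333)) (lo112_10_1 (nat_lit 360)))) (B (M (nat_lit 360) (B (lo112_10_1 (nat_lit 332)) (lo17_11_2 (nat_lit 359)))) (B (M (nat_lit 359) (B (lo17_11_2 (nat_lit 360)) (M (nat_lit 327) (B (lo110_10_1 (nat_lit 358)) (lo16_10_0 (nat_lit 326)))))) (M (nat_lit 300) (B (lo18_10_2 (nat_lit 299)) (M (nat_lit 332) (B (lo19_10_2 (nat_lit 301)) (lo113_10_1 (nat_lit 333)))))))))))) (M (nat_lit 359) (B (M (nat_lit 360) (B (lo17_11_2 (nat_lit 331)) (lo16_11_2 (nat_lit 358)))) (B (M (nat_lit 394) (B (lo19_12_0 (nat_lit 395)) (M (nat_lit 392) (B (M (nat_lit 391) (B (lo16_12_2 (nat_lit 390)) (lo110_12_3 (nat_lit 358)))) (M (nat_lit 297) (B (lo19_8_4 (nat_lit 265)) (lo19_9_5 (nat_lit 424)))))))) (M (nat_lit 331) (B (lo17_11_2 (nat_lit 360)) (M (nat_lit 297) (B (M (nat_lit 332) (B (lo113_10_1 (nat_lit 333)) (lo112_10_3 (nat_lit 296)))) (M (nat_lit 394) (B (lo19_12_0 (nat_lit 395)) (lo19_8_4 (nat_lit 265))))))))))))))))) (B (M (nat_lit 298) (B (lo110_8_5 (nat_lit 266)) (M (nat_lit 425) (B (lo19_13_6 (nat_lit 329)) (lo19_14_6 (nat_lit 457)))))) (M (nat_lit 298) (B (lo110_8_5 (nat_lit 266)) (M (nat_lit 297) (B (M (nat_lit 394) (B (lo19_12_0 (nat_lit 395)) (lo110_12_7 (nat_lit 265)))) (B (M (nat_lit 265) (B (lo110_12_7 (nat_lit 394)) (M (nat_lit 329) (B (lo19_7_4 (nat_lit 233)) (M (nat_lit 392) (B (lo19_8_5 (nat_lit 360)) (lo19_9_5 (nat_lit 424)))))))) (B (M (nat_lit 329) (B (M (nat_lit 296) (B (lo19_12_7 (nat_lit 264)) (M (nat_lit 331) (B (lo112_10_3 (nat_lit 332)) (lo17_9_0 (nat_lit 295)))))) (M (nat_lit 265) (B (lo19_7_4 (nat_lit 233)) (M (nat_lit 392) (B (lo19_8_5 (nat_lit 360)) (lo19_9_5 (nat_lit 424)))))))) (M (nat_lit 329) (B (M (nat_lit 296) (B (lo19_12_7 (nat_lit 264)) (M (nat_lit 331) (B (lo112_10_3 (nat_lit 332)) (lo17_9_0 (nat_lit 295)))))) (M (nat_lit 299) (B (M (nat_lit 300) (B (lo113_9_1 (nat_lit 301)) (lo112_9_1 (nat_lit 328)))) (M (nat_lit 394) (B (lo19_12_0 (nat_lit 395)) (lo110_12_6 (nat_lit 267)))))))))))))))))))) (B (M (nat_lit 425) (B (M (nat_lit 330) (B (lo19_14_6 (nat_lit 457)) (M (nat_lit 298) (B (lo110_8_5 (nat_lit 266)) (lo19_13_6 (nat_lit 329)))))) (B (M (nat_lit 330) (B (lo19_14_6 (nat_lit 457)) (M (nat_lit 298) (B (lo110_9_5 (nat_lit 394)) (lo19_13_6 (nat_lit 329)))))) (B (M (nat_lit 457) (B (lo19_14_6 (nat_lit 330)) (M (nat_lit 360) (B (lo19_14_7 (nat_lit 328)) (M (nat_lit 489) (B (lo19_15_6 (nat_lit 394)) (lo19_15_7 (nat_lit 392)))))))) (B (M (nat_lit 457) (B (M (nat_lit 360) (B (lo19_14_7 (nat_lit 328)) (M (nat_lit 489) (B (lo19_15_6 (nat_lit 394)) (lo19_15_7 (nat_lit 392)))))) (B (M (nat_lit 329) (B (M (nat_lit 328) (B (lo19_13_7 (nat_lit 296)) (lo19_14_7 (nat_lit 360)))) (M (nat_lit 456) (B (lo19_10_5 (nat_lit 424)) (lo19_11_5 (nat_lit 488)))))) (B (M (nat_lit 392) (B (M (nat_lit 489) (B (lo19_15_6 (nat_lit 394)) (lo19_15_7 (nat_lit 360)))) (B (M (nat_lit 360) (B (lo19_15_7 (nat_lit 489)) (M (nat_lit 391) (B (lo111_11_1 (nat_lit 363)) (lo16_12_2 (nat_lit 390)))))) (B (M (nat_lit 391) (B (lo16_12_2 (nat_lit 390)) (M (nat_lit 363) (B (lo17_12_2 (nat_lit 394)) (lo111_11_1 (nat_lit 360)))))) (M (nat_lit 391) (B (lo16_12_2 (nat_lit 390)) (M (nat_lit 394) (B (lo17_12_2 (nat_lit 363)) (lo19_15_6 (nat_lit 489)))))))))) (M (nat_lit 329) (B (M (nat_lit 456) (B (lo19_10_5 (nat_lit 424)) (lo19_11_5 (nat_lit 488)))) (M (nat_lit 297) (B (M (nat_lit 394) (B (lo19_8_4 (nat_lit 265)) (lo19_15_6 (nat_lit 489)))) (M (nat_lit 296) (B (lo19_12_7 (nat_lit 264)) (lo19_13_7 (nat_lit 328)))))))))))) (M (nat_lit 329) (B (M (nat_lit 328) (B (lo19_13_7 (nat_lit 296)) (M (nat_lit 327) (B (lo16_10_0 (nat_lit 326)) (M (nat_lit 363) (B (lo17_10_0 (nat_lit 330)) (lo111_11_3 (nat_lit 360)))))))) (B (M (nat_lit 297) (B (M (nat_lit 296) (B (lo19_12_7 (nat_lit 264)) (lo19_13_7 (nat_lit 328)))) (M (nat_lit 424) (B (lo19_9_5 (nat_lit 392)) (lo19_10_5 (nat_lit 456)))))) (M (nat_lit 360) (B (M (nat_lit 330) (B (lo19_13_6 (nat_lit 298)) (M (nat_lit 331) (B (lo112_10_1 (nat_lit 332)) (lo17_11_2 (nat_lit 359)))))) (M (nat_lit 392) (B (M (nat_lit 391) (B (lo111_11_1 (nat_lit 363)) (lo16_12_2 (nat_lit 390)))) (M (nat_lit 424) (B (lo19_9_5 (nat_lit 297)) (lo19_10_5 (nat_lit 456)))))))))))))))) (B (M (nat_lit 395) (B (lo19_12_0 (nat_lit 394)) (M (nat_lit 363) (B (lo18_11_0 (nat_lit 360)) (M (nat_lit 330) (B (lo111_14_7 (nat_lit 459)) (M (nat_lit 331) (B (lo111_9_4 (nat_lit 299)) (M (nat_lit 332) (B (lo113_10_1 (nat_lit 333)) (lo111_13_6 (nat_lit 300)))))))))))) (B (M (nat_lit 360) (B (M (nat_lit 395) (B (lo19_12_0 (nat_lit 394)) (lo18_11_0 (nat_lit 363)))) (B (M (nat_lit 359) (B (M (nat_lit 394) (B (lo19_12_0 (nat_lit 395)) (lo16_11_0 (nat_lit 358)))) (B (M (nat_lit 358) (B (lo16_11_0 (nat_lit 394)) (M (nat_lit 326) (B (lo110_11_3 (nat_lit 327)) (lo19_11_3 (nat_lit 325)))))) (B (M (nat_lit 358) (B (M (nat_lit 326) (B (lo110_11_3 (nat_lit 327)) (lo19_11_3 (nat_lit 325)))) (M (nat_lit 390) (B (lo110_11_1 (nat_lit 391)) (lo19_11_1 (nat_lit 389)))))) (M (nat_lit 392) (B (M (nat_lit 391) (B (lo16_12_2 (nat_lit 390)) (M (nat_lit 327) (B (lo110_11_3 (nat_lit 326)) (M (nat_lit 424) (B (lo18_14_7 (nat_lit 456)) (lo17_9_4 (nat_lit 295)))))))) (B (M (nat_lit 391) (B (lo16_12_2 (nat_lit 390)) (M (nat_lit 423) (B (M (nat_lit 394) (B (lo19_12_0 (nat_lit 395)) (lo110_12_1 (nat_lit 422)))) (M (nat_lit 455) (B (lo17_14_6 (nat_lit 328)) (lo17_15_6 (nat_lit 487)))))))) (M (nat_lit 424) (B (M (nat_lit 329) (B (lo19_9_5 (nat_lit 297)) (lo18_14_6 (nat_lit 456)))) (B (M (nat_lit 456) (B (lo18_14_6 (nat_lit 329)) (lo18_14_7 (nat_lit 327)))) (B (M (nat_lit 327) (B (lo110_11_3 (nat_lit 326)) (lo18_14_7 (nat_lit 456)))) (M (nat_lit 328) (B (M (nat_lit 425) (B (lo19_14_7 (nat_lit 457)) (lo18_9_4 (nat_lit 296)))) (M (nat_lit 327) (B (lo110_11_3 (nat_lit 326)) (lo18_13_7 (nat_lit 295))))))))))))))))) (M (nat_lit 328) (B (M (nat_lit 327) (B (lo111_11_3 (nat_lit 363)) (M (nat_lit 326) (B (lo16_10_0 (nat_lit 329)) (lo110_11_3 (nat_lit 359)))))) (B (M (nat_lit 425) (B (lo19_14_7 (nat_lit 457)) (M (nat_lit 296) (B (lo19_13_7 (nat_lit 329)) (lo18_8_4 (nat_lit 264)))))) (M (nat_lit 327) (B (lo111_11_3 (nat_lit 363)) (M (nat_lit 326) (B (lo110_11_3 (nat_lit 359)) (lo15_10_0 (nat_lit 325)))))))))))) (B (M (nat_lit 360) (B (M (nat_lit 363) (B (lo18_11_0 (nat_lit 395)) (M (nat_lit 392) (B (lo111_11_1 (nat_lit 391)) (M (nat_lit 328) (B (lo111_11_3 (nat_lit 327)) (M (nat_lit 425) (B (lo19_14_7 (nat_lit 457)) (lo18_9_4 (nat_lit 296)))))))))) (B (M (nat_lit 359) (B (M (nat_lit 330) (B (lo17_11_2 (nat_lit 331)) (M (nat_lit 358) (B (lo16_11_2 (nat_lit 329)) (M (nat_lit 326) (B (lo110_11_3 (nat_lit 327)) (lo19_11_3 (nat_lit 325)))))))) (B (M (nat_lit 358) (B (M (nat_lit 326) (B (lo110_11_3 (nat_lit 327)) (lo19_11_3 (nat_lit 325)))) (M (nat_lit 390) (B (lo110_11_1 (nat_lit 391)) (lo19_11_1 (nat_lit 389)))))) (B (M (nat_lit 358) (B (M (nat_lit 330) (B (lo17_11_2 (nat_lit 331)) (lo16_11_2 (nat_lit 329)))) (M (nat_lit 390) (B (lo110_11_1 (nat_lit 391)) (lo19_11_1 (nat_lit 389)))))) (M (nat_lit 330) (B (lo17_11_2 (nat_lit 331)) (M (nat_lit 425) (B (lo19_14_6 (nat_lit 457)) (M (nat_lit 298) (B (lo110_8_5 (nat_lit 266)) (lo19_13_6 (nat_lit 329)))))))))))) (B (M (nat_lit 359) (B (M (nat_lit 331) (B (lo17_11_2 (nat_lit 330)) (M (nat_lit 363) (B (lo18_11_2 (nat_lit 332)) (lo18_11_0 (nat_lit 395)))))) (B (M (nat_lit 358) (B (M (nat_lit 330) (B (lo17_11_2 (nat_lit 331)) (lo16_11_2 (nat_lit 329)))) (M (nat_lit 390) (B (lo110_11_1 (nat_lit 391)) (lo19_11_1 (nat_lit 389)))))) (M (nat_lit 358) (B (M (nat_lit 326) (B (lo110_11_3 (nat_lit 327)) (lo19_11_3 (nat_lit 325)))) (M (nat_lit 390) (B (lo110_11_1 (nat_lit 391)) (lo19_11_1 (nat_lit 389))))))))) (B (M (nat_lit 359) (B (M (nat_lit 331) (B (lo17_11_2 (nat_lit 330)) (M (nat_lit 363) (B (lo18_11_2 (nat_lit 332)) (lo18_11_0 (nat_lit 395)))))) (B (M (nat_lit 363) (B (lo18_11_0 (nat_lit 395)) (M (nat_lit 391) (B (lo111_11_1 (nat_lit 392)) (lo110_11_1 (nat_lit 390)))))) (M (nat_lit 358) (B (M (nat_lit 330) (B (lo17_11_2 (nat_lit 331)) (lo16_11_2 (nat_lit 329)))) (M (nat_lit 390) (B (lo110_11_1 (nat_lit 391)) (lo19_11_1 (nat_lit 389))))))))) (M (nat_lit 359) (B (M (nat_lit 331) (B (lo17_11_2 (nat_lit 330)) (M (nat_lit 363) (B (lo18_11_2 (nat_lit 332)) (lo18_11_0 (nat_lit 395)))))) (B (M (nat_lit 363) (B (lo18_11_0 (nat_lit 395)) (M (nat_lit 327) (B (lo111_11_3 (nat_lit 328)) (lo110_11_3 (nat_lit 326)))))) (M (nat_lit 330) (B (lo17_11_2 (nat_lit 331)) (M (nat_lit 358) (B (lo16_11_2 (nat_lit 329)) (M (nat_lit 326) (B (lo110_11_3 (nat_lit 327)) (lo19_11_3 (nat_lit 325)))))))))))))))) (M (nat_lit 330) (B (M (nat_lit 298) (B (lo110_8_5 (nat_lit 266)) (M (nat_lit 394) (B (lo19_12_0 (nat_lit 395)) (lo110_9_5 (nat_lit 425)))))) (B (M (nat_lit 298) (B (lo110_8_5 (nat_lit 266)) (M (nat_lit 425) (B (lo110_9_5 (nat_lit 394)) (lo19_14_6 (nat_lit 457)))))) (B (M (nat_lit 394) (B (lo19_12_0 (nat_lit 395)) (M (nat_lit 425) (B (lo110_9_5 (nat_lit 298)) (lo19_14_6 (nat_lit 457)))))) (B (M (nat_lit 329) (B (M (nat_lit 425) (B (lo19_14_6 (nat_lit 457)) (M (nat_lit 328) (B (lo19_13_7 (nat_lit 296)) (M (nat_lit 327) (B (lo17_10_0 (nat_lit 363)) (lo16_10_0 (nat_lit 326)))))))) (B (M (nat_lit 425) (B (lo19_14_6 (nat_lit 457)) (M (nat_lit 297) (B (M (nat_lit 394) (B (lo19_12_0 (nat_lit 395)) (lo19_8_4 (nat_lit 265)))) (M (nat_lit 296) (B (lo19_12_7 (nat_lit 264)) (lo19_13_7 (nat_lit 328)))))))) (M (nat_lit 394) (B (lo19_12_0 (nat_lit 395)) (M (nat_lit 392) (B (M (nat_lit 391) (B (lo17_12_2 (nat_lit 363)) (lo16_12_2 (nat_lit 390)))) (M (nat_lit 297) (B (lo19_8_4 (nat_lit 265)) (lo19_9_5 (nat_lit 424))))))))))) (B (M (nat_lit 298) (B (lo110_8_5 (nat_lit 266)) (M (nat_lit 425) (B (lo19_13_6 (nat_lit 329)) (lo19_14_6 (nat_lit 457)))))) (M (nat_lit 298) (B (lo110_8_5 (nat_lit 266)) (M (nat_lit 395) (B (lo19_12_0 (nat_lit 394)) (M (nat_lit 363) (B (lo111_13_7 (nat_lit 331)) (lo111_14_7 (nat_lit 459)))))))))))))))))))))) (B (M (nat_lit 395) (B (lo19_12_0 (nat_lit 394)) (M (nat_lit 363) (B (M (nat_lit 460) (B (lo112_15_7 (nat_lit 492)) (lo111_10_4 (nat_lit 331)))) (B (M (nat_lit 362) (B (lo18_11_0 (nat_lit 360)) (M (nat_lit 330) (B (lo111_14_7 (nat_lit 459)) (M (nat_lit 298) (B (lo111_13_7 (nat_lit 331)) (lo110_8_4 (nat_lit 266)))))))) (K _ _ _ o1_s18140)))))) (B (M (nat_lit 425) (B (M (nat_lit 457) (B (M (nat_lit 394) (B (lo19_12_0 (nat_lit 395)) (M (nat_lit 362) (B (lo19_14_6 (nat_lit 330)) (lo19_15_6 (nat_lit 489)))))) (B (M (nat_lit 329) (B (M (nat_lit 330) (B (lo19_13_6 (nat_lit 298)) (lo19_14_6 (nat_lit 362)))) (M (nat_lit 328) (B (lo19_13_7 (nat_lit 296)) (lo19_14_7 (nat_lit 360)))))) (M (nat_lit 329) (B (M (nat_lit 328) (B (lo19_13_7 (nat_lit 296)) (lo19_14_7 (nat_lit 360)))) (M (nat_lit 456) (B (lo19_10_5 (nat_lit 424)) (lo19_11_5 (nat_lit 488))))))))) (B (M (nat_lit 457) (B (M (nat_lit 489) (B (M (nat_lit 362) (B (lo19_14_6 (nat_lit 330)) (lo19_15_6 (nat_lit 394)))) (M (nat_lit 360) (B (lo19_14_7 (nat_lit 328)) (lo19_15_7 (nat_lit 392)))))) (B (M (nat_lit 489) (B (M (nat_lit 360) (B (lo19_14_7 (nat_lit 328)) (lo19_15_7 (nat_lit 392)))) (M (nat_lit 488) (B (lo19_11_5 (nat_lit 456)) (lo19_12_5 (nat_lit 520)))))) (B (M (nat_lit 329) (B (M (nat_lit 328) (B (lo19_13_7 (nat_lit 296)) (lo19_14_7 (nat_lit 360)))) (M (nat_lit 456) (B (lo19_10_5 (nat_lit 424)) (lo19_11_5 (nat_lit 488)))))) (M (nat_lit 489) (B (M (nat_lit 362) (B (lo19_14_6 (nat_lit 330)) (lo19_15_6 (nat_lit 394)))) (M (nat_lit 488) (B (lo19_11_5 (nat_lit 456)) (lo19_12_5 (nat_lit 520)))))))))) (B (M (nat_lit 394) (B (lo19_12_0 (nat_lit 395)) (M (nat_lit 457) (B (M (nat_lit 489) (B (lo19_15_6 (nat_lit 362)) (M (nat_lit 360) (B (lo19_14_7 (nat_lit 328)) (lo19_15_7 (nat_lit 392)))))) (B (M (nat_lit 489) (B (M (nat_lit 360) (B (lo19_14_7 (nat_lit 328)) (lo19_15_7 (nat_lit 392)))) (M (nat_lit 488) (B (lo19_11_5 (nat_lit 456)) (lo19_12_5 (nat_lit 520)))))) (B (M (nat_lit 329) (B (M (nat_lit 328) (B (lo19_13_7 (nat_lit 296)) (lo19_14_7 (nat_lit 360)))) (M (nat_lit 456) (B (lo19_10_5 (nat_lit 424)) (lo19_11_5 (nat_lit 488)))))) (M (nat_lit 489) (B (lo19_15_6 (nat_lit 362)) (M (nat_lit 488) (B (lo19_11_5 (nat_lit 456)) (lo19_12_5 (nat_lit 520)))))))))))) (B (M (nat_lit 329) (B (M (nat_lit 297) (B (M (nat_lit 296) (B (lo19_12_7 (nat_lit 264)) (lo19_13_7 (nat_lit 328)))) (M (nat_lit 424) (B (lo19_9_5 (nat_lit 392)) (lo19_10_5 (nat_lit 456)))))) (B (M (nat_lit 457) (B (M (nat_lit 328) (B (lo19_13_7 (nat_lit 296)) (lo19_14_7 (nat_lit 360)))) (M (nat_lit 456) (B (lo19_10_5 (nat_lit 424)) (lo19_11_5 (nat_lit 488)))))) (B (M (nat_lit 297) (B (M (nat_lit 298) (B (lo19_12_6 (nat_lit 266)) (lo19_13_6 (nat_lit 330)))) (M (nat_lit 424) (B (lo19_9_5 (nat_lit 392)) (lo19_10_5 (nat_lit 456)))))) (M (nat_lit 296) (B (lo19_13_7 (nat_lit 328)) (M (nat_lit 297) (B (lo19_12_7 (nat_lit 264)) (M (nat_lit 298) (B (lo19_12_6 (nat_lit 266)) (lo19_13_6 (nat_lit 330)))))))))))) (B (M (nat_lit 457) (B (M (nat_lit 394) (B (lo19_12_0 (nat_lit 395)) (M (nat_lit 362) (B (lo19_14_6 (nat_lit 330)) (lo19_15_6 (nat_lit 489)))))) (B (M (nat_lit 489) (B (M (nat_lit 362) (B (lo19_14_6 (nat_lit 330)) (lo19_15_6 (nat_lit 394)))) (M (nat_lit 488) (B (lo19_11_5 (nat_lit 456)) (lo19_12_5 (nat_lit 520)))))) (B (M (nat_lit 489) (B (M (nat_lit 394) (B (lo19_12_0 (nat_lit 395)) (lo19_15_6 (nat_lit 362)))) (M (nat_lit 488) (B (lo19_11_5 (nat_lit 456)) (lo19_12_5 (nat_lit 520)))))) (B (M (nat_lit 489) (B (M (nat_lit 360) (B (lo19_14_7 (nat_lit 328)) (lo19_15_7 (nat_lit 392)))) (M (nat_lit 488) (B (lo19_11_5 (nat_lit 456)) (lo19_12_5 (nat_lit 520)))))) (M (nat_lit 395) (B (lo19_12_0 (nat_lit 394)) (M (nat_lit 360) (B (lo19_14_7 (nat_lit 328)) (M (nat_lit 362) (B (lo18_11_0 (nat_lit 363)) (lo19_14_6 (nat_lit 330))))))))))))) (B (M (nat_lit 329) (B (M (nat_lit 297) (B (M (nat_lit 298) (B (lo19_12_6 (nat_lit 266)) (lo19_13_6 (nat_lit 330)))) (M (nat_lit 424) (B (lo19_9_5 (nat_lit 392)) (lo19_10_5 (nat_lit 456)))))) (B (M (nat_lit 297) (B (M (nat_lit 296) (B (lo19_12_7 (nat_lit 264)) (lo19_13_7 (nat_lit 328)))) (M (nat_lit 424) (B (lo19_9_5 (nat_lit 392)) (lo19_10_5 (nat_lit 456)))))) (B (M (nat_lit 328) (B (lo19_13_7 (nat_lit 296)) (M (nat_lit 327) (B (M (nat_lit 330) (B (lo19_13_6 (nat_lit 298)) (M (nat_lit 362) (B (lo17_10_0 (nat_lit 363)) (lo16_10_0 (nat_lit 326)))))) (B (M (nat_lit 330) (B (lo19_13_6 (nat_lit 298)) (M (nat_lit 326) (B (lo16_10_0 (nat_lit 362)) (M (nat_lit 294) (B (lo110_10_3 (nat_lit 295)) (lo19_10_3 (nat_lit 293)))))))) (B (M (nat_lit 362) (B (lo16_10_0 (nat_lit 326)) (M (nat_lit 363) (B (lo17_10_0 (nat_lit 330)) (lo111_11_3 (nat_lit 360)))))) (B (M (nat_lit 326) (B (lo16_10_0 (nat_lit 362)) (M (nat_lit 325) (B (lo15_10_0 (nat_lit 360)) (M (nat_lit 293) (B (lo19_10_3 (nat_lit 294)) (lo18_10_3 (nat_lit 292)))))))) (B (M (nat_lit 326) (B (M (nat_lit 330) (B (lo19_13_6 (nat_lit 298)) (M (nat_lit 358) (B (lo110_10_1 (nat_lit 359)) (lo19_10_1 (nat_lit 357)))))) (M (nat_lit 325) (B (lo15_10_0 (nat_lit 360)) (M (nat_lit 293) (B (lo19_10_3 (nat_lit 294)) (lo18_10_3 (nat_lit 292)))))))) (M (nat_lit 359) (B (M (nat_lit 330) (B (lo19_13_6 (nat_lit 298)) (lo110_10_1 (nat_lit 358)))) (B (M (nat_lit 394) (B (lo19_12_0 (nat_lit 395)) (M (nat_lit 358) (B (lo110_10_1 (nat_lit 330)) (lo16_11_0 (nat_lit 360)))))) (B (M (nat_lit 392) (B (M (nat_lit 394) (B (lo19_12_0 (nat_lit 395)) (M (nat_lit 358) (B (lo16_11_0 (nat_lit 360)) (lo110_12_3 (nat_lit 391)))))) (B (M (nat_lit 424) (B (lo19_10_5 (nat_lit 456)) (M (nat_lit 295) (B (lo18_13_7 (nat_lit 360)) (lo17_9_4 (nat_lit 391)))))) (B (M (nat_lit 391) (B (M (nat_lit 394) (B (lo19_12_0 (nat_lit 395)) (lo110_12_3 (nat_lit 358)))) (M (nat_lit 424) (B (lo19_10_5 (nat_lit 456)) (lo17_9_4 (nat_lit 295)))))) (M (nat_lit 360) (B (M (nat_lit 394) (B (lo19_12_0 (nat_lit 395)) (lo16_11_0 (nat_lit 358)))) (M (nat_lit 424) (B (lo19_10_5 (nat_lit 456)) (lo18_13_7 (nat_lit 295)))))))))) (M (nat_lit 424) (B (lo19_10_5 (nat_lit 456)) (M (nat_lit 295) (B (M (nat_lit 330) (B (lo19_13_6 (nat_lit 298)) (lo110_10_3 (nat_lit 294)))) (M (nat_lit 392) (B (lo18_13_7 (nat_lit 360)) (lo17_9_4 (nat_lit 391)))))))))))))))))))) (M (nat_lit 296) (B (lo19_13_7 (nat_lit 328)) (M (nat_lit 297) (B (lo19_12_7 (nat_lit 264)) (M (nat_lit 298) (B (lo19_12_6 (nat_lit 266)) (lo19_13_6 (nat_lit 330)))))))))))) (B (M (nat_lit 394) (B (lo19_12_0 (nat_lit 395)) (M (nat_lit 457) (B (M (nat_lit 362) (B (lo19_14_6 (nat_lit 330)) (lo19_15_6 (nat_lit 489)))) (B (M (nat_lit 489) (B (lo19_15_6 (nat_lit 362)) (M (nat_lit 488) (B (lo19_11_5 (nat_lit 456)) (lo19_12_5 (nat_lit 520)))))) (B (M (nat_lit 489) (B (M (nat_lit 488) (B (lo19_11_5 (nat_lit 456)) (lo19_12_5 (nat_lit 520)))) (M (nat_lit 521) (B (M (nat_lit 522) (B (lo19_12_4 (nat_lit 490)) (lo19_13_4 (nat_lit 554)))) (M (nat_lit 392) (B (lo19_15_7 (nat_lit 360)) (lo19_16_7 (nat_lit 424)))))))) (M (nat_lit 329) (B (M (nat_lit 330) (B (lo19_13_6 (nat_lit 298)) (lo19_14_6 (nat_lit 362)))) (M (nat_lit 456) (B (lo19_10_5 (nat_lit 424)) (lo19_11_5 (nat_lit 488)))))))))))) (B (K _ _ _ o1_s18064) (M (nat_lit 362) (B (M (nat_lit 394) (B (lo19_12_0 (nat_lit 395)) (M (nat_lit 457) (B (lo19_14_6 (nat_lit 330)) (lo19_15_6 (nat_lit 489)))))) (B (M (nat_lit 330) (B (lo19_14_6 (nat_lit 457)) (M (nat_lit 298) (B (lo110_8_5 (nat_lit 266)) (lo19_13_6 (nat_lit 329)))))) (B (M (nat_lit 360) (B (M (nat_lit 395) (B (lo19_12_0 (nat_lit 394)) (lo18_11_0 (nat_lit 363)))) (M (nat_lit 328) (B (lo19_14_7 (nat_lit 457)) (M (nat_lit 296) (B (lo19_13_7 (nat_lit 329)) (lo18_8_4 (nat_lit 264)))))))) (M (nat_lit 395) (B (lo19_12_0 (nat_lit 394)) (M (nat_lit 330) (B (M (nat_lit 363) (B (lo18_11_0 (nat_lit 360)) (lo111_14_7 (nat_lit 459)))) (M (nat_lit 298) (B (lo110_8_5 (nat_lit 266)) (lo19_13_6 (nat_lit 329))))))))))))))))))))) (B (M (nat_lit 329) (B (M (nat_lit 297) (B (M (nat_lit 296) (B (lo19_12_7 (nat_lit 264)) (M (nat_lit 298) (B (lo19_12_6 (nat_lit 266)) (M (nat_lit 425) (B (lo19_13_6 (nat_lit 330)) (lo19_13_7 (nat_lit 328)))))))) (M (nat_lit 265) (B (M (nat_lit 394) (B (lo19_12_0 (nat_lit 395)) (lo19_8_4 (nat_lit 362)))) (M (nat_lit 392) (B (lo19_8_5 (nat_lit 360)) (lo19_9_5 (nat_lit 424)))))))) (B (K _ _ _ o1_s18639) (B (M (nat_lit 297) (B (M (nat_lit 265) (B (M (nat_lit 394) (B (lo19_12_0 (nat_lit 395)) (lo19_8_4 (nat_lit 362)))) (M (nat_lit 264) (B (lo19_11_7 (nat_lit 232)) (lo19_12_7 (nat_lit 296)))))) (B (M (nat_lit 265) (B (M (nat_lit 264) (B (lo19_11_7 (nat_lit 232)) (lo19_12_7 (nat_lit 296)))) (M (nat_lit 392) (B (lo19_8_5 (nat_lit 360)) (lo19_9_5 (nat_lit 424)))))) (B (M (nat_lit 425) (B (M (nat_lit 296) (B (lo19_12_7 (nat_lit 264)) (lo19_13_7 (nat_lit 328)))) (M (nat_lit 424) (B (lo19_9_5 (nat_lit 392)) (lo19_10_5 (nat_lit 456)))))) (M (nat_lit 265) (B (M (nat_lit 394) (B (lo19_12_0 (nat_lit 395)) (lo19_8_4 (nat_lit 362)))) (M (nat_lit 392) (B (lo19_8_5 (nat_lit 360)) (lo19_9_5 (nat_lit 424)))))))))) (B (M (nat_lit 425) (B (M (nat_lit 297) (B (M (nat_lit 296) (B (lo19_12_7 (nat_lit 264)) (lo19_13_7 (nat_lit 328)))) (M (nat_lit 424) (B (lo19_9_5 (nat_lit 392)) (lo19_10_5 (nat_lit 456)))))) (B (M (nat_lit 328) (B (lo19_13_7 (nat_lit 296)) (M (nat_lit 457) (B (lo19_14_7 (nat_lit 360)) (M (nat_lit 330) (B (lo19_13_6 (nat_lit 298)) (lo19_14_6 (nat_lit 362)))))))) (M (nat_lit 297) (B (M (nat_lit 298) (B (lo19_12_6 (nat_lit 266)) (lo19_13_6 (nat_lit 330)))) (M (nat_lit 424) (B (lo19_9_5 (nat_lit 392)) (lo19_10_5 (nat_lit 456))))))))) (B (M (nat_lit 328) (B (M (nat_lit 296) (B (lo19_13_7 (nat_lit 425)) (M (nat_lit 264) (B (lo18_7_4 (nat_lit 232)) (lo18_8_4 (nat_lit 360)))))) (B (M (nat_lit 327) (B (M (nat_lit 326) (B (lo16_10_0 (nat_lit 362)) (M (nat_lit 325) (B (lo15_10_0 (nat_lit 360)) (M (nat_lit 293) (B (lo19_10_3 (nat_lit 294)) (lo18_10_3 (nat_lit 292)))))))) (B (K _ _ _ o1_s18668) (B (M (nat_lit 326) (B (lo16_10_0 (nat_lit 362)) (M (nat_lit 330) (B (M (nat_lit 294) (B (lo110_10_3 (nat_lit 295)) (lo19_10_3 (nat_lit 293)))) (M (nat_lit 358) (B (lo110_10_1 (nat_lit 359)) (lo19_10_1 (nat_lit 357)))))))) (B (M (nat_lit 326) (B (lo16_10_0 (nat_lit 362)) (M (nat_lit 325) (B (lo15_10_0 (nat_lit 360)) (M (nat_lit 357) (B (lo19_10_1 (nat_lit 358)) (lo18_10_1 (nat_lit 356)))))))) (K _ _ _ o1_s18683)))))) (B (M (nat_lit 330) (B (M (nat_lit 298) (B (lo19_13_6 (nat_lit 425)) (M (nat_lit 266) (B (lo110_7_5 (nat_lit 234)) (lo110_8_5 (nat_lit 362)))))) (B (M (nat_lit 425) (B (lo19_13_6 (nat_lit 298)) (M (nat_lit 457) (B (lo19_14_6 (nat_lit 362)) (lo19_14_7 (nat_lit 360)))))) (B (M (nat_lit 360) (B (M (nat_lit 359) (B (lo111_10_1 (nat_lit 331)) (lo16_11_2 (nat_lit 358)))) (M (nat_lit 327) (B (M (nat_lit 326) (B (lo16_10_0 (nat_lit 362)) (lo15_10_0 (nat_lit 325)))) (K _ _ _ o1_s18708))))) (B (M (nat_lit 360) (B (M (nat_lit 359) (B (lo111_10_1 (nat_lit 331)) (lo16_11_2 (nat_lit 358)))) (M (nat_lit 425) (B (lo19_13_6 (nat_lit 298)) (lo19_14_7 (nat_lit 457)))))) (M (nat_lit 360) (B (M (nat_lit 359) (B (lo111_10_1 (nat_lit 331)) (lo16_11_2 (nat_lit 358)))) (M (nat_lit 327) (B (M (nat_lit 326) (B (lo16_10_0 (nat_lit 362)) (lo15_10_0 (nat_lit 325)))) (B (M (nat_lit 294) (B (lo110_10_3 (nat_lit 295)) (M (nat_lit 326) (B (lo19_10_3 (nat_lit 293)) (lo15_10_0 (nat_lit 325)))))) (M (nat_lit 298) (B (lo17_10_2 (nat_lit 299)) (M (nat_lit 266) (B (lo110_7_5 (nat_lit 234)) (lo110_8_5 (nat_lit 362)))))))))))))))) (M (nat_lit 330) (B (M (nat_lit 425) (B (lo19_13_6 (nat_lit 298)) (lo19_13_7 (nat_lit 296)))) (B (M (nat_lit 296) (B (lo19_13_7 (nat_lit 425)) (M (nat_lit 295) (B (lo111_10_3 (nat_lit 331)) (M (nat_lit 294) (B (lo110_10_3 (nat_lit 327)) (lo15_9_0 (nat_lit 293)))))))) (M (nat_lit 327) (B (M (nat_lit 326) (B (lo16_10_0 (nat_lit 362)) (M (nat_lit 294) (B (lo110_10_3 (nat_lit 295)) (lo19_10_3 (nat_lit 293)))))) (B (M (nat_lit 326) (B (M (nat_lit 294) (B (lo110_10_3 (nat_lit 295)) (lo19_10_3 (nat_lit 293)))) (M (nat_lit 358) (B (lo110_10_1 (nat_lit 359)) (lo19_10_1 (nat_lit 357)))))) (B (M (nat_lit 326) (B (lo16_10_0 (nat_lit 362)) (M (nat_lit 358) (B (lo110_10_1 (nat_lit 359)) (lo19_10_1 (nat_lit 357)))))) (M (nat_lit 298) (B (lo17_10_2 (nat_lit 299)) (M (nat_lit 266) (B (lo110_7_5 (nat_lit 234)) (lo110_8_5 (nat_lit 362))))))))))))))))) (B (M (nat_lit 297) (B (M (nat_lit 394) (B (lo19_12_0 (nat_lit 395)) (M (nat_lit 265) (B (lo19_8_4 (nat_lit 362)) (M (nat_lit 266) (B (lo19_11_6 (nat_lit 234)) (lo19_12_6 (nat_lit 298)))))))) (B (M (nat_lit 265) (B (M (nat_lit 266) (B (lo19_11_6 (nat_lit 234)) (lo19_12_6 (nat_lit 298)))) (M (nat_lit 264) (B (lo19_11_7 (nat_lit 232)) (lo19_12_7 (nat_lit 296)))))) (B (M (nat_lit 265) (B (M (nat_lit 394) (B (lo19_12_0 (nat_lit 395)) (lo19_8_4 (nat_lit 362)))) (M (nat_lit 392) (B (lo19_8_5 (nat_lit 360)) (lo19_9_5 (nat_lit 424)))))) (K _ _ _ o1_s18771))))) (B (M (nat_lit 297) (B (M (nat_lit 394) (B (lo19_12_0 (nat_lit 395)) (M (nat_lit 265) (B (lo19_8_4 (nat_lit 362)) (M (nat_lit 266) (B (lo19_11_6 (nat_lit 234)) (lo19_12_6 (nat_lit 298)))))))) (B (M (nat_lit 265) (B (M (nat_lit 266) (B (lo19_11_6 (nat_lit 234)) (lo19_12_6 (nat_lit 298)))) (M (nat_lit 392) (B (lo19_8_5 (nat_lit 360)) (lo19_9_5 (nat_lit 424)))))) (B (M (nat_lit 265) (B (M (nat_lit 394) (B (lo19_12_0 (nat_lit 395)) (lo19_8_4 (nat_lit 362)))) (M (nat_lit 392) (B (lo19_8_5 (nat_lit 360)) (lo19_9_5 (nat_lit 424)))))) (M (nat_lit 425) (B (M (nat_lit 298) (B (lo19_12_6 (nat_lit 266)) (lo19_13_6 (nat_lit 330)))) (M (nat_lit 424) (B (lo19_9_5 (nat_lit 392)) (lo19_10_5 (nat_lit 456)))))))))) (M (nat_lit 297) (B (M (nat_lit 265) (B (M (nat_lit 394) (B (lo19_12_0 (nat_lit 395)) (lo19_8_4 (nat_lit 362)))) (M (nat_lit 264) (B (lo19_11_7 (nat_lit 232)) (lo19_12_7 (nat_lit 296)))))) (B (M (nat_lit 265) (B (M (nat_lit 266) (B (lo19_11_6 (nat_lit 234)) (lo19_12_6 (nat_lit 298)))) (M (nat_lit 264) (B (lo19_11_7 (nat_lit 232)) (lo19_12_7 (nat_lit 296)))))) (B (M (nat_lit 296) (B (lo19_12_7 (nat_lit 264)) (M (nat_lit 298) (B (lo19_12_6 (nat_lit 266)) (M (nat_lit 425) (B (lo19_13_6 (nat_lit 330)) (lo19_13_7 (nat_lit 328)))))))) (M (nat_lit 394) (B (lo19_12_0 (nat_lit 395)) (M (nat_lit 265) (B (lo19_8_4 (nat_lit 362)) (M (nat_lit 266) (B (lo19_11_6 (nat_lit 234)) (lo19_12_6 (nat_lit 298)))))))))))))))))))) (B (M (nat_lit 329) (B (M (nat_lit 297) (B (M (nat_lit 265) (B (M (nat_lit 266) (B (lo19_11_6 (nat_lit 234)) (lo19_12_6 (nat_lit 298)))) (M (nat_lit 264) (B (lo19_11_7 (nat_lit 232)) (lo19_12_7 (nat_lit 296)))))) (B (M (nat_lit 265) (B (M (nat_lit 264) (B (lo19_11_7 (nat_lit 232)) (lo19_12_7 (nat_lit 296)))) (M (nat_lit 392) (B (lo19_8_5 (nat_lit 360)) (lo19_9_5 (nat_lit 424)))))) (B (M (nat_lit 296) (B (lo19_12_7 (nat_lit 264)) (M (nat_lit 298) (B (lo19_12_6 (nat_lit 266)) (M (nat_lit 425) (B (lo19_13_6 (nat_lit 330)) (lo19_13_7 (nat_lit 328)))))))) (M (nat_lit 265) (B (M (nat_lit 266) (B (lo19_11_6 (nat_lit 234)) (lo19_12_6 (nat_lit 298)))) (M (nat_lit 392) (B (lo19_8_5 (nat_lit 360)) (lo19_9_5 (nat_lit 424)))))))))) (B (K _ _ _ o1_s18778) (B (K _ _ _ o1_s18779) (B (M (nat_lit 297) (B (M (nat_lit 265) (B (M (nat_lit 264) (B (lo19_11_7 (nat_lit 232)) (lo19_12_7 (nat_lit 296)))) (M (nat_lit 392) (B (lo19_8_5 (nat_lit 360)) (lo19_9_5 (nat_lit 424)))))) (B (M (nat_lit 425) (B (M (nat_lit 296) (B (lo19_12_7 (nat_lit 264)) (lo19_13_7 (nat_lit 328)))) (M (nat_lit 424) (B (lo19_9_5 (nat_lit 392)) (lo19_10_5 (nat_lit 456)))))) (B (M (nat_lit 265) (B (M (nat_lit 392) (B (lo19_8_5 (nat_lit 360)) (lo19_9_5 (nat_lit 424)))) (M (nat_lit 233) (B (M (nat_lit 234) (B (lo19_10_6 (nat_lit 202)) (lo19_11_6 (nat_lit 266)))) (M (nat_lit 362) (B (lo19_7_4 (nat_lit 330)) (lo19_8_4 (nat_lit 394)))))))) (M (nat_lit 265) (B (M (nat_lit 264) (B (lo19_11_7 (nat_lit 232)) (lo19_12_7 (nat_lit 296)))) (M (nat_lit 233) (B (M (nat_lit 234) (B (lo19_10_6 (nat_lit 202)) (lo19_11_6 (nat_lit 266)))) (M (nat_lit 362) (B (lo19_7_4 (nat_lit 330)) (lo19_8_4 (nat_lit 394)))))))))))) (B (K _ _ _ o1_s18790) (B (M (nat_lit 328) (B (M (nat_lit 296) (B (lo19_13_7 (nat_lit 425)) (M (nat_lit 264) (B (lo18_7_4 (nat_lit 232)) (lo18_8_4 (nat_lit 360)))))) (B (M (nat_lit 327) (B (M (nat_lit 362) (B (lo16_10_0 (nat_lit 326)) (M (nat_lit 363) (B (lo17_10_0 (nat_lit 330)) (lo111_11_3 (nat_lit 360)))))) (B (M (nat_lit 326) (B (lo16_10_0 (nat_lit 362)) (M (nat_lit 325) (B (lo15_10_0 (nat_lit 360)) (M (nat_lit 293) (B (lo19_10_3 (nat_lit 294)) (lo18_10_3 (nat_lit 292)))))))) (B (K _ _ _ o1_s18668) (B (M (nat_lit 362) (B (lo16_10_0 (nat_lit 326)) (M (nat_lit 330) (B (lo17_10_0 (nat_lit 363)) (M (nat_lit 298) (B (lo17_10_2 (nat_lit 299)) (lo110_8_5 (nat_lit 266)))))))) (K _ _ _ o1_s18683)))))) (B (M (nat_lit 327) (B (M (nat_lit 362) (B (lo16_10_0 (nat_lit 326)) (M (nat_lit 363) (B (lo17_10_0 (nat_lit 330)) (lo111_11_3 (nat_lit 360)))))) (B (M (nat_lit 326) (B (lo16_10_0 (nat_lit 362)) (M (nat_lit 325) (B (lo15_10_0 (nat_lit 360)) (M (nat_lit 357) (B (lo19_10_1 (nat_lit 358)) (lo18_10_1 (nat_lit 356)))))))) (B (M (nat_lit 326) (B (M (nat_lit 325) (B (lo15_10_0 (nat_lit 360)) (M (nat_lit 357) (B (lo19_10_1 (nat_lit 358)) (lo18_10_1 (nat_lit 356)))))) (B (M (nat_lit 330) (B (M (nat_lit 298) (B (lo17_10_2 (nat_lit 299)) (lo19_13_6 (nat_lit 425)))) (M (nat_lit 358) (B (lo110_10_1 (nat_lit 359)) (lo19_10_1 (nat_lit 357)))))) (M (nat_lit 330) (B (M (nat_lit 298) (B (lo17_10_2 (nat_lit 299)) (lo19_13_6 (nat_lit 425)))) (M (nat_lit 294) (B (lo110_10_3 (nat_lit 295)) (lo19_10_3 (nat_lit 293))))))))) (B (M (nat_lit 330) (B (M (nat_lit 362) (B (lo17_10_0 (nat_lit 363)) (lo16_10_0 (nat_lit 326)))) (M (nat_lit 298) (B (lo17_10_2 (nat_lit 299)) (lo19_13_6 (nat_lit 425)))))) (M (nat_lit 330) (B (M (nat_lit 298) (B (lo17_10_2 (nat_lit 299)) (lo19_13_6 (nat_lit 425)))) (B (M (nat_lit 362) (B (lo17_10_0 (nat_lit 363)) (M (nat_lit 425) (B (lo19_13_6 (nat_lit 298)) (lo19_14_6 (nat_lit 457)))))) (B (M (nat_lit 360) (B (M (nat_lit 359) (B (lo111_10_1 (nat_lit 331)) (lo16_11_2 (nat_lit 358)))) (K _ _ _ o1_s18708))) (M (nat_lit 362) (B (lo17_10_0 (nat_lit 363)) (M (nat_lit 298) (B (lo17_10_2 (nat_lit 299)) (lo110_8_5 (nat_lit 266))))))))))))))) (K _ _ _ o1_s18827))))) (B (M (nat_lit 297) (B (M (nat_lit 265) (B (M (nat_lit 264) (B (lo19_11_7 (nat_lit 232)) (lo19_12_7 (nat_lit 296)))) (M (nat_lit 392) (B (lo19_8_5 (nat_lit 360)) (lo19_9_5 (nat_lit 424)))))) (B (K _ _ _ o1_s18771) (M (nat_lit 265) (B (M (nat_lit 266) (B (lo19_11_6 (nat_lit 234)) (lo19_12_6 (nat_lit 298)))) (M (nat_lit 392) (B (lo19_8_5 (nat_lit 360)) (lo19_9_5 (nat_lit 424))))))))) (B (K _ _ _ o1_s18830) (B (M (nat_lit 297) (B (M (nat_lit 265) (B (M (nat_lit 266) (B (lo19_11_6 (nat_lit 234)) (lo19_12_6 (nat_lit 298)))) (M (nat_lit 392) (B (lo19_8_5 (nat_lit 360)) (lo19_9_5 (nat_lit 424)))))) (B (M (nat_lit 425) (B (M (nat_lit 298) (B (lo19_12_6 (nat_lit 266)) (lo19_13_6 (nat_lit 330)))) (M (nat_lit 424) (B (lo19_9_5 (nat_lit 392)) (lo19_10_5 (nat_lit 456)))))) (B (M (nat_lit 265) (B (M (nat_lit 392) (B (lo19_8_5 (nat_lit 360)) (lo19_9_5 (nat_lit 424)))) (M (nat_lit 233) (B (M (nat_lit 362) (B (lo19_7_4 (nat_lit 330)) (lo19_8_4 (nat_lit 394)))) (M (nat_lit 232) (B (lo19_10_7 (nat_lit 200)) (lo19_11_7 (nat_lit 264)))))))) (M (nat_lit 265) (B (M (nat_lit 266) (B (lo19_11_6 (nat_lit 234)) (lo19_12_6 (nat_lit 298)))) (M (nat_lit 233) (B (M (nat_lit 362) (B (lo19_7_4 (nat_lit 330)) (lo19_8_4 (nat_lit 394)))) (M (nat_lit 232) (B (lo19_10_7 (nat_lit 200)) (lo19_11_7 (nat_lit 264)))))))))))) (B (K _ _ _ o1_s18639) (B (K _ _ _ o1_s18838) (M (nat_lit 297) (B (M (nat_lit 265) (B (M (nat_lit 266) (B (lo19_11_6 (nat_lit 234)) (lo19_12_6 (nat_lit 298)))) (M (nat_lit 264) (B (lo19_11_7 (nat_lit 232)) (lo19_12_7 (nat_lit 296)))))) (B (M (nat_lit 296) (B (lo19_12_7 (nat_lit 264)) (M (nat_lit 298) (B (lo19_12_6 (nat_lit 266)) (M (nat_lit 425) (B (lo19_13_6 (nat_lit 330)) (lo19_13_7 (nat_lit 328)))))))) (B (M (nat_lit 265) (B (M (nat_lit 264) (B (lo19_11_7 (nat_lit 232)) (lo19_12_7 (nat_lit 296)))) (M (nat_lit 233) (B (M (nat_lit 362) (B (lo19_7_4 (nat_lit 330)) (lo19_8_4 (nat_lit 394)))) (M (nat_lit 360) (B (lo19_7_5 (nat_lit 328)) (lo19_8_5 (nat_lit 392)))))))) (M (nat_lit 265) (B (M (nat_lit 266) (B (lo19_11_6 (nat_lit 234)) (lo19_12_6 (nat_lit 298)))) (M (nat_lit 233) (B (M (nat_lit 362) (B (lo19_7_4 (nat_lit 330)) (lo19_8_4 (nat_lit 394)))) (M (nat_lit 360) (B (lo19_7_5 (nat_lit 328)) (lo19_8_5 (nat_lit 392)))))))))))))))))))))))) (B (M (nat_lit 395) (B (lo19_12_0 (nat_lit 394)) (M (nat_lit 363) (B (M (nat_lit 460) (B (lo112_15_7 (nat_lit 492)) (lo111_10_4 (nat_lit 331)))) (B (M (nat_lit 331) (B (lo111_9_4 (nat_lit 299)) (M (nat_lit 362) (B (lo18_11_0 (nat_lit 360)) (M (nat_lit 332) (B (lo111_13_6 (nat_lit 300)) (M (nat_lit 330) (B (lo113_10_1 (nat_lit 333)) (lo111_14_7 (nat_lit 459)))))))))) (K _ _ _ o1_s18140)))))) (B (M (nat_lit 360) (B (M (nat_lit 395) (B (lo19_12_0 (nat_lit 394)) (M (nat_lit 363) (B (lo18_11_0 (nat_lit 362)) (M (nat_lit 460) (B (lo112_15_7 (nat_lit 492)) (lo111_10_4 (nat_lit 331)))))))) (B (M (nat_lit 394) (B (lo19_12_0 (nat_lit 395)) (M (nat_lit 391) (B (M (nat_lit 359) (B (lo16_11_0 (nat_lit 358)) (M (nat_lit 390) (B (lo110_11_1 (nat_lit 362)) (M (nat_lit 389) (B (lo15_12_2 (nat_lit 392)) (lo14_12_2 (nat_lit 388)))))))) (B (M (nat_lit 392) (B (M (nat_lit 358) (B (lo16_11_0 (nat_lit 359)) (M (nat_lit 390) (B (lo15_12_2 (nat_lit 389)) (lo19_12_3 (nat_lit 357)))))) (M (nat_lit 424) (B (M (nat_lit 329) (B (lo19_9_5 (nat_lit 297)) (lo18_14_6 (nat_lit 456)))) (M (nat_lit 423) (B (lo110_12_1 (nat_lit 422)) (M (nat_lit 328) (B (lo18_9_5 (nat_lit 296)) (lo18_10_5 (nat_lit 455)))))))))) (B (M (nat_lit 359) (B (lo16_11_0 (nat_lit 358)) (M (nat_lit 328) (B (M (nat_lit 362) (B (lo110_11_1 (nat_lit 390)) (M (nat_lit 327) (B (lo111_11_3 (nat_lit 363)) (lo110_11_3 (nat_lit 326)))))) (M (nat_lit 296) (B (lo18_8_4 (nat_lit 264)) (M (nat_lit 425) (B (lo19_13_7 (nat_lit 329)) (lo19_14_7 (nat_lit 457)))))))))) (B (M (nat_lit 392) (B (M (nat_lit 390) (B (lo16_12_2 (nat_lit 362)) (lo15_12_2 (nat_lit 389)))) (K _ _ _ o1_s18914))) (M (nat_lit 392) (B (M (nat_lit 359) (B (lo16_11_0 (nat_lit 358)) (M (nat_lit 423) (B (lo110_12_1 (nat_lit 422)) (M (nat_lit 328) (B (lo18_9_5 (nat_lit 296)) (lo17_14_6 (nat_lit 455)))))))) (B (M (nat_lit 359) (B (lo16_11_0 (nat_lit 358)) (M (nat_lit 327) (B (M (nat_lit 362) (B (lo17_12_2 (nat_lit 363)) (lo110_11_3 (nat_lit 326)))) (M (nat_lit 295) (B (lo17_8_4 (nat_lit 263)) (lo17_9_4 (nat_lit 424)))))))) (K _ _ _ o1_s18914))))))))))) (B (M (nat_lit 359) (B (M (nat_lit 394) (B (lo19_12_0 (nat_lit 395)) (lo16_11_0 (nat_lit 358)))) (B (M (nat_lit 358) (B (lo16_11_0 (nat_lit 394)) (M (nat_lit 357) (B (lo15_11_0 (nat_lit 392)) (M (nat_lit 325) (B (lo19_11_3 (nat_lit 326)) (lo18_11_3 (nat_lit 324)))))))) (B (K _ _ _ o1_s18950) (M (nat_lit 391) (B (M (nat_lit 390) (B (lo110_11_1 (nat_lit 362)) (M (nat_lit 389) (B (lo15_12_2 (nat_lit 392)) (lo14_12_2 (nat_lit 388)))))) (B (M (nat_lit 423) (B (M (nat_lit 328) (B (lo17_14_6 (nat_lit 455)) (M (nat_lit 296) (B (lo18_8_4 (nat_lit 264)) (lo17_13_6 (nat_lit 327)))))) (B (M (nat_lit 328) (B (lo17_14_6 (nat_lit 455)) (M (nat_lit 296) (B (lo18_9_5 (nat_lit 392)) (lo17_13_6 (nat_lit 327)))))) (B (M (nat_lit 392) (B (M (nat_lit 394) (B (lo19_12_0 (nat_lit 395)) (lo110_12_1 (nat_lit 422)))) (M (nat_lit 455) (B (lo17_14_6 (nat_lit 328)) (lo17_15_6 (nat_lit 487)))))) (B (M (nat_lit 392) (B (M (nat_lit 394) (B (lo19_12_0 (nat_lit 395)) (lo110_12_1 (nat_lit 422)))) (K _ _ _ o1_s18979))) (M (nat_lit 327) (B (M (nat_lit 328) (B (lo17_13_6 (nat_lit 296)) (M (nat_lit 326) (B (lo15_10_0 (nat_lit 325)) (lo17_13_7 (nat_lit 294)))))) (M (nat_lit 394) (B (lo19_12_0 (nat_lit 395)) (M (nat_lit 422) (B (lo110_12_1 (nat_lit 392)) (lo17_10_5 (nat_lit 454))))))))))))) (M (nat_lit 327) (B (M (nat_lit 362) (B (lo110_11_3 (nat_lit 326)) (lo110_11_1 (nat_lit 390)))) (B (M (nat_lit 328) (B (M (nat_lit 296) (B (lo18_8_4 (nat_lit 264)) (lo17_13_6 (nat_lit 423)))) (B (M (nat_lit 423) (B (lo17_13_6 (nat_lit 296)) (lo17_14_6 (nat_lit 455)))) (B (M (nat_lit 423) (B (lo17_14_6 (nat_lit 455)) (M (nat_lit 326) (B (lo15_10_0 (nat_lit 325)) (lo17_13_7 (nat_lit 294)))))) (M (nat_lit 296) (B (lo18_8_4 (nat_lit 264)) (M (nat_lit 425) (B (lo19_13_7 (nat_lit 329)) (lo19_14_7 (nat_lit 457)))))))))) (M (nat_lit 296) (B (M (nat_lit 264) (B (lo18_8_4 (nat_lit 328)) (lo17_12_6 (nat_lit 295)))) (B (M (nat_lit 328) (B (lo17_13_6 (nat_lit 423)) (M (nat_lit 425) (B (lo19_13_7 (nat_lit 329)) (lo19_14_7 (nat_lit 457)))))) (M (nat_lit 295) (B (lo17_12_6 (nat_lit 264)) (M (nat_lit 390) (B (lo110_11_1 (nat_lit 362)) (lo17_9_5 (nat_lit 422))))))))))))))))))) (B (M (nat_lit 359) (B (M (nat_lit 358) (B (lo16_11_0 (nat_lit 394)) (M (nat_lit 357) (B (lo15_11_0 (nat_lit 392)) (M (nat_lit 325) (B (lo19_11_3 (nat_lit 326)) (lo18_11_3 (nat_lit 324)))))))) (B (K _ _ _ o1_s18950) (B (M (nat_lit 358) (B (lo16_11_0 (nat_lit 394)) (M (nat_lit 357) (B (M (nat_lit 325) (B (lo19_11_3 (nat_lit 326)) (lo18_11_3 (nat_lit 324)))) (M (nat_lit 389) (B (lo19_11_1 (nat_lit 390)) (lo18_11_1 (nat_lit 388)))))))) (B (M (nat_lit 358) (B (lo16_11_0 (nat_lit 394)) (M (nat_lit 357) (B (lo15_11_0 (nat_lit 392)) (M (nat_lit 389) (B (lo19_11_1 (nat_lit 390)) (lo18_11_1 (nat_lit 388)))))))) (M (nat_lit 391) (B (M (nat_lit 390) (B (lo110_11_1 (nat_lit 362)) (M (nat_lit 389) (B (lo15_12_2 (nat_lit 392)) (lo14_12_2 (nat_lit 388)))))) (B (M (nat_lit 423) (B (M (nat_lit 328) (B (lo17_14_6 (nat_lit 455)) (M (nat_lit 296) (B (lo18_8_4 (nat_lit 264)) (lo17_13_6 (nat_lit 327)))))) (B (M (nat_lit 328) (B (lo17_14_6 (nat_lit 455)) (M (nat_lit 296) (B (lo18_9_5 (nat_lit 392)) (lo17_13_6 (nat_lit 327)))))) (B (M (nat_lit 392) (B (M (nat_lit 455) (B (lo17_14_6 (nat_lit 328)) (lo17_15_6 (nat_lit 487)))) (M (nat_lit 422) (B (lo110_12_1 (nat_lit 394)) (M (nat_lit 390) (B (lo15_12_2 (nat_lit 389)) (lo19_12_1 (nat_lit 421)))))))) (B (M (nat_lit 392) (B (M (nat_lit 422) (B (lo110_12_1 (nat_lit 394)) (M (nat_lit 390) (B (lo15_12_2 (nat_lit 389)) (lo19_12_1 (nat_lit 421)))))) (K _ _ _ o1_s18979))) (M (nat_lit 327) (B (M (nat_lit 328) (B (lo17_13_6 (nat_lit 296)) (M (nat_lit 326) (B (lo15_10_0 (nat_lit 325)) (lo17_13_7 (nat_lit 294)))))) (M (nat_lit 392) (B (M (nat_lit 422) (B (lo110_12_1 (nat_lit 394)) (lo17_10_5 (nat_lit 454)))) (M (nat_lit 424) (B (lo18_14_7 (nat_lit 456)) (lo17_9_4 (nat_lit 295))))))))))))) (B (M (nat_lit 362) (B (lo110_11_1 (nat_lit 390)) (M (nat_lit 327) (B (lo110_11_3 (nat_lit 326)) (M (nat_lit 328) (B (lo111_11_3 (nat_lit 363)) (M (nat_lit 296) (B (lo18_8_4 (nat_lit 264)) (lo17_13_6 (nat_lit 423)))))))))) (M (nat_lit 327) (B (M (nat_lit 362) (B (lo110_11_3 (nat_lit 326)) (M (nat_lit 363) (B (lo111_11_3 (nat_lit 328)) (lo111_11_1 (nat_lit 392)))))) (B (M (nat_lit 423) (B (M (nat_lit 328) (B (lo17_13_6 (nat_lit 296)) (lo17_14_6 (nat_lit 455)))) (M (nat_lit 326) (B (lo110_11_3 (nat_lit 362)) (lo17_13_7 (nat_lit 294)))))) (B (M (nat_lit 423) (B (M (nat_lit 328) (B (lo17_13_6 (nat_lit 296)) (lo17_14_6 (nat_lit 455)))) (M (nat_lit 392) (B (M (nat_lit 422) (B (lo110_12_1 (nat_lit 394)) (lo17_10_5 (nat_lit 454)))) (M (nat_lit 424) (B (lo18_14_7 (nat_lit 456)) (lo17_9_4 (nat_lit 295)))))))) (M (nat_lit 392) (B (M (nat_lit 362) (B (lo111_11_1 (nat_lit 363)) (lo110_11_3 (nat_lit 326)))) (M (nat_lit 424) (B (lo18_14_7 (nat_lit 456)) (lo17_9_4 (nat_lit 295))))))))))))))))))) (B (M (nat_lit 359) (B (M (nat_lit 394) (B (lo19_12_0 (nat_lit 395)) (lo16_11_0 (nat_lit 358)))) (B (M (nat_lit 358) (B (lo16_11_0 (nat_lit 394)) (M (nat_lit 357) (B (lo15_11_0 (nat_lit 392)) (M (nat_lit 389) (B (lo19_11_1 (nat_lit 390)) (lo18_11_1 (nat_lit 388)))))))) (B (M (nat_lit 358) (B (M (nat_lit 357) (B (lo15_11_0 (nat_lit 392)) (M (nat_lit 389) (B (lo19_11_1 (nat_lit 390)) (lo18_11_1 (nat_lit 388)))))) (B (K _ _ _ o1_s19086) (K _ _ _ o1_s19098)))) (M (nat_lit 328) (B (M (nat_lit 296) (B (lo18_8_4 (nat_lit 264)) (M (nat_lit 425) (B (lo19_13_7 (nat_lit 329)) (lo19_14_7 (nat_lit 457)))))) (B (M (nat_lit 296) (B (lo18_8_4 (nat_lit 264)) (M (nat_lit 425) (B (lo19_14_7 (nat_lit 457)) (lo18_9_4 (nat_lit 392)))))) (B (M (nat_lit 392) (B (M (nat_lit 296) (B (lo18_8_4 (nat_lit 264)) (M (nat_lit 423) (B (lo18_9_5 (nat_lit 391)) (M (nat_lit 424) (B (lo18_10_5 (nat_lit 455)) (M (nat_lit 295) (B (lo18_12_7 (nat_lit 263)) (lo18_13_7 (nat_lit 327)))))))))) (B (M (nat_lit 423) (B (M (nat_lit 391) (B (lo18_9_5 (nat_lit 296)) (lo17_14_6 (nat_lit 455)))) (B (M (nat_lit 455) (B (lo18_10_5 (nat_lit 424)) (lo17_14_6 (nat_lit 391)))) (B (M (nat_lit 424) (B (lo18_10_5 (nat_lit 455)) (M (nat_lit 327) (B (lo18_13_7 (nat_lit 295)) (lo18_14_7 (nat_lit 456)))))) (M (nat_lit 394) (B (lo19_12_0 (nat_lit 395)) (M (nat_lit 391) (B (lo110_12_1 (nat_lit 422)) (lo18_9_5 (nat_lit 296)))))))))) (B (M (nat_lit 423) (B (M (nat_lit 455) (B (lo18_10_5 (nat_lit 424)) (lo17_14_6 (nat_lit 391)))) (B (M (nat_lit 394) (B (lo19_12_0 (nat_lit 395)) (M (nat_lit 391) (B (lo110_12_1 (nat_lit 422)) (lo17_14_6 (nat_lit 455)))))) (B (M (nat_lit 424) (B (lo18_10_5 (nat_lit 455)) (M (nat_lit 456) (B (lo18_14_6 (nat_lit 329)) (lo18_15_6 (nat_lit 488)))))) (M (nat_lit 424) (B (M (nat_lit 456) (B (lo18_14_6 (nat_lit 329)) (lo18_15_6 (nat_lit 488)))) (M (nat_lit 394) (B (lo19_12_0 (nat_lit 395)) (M (nat_lit 422) (B (lo110_12_1 (nat_lit 391)) (lo15_13_2 (nat_lit 421)))))))))))) (B (M (nat_lit 391) (B (M (nat_lit 296) (B (lo18_8_4 (nat_lit 264)) (lo18_9_5 (nat_lit 423)))) (B (M (nat_lit 423) (B (lo18_9_5 (nat_lit 296)) (lo17_14_6 (nat_lit 455)))) (B (M (nat_lit 394) (B (lo19_12_0 (nat_lit 395)) (M (nat_lit 423) (B (lo110_12_1 (nat_lit 422)) (lo17_14_6 (nat_lit 455)))))) (M (nat_lit 390) (B (lo15_12_2 (nat_lit 389)) (M (nat_lit 295) (B (M (nat_lit 296) (B (lo18_8_4 (nat_lit 264)) (lo18_12_7 (nat_lit 263)))) (B (M (nat_lit 263) (B (lo18_12_7 (nat_lit 296)) (lo17_8_4 (nat_lit 327)))) (B (M (nat_lit 327) (B (lo17_8_4 (nat_lit 263)) (lo17_9_5 (nat_lit 422)))) (M (nat_lit 422) (B (lo19_12_1 (nat_lit 421)) (lo17_9_5 (nat_lit 327)))))))))))))) (M (nat_lit 424) (B (M (nat_lit 329) (B (lo19_9_5 (nat_lit 297)) (lo18_14_6 (nat_lit 456)))) (B (M (nat_lit 456) (B (lo18_14_6 (nat_lit 329)) (lo18_14_7 (nat_lit 327)))) (B (M (nat_lit 456) (B (lo18_15_6 (nat_lit 488)) (lo18_14_7 (nat_lit 327)))) (M (nat_lit 297) (B (lo19_9_5 (nat_lit 329)) (M (nat_lit 296) (B (lo18_12_6 (nat_lit 265)) (lo18_8_4 (nat_lit 264))))))))))))))) (B (M (nat_lit 425) (B (lo19_14_7 (nat_lit 457)) (M (nat_lit 296) (B (lo19_13_7 (nat_lit 329)) (lo18_9_4 (nat_lit 392)))))) (M (nat_lit 425) (B (lo19_14_7 (nat_lit 457)) (M (nat_lit 424) (B (M (nat_lit 456) (B (lo19_10_5 (nat_lit 329)) (M (nat_lit 392) (B (lo18_15_6 (nat_lit 488)) (lo18_14_7 (nat_lit 327)))))) (B (M (nat_lit 423) (B (M (nat_lit 394) (B (lo19_12_0 (nat_lit 395)) (lo16_13_2 (nat_lit 422)))) (M (nat_lit 455) (B (lo18_10_5 (nat_lit 392)) (lo17_14_6 (nat_lit 391)))))) (M (nat_lit 423) (B (M (nat_lit 394) (B (lo19_12_0 (nat_lit 395)) (lo16_13_2 (nat_lit 422)))) (M (nat_lit 456) (B (lo19_10_5 (nat_lit 329)) (M (nat_lit 391) (B (lo17_14_6 (nat_lit 455)) (lo17_10_4 (nat_lit 327)))))))))))))))))))))) (M (nat_lit 359) (B (K _ _ _ o1_s18950) (B (M (nat_lit 358) (B (M (nat_lit 357) (B (lo15_11_0 (nat_lit 392)) (M (nat_lit 325) (B (lo19_11_3 (nat_lit 326)) (lo18_11_3 (nat_lit 324)))))) (B (K _ _ _ o1_s19086) (K _ _ _ o1_s19098)))) (B (M (nat_lit 328) (B (M (nat_lit 296) (B (lo18_8_4 (nat_lit 264)) (M (nat_lit 425) (B (lo19_13_7 (nat_lit 329)) (lo19_14_7 (nat_lit 457)))))) (B (M (nat_lit 391) (B (M (nat_lit 296) (B (lo18_8_4 (nat_lit 264)) (M (nat_lit 423) (B (lo17_13_6 (nat_lit 327)) (lo17_14_6 (nat_lit 455)))))) (M (nat_lit 390) (B (lo110_11_1 (nat_lit 362)) (M (nat_lit 389) (B (lo19_11_1 (nat_lit 358)) (lo14_12_2 (nat_lit 388)))))))) (M (nat_lit 358) (B (M (nat_lit 325) (B (lo19_11_3 (nat_lit 326)) (M (nat_lit 357) (B (lo15_11_2 (nat_lit 329)) (lo18_11_3 (nat_lit 324)))))) (M (nat_lit 362) (B (M (nat_lit 363) (B (lo18_11_0 (nat_lit 395)) (lo111_11_3 (nat_lit 327)))) (M (nat_lit 390) (B (lo110_11_1 (nat_lit 391)) (lo19_11_1 (nat_lit 389))))))))))) (B (M (nat_lit 358) (B (M (nat_lit 357) (B (lo15_11_0 (nat_lit 392)) (M (nat_lit 325) (B (lo19_11_3 (nat_lit 326)) (lo18_11_3 (nat_lit 324)))))) (B (M (nat_lit 390) (B (lo19_11_1 (nat_lit 389)) (M (nat_lit 391) (B (lo110_11_1 (nat_lit 362)) (M (nat_lit 326) (B (lo19_11_3 (nat_lit 325)) (M (nat_lit 423) (B (lo17_14_7 (nat_lit 455)) (lo16_9_4 (nat_lit 294)))))))))) (K _ _ _ o1_s19098)))) (B (M (nat_lit 358) (B (M (nat_lit 357) (B (lo15_11_0 (nat_lit 392)) (M (nat_lit 325) (B (lo19_11_3 (nat_lit 326)) (lo18_11_3 (nat_lit 324)))))) (B (M (nat_lit 326) (B (lo19_11_3 (nat_lit 325)) (M (nat_lit 390) (B (lo19_11_1 (nat_lit 389)) (M (nat_lit 327) (B (lo110_11_3 (nat_lit 362)) (M (nat_lit 295) (B (lo17_8_5 (nat_lit 263)) (lo16_13_6 (nat_lit 422)))))))))) (K _ _ _ o1_s19098)))) (B (M (nat_lit 358) (B (M (nat_lit 357) (B (lo15_11_0 (nat_lit 392)) (M (nat_lit 389) (B (lo19_11_1 (nat_lit 390)) (lo18_11_1 (nat_lit 388)))))) (B (M (nat_lit 328) (B (M (nat_lit 296) (B (lo18_8_4 (nat_lit 264)) (M (nat_lit 329) (B (lo19_13_7 (nat_lit 425)) (lo15_11_2 (nat_lit 357)))))) (M (nat_lit 362) (B (M (nat_lit 363) (B (lo18_11_0 (nat_lit 395)) (lo111_11_3 (nat_lit 327)))) (M (nat_lit 390) (B (lo110_11_1 (nat_lit 391)) (lo19_11_1 (nat_lit 389)))))))) (B (K _ _ _ o1_s19098) (M (nat_lit 328) (B (M (nat_lit 296) (B (lo18_8_4 (nat_lit 264)) (M (nat_lit 425) (B (lo19_13_7 (nat_lit 329)) (lo19_14_7 (nat_lit 457)))))) (M (nat_lit 362) (B (M (nat_lit 363) (B (lo18_11_0 (nat_lit 395)) (lo111_11_3 (nat_lit 327)))) (M (nat_lit 390) (B (lo110_11_1 (nat_lit 391)) (lo19_11_1 (nat_lit 389)))))))))))) (B (M (nat_lit 391) (B (M (nat_lit 390) (B (lo110_11_1 (nat_lit 362)) (M (nat_lit 389) (B (lo15_12_2 (nat_lit 392)) (lo14_12_2 (nat_lit 388)))))) (B (M (nat_lit 423) (B (M (nat_lit 328) (B (lo17_14_6 (nat_lit 455)) (M (nat_lit 296) (B (lo18_8_4 (nat_lit 264)) (lo17_13_6 (nat_lit 327)))))) (B (M (nat_lit 328) (B (lo17_14_6 (nat_lit 455)) (M (nat_lit 296) (B (lo18_9_5 (nat_lit 392)) (lo17_13_6 (nat_lit 327)))))) (B (M (nat_lit 327) (B (M (nat_lit 328) (B (lo17_14_6 (nat_lit 455)) (M (nat_lit 326) (B (lo15_10_0 (nat_lit 325)) (lo17_13_7 (nat_lit 294)))))) (M (nat_lit 295) (B (M (nat_lit 392) (B (lo17_8_4 (nat_lit 263)) (lo17_9_4 (nat_lit 424)))) (M (nat_lit 422) (B (lo17_9_5 (nat_lit 390)) (lo17_10_5 (nat_lit 454)))))))) (B (M (nat_lit 327) (B (M (nat_lit 295) (B (M (nat_lit 392) (B (lo17_8_4 (nat_lit 263)) (lo17_9_4 (nat_lit 424)))) (M (nat_lit 294) (B (lo17_12_7 (nat_lit 262)) (lo17_13_7 (nat_lit 326)))))) (B (M (nat_lit 295) (B (M (nat_lit 294) (B (lo17_12_7 (nat_lit 262)) (lo17_13_7 (nat_lit 326)))) (M (nat_lit 422) (B (lo17_9_5 (nat_lit 390)) (lo17_10_5 (nat_lit 454)))))) (M (nat_lit 455) (B (M (nat_lit 456) (B (lo17_10_4 (nat_lit 424)) (lo17_11_4 (nat_lit 488)))) (M (nat_lit 454) (B (lo17_10_5 (nat_lit 422)) (lo17_11_5 (nat_lit 486))))))))) (B (M (nat_lit 328) (B (lo17_14_6 (nat_lit 455)) (M (nat_lit 296) (B (lo18_8_4 (nat_lit 264)) (lo18_9_5 (nat_lit 392)))))) (M (nat_lit 327) (B (M (nat_lit 328) (B (lo17_13_6 (nat_lit 296)) (M (nat_lit 326) (B (lo15_10_0 (nat_lit 325)) (lo17_13_7 (nat_lit 294)))))) (M (nat_lit 295) (B (M (nat_lit 392) (B (lo17_8_4 (nat_lit 263)) (lo17_9_4 (nat_lit 424)))) (M (nat_lit 422) (B (lo17_9_5 (nat_lit 390)) (lo17_10_5 (nat_lit 454)))))))))))))) (B (M (nat_lit 328) (B (M (nat_lit 362) (B (lo110_11_1 (nat_lit 390)) (M (nat_lit 327) (B (lo111_11_3 (nat_lit 363)) (lo110_11_3 (nat_lit 326)))))) (M (nat_lit 296) (B (lo18_8_4 (nat_lit 264)) (M (nat_lit 425) (B (lo19_13_7 (nat_lit 329)) (lo19_14_7 (nat_lit 457)))))))) (M (nat_lit 327) (B (M (nat_lit 362) (B (lo110_11_3 (nat_lit 326)) (M (nat_lit 363) (B (lo111_11_3 (nat_lit 328)) (lo111_11_1 (nat_lit 392)))))) (B (M (nat_lit 328) (B (M (nat_lit 326) (B (lo110_11_3 (nat_lit 362)) (lo15_10_0 (nat_lit 325)))) (M (nat_lit 296) (B (lo18_8_4 (nat_lit 264)) (lo17_13_6 (nat_lit 423)))))) (B (M (nat_lit 328) (B (M (nat_lit 296) (B (lo18_8_4 (nat_lit 264)) (lo17_13_6 (nat_lit 423)))) (B (M (nat_lit 423) (B (lo17_13_6 (nat_lit 296)) (lo17_14_6 (nat_lit 455)))) (B (M (nat_lit 423) (B (lo17_14_6 (nat_lit 455)) (M (nat_lit 326) (B (lo15_10_0 (nat_lit 325)) (lo17_13_7 (nat_lit 294)))))) (M (nat_lit 296) (B (lo18_8_4 (nat_lit 264)) (M (nat_lit 425) (B (lo19_14_7 (nat_lit 457)) (lo18_9_4 (nat_lit 392)))))))))) (B (M (nat_lit 392) (B (M (nat_lit 362) (B (lo111_11_1 (nat_lit 363)) (lo110_11_3 (nat_lit 326)))) (M (nat_lit 295) (B (lo17_8_4 (nat_lit 263)) (lo17_9_4 (nat_lit 424)))))) (M (nat_lit 296) (B (M (nat_lit 264) (B (lo18_8_4 (nat_lit 328)) (lo17_12_6 (nat_lit 295)))) (B (M (nat_lit 328) (B (lo17_13_6 (nat_lit 423)) (M (nat_lit 425) (B (lo19_13_7 (nat_lit 329)) (lo18_9_4 (nat_lit 392)))))) (M (nat_lit 295) (B (lo17_12_6 (nat_lit 264)) (M (nat_lit 392) (B (lo17_8_4 (nat_lit 263)) (lo17_9_4 (nat_lit 424)))))))))))))))))) (M (nat_lit 328) (B (M (nat_lit 296) (B (lo18_8_4 (nat_lit 264)) (M (nat_lit 425) (B (lo19_13_7 (nat_lit 329)) (lo19_14_7 (nat_lit 457)))))) (B (M (nat_lit 296) (B (lo18_8_4 (nat_lit 264)) (M (nat_lit 425) (B (lo19_14_7 (nat_lit 457)) (lo18_9_4 (nat_lit 392)))))) (B (M (nat_lit 296) (B (lo18_8_4 (nat_lit 264)) (M (nat_lit 327) (B (M (nat_lit 362) (B (lo111_11_3 (nat_lit 363)) (lo110_11_3 (nat_lit 326)))) (M (nat_lit 295) (B (M (nat_lit 392) (B (lo18_12_7 (nat_lit 263)) (lo18_13_7 (nat_lit 424)))) (M (nat_lit 294) (B (M (nat_lit 293) (B (lo15_9_0 (nat_lit 329)) (lo14_9_0 (nat_lit 292)))) (M (nat_lit 391) (B (lo17_13_6 (nat_lit 423)) (lo17_12_7 (nat_lit 262)))))))))))) (B (M (nat_lit 425) (B (lo19_14_7 (nat_lit 457)) (M (nat_lit 296) (B (lo19_13_7 (nat_lit 329)) (lo18_9_4 (nat_lit 392)))))) (M (nat_lit 326) (B (M (nat_lit 327) (B (lo110_11_3 (nat_lit 362)) (lo15_10_0 (nat_lit 325)))) (B (M (nat_lit 325) (B (lo15_10_0 (nat_lit 327)) (lo19_11_3 (nat_lit 358)))) (B (M (nat_lit 358) (B (lo19_11_3 (nat_lit 325)) (M (nat_lit 357) (B (lo15_11_2 (nat_lit 329)) (lo15_11_0 (nat_lit 392)))))) (M (nat_lit 327) (B (lo110_11_3 (nat_lit 362)) (M (nat_lit 295) (B (M (nat_lit 392) (B (lo18_13_7 (nat_lit 424)) (lo17_8_4 (nat_lit 263)))) (M (nat_lit 294) (B (M (nat_lit 293) (B (lo19_10_3 (nat_lit 329)) (lo14_9_0 (nat_lit 292)))) (M (nat_lit 391) (B (lo17_12_7 (nat_lit 262)) (lo17_13_7 (nat_lit 423))))))))))))))))))))))))))))))))) (B (M (nat_lit 395) (B (lo19_12_0 (nat_lit 394)) (M (nat_lit 329) (B (M (nat_lit 297) (B (M (nat_lit 425) (B (M (nat_lit 296) (B (lo19_12_7 (nat_lit 264)) (lo19_13_7 (nat_lit 328)))) (M (nat_lit 424) (B (lo19_9_5 (nat_lit 392)) (lo19_10_5 (nat_lit 456)))))) (B (M (nat_lit 265) (B (M (nat_lit 266) (B (lo19_11_6 (nat_lit 234)) (lo19_12_6 (nat_lit 298)))) (M (nat_lit 264) (B (lo19_11_7 (nat_lit 232)) (lo19_12_7 (nat_lit 296)))))) (M (nat_lit 425) (B (M (nat_lit 298) (B (lo19_12_6 (nat_lit 266)) (lo19_13_6 (nat_lit 330)))) (M (nat_lit 424) (B (lo19_9_5 (nat_lit 392)) (lo19_10_5 (nat_lit 456))))))))) (B (M (nat_lit 297) (B (M (nat_lit 296) (B (lo19_12_7 (nat_lit 264)) (M (nat_lit 298) (B (lo19_12_6 (nat_lit 266)) (M (nat_lit 425) (B (lo19_13_6 (nat_lit 330)) (lo19_13_7 (nat_lit 328)))))))) (B (M (nat_lit 425) (B (M (nat_lit 296) (B (lo19_12_7 (nat_lit 264)) (lo19_13_7 (nat_lit 328)))) (M (nat_lit 424) (B (lo19_9_5 (nat_lit 392)) (lo19_10_5 (nat_lit 456)))))) (B (M (nat_lit 265) (B (M (nat_lit 264) (B (lo19_11_7 (nat_lit 232)) (lo19_12_7 (nat_lit 296)))) (M (nat_lit 392) (B (lo19_8_5 (nat_lit 360)) (lo19_9_5 (nat_lit 424)))))) (M (nat_lit 425) (B (M (nat_lit 298) (B (lo19_12_6 (nat_lit 266)) (lo19_13_6 (nat_lit 330)))) (M (nat_lit 424) (B (lo19_9_5 (nat_lit 392)) (lo19_10_5 (nat_lit 456)))))))))) (B (M (nat_lit 330) (B (K _ _ _ o1_s19400) (B (M (nat_lit 425) (B (lo19_13_6 (nat_lit 298)) (M (nat_lit 297) (B (M (nat_lit 296) (B (lo19_12_7 (nat_lit 264)) (lo19_13_7 (nat_lit 328)))) (M (nat_lit 424) (B (lo19_9_5 (nat_lit 392)) (lo19_10_5 (nat_lit 456)))))))) (B (K _ _ _ o1_s19410) (M (nat_lit 297) (B (M (nat_lit 425) (B (lo19_13_6 (nat_lit 298)) (M (nat_lit 424) (B (lo19_9_5 (nat_lit 392)) (lo19_10_5 (nat_lit 456)))))) (M (nat_lit 331) (B (M (nat_lit 296) (B (lo112_10_3 (nat_lit 332)) (lo19_12_7 (nat_lit 264)))) (M (nat_lit 363) (B (lo111_9_4 (nat_lit 299)) (lo111_10_4 (nat_lit 460)))))))))))) (B (M (nat_lit 297) (B (M (nat_lit 425) (B (M (nat_lit 296) (B (lo19_12_7 (nat_lit 264)) (lo19_13_7 (nat_lit 328)))) (M (nat_lit 424) (B (lo19_9_5 (nat_lit 392)) (lo19_10_5 (nat_lit 456)))))) (B (M (nat_lit 264) (B (lo19_12_7 (nat_lit 296)) (M (nat_lit 265) (B (lo19_11_7 (nat_lit 232)) (M (nat_lit 392) (B (lo19_8_5 (nat_lit 360)) (lo19_9_5 (nat_lit 424)))))))) (B (K _ _ _ o1_s19440) (M (nat_lit 296) (B (lo19_12_7 (nat_lit 264)) (M (nat_lit 331) (B (M (nat_lit 363) (B (lo111_9_4 (nat_lit 299)) (lo111_10_4 (nat_lit 460)))) (M (nat_lit 330) (B (lo112_10_3 (nat_lit 332)) (M (nat_lit 328) (B (lo111_10_3 (nat_lit 295)) (lo19_13_7 (nat_lit 425)))))))))))))) (B (M (nat_lit 297) (B (M (nat_lit 265) (B (M (nat_lit 266) (B (lo19_11_6 (nat_lit 234)) (lo19_12_6 (nat_lit 298)))) (M (nat_lit 392) (B (lo19_8_5 (nat_lit 360)) (lo19_9_5 (nat_lit 424)))))) (B (M (nat_lit 265) (B (M (nat_lit 264) (B (lo19_11_7 (nat_lit 232)) (lo19_12_7 (nat_lit 296)))) (M (nat_lit 392) (B (lo19_8_5 (nat_lit 360)) (lo19_9_5 (nat_lit 424)))))) (B (M (nat_lit 425) (B (M (nat_lit 296) (B (lo19_12_7 (nat_lit 264)) (lo19_13_7 (nat_lit 328)))) (M (nat_lit 424) (B (lo19_9_5 (nat_lit 392)) (lo19_10_5 (nat_lit 456)))))) (M (nat_lit 265) (B (M (nat_lit 266) (B (lo19_11_6 (nat_lit 234)) (lo19_12_6 (nat_lit 298)))) (M (nat_lit 264) (B (lo19_11_7 (nat_lit 232)) (lo19_12_7 (nat_lit 296)))))))))) (B (M (nat_lit 328) (B (M (nat_lit 296) (B (lo19_13_7 (nat_lit 425)) (M (nat_lit 264) (B (lo18_7_4 (nat_lit 232)) (lo18_8_4 (nat_lit 360)))))) (B (M (nat_lit 331) (B (M (nat_lit 363) (B (lo111_9_4 (nat_lit 299)) (lo111_10_4 (nat_lit 460)))) (B (M (nat_lit 330) (B (M (nat_lit 299) (B (lo18_10_2 (nat_lit 300)) (lo111_9_4 (nat_lit 363)))) (M (nat_lit 360) (B (lo112_10_1 (nat_lit 332)) (lo111_10_1 (nat_lit 359)))))) (B (M (nat_lit 330) (B (M (nat_lit 363) (B (lo111_10_4 (nat_lit 460)) (lo111_13_7 (nat_lit 298)))) (M (nat_lit 360) (B (lo112_10_1 (nat_lit 332)) (lo111_10_1 (nat_lit 359)))))) (M (nat_lit 330) (B (M (nat_lit 360) (B (lo112_10_1 (nat_lit 332)) (lo111_10_1 (nat_lit 359)))) (M (nat_lit 327) (B (M (nat_lit 299) (B (lo18_10_2 (nat_lit 300)) (lo17_10_2 (nat_lit 298)))) (M (nat_lit 295) (B (lo111_10_3 (nat_lit 296)) (lo110_10_3 (nat_lit 294)))))))))))) (B (M (nat_lit 331) (B (M (nat_lit 363) (B (lo111_9_4 (nat_lit 299)) (lo111_10_4 (nat_lit 460)))) (B (M (nat_lit 330) (B (M (nat_lit 299) (B (lo18_10_2 (nat_lit 300)) (lo111_9_4 (nat_lit 363)))) (M (nat_lit 360) (B (lo112_10_1 (nat_lit 332)) (lo111_10_1 (nat_lit 359)))))) (B (M (nat_lit 330) (B (M (nat_lit 363) (B (lo111_10_4 (nat_lit 460)) (lo111_13_7 (nat_lit 298)))) (M (nat_lit 360) (B (lo112_10_1 (nat_lit 332)) (lo111_10_1 (nat_lit 359)))))) (M (nat_lit 330) (B (M (nat_lit 360) (B (lo112_10_1 (nat_lit 332)) (lo111_10_1 (nat_lit 359)))) (M (nat_lit 299) (B (lo18_10_2 (nat_lit 300)) (M (nat_lit 298) (B (lo17_10_2 (nat_lit 327)) (lo19_13_6 (nat_lit 425)))))))))))) (M (nat_lit 331) (B (M (nat_lit 363) (B (lo111_9_4 (nat_lit 299)) (lo111_10_4 (nat_lit 460)))) (B (M (nat_lit 330) (B (M (nat_lit 299) (B (lo18_10_2 (nat_lit 300)) (lo111_9_4 (nat_lit 363)))) (M (nat_lit 296) (B (lo111_10_3 (nat_lit 295)) (lo19_13_7 (nat_lit 425)))))) (B (M (nat_lit 330) (B (M (nat_lit 363) (B (lo111_10_4 (nat_lit 460)) (lo111_13_7 (nat_lit 298)))) (B (M (nat_lit 425) (B (lo19_13_6 (nat_lit 298)) (lo19_13_7 (nat_lit 296)))) (M (nat_lit 296) (B (lo111_10_3 (nat_lit 295)) (lo19_13_7 (nat_lit 425))))))) (M (nat_lit 330) (B (M (nat_lit 296) (B (lo111_10_3 (nat_lit 295)) (lo19_13_7 (nat_lit 425)))) (B (M (nat_lit 327) (B (M (nat_lit 299) (B (lo18_10_2 (nat_lit 300)) (lo17_10_2 (nat_lit 298)))) (M (nat_lit 295) (B (lo111_10_3 (nat_lit 296)) (lo110_10_3 (nat_lit 294)))))) (M (nat_lit 299) (B (lo18_10_2 (nat_lit 300)) (M (nat_lit 298) (B (lo17_10_2 (nat_lit 327)) (lo19_13_6 (nat_lit 425))))))))))))))))) (B (M (nat_lit 297) (B (M (nat_lit 264) (B (lo19_12_7 (nat_lit 296)) (M (nat_lit 265) (B (lo19_11_7 (nat_lit 232)) (M (nat_lit 392) (B (lo19_8_5 (nat_lit 360)) (lo19_9_5 (nat_lit 424)))))))) (B (M (nat_lit 331) (B (M (nat_lit 363) (B (lo111_9_4 (nat_lit 299)) (lo111_10_4 (nat_lit 460)))) (B (M (nat_lit 363) (B (lo111_9_4 (nat_lit 299)) (M (nat_lit 298) (B (lo111_13_7 (nat_lit 330)) (lo19_12_6 (nat_lit 266)))))) (B (M (nat_lit 363) (B (lo111_10_4 (nat_lit 460)) (M (nat_lit 298) (B (lo111_13_7 (nat_lit 330)) (lo19_12_6 (nat_lit 266)))))) (M (nat_lit 296) (B (lo19_12_7 (nat_lit 264)) (M (nat_lit 330) (B (lo112_10_3 (nat_lit 332)) (M (nat_lit 298) (B (lo17_9_0 (nat_lit 295)) (lo19_12_6 (nat_lit 266)))))))))))) (B (M (nat_lit 331) (B (M (nat_lit 363) (B (lo111_9_4 (nat_lit 299)) (lo111_10_4 (nat_lit 460)))) (B (M (nat_lit 363) (B (lo111_9_4 (nat_lit 299)) (M (nat_lit 298) (B (lo111_13_7 (nat_lit 330)) (lo19_12_6 (nat_lit 266)))))) (B (M (nat_lit 363) (B (lo111_10_4 (nat_lit 460)) (M (nat_lit 298) (B (lo111_13_7 (nat_lit 330)) (lo19_12_6 (nat_lit 266)))))) (M (nat_lit 330) (B (M (nat_lit 332) (B (lo112_10_3 (nat_lit 296)) (lo112_10_1 (nat_lit 360)))) (B (M (nat_lit 360) (B (M (nat_lit 359) (B (lo111_10_1 (nat_lit 328)) (lo16_11_2 (nat_lit 358)))) (M (nat_lit 392) (B (lo19_8_5 (nat_lit 265)) (lo19_9_5 (nat_lit 424)))))) (M (nat_lit 296) (B (lo112_10_3 (nat_lit 332)) (M (nat_lit 298) (B (lo17_9_0 (nat_lit 295)) (lo19_12_6 (nat_lit 266))))))))))))) (K _ _ _ o1_s19440))))) (B (M (nat_lit 330) (B (M (nat_lit 298) (B (lo19_13_6 (nat_lit 425)) (M (nat_lit 266) (B (lo110_7_5 (nat_lit 234)) (lo19_12_6 (nat_lit 297)))))) (B (K _ _ _ o1_s19400) (K _ _ _ o1_s19410)))) (M (nat_lit 297) (B (M (nat_lit 265) (B (M (nat_lit 266) (B (lo19_11_6 (nat_lit 234)) (lo19_12_6 (nat_lit 298)))) (M (nat_lit 392) (B (lo19_8_5 (nat_lit 360)) (lo19_9_5 (nat_lit 424)))))) (B (M (nat_lit 264) (B (lo19_12_7 (nat_lit 296)) (M (nat_lit 265) (B (lo19_11_7 (nat_lit 232)) (M (nat_lit 392) (B (lo19_8_5 (nat_lit 360)) (lo19_9_5 (nat_lit 424)))))))) (B (M (nat_lit 425) (B (M (nat_lit 298) (B (lo19_12_6 (nat_lit 266)) (lo19_13_6 (nat_lit 330)))) (M (nat_lit 424) (B (lo19_9_5 (nat_lit 392)) (lo19_10_5 (nat_lit 456)))))) (M (nat_lit 265) (B (M (nat_lit 266) (B (lo19_11_6 (nat_lit 234)) (lo19_12_6 (nat_lit 298)))) (M (nat_lit 264) (B (lo19_11_7 (nat_lit 232)) (lo19_12_7 (nat_lit 296))))))))))))))))))))) (B (M (nat_lit 329) (B (M (nat_lit 297) (B (M (nat_lit 296) (B (lo19_12_7 (nat_lit 264)) (M (nat_lit 298) (B (lo19_12_6 (nat_lit 266)) (M (nat_lit 425) (B (lo19_13_6 (nat_lit 330)) (lo19_13_7 (nat_lit 328)))))))) (B (M (nat_lit 425) (B (M (nat_lit 296) (B (lo19_12_7 (nat_lit 264)) (lo19_13_7 (nat_lit 328)))) (M (nat_lit 424) (B (lo19_9_5 (nat_lit 392)) (lo19_10_5 (nat_lit 456)))))) (M (nat_lit 265) (B (M (nat_lit 266) (B (lo19_11_6 (nat_lit 234)) (lo19_12_6 (nat_lit 298)))) (M (nat_lit 392) (B (lo19_8_5 (nat_lit 360)) (lo19_9_5 (nat_lit 424))))))))) (B (K _ _ _ o1_s18778) (B (K _ _ _ o1_s18779) (B (M (nat_lit 297) (B (M (nat_lit 425) (B (M (nat_lit 296) (B (lo19_12_7 (nat_lit 264)) (lo19_13_7 (nat_lit 328)))) (M (nat_lit 424) (B (lo19_9_5 (nat_lit 392)) (lo19_10_5 (nat_lit 456)))))) (B (M (nat_lit 265) (B (M (nat_lit 264) (B (lo19_11_7 (nat_lit 232)) (lo19_12_7 (nat_lit 296)))) (M (nat_lit 392) (B (lo19_8_5 (nat_lit 360)) (lo19_9_5 (nat_lit 424)))))) (B (M (nat_lit 360) (B (M (nat_lit 392) (B (lo19_8_5 (nat_lit 265)) (lo19_9_5 (nat_lit 424)))) (M (nat_lit 359) (B (M (nat_lit 330) (B (lo16_11_2 (nat_lit 358)) (M (nat_lit 331) (B (lo112_10_1 (nat_lit 332)) (lo111_10_1 (nat_lit 328)))))) (B (M (nat_lit 330) (B (lo16_11_2 (nat_lit 358)) (M (nat_lit 331) (B (lo17_11_2 (nat_lit 362)) (lo111_10_1 (nat_lit 328)))))) (B (M (nat_lit 358) (B (lo16_11_2 (nat_lit 330)) (M (nat_lit 357) (B (lo15_11_2 (nat_lit 328)) (M (nat_lit 325) (B (lo19_11_3 (nat_lit 326)) (lo18_11_3 (nat_lit 324)))))))) (B (M (nat_lit 358) (B (M (nat_lit 357) (B (lo15_11_2 (nat_lit 328)) (M (nat_lit 325) (B (lo19_11_3 (nat_lit 326)) (lo18_11_3 (nat_lit 324)))))) (B (M (nat_lit 357) (B (M (nat_lit 325) (B (lo19_11_3 (nat_lit 326)) (lo18_11_3 (nat_lit 324)))) (M (nat_lit 389) (B (lo19_11_1 (nat_lit 390)) (lo18_11_1 (nat_lit 388)))))) (B (M (nat_lit 357) (B (lo15_11_2 (nat_lit 328)) (M (nat_lit 389) (B (lo19_11_1 (nat_lit 390)) (lo18_11_1 (nat_lit 388)))))) (M (nat_lit 362) (B (M (nat_lit 326) (B (lo110_11_3 (nat_lit 327)) (lo19_11_3 (nat_lit 325)))) (M (nat_lit 390) (B (lo110_11_1 (nat_lit 391)) (lo19_11_1 (nat_lit 389)))))))))) (B (M (nat_lit 330) (B (lo16_11_2 (nat_lit 358)) (M (nat_lit 331) (B (lo112_10_1 (nat_lit 332)) (lo17_11_2 (nat_lit 362)))))) (M (nat_lit 363) (B (M (nat_lit 362) (B (lo18_11_0 (nat_lit 395)) (M (nat_lit 331) (B (lo18_11_2 (nat_lit 332)) (lo17_11_2 (nat_lit 330)))))) (B (M (nat_lit 362) (B (lo18_11_0 (nat_lit 395)) (M (nat_lit 327) (B (lo111_11_3 (nat_lit 328)) (lo110_11_3 (nat_lit 326)))))) (B (M (nat_lit 362) (B (M (nat_lit 331) (B (lo18_11_2 (nat_lit 332)) (lo17_11_2 (nat_lit 330)))) (M (nat_lit 327) (B (lo111_11_3 (nat_lit 328)) (lo110_11_3 (nat_lit 326)))))) (M (nat_lit 331) (B (M (nat_lit 395) (B (lo111_9_4 (nat_lit 299)) (lo111_10_4 (nat_lit 460)))) (M (nat_lit 330) (B (lo112_10_1 (nat_lit 332)) (lo111_10_1 (nat_lit 328)))))))))))))))))) (M (nat_lit 265) (B (M (nat_lit 264) (B (lo19_11_7 (nat_lit 232)) (lo19_12_7 (nat_lit 296)))) (B (M (nat_lit 296) (B (lo19_12_7 (nat_lit 264)) (M (nat_lit 328) (B (lo19_13_7 (nat_lit 425)) (M (nat_lit 233) (B (lo19_6_5 (nat_lit 201)) (lo19_7_5 (nat_lit 360)))))))) (B (M (nat_lit 233) (B (M (nat_lit 234) (B (lo19_10_6 (nat_lit 202)) (lo19_11_6 (nat_lit 266)))) (M (nat_lit 328) (B (lo19_7_5 (nat_lit 360)) (M (nat_lit 296) (B (lo19_6_5 (nat_lit 201)) (lo19_13_7 (nat_lit 425)))))))) (M (nat_lit 233) (B (M (nat_lit 234) (B (lo19_10_6 (nat_lit 202)) (lo19_11_6 (nat_lit 266)))) (M (nat_lit 232) (B (lo19_10_7 (nat_lit 200)) (lo19_11_7 (nat_lit 264)))))))))))))) (B (K _ _ _ o1_s18790) (B (M (nat_lit 328) (B (M (nat_lit 296) (B (lo19_13_7 (nat_lit 425)) (M (nat_lit 264) (B (lo18_7_4 (nat_lit 232)) (lo18_8_4 (nat_lit 360)))))) (B (M (nat_lit 327) (B (M (nat_lit 362) (B (lo16_10_0 (nat_lit 326)) (M (nat_lit 363) (B (lo17_10_0 (nat_lit 330)) (lo111_11_3 (nat_lit 360)))))) (B (M (nat_lit 326) (B (lo16_10_0 (nat_lit 362)) (M (nat_lit 325) (B (lo15_10_0 (nat_lit 360)) (M (nat_lit 293) (B (lo19_10_3 (nat_lit 294)) (lo18_10_3 (nat_lit 292)))))))) (B (M (nat_lit 326) (B (M (nat_lit 325) (B (lo15_10_0 (nat_lit 360)) (M (nat_lit 293) (B (lo19_10_3 (nat_lit 294)) (lo18_10_3 (nat_lit 292)))))) (B (M (nat_lit 330) (B (M (nat_lit 294) (B (lo110_10_3 (nat_lit 295)) (lo19_10_3 (nat_lit 293)))) (M (nat_lit 358) (B (lo110_10_1 (nat_lit 359)) (lo19_10_1 (nat_lit 357)))))) (M (nat_lit 330) (B (M (nat_lit 358) (B (lo110_10_1 (nat_lit 359)) (lo19_10_1 (nat_lit 357)))) (M (nat_lit 331) (B (M (nat_lit 299) (B (lo18_10_2 (nat_lit 300)) (lo17_10_2 (nat_lit 298)))) (M (nat_lit 360) (B (lo112_10_1 (nat_lit 332)) (lo15_10_0 (nat_lit 325))))))))))) (B (M (nat_lit 362) (B (lo16_10_0 (nat_lit 326)) (M (nat_lit 330) (B (lo17_10_0 (nat_lit 363)) (M (nat_lit 298) (B (lo17_10_2 (nat_lit 299)) (lo110_8_5 (nat_lit 266)))))))) (K _ _ _ o1_s18683)))))) (B (M (nat_lit 330) (B (M (nat_lit 298) (B (lo19_13_6 (nat_lit 425)) (M (nat_lit 266) (B (lo110_7_5 (nat_lit 234)) (lo110_8_5 (nat_lit 362)))))) (B (M (nat_lit 425) (B (lo19_13_6 (nat_lit 298)) (M (nat_lit 457) (B (lo19_14_6 (nat_lit 362)) (lo19_14_7 (nat_lit 360)))))) (B (M (nat_lit 360) (B (M (nat_lit 359) (B (lo111_10_1 (nat_lit 331)) (lo16_11_2 (nat_lit 358)))) (M (nat_lit 327) (B (M (nat_lit 362) (B (lo17_10_0 (nat_lit 363)) (lo16_10_0 (nat_lit 326)))) (K _ _ _ o1_s18708))))) (B (M (nat_lit 360) (B (M (nat_lit 359) (B (lo111_10_1 (nat_lit 331)) (lo16_11_2 (nat_lit 358)))) (M (nat_lit 425) (B (lo19_13_6 (nat_lit 298)) (lo19_14_7 (nat_lit 457)))))) (M (nat_lit 360) (B (M (nat_lit 359) (B (lo111_10_1 (nat_lit 331)) (lo16_11_2 (nat_lit 358)))) (M (nat_lit 327) (B (M (nat_lit 362) (B (lo17_10_0 (nat_lit 363)) (lo16_10_0 (nat_lit 326)))) (B (M (nat_lit 326) (B (lo16_10_0 (nat_lit 362)) (lo15_10_0 (nat_lit 325)))) (B (M (nat_lit 294) (B (lo110_10_3 (nat_lit 295)) (M (nat_lit 326) (B (lo19_10_3 (nat_lit 293)) (lo15_10_0 (nat_lit 325)))))) (M (nat_lit 362) (B (lo17_10_0 (nat_lit 363)) (M (nat_lit 298) (B (lo17_10_2 (nat_lit 299)) (lo110_8_5 (nat_lit 266))))))))))))))))) (K _ _ _ o1_s18827))))) (B (M (nat_lit 297) (B (M (nat_lit 265) (B (M (nat_lit 266) (B (lo19_11_6 (nat_lit 234)) (lo19_12_6 (nat_lit 298)))) (M (nat_lit 264) (B (lo19_11_7 (nat_lit 232)) (lo19_12_7 (nat_lit 296)))))) (B (M (nat_lit 265) (B (M (nat_lit 264) (B (lo19_11_7 (nat_lit 232)) (lo19_12_7 (nat_lit 296)))) (M (nat_lit 392) (B (lo19_8_5 (nat_lit 360)) (lo19_9_5 (nat_lit 424)))))) (B (M (nat_lit 298) (B (lo19_12_6 (nat_lit 266)) (M (nat_lit 296) (B (lo19_12_7 (nat_lit 264)) (M (nat_lit 299) (B (M (nat_lit 328) (B (lo112_9_1 (nat_lit 300)) (lo111_9_1 (nat_lit 327)))) (B (M (nat_lit 295) (B (M (nat_lit 331) (B (lo18_9_0 (nat_lit 332)) (lo17_9_0 (nat_lit 330)))) (M (nat_lit 327) (B (lo111_9_1 (nat_lit 328)) (lo110_9_1 (nat_lit 326)))))) (M (nat_lit 300) (B (M (nat_lit 268) (B (lo19_9_2 (nat_lit 269)) (lo18_9_2 (nat_lit 267)))) (M (nat_lit 332) (B (lo19_9_0 (nat_lit 333)) (lo18_9_0 (nat_lit 331))))))))))))) (M (nat_lit 265) (B (M (nat_lit 266) (B (lo19_11_6 (nat_lit 234)) (lo19_12_6 (nat_lit 298)))) (M (nat_lit 392) (B (lo19_8_5 (nat_lit 360)) (lo19_9_5 (nat_lit 424)))))))))) (B (K _ _ _ o1_s18830) (B (M (nat_lit 297) (B (M (nat_lit 265) (B (M (nat_lit 266) (B (lo19_11_6 (nat_lit 234)) (lo19_12_6 (nat_lit 298)))) (M (nat_lit 392) (B (lo19_8_5 (nat_lit 360)) (lo19_9_5 (nat_lit 424)))))) (B (M (nat_lit 425) (B (M (nat_lit 298) (B (lo19_12_6 (nat_lit 266)) (lo19_13_6 (nat_lit 330)))) (M (nat_lit 424) (B (lo19_9_5 (nat_lit 392)) (lo19_10_5 (nat_lit 456)))))) (B (M (nat_lit 265) (B (M (nat_lit 392) (B (lo19_8_5 (nat_lit 360)) (lo19_9_5 (nat_lit 424)))) (K _ _ _ o1_s19647))) (B (M (nat_lit 265) (B (M (nat_lit 392) (B (lo19_8_5 (nat_lit 360)) (lo19_9_5 (nat_lit 424)))) (M (nat_lit 233) (B (M (nat_lit 234) (B (lo19_10_6 (nat_lit 202)) (lo19_11_6 (nat_lit 266)))) (M (nat_lit 232) (B (lo19_10_7 (nat_lit 200)) (lo19_11_7 (nat_lit 264)))))))) (M (nat_lit 265) (B (M (nat_lit 266) (B (lo19_11_6 (nat_lit 234)) (lo19_12_6 (nat_lit 298)))) (B (M (nat_lit 298) (B (lo19_12_6 (nat_lit 266)) (M (nat_lit 330) (B (lo19_13_6 (nat_lit 425)) (M (nat_lit 233) (B (lo19_6_4 (nat_lit 201)) (lo19_7_4 (nat_lit 362)))))))) (B (K _ _ _ o1_s19647) (M (nat_lit 233) (B (M (nat_lit 234) (B (lo19_10_6 (nat_lit 202)) (lo19_11_6 (nat_lit 266)))) (M (nat_lit 232) (B (lo19_10_7 (nat_lit 200)) (lo19_11_7 (nat_lit 264))))))))))))))) (B (K _ _ _ o1_s18639) (B (K _ _ _ o1_s18838) (M (nat_lit 330) (B (M (nat_lit 298) (B (lo19_13_6 (nat_lit 425)) (M (nat_lit 266) (B (lo110_7_5 (nat_lit 234)) (lo19_12_6 (nat_lit 297)))))) (B (M (nat_lit 298) (B (lo19_13_6 (nat_lit 425)) (M (nat_lit 266) (B (lo110_8_5 (nat_lit 362)) (lo19_12_6 (nat_lit 297)))))) (B (M (nat_lit 328) (B (M (nat_lit 425) (B (lo19_13_6 (nat_lit 298)) (lo19_13_7 (nat_lit 296)))) (B (M (nat_lit 360) (B (M (nat_lit 359) (B (lo111_10_1 (nat_lit 331)) (lo16_11_2 (nat_lit 358)))) (M (nat_lit 296) (B (lo19_13_7 (nat_lit 425)) (lo18_8_4 (nat_lit 264)))))) (M (nat_lit 327) (B (M (nat_lit 362) (B (lo17_10_0 (nat_lit 363)) (lo16_10_0 (nat_lit 326)))) (M (nat_lit 331) (B (M (nat_lit 299) (B (lo18_10_2 (nat_lit 300)) (lo17_10_2 (nat_lit 298)))) (M (nat_lit 359) (B (lo111_10_1 (nat_lit 360)) (lo110_10_1 (nat_lit 358))))))))))) (B (M (nat_lit 331) (B (M (nat_lit 360) (B (lo112_10_1 (nat_lit 332)) (M (nat_lit 359) (B (lo17_11_2 (nat_lit 362)) (lo111_10_1 (nat_lit 328)))))) (B (M (nat_lit 328) (B (M (nat_lit 296) (B (lo111_10_3 (nat_lit 295)) (lo19_13_7 (nat_lit 425)))) (M (nat_lit 327) (B (M (nat_lit 359) (B (lo111_10_1 (nat_lit 360)) (lo110_10_1 (nat_lit 358)))) (M (nat_lit 362) (B (lo17_10_0 (nat_lit 363)) (lo16_10_0 (nat_lit 326)))))))) (B (M (nat_lit 360) (B (lo112_10_1 (nat_lit 332)) (M (nat_lit 359) (B (lo111_10_1 (nat_lit 328)) (lo16_11_2 (nat_lit 358)))))) (B (M (nat_lit 360) (B (lo112_10_1 (nat_lit 332)) (M (nat_lit 359) (B (lo17_11_2 (nat_lit 362)) (lo16_11_2 (nat_lit 358)))))) (M (nat_lit 296) (B (M (nat_lit 297) (B (lo112_10_3 (nat_lit 332)) (lo19_12_7 (nat_lit 264)))) (M (nat_lit 328) (B (lo111_10_3 (nat_lit 295)) (lo19_13_7 (nat_lit 425))))))))))) (M (nat_lit 331) (B (M (nat_lit 360) (B (lo112_10_1 (nat_lit 332)) (M (nat_lit 359) (B (lo17_11_2 (nat_lit 362)) (lo111_10_1 (nat_lit 328)))))) (B (M (nat_lit 328) (B (M (nat_lit 296) (B (lo111_10_3 (nat_lit 295)) (M (nat_lit 264) (B (lo19_12_7 (nat_lit 297)) (lo18_7_4 (nat_lit 232)))))) (M (nat_lit 298) (B (M (nat_lit 299) (B (lo18_10_2 (nat_lit 300)) (lo17_10_2 (nat_lit 327)))) (M (nat_lit 266) (B (lo110_7_5 (nat_lit 234)) (lo110_8_5 (nat_lit 362)))))))) (M (nat_lit 332) (B (lo112_10_1 (nat_lit 360)) (M (nat_lit 297) (B (lo112_10_3 (nat_lit 296)) (M (nat_lit 298) (B (lo113_10_3 (nat_lit 333)) (lo19_12_6 (nat_lit 266)))))))))))))))))))))))))))) (M (nat_lit 329) (B (K _ _ _ o1_s18639) (B (M (nat_lit 297) (B (M (nat_lit 265) (B (M (nat_lit 394) (B (lo19_12_0 (nat_lit 395)) (lo19_8_4 (nat_lit 362)))) (M (nat_lit 264) (B (lo19_11_7 (nat_lit 232)) (lo19_12_7 (nat_lit 296)))))) (M (nat_lit 425) (B (M (nat_lit 298) (B (lo19_12_6 (nat_lit 266)) (lo19_13_6 (nat_lit 330)))) (M (nat_lit 424) (B (lo19_9_5 (nat_lit 392)) (lo19_10_5 (nat_lit 456)))))))) (B (M (nat_lit 297) (B (M (nat_lit 265) (B (M (nat_lit 394) (B (lo19_12_0 (nat_lit 395)) (lo19_8_4 (nat_lit 362)))) (M (nat_lit 264) (B (lo19_11_7 (nat_lit 232)) (lo19_12_7 (nat_lit 296)))))) (B (M (nat_lit 425) (B (M (nat_lit 296) (B (lo19_12_7 (nat_lit 264)) (lo19_13_7 (nat_lit 328)))) (M (nat_lit 424) (B (lo19_9_5 (nat_lit 392)) (lo19_10_5 (nat_lit 456)))))) (K _ _ _ o1_s19730)))) (B (M (nat_lit 297) (B (M (nat_lit 265) (B (M (nat_lit 394) (B (lo19_12_0 (nat_lit 395)) (lo19_8_4 (nat_lit 362)))) (M (nat_lit 264) (B (lo19_11_7 (nat_lit 232)) (lo19_12_7 (nat_lit 296)))))) (B (M (nat_lit 425) (B (M (nat_lit 296) (B (lo19_12_7 (nat_lit 264)) (lo19_13_7 (nat_lit 328)))) (M (nat_lit 424) (B (lo19_9_5 (nat_lit 392)) (lo19_10_5 (nat_lit 456)))))) (M (nat_lit 425) (B (M (nat_lit 424) (B (lo19_9_5 (nat_lit 392)) (lo19_10_5 (nat_lit 456)))) (M (nat_lit 394) (B (lo19_12_0 (nat_lit 395)) (M (nat_lit 362) (B (lo19_8_4 (nat_lit 265)) (M (nat_lit 457) (B (lo19_14_6 (nat_lit 330)) (lo19_15_6 (nat_lit 489))))))))))))) (B (M (nat_lit 297) (B (M (nat_lit 394) (B (lo19_12_0 (nat_lit 395)) (M (nat_lit 265) (B (lo19_8_4 (nat_lit 362)) (M (nat_lit 266) (B (lo19_11_6 (nat_lit 234)) (lo19_12_6 (nat_lit 298)))))))) (M (nat_lit 425) (B (M (nat_lit 296) (B (lo19_12_7 (nat_lit 264)) (lo19_13_7 (nat_lit 328)))) (M (nat_lit 424) (B (lo19_9_5 (nat_lit 392)) (lo19_10_5 (nat_lit 456)))))))) (B (M (nat_lit 298) (B (M (nat_lit 266) (B (lo19_12_6 (nat_lit 297)) (M (nat_lit 330) (B (lo110_8_5 (nat_lit 362)) (lo19_13_6 (nat_lit 425)))))) (B (M (nat_lit 425) (B (lo19_13_6 (nat_lit 330)) (M (nat_lit 297) (B (M (nat_lit 296) (B (lo19_12_7 (nat_lit 264)) (lo19_13_7 (nat_lit 328)))) (M (nat_lit 424) (B (lo19_9_5 (nat_lit 392)) (lo19_10_5 (nat_lit 456)))))))) (B (M (nat_lit 297) (B (lo19_12_6 (nat_lit 266)) (M (nat_lit 425) (B (M (nat_lit 296) (B (lo19_12_7 (nat_lit 264)) (lo19_13_7 (nat_lit 328)))) (M (nat_lit 424) (B (lo19_9_5 (nat_lit 392)) (lo19_10_5 (nat_lit 456)))))))) (B (M (nat_lit 330) (B (lo19_13_6 (nat_lit 425)) (M (nat_lit 266) (B (lo110_7_5 (nat_lit 234)) (lo110_8_5 (nat_lit 362)))))) (M (nat_lit 266) (B (lo19_12_6 (nat_lit 297)) (M (nat_lit 330) (B (lo110_7_5 (nat_lit 234)) (lo110_8_5 (nat_lit 362))))))))))) (B (M (nat_lit 395) (B (lo19_12_0 (nat_lit 394)) (M (nat_lit 330) (B (M (nat_lit 298) (B (lo19_13_6 (nat_lit 425)) (M (nat_lit 266) (B (lo110_7_5 (nat_lit 234)) (lo110_8_5 (nat_lit 362)))))) (B (M (nat_lit 298) (B (lo19_13_6 (nat_lit 425)) (M (nat_lit 363) (B (lo111_13_7 (nat_lit 331)) (M (nat_lit 362) (B (lo111_14_7 (nat_lit 459)) (lo110_8_4 (nat_lit 266)))))))) (B (M (nat_lit 328) (B (M (nat_lit 425) (B (lo19_13_6 (nat_lit 298)) (lo19_13_7 (nat_lit 296)))) (M (nat_lit 363) (B (M (nat_lit 460) (B (lo112_15_7 (nat_lit 492)) (lo111_10_4 (nat_lit 331)))) (M (nat_lit 362) (B (lo111_14_7 (nat_lit 459)) (lo17_10_0 (nat_lit 327)))))))) (B (M (nat_lit 363) (B (M (nat_lit 460) (B (lo112_15_7 (nat_lit 492)) (lo111_10_4 (nat_lit 331)))) (B (M (nat_lit 331) (B (lo111_9_4 (nat_lit 299)) (M (nat_lit 332) (B (lo111_13_6 (nat_lit 300)) (M (nat_lit 362) (B (lo113_10_1 (nat_lit 333)) (lo111_14_7 (nat_lit 459)))))))) (M (nat_lit 492) (B (lo112_15_7 (nat_lit 460)) (M (nat_lit 459) (B (lo111_14_7 (nat_lit 362)) (M (nat_lit 491) (B (lo111_16_6 (nat_lit 523)) (lo111_12_4 (nat_lit 524))))))))))) (M (nat_lit 331) (B (M (nat_lit 363) (B (lo111_9_4 (nat_lit 299)) (lo111_10_4 (nat_lit 460)))) (B (M (nat_lit 363) (B (lo111_9_4 (nat_lit 299)) (lo111_13_7 (nat_lit 298)))) (B (M (nat_lit 363) (B (lo111_10_4 (nat_lit 460)) (lo111_13_7 (nat_lit 298)))) (M (nat_lit 328) (B (M (nat_lit 425) (B (lo19_13_6 (nat_lit 298)) (lo19_13_7 (nat_lit 296)))) (B (M (nat_lit 296) (B (lo111_10_3 (nat_lit 295)) (lo19_13_7 (nat_lit 425)))) (B (M (nat_lit 327) (B (M (nat_lit 299) (B (lo18_10_2 (nat_lit 300)) (lo17_10_2 (nat_lit 298)))) (M (nat_lit 295) (B (lo111_10_3 (nat_lit 296)) (lo110_10_3 (nat_lit 294)))))) (M (nat_lit 299) (B (lo18_10_2 (nat_lit 300)) (M (nat_lit 298) (B (lo17_10_2 (nat_lit 327)) (lo19_13_6 (nat_lit 425))))))))))))))))))))) (B (M (nat_lit 297) (B (M (nat_lit 394) (B (lo19_12_0 (nat_lit 395)) (M (nat_lit 265) (B (lo19_8_4 (nat_lit 362)) (M (nat_lit 266) (B (lo19_11_6 (nat_lit 234)) (lo19_12_6 (nat_lit 298)))))))) (B (M (nat_lit 265) (B (M (nat_lit 266) (B (lo19_11_6 (nat_lit 234)) (lo19_12_6 (nat_lit 298)))) (M (nat_lit 264) (B (lo19_11_7 (nat_lit 232)) (lo19_12_7 (nat_lit 296)))))) (B (M (nat_lit 265) (B (M (nat_lit 394) (B (lo19_12_0 (nat_lit 395)) (lo19_8_4 (nat_lit 362)))) (M (nat_lit 264) (B (lo19_11_7 (nat_lit 232)) (lo19_12_7 (nat_lit 296)))))) (M (nat_lit 298) (B (lo19_12_6 (nat_lit 266)) (M (nat_lit 331) (B (M (nat_lit 296) (B (lo19_12_7 (nat_lit 264)) (M (nat_lit 332) (B (lo18_9_0 (nat_lit 299)) (lo112_10_3 (nat_lit 330)))))) (B (M (nat_lit 395) (B (lo19_12_0 (nat_lit 394)) (M (nat_lit 363) (B (lo111_9_4 (nat_lit 299)) (lo111_10_4 (nat_lit 460)))))) (M (nat_lit 395) (B (lo19_12_0 (nat_lit 394)) (M (nat_lit 363) (B (lo111_10_4 (nat_lit 460)) (lo111_13_7 (nat_lit 330))))))))))))))) (M (nat_lit 297) (B (M (nat_lit 394) (B (lo19_12_0 (nat_lit 395)) (M (nat_lit 265) (B (lo19_8_4 (nat_lit 362)) (M (nat_lit 266) (B (lo19_11_6 (nat_lit 234)) (lo19_12_6 (nat_lit 298)))))))) (B (M (nat_lit 425) (B (M (nat_lit 298) (B (lo19_12_6 (nat_lit 266)) (lo19_13_6 (nat_lit 330)))) (M (nat_lit 424) (B (lo19_9_5 (nat_lit 392)) (lo19_10_5 (nat_lit 456)))))) (B (K _ _ _ o1_s19730) (M (nat_lit 265) (B (M (nat_lit 394) (B (lo19_12_0 (nat_lit 395)) (lo19_8_4 (nat_lit 362)))) (M (nat_lit 233) (B (M (nat_lit 234) (B (lo19_10_6 (nat_lit 202)) (lo19_11_6 (nat_lit 266)))) (M (nat_lit 232) (B (lo19_10_7 (nat_lit 200)) (lo19_11_7 (nat_lit 264)))))))))))))))))))))))))))))))))))) _ _ _ (by decide +kernel)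
theorem o1_s20099 : Sem (nat_lit 5954262831942343557858613545269153845180429116227021382992687595549100311500678723835184176193251499153269225438730403834893922697016770560) (nat_lit 186070713462998327961351540652278061434729828966649520232691918794168442220869382692952395645708966388365942129568200512235625013988818944) (nat_lit 186070713462998327961351540652278061434729828966649520232691918794168442220869382692952395645708966388365942129568200512235625013988818944) := sem_of_chk (M (nat_lit 329) (B (M (nat_lit 297) (B (M (nat_lit 298) (B (lo19_12_6 (nat_lit 266)) (lo19_13_6 (nat_lit 330)))) (M (nat_lit 296) (B (lo19_12_7 (nat_lit 264)) (lo19_13_7 (nat_lit 328)))))) (B (M (nat_lit 296) (B (lo19_13_7 (nat_lit 328)) (M (nat_lit 297) (B (lo19_12_7 (nat_lit 264)) (M (nat_lit 424) (B (lo19_9_5 (nat_lit 392)) (lo19_10_5 (nat_lit 456)))))))) (B (K _ _ _ o1_s20098) (M (nat_lit 297) (B (M (nat_lit 298) (B (lo19_12_6 (nat_lit 266)) (lo19_13_6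 (nat_lit 330)))) (M (nat_lit 424) (B (lo19_9_5 (nat_lit 392)) (lo19_10_5 (nat_lit 456)))))))))) _ _ _ (by decide +kernel)
theorem o1_s21937 : Sem (nat_lit 2977131417140891806045743319240378983837713253882137215866823359118068157150271538274000963883553169878005419334483574406985853621158019072) (nat_lit 7597989935111268419056013233770832791302207694147347447133786714968673703771081966373642778881752050155023007314527065544645494004301956210322049323133333089388060599120344121344) (nat_lit 7597989935111268419056013233770832791302207694147347447133786714968673703771081966373642778881752050155023007314527065544645494004301956210322049323133333089388060599120344121344) := sem_of_chk (M (nat_lit 492) (B (M (nat_lit 524) (B (M (nat_lit 556) (B (lo112_17_7 (nat_lit 459)) (M (nat_lit 557) (B (lo112_13_4 (nat_lit 525)) (lo112_14_4 (nat_lit 589)))))) (B (M (nat_lit 556) (B (lo112_17_7 (nat_lit 459)) (M (nat_lit 555) (B (lo112_13_5 (nat_lit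 523)) (lo112_14_5 (nat_lit 587)))))) (M (nat_lit 396) (B (M (nat_lit 525) (B (lo112_12_4 (nat_lit 493)) (lo112_13_4 (nat_lit 557)))) (M (nat_lit 523) (B (lo112_12_5 (nat_lit 491)) (lo112_13_5 (nat_lit 555))))))))) (B (M (nat_lit 524) (B (M (nat_lit 556) (B (lo112_17_7 (nat_lit 459)) (M (nat_lit 557) (B (lo112_13_4 (nat_lit 525)) (lo112_14_4 (nat_lit 589)))))) (B (M (nat_lit 556) (B (lo112_17_7 (nat_lit 459)) (M (nat_lit 555) (B (lo112_13_5 (nat_lit 523)) (lo112_14_5 (nat_lit 587)))))) (K _ _ _ o1_s21769)))) (B (M (nat_lit 461) (B (M (nat_lit 462) (B (lo115_14_3 (nat_lit 463)) (M (nat_lit 426) (B (lo114_14_3 (nat_lit 459)) (lo19_13_0 (nat_lit 425)))))) (B (M (nat_lit 426) (B (lo19_13_0 (nat_lit 425)) (M (nat_lit 462) (B (lo110_13_0 (nat_lit 429)) (lo114_14_3 (nat_lit 459)))))) (B (M (nat_lit 524) (B (M (nat_lit 556) (B (lo112_17_6 (nat_lit 429)) (lo112_17_7 (nat_lit 459)))) (B (M (nat_lit 396) (B (M (nat_lit 523) (B (lo112_12_5 (nat_lit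 491)) (lo112_13_5 (nat_lit 555)))) (M (nat_lit 493) (B (lo112_11_4 (nat_lit 364)) (M (nat_lit 556) (B (lo112_18_6 (nat_lit 588)) (lo112_17_7 (nat_lit 459)))))))) (B (M (nat_lit 396) (B (M (nat_lit 523) (B (lo112_12_5 (nat_lit 491)) (lo112_13_5 (nat_lit 555)))) (M (nat_lit 364) (B (lo112_11_4 (nat_lit 493)) (M (nat_lit 332) (B (lo112_10_4 (nat_lit 429)) (lo112_10_5 (nat_lit 459)))))))) (M (nat_lit 396) (B (M (nat_lit 523) (B (lo112_12_5 (nat_lit 491)) (lo112_13_5 (nat_lit 555)))) (lo112_17_6 (nat_lit 556)))))))) (M (nat_lit 462) (B (lo115_14_3 (nat_lit 463)) (M (nat_lit 426) (B (lo110_13_0 (nat_lit 429)) (lo19_13_0 (nat_lit 425)))))))))) (B (M (nat_lit 524) (B (M (nat_lit 556) (B (lo112_17_7 (nat_lit 459)) (M (nat_lit 557) (B (lo112_13_4 (nat_lit 525)) (lo112_14_4 (nat_lit 589)))))) (B (M (nat_lit 556) (B (lo112_17_7 (nat_lit 459)) (M (nat_lit 555) (B (lo112_13_5 (nat_lit 523)) (lo112_14_5 (nat_lit 587)))))) (B (M (nat_lit 523) (B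 (lo112_13_5 (nat_lit 555)) (M (nat_lit 525) (B (lo112_13_4 (nat_lit 557)) (M (nat_lit 522) (B (M (nat_lit 493) (B (lo110_16_2 (nat_lit 494)) (lo19_16_2 (nat_lit 521)))) (M (nat_lit 491) (B (M (nat_lit 526) (B (lo115_16_3 (nat_lit 527)) (lo114_16_3 (nat_lit 490)))) (M (nat_lit 554) (B (lo113_16_1 (nat_lit 553)) (lo111_13_5 (nat_lit 459)))))))))))) (M (nat_lit 556) (B (M (nat_lit 557) (B (lo112_13_4 (nat_lit 525)) (lo112_14_4 (nat_lit 589)))) (M (nat_lit 555) (B (lo112_13_5 (nat_lit 523)) (lo112_14_5 (nat_lit 587)))))))))) (B (M (nat_lit 491) (B (M (nat_lit 523) (B (lo112_12_5 (nat_lit 396)) (M (nat_lit 555) (B (lo111_17_6 (nat_lit 459)) (lo111_18_6 (nat_lit 587)))))) (B (M (nat_lit 523) (B (M (nat_lit 555) (B (lo111_17_6 (nat_lit 459)) (lo111_18_6 (nat_lit 587)))) (M (nat_lit 461) (B (M (nat_lit 462) (B (lo115_14_3 (nat_lit 463)) (M (nat_lit 426) (B (lo110_13_0 (nat_lit 429)) (lo19_13_0 (nat_lit 425)))))) (B (M (nat_lit 462) (B (M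 (nat_lit 426) (B (lo110_13_0 (nat_lit 429)) (lo19_13_0 (nat_lit 425)))) (M (nat_lit 490) (B (lo110_15_2 (nat_lit 493)) (lo19_15_2 (nat_lit 489)))))) (M (nat_lit 490) (B (lo19_15_2 (nat_lit 489)) (M (nat_lit 493) (B (M (nat_lit 525) (B (lo110_15_0 (nat_lit 526)) (lo113_17_7 (nat_lit 557)))) (M (nat_lit 522) (B (lo114_15_1 (nat_lit 494)) (lo113_15_1 (nat_lit 521))))))))))))) (B (M (nat_lit 461) (B (M (nat_lit 462) (B (lo115_14_3 (nat_lit 463)) (M (nat_lit 426) (B (lo110_13_0 (nat_lit 429)) (lo19_13_0 (nat_lit 425)))))) (M (nat_lit 396) (B (lo112_12_5 (nat_lit 523)) (M (nat_lit 493) (B (lo112_11_4 (nat_lit 364)) (lo112_12_4 (nat_lit 525)))))))) (M (nat_lit 493) (B (M (nat_lit 396) (B (lo112_12_4 (nat_lit 525)) (M (nat_lit 364) (B (lo112_11_4 (nat_lit 461)) (lo112_11_5 (nat_lit 459)))))) (B (M (nat_lit 525) (B (lo112_12_4 (nat_lit 396)) (M (nat_lit 526) (B (lo110_15_0 (nat_lit 490)) (M (nat_lit 527) (B (lo116_16_3 (nat_lit 528)) (lo111_15_0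 (nat_lit 494)))))))) (M (nat_lit 462) (B (M (nat_lit 463) (B (lo111_15_2 (nat_lit 494)) (lo115_14_3 (nat_lit 461)))) (B (M (nat_lit 461) (B (lo110_15_2 (nat_lit 490)) (M (nat_lit 426) (B (lo110_13_0 (nat_lit 429)) (lo114_14_3 (nat_lit 459)))))) (M (nat_lit 494) (B (lo111_15_2 (nat_lit 463)) (M (nat_lit 495) (B (lo115_15_3 (nat_lit 459)) (M (nat_lit 527) (B (lo112_15_0 (nat_lit 528)) (lo111_15_0 (nat_lit 526)))))))))))))))))) (B (M (nat_lit 461) (B (M (nat_lit 462) (B (lo115_14_3 (nat_lit 463)) (M (nat_lit 426) (B (lo110_13_0 (nat_lit 429)) (lo19_13_0 (nat_lit 425)))))) (B (M (nat_lit 524) (B (M (nat_lit 556) (B (lo112_17_6 (nat_lit 429)) (M (nat_lit 557) (B (lo112_13_4 (nat_lit 525)) (lo112_14_4 (nat_lit 589)))))) (B (M (nat_lit 556) (B (M (nat_lit 557) (B (lo112_13_4 (nat_lit 525)) (lo112_14_4 (nat_lit 589)))) (M (nat_lit 555) (B (lo112_13_5 (nat_lit 523)) (lo112_14_5 (nat_lit 587)))))) (B (M (nat_lit 556) (B (lo112_17_6 (nat_lit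 429)) (M (nat_lit 555) (B (lo112_13_5 (nat_lit 523)) (lo112_14_5 (nat_lit 587)))))) (M (nat_lit 396) (B (M (nat_lit 493) (B (lo112_11_4 (nat_lit 364)) (lo112_12_4 (nat_lit 525)))) (M (nat_lit 523) (B (lo112_12_5 (nat_lit 491)) (lo112_13_5 (nat_lit 555)))))))))) (M (nat_lit 491) (B (M (nat_lit 462) (B (lo115_14_3 (nat_lit 463)) (M (nat_lit 490) (B (lo110_15_2 (nat_lit 493)) (lo19_15_2 (nat_lit 489)))))) (M (nat_lit 523) (B (lo112_12_5 (nat_lit 396)) (M (nat_lit 555) (B (lo112_13_5 (nat_lit 524)) (lo111_18_6 (nat_lit 587))))))))))) (B (M (nat_lit 524) (B (M (nat_lit 556) (B (lo112_17_7 (nat_lit 459)) (M (nat_lit 557) (B (lo112_13_4 (nat_lit 525)) (lo112_14_4 (nat_lit 589)))))) (B (M (nat_lit 556) (B (lo112_17_7 (nat_lit 459)) (M (nat_lit 555) (B (lo112_13_5 (nat_lit 523)) (lo112_14_5 (nat_lit 587)))))) (M (nat_lit 525) (B (lo112_13_4 (nat_lit 557)) (M (nat_lit 493) (B (lo112_12_4 (nat_lit 396)) (M (nat_lit 523) (B (lo112_13_5 (nat_lit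 555)) (M (nat_lit 522) (B (lo110_16_2 (nat_lit 494)) (lo19_16_2 (nat_lit 521))))))))))))) (M (nat_lit 461) (B (M (nat_lit 462) (B (lo115_14_3 (nat_lit 463)) (M (nat_lit 426) (B (lo114_14_3 (nat_lit 459)) (lo19_13_0 (nat_lit 425)))))) (B (M (nat_lit 426) (B (lo19_13_0 (nat_lit 425)) (M (nat_lit 462) (B (lo110_13_0 (nat_lit 429)) (lo114_14_3 (nat_lit 459)))))) (B (M (nat_lit 525) (B (M (nat_lit 493) (B (lo113_17_7 (nat_lit 557)) (lo112_12_4 (nat_lit 396)))) (B (M (nat_lit 524) (B (lo112_13_4 (nat_lit 557)) (M (nat_lit 556) (B (lo112_17_6 (nat_lit 429)) (lo112_17_7 (nat_lit 459)))))) (M (nat_lit 493) (B (lo112_12_4 (nat_lit 396)) (M (nat_lit 494) (B (M (nat_lit 495) (B (lo116_15_3 (nat_lit 496)) (lo115_15_3 (nat_lit 459)))) (M (nat_lit 526) (B (M (nat_lit 527) (B (lo116_16_3 (nat_lit 528)) (lo111_15_0 (nat_lit 491)))) (M (nat_lit 558) (B (lo114_18_7 (nat_lit 590)) (lo113_13_4 (nat_lit 429))))))))))))) (M (nat_lit 462) (B (lo115_14_3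 (nat_lit 463)) (M (nat_lit 426) (B (lo110_13_0 (nat_lit 429)) (lo19_13_0 (nat_lit 425)))))))))))))))))) _ _ _ (by decide +kernel)
theorem o1_s22007 : Sem (nat_lit 2977131417140891806045743319240378983837713253882137215866823359118068157150271538274000963883553169878005419334483574406985853621158019072) (nat_lit 2532663311910144710074222491244459143549639091571410492091348864203074612086057593291963633760012134326305115289325786903879440431869438485233257915227735379668742895643788312576) (nat_lit 2532663311910144710074222491244459143549639091571410492091348864203074612086057593291963633760012134326305115289325786903879440431869438485233257915227735379668742895643788312576) := sem_of_chk (M (nat_lit 492) (B (M (nat_lit 395) (B (lo112_16_7 (nat_lit 524)) (M (nat_lit 363) (B (lo111_11_4 (nat_lit 459)) (lo111_10_4 (nat_lit 331)))))) (B (M (nat_lit 461) (B (M (nat_lit 462) (B (lo115_14_3 (nat_lit 463)) (M (nat_lit 426) (B (lo114_14_3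 (nat_lit 459)) (lo19_13_0 (nat_lit 425)))))) (B (M (nat_lit 426) (B (lo19_13_0 (nat_lit 425)) (M (nat_lit 462) (B (lo110_13_0 (nat_lit 429)) (lo114_14_3 (nat_lit 459)))))) (B (M (nat_lit 426) (B (lo19_13_0 (nat_lit 425)) (M (nat_lit 396) (B (M (nat_lit 491) (B (lo112_12_5 (nat_lit 523)) (M (nat_lit 364) (B (lo112_11_5 (nat_lit 459)) (M (nat_lit 363) (B (lo112_15_7 (nat_lit 395)) (lo112_14_7 (nat_lit 331)))))))) (B (M (nat_lit 458) (B (M (nat_lit 457) (B (lo113_13_1 (nat_lit 429)) (M (nat_lit 456) (B (lo18_14_2 (nat_lit 459)) (lo17_14_2 (nat_lit 455)))))) (M (nat_lit 490) (B (M (nat_lit 491) (B (lo19_15_2 (nat_lit 489)) (lo112_12_5 (nat_lit 523)))) (M (nat_lit 395) (B (lo112_15_7 (nat_lit 363)) (lo110_16_6 (nat_lit 522)))))))) (B (M (nat_lit 364) (B (M (nat_lit 363) (B (lo112_15_7 (nat_lit 395)) (lo112_14_7 (nat_lit 331)))) (M (nat_lit 332) (B (lo112_10_4 (nat_lit 429)) (lo112_10_5 (nat_lit 459)))))) (B (M (nat_lit 364) (B (M (nat_lit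 363) (B (lo112_15_7 (nat_lit 395)) (lo112_14_7 (nat_lit 331)))) (M (nat_lit 333) (B (lo112_14_6 (nat_lit 365)) (M (nat_lit 332) (B (lo112_10_4 (nat_lit 429)) (lo112_13_6 (nat_lit 301)))))))) (M (nat_lit 364) (B (M (nat_lit 491) (B (lo112_12_5 (nat_lit 523)) (lo112_11_5 (nat_lit 459)))) (B (M (nat_lit 332) (B (lo112_10_4 (nat_lit 429)) (lo112_10_5 (nat_lit 459)))) (M (nat_lit 333) (B (lo112_14_6 (nat_lit 365)) (M (nat_lit 332) (B (lo112_10_4 (nat_lit 429)) (lo112_13_6 (nat_lit 301)))))))))))))))) (B (M (nat_lit 462) (B (lo115_14_3 (nat_lit 463)) (M (nat_lit 426) (B (lo110_13_0 (nat_lit 429)) (lo19_13_0 (nat_lit 425)))))) (M (nat_lit 396) (B (M (nat_lit 491) (B (lo112_12_5 (nat_lit 523)) (M (nat_lit 462) (B (lo115_14_1 (nat_lit 463)) (M (nat_lit 459) (B (lo114_14_1 (nat_lit 490)) (lo112_11_5 (nat_lit 364)))))))) (B (M (nat_lit 364) (B (M (nat_lit 491) (B (lo112_12_5 (nat_lit 523)) (lo112_11_5 (nat_lit 459)))) (M (nat_lit 363) (B (lo112_15_7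 (nat_lit 395)) (lo112_14_7 (nat_lit 331)))))) (B (M (nat_lit 491) (B (lo112_12_5 (nat_lit 523)) (M (nat_lit 462) (B (lo115_14_1 (nat_lit 463)) (M (nat_lit 490) (B (lo114_14_1 (nat_lit 459)) (lo19_15_2 (nat_lit 489)))))))) (B (M (nat_lit 364) (B (M (nat_lit 363) (B (lo112_15_7 (nat_lit 395)) (lo112_14_7 (nat_lit 331)))) (M (nat_lit 332) (B (lo112_10_4 (nat_lit 429)) (lo112_10_5 (nat_lit 459)))))) (M (nat_lit 364) (B (M (nat_lit 363) (B (lo112_15_7 (nat_lit 395)) (lo112_14_7 (nat_lit 331)))) (M (nat_lit 333) (B (lo112_14_6 (nat_lit 365)) (M (nat_lit 332) (B (lo112_10_4 (nat_lit 429)) (lo112_13_6 (nat_lit 301)))))))))))))))))) (B (M (nat_lit 395) (B (lo112_16_7 (nat_lit 524)) (M (nat_lit 363) (B (lo112_15_7 (nat_lit 396)) (lo111_10_4 (nat_lit 331)))))) (M (nat_lit 524) (B (M (nat_lit 556) (B (lo112_17_7 (nat_lit 459)) (M (nat_lit 555) (B (lo112_14_5 (nat_lit 587)) (lo112_13_5 (nat_lit 523)))))) (B (K _ _ _ o1_s21769) (M (nat_lit 556)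 (B (lo112_17_7 (nat_lit 459)) (M (nat_lit 557) (B (lo112_14_4 (nat_lit 589)) (lo112_13_4 (nat_lit 525))))))))))))) _ _ _ (by decide +kernel)
theorem o1_s22099 : Sem (nat_lit 2977131417140891806045743319240378983837713253882137215866823359118068157150271538274000963883553169878005419334483574406985853621158019072) (nat_lit 2532663311910144709422066713557624584748407310813829914271440919775730828829157888171314836334981886384013828014408149831678985619544521655746896688954500787484307185171123142656) (nat_lit 2532663311910144709422066713557624584748407310813829914271440919775730828829157888171314836334981886384013828014408149831678985619544521655746896688954500787484307185171123142656) := sem_of_chk (M (nat_lit 492) (B (M (nat_lit 395) (B (lo112_16_7 (nat_lit 524)) (M (nat_lit 363) (B (lo111_10_4 (nat_lit 331)) (lo112_15_7 (nat_lit 396)))))) (B (M (nat_lit 461) (B (M (nat_lit 462) (B (lo115_14_3 (nat_lit 463)) (M (nat_lit 426) (B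 (lo19_13_0 (nat_lit 425)) (lo110_13_0 (nat_lit 429)))))) (B (M (nat_lit 491) (B (M (nat_lit 396) (B (lo112_12_5 (nat_lit 523)) (M (nat_lit 493) (B (lo112_12_4 (nat_lit 525)) (lo112_11_4 (nat_lit 364)))))) (B (M (nat_lit 462) (B (lo115_14_1 (nat_lit 463)) (M (nat_lit 490) (B (lo19_15_2 (nat_lit 489)) (lo110_15_2 (nat_lit 493)))))) (M (nat_lit 523) (B (lo112_12_5 (nat_lit 396)) (M (nat_lit 555) (B (lo111_18_6 (nat_lit 587)) (lo112_13_5 (nat_lit 524))))))))) (M (nat_lit 524) (B (M (nat_lit 556) (B (lo112_17_6 (nat_lit 429)) (M (nat_lit 557) (B (lo112_14_4 (nat_lit 589)) (lo112_13_4 (nat_lit 525)))))) (B (M (nat_lit 396) (B (M (nat_lit 523) (B (lo112_13_5 (nat_lit 555)) (lo112_12_5 (nat_lit 491)))) (M (nat_lit 525) (B (lo112_13_4 (nat_lit 557)) (lo112_12_4 (nat_lit 493)))))) (M (nat_lit 555) (B (lo112_13_5 (nat_lit 523)) (M (nat_lit 556) (B (lo112_14_5 (nat_lit 587)) (lo112_17_6 (nat_lit 429)))))))))))) (B (M (nat_lit 461) (B (M (nat_lit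 462) (B (lo115_14_3 (nat_lit 463)) (M (nat_lit 426) (B (lo19_13_0 (nat_lit 425)) (lo110_13_0 (nat_lit 429)))))) (B (M (nat_lit 462) (B (lo115_14_3 (nat_lit 463)) (M (nat_lit 396) (B (M (nat_lit 493) (B (lo112_12_4 (nat_lit 525)) (lo112_11_4 (nat_lit 364)))) (B (M (nat_lit 491) (B (lo112_12_5 (nat_lit 523)) (M (nat_lit 493) (B (lo110_15_2 (nat_lit 490)) (lo112_12_4 (nat_lit 525)))))) (B (M (nat_lit 491) (B (lo112_12_5 (nat_lit 523)) (M (nat_lit 493) (B (lo110_15_2 (nat_lit 490)) (lo112_11_4 (nat_lit 364)))))) (M (nat_lit 364) (B (M (nat_lit 363) (B (lo112_15_7 (nat_lit 395)) (lo112_14_7 (nat_lit 331)))) (lo110_13_0 (nat_lit 426)))))))))) (B (M (nat_lit 396) (B (M (nat_lit 493) (B (lo112_12_4 (nat_lit 525)) (lo112_11_4 (nat_lit 364)))) (B (M (nat_lit 493) (B (lo112_12_4 (nat_lit 525)) (M (nat_lit 491) (B (lo112_12_5 (nat_lit 523)) (M (nat_lit 462) (B (lo110_15_2 (nat_lit 490)) (lo115_14_1 (nat_lit 463)))))))) (B (M (nat_lit 364) (B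 (lo112_11_4 (nat_lit 493)) (M (nat_lit 363) (B (lo112_15_7 (nat_lit 395)) (lo112_14_7 (nat_lit 331)))))) (K _ _ _ o1_s22063))))) (B (M (nat_lit 396) (B (M (nat_lit 493) (B (lo112_12_4 (nat_lit 525)) (lo112_11_4 (nat_lit 364)))) (B (M (nat_lit 493) (B (lo112_12_4 (nat_lit 525)) (M (nat_lit 491) (B (lo112_12_5 (nat_lit 523)) (M (nat_lit 462) (B (lo110_15_2 (nat_lit 490)) (lo115_14_1 (nat_lit 463)))))))) (B (M (nat_lit 364) (B (lo112_11_4 (nat_lit 493)) (M (nat_lit 363) (B (lo112_15_7 (nat_lit 395)) (lo112_14_7 (nat_lit 331)))))) (M (nat_lit 364) (B (M (nat_lit 363) (B (lo112_15_7 (nat_lit 395)) (lo112_14_7 (nat_lit 331)))) (B (M (nat_lit 332) (B (M (nat_lit 331) (B (lo112_14_7 (nat_lit 363)) (lo112_13_7 (nat_lit 299)))) (M (nat_lit 333) (B (lo112_14_6 (nat_lit 365)) (lo112_13_6 (nat_lit 301)))))) (B (M (nat_lit 332) (B (M (nat_lit 333) (B (lo112_14_6 (nat_lit 365)) (lo112_13_6 (nat_lit 301)))) (M (nat_lit 299) (B (lo112_13_7 (nat_lit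 331)) (M (nat_lit 300) (B (lo112_9_5 (nat_lit 395)) (lo112_12_7 (nat_lit 267)))))))) (M (nat_lit 332) (B (M (nat_lit 395) (B (lo112_9_5 (nat_lit 300)) (lo112_15_7 (nat_lit 363)))) (M (nat_lit 333) (B (lo112_14_6 (nat_lit 365)) (lo112_13_6 (nat_lit 301)))))))))))))) (M (nat_lit 396) (B (M (nat_lit 493) (B (lo112_12_4 (nat_lit 525)) (lo112_11_4 (nat_lit 364)))) (B (M (nat_lit 395) (B (lo112_15_7 (nat_lit 363)) (K _ _ _ o1_s22092))) (B (M (nat_lit 364) (B (lo112_11_4 (nat_lit 493)) (M (nat_lit 363) (B (lo112_15_7 (nat_lit 395)) (lo112_14_7 (nat_lit 331)))))) (K _ _ _ o1_s22063)))))))))) (M (nat_lit 524) (B (lo112_16_7 (nat_lit 395)) (M (nat_lit 556) (B (M (nat_lit 555) (B (lo112_14_5 (nat_lit 587)) (lo112_13_5 (nat_lit 523)))) (M (nat_lit 557) (B (lo112_14_4 (nat_lit 589)) (lo112_13_4 (nat_lit 525)))))))))))) _ _ _ (by decide +kernel)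
theorem o1_s22210 : Sem (nat_lit 2977131417140891806045743319240378983837713253882137215866823359118068157150271538274000963883553169878005419334483574406985853621158019072) (nat_lit 1002458769930727236632672811623975699796844657304044588500858428192754108630154681541798174386310151077541035018924874386275472185074336183856041174101397130643576455168) (nat_lit 1002458769930727236632672811623975699796844657304044588500858428192754108630154681541798174386310151077541035018924874386275472185074336183856041174101397130643576455168) := sem_of_chk (M (nat_lit 461) (B (M (nat_lit 459) (B (M (nat_lit 493) (B (M (nat_lit 492) (B (M (nat_lit 462) (B (M (nat_lit 463) (B (lo116_14_1 (nat_lit 464)) (lo115_14_1 (nat_lit 491)))) (B (M (nat_lit 491) (B (lo115_14_1 (nat_lit 463)) (lo110_15_2 (nat_lit 490)))) (B (M (nat_lit 494) (B (M (nat_lit 495) (B (lo116_15_3 (nat_lit 496)) (lo111_14_0 (nat_lit 459)))) (M (nat_lit 491) (B (lo110_15_2 (nat_lit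 490)) (M (nat_lit 526) (B (lo111_15_0 (nat_lit 527)) (lo114_17_7 (nat_lit 558)))))))) (M (nat_lit 463) (B (lo116_14_1 (nat_lit 464)) (lo115_14_3 (nat_lit 427)))))))) (M (nat_lit 395) (B (lo112_16_7 (nat_lit 524)) (lo111_11_4 (nat_lit 363)))))) (M (nat_lit 396) (B (lo113_16_7 (nat_lit 525)) (lo112_11_4 (nat_lit 364)))))) (B (M (nat_lit 458) (B (lo19_14_2 (nat_lit 457)) (M (nat_lit 490) (B (lo113_14_1 (nat_lit 489)) (M (nat_lit 395) (B (lo111_11_5 (nat_lit 363)) (M (nat_lit 522) (B (lo111_12_5 (nat_lit 491)) (lo110_17_6 (nat_lit 554)))))))))) (M (nat_lit 493) (B (M (nat_lit 396) (B (lo113_16_7 (nat_lit 525)) (lo112_11_4 (nat_lit 364)))) (M (nat_lit 458) (B (lo19_14_2 (nat_lit 457)) (lo110_14_0 (nat_lit 494))))))))) (B (K _ _ _ o1_s21748) (M (nat_lit 462) (B (lo110_13_0 (nat_lit 426)) (lo115_14_3 (nat_lit 463))))))) _ _ _ (by decide +kernel)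
theorem o1_s22240 : Sem (nat_lit 2977131417140891806045743319240378983837713253882137215866823359118068157150271538274000963883553169878005419334483574406985853621158019072) (nat_lit 2532663311910144709415201916051733327373200942911983937380472662840307858081859180061949848687341245123592282458401800146745450209923114887296973615103863130129140922931124109312) (nat_lit 2532663311910144709415201916051733327373200942911983937380472662840307858081859180061949848687341245123592282458401800146745450209923114887296973615103863130129140922931124109312) := sem_of_chk (M (nat_lit 492) (B (M (nat_lit 395) (B (lo112_16_7 (nat_lit 524)) (M (nat_lit 363) (B (lo111_10_4 (nat_lit 331)) (lo112_15_7 (nat_lit 396)))))) (B (K _ _ _ o1_s22212) (B (M (nat_lit 396) (B (M (nat_lit 491) (B (lo112_12_5 (nat_lit 523)) (M (nat_lit 493) (B (lo112_12_4 (nat_lit 525)) (M (nat_lit 364) (B (lo112_11_5 (nat_lit 459)) (lo112_11_4 (nat_lit 461)))))))) (B (M (nat_lit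 364) (B (M (nat_lit 459) (B (lo112_11_5 (nat_lit 491)) (lo112_10_5 (nat_lit 332)))) (M (nat_lit 493) (B (lo112_12_4 (nat_lit 525)) (lo112_11_4 (nat_lit 461)))))) (B (M (nat_lit 364) (B (M (nat_lit 363) (B (lo112_15_7 (nat_lit 395)) (lo112_14_7 (nat_lit 331)))) (M (nat_lit 493) (B (lo112_12_4 (nat_lit 525)) (lo112_11_4 (nat_lit 461)))))) (B (M (nat_lit 491) (B (lo112_12_5 (nat_lit 523)) (M (nat_lit 459) (B (M (nat_lit 493) (B (lo112_12_4 (nat_lit 525)) (M (nat_lit 494) (B (lo114_15_3 (nat_lit 458)) (lo115_15_3 (nat_lit 495)))))) (M (nat_lit 490) (B (M (nat_lit 489) (B (lo18_15_2 (nat_lit 488)) (lo19_15_2 (nat_lit 461)))) (M (nat_lit 395) (B (lo111_12_5 (nat_lit 522)) (lo111_11_4 (nat_lit 363)))))))))) (M (nat_lit 364) (B (M (nat_lit 491) (B (lo112_12_5 (nat_lit 523)) (lo112_11_5 (nat_lit 459)))) (M (nat_lit 363) (B (lo112_15_7 (nat_lit 395)) (lo112_14_7 (nat_lit 331))))))))))) (M (nat_lit 395) (B (lo112_16_7 (nat_lit 524)) (M (nat_lit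 363) (B (lo111_11_4 (nat_lit 459)) (lo111_10_4 (nat_lit 331)))))))))) _ _ _ (by decide +kernel)
theorem o1_s23429 : Sem (nat_lit 19180023093141456272034619362204926784650499399658780991385542800892123466582809603056954341552017090965954270151044421904849672164775350272199229440) (nat_lit 7091457272687961763168649235987661259925289489316271857975954975648753473348955901424095997776068561206914512254804729882287638455978812562434718481957362757050672991047669252096) (nat_lit 7091457272687961763168649235987661259925289489316271857975954975648753473348955901424095997776068561206914512254804729882287638455978812562434718481957362757050672991047669252096) := sem_of_chk (M (nat_lit 493) (B (K _ _ _ o1_s23300) (B (K _ _ _ o1_s23313) (B (M (nat_lit 525) (B (M (nat_lit 396) (B (lo113_16_7 (nat_lit 461)) (lo112_12_4 (nat_lit 460)))) (B (M (nat_lit 460) (B (lo112_12_4 (nat_lit 396)) (M (nat_lit 557) (B (lo113_18_7 (nat_lit 589)) (lo112_13_4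 (nat_lit 524)))))) (B (M (nat_lit 557) (B (M (nat_lit 460) (B (lo113_17_7 (nat_lit 461)) (lo113_18_7 (nat_lit 589)))) (B (M (nat_lit 460) (B (lo113_18_7 (nat_lit 589)) (lo112_13_4 (nat_lit 524)))) (B (M (nat_lit 460) (B (lo113_17_7 (nat_lit 461)) (lo112_13_4 (nat_lit 524)))) (M (nat_lit 461) (B (M (nat_lit 558) (B (lo113_13_4 (nat_lit 526)) (lo113_14_4 (nat_lit 590)))) (M (nat_lit 556) (B (lo113_13_5 (nat_lit 524)) (lo113_14_5 (nat_lit 588)))))))))) (M (nat_lit 461) (B (lo113_16_7 (nat_lit 396)) (M (nat_lit 557) (B (M (nat_lit 558) (B (lo113_13_4 (nat_lit 526)) (lo113_14_4 (nat_lit 590)))) (M (nat_lit 556) (B (lo113_13_5 (nat_lit 524)) (lo113_14_5 (nat_lit 588)))))))))))) (B (M (nat_lit 525) (B (M (nat_lit 526) (B (lo110_15_0 (nat_lit 490)) (M (nat_lit 527) (B (lo116_16_3 (nat_lit 528)) (lo115_16_3 (nat_lit 524)))))) (B (M (nat_lit 526) (B (lo110_15_0 (nat_lit 490)) (M (nat_lit 527) (B (lo111_15_0 (nat_lit 494)) (lo115_16_3 (nat_lit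 524)))))) (B (M (nat_lit 460) (B (lo112_12_4 (nat_lit 396)) (M (nat_lit 557) (B (lo113_18_7 (nat_lit 589)) (lo112_13_4 (nat_lit 524)))))) (M (nat_lit 526) (B (lo110_15_0 (nat_lit 490)) (M (nat_lit 527) (B (lo116_16_3 (nat_lit 528)) (lo111_15_0 (nat_lit 494)))))))))) (K _ _ _ o1_s23321)))))) _ _ _ (by decide +kernel)
theorem o1_s23489 : Sem (nat_lit 44753387220307196046227469692360575478452281957082739672599011389056152606838228087194979831792221862430832054434490765163625753745262711772133982208) (nat_lit 1561741468042535813856192955597367401980923759426436882804071700149783202707095386329724171782616206282919605771382369756871265935009019402144066266575371501568) (nat_lit 1561741468042535813856192955597367401980923759426436882804071700149783202707095386329724171782616206282919605771382369756871265935009019402144066266575371501568) := sem_of_chk (M (nat_lit 494) (B (M (nat_lit 463) (B (lo111_15_2 (nat_lit 462)) (M (nat_lit 495)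 (B (lo112_15_2 (nat_lit 464)) (M (nat_lit 527) (B (lo111_15_0 (nat_lit 526)) (lo112_15_0 (nat_lit 528)))))))) (B (K _ _ _ o1_s23473) (B (K _ _ _ o1_s23482) (M (nat_lit 495) (B (M (nat_lit 527) (B (lo111_15_0 (nat_lit 526)) (lo112_15_0 (nat_lit 528)))) (M (nat_lit 461) (B (lo116_15_3 (nat_lit 496)) (M (nat_lit 490) (B (lo19_15_2 (nat_lit 489)) (lo110_15_2 (nat_lit 462)))))))))))) _ _ _ (by decide +kernel)
theorem o1_s23878 : Sem (nat_lit 19180023096118587686749425185894957101759765972371296004760797575805107322426708127169432235496095634689529834687927710404115936980533078543004860416) (nat_lit 27459190640522438859927603196325572869319827126775387702524052430033357803087859874781360772305163116317962160858881061846996342139531047463308151946160898048) (nat_lit 27459190640522438859927603196325572869319827126775387702524052430033357803087859874781360772305163116317962160858881061846996342139531047463308151946160898048) := sem_of_chk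 (M (nat_lit 396) (B (lo112_12_5 (nat_lit 523)) (M (nat_lit 364) (B (M (nat_lit 363) (B (lo112_15_7 (nat_lit 395)) (lo112_14_7 (nat_lit 331)))) (B (M (nat_lit 332) (B (M (nat_lit 331) (B (lo112_14_7 (nat_lit 363)) (lo112_13_7 (nat_lit 299)))) (M (nat_lit 333) (B (lo112_14_6 (nat_lit 365)) (lo112_13_6 (nat_lit 301)))))) (B (K _ _ _ o1_s23686) (M (nat_lit 332) (B (M (nat_lit 395) (B (lo112_9_5 (nat_lit 300)) (lo112_15_7 (nat_lit 363)))) (M (nat_lit 333) (B (lo112_14_6 (nat_lit 365)) (lo112_13_6 (nat_lit 301)))))))))))) _ _ _ (by decide +kernel)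
theorem o1_s24059 : Sem (nat_lit 6393341032535717799653000020817132754858874693659316664154063281723092752298998885100419490375993248957090942546204538774727896190289397793037484032) (nat_lit 1087770611061603336288267087462371476855528557106620940314723485336325200283698379189512750876172890527234979419407945896519526621035974308373379710413940467711031833495657478250892886016) (nat_lit 1087770611061603336288267087462371476855528557106620940314723485336325200283698379189512750876172890527234979419407945896519526621035974308373379710413940467711031833495657478250892886016) := sem_of_chk (M (nat_lit 458) (B (M (nat_lit 457) (B (lo18_14_2 (nat_lit 456)) (lo19_14_2 (nat_lit 460)))) (B (K _ _ _ o1_s24039) (B (M (nat_lit 523) (B (M (nat_lit 555) (B (lo111_17_6 (nat_lit 460)) (M (nat_lit 556) (B (lo111_14_4 (nat_lit 588)) (lo111_13_4 (nat_lit 524)))))) (B (M (nat_lit 395) (B (M (nat_lit 524) (B (lo111_13_4 (nat_lit 556)) (lo111_12_4 (nat_lit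 492)))) (M (nat_lit 363) (B (lo111_11_5 (nat_lit 490)) (M (nat_lit 362) (B (lo111_15_7 (nat_lit 394)) (lo111_14_7 (nat_lit 330)))))))) (M (nat_lit 555) (B (lo111_17_6 (nat_lit 460)) (M (nat_lit 586) (B (lo111_14_5 (nat_lit 554)) (M (nat_lit 587) (B (lo111_15_5 (nat_lit 618)) (lo111_18_7 (nat_lit 490))))))))))) (K _ _ _ o1_s24058))))) _ _ _ (by decide +kernel)
theorem o1_s24107 : Sem (nat_lit 6393341032535717799653000020817132754858874693659316664154063281723092752298998885100419490375993248957090942546204538774727896190289397793037484032) (nat_lit 1519597987004563234690854158251890058507707160300206858595389781502100112811023707314874191348738405082221720346387705702766669637740048135751914803803331338791730436842629103616) (nat_lit 1519597987004563234690854158251890058507707160300206858595389781502100112811023707314874191348738405082221720346387705702766669637740048135751914803803331338791730436842629103616) := sem_of_chk (M (nat_lit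 458) (B (M (nat_lit 457) (B (lo18_14_2 (nat_lit 456)) (lo19_14_2 (nat_lit 460)))) (B (K _ _ _ o1_s24039) (B (M (nat_lit 523) (B (M (nat_lit 555) (B (lo111_17_6 (nat_lit 460)) (M (nat_lit 556) (B (lo111_14_4 (nat_lit 588)) (lo111_13_4 (nat_lit 524)))))) (B (M (nat_lit 395) (B (M (nat_lit 490) (B (lo111_12_5 (nat_lit 522)) (lo111_11_5 (nat_lit 363)))) (M (nat_lit 524) (B (lo111_13_4 (nat_lit 556)) (lo111_12_4 (nat_lit 492)))))) (M (nat_lit 490) (B (M (nat_lit 555) (B (lo111_18_7 (nat_lit 587)) (lo111_17_6 (nat_lit 460)))) (M (nat_lit 395) (B (lo111_12_5 (nat_lit 522)) (lo111_11_5 (nat_lit 363))))))))) (K _ _ _ o1_s24058))))) _ _ _ (by decide +kernel)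
theorem o1_s26327 : Sem (nat_lit 38360046186282912541296569030289038709722584615174478279334648526408430357995139625499287375298408558891934134197949265712308133368147128715424301056) (nat_lit 5065326623820289418802944641106515453407084119324774459494848043513445186275563519667551782910966934297313775202435126041729349447506288272144898722754229738871657228286019239936) (nat_lit 5065326623820289418802944641106515453407084119324774459494848043513445186275563519667551782910966934297313775202435126041729349447506288272144898722754229738871657228286019239936) := sem_of_chk (M (nat_lit 461) (B (M (nat_lit 396) (B (lo113_16_7 (nat_lit 525)) (M (nat_lit 364) (B (lo112_10_4 (nat_lit 332)) (lo113_15_7 (nat_lit 397)))))) (B (M (nat_lit 524) (B (lo113_12_5 (nat_lit 397)) (M (nat_lit 556) (B (lo112_18_6 (nat_lit 588)) (lo113_13_5 (nat_lit 525)))))) (B (K _ _ _ o1_s26317) (K _ _ _ o1_s26326))))) _ _ _ (by decide +kernel)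
theorem o1_s26950 : Sem (nat_lit 19180023093141456271688035650439824927203197626640895528455988166470146394686499655480126678076313888085957469388026974642675770794599903793577459712) (nat_lit 1699037421066134459192731073499479155047066455513139655873448141379531527370637115231610192128599932637636138415028614048059490222054312651777528602443506515968) (nat_lit 1699037421066134459192731073499479155047066455513139655873448141379531527370637115231610192128599932637636138415028614048059490222054312651777528602443506515968) := sem_of_chk (M (nat_lit 493) (B (K _ _ _ o1_s26944) (B (K _ _ _ o1_s26659) (B (M (nat_lit 396) (B (M (nat_lit 461) (B (lo113_16_7 (nat_lit 525)) (M (nat_lit 364) (B (lo112_10_4 (nat_lit 332)) (lo113_15_7 (nat_lit 397)))))) (B (K _ _ _ o1_s26769) (K _ _ _ o1_s26777)))) (B (K _ _ _ o1_s26679) (B (K _ _ _ o1_s26947) (B (K _ _ _ o1_s26811) (K _ _ _ o1_s26949)))))))) _ _ _ (by decide +kernel)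
theorem o1_s27346 : Sem (nat_lit 19180023093141456272034619362204926784650499399658780991385542800892123466582809603056954341552017090965954270151044421904849672164775350272199229440) (nat_lit 117936325816861953221528909464089444382045325320843226156956777914915641891091326358914764794642965167739705816412953293478861756658481304621679626374500208058650591232) (nat_lit 117936325816861953221528909464089444382045325320843226156956777914915641891091326358914764794642965167739705816412953293478861756658481304621679626374500208058650591232) := sem_of_chk (M (nat_lit 459) (B (M (nat_lit 396) (B (lo111_16_6 (nat_lit 523)) (M (nat_lit 364) (B (lo111_15_6 (nat_lit 395)) (lo112_10_5 (nat_lit 332)))))) (B (K _ _ _ o1_s27341) (B (M (nat_lit 523) (B (lo111_16_6 (nat_lit 396)) (M (nat_lit 426) (B (lo111_16_7 (nat_lit 394)) (M (nat_lit 458) (B (lo113_13_1 (nat_lit 457)) (lo111_17_7 (nat_lit 555)))))))) (M (nat_lit 395) (B (M (nat_lit 394) (B (lo111_15_7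 (nat_lit 362)) (M (nat_lit 393) (B (lo18_12_0 (nat_lit 392)) (lo113_13_3 (nat_lit 426)))))) (B (M (nat_lit 458) (B (M (nat_lit 457) (B (lo18_14_0 (nat_lit 456)) (lo113_13_1 (nat_lit 426)))) (M (nat_lit 490) (B (lo111_12_5 (nat_lit 522)) (lo111_11_5 (nat_lit 363)))))) (M (nat_lit 363) (B (M (nat_lit 490) (B (lo111_12_5 (nat_lit 522)) (lo111_11_5 (nat_lit 458)))) (M (nat_lit 362) (B (lo111_15_7 (nat_lit 394)) (lo111_14_7 (nat_lit 330))))))))))))) _ _ _ (by decide +kernel)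
theorem o1_s27490 : Sem (nat_lit 19180023094630021979045438562284840085757830912997153035143615553926638322608448917536365625048353159947745251656468618892308903202478767928980275200) (nat_lit 759798993502281618117716816028894621987851897194687902895366914548375272091514705252311603869944344659451934612240701292601590672819779999249071081159893472545351756873295986688) (nat_lit 759798993502281618117716816028894621987851897194687902895366914548375272091514705252311603869944344659451934612240701292601590672819779999249071081159893472545351756873295986688) := sem_of_chk (M (nat_lit 490) (B (M (nat_lit 460) (B (M (nat_lit 523) (B (lo111_17_6 (nat_lit 555)) (lo112_12_5 (nat_lit 396)))) (B (M (nat_lit 396) (B (lo112_12_5 (nat_lit 523)) (lo112_11_5 (nat_lit 364)))) (M (nat_lit 457) (B (lo19_14_2 (nat_lit 458)) (M (nat_lit 489) (B (lo18_15_2 (nat_lit 488)) (lo112_15_3 (nat_lit 456))))))))) (B (M (nat_lit 493) (B (M (nat_lit 458) (B (lo113_15_3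 (nat_lit 457)) (lo114_15_3 (nat_lit 494)))) (B (M (nat_lit 522) (B (lo113_15_1 (nat_lit 521)) (M (nat_lit 494) (B (lo114_15_1 (nat_lit 523)) (lo114_15_3 (nat_lit 458)))))) (B (M (nat_lit 523) (B (M (nat_lit 522) (B (lo113_15_1 (nat_lit 521)) (lo114_15_1 (nat_lit 494)))) (M (nat_lit 460) (B (lo111_17_6 (nat_lit 555)) (lo112_12_5 (nat_lit 396)))))) (M (nat_lit 457) (B (lo113_15_3 (nat_lit 458)) (M (nat_lit 489) (B (lo112_15_3 (nat_lit 456)) (M (nat_lit 521) (B (lo112_15_1 (nat_lit 520)) (lo113_15_1 (nat_lit 522)))))))))))) (B (M (nat_lit 460) (B (M (nat_lit 523) (B (lo111_17_6 (nat_lit 555)) (lo112_12_5 (nat_lit 396)))) (B (M (nat_lit 396) (B (lo112_12_5 (nat_lit 523)) (lo112_11_5 (nat_lit 364)))) (B (M (nat_lit 493) (B (M (nat_lit 458) (B (lo113_15_3 (nat_lit 457)) (lo114_15_3 (nat_lit 494)))) (M (nat_lit 396) (B (lo112_11_5 (nat_lit 364)) (lo112_12_4 (nat_lit 525)))))) (M (nat_lit 493) (B (M (nat_lit 458) (B (lo113_15_3 (nat_lit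 457)) (lo114_15_3 (nat_lit 494)))) (M (nat_lit 521) (B (lo113_15_1 (nat_lit 522)) (M (nat_lit 489) (B (lo112_15_1 (nat_lit 520)) (lo18_15_2 (nat_lit 488)))))))))))) (B (K _ _ _ o1_s27467) (B (M (nat_lit 460) (B (M (nat_lit 523) (B (lo111_17_6 (nat_lit 555)) (lo112_12_5 (nat_lit 396)))) (B (M (nat_lit 396) (B (lo112_12_5 (nat_lit 523)) (lo112_11_5 (nat_lit 364)))) (B (M (nat_lit 493) (B (M (nat_lit 494) (B (lo114_15_3 (nat_lit 458)) (lo115_15_3 (nat_lit 495)))) (M (nat_lit 396) (B (lo112_11_5 (nat_lit 364)) (lo112_12_4 (nat_lit 525)))))) (M (nat_lit 493) (B (M (nat_lit 494) (B (lo114_15_3 (nat_lit 458)) (lo115_15_3 (nat_lit 495)))) (M (nat_lit 521) (B (lo113_15_1 (nat_lit 522)) (M (nat_lit 489) (B (lo112_15_1 (nat_lit 520)) (lo18_15_2 (nat_lit 488)))))))))))) (B (M (nat_lit 460) (B (M (nat_lit 523) (B (lo111_17_6 (nat_lit 555)) (lo112_12_5 (nat_lit 396)))) (B (M (nat_lit 396) (B (lo112_12_5 (nat_lit 523)) (lo112_11_5 (nat_lit 364))))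 (B (K _ _ _ o1_s27474) (M (nat_lit 493) (B (M (nat_lit 494) (B (lo115_15_3 (nat_lit 495)) (M (nat_lit 526) (B (lo110_15_0 (nat_lit 525)) (lo111_15_0 (nat_lit 527)))))) (M (nat_lit 521) (B (lo113_15_1 (nat_lit 522)) (M (nat_lit 489) (B (lo112_15_1 (nat_lit 520)) (lo18_15_2 (nat_lit 488)))))))))))) (B (M (nat_lit 460) (B (M (nat_lit 396) (B (lo112_12_5 (nat_lit 523)) (lo112_11_5 (nat_lit 364)))) (M (nat_lit 457) (B (lo19_14_2 (nat_lit 458)) (M (nat_lit 489) (B (lo18_15_2 (nat_lit 488)) (lo112_15_3 (nat_lit 456)))))))) (B (M (nat_lit 460) (B (M (nat_lit 457) (B (lo19_14_2 (nat_lit 458)) (M (nat_lit 489) (B (lo18_15_2 (nat_lit 488)) (lo112_15_3 (nat_lit 456)))))) (B (M (nat_lit 493) (B (M (nat_lit 458) (B (lo113_15_3 (nat_lit 457)) (lo114_15_3 (nat_lit 494)))) (M (nat_lit 396) (B (lo112_11_5 (nat_lit 364)) (lo112_12_4 (nat_lit 525)))))) (B (M (nat_lit 493) (B (M (nat_lit 494) (B (lo114_15_3 (nat_lit 458)) (lo115_15_3 (nat_lit 495))))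 (M (nat_lit 396) (B (lo112_11_5 (nat_lit 364)) (lo112_12_4 (nat_lit 525)))))) (K _ _ _ o1_s27474))))) (M (nat_lit 493) (B (M (nat_lit 458) (B (lo113_15_3 (nat_lit 457)) (lo114_15_3 (nat_lit 494)))) (B (M (nat_lit 522) (B (lo113_15_1 (nat_lit 521)) (M (nat_lit 494) (B (lo114_15_1 (nat_lit 523)) (lo114_15_3 (nat_lit 458)))))) (B (M (nat_lit 494) (B (M (nat_lit 522) (B (lo113_15_1 (nat_lit 521)) (lo114_15_1 (nat_lit 523)))) (M (nat_lit 526) (B (lo110_15_0 (nat_lit 525)) (lo111_15_0 (nat_lit 527)))))) (M (nat_lit 457) (B (lo113_15_3 (nat_lit 458)) (M (nat_lit 489) (B (lo112_15_3 (nat_lit 456)) (M (nat_lit 521) (B (lo112_15_1 (nat_lit 520)) (lo113_15_1 (nat_lit 522))))))))))))))))))))) _ _ _ (by decide +kernel)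
theorem o1_s27539 : Sem (nat_lit 22376693610153598023980194125593042382844395411086083493623392280583018983159888912539559074585368938415408029124789000737247630298069972082621415424) (nat_lit 41188785987955357676121427585692836459030981861295316802346667056764235870314024339143839843958828319676296560227588829109711517347101090299742846698672619520) (nat_lit 41188785987955357676121427585692836459030981861295316802346667056764235870314024339143839843958828319676296560227588829109711517347101090299742846698672619520) := sem_of_chk (M (nat_lit 427) (B (M (nat_lit 395) (B (lo111_12_5 (nat_lit 522)) (M (nat_lit 363) (B (lo111_11_5 (nat_lit 458)) (lo111_11_4 (nat_lit 460)))))) (B (K _ _ _ o1_s27522) (B (M (nat_lit 394) (B (M (nat_lit 426) (B (lo113_13_3 (nat_lit 393)) (lo111_16_7 (nat_lit 523)))) (M (nat_lit 395) (B (lo111_12_5 (nat_lit 522)) (lo111_15_7 (nat_lit 362)))))) (M (nat_lit 457) (B (M (nat_lit 456) (B (lo112_15_3 (nat_lit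 489)) (lo18_14_0 (nat_lit 458)))) (B (M (nat_lit 458) (B (lo113_15_3 (nat_lit 493)) (lo113_13_1 (nat_lit 426)))) (M (nat_lit 426) (B (M (nat_lit 456) (B (lo112_15_3 (nat_lit 489)) (lo112_13_1 (nat_lit 425)))) (M (nat_lit 394) (B (lo113_13_3 (nat_lit 393)) (lo111_16_7 (nat_lit 523))))))))))))) _ _ _ (by decide +kernel)
theorem o1_s27573 : Sem (nat_lit 22376693610153598023980194125593042382844395411086083493623392280583018983159888912539559074585368938415408029124789000737247630298069972082621415424) (nat_lit 41188785962381993551932819226214791952565363484602800817635223388926022057062979054732319883933280723380170332486286609363148462587591273535013213469543497728) (nat_lit 41188785962381993551932819226214791952565363484602800817635223388926022057062979054732319883933280723380170332486286609363148462587591273535013213469543497728) := sem_of_chk (M (nat_lit 427) (B (M (nat_lit 395) (B (lo111_12_5 (nat_lit 522)) (M (nat_lit 363) (B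 (lo111_11_5 (nat_lit 458)) (lo111_11_4 (nat_lit 460)))))) (B (K _ _ _ o1_s27522) (B (M (nat_lit 394) (B (M (nat_lit 426) (B (lo113_13_3 (nat_lit 393)) (lo111_16_7 (nat_lit 523)))) (M (nat_lit 395) (B (lo111_12_5 (nat_lit 522)) (lo111_15_7 (nat_lit 362)))))) (M (nat_lit 457) (B (M (nat_lit 456) (B (lo112_15_3 (nat_lit 489)) (lo18_14_0 (nat_lit 458)))) (B (M (nat_lit 426) (B (lo113_13_1 (nat_lit 458)) (M (nat_lit 394) (B (lo113_13_3 (nat_lit 393)) (lo111_16_7 (nat_lit 523)))))) (M (nat_lit 426) (B (M (nat_lit 456) (B (lo112_15_3 (nat_lit 489)) (lo112_13_1 (nat_lit 425)))) (M (nat_lit 394) (B (lo113_13_3 (nat_lit 393)) (lo111_16_7 (nat_lit 523))))))))))))) _ _ _ (by decide +kernel)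
theorem o1_s28640 : Sem (nat_lit 19180023096118587686402841474129855244312464199353410541831242941383130250530398179592604572020392431809533033924910263141942035610357632064383090688) (nat_lit 471745303923035989497317281754192846507980320871481558351677848084502323375218191656786142066583177078238937702615965421549596434888540504040045588654640158207431933952) (nat_lit 471745303923035989497317281754192846507980320871481558351677848084502323375218191656786142066583177078238937702615965421549596434888540504040045588654640158207431933952) := sem_of_chk (M (nat_lit 490) (B (M (nat_lit 461) (B (lo19_15_2 (nat_lit 489)) (M (nat_lit 462) (B (lo114_14_1 (nat_lit 459)) (lo110_15_2 (nat_lit 493)))))) (B (K _ _ _ o1_s26888) (B (M (nat_lit 461) (B (lo19_15_2 (nat_lit 489)) (M (nat_lit 462) (B (lo114_14_1 (nat_lit 459)) (lo115_14_1 (nat_lit 463)))))) (M (nat_lit 493) (B (M (nat_lit 494) (B (M (nat_lit 458) (B (lo113_15_3 (nat_lit 457)) (lo114_15_3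 (nat_lit 459)))) (M (nat_lit 526) (B (lo110_15_0 (nat_lit 525)) (lo111_15_0 (nat_lit 527)))))) (B (M (nat_lit 494) (B (M (nat_lit 522) (B (lo113_15_1 (nat_lit 521)) (lo114_15_1 (nat_lit 523)))) (M (nat_lit 526) (B (lo110_15_0 (nat_lit 525)) (lo111_15_0 (nat_lit 527)))))) (B (M (nat_lit 494) (B (M (nat_lit 522) (B (lo113_15_1 (nat_lit 521)) (lo114_15_1 (nat_lit 523)))) (M (nat_lit 458) (B (lo113_15_3 (nat_lit 457)) (lo114_15_3 (nat_lit 459)))))) (M (nat_lit 489) (B (M (nat_lit 521) (B (lo112_15_1 (nat_lit 520)) (lo113_15_1 (nat_lit 522)))) (M (nat_lit 457) (B (lo112_15_3 (nat_lit 456)) (lo113_15_3 (nat_lit 458)))))))))))))) _ _ _ (by decide +kernel)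
theorem o1_s28901 : Sem (nat_lit 2079502270590611144796540682080456772516022875177750608691892447808565334648169183913526837783605888859300960143521576617263497216) (nat_lit 54918381319404923915069513176012629969892344621945914416840156251761670308584068040143207891840050371488153099677321813140806285371116379049132534263810359296) (nat_lit 54918381319404923915069513176012629969892344621945914416840156251761670308584068040143207891840050371488153099677321813140806285371116379049132534263810359296) := sem_of_chk (M (nat_lit 397) (B (M (nat_lit 460) (B (lo113_10_5 (nat_lit 333)) (M (nat_lit 492) (B (lo112_16_6 (nat_lit 524)) (lo113_11_5 (nat_lit 461)))))) (B (M (nat_lit 332) (B (lo113_14_7 (nat_lit 461)) (M (nat_lit 300) (B (lo112_8_4 (nat_lit 268)) (lo113_13_7 (nat_lit 333)))))) (B (K _ _ _ o1_s28891) (K _ _ _ o1_s28900))))) _ _ _ (by decide +kernel)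
theorem o1_s28924 : Sem (nat_lit 2079502270590611144796540682080456772516022875177750608691892447808565334648169183913526837783605888859300960143521576617263497216) (nat_lit 7442828537133598271555044811051979458817026825397442212074105581560341325291698641816435892839895767297593046227970975434811891601157128192) (nat_lit 7442828537133598271555044811051979458817026825397442212074105581560341325291698641816435892839895767297593046227970975434811891601157128192) := sem_of_chk (M (nat_lit 332) (B (M (nat_lit 461) (B (lo112_10_4 (nat_lit 396)) (lo113_14_7 (nat_lit 397)))) (B (M (nat_lit 397) (B (lo113_14_7 (nat_lit 461)) (M (nat_lit 300) (B (lo112_8_4 (nat_lit 268)) (lo113_13_7 (nat_lit 333)))))) (B (M (nat_lit 396) (B (lo112_10_4 (nat_lit 461)) (M (nat_lit 300) (B (M (nat_lit 299) (B (lo112_12_7 (nat_lit 267)) (lo112_13_7 (nat_lit 331)))) (M (nat_lit 427) (B (lo112_9_5 (nat_lit 395)) (lo112_10_5 (nat_lit 459)))))))) (K _ _ _ o1_s28923)))))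 _ _ _ (by decide +kernel)
theorem o1_s29030 : Sem (nat_lit 2079502270590611144721387319431694109223559496080491823815870606243499098785535872824496148979938418668462592195208978120241577984) (nat_lit 192214334528410459247243246955213992065749658161461683665288715221972937148654984357971276287560720159022463877952174529717798204034174336019405734312530673664) (nat_lit 192214334528410459247243246955213992065749658161461683665288715221972937148654984357971276287560720159022463877952174529717798204034174336019405734312530673664) := sem_of_chk (M (nat_lit 365) (B (K _ _ _ o1_s28853) (B (K _ _ _ o1_s28962) (B (K _ _ _ o1_s29020) (B (M (nat_lit 332) (B (M (nat_lit 461) (B (lo112_10_4 (nat_lit 396)) (lo113_14_7 (nat_lit 397)))) (B (M (nat_lit 397) (B (lo113_14_7 (nat_lit 461)) (M (nat_lit 300) (B (lo112_8_4 (nat_lit 268)) (lo113_13_7 (nat_lit 333)))))) (B (M (nat_lit 396) (B (lo112_10_4 (nat_lit 461)) (M (nat_lit 300) (B (M (nat_lit 427)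 (B (lo112_9_5 (nat_lit 395)) (lo112_10_5 (nat_lit 459)))) (M (nat_lit 301) (B (lo112_12_6 (nat_lit 269)) (lo112_13_6 (nat_lit 333)))))))) (M (nat_lit 300) (B (M (nat_lit 397) (B (lo112_8_4 (nat_lit 268)) (lo112_9_4 (nat_lit 396)))) (B (M (nat_lit 397) (B (lo112_9_4 (nat_lit 396)) (lo113_13_7 (nat_lit 333)))) (B (M (nat_lit 397) (B (lo112_8_4 (nat_lit 268)) (lo113_13_7 (nat_lit 333)))) (M (nat_lit 396) (B (M (nat_lit 427) (B (lo112_9_5 (nat_lit 395)) (lo112_10_5 (nat_lit 459)))) (M (nat_lit 301) (B (lo112_12_6 (nat_lit 269)) (lo112_13_6 (nat_lit 333)))))))))))))) (B (K _ _ _ o1_s28935) (B (M (nat_lit 396) (B (M (nat_lit 333) (B (lo112_14_6 (nat_lit 460)) (M (nat_lit 332) (B (lo112_13_6 (nat_lit 301)) (lo112_10_4 (nat_lit 461)))))) (B (K _ _ _ o1_s29026) (B (M (nat_lit 332) (B (lo112_10_4 (nat_lit 461)) (M (nat_lit 300) (B (M (nat_lit 427) (B (lo112_9_5 (nat_lit 395)) (lo112_10_5 (nat_lit 459)))) (M (nat_lit 301) (B (lo112_12_6 (nat_lit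 269)) (lo112_13_6 (nat_lit 333)))))))) (B (M (nat_lit 461) (B (lo112_10_4 (nat_lit 332)) (M (nat_lit 493) (B (lo112_11_4 (nat_lit 460)) (lo113_16_7 (nat_lit 525)))))) (M (nat_lit 333) (B (lo112_14_6 (nat_lit 460)) (M (nat_lit 301) (B (lo112_13_6 (nat_lit 332)) (lo113_8_5 (nat_lit 269))))))))))) (K _ _ _ o1_s28953)))))))) _ _ _ (by decide +kernel)
theorem o1_s29076 : Sem (nat_lit 2079502270590611144721387319431694109223559496080491823815870606243499098785535872824496148979938418668462592195208978120241577984) (nat_lit 192214334528410459247243246954867408353903860995324165998571769569683821926563994695816043468065669485589186222745975969249883261306351015625412591523482042368) (nat_lit 192214334528410459247243246954867408353903860995324165998571769569683821926563994695816043468065669485589186222745975969249883261306351015625412591523482042368) := sem_of_chk (M (nat_lit 365) (B (K _ _ _ o1_s28853) (B (K _ _ _ o1_s28962) (B (M (nat_lit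 397) (B (M (nat_lit 332) (B (lo113_14_7 (nat_lit 461)) (M (nat_lit 333) (B (lo113_13_7 (nat_lit 300)) (lo113_10_5 (nat_lit 460)))))) (B (M (nat_lit 460) (B (lo113_10_5 (nat_lit 333)) (M (nat_lit 492) (B (lo112_16_6 (nat_lit 524)) (lo113_11_5 (nat_lit 461)))))) (B (M (nat_lit 332) (B (lo113_14_7 (nat_lit 461)) (M (nat_lit 300) (B (lo112_8_4 (nat_lit 268)) (lo113_13_7 (nat_lit 333)))))) (B (K _ _ _ o1_s28891) (K _ _ _ o1_s29042)))))) (B (M (nat_lit 332) (B (M (nat_lit 461) (B (lo112_10_4 (nat_lit 396)) (lo113_14_7 (nat_lit 397)))) (B (M (nat_lit 397) (B (lo113_14_7 (nat_lit 461)) (M (nat_lit 300) (B (lo112_8_4 (nat_lit 268)) (lo113_13_7 (nat_lit 333)))))) (B (M (nat_lit 331) (B (M (nat_lit 396) (B (lo112_13_7 (nat_lit 299)) (lo112_10_4 (nat_lit 461)))) (M (nat_lit 330) (B (lo19_10_0 (nat_lit 329)) (M (nat_lit 366) (B (lo114_11_3 (nat_lit 363)) (lo115_11_3 (nat_lit 367)))))))) (M (nat_lit 333) (B (M (nat_lit 334) (B (M (nat_lit 363)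 (B (lo110_11_2 (nat_lit 362)) (lo115_10_1 (nat_lit 335)))) (M (nat_lit 397) (B (lo113_13_7 (nat_lit 300)) (lo113_13_6 (nat_lit 302)))))) (M (nat_lit 331) (B (M (nat_lit 330) (B (lo19_10_0 (nat_lit 329)) (lo110_10_0 (nat_lit 366)))) (M (nat_lit 396) (B (lo112_13_7 (nat_lit 299)) (lo112_13_6 (nat_lit 301)))))))))))) (B (K _ _ _ o1_s28935) (B (M (nat_lit 396) (B (M (nat_lit 333) (B (lo112_14_6 (nat_lit 460)) (M (nat_lit 332) (B (lo112_13_6 (nat_lit 301)) (lo112_10_4 (nat_lit 461)))))) (B (K _ _ _ o1_s29026) (B (M (nat_lit 332) (B (lo112_10_4 (nat_lit 461)) (M (nat_lit 333) (B (lo112_13_6 (nat_lit 301)) (M (nat_lit 331) (B (lo112_13_7 (nat_lit 299)) (M (nat_lit 330) (B (lo19_10_0 (nat_lit 329)) (lo110_10_0 (nat_lit 366)))))))))) (B (M (nat_lit 461) (B (lo112_10_4 (nat_lit 332)) (M (nat_lit 493) (B (lo112_11_4 (nat_lit 460)) (lo113_16_7 (nat_lit 525)))))) (M (nat_lit 333) (B (lo112_14_6 (nat_lit 460)) (M (nat_lit 301) (B (lo112_13_6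 (nat_lit 332)) (lo113_8_5 (nat_lit 269))))))))))) (K _ _ _ o1_s28953)))))))) _ _ _ (by decide +kernel)
theorem o1_s29145 : Sem (nat_lit 2079502270590611144721387319431694109223559496080491823815870606243499098785535872824496148979938418668462592195208978120241577984) (nat_lit 137295953247365581527388040562562846328925648353708499716354318877096409813272881248839052399664573957916059796317006111575438887887266963546609124355050831872) (nat_lit 137295953247365581527388040562562846328925648353708499716354318877096409813272881248839052399664573957916059796317006111575438887887266963546609124355050831872) := sem_of_chk (M (nat_lit 396) (B (M (nat_lit 461) (B (lo112_10_4 (nat_lit 332)) (M (nat_lit 493) (B (lo112_11_4 (nat_lit 460)) (lo113_16_7 (nat_lit 525)))))) (B (K _ _ _ o1_s28776) (B (M (nat_lit 461) (B (lo112_10_4 (nat_lit 332)) (M (nat_lit 493) (B (lo113_15_7 (nat_lit 397)) (lo113_16_7 (nat_lit 525)))))) (K _ _ _ o1_s29144)))))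 _ _ _ (by decide +kernel)
theorem o1_s29523 : Sem (nat_lit 2079502270590611144740175660093884775046675340854806520034876066634765657751194200596753821180855286216172184182287127744497057792) (nat_lit 54918381293831559790880904816881169179216506624015075958755513891555448337250048925869836657192447610796102264397445185541932189604050804830828130520151359488) (nat_lit 54918381293831559790880904816881169179216506624015075958755513891555448337250048925869836657192447610796102264397445185541932189604050804830828130520151359488) := sem_of_chk (M (nat_lit 365) (B (K _ _ _ o1_s29517) (B (K _ _ _ o1_s29233) (B (M (nat_lit 460) (B (M (nat_lit 397) (B (lo113_10_5 (nat_lit 333)) (M (nat_lit 492) (B (lo112_16_6 (nat_lit 524)) (lo113_11_5 (nat_lit 461)))))) (B (K _ _ _ o1_s29342) (K _ _ _ o1_s29350)))) (B (K _ _ _ o1_s29253) (B (K _ _ _ o1_s29520) (B (K _ _ _ o1_s29384) (K _ _ _ o1_s29522)))))))) _ _ _ (by decide +kernel)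
theorem o1_s29931 : Sem (nat_lit 2426085982355713002187477433111770237976229975276783591931186014211593321226897403476750621943872733478346085552462574223118827520) (nat_lit 68647976623682790764252232421540449255285057452965409422219396970164679317336068198363961868234058371314915450087662484114019793425041057034285767929702121472) (nat_lit 68647976623682790764252232421540449255285057452965409422219396970164679317336068198363961868234058371314915450087662484114019793425041057034285767929702121472) := sem_of_chk (M (nat_lit 395) (B (M (nat_lit 460) (B (lo111_10_4 (nat_lit 331)) (M (nat_lit 492) (B (lo111_11_4 (nat_lit 459)) (lo112_16_7 (nat_lit 524)))))) (B (K _ _ _ o1_s29925) (B (M (nat_lit 331) (B (lo111_10_4 (nat_lit 460)) (M (nat_lit 426) (B (lo111_10_5 (nat_lit 458)) (M (nat_lit 394) (B (lo113_13_3 (nat_lit 393)) (lo111_9_5 (nat_lit 299)))))))) (M (nat_lit 459) (B (M (nat_lit 458) (B (lo111_11_5 (nat_lit 490)) (M (nat_lit 457)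 (B (lo18_14_2 (nat_lit 456)) (lo113_13_1 (nat_lit 426)))))) (B (M (nat_lit 394) (B (M (nat_lit 393) (B (lo18_12_2 (nat_lit 392)) (lo113_13_3 (nat_lit 426)))) (M (nat_lit 362) (B (lo111_14_7 (nat_lit 330)) (lo111_15_7 (nat_lit 491)))))) (M (nat_lit 491) (B (M (nat_lit 362) (B (lo111_14_7 (nat_lit 330)) (lo111_15_7 (nat_lit 394)))) (M (nat_lit 490) (B (lo111_11_5 (nat_lit 458)) (lo111_12_5 (nat_lit 522))))))))))))) _ _ _ (by decide +kernel)
theorem o1_s30075 : Sem (nat_lit 2079502270671306453430391553520632249171769461927609826060789301410723762643089438784780108513031703506176491414659101868645416960) (nat_lit 12786682065071435594627119933037389447206059481930522273318567354156004978079212942890867082710181016873355426987019934510892686888660988123003486208) (nat_lit 12786682065071435594627119933037389447206059481930522273318567354156004978079212942890867082710181016873355426987019934510892686888660988123003486208) := sem_of_chk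 (M (nat_lit 362) (B (M (nat_lit 396) (B (M (nat_lit 331) (B (lo111_9_4 (nat_lit 299)) (lo112_14_7 (nat_lit 460)))) (B (M (nat_lit 460) (B (lo112_14_7 (nat_lit 331)) (lo112_15_7 (nat_lit 492)))) (M (nat_lit 393) (B (lo19_12_0 (nat_lit 394)) (M (nat_lit 361) (B (lo18_11_0 (nat_lit 360)) (lo112_11_1 (nat_lit 392))))))))) (B (M (nat_lit 365) (B (M (nat_lit 394) (B (lo113_11_1 (nat_lit 393)) (lo114_11_1 (nat_lit 366)))) (B (M (nat_lit 330) (B (lo113_11_3 (nat_lit 329)) (M (nat_lit 366) (B (lo114_11_3 (nat_lit 331)) (lo114_11_1 (nat_lit 394)))))) (B (M (nat_lit 331) (B (M (nat_lit 330) (B (lo113_11_3 (nat_lit 329)) (lo114_11_3 (nat_lit 366)))) (M (nat_lit 396) (B (lo111_9_4 (nat_lit 299)) (lo112_14_7 (nat_lit 460)))))) (M (nat_lit 393) (B (lo113_11_1 (nat_lit 394)) (M (nat_lit 361) (B (lo112_11_1 (nat_lit 392)) (M (nat_lit 329) (B (lo112_11_3 (nat_lit 328)) (lo113_11_3 (nat_lit 330)))))))))))) (B (M (nat_lit 396) (B (M (nat_lit 331) (B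 (lo111_9_4 (nat_lit 299)) (lo112_14_7 (nat_lit 460)))) (B (M (nat_lit 460) (B (lo112_14_7 (nat_lit 331)) (lo112_15_7 (nat_lit 492)))) (B (M (nat_lit 365) (B (M (nat_lit 394) (B (lo113_11_1 (nat_lit 393)) (lo114_11_1 (nat_lit 366)))) (M (nat_lit 460) (B (lo112_15_7 (nat_lit 492)) (lo112_14_6 (nat_lit 333)))))) (M (nat_lit 365) (B (M (nat_lit 394) (B (lo113_11_1 (nat_lit 393)) (lo114_11_1 (nat_lit 366)))) (M (nat_lit 329) (B (lo113_11_3 (nat_lit 330)) (M (nat_lit 361) (B (lo112_11_3 (nat_lit 328)) (lo18_11_0 (nat_lit 360)))))))))))) (B (K _ _ _ o1_s30052) (B (M (nat_lit 396) (B (M (nat_lit 331) (B (lo111_9_4 (nat_lit 299)) (lo112_14_7 (nat_lit 460)))) (B (M (nat_lit 460) (B (lo112_14_7 (nat_lit 331)) (lo112_15_7 (nat_lit 492)))) (B (M (nat_lit 365) (B (M (nat_lit 366) (B (lo114_11_1 (nat_lit 394)) (lo115_11_1 (nat_lit 367)))) (M (nat_lit 460) (B (lo112_15_7 (nat_lit 492)) (lo112_14_6 (nat_lit 333)))))) (M (nat_lit 365) (B (M (nat_lit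 366) (B (lo114_11_1 (nat_lit 394)) (lo115_11_1 (nat_lit 367)))) (M (nat_lit 329) (B (lo113_11_3 (nat_lit 330)) (M (nat_lit 361) (B (lo112_11_3 (nat_lit 328)) (lo18_11_0 (nat_lit 360)))))))))))) (B (M (nat_lit 396) (B (M (nat_lit 331) (B (lo111_9_4 (nat_lit 299)) (lo112_14_7 (nat_lit 460)))) (B (M (nat_lit 460) (B (lo112_14_7 (nat_lit 331)) (lo112_15_7 (nat_lit 492)))) (B (K _ _ _ o1_s30059) (M (nat_lit 365) (B (M (nat_lit 366) (B (lo115_11_1 (nat_lit 367)) (M (nat_lit 334) (B (lo110_11_2 (nat_lit 333)) (lo111_11_2 (nat_lit 335)))))) (M (nat_lit 329) (B (lo113_11_3 (nat_lit 330)) (M (nat_lit 361) (B (lo112_11_3 (nat_lit 328)) (lo18_11_0 (nat_lit 360)))))))))))) (B (M (nat_lit 396) (B (M (nat_lit 460) (B (lo112_14_7 (nat_lit 331)) (lo112_15_7 (nat_lit 492)))) (M (nat_lit 393) (B (lo19_12_0 (nat_lit 394)) (M (nat_lit 361) (B (lo18_11_0 (nat_lit 360)) (lo112_11_1 (nat_lit 392)))))))) (B (M (nat_lit 396) (B (M (nat_lit 393) (B (lo19_12_0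 (nat_lit 394)) (M (nat_lit 361) (B (lo18_11_0 (nat_lit 360)) (lo112_11_1 (nat_lit 392)))))) (B (M (nat_lit 365) (B (M (nat_lit 394) (B (lo113_11_1 (nat_lit 393)) (lo114_11_1 (nat_lit 366)))) (M (nat_lit 460) (B (lo112_15_7 (nat_lit 492)) (lo112_14_6 (nat_lit 333)))))) (B (M (nat_lit 365) (B (M (nat_lit 366) (B (lo114_11_1 (nat_lit 394)) (lo115_11_1 (nat_lit 367)))) (M (nat_lit 460) (B (lo112_15_7 (nat_lit 492)) (lo112_14_6 (nat_lit 333)))))) (K _ _ _ o1_s30059))))) (M (nat_lit 365) (B (M (nat_lit 394) (B (lo113_11_1 (nat_lit 393)) (lo114_11_1 (nat_lit 366)))) (B (M (nat_lit 330) (B (lo113_11_3 (nat_lit 329)) (M (nat_lit 366) (B (lo114_11_3 (nat_lit 331)) (lo114_11_1 (nat_lit 394)))))) (B (M (nat_lit 366) (B (M (nat_lit 330) (B (lo113_11_3 (nat_lit 329)) (lo114_11_3 (nat_lit 331)))) (M (nat_lit 334) (B (lo110_11_2 (nat_lit 333)) (lo111_11_2 (nat_lit 335)))))) (M (nat_lit 393) (B (lo113_11_1 (nat_lit 394)) (M (nat_lit 361) (B (lo112_11_1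 (nat_lit 392)) (M (nat_lit 329) (B (lo112_11_3 (nat_lit 328)) (lo113_11_3 (nat_lit 330))))))))))))))))))))) _ _ _ (by decide +kernel)
theorem o1_s30132 : Sem (nat_lit 2079502270671306453439785723851727582083327384314767174170292031606357042125918602670908944613490137280031287408198176680773156864) (nat_lit 9590011549361788836705918645454937576646630150388844830637589115836788692763143880364298720727027915315782820246703506995808908957175615093473280000) (nat_lit 9590011549361788836705918645454937576646630150388844830637589115836788692763143880364298720727027915315782820246703506995808908957175615093473280000) := sem_of_chk (M (nat_lit 427) (B (M (nat_lit 459) (B (lo111_14_7 (nat_lit 330)) (M (nat_lit 491) (B (lo111_15_7 (nat_lit 394)) (lo111_15_6 (nat_lit 396)))))) (B (K _ _ _ o1_s30111) (B (M (nat_lit 458) (B (M (nat_lit 426) (B (lo113_13_1 (nat_lit 457)) (lo111_10_5 (nat_lit 331)))) (M (nat_lit 459) (B (lo111_14_7 (nat_lit 330))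 (lo111_11_5 (nat_lit 490)))))) (M (nat_lit 393) (B (M (nat_lit 392) (B (lo112_11_1 (nat_lit 361)) (lo18_12_2 (nat_lit 394)))) (B (M (nat_lit 394) (B (lo113_11_1 (nat_lit 365)) (lo113_13_3 (nat_lit 426)))) (M (nat_lit 426) (B (M (nat_lit 392) (B (lo112_11_1 (nat_lit 361)) (lo112_13_3 (nat_lit 425)))) (M (nat_lit 458) (B (lo113_13_1 (nat_lit 457)) (lo111_10_5 (nat_lit 331))))))))))))) _ _ _ (by decide +kernel)
theorem o1_s30167 : Sem (nat_lit 2079502270671306453439785723851727582083327384314767174170292031606357042125918602670908944613490137280031287408198176680773156864) (nat_lit 9590011549361788836705918645454937576571476787740082167345125736739529907887122038799232484864394604226752131443036036804970541008863016596451360768) (nat_lit 9590011549361788836705918645454937576571476787740082167345125736739529907887122038799232484864394604226752131443036036804970541008863016596451360768) := sem_of_chk (M (nat_lit 427) (B (M (nat_lit 459)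 (B (lo111_14_7 (nat_lit 330)) (M (nat_lit 491) (B (lo111_15_7 (nat_lit 394)) (lo111_15_6 (nat_lit 396)))))) (B (K _ _ _ o1_s30111) (B (M (nat_lit 458) (B (M (nat_lit 426) (B (lo113_13_1 (nat_lit 457)) (lo111_10_5 (nat_lit 331)))) (M (nat_lit 459) (B (lo111_14_7 (nat_lit 330)) (lo111_11_5 (nat_lit 490)))))) (M (nat_lit 393) (B (M (nat_lit 392) (B (lo112_11_1 (nat_lit 361)) (lo18_12_2 (nat_lit 394)))) (B (M (nat_lit 426) (B (lo113_13_3 (nat_lit 394)) (M (nat_lit 458) (B (lo113_13_1 (nat_lit 457)) (lo111_10_5 (nat_lit 331)))))) (M (nat_lit 426) (B (M (nat_lit 392) (B (lo112_11_1 (nat_lit 361)) (lo112_13_3 (nat_lit 425)))) (M (nat_lit 458) (B (lo113_13_1 (nat_lit 457)) (lo111_10_5 (nat_lit 331))))))))))))) _ _ _ (by decide +kernel)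
theorem o1_s30235 : Sem (nat_lit 2079502270590611144796540682080456772516022875177750608691892447808565334648169183913526837783605888859300960143521576617263497216) (nat_lit 5954262829429611657527495703093511332473330743002501075815296648486675016771571032740788184324221953124546947503616249562191167203290644480) (nat_lit 5954262829429611657527495703093511332473330743002501075815296648486675016771571032740788184324221953124546947503616249562191167203290644480) := sem_of_chk (M (nat_lit 366) (B (M (nat_lit 334) (B (M (nat_lit 397) (B (lo113_14_6 (nat_lit 461)) (M (nat_lit 302) (B (lo113_13_6 (nat_lit 333)) (lo114_8_5 (nat_lit 270)))))) (B (M (nat_lit 397) (B (lo113_14_6 (nat_lit 461)) (M (nat_lit 302) (B (lo114_8_5 (nat_lit 270)) (lo114_9_5 (nat_lit 398)))))) (M (nat_lit 335) (B (lo111_11_2 (nat_lit 363)) (M (nat_lit 336) (B (lo116_10_1 (nat_lit 333)) (lo112_11_2 (nat_lit 367))))))))) (B (M (nat_lit 367) (B (M (nat_lit 368) (B (M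 (nat_lit 332) (B (lo115_11_3 (nat_lit 331)) (lo116_11_3 (nat_lit 333)))) (M (nat_lit 336) (B (lo112_11_2 (nat_lit 335)) (lo113_11_2 (nat_lit 337)))))) (B (M (nat_lit 368) (B (M (nat_lit 336) (B (lo112_11_2 (nat_lit 335)) (lo113_11_2 (nat_lit 337)))) (M (nat_lit 400) (B (lo112_11_0 (nat_lit 399)) (lo113_11_0 (nat_lit 401)))))) (B (M (nat_lit 368) (B (M (nat_lit 332) (B (lo115_11_3 (nat_lit 331)) (lo116_11_3 (nat_lit 333)))) (M (nat_lit 400) (B (lo112_11_0 (nat_lit 399)) (lo113_11_0 (nat_lit 401)))))) (M (nat_lit 332) (B (lo115_11_3 (nat_lit 331)) (M (nat_lit 397) (B (lo113_14_7 (nat_lit 461)) (M (nat_lit 300) (B (lo112_8_4 (nat_lit 268)) (lo113_13_7 (nat_lit 333)))))))))))) (B (M (nat_lit 334) (B (M (nat_lit 397) (B (lo113_14_6 (nat_lit 461)) (M (nat_lit 302) (B (lo114_8_5 (nat_lit 270)) (lo114_9_5 (nat_lit 398)))))) (M (nat_lit 335) (B (lo111_11_2 (nat_lit 363)) (M (nat_lit 336) (B (lo112_11_2 (nat_lit 367)) (lo117_10_1 (nat_lit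 337)))))))) (B (M (nat_lit 363) (B (M (nat_lit 362) (B (M (nat_lit 394) (B (lo113_11_1 (nat_lit 393)) (lo114_11_1 (nat_lit 395)))) (M (nat_lit 334) (B (lo110_11_2 (nat_lit 333)) (lo111_11_2 (nat_lit 335)))))) (B (M (nat_lit 362) (B (M (nat_lit 330) (B (lo113_11_3 (nat_lit 329)) (lo114_11_3 (nat_lit 331)))) (M (nat_lit 334) (B (lo110_11_2 (nat_lit 333)) (lo111_11_2 (nat_lit 335)))))) (M (nat_lit 367) (B (M (nat_lit 331) (B (lo114_11_3 (nat_lit 330)) (lo115_11_3 (nat_lit 332)))) (M (nat_lit 399) (B (lo111_11_0 (nat_lit 398)) (lo112_11_0 (nat_lit 400))))))))) (B (M (nat_lit 332) (B (M (nat_lit 331) (B (lo115_11_3 (nat_lit 367)) (M (nat_lit 330) (B (lo19_10_0 (nat_lit 329)) (lo110_10_0 (nat_lit 333)))))) (B (M (nat_lit 331) (B (lo115_11_3 (nat_lit 367)) (M (nat_lit 330) (B (lo114_11_3 (nat_lit 363)) (lo110_10_0 (nat_lit 333)))))) (B (M (nat_lit 397) (B (lo113_14_7 (nat_lit 461)) (M (nat_lit 300) (B (lo112_8_4 (nat_lit 268)) (lo113_13_7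 (nat_lit 333)))))) (M (nat_lit 331) (B (lo115_11_3 (nat_lit 367)) (M (nat_lit 330) (B (lo19_10_0 (nat_lit 329)) (lo114_11_3 (nat_lit 363)))))))))) (K _ _ _ o1_s30234))))))) _ _ _ (by decide +kernel)
theorem o1_s30403 : Sem (nat_lit 2079502270913392379557404255787446669016399359468963832795545386912397754215750136665631987112311558019318189073009473113856933888) (nat_lit 1013065326084944732755671336758975938048843613945592323630983097248873998984541399571030164523615793533361598755284238835263217040103999326847257525179994611109092395942586351616) (nat_lit 1013065326084944732755671336758975938048843613945592323630983097248873998984541399571030164523615793533361598755284238835263217040103999326847257525179994611109092395942586351616) := sem_of_chk (M (nat_lit 461) (B (lo113_14_7 (nat_lit 332)) (M (nat_lit 493) (B (M (nat_lit 492) (B (lo113_11_5 (nat_lit 460)) (lo113_12_5 (nat_lit 524)))) (B (M (nat_lit 525) (B (M (nat_lit 524) (B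 (lo113_12_5 (nat_lit 492)) (lo113_13_5 (nat_lit 556)))) (M (nat_lit 526) (B (lo113_12_4 (nat_lit 494)) (lo113_13_4 (nat_lit 558)))))) (B (K _ _ _ o1_s30397) (M (nat_lit 525) (B (M (nat_lit 460) (B (lo113_17_7 (nat_lit 557)) (lo113_11_5 (nat_lit 492)))) (M (nat_lit 526) (B (lo113_12_4 (nat_lit 494)) (lo113_13_4 (nat_lit 558)))))))))))) _ _ _ (by decide +kernel)
theorem o1_s30529 : Sem (nat_lit 2426085982355713002262630795760532901268693354374042376807207855776659557089530714565781310747540203669184453500775172720140746752) (nat_lit 3721414268566799135646392528918480158140826222051159588001872873077823797732062106277196663071644004143260520845660404592723329885090611200) (nat_lit 3721414268566799135646392528918480158140826222051159588001872873077823797732062106277196663071644004143260520845660404592723329885090611200) := sem_of_chk (M (nat_lit 395) (B (M (nat_lit 331) (B (lo111_10_4 (nat_lit 460)) (M (nat_lit 330) (B (lo111_13_7 (nat_lit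 298)) (M (nat_lit 332) (B (lo19_10_0 (nat_lit 329)) (lo111_13_6 (nat_lit 300)))))))) (B (M (nat_lit 331) (B (lo111_10_4 (nat_lit 460)) (M (nat_lit 426) (B (lo111_10_5 (nat_lit 458)) (M (nat_lit 394) (B (lo113_13_3 (nat_lit 393)) (lo111_9_5 (nat_lit 299)))))))) (K _ _ _ o1_s23061)))) _ _ _ (by decide +kernel)
theorem o1_s30789 : Sem (nat_lit 2079502270590611144721387319431694109223559496080491823815870606243499098785535872824496148979938418668462592195208978120241577984) (nat_lit 7442828537306890137191641178865656499423143876278886866887512186284196510354593979188246685561905548849308619910577454898772390755249946624) (nat_lit 7442828537306890137191641178865656499423143876278886866887512186284196510354593979188246685561905548849308619910577454898772390755249946624) := sem_of_chk (M (nat_lit 332) (B (M (nat_lit 396) (B (lo112_10_4 (nat_lit 461)) (M (nat_lit 300) (B (lo112_9_4 (nat_lit 397)) (M (nat_lit 301) (B (lo112_12_6 (nat_lit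 269)) (lo112_13_6 (nat_lit 333)))))))) (B (M (nat_lit 396) (B (lo112_10_4 (nat_lit 461)) (M (nat_lit 365) (B (M (nat_lit 331) (B (lo112_13_7 (nat_lit 299)) (M (nat_lit 366) (B (lo115_11_3 (nat_lit 367)) (M (nat_lit 330) (B (lo19_10_0 (nat_lit 329)) (lo114_11_3 (nat_lit 363)))))))) (B (M (nat_lit 331) (B (lo112_13_7 (nat_lit 299)) (M (nat_lit 366) (B (lo115_11_3 (nat_lit 367)) (M (nat_lit 333) (B (lo110_10_0 (nat_lit 330)) (lo112_13_6 (nat_lit 301)))))))) (B (M (nat_lit 331) (B (lo112_13_7 (nat_lit 299)) (K _ _ _ o1_s30663))) (B (M (nat_lit 331) (B (M (nat_lit 333) (B (lo112_13_6 (nat_lit 301)) (M (nat_lit 330) (B (lo19_10_0 (nat_lit 329)) (lo110_10_0 (nat_lit 366)))))) (B (M (nat_lit 366) (B (lo115_11_3 (nat_lit 367)) (M (nat_lit 333) (B (lo110_10_0 (nat_lit 330)) (lo112_13_6 (nat_lit 301)))))) (B (K _ _ _ o1_s30663) (M (nat_lit 366) (B (lo115_11_3 (nat_lit 367)) (M (nat_lit 330) (B (lo19_10_0 (nat_lit 329)) (lo114_11_3 (nat_lit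 363)))))))))) (M (nat_lit 397) (B (M (nat_lit 427) (B (lo112_10_5 (nat_lit 459)) (M (nat_lit 398) (B (lo110_13_2 (nat_lit 426)) (lo115_12_1 (nat_lit 399)))))) (M (nat_lit 333) (B (lo112_13_6 (nat_lit 301)) (M (nat_lit 334) (B (lo113_13_6 (nat_lit 302)) (M (nat_lit 363) (B (lo110_11_2 (nat_lit 362)) (lo115_10_1 (nat_lit 335))))))))))))))))) (B (M (nat_lit 365) (B (M (nat_lit 397) (B (lo113_14_7 (nat_lit 461)) (M (nat_lit 300) (B (lo112_8_4 (nat_lit 268)) (lo113_13_7 (nat_lit 333)))))) (B (K _ _ _ o1_s30681) (B (M (nat_lit 363) (B (M (nat_lit 397) (B (lo113_14_7 (nat_lit 461)) (M (nat_lit 362) (B (lo110_11_0 (nat_lit 398)) (M (nat_lit 333) (B (lo19_11_2 (nat_lit 361)) (lo110_11_2 (nat_lit 334)))))))) (B (M (nat_lit 397) (B (lo113_14_7 (nat_lit 461)) (M (nat_lit 398) (B (lo110_11_0 (nat_lit 362)) (M (nat_lit 399) (B (lo111_11_0 (nat_lit 366)) (lo116_12_3 (nat_lit 400)))))))) (B (M (nat_lit 366) (B (M (nat_lit 331) (B (lo114_11_3 (nat_lit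 330)) (lo115_11_3 (nat_lit 367)))) (B (M (nat_lit 367) (B (lo115_11_3 (nat_lit 331)) (M (nat_lit 399) (B (lo111_11_0 (nat_lit 398)) (lo112_11_0 (nat_lit 400)))))) (M (nat_lit 397) (B (lo113_14_7 (nat_lit 461)) (M (nat_lit 334) (B (lo111_11_2 (nat_lit 335)) (M (nat_lit 398) (B (lo111_11_0 (nat_lit 399)) (lo114_9_5 (nat_lit 302))))))))))) (M (nat_lit 366) (B (M (nat_lit 331) (B (lo114_11_3 (nat_lit 330)) (lo115_11_3 (nat_lit 367)))) (M (nat_lit 362) (B (M (nat_lit 394) (B (lo113_11_1 (nat_lit 393)) (lo114_11_1 (nat_lit 395)))) (M (nat_lit 334) (B (lo110_11_2 (nat_lit 333)) (lo111_11_2 (nat_lit 335)))))))))))) (B (M (nat_lit 363) (B (M (nat_lit 397) (B (lo113_14_7 (nat_lit 461)) (M (nat_lit 398) (B (lo110_11_0 (nat_lit 362)) (M (nat_lit 399) (B (lo111_11_0 (nat_lit 366)) (lo116_12_3 (nat_lit 400)))))))) (B (M (nat_lit 366) (B (M (nat_lit 331) (B (lo114_11_3 (nat_lit 330)) (lo115_11_3 (nat_lit 367)))) (M (nat_lit 397) (B (lo113_14_7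 (nat_lit 461)) (M (nat_lit 334) (B (lo111_11_2 (nat_lit 335)) (M (nat_lit 398) (B (lo111_11_0 (nat_lit 399)) (lo114_9_5 (nat_lit 302)))))))))) (B (M (nat_lit 395) (B (M (nat_lit 394) (B (lo114_11_1 (nat_lit 366)) (M (nat_lit 393) (B (lo18_12_2 (nat_lit 392)) (lo113_11_1 (nat_lit 362)))))) (B (M (nat_lit 366) (B (lo114_11_1 (nat_lit 394)) (M (nat_lit 331) (B (lo114_11_3 (nat_lit 330)) (lo115_11_3 (nat_lit 367)))))) (M (nat_lit 427) (B (lo111_14_6 (nat_lit 459)) (M (nat_lit 300) (B (lo111_13_6 (nat_lit 331)) (lo112_8_5 (nat_lit 268))))))))) (M (nat_lit 362) (B (M (nat_lit 397) (B (lo110_11_0 (nat_lit 398)) (lo113_14_7 (nat_lit 461)))) (M (nat_lit 361) (B (M (nat_lit 329) (B (lo112_11_3 (nat_lit 328)) (lo113_11_3 (nat_lit 330)))) (M (nat_lit 393) (B (lo112_11_1 (nat_lit 392)) (lo113_11_1 (nat_lit 394)))))))))))) (M (nat_lit 366) (B (M (nat_lit 331) (B (lo115_11_3 (nat_lit 367)) (M (nat_lit 330) (B (lo19_10_0 (nat_lit 329)) (lo110_10_0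 (nat_lit 333)))))) (B (M (nat_lit 331) (B (lo115_11_3 (nat_lit 367)) (M (nat_lit 330) (B (lo114_11_3 (nat_lit 363)) (lo110_10_0 (nat_lit 333)))))) (B (M (nat_lit 367) (B (lo115_11_3 (nat_lit 331)) (M (nat_lit 368) (B (lo116_11_3 (nat_lit 333)) (M (nat_lit 400) (B (lo112_11_0 (nat_lit 399)) (lo113_11_0 (nat_lit 401)))))))) (B (M (nat_lit 367) (B (M (nat_lit 368) (B (lo116_11_3 (nat_lit 333)) (M (nat_lit 400) (B (lo112_11_0 (nat_lit 399)) (lo113_11_0 (nat_lit 401)))))) (B (M (nat_lit 363) (B (M (nat_lit 335) (B (lo111_11_2 (nat_lit 334)) (lo112_11_2 (nat_lit 336)))) (M (nat_lit 399) (B (lo111_11_0 (nat_lit 398)) (lo112_11_0 (nat_lit 400)))))) (M (nat_lit 363) (B (M (nat_lit 335) (B (lo111_11_2 (nat_lit 334)) (lo112_11_2 (nat_lit 336)))) (M (nat_lit 362) (B (M (nat_lit 333) (B (lo19_11_2 (nat_lit 361)) (lo116_11_3 (nat_lit 368)))) (M (nat_lit 394) (B (lo113_11_1 (nat_lit 393)) (lo114_11_1 (nat_lit 395))))))))))) (B (M (nat_lit 331)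 (B (lo115_11_3 (nat_lit 367)) (M (nat_lit 330) (B (lo19_10_0 (nat_lit 329)) (lo114_11_3 (nat_lit 363)))))) (M (nat_lit 363) (B (M (nat_lit 330) (B (lo114_11_3 (nat_lit 331)) (M (nat_lit 362) (B (lo113_11_3 (nat_lit 329)) (M (nat_lit 394) (B (lo113_11_1 (nat_lit 393)) (lo114_11_1 (nat_lit 395)))))))) (B (M (nat_lit 362) (B (M (nat_lit 394) (B (lo113_11_1 (nat_lit 393)) (lo114_11_1 (nat_lit 395)))) (M (nat_lit 333) (B (lo19_11_2 (nat_lit 361)) (lo110_11_2 (nat_lit 334)))))) (B (M (nat_lit 362) (B (M (nat_lit 330) (B (lo113_11_3 (nat_lit 329)) (lo114_11_3 (nat_lit 331)))) (M (nat_lit 333) (B (lo19_11_2 (nat_lit 361)) (lo110_11_2 (nat_lit 334)))))) (M (nat_lit 331) (B (lo114_11_3 (nat_lit 330)) (M (nat_lit 395) (B (lo114_11_1 (nat_lit 394)) (M (nat_lit 427) (B (lo111_13_6 (nat_lit 300)) (lo111_14_6 (nat_lit 459))))))))))))))))))))))) (B (M (nat_lit 396) (B (lo112_10_4 (nat_lit 461)) (M (nat_lit 300) (B (lo112_9_4 (nat_lit 397)) (M (nat_lit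 299) (B (lo112_12_7 (nat_lit 267)) (lo112_13_7 (nat_lit 331)))))))) (B (K _ _ _ o1_s30779) (M (nat_lit 396) (B (M (nat_lit 300) (B (lo112_9_4 (nat_lit 397)) (M (nat_lit 301) (B (lo112_12_6 (nat_lit 269)) (lo112_13_6 (nat_lit 333)))))) (B (M (nat_lit 365) (B (M (nat_lit 333) (B (lo112_13_6 (nat_lit 301)) (M (nat_lit 331) (B (lo112_13_7 (nat_lit 299)) (M (nat_lit 330) (B (lo19_10_0 (nat_lit 329)) (lo110_10_0 (nat_lit 366)))))))) (B (M (nat_lit 331) (B (lo112_13_7 (nat_lit 299)) (M (nat_lit 366) (B (lo115_11_3 (nat_lit 367)) (M (nat_lit 333) (B (lo110_10_0 (nat_lit 330)) (lo112_13_6 (nat_lit 301)))))))) (B (M (nat_lit 333) (B (lo112_13_6 (nat_lit 301)) (M (nat_lit 397) (B (M (nat_lit 334) (B (lo113_13_6 (nat_lit 302)) (M (nat_lit 363) (B (lo110_11_2 (nat_lit 362)) (lo115_10_1 (nat_lit 335)))))) (M (nat_lit 427) (B (lo112_10_5 (nat_lit 459)) (M (nat_lit 398) (B (lo110_13_2 (nat_lit 426)) (lo115_12_1 (nat_lit 399)))))))))) (M (nat_lit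 331) (B (lo112_13_7 (nat_lit 299)) (M (nat_lit 366) (B (lo115_11_3 (nat_lit 367)) (M (nat_lit 330) (B (lo19_10_0 (nat_lit 329)) (lo114_11_3 (nat_lit 363)))))))))))) (B (M (nat_lit 300) (B (lo112_9_4 (nat_lit 397)) (M (nat_lit 427) (B (lo112_9_5 (nat_lit 395)) (lo112_10_5 (nat_lit 459)))))) (M (nat_lit 300) (B (M (nat_lit 299) (B (lo112_12_7 (nat_lit 267)) (lo112_13_7 (nat_lit 331)))) (M (nat_lit 427) (B (lo112_9_5 (nat_lit 395)) (lo112_10_5 (nat_lit 459)))))))))))))))) _ _ _ (by decide +kernel)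
theorem o1_s31243 : Sem (nat_lit 2079502270752001762120607446947379723296863583000413132086702536186681867534984676972806395845208120796180798647031075992793776128) (nat_lit 2410772347359751159697700009541772922356437124559292276877067640275486299827342320844727500373047450414490720407683858432) (nat_lit 2410772347359751159697700009541772922356437124559292276877067640275486299827342320844727500373047450414490720407683858432) := sem_of_chk (M (nat_lit 362) (B (M (nat_lit 397) (B (lo19_11_0 (nat_lit 361)) (M (nat_lit 398) (B (lo114_12_3 (nat_lit 395)) (lo110_11_0 (nat_lit 365)))))) (B (K _ _ _ o1_s29461) (B (M (nat_lit 397) (B (lo19_11_0 (nat_lit 361)) (M (nat_lit 398) (B (lo114_12_3 (nat_lit 395)) (lo115_12_3 (nat_lit 399)))))) (M (nat_lit 365) (B (M (nat_lit 366) (B (M (nat_lit 394) (B (lo113_11_1 (nat_lit 393)) (lo114_11_1 (nat_lit 395)))) (M (nat_lit 334) (B (lo110_11_2 (nat_lit 333)) (lo111_11_2 (nat_lit 335)))))) (B (M (nat_lit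 366) (B (M (nat_lit 330) (B (lo113_11_3 (nat_lit 329)) (lo114_11_3 (nat_lit 331)))) (M (nat_lit 334) (B (lo110_11_2 (nat_lit 333)) (lo111_11_2 (nat_lit 335)))))) (B (M (nat_lit 366) (B (M (nat_lit 330) (B (lo113_11_3 (nat_lit 329)) (lo114_11_3 (nat_lit 331)))) (M (nat_lit 394) (B (lo113_11_1 (nat_lit 393)) (lo114_11_1 (nat_lit 395)))))) (M (nat_lit 361) (B (M (nat_lit 329) (B (lo112_11_3 (nat_lit 328)) (lo113_11_3 (nat_lit 330)))) (M (nat_lit 393) (B (lo112_11_1 (nat_lit 392)) (lo113_11_1 (nat_lit 394)))))))))))))) _ _ _ (by decide +kernel)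
theorem o1_s31610 : Sem (nat_lit 5954262831682405773853222707625994670041285535792614673568818679013811707474335600480227906167130334033379984202662888537655858652652765184) (nat_lit 5571859286155143831704054104758601631691887831192322088042471493413551088570530813007518191596667793941713615058719267299493844096018134534805125736118328104037560040040693760000) (nat_lit 5571859286155143831704054104758601631691887831192322088042471493413551088570530813007518191596667793941713615058719267299493844096018134534805125736118328104037560040040693760000) := sem_of_chk (M (nat_lit 493) (B (M (nat_lit 396) (B (lo113_16_7 (nat_lit 525)) (M (nat_lit 364) (B (lo113_15_7 (nat_lit 397)) (lo112_11_4 (nat_lit 460)))))) (B (M (nat_lit 492) (B (M (nat_lit 524) (B (lo113_12_5 (nat_lit 397)) (M (nat_lit 556) (B (lo112_18_6 (nat_lit 588)) (lo112_17_6 (nat_lit 460)))))) (B (M (nat_lit 491) (B (M (nat_lit 462) (B (lo110_15_2 (nat_lit 490)) (M (nat_lit 463)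 (B (lo116_14_1 (nat_lit 464)) (lo115_14_1 (nat_lit 460)))))) (B (M (nat_lit 462) (B (lo110_15_2 (nat_lit 490)) (M (nat_lit 463) (B (lo111_15_2 (nat_lit 494)) (lo115_14_1 (nat_lit 460)))))) (B (M (nat_lit 523) (B (M (nat_lit 460) (B (lo112_12_5 (nat_lit 396)) (M (nat_lit 555) (B (lo112_13_5 (nat_lit 524)) (lo111_18_6 (nat_lit 587)))))) (M (nat_lit 522) (B (lo114_15_1 (nat_lit 494)) (M (nat_lit 521) (B (lo113_15_1 (nat_lit 490)) (lo18_16_2 (nat_lit 520)))))))) (B (M (nat_lit 462) (B (lo110_15_2 (nat_lit 490)) (M (nat_lit 463) (B (lo116_14_1 (nat_lit 464)) (lo111_15_2 (nat_lit 494)))))) (M (nat_lit 494) (B (M (nat_lit 462) (B (lo111_15_2 (nat_lit 463)) (M (nat_lit 526) (B (lo111_15_0 (nat_lit 527)) (lo114_17_7 (nat_lit 558)))))) (B (M (nat_lit 495) (B (M (nat_lit 463) (B (lo112_15_2 (nat_lit 464)) (lo111_15_2 (nat_lit 462)))) (M (nat_lit 523) (B (lo115_15_1 (nat_lit 524)) (lo114_15_1 (nat_lit 522)))))) (M (nat_lit 495) (B (M (nat_lit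 527) (B (lo112_15_0 (nat_lit 528)) (lo111_15_0 (nat_lit 526)))) (M (nat_lit 523) (B (lo115_15_1 (nat_lit 524)) (lo114_15_1 (nat_lit 522)))))))))))))) (B (K _ _ _ o1_s31569) (K _ _ _ o1_s31588))))) (B (M (nat_lit 396) (B (lo113_16_7 (nat_lit 525)) (M (nat_lit 364) (B (lo112_11_4 (nat_lit 460)) (lo112_10_4 (nat_lit 332)))))) (B (M (nat_lit 396) (B (lo113_16_7 (nat_lit 525)) (M (nat_lit 364) (B (lo113_15_7 (nat_lit 397)) (lo112_10_4 (nat_lit 332)))))) (K _ _ _ o1_s31609)))))) _ _ _ (by decide +kernel)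
theorem o1_s32795 : Sem (nat_lit 9675677100075913053465760604012577885931929302511683142210048498818684862614932967910326085821599789704484094826745719557353018991159803904) (nat_lit 1651108561271312201312613498098238122090591719315677612290362151276320269147470646032828861368394201702966700784856080568991608202174839594748366858877054428569457917952) (nat_lit 1651108561271312201312613498098238122090591719315677612290362151276320269147470646032828861368394201702966700784856080568991608202174839594748366858877054428569457917952) := sem_of_chk (M (nat_lit 493) (B (M (nat_lit 525) (B (lo113_17_7 (nat_lit 557)) (lo113_16_7 (nat_lit 396)))) (B (M (nat_lit 396) (B (lo113_16_7 (nat_lit 525)) (lo112_11_4 (nat_lit 364)))) (B (M (nat_lit 492) (B (M (nat_lit 524) (B (lo113_12_5 (nat_lit 397)) (lo112_17_6 (nat_lit 556)))) (M (nat_lit 491) (B (M (nat_lit 462) (B (lo115_14_1 (nat_lit 463)) (lo110_15_2 (nat_lit 490)))) (M (nat_lit 396) (B (lo112_11_4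 (nat_lit 364)) (lo112_12_5 (nat_lit 523)))))))) (K _ _ _ o1_s32794))))) _ _ _ (by decide +kernel)
theorem o1_s33528 : Sem (nat_lit 5954262831682405773853222707625994670041285535792614673568818679013811707474335600480227906167130334033379984202662888537655858652652765184) (nat_lit 5065326623938225745948144941710364186502171676794076344266237877273129521481887935302741643304426775694900507871322572352960307413550589730194253676844100594756167666883262152704) (nat_lit 5065326623938225745948144941710364186502171676794076344266237877273129521481887935302741643304426775694900507871322572352960307413550589730194253676844100594756167666883262152704) := sem_of_chk (M (nat_lit 493) (B (M (nat_lit 396) (B (lo113_16_7 (nat_lit 525)) (M (nat_lit 364) (B (lo112_11_4 (nat_lit 460)) (lo112_10_4 (nat_lit 332)))))) (B (M (nat_lit 492) (B (M (nat_lit 524) (B (lo113_12_5 (nat_lit 397)) (M (nat_lit 556) (B (lo112_18_6 (nat_lit 588)) (lo112_17_6 (nat_lit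 460)))))) (B (M (nat_lit 491) (B (M (nat_lit 462) (B (lo110_15_2 (nat_lit 490)) (M (nat_lit 463) (B (lo116_14_1 (nat_lit 464)) (lo111_15_2 (nat_lit 494)))))) (B (M (nat_lit 462) (B (lo110_15_2 (nat_lit 490)) (M (nat_lit 463) (B (lo111_15_2 (nat_lit 494)) (lo115_14_1 (nat_lit 460)))))) (B (M (nat_lit 494) (B (M (nat_lit 462) (B (lo110_15_2 (nat_lit 490)) (M (nat_lit 526) (B (lo111_15_0 (nat_lit 527)) (lo114_17_7 (nat_lit 558)))))) (M (nat_lit 460) (B (M (nat_lit 459) (B (lo115_15_3 (nat_lit 495)) (lo110_14_0 (nat_lit 458)))) (M (nat_lit 396) (B (lo112_11_4 (nat_lit 364)) (lo112_12_5 (nat_lit 523)))))))) (B (M (nat_lit 462) (B (lo110_15_2 (nat_lit 490)) (M (nat_lit 463) (B (lo116_14_1 (nat_lit 464)) (lo115_14_1 (nat_lit 460)))))) (B (M (nat_lit 523) (B (M (nat_lit 522) (B (lo114_15_1 (nat_lit 494)) (M (nat_lit 521) (B (lo113_15_1 (nat_lit 490)) (lo18_16_2 (nat_lit 520)))))) (M (nat_lit 460) (B (lo112_12_5 (nat_lit 396)) (M (nat_lit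 555) (B (lo112_13_5 (nat_lit 524)) (lo111_17_6 (nat_lit 459)))))))) (M (nat_lit 494) (B (M (nat_lit 462) (B (lo111_15_2 (nat_lit 463)) (M (nat_lit 526) (B (lo111_15_0 (nat_lit 527)) (lo114_17_7 (nat_lit 558)))))) (M (nat_lit 460) (B (M (nat_lit 459) (B (lo115_15_3 (nat_lit 495)) (lo110_14_0 (nat_lit 458)))) (M (nat_lit 396) (B (lo112_11_4 (nat_lit 364)) (lo112_12_5 (nat_lit 523)))))))))))))) (B (K _ _ _ o1_s31569) (K _ _ _ o1_s31588))))) (B (M (nat_lit 396) (B (lo113_16_7 (nat_lit 525)) (M (nat_lit 364) (B (lo113_15_7 (nat_lit 397)) (lo112_10_4 (nat_lit 332)))))) (K _ _ _ o1_s31609))))) _ _ _ (by decide +kernel)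
theorem o1_s34524 : Sem (nat_lit 2079502270590611144796540682080456772516022875177750608691892447808565334648169183913526837783605888859300960143521576617263497216) (nat_lit 14052240813557552024707365599097176249595613961088216076182654349520120813923507772773925857386218471063150553505667495725000834675231315587422065271474395021312) (nat_lit 14052240813557552024707365599097176249595613961088216076182654349520120813923507772773925857386218471063150553505667495725000834675231315587422065271474395021312) := sem_of_chk (M (nat_lit 366) (B (M (nat_lit 397) (B (K _ _ _ o1_s34385) (B (K _ _ _ o1_s34484) (B (M (nat_lit 396) (B (M (nat_lit 367) (B (lo116_11_1 (nat_lit 368)) (lo115_11_1 (nat_lit 395)))) (M (nat_lit 461) (B (lo113_14_6 (nat_lit 334)) (lo113_15_7 (nat_lit 493)))))) (M (nat_lit 334) (B (M (nat_lit 302) (B (lo114_9_5 (nat_lit 398)) (lo113_13_6 (nat_lit 333)))) (lo113_14_6 (nat_lit 461)))))))) (B (K _ _ _ o1_s34501) (B (K _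 _ _ o1_s34514) (B (K _ _ _ o1_s34523) (K _ _ _ o1_s30234)))))) _ _ _ (by decide +kernel)
theorem o1_s34600 : Sem (nat_lit 2079502270752001762176972468933951720766211117323357220743718917360481544431959660289579412447958723439309574608265524865560215552) (nat_lit 23817051323263785987586526093752436971019393354309070075375270417629411092783366974605296886378886296634258356517480616707408751924244119552) (nat_lit 23817051323263785987586526093752436971019393354309070075375270417629411092783366974605296886378886296634258356517480616707408751924244119552) := sem_of_chk (M (nat_lit 366) (B (M (nat_lit 395) (B (lo115_11_1 (nat_lit 367)) (M (nat_lit 394) (B (lo114_11_1 (nat_lit 363)) (lo19_12_2 (nat_lit 393)))))) (B (M (nat_lit 363) (B (M (nat_lit 395) (B (lo114_11_1 (nat_lit 394)) (M (nat_lit 331) (B (lo114_11_3 (nat_lit 330)) (lo111_9_4 (nat_lit 299)))))) (B (M (nat_lit 362) (B (M (nat_lit 334) (B (lo111_11_2 (nat_lit 335)) (lo110_11_2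 (nat_lit 333)))) (M (nat_lit 394) (B (lo114_11_1 (nat_lit 395)) (lo113_11_1 (nat_lit 393)))))) (M (nat_lit 362) (B (M (nat_lit 334) (B (lo111_11_2 (nat_lit 335)) (lo110_11_2 (nat_lit 333)))) (M (nat_lit 330) (B (lo114_11_3 (nat_lit 331)) (lo113_11_3 (nat_lit 329))))))))) (B (M (nat_lit 367) (B (lo115_11_1 (nat_lit 395)) (M (nat_lit 368) (B (M (nat_lit 336) (B (lo113_11_2 (nat_lit 337)) (lo112_11_2 (nat_lit 335)))) (M (nat_lit 400) (B (lo113_11_0 (nat_lit 401)) (lo112_11_0 (nat_lit 399)))))))) (M (nat_lit 399) (B (M (nat_lit 400) (B (lo112_11_0 (nat_lit 367)) (M (nat_lit 398) (B (lo117_12_3 (nat_lit 401)) (lo111_11_0 (nat_lit 363)))))) (B (M (nat_lit 335) (B (M (nat_lit 367) (B (lo112_11_2 (nat_lit 336)) (lo112_11_0 (nat_lit 400)))) (M (nat_lit 363) (B (lo111_11_2 (nat_lit 334)) (lo111_11_0 (nat_lit 398)))))) (B (M (nat_lit 363) (B (lo111_11_0 (nat_lit 398)) (M (nat_lit 362) (B (M (nat_lit 334) (B (lo111_11_2 (nat_lit 335)) (lo110_11_2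 (nat_lit 333)))) (M (nat_lit 330) (B (lo114_11_3 (nat_lit 331)) (lo113_11_3 (nat_lit 329)))))))) (B (K _ _ _ o1_s34570) (M (nat_lit 367) (B (lo112_11_0 (nat_lit 400)) (M (nat_lit 334) (B (M (nat_lit 335) (B (lo112_11_2 (nat_lit 336)) (M (nat_lit 431) (B (lo115_13_7 (nat_lit 302)) (lo115_14_7 (nat_lit 463)))))) (B (M (nat_lit 431) (B (lo115_14_7 (nat_lit 463)) (M (nat_lit 302) (B (lo115_13_7 (nat_lit 335)) (lo114_8_4 (nat_lit 270)))))) (B (M (nat_lit 431) (B (lo115_14_7 (nat_lit 463)) (M (nat_lit 302) (B (lo114_8_4 (nat_lit 270)) (lo114_9_4 (nat_lit 398)))))) (M (nat_lit 368) (B (M (nat_lit 336) (B (lo113_11_2 (nat_lit 337)) (lo112_11_2 (nat_lit 335)))) (B (M (nat_lit 369) (B (lo117_11_3 (nat_lit 333)) (M (nat_lit 370) (B (lo118_11_3 (nat_lit 335)) (lo118_11_1 (nat_lit 398)))))) (M (nat_lit 369) (B (lo117_11_3 (nat_lit 333)) (M (nat_lit 337) (B (lo114_11_2 (nat_lit 338)) (lo113_11_2 (nat_lit 336)))))))))))))))))))))))) _ _ _ (by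 decide +kernel)
theorem o1_s34640 : Sem (nat_lit 2079502270752001762176972468933951720766211117323357220743718917360481544431959660289579412447958723439309574608265524865560215552) (nat_lit 2977131414714805828365314764834798213012054545065670046338439681417769771020634333438381003897915267789443774793034270652007625299274498048) (nat_lit 2977131414714805828365314764834798213012054545065670046338439681417769771020634333438381003897915267789443774793034270652007625299274498048) := sem_of_chk (M (nat_lit 363) (B (M (nat_lit 331) (B (lo112_14_7 (nat_lit 460)) (M (nat_lit 299) (B (lo111_8_4 (nat_lit 267)) (lo111_9_4 (nat_lit 395)))))) (B (M (nat_lit 366) (B (M (nat_lit 331) (B (lo114_11_3 (nat_lit 330)) (lo112_14_7 (nat_lit 460)))) (M (nat_lit 395) (B (lo115_11_1 (nat_lit 367)) (lo114_11_1 (nat_lit 394)))))) (B (M (nat_lit 362) (B (M (nat_lit 393) (B (lo113_11_1 (nat_lit 394)) (M (nat_lit 361) (B (lo112_11_1 (nat_lit 392)) (M (nat_lit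 329) (B (lo113_11_3 (nat_lit 330)) (lo112_11_3 (nat_lit 328)))))))) (B (K _ _ _ o1_s34622) (B (K _ _ _ o1_s34626) (M (nat_lit 329) (B (lo113_11_3 (nat_lit 330)) (M (nat_lit 395) (B (M (nat_lit 366) (B (lo115_11_1 (nat_lit 367)) (lo114_11_1 (nat_lit 394)))) (M (nat_lit 361) (B (lo112_11_3 (nat_lit 328)) (lo18_11_0 (nat_lit 360)))))))))))) (M (nat_lit 331) (B (lo112_14_7 (nat_lit 460)) (M (nat_lit 330) (B (lo114_11_3 (nat_lit 366)) (M (nat_lit 329) (B (lo18_10_0 (nat_lit 328)) (lo113_11_3 (nat_lit 362)))))))))))) _ _ _ (by decide +kernel)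
theorem o1_s34719 : Sem (nat_lit 2079502270913392379707710981084971995601326117663481402547589070042530225941016758843693364719646498400994924969634670107900772352) (nat_lit 20153653347513896048986421773554040332612087957498209000322137184881261768897673868973388992161472444351619767631794405376) (nat_lit 20153653347513896048986421773554040332612087957498209000322137184881261768897673868973388992161472444351619767631794405376) := sem_of_chk (M (nat_lit 367) (B (M (nat_lit 400) (B (lo112_11_0 (nat_lit 399)) (M (nat_lit 368) (B (lo113_11_0 (nat_lit 401)) (M (nat_lit 336) (B (lo112_11_2 (nat_lit 335)) (lo113_11_2 (nat_lit 337)))))))) (B (K _ _ _ o1_s34708) (B (K _ _ _ o1_s34712) (M (nat_lit 368) (B (M (nat_lit 336) (B (lo112_11_2 (nat_lit 335)) (lo113_11_2 (nat_lit 337)))) (M (nat_lit 398) (B (lo117_11_1 (nat_lit 369)) (M (nat_lit 363) (B (lo110_11_0 (nat_lit 362)) (lo111_11_0 (nat_lit 399)))))))))))) _ _ _ (by decide +kernel)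
theorem o1_s35685 : Sem (nat_lit 2079502270752001762101819106285189057473747738226098435867697075795415308569326349200548723644291253248471206659952926368538296320) (nat_lit 1756530101490306881996549935102702951808587493845924930195547356262309341757942918485851537768582361706137023269274584000989270971582082674665715624754861309952) (nat_lit 1756530101490306881996549935102702951808587493845924930195547356262309341757942918485851537768582361706137023269274584000989270971582082674665715624754861309952) := sem_of_chk (M (nat_lit 363) (B (M (nat_lit 331) (B (lo112_14_7 (nat_lit 460)) (M (nat_lit 299) (B (lo112_13_7 (nat_lit 332)) (lo111_8_4 (nat_lit 267)))))) (B (M (nat_lit 362) (B (M (nat_lit 397) (B (lo19_11_0 (nat_lit 361)) (M (nat_lit 398) (B (lo114_12_3 (nat_lit 395)) (lo115_12_3 (nat_lit 399)))))) (B (M (nat_lit 365) (B (M (nat_lit 366) (B (M (nat_lit 394) (B (lo113_11_1 (nat_lit 393)) (lo114_11_1 (nat_lit 395)))) (M (nat_lit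 398) (B (lo110_11_0 (nat_lit 397)) (lo111_11_0 (nat_lit 399)))))) (B (M (nat_lit 366) (B (M (nat_lit 394) (B (lo113_11_1 (nat_lit 393)) (lo114_11_1 (nat_lit 395)))) (B (M (nat_lit 395) (B (lo114_11_1 (nat_lit 394)) (lo115_11_1 (nat_lit 367)))) (B (M (nat_lit 367) (B (lo115_11_1 (nat_lit 395)) (M (nat_lit 399) (B (lo111_11_0 (nat_lit 398)) (lo112_11_0 (nat_lit 400)))))) (M (nat_lit 367) (B (M (nat_lit 399) (B (lo111_11_0 (nat_lit 398)) (lo112_11_0 (nat_lit 400)))) (M (nat_lit 335) (B (lo111_11_2 (nat_lit 334)) (lo112_11_2 (nat_lit 336)))))))))) (B (M (nat_lit 366) (B (M (nat_lit 394) (B (lo113_11_1 (nat_lit 393)) (lo114_11_1 (nat_lit 395)))) (B (M (nat_lit 395) (B (lo114_11_1 (nat_lit 394)) (lo115_11_1 (nat_lit 367)))) (B (M (nat_lit 367) (B (lo115_11_1 (nat_lit 395)) (M (nat_lit 335) (B (lo111_11_2 (nat_lit 334)) (lo112_11_2 (nat_lit 336)))))) (K _ _ _ o1_s35608))))) (B (K _ _ _ o1_s35610) (B (K _ _ _ o1_s33969) (M (nat_lit 366)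 (B (M (nat_lit 398) (B (lo110_11_0 (nat_lit 397)) (lo111_11_0 (nat_lit 399)))) (B (M (nat_lit 367) (B (M (nat_lit 399) (B (lo111_11_0 (nat_lit 398)) (lo112_11_0 (nat_lit 400)))) (M (nat_lit 335) (B (lo111_11_2 (nat_lit 334)) (lo112_11_2 (nat_lit 336)))))) (B (K _ _ _ o1_s35608) (M (nat_lit 367) (B (M (nat_lit 397) (B (lo116_11_1 (nat_lit 368)) (lo110_11_0 (nat_lit 398)))) (M (nat_lit 335) (B (lo111_11_2 (nat_lit 334)) (lo112_11_2 (nat_lit 336)))))))))))))))) (B (M (nat_lit 361) (B (M (nat_lit 360) (B (lo18_11_0 (nat_lit 395)) (M (nat_lit 392) (B (lo111_11_1 (nat_lit 391)) (lo112_11_1 (nat_lit 393)))))) (B (M (nat_lit 360) (B (lo18_11_0 (nat_lit 395)) (M (nat_lit 328) (B (lo111_11_3 (nat_lit 327)) (lo112_11_3 (nat_lit 329)))))) (M (nat_lit 365) (B (M (nat_lit 393) (B (lo112_11_1 (nat_lit 392)) (lo113_11_1 (nat_lit 394)))) (M (nat_lit 329) (B (lo112_11_3 (nat_lit 328)) (lo113_11_3 (nat_lit 330))))))))) (M (nat_lit 397) (B (lo19_11_0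 (nat_lit 361)) (M (nat_lit 398) (B (lo115_12_3 (nat_lit 399)) (lo110_11_0 (nat_lit 365)))))))))) (M (nat_lit 362) (B (M (nat_lit 397) (B (lo19_11_0 (nat_lit 361)) (M (nat_lit 398) (B (lo114_12_3 (nat_lit 395)) (lo115_12_3 (nat_lit 399)))))) (B (M (nat_lit 397) (B (lo19_11_0 (nat_lit 361)) (M (nat_lit 398) (B (lo115_12_3 (nat_lit 399)) (lo110_11_0 (nat_lit 365)))))) (B (M (nat_lit 361) (B (M (nat_lit 360) (B (lo18_11_0 (nat_lit 395)) (M (nat_lit 328) (B (lo111_11_3 (nat_lit 327)) (lo112_11_3 (nat_lit 329)))))) (B (M (nat_lit 365) (B (M (nat_lit 393) (B (lo112_11_1 (nat_lit 392)) (lo113_11_1 (nat_lit 394)))) (M (nat_lit 329) (B (lo112_11_3 (nat_lit 328)) (lo113_11_3 (nat_lit 330)))))) (M (nat_lit 331) (B (M (nat_lit 395) (B (lo111_9_4 (nat_lit 299)) (lo18_11_0 (nat_lit 360)))) (B (M (nat_lit 332) (B (lo112_13_7 (nat_lit 299)) (lo18_11_2 (nat_lit 360)))) (B (M (nat_lit 299) (B (lo111_9_4 (nat_lit 395)) (lo112_13_7 (nat_lit 332))))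 (M (nat_lit 360) (B (lo18_11_0 (nat_lit 395)) (lo18_11_2 (nat_lit 332))))))))))) (M (nat_lit 394) (B (M (nat_lit 393) (B (lo113_11_1 (nat_lit 365)) (M (nat_lit 395) (B (lo19_12_0 (nat_lit 429)) (lo18_12_2 (nat_lit 392)))))) (B (M (nat_lit 365) (B (lo113_11_1 (nat_lit 393)) (M (nat_lit 398) (B (lo110_11_0 (nat_lit 397)) (M (nat_lit 366) (B (lo114_11_1 (nat_lit 395)) (lo111_11_0 (nat_lit 399)))))))) (B (M (nat_lit 365) (B (M (nat_lit 398) (B (lo110_11_0 (nat_lit 397)) (M (nat_lit 366) (B (lo114_11_1 (nat_lit 395)) (lo111_11_0 (nat_lit 399)))))) (B (M (nat_lit 366) (B (M (nat_lit 398) (B (lo110_11_0 (nat_lit 397)) (lo111_11_0 (nat_lit 399)))) (M (nat_lit 330) (B (lo113_11_3 (nat_lit 329)) (lo114_11_3 (nat_lit 331)))))) (B (M (nat_lit 366) (B (lo114_11_1 (nat_lit 395)) (M (nat_lit 330) (B (lo113_11_3 (nat_lit 329)) (lo114_11_3 (nat_lit 331)))))) (M (nat_lit 426) (B (M (nat_lit 331) (B (lo110_14_6 (nat_lit 458)) (M (nat_lit 330) (B (lo110_13_6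 (nat_lit 299)) (lo113_11_3 (nat_lit 329)))))) (B (M (nat_lit 425) (B (M (nat_lit 330) (B (lo110_10_5 (nat_lit 457)) (lo113_11_3 (nat_lit 329)))) (M (nat_lit 397) (B (lo113_12_1 (nat_lit 395)) (lo110_11_0 (nat_lit 398)))))) (B (M (nat_lit 331) (B (lo110_14_6 (nat_lit 458)) (M (nat_lit 299) (B (lo111_9_5 (nat_lit 395)) (lo110_13_6 (nat_lit 330)))))) (M (nat_lit 331) (B (lo110_14_6 (nat_lit 458)) (M (nat_lit 299) (B (lo111_9_5 (nat_lit 395)) (lo112_13_7 (nat_lit 332)))))))))))))) (B (M (nat_lit 331) (B (M (nat_lit 299) (B (lo112_13_7 (nat_lit 332)) (lo111_8_5 (nat_lit 267)))) (M (nat_lit 365) (B (lo113_11_1 (nat_lit 393)) (M (nat_lit 330) (B (lo113_11_3 (nat_lit 329)) (lo114_11_3 (nat_lit 366)))))))) (M (nat_lit 395) (B (M (nat_lit 393) (B (lo19_12_0 (nat_lit 429)) (lo18_12_2 (nat_lit 392)))) (M (nat_lit 426) (B (M (nat_lit 331) (B (lo110_14_6 (nat_lit 458)) (lo111_9_5 (nat_lit 299)))) (M (nat_lit 397) (B (lo113_12_1 (nat_lit 425))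 (lo114_12_3 (nat_lit 398)))))))))))))))))))) _ _ _ (by decide +kernel)
theorem o1_s35908 : Sem (nat_lit 2079502270752001762101819106285189057473747738226098435867697075795415308569326349200548723644291253248471206659952926368538296320) (nat_lit 471745303294907003558604781864822595490052949257852596129384009633888345641596250224456680665750213584986043725174626849106743997084970736700160846894504955717552701440) (nat_lit 471745303294907003558604781864822595490052949257852596129384009633888345641596250224456680665750213584986043725174626849106743997084970736700160846894504955717552701440) := sem_of_chk (M (nat_lit 460) (B (M (nat_lit 363) (B (lo112_14_7 (nat_lit 331)) (M (nat_lit 492) (B (lo112_15_7 (nat_lit 395)) (M (nat_lit 491) (B (lo112_11_5 (nat_lit 459)) (lo112_12_5 (nat_lit 523)))))))) (B (M (nat_lit 492) (B (M (nat_lit 491) (B (lo112_11_5 (nat_lit 459)) (lo112_12_5 (nat_lit 523)))) (M (nat_lit 524) (B (lo112_16_6 (nat_lit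 397)) (M (nat_lit 525) (B (lo112_12_4 (nat_lit 493)) (lo112_13_4 (nat_lit 557)))))))) (B (K _ _ _ o1_s35901) (M (nat_lit 332) (B (M (nat_lit 331) (B (lo112_13_7 (nat_lit 299)) (lo112_14_7 (nat_lit 363)))) (M (nat_lit 300) (B (lo112_9_4 (nat_lit 397)) (M (nat_lit 301) (B (lo112_12_6 (nat_lit 269)) (lo112_13_6 (nat_lit 333)))))))))))) _ _ _ (by decide +kernel)
theorem o1_s36237 : Sem (nat_lit 2079502270913392379557404255787446669016399359468963832795545386912397754215750136665631987112311558019318189073009473113856933888) (nat_lit 1013065326084944732755671336758975938048843613945592323630983097248873998984541399571030164523615793533361598755284238835263217040103999326847257525179994611109092395942586351616) (nat_lit 1013065326084944732755671336758975938048843613945592323630983097248873998984541399571030164523615793533361598755284238835263217040103999326847257525179994611109092395942586351616) := sem_of_chk (M (nat_lit 461) (B (lo113_14_7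 (nat_lit 332)) (M (nat_lit 493) (B (M (nat_lit 492) (B (lo113_11_5 (nat_lit 460)) (lo113_12_5 (nat_lit 524)))) (B (M (nat_lit 525) (B (M (nat_lit 524) (B (lo113_12_5 (nat_lit 492)) (lo113_13_5 (nat_lit 556)))) (M (nat_lit 526) (B (lo113_12_4 (nat_lit 494)) (lo113_13_4 (nat_lit 558)))))) (B (K _ _ _ o1_s30397) (M (nat_lit 525) (B (M (nat_lit 460) (B (lo113_11_5 (nat_lit 492)) (lo113_17_7 (nat_lit 557)))) (M (nat_lit 526) (B (lo113_12_4 (nat_lit 494)) (lo113_13_4 (nat_lit 558)))))))))))) _ _ _ (by decide +kernel)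
theorem o1_s36401 : Sem (nat_lit 2079502270752001762101819106285189057473747738226098435867697075795415308569326349200548723644291253248471206659952926368538296320) (nat_lit 2026130649575290297869889990271446729724741464187097653070010282109674319857180604017287733598868531097733930569779498788032781651116093826021049351353935517586150151358953553920) (nat_lit 2026130649575290297869889990271446729724741464187097653070010282109674319857180604017287733598868531097733930569779498788032781651116093826021049351353935517586150151358953553920) := sem_of_chk (M (nat_lit 460) (B (M (nat_lit 461) (B (M (nat_lit 459) (B (M (nat_lit 458) (B (M (nat_lit 363) (B (M (nat_lit 426) (B (M (nat_lit 490) (B (M (nat_lit 361) (B (M (nat_lit 362) (B (lo19_11_0 (nat_lit 397)) (M (nat_lit 360) (B (M (nat_lit 392) (B (lo111_11_1 (nat_lit 391)) (lo112_11_1 (nat_lit 393)))) (M (nat_lit 328) (B (lo111_11_3 (nat_lit 327)) (lo112_11_3 (nat_lit 329)))))))) (B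 (M (nat_lit 362) (B (lo19_11_0 (nat_lit 397)) (M (nat_lit 360) (B (lo18_11_0 (nat_lit 395)) (M (nat_lit 328) (B (lo111_11_3 (nat_lit 327)) (lo112_11_3 (nat_lit 329)))))))) (M (nat_lit 394) (B (lo110_15_6 (nat_lit 395)) (lo110_15_7 (nat_lit 393))))))) (lo113_14_1 (nat_lit 489)))) (lo113_14_3 (nat_lit 425)))) (lo112_14_7 (nat_lit 331)))) (lo19_14_2 (nat_lit 457)))) (lo112_11_5 (nat_lit 491)))) (lo112_11_4 (nat_lit 493)))) (B (M (nat_lit 492) (B (M (nat_lit 491) (B (lo112_12_5 (nat_lit 523)) (lo112_11_5 (nat_lit 459)))) (M (nat_lit 524) (B (lo112_16_6 (nat_lit 397)) (M (nat_lit 556) (B (lo112_17_6 (nat_lit 461)) (M (nat_lit 557) (B (lo112_14_4 (nat_lit 589)) (lo112_13_4 (nat_lit 525)))))))))) (B (K _ _ _ o1_s36400) (M (nat_lit 492) (B (M (nat_lit 491) (B (lo112_11_5 (nat_lit 459)) (lo112_12_5 (nat_lit 523)))) (M (nat_lit 493) (B (lo112_11_4 (nat_lit 461)) (lo112_12_4 (nat_lit 525)))))))))) _ _ _ (by decide +kernel)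
theorem o1_s36560 : Sem (nat_lit 2079502270752001762176972468933951720766211117323357220743718917360481544431959660289579412447958723439309574608265524865560215552) (nat_lit 2026130649693226623645563157524200304604734512972713914983030010734861450405884387704350630616000875979897446133446115376107872381036597067908016990280124581997155877521247436800) (nat_lit 2026130649693226623645563157524200304604734512972713914983030010734861450405884387704350630616000875979897446133446115376107872381036597067908016990280124581997155877521247436800) := sem_of_chk (M (nat_lit 460) (B (lo112_14_6 (nat_lit 333)) (M (nat_lit 492) (B (M (nat_lit 493) (B (lo112_11_4 (nat_lit 461)) (lo112_12_4 (nat_lit 525)))) (B (M (nat_lit 524) (B (M (nat_lit 525) (B (lo112_12_4 (nat_lit 493)) (lo112_13_4 (nat_lit 557)))) (M (nat_lit 523) (B (lo112_12_5 (nat_lit 491)) (lo112_13_5 (nat_lit 555)))))) (B (K _ _ _ o1_s36554) (M (nat_lit 524) (B (M (nat_lit 461) (B (lo112_17_6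 (nat_lit 556)) (lo112_11_4 (nat_lit 493)))) (M (nat_lit 523) (B (lo112_12_5 (nat_lit 491)) (lo112_13_5 (nat_lit 555)))))))))))) _ _ _ (by decide +kernel)
theorem o1_s36859 : Sem (nat_lit 2252794126795943308168325098323245405542481608034064191429667598353212232159651771472084354288319076364147587835628298607634939904) (nat_lit 54918381293831559790880904816534585467138710445444855535538755300319132374322931676467200028309750549101599998798871190439210927092947854793325540766153441280) (nat_lit 54918381293831559790880904816534585467138710445444855535538755300319132374322931676467200028309750549101599998798871190439210927092947854793325540766153441280) := sem_of_chk (M (nat_lit 365) (B (M (nat_lit 460) (B (lo113_10_5 (nat_lit 333)) (M (nat_lit 492) (B (lo113_11_5 (nat_lit 461)) (lo112_15_6 (nat_lit 396)))))) (B (M (nat_lit 364) (B (M (nat_lit 332) (B (lo113_14_7 (nat_lit 461)) (M (nat_lit 300) (B (lo112_8_4 (nat_lit 268)) (lo112_9_4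 (nat_lit 396)))))) (B (M (nat_lit 363) (B (M (nat_lit 398) (B (lo110_11_0 (nat_lit 362)) (M (nat_lit 399) (B (lo116_12_3 (nat_lit 400)) (lo115_12_3 (nat_lit 396)))))) (B (M (nat_lit 398) (B (lo110_11_0 (nat_lit 362)) (M (nat_lit 399) (B (lo111_11_0 (nat_lit 366)) (lo115_12_3 (nat_lit 396)))))) (B (M (nat_lit 331) (B (M (nat_lit 396) (B (lo112_14_7 (nat_lit 460)) (M (nat_lit 299) (B (lo112_13_7 (nat_lit 332)) (lo111_8_4 (nat_lit 267)))))) (M (nat_lit 330) (B (lo114_11_3 (nat_lit 366)) (M (nat_lit 329) (B (lo113_11_3 (nat_lit 362)) (lo18_10_0 (nat_lit 328)))))))) (B (M (nat_lit 398) (B (lo110_11_0 (nat_lit 362)) (M (nat_lit 399) (B (lo116_12_3 (nat_lit 400)) (lo111_11_0 (nat_lit 366)))))) (M (nat_lit 366) (B (M (nat_lit 398) (B (lo111_11_0 (nat_lit 399)) (M (nat_lit 334) (B (lo111_11_2 (nat_lit 335)) (lo114_9_5 (nat_lit 302)))))) (B (M (nat_lit 367) (B (M (nat_lit 399) (B (lo112_11_0 (nat_lit 400)) (lo111_11_0 (nat_lit 398)))) (M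 (nat_lit 331) (B (lo115_11_3 (nat_lit 332)) (lo114_11_3 (nat_lit 330)))))) (M (nat_lit 367) (B (M (nat_lit 335) (B (lo112_11_2 (nat_lit 336)) (lo111_11_2 (nat_lit 334)))) (M (nat_lit 331) (B (lo115_11_3 (nat_lit 332)) (lo114_11_3 (nat_lit 330)))))))))))))) (B (K _ _ _ o1_s36818) (K _ _ _ o1_s36837))))) (B (M (nat_lit 460) (B (lo113_10_5 (nat_lit 333)) (M (nat_lit 492) (B (lo112_15_6 (nat_lit 396)) (lo112_16_6 (nat_lit 524)))))) (B (M (nat_lit 460) (B (lo113_10_5 (nat_lit 333)) (M (nat_lit 492) (B (lo113_11_5 (nat_lit 461)) (lo112_16_6 (nat_lit 524)))))) (K _ _ _ o1_s36858)))))) _ _ _ (by decide +kernel)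
theorem o1_s37912 : Sem (nat_lit 2252794126997681579893864831890114090855216910716072456494450685293107494389389866942150072618760119589158355916558233918005837824) (nat_lit 12786682071025698423883439726239587548530458433064779095063175340679147815171365583817294391407645193872437290517128427948617699001325451836477407232) (nat_lit 12786682071025698423883439726239587548530458433064779095063175340679147815171365583817294391407645193872437290517128427948617699001325451836477407232) := sem_of_chk (M (nat_lit 365) (B (M (nat_lit 333) (B (lo113_9_5 (nat_lit 301)) (lo113_10_5 (nat_lit 460)))) (B (M (nat_lit 460) (B (lo113_10_5 (nat_lit 333)) (lo112_15_6 (nat_lit 492)))) (B (M (nat_lit 364) (B (M (nat_lit 332) (B (lo113_14_7 (nat_lit 461)) (lo112_9_4 (nat_lit 300)))) (M (nat_lit 363) (B (M (nat_lit 398) (B (lo115_12_3 (nat_lit 399)) (lo110_11_0 (nat_lit 362)))) (M (nat_lit 460) (B (lo112_15_6 (nat_lit 492)) (lo112_14_7 (nat_lit 331))))))))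 (K _ _ _ o1_s37911))))) _ _ _ (by decide +kernel)
theorem o1_s38623 : Sem (nat_lit 2252794126795943308168325098323245405542481608034064191429667598353212232159651771472084354288319076364147587835628298607634939904) (nat_lit 54918381293831559790880904816534585467259753408480179375678876511506773555931899493307311856905460233062145063245627124508880321152801506509835295862873391104) (nat_lit 54918381293831559790880904816534585467259753408480179375678876511506773555931899493307311856905460233062145063245627124508880321152801506509835295862873391104) := sem_of_chk (M (nat_lit 365) (B (M (nat_lit 460) (B (lo113_10_5 (nat_lit 333)) (M (nat_lit 492) (B (lo112_15_6 (nat_lit 396)) (lo112_16_6 (nat_lit 524)))))) (B (M (nat_lit 364) (B (M (nat_lit 332) (B (lo113_14_7 (nat_lit 461)) (M (nat_lit 300) (B (lo112_8_4 (nat_lit 268)) (lo112_9_4 (nat_lit 396)))))) (B (M (nat_lit 363) (B (M (nat_lit 398) (B (lo110_11_0 (nat_lit 362)) (M (nat_lit 399)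 (B (lo116_12_3 (nat_lit 400)) (lo111_11_0 (nat_lit 366)))))) (B (M (nat_lit 398) (B (lo110_11_0 (nat_lit 362)) (M (nat_lit 399) (B (lo111_11_0 (nat_lit 366)) (lo115_12_3 (nat_lit 396)))))) (B (M (nat_lit 366) (B (M (nat_lit 398) (B (lo110_11_0 (nat_lit 362)) (M (nat_lit 334) (B (lo111_11_2 (nat_lit 335)) (lo114_9_5 (nat_lit 302)))))) (M (nat_lit 396) (B (M (nat_lit 395) (B (lo115_11_1 (nat_lit 367)) (lo110_12_2 (nat_lit 394)))) (M (nat_lit 460) (B (lo112_15_6 (nat_lit 492)) (lo112_14_7 (nat_lit 331)))))))) (B (M (nat_lit 398) (B (lo110_11_0 (nat_lit 362)) (M (nat_lit 399) (B (lo116_12_3 (nat_lit 400)) (lo115_12_3 (nat_lit 396)))))) (B (M (nat_lit 331) (B (M (nat_lit 330) (B (lo114_11_3 (nat_lit 366)) (M (nat_lit 329) (B (lo113_11_3 (nat_lit 362)) (lo18_10_0 (nat_lit 328)))))) (M (nat_lit 396) (B (lo112_14_7 (nat_lit 460)) (M (nat_lit 299) (B (lo112_13_7 (nat_lit 332)) (lo111_9_4 (nat_lit 395)))))))) (M (nat_lit 366) (B (M (nat_lit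 398) (B (lo111_11_0 (nat_lit 399)) (M (nat_lit 334) (B (lo111_11_2 (nat_lit 335)) (lo114_9_5 (nat_lit 302)))))) (M (nat_lit 396) (B (M (nat_lit 395) (B (lo115_11_1 (nat_lit 367)) (lo110_12_2 (nat_lit 394)))) (M (nat_lit 460) (B (lo112_15_6 (nat_lit 492)) (lo112_14_7 (nat_lit 331)))))))))))))) (B (K _ _ _ o1_s36818) (K _ _ _ o1_s36837))))) (B (M (nat_lit 460) (B (lo113_10_5 (nat_lit 333)) (M (nat_lit 492) (B (lo113_11_5 (nat_lit 461)) (lo112_16_6 (nat_lit 524)))))) (K _ _ _ o1_s36858))))) _ _ _ (by decide +kernel)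
theorem o1_s38963 : Sem (nat_lit 38360046189260043956011374853979069026831851187886993292709903301321414213839038149611765269242487102615509698734832554211574398183904856986229932032) (nat_lit 506532662334854412348493252024358778224613827743830067233724933488690478737717505273392522208244044695140654912664172685630880884983815253067555642428836036898505443654370328576) (nat_lit 506532662334854412348493252024358778224613827743830067233724933488690478737717505273392522208244044695140654912664172685630880884983815253067555642428836036898505443654370328576) := sem_of_chk (M (nat_lit 491) (B (M (nat_lit 396) (B (lo112_12_5 (nat_lit 523)) (lo112_12_4 (nat_lit 525)))) (B (M (nat_lit 494) (B (M (nat_lit 459) (B (lo114_15_3 (nat_lit 458)) (lo115_15_3 (nat_lit 495)))) (M (nat_lit 525) (B (lo112_12_4 (nat_lit 396)) (M (nat_lit 526) (B (lo110_15_0 (nat_lit 490)) (lo111_15_0 (nat_lit 527)))))))) (B (K _ _ _ o1_s38961) (M (nat_lit 523) (B (lo112_12_5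 (nat_lit 396)) (M (nat_lit 555) (B (lo111_18_6 (nat_lit 587)) (lo111_17_6 (nat_lit 459)))))))))) _ _ _ (by decide +kernel)
theorem o1_s39057 : Sem (nat_lit 8931394246223919741660702096011610356244857817703092131270813998909555257798399662686454848450707498188754549070842202668325863684147511296) (nat_lit 707617955038467672710799200022341104755006136919338305185829166665043057983188495778277804334016801722455474225274965521330339555789167099567218625346317207925849849856) (nat_lit 707617955038467672710799200022341104755006136919338305185829166665043057983188495778277804334016801722455474225274965521330339555789167099567218625346317207925849849856) := sem_of_chk (M (nat_lit 462) (B (M (nat_lit 427) (B (lo110_13_0 (nat_lit 426)) (lo115_14_3 (nat_lit 463)))) (B (M (nat_lit 463) (B (lo115_14_3 (nat_lit 427)) (lo116_14_3 (nat_lit 464)))) (B (M (nat_lit 492) (B (M (nat_lit 463) (B (lo115_14_1 (nat_lit 491)) (lo116_14_3 (nat_lit 464))))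 (M (nat_lit 397) (B (lo112_16_6 (nat_lit 524)) (lo113_11_5 (nat_lit 365)))))) (M (nat_lit 397) (B (M (nat_lit 492) (B (lo112_16_6 (nat_lit 524)) (lo113_11_5 (nat_lit 365)))) (B (M (nat_lit 365) (B (lo113_11_5 (nat_lit 492)) (lo113_11_4 (nat_lit 494)))) (B (M (nat_lit 365) (B (lo113_10_5 (nat_lit 333)) (lo113_11_4 (nat_lit 494)))) (K _ _ _ o1_s39055))))))))) _ _ _ (by decide +kernel)
theorem o1_s39631 : Sem (nat_lit 8931394246223919741660702096011610356244857817703092131270813998909555257798399662686454848450707498188754549070842202668325863684147511296) (nat_lit 707617955038467672704405858907934273052948770873760586709962358767330769042657165422788251109816412277307607982223081481539830162784452029690926311927236651377215143936) (nat_lit 707617955038467672704405858907934273052948770873760586709962358767330769042657165422788251109816412277307607982223081481539830162784452029690926311927236651377215143936) := sem_of_chk (M (nat_lit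 492) (B (M (nat_lit 524) (B (lo112_17_6 (nat_lit 556)) (lo112_16_6 (nat_lit 397)))) (B (M (nat_lit 397) (B (lo112_16_6 (nat_lit 524)) (lo113_11_5 (nat_lit 365)))) (B (K _ _ _ o1_s38979) (M (nat_lit 524) (B (lo112_17_6 (nat_lit 556)) (M (nat_lit 396) (B (M (nat_lit 395) (B (lo112_16_7 (nat_lit 427)) (lo112_15_7 (nat_lit 363)))) (M (nat_lit 525) (B (lo112_13_4 (nat_lit 557)) (lo112_12_4 (nat_lit 493)))))))))))) _ _ _ (by decide +kernel)
theorem o1_s40146 : Sem (nat_lit 12786682065071435596533330347513450650139335203175549624871689488070368929427518189586217672946360874874207478988269499452064581419175223757100810240) (nat_lit 2532663312617762665562334410864835152397934382824910978703152110565433705648047196669284836179137170421774151961623514378771740840852341324048583522436251380957316878754228731904) (nat_lit 2532663312617762665562334410864835152397934382824910978703152110565433705648047196669284836179137170421774151961623514378771740840852341324048583522436251380957316878754228731904)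 := sem_of_chk (M (nat_lit 493) (B (M (nat_lit 525) (B (lo112_12_4 (nat_lit 396)) (M (nat_lit 557) (B (lo113_18_7 (nat_lit 589)) (lo113_17_7 (nat_lit 461)))))) (B (M (nat_lit 494) (B (M (nat_lit 459) (B (lo115_15_3 (nat_lit 495)) (M (nat_lit 458) (B (lo19_14_0 (nat_lit 457)) (lo110_14_0 (nat_lit 461)))))) (B (M (nat_lit 459) (B (lo115_15_3 (nat_lit 495)) (M (nat_lit 458) (B (lo114_15_3 (nat_lit 491)) (lo110_14_0 (nat_lit 461)))))) (B (M (nat_lit 461) (B (M (nat_lit 495) (B (lo115_15_3 (nat_lit 459)) (lo116_15_3 (nat_lit 496)))) (M (nat_lit 397) (B (lo113_11_5 (nat_lit 365)) (lo113_12_4 (nat_lit 526)))))) (B (M (nat_lit 526) (B (M (nat_lit 461) (B (lo113_12_4 (nat_lit 397)) (M (nat_lit 558) (B (lo113_13_4 (nat_lit 525)) (lo114_17_7 (nat_lit 462)))))) (B (M (nat_lit 495) (B (M (nat_lit 527) (B (lo111_15_0 (nat_lit 491)) (lo112_15_0 (nat_lit 528)))) (M (nat_lit 461) (B (lo116_15_3 (nat_lit 496)) (lo113_12_4 (nat_lit 397)))))) (M (nat_lit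 527) (B (lo111_15_0 (nat_lit 491)) (M (nat_lit 528) (B (lo116_16_3 (nat_lit 525)) (lo112_15_0 (nat_lit 495))))))))) (B (M (nat_lit 459) (B (lo115_15_3 (nat_lit 495)) (M (nat_lit 458) (B (lo19_14_0 (nat_lit 457)) (lo114_15_3 (nat_lit 491)))))) (K _ _ _ o1_s39088))))))) (B (M (nat_lit 491) (B (M (nat_lit 523) (B (lo112_12_5 (nat_lit 396)) (M (nat_lit 555) (B (lo111_18_6 (nat_lit 587)) (lo111_17_6 (nat_lit 459)))))) (B (M (nat_lit 494) (B (M (nat_lit 523) (B (lo114_15_1 (nat_lit 522)) (lo112_12_5 (nat_lit 396)))) (M (nat_lit 459) (B (lo114_15_3 (nat_lit 458)) (lo115_15_3 (nat_lit 495)))))) (B (M (nat_lit 461) (B (M (nat_lit 462) (B (lo110_15_2 (nat_lit 490)) (lo115_14_1 (nat_lit 463)))) (M (nat_lit 494) (B (M (nat_lit 459) (B (lo114_15_3 (nat_lit 458)) (lo115_15_3 (nat_lit 495)))) (M (nat_lit 397) (B (lo113_11_5 (nat_lit 365)) (lo113_12_4 (nat_lit 526)))))))) (M (nat_lit 523) (B (lo112_12_5 (nat_lit 396)) (M (nat_lit 522) (B (lo114_15_1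 (nat_lit 494)) (M (nat_lit 521) (B (lo18_16_2 (nat_lit 520)) (lo113_15_1 (nat_lit 490)))))))))))) (M (nat_lit 491) (B (M (nat_lit 396) (B (lo112_12_5 (nat_lit 523)) (lo112_12_4 (nat_lit 525)))) (B (M (nat_lit 525) (B (lo112_12_4 (nat_lit 396)) (M (nat_lit 526) (B (lo110_15_0 (nat_lit 490)) (M (nat_lit 527) (B (lo111_15_0 (nat_lit 494)) (lo116_16_3 (nat_lit 528)))))))) (B (K _ _ _ o1_s38961) (M (nat_lit 494) (B (M (nat_lit 523) (B (lo114_15_1 (nat_lit 522)) (lo112_12_5 (nat_lit 396)))) (M (nat_lit 459) (B (lo114_15_3 (nat_lit 458)) (lo115_15_3 (nat_lit 495)))))))))))))) _ _ _ (by decide +kernel)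
theorem o1_s40464 : Sem (nat_lit 25573364133120002605701964248126320472704126340956301485541305944521859283321075217823947258982581076192009717935317603830352019433055496913276633088) (nat_lit 235872651825938241297528670826184490560485545996486063508578195884138062586096472629005363508029267107030468885721243952408375935949546284555644836846462616540253519872) (nat_lit 235872651825938241297528670826184490560485545996486063508578195884138062586096472629005363508029267107030468885721243952408375935949546284555644836846462616540253519872) := sem_of_chk (M (nat_lit 492) (B (M (nat_lit 524) (B (lo112_17_6 (nat_lit 556)) (lo112_16_6 (nat_lit 397)))) (B (M (nat_lit 397) (B (lo112_16_6 (nat_lit 524)) (lo113_11_5 (nat_lit 365)))) (B (K _ _ _ o1_s39583) (M (nat_lit 427) (B (M (nat_lit 426) (B (lo19_13_0 (nat_lit 425)) (lo110_13_0 (nat_lit 462)))) (M (nat_lit 524) (B (lo112_16_7 (nat_lit 395)) (lo112_17_6 (nat_lit 556)))))))))) _ _ _ (by decide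 +kernel)
theorem o1_s41277 : Sem (nat_lit 10419959953581322653505717254566243642601115324390719518727305926831504519854638609658494120312495280457196193320475335076204727819550326784) (nat_lit 329510288069869728265320043360611980657369843574750841521616778467070005446132391352998797919651003092145191787252429247356119203278045816687678160201372925952) (nat_lit 329510288069869728265320043360611980657369843574750841521616778467070005446132391352998797919651003092145191787252429247356119203278045816687678160201372925952) := sem_of_chk (M (nat_lit 462) (B (M (nat_lit 427) (B (lo114_14_3 (nat_lit 426)) (lo115_14_3 (nat_lit 463)))) (B (M (nat_lit 463) (B (lo115_14_3 (nat_lit 427)) (lo116_14_3 (nat_lit 464)))) (B (M (nat_lit 463) (B (lo116_14_3 (nat_lit 464)) (M (nat_lit 495) (B (lo111_14_0 (nat_lit 494)) (lo112_14_0 (nat_lit 496)))))) (K _ _ _ o1_s41276))))) _ _ _ (by decide +kernel)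
theorem o1_s41375 : Sem (nat_lit 10419959953581322653505717254566243642601115324390719518727305926831504519854638609658494120312495280457196193320475335076204727819550326784) (nat_lit 27459190675685814566412516667792075446466992846145160643861424242036903542762682108903632710885380158678983788936138463210782630329902442743057823049654992896) (nat_lit 27459190675685814566412516667792075446466992846145160643861424242036903542762682108903632710885380158678983788936138463210782630329902442743057823049654992896) := sem_of_chk (M (nat_lit 427) (B (M (nat_lit 426) (B (lo19_13_0 (nat_lit 425)) (lo114_14_3 (nat_lit 462)))) (B (M (nat_lit 462) (B (lo114_14_3 (nat_lit 426)) (lo115_14_3 (nat_lit 463)))) (B (M (nat_lit 491) (B (M (nat_lit 462) (B (lo114_14_1 (nat_lit 490)) (lo115_14_3 (nat_lit 463)))) (M (nat_lit 396) (B (lo111_16_6 (nat_lit 523)) (lo112_11_5 (nat_lit 364)))))) (K _ _ _ o1_s41374))))) _ _ _ (by decide +kernel)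
theorem o1_s42160 : Sem (nat_lit 38360046186282912541296569030289038709722584615174478279334648526408430357995139625499287375298408558891934134197949265712308133368147128715424301056) (nat_lit 2532663311910144709401472320534077703605934906270706487632281848424666318992459342487027676902263296421679861658723478490884482209861210626694941710066921062836336247122304172032) (nat_lit 2532663311910144709401472320534077703605934906270706487632281848424666318992459342487027676902263296421679861658723478490884482209861210626694941710066921062836336247122304172032) := sem_of_chk (M (nat_lit 460) (B (M (nat_lit 397) (B (lo112_16_6 (nat_lit 524)) (M (nat_lit 365) (B (lo113_10_5 (nat_lit 333)) (lo112_15_6 (nat_lit 396)))))) (B (M (nat_lit 525) (B (lo112_12_4 (nat_lit 396)) (M (nat_lit 557) (B (lo113_18_7 (nat_lit 589)) (lo112_13_4 (nat_lit 524)))))) (B (K _ _ _ o1_s42157) (K _ _ _ o1_s42159))))) _ _ _ (by decide +kernel)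
theorem o1_s42231 : Sem (nat_lit 44753387220307196045880885980595473621004980184064854209669456754634175534941918139618152168316518659550835253671473317901451852375087265293512212480) (nat_lit 1561741467838748068391924115696540577408400160811417630445430396567794378134882190794294393372273129361993971133820448017672029030434357749247735533717222850560) (nat_lit 1561741467838748068391924115696540577408400160811417630445430396567794378134882190794294393372273129361993971133820448017672029030434357749247735533717222850560) := sem_of_chk (M (nat_lit 490) (B (M (nat_lit 457) (B (lo113_15_3 (nat_lit 458)) (M (nat_lit 489) (B (lo112_15_3 (nat_lit 456)) (M (nat_lit 521) (B (lo113_15_1 (nat_lit 522)) (lo112_15_1 (nat_lit 520)))))))) (B (M (nat_lit 494) (B (M (nat_lit 459) (B (lo115_15_3 (nat_lit 495)) (lo114_15_3 (nat_lit 458)))) (B (M (nat_lit 458) (B (lo114_15_3 (nat_lit 459)) (lo113_15_3 (nat_lit 457)))) (M (nat_lit 495) (B (M (nat_lit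 527) (B (lo112_15_0 (nat_lit 528)) (lo111_15_0 (nat_lit 526)))) (M (nat_lit 463) (B (lo112_15_2 (nat_lit 464)) (lo111_15_2 (nat_lit 462))))))))) (B (K _ _ _ o1_s42227) (M (nat_lit 489) (B (M (nat_lit 521) (B (lo113_15_1 (nat_lit 522)) (lo112_15_1 (nat_lit 520)))) (M (nat_lit 459) (B (lo18_15_2 (nat_lit 488)) (M (nat_lit 494) (B (lo115_15_3 (nat_lit 495)) (lo114_15_3 (nat_lit 458)))))))))))) _ _ _ (by decide +kernel)
theorem o1_s42290 : Sem (nat_lit 38360046186282912541296569030289038709722584615174478279334648526408430357995139625499287375298408558891934134197949265712308133368147128715424301056) (nat_lit 3545728636343980882475032114466903159493346674074969362409829500391566141228449766917078862702490025486207105722217106284846612639018430979226556001690793950946874112104888008704) (nat_lit 3545728636343980882475032114466903159493346674074969362409829500391566141228449766917078862702490025486207105722217106284846612639018430979226556001690793950946874112104888008704)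 := sem_of_chk (M (nat_lit 491) (B (M (nat_lit 523) (B (M (nat_lit 460) (B (lo112_12_5 (nat_lit 396)) (M (nat_lit 555) (B (lo112_13_5 (nat_lit 524)) (lo111_17_6 (nat_lit 459)))))) (M (nat_lit 522) (B (lo114_15_1 (nat_lit 494)) (M (nat_lit 521) (B (lo113_15_1 (nat_lit 490)) (lo18_16_2 (nat_lit 520)))))))) (B (M (nat_lit 460) (B (M (nat_lit 396) (B (lo112_12_4 (nat_lit 525)) (lo112_12_5 (nat_lit 523)))) (B (M (nat_lit 523) (B (lo112_12_5 (nat_lit 396)) (M (nat_lit 555) (B (lo112_13_5 (nat_lit 524)) (lo111_18_6 (nat_lit 587)))))) (B (M (nat_lit 524) (B (M (nat_lit 525) (B (lo112_13_4 (nat_lit 557)) (M (nat_lit 526) (B (lo115_16_3 (nat_lit 527)) (lo110_15_0 (nat_lit 490)))))) (M (nat_lit 556) (B (M (nat_lit 555) (B (lo112_14_5 (nat_lit 587)) (lo112_13_5 (nat_lit 523)))) (M (nat_lit 459) (B (lo112_18_7 (nat_lit 588)) (lo112_17_7 (nat_lit 427)))))))) (M (nat_lit 525) (B (lo112_12_4 (nat_lit 396)) (M (nat_lit 526) (B (lo110_15_0 (nat_lit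 490)) (M (nat_lit 524) (B (lo115_16_3 (nat_lit 527)) (lo112_13_4 (nat_lit 557)))))))))))) (B (M (nat_lit 523) (B (M (nat_lit 460) (B (lo112_12_5 (nat_lit 396)) (M (nat_lit 555) (B (lo111_18_6 (nat_lit 587)) (lo111_17_6 (nat_lit 459)))))) (M (nat_lit 522) (B (lo114_15_1 (nat_lit 494)) (M (nat_lit 521) (B (lo113_15_1 (nat_lit 490)) (lo18_16_2 (nat_lit 520)))))))) (B (M (nat_lit 494) (B (M (nat_lit 495) (B (M (nat_lit 463) (B (lo112_15_2 (nat_lit 464)) (lo111_15_2 (nat_lit 462)))) (M (nat_lit 523) (B (lo115_15_1 (nat_lit 524)) (lo114_15_1 (nat_lit 522)))))) (B (M (nat_lit 495) (B (M (nat_lit 527) (B (lo112_15_0 (nat_lit 528)) (lo111_15_0 (nat_lit 526)))) (M (nat_lit 523) (B (lo115_15_1 (nat_lit 524)) (lo114_15_1 (nat_lit 522)))))) (M (nat_lit 490) (B (M (nat_lit 526) (B (lo111_15_0 (nat_lit 527)) (lo110_15_0 (nat_lit 525)))) (M (nat_lit 458) (B (lo114_15_3 (nat_lit 459)) (lo113_15_3 (nat_lit 457))))))))) (B (M (nat_lit 525) (B (M (nat_lit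 526) (B (lo110_15_0 (nat_lit 490)) (M (nat_lit 527) (B (lo116_16_3 (nat_lit 528)) (lo115_16_3 (nat_lit 524)))))) (B (M (nat_lit 526) (B (lo110_15_0 (nat_lit 490)) (M (nat_lit 527) (B (lo111_15_0 (nat_lit 494)) (lo115_16_3 (nat_lit 524)))))) (B (M (nat_lit 460) (B (lo112_12_4 (nat_lit 396)) (M (nat_lit 557) (B (lo113_18_7 (nat_lit 589)) (lo112_13_4 (nat_lit 524)))))) (M (nat_lit 526) (B (lo110_15_0 (nat_lit 490)) (M (nat_lit 527) (B (lo116_16_3 (nat_lit 528)) (lo111_15_0 (nat_lit 494)))))))))) (K _ _ _ o1_s42289))))))) _ _ _ (by decide +kernel)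
theorem o1_s43584 : Sem (nat_lit 2079502270590611144796540682080456772516022875177750608691892447808565334648169183913526837783605888859300960143521576617263497216) (nat_lit 109836762600449801634924719568663775707321569244748896266489180487204265979830312385882051304543683392037184075046919336031834367987547977414288052708129636352) (nat_lit 109836762600449801634924719568663775707321569244748896266489180487204265979830312385882051304543683392037184075046919336031834367987547977414288052708129636352) := sem_of_chk (M (nat_lit 396) (B (M (nat_lit 461) (B (lo112_10_4 (nat_lit 332)) (M (nat_lit 493) (B (lo113_16_7 (nat_lit 525)) (lo112_11_4 (nat_lit 460)))))) (B (M (nat_lit 333) (B (lo112_14_6 (nat_lit 460)) (M (nat_lit 301) (B (lo113_8_5 (nat_lit 269)) (lo112_13_6 (nat_lit 332)))))) (B (K _ _ _ o1_s43583) (K _ _ _ o1_s36562))))) _ _ _ (by decide +kernel)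
theorem o1_s43630 : Sem (nat_lit 2079502270752001762195760809596142386589326962097671916962724377751748103397617988061837084648875590987019166595343674489815695360) (nat_lit 4675284447706743299632974364416714884813991739658738297373751379209034180497114024784910410647829662220794846607572992000) (nat_lit 4675284447706743299632974364416714884813991739658738297373751379209034180497114024784910410647829662220794846607572992000) := sem_of_chk (M (nat_lit 362) (B (M (nat_lit 393) (B (lo113_11_1 (nat_lit 394)) (M (nat_lit 361) (B (lo112_11_1 (nat_lit 392)) (M (nat_lit 329) (B (lo113_11_3 (nat_lit 330)) (lo112_11_3 (nat_lit 328)))))))) (B (K _ _ _ o1_s34622) (B (K _ _ _ o1_s34626) (M (nat_lit 361) (B (M (nat_lit 329) (B (lo113_11_3 (nat_lit 330)) (lo112_11_3 (nat_lit 328)))) (M (nat_lit 395) (B (lo18_11_0 (nat_lit 360)) (M (nat_lit 366) (B (lo115_11_1 (nat_lit 367)) (lo114_11_1 (nat_lit 394)))))))))))) _ _ _ (by decide +kernel)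
theorem o1_s43683 : Sem (nat_lit 2079502270590611144796540682080456772516022875177750608691892447808565334648169183913526837783605888859300960143521576617263497216) (nat_lit 2977131415061389540276676869276070665143845313866796584437401072580685343840992110336182164508921124867086401652322391655964373548661735424) (nat_lit 2977131415061389540276676869276070665143845313866796584437401072580685343840992110336182164508921124867086401652322391655964373548661735424) := sem_of_chk (M (nat_lit 363) (B (M (nat_lit 331) (B (M (nat_lit 396) (B (lo112_14_7 (nat_lit 460)) (M (nat_lit 299) (B (lo112_13_7 (nat_lit 332)) (lo111_9_4 (nat_lit 395)))))) (M (nat_lit 330) (B (lo114_11_3 (nat_lit 366)) (M (nat_lit 329) (B (lo113_11_3 (nat_lit 362)) (lo18_10_0 (nat_lit 328)))))))) (B (M (nat_lit 396) (B (M (nat_lit 460) (B (lo112_14_6 (nat_lit 333)) (lo112_14_7 (nat_lit 331)))) (B (M (nat_lit 331) (B (lo112_14_7 (nat_lit 460)) (M (nat_lit 299) (B (lo112_13_7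 (nat_lit 332)) (lo111_8_4 (nat_lit 267)))))) (B (M (nat_lit 332) (B (M (nat_lit 333) (B (lo112_13_6 (nat_lit 301)) (M (nat_lit 334) (B (lo115_10_1 (nat_lit 335)) (lo110_11_2 (nat_lit 362)))))) (M (nat_lit 300) (B (M (nat_lit 299) (B (lo112_12_7 (nat_lit 267)) (lo112_13_7 (nat_lit 331)))) (M (nat_lit 395) (B (lo112_8_5 (nat_lit 268)) (lo112_9_5 (nat_lit 427)))))))) (M (nat_lit 333) (B (lo112_14_6 (nat_lit 460)) (M (nat_lit 334) (B (lo110_11_2 (nat_lit 362)) (M (nat_lit 332) (B (lo115_10_1 (nat_lit 335)) (lo112_13_6 (nat_lit 301)))))))))))) (B (M (nat_lit 331) (B (M (nat_lit 396) (B (lo112_14_7 (nat_lit 460)) (M (nat_lit 299) (B (lo111_8_4 (nat_lit 267)) (lo111_9_4 (nat_lit 395)))))) (M (nat_lit 330) (B (lo114_11_3 (nat_lit 366)) (M (nat_lit 329) (B (lo113_11_3 (nat_lit 362)) (lo18_10_0 (nat_lit 328)))))))) (B (M (nat_lit 366) (B (M (nat_lit 367) (B (M (nat_lit 399) (B (lo112_11_0 (nat_lit 400)) (lo111_11_0 (nat_lit 398)))) (M (nat_lit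 331) (B (lo115_11_3 (nat_lit 332)) (lo114_11_3 (nat_lit 330)))))) (B (M (nat_lit 367) (B (M (nat_lit 335) (B (lo112_11_2 (nat_lit 336)) (lo111_11_2 (nat_lit 334)))) (M (nat_lit 331) (B (lo115_11_3 (nat_lit 332)) (lo114_11_3 (nat_lit 330)))))) (M (nat_lit 362) (B (M (nat_lit 334) (B (lo111_11_2 (nat_lit 335)) (lo110_11_2 (nat_lit 333)))) (M (nat_lit 394) (B (lo114_11_1 (nat_lit 395)) (lo113_11_1 (nat_lit 393))))))))) (B (M (nat_lit 333) (B (M (nat_lit 334) (B (lo110_11_2 (nat_lit 362)) (M (nat_lit 335) (B (lo116_10_1 (nat_lit 336)) (lo115_10_1 (nat_lit 332)))))) (B (M (nat_lit 334) (B (lo110_11_2 (nat_lit 362)) (M (nat_lit 335) (B (lo111_11_2 (nat_lit 366)) (lo115_10_1 (nat_lit 332)))))) (B (M (nat_lit 396) (B (lo112_14_6 (nat_lit 460)) (M (nat_lit 301) (B (lo113_8_5 (nat_lit 269)) (lo112_13_6 (nat_lit 332)))))) (M (nat_lit 334) (B (lo110_11_2 (nat_lit 362)) (M (nat_lit 335) (B (lo116_10_1 (nat_lit 336)) (lo111_11_2 (nat_lit 366))))))))))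 (K _ _ _ o1_s43682))))))) _ _ _ (by decide +kernel)
theorem o1_s43982 : Sem (nat_lit 2079502270590611144796540682080456772516022875177750608691892447808565334648169183913526837783605888859300960143521576617263497216) (nat_lit 5954262829776195363966707186991261224211462487356341600340940755930730560230478238565018475778700175231936180315423154074186548907450826752) (nat_lit 5954262829776195363966707186991261224211462487356341600340940755930730560230478238565018475778700175231936180315423154074186548907450826752) := sem_of_chk (M (nat_lit 332) (B (M (nat_lit 396) (B (lo112_10_4 (nat_lit 461)) (M (nat_lit 333) (B (lo112_13_6 (nat_lit 301)) (M (nat_lit 331) (B (lo112_13_7 (nat_lit 299)) (M (nat_lit 366) (B (lo115_11_3 (nat_lit 367)) (lo110_10_0 (nat_lit 330)))))))))) (B (K _ _ _ o1_s43935) (B (M (nat_lit 331) (B (M (nat_lit 396) (B (lo112_10_4 (nat_lit 461)) (lo112_13_7 (nat_lit 299)))) (M (nat_lit 366) (B (lo115_11_3 (nat_lit 367))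 (M (nat_lit 330) (B (lo114_11_3 (nat_lit 363)) (lo19_10_0 (nat_lit 329)))))))) (B (M (nat_lit 396) (B (M (nat_lit 331) (B (lo112_13_7 (nat_lit 299)) (M (nat_lit 366) (B (lo115_11_3 (nat_lit 367)) (M (nat_lit 330) (B (lo114_11_3 (nat_lit 363)) (lo19_10_0 (nat_lit 329)))))))) (B (M (nat_lit 300) (B (M (nat_lit 301) (B (lo112_12_6 (nat_lit 269)) (lo112_13_6 (nat_lit 333)))) (M (nat_lit 299) (B (lo112_12_7 (nat_lit 267)) (lo112_13_7 (nat_lit 331)))))) (K _ _ _ o1_s43948)))) (B (M (nat_lit 366) (B (M (nat_lit 331) (B (lo115_11_3 (nat_lit 367)) (M (nat_lit 330) (B (lo110_10_0 (nat_lit 333)) (lo114_11_3 (nat_lit 363)))))) (B (M (nat_lit 363) (B (M (nat_lit 334) (B (lo111_11_2 (nat_lit 335)) (M (nat_lit 362) (B (lo110_11_2 (nat_lit 333)) (M (nat_lit 394) (B (lo114_11_1 (nat_lit 395)) (lo113_11_1 (nat_lit 393)))))))) (B (M (nat_lit 362) (B (M (nat_lit 330) (B (lo114_11_3 (nat_lit 331)) (lo113_11_3 (nat_lit 329)))) (M (nat_lit 394) (B (lo114_11_1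 (nat_lit 395)) (lo113_11_1 (nat_lit 393)))))) (B (M (nat_lit 362) (B (M (nat_lit 334) (B (lo111_11_2 (nat_lit 335)) (lo110_11_2 (nat_lit 333)))) (M (nat_lit 330) (B (lo114_11_3 (nat_lit 331)) (lo113_11_3 (nat_lit 329)))))) (M (nat_lit 331) (B (lo114_11_3 (nat_lit 330)) (M (nat_lit 395) (B (lo114_11_1 (nat_lit 394)) (M (nat_lit 300) (B (lo112_8_5 (nat_lit 268)) (lo111_13_6 (nat_lit 427)))))))))))) (B (M (nat_lit 331) (B (lo115_11_3 (nat_lit 367)) (M (nat_lit 330) (B (lo114_11_3 (nat_lit 363)) (lo19_10_0 (nat_lit 329)))))) (B (M (nat_lit 363) (B (M (nat_lit 335) (B (lo111_11_2 (nat_lit 334)) (M (nat_lit 367) (B (lo112_11_2 (nat_lit 336)) (M (nat_lit 399) (B (lo112_11_0 (nat_lit 400)) (lo111_11_0 (nat_lit 398)))))))) (B (M (nat_lit 334) (B (lo111_11_2 (nat_lit 335)) (M (nat_lit 362) (B (lo110_11_2 (nat_lit 333)) (M (nat_lit 394) (B (lo114_11_1 (nat_lit 395)) (lo113_11_1 (nat_lit 393)))))))) (B (M (nat_lit 362) (B (M (nat_lit 333) (B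 (lo110_11_2 (nat_lit 334)) (lo19_11_2 (nat_lit 361)))) (M (nat_lit 394) (B (lo114_11_1 (nat_lit 395)) (lo113_11_1 (nat_lit 393)))))) (M (nat_lit 362) (B (M (nat_lit 394) (B (lo114_11_1 (nat_lit 395)) (lo113_11_1 (nat_lit 393)))) (M (nat_lit 367) (B (M (nat_lit 333) (B (lo116_11_3 (nat_lit 368)) (lo19_11_2 (nat_lit 361)))) (M (nat_lit 399) (B (lo112_11_0 (nat_lit 400)) (lo111_11_0 (nat_lit 398)))))))))))) (M (nat_lit 331) (B (lo115_11_3 (nat_lit 367)) (M (nat_lit 330) (B (lo110_10_0 (nat_lit 333)) (lo19_10_0 (nat_lit 329))))))))))) (M (nat_lit 396) (B (lo112_10_4 (nat_lit 461)) (K _ _ _ o1_s43948))))))))) _ _ _ (by decide +kernel)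
theorem o1_s44017 : Sem (nat_lit 2079502270590611144758964000756075440869791185629121216253881527026032216716852528369011493381772153763881776169365277368752537600) (nat_lit 707617955038467672602112402501238064910159469015086397456635484929073620862558957078451644591647360381398589637934159981491889263558026942302219295345525804473308413952) (nat_lit 707617955038467672602112402501238064910159469015086397456635484929073620862558957078451644591647360381398589637934159981491889263558026942302219295345525804473308413952) := sem_of_chk (M (nat_lit 397) (B (M (nat_lit 460) (B (lo113_10_5 (nat_lit 333)) (M (nat_lit 492) (B (lo113_11_5 (nat_lit 461)) (lo112_16_6 (nat_lit 524)))))) (B (K _ _ _ o1_s43992) (B (M (nat_lit 460) (B (lo113_10_5 (nat_lit 333)) (M (nat_lit 492) (B (lo112_15_6 (nat_lit 396)) (lo112_16_6 (nat_lit 524)))))) (B (K _ _ _ o1_s44014) (M (nat_lit 333) (B (lo113_10_5 (nat_lit 460)) (M (nat_lit 301) (B (lo113_9_5 (nat_lit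 396)) (M (nat_lit 300) (B (lo113_12_7 (nat_lit 268)) (lo113_13_7 (nat_lit 332))))))))))))) _ _ _ (by decide +kernel)
theorem o1_s44145 : Sem (nat_lit 2079502270590611144796540682080456772516022875177750608691892447808565334648169183913526837783605888859300960143521576617263497216) (nat_lit 219673525213686285406372028685456594832434512469654085340037529792173719454138616702765492273081655551607932901867036689002237754643720774566022012681429450752) (nat_lit 219673525213686285406372028685456594832434512469654085340037529792173719454138616702765492273081655551607932901867036689002237754643720774566022012681429450752) := sem_of_chk (M (nat_lit 397) (B (M (nat_lit 460) (B (M (nat_lit 492) (B (lo113_11_5 (nat_lit 461)) (lo112_15_6 (nat_lit 396)))) (B (M (nat_lit 396) (B (lo112_15_6 (nat_lit 492)) (M (nat_lit 363) (B (lo112_14_7 (nat_lit 331)) (M (nat_lit 398) (B (lo115_12_3 (nat_lit 399)) (lo110_11_0 (nat_lit 362)))))))) (B (M (nat_lit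 461) (B (lo113_11_5 (nat_lit 492)) (M (nat_lit 462) (B (lo113_11_4 (nat_lit 494)) (M (nat_lit 463) (B (lo116_14_3 (nat_lit 464)) (lo115_14_3 (nat_lit 427)))))))) (M (nat_lit 461) (B (M (nat_lit 493) (B (lo113_15_7 (nat_lit 396)) (M (nat_lit 366) (B (lo113_14_6 (nat_lit 334)) (lo113_15_6 (nat_lit 398)))))) (M (nat_lit 462) (B (lo113_11_4 (nat_lit 494)) (M (nat_lit 463) (B (lo116_14_3 (nat_lit 464)) (lo115_14_3 (nat_lit 427)))))))))))) (B (M (nat_lit 396) (B (M (nat_lit 363) (B (M (nat_lit 398) (B (lo115_12_3 (nat_lit 399)) (lo110_11_0 (nat_lit 362)))) (M (nat_lit 460) (B (lo112_15_6 (nat_lit 492)) (lo112_14_7 (nat_lit 331)))))) (M (nat_lit 366) (B (M (nat_lit 367) (B (lo116_11_1 (nat_lit 368)) (lo115_11_1 (nat_lit 395)))) (M (nat_lit 461) (B (lo113_14_6 (nat_lit 334)) (lo113_15_7 (nat_lit 493)))))))) (B (M (nat_lit 396) (B (M (nat_lit 363) (B (M (nat_lit 362) (B (lo110_11_0 (nat_lit 398)) (lo19_11_0 (nat_lit 361)))) (M (nat_lit 460)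 (B (lo112_15_6 (nat_lit 492)) (lo112_14_7 (nat_lit 331)))))) (M (nat_lit 366) (B (M (nat_lit 367) (B (lo116_11_1 (nat_lit 368)) (lo115_11_1 (nat_lit 395)))) (M (nat_lit 461) (B (lo113_14_6 (nat_lit 334)) (lo113_15_7 (nat_lit 493)))))))) (B (M (nat_lit 461) (B (M (nat_lit 493) (B (lo113_15_7 (nat_lit 396)) (M (nat_lit 494) (B (lo113_11_4 (nat_lit 462)) (lo113_12_4 (nat_lit 526)))))) (B (M (nat_lit 396) (B (lo113_15_7 (nat_lit 493)) (M (nat_lit 363) (B (M (nat_lit 398) (B (lo115_12_3 (nat_lit 399)) (lo110_11_0 (nat_lit 362)))) (M (nat_lit 460) (B (lo113_11_5 (nat_lit 492)) (lo112_14_7 (nat_lit 331)))))))) (M (nat_lit 460) (B (lo113_11_5 (nat_lit 492)) (M (nat_lit 462) (B (lo113_11_4 (nat_lit 494)) (M (nat_lit 463) (B (lo116_14_3 (nat_lit 464)) (lo115_14_3 (nat_lit 427))))))))))) (B (M (nat_lit 461) (B (M (nat_lit 493) (B (lo113_15_7 (nat_lit 396)) (M (nat_lit 494) (B (lo113_11_4 (nat_lit 462)) (lo113_12_4 (nat_lit 526)))))) (B (M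 (nat_lit 396) (B (lo113_15_7 (nat_lit 493)) (M (nat_lit 366) (B (lo113_14_6 (nat_lit 334)) (M (nat_lit 367) (B (lo116_11_1 (nat_lit 368)) (lo115_11_1 (nat_lit 395)))))))) (M (nat_lit 460) (B (lo113_11_5 (nat_lit 492)) (M (nat_lit 462) (B (lo113_11_4 (nat_lit 494)) (M (nat_lit 463) (B (lo116_14_3 (nat_lit 464)) (lo115_14_3 (nat_lit 427))))))))))) (B (K _ _ _ o1_s44119) (B (M (nat_lit 461) (B (M (nat_lit 460) (B (lo113_11_5 (nat_lit 492)) (M (nat_lit 462) (B (lo113_11_4 (nat_lit 494)) (M (nat_lit 463) (B (lo116_14_3 (nat_lit 464)) (lo115_14_3 (nat_lit 427)))))))) (M (nat_lit 366) (B (lo113_14_6 (nat_lit 334)) (M (nat_lit 398) (B (lo113_15_6 (nat_lit 493)) (M (nat_lit 399) (B (lo116_12_3 (nat_lit 400)) (lo111_11_0 (nat_lit 363)))))))))) (K _ _ _ o1_s44144))))))))) _ _ _ (by decide +kernel)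
theorem o1_s44219 : Sem (nat_lit 2079502270590611144796540682080456772516022875177750608691892447808565334648169183913526837783605888859300960143521576617263497216) (nat_lit 274591906494731163055520363978631102257800471135060065812054486126960315131163667565437376553190954577859937404655774665804687396312821085792226660190886297600) (nat_lit 274591906494731163055520363978631102257800471135060065812054486126960315131163667565437376553190954577859937404655774665804687396312821085792226660190886297600) := sem_of_chk (M (nat_lit 363) (B (M (nat_lit 397) (B (M (nat_lit 398) (B (lo110_11_0 (nat_lit 362)) (M (nat_lit 399) (B (lo116_12_3 (nat_lit 400)) (lo111_11_0 (nat_lit 366)))))) (B (M (nat_lit 398) (B (lo110_11_0 (nat_lit 362)) (M (nat_lit 461) (B (lo113_14_7 (nat_lit 332)) (M (nat_lit 366) (B (lo111_11_0 (nat_lit 399)) (lo113_15_6 (nat_lit 493)))))))) (K _ _ _ o1_s44159)))) (B (M (nat_lit 366) (B (M (nat_lit 367) (B (M (nat_lit 335)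 (B (lo112_11_2 (nat_lit 336)) (lo111_11_2 (nat_lit 334)))) (M (nat_lit 331) (B (lo115_11_3 (nat_lit 332)) (lo114_11_3 (nat_lit 330)))))) (M (nat_lit 362) (B (M (nat_lit 398) (B (lo111_11_0 (nat_lit 399)) (lo110_11_0 (nat_lit 397)))) (M (nat_lit 394) (B (lo114_11_1 (nat_lit 395)) (lo113_11_1 (nat_lit 393)))))))) (B (M (nat_lit 397) (B (M (nat_lit 461) (B (lo113_14_7 (nat_lit 332)) (M (nat_lit 366) (B (lo113_14_6 (nat_lit 334)) (M (nat_lit 398) (B (lo113_15_6 (nat_lit 493)) (lo110_11_0 (nat_lit 362)))))))) (B (M (nat_lit 461) (B (lo113_14_7 (nat_lit 332)) (M (nat_lit 493) (B (M (nat_lit 398) (B (lo113_15_6 (nat_lit 366)) (lo110_11_0 (nat_lit 362)))) (M (nat_lit 494) (B (lo113_11_4 (nat_lit 462)) (lo113_12_4 (nat_lit 526)))))))) (B (K _ _ _ o1_s44159) (M (nat_lit 362) (B (lo110_11_0 (nat_lit 398)) (M (nat_lit 366) (B (M (nat_lit 330) (B (lo114_11_3 (nat_lit 331)) (lo113_11_3 (nat_lit 329)))) (M (nat_lit 394) (B (lo114_11_1 (nat_lit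 395)) (lo113_11_1 (nat_lit 393)))))))))))) (B (M (nat_lit 397) (B (K _ _ _ o1_s44159) (M (nat_lit 362) (B (lo110_11_0 (nat_lit 398)) (M (nat_lit 361) (B (M (nat_lit 329) (B (lo113_11_3 (nat_lit 330)) (lo112_11_3 (nat_lit 328)))) (M (nat_lit 393) (B (lo113_11_1 (nat_lit 394)) (lo112_11_1 (nat_lit 392)))))))))) (B (M (nat_lit 331) (B (M (nat_lit 330) (B (lo114_11_3 (nat_lit 366)) (M (nat_lit 329) (B (lo19_10_0 (nat_lit 332)) (lo113_11_3 (nat_lit 362)))))) (B (M (nat_lit 395) (B (M (nat_lit 427) (B (lo111_10_4 (nat_lit 460)) (M (nat_lit 332) (B (lo111_13_6 (nat_lit 300)) (M (nat_lit 330) (B (lo19_10_0 (nat_lit 329)) (lo111_13_7 (nat_lit 298)))))))) (B (M (nat_lit 330) (B (M (nat_lit 329) (B (lo19_10_0 (nat_lit 332)) (lo113_11_3 (nat_lit 362)))) (M (nat_lit 427) (B (lo111_10_4 (nat_lit 460)) (lo111_13_7 (nat_lit 298)))))) (B (M (nat_lit 299) (B (M (nat_lit 427) (B (lo111_10_4 (nat_lit 460)) (M (nat_lit 298) (B (lo111_12_7 (nat_lit 266))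 (lo111_13_7 (nat_lit 330)))))) (M (nat_lit 394) (B (lo111_9_5 (nat_lit 426)) (M (nat_lit 362) (B (lo113_11_1 (nat_lit 393)) (lo111_8_5 (nat_lit 267)))))))) (B (M (nat_lit 330) (B (M (nat_lit 329) (B (lo19_10_0 (nat_lit 332)) (lo113_11_3 (nat_lit 362)))) (M (nat_lit 298) (B (lo111_13_7 (nat_lit 427)) (M (nat_lit 266) (B (lo111_12_7 (nat_lit 299)) (lo110_7_4 (nat_lit 234)))))))) (B (M (nat_lit 299) (B (M (nat_lit 394) (B (lo111_9_5 (nat_lit 426)) (M (nat_lit 362) (B (lo113_11_1 (nat_lit 393)) (lo111_8_5 (nat_lit 267)))))) (B (M (nat_lit 394) (B (lo111_9_5 (nat_lit 426)) (M (nat_lit 393) (B (lo113_11_1 (nat_lit 362)) (lo18_12_2 (nat_lit 392)))))) (M (nat_lit 267) (B (M (nat_lit 268) (B (lo111_11_6 (nat_lit 236)) (lo111_12_6 (nat_lit 300)))) (M (nat_lit 266) (B (lo111_11_7 (nat_lit 234)) (lo111_12_7 (nat_lit 298))))))))) (M (nat_lit 299) (B (M (nat_lit 300) (B (lo111_12_6 (nat_lit 268)) (M (nat_lit 427) (B (lo111_13_6 (nat_lit 332))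 (lo111_10_4 (nat_lit 460)))))) (M (nat_lit 394) (B (lo111_9_5 (nat_lit 426)) (M (nat_lit 362) (B (lo113_11_1 (nat_lit 393)) (lo111_8_5 (nat_lit 267)))))))))))))) (B (M (nat_lit 330) (B (lo114_11_3 (nat_lit 366)) (M (nat_lit 329) (B (lo113_11_3 (nat_lit 362)) (lo18_10_0 (nat_lit 328)))))) (B (M (nat_lit 395) (B (M (nat_lit 394) (B (lo114_11_1 (nat_lit 366)) (M (nat_lit 393) (B (lo113_11_1 (nat_lit 362)) (lo18_12_2 (nat_lit 392)))))) (M (nat_lit 427) (B (lo111_10_4 (nat_lit 460)) (M (nat_lit 461) (B (M (nat_lit 426) (B (lo110_13_0 (nat_lit 462)) (lo111_10_5 (nat_lit 458)))) (M (nat_lit 332) (B (lo113_14_7 (nat_lit 397)) (lo111_13_6 (nat_lit 300)))))))))) (M (nat_lit 330) (B (lo114_11_3 (nat_lit 366)) (M (nat_lit 329) (B (lo19_10_0 (nat_lit 332)) (lo18_10_0 (nat_lit 328))))))))))) (B (K _ _ _ o1_s43834) (M (nat_lit 366) (B (M (nat_lit 367) (B (M (nat_lit 335) (B (lo112_11_2 (nat_lit 336)) (lo111_11_2 (nat_lit 334)))) (M (nat_lit 331)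 (B (lo115_11_3 (nat_lit 332)) (lo114_11_3 (nat_lit 330)))))) (B (M (nat_lit 367) (B (M (nat_lit 399) (B (lo112_11_0 (nat_lit 400)) (lo111_11_0 (nat_lit 398)))) (M (nat_lit 331) (B (lo115_11_3 (nat_lit 332)) (lo114_11_3 (nat_lit 330)))))) (M (nat_lit 398) (B (lo111_11_0 (nat_lit 399)) (M (nat_lit 334) (B (lo111_11_2 (nat_lit 335)) (M (nat_lit 397) (B (lo114_9_5 (nat_lit 302)) (lo113_14_6 (nat_lit 461)))))))))))))))))) _ _ _ (by decide +kernel)
theorem o1_s44261 : Sem (nat_lit 2079502270590611144796540682080456772516022875177750608691892447808565334648169183913526837783605888859300960143521576617263497216) (nat_lit 109836762587663119569853283974556531347066071600732830247757172101047188269694951155421827419122909852202657663070710669510921330337403859795184332655416049664) (nat_lit 109836762587663119569853283974556531347066071600732830247757172101047188269694951155421827419122909852202657663070710669510921330337403859795184332655416049664)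 := sem_of_chk (M (nat_lit 396) (B (M (nat_lit 461) (B (lo112_10_4 (nat_lit 332)) (M (nat_lit 493) (B (lo113_15_7 (nat_lit 397)) (lo113_16_7 (nat_lit 525)))))) (B (M (nat_lit 332) (B (lo112_10_4 (nat_lit 461)) (M (nat_lit 300) (B (M (nat_lit 299) (B (lo112_12_7 (nat_lit 267)) (lo112_13_7 (nat_lit 331)))) (M (nat_lit 268) (B (M (nat_lit 269) (B (lo112_11_6 (nat_lit 237)) (lo112_12_6 (nat_lit 301)))) (M (nat_lit 395) (B (lo112_8_5 (nat_lit 363)) (lo112_9_5 (nat_lit 427)))))))))) (B (M (nat_lit 366) (B (M (nat_lit 395) (B (lo115_11_1 (nat_lit 367)) (M (nat_lit 394) (B (lo110_12_2 (nat_lit 397)) (lo114_11_1 (nat_lit 363)))))) (B (M (nat_lit 363) (B (M (nat_lit 331) (B (lo114_11_3 (nat_lit 330)) (M (nat_lit 299) (B (lo112_13_7 (nat_lit 332)) (lo111_8_4 (nat_lit 267)))))) (B (M (nat_lit 331) (B (lo114_11_3 (nat_lit 330)) (M (nat_lit 299) (B (lo111_8_4 (nat_lit 267)) (lo111_9_4 (nat_lit 395)))))) (B (M (nat_lit 331) (B (lo114_11_3 (nat_lit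 330)) (M (nat_lit 299) (B (lo112_13_7 (nat_lit 332)) (lo111_9_4 (nat_lit 395)))))) (M (nat_lit 362) (B (M (nat_lit 398) (B (lo111_11_0 (nat_lit 399)) (lo110_11_0 (nat_lit 397)))) (M (nat_lit 394) (B (lo114_11_1 (nat_lit 395)) (lo113_11_1 (nat_lit 393)))))))))) (B (M (nat_lit 395) (B (lo115_11_1 (nat_lit 367)) (M (nat_lit 394) (B (lo114_11_1 (nat_lit 363)) (lo19_12_2 (nat_lit 393)))))) (B (M (nat_lit 395) (B (lo115_11_1 (nat_lit 367)) (M (nat_lit 394) (B (lo110_12_2 (nat_lit 397)) (lo19_12_2 (nat_lit 393)))))) (M (nat_lit 363) (B (M (nat_lit 331) (B (lo114_11_3 (nat_lit 330)) (M (nat_lit 332) (B (lo115_11_3 (nat_lit 367)) (lo112_13_7 (nat_lit 299)))))) (B (M (nat_lit 331) (B (lo114_11_3 (nat_lit 330)) (M (nat_lit 299) (B (lo112_13_7 (nat_lit 332)) (lo111_8_4 (nat_lit 267)))))) (M (nat_lit 367) (B (M (nat_lit 335) (B (lo112_11_2 (nat_lit 336)) (lo111_11_2 (nat_lit 334)))) (M (nat_lit 399) (B (lo112_11_0 (nat_lit 400)) (lo111_11_0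 (nat_lit 398)))))))))))))) (M (nat_lit 366) (B (M (nat_lit 395) (B (lo115_11_1 (nat_lit 367)) (M (nat_lit 394) (B (lo110_12_2 (nat_lit 397)) (lo114_11_1 (nat_lit 363)))))) (B (M (nat_lit 363) (B (M (nat_lit 331) (B (lo114_11_3 (nat_lit 330)) (M (nat_lit 299) (B (lo111_8_4 (nat_lit 267)) (lo111_9_4 (nat_lit 395)))))) (M (nat_lit 397) (B (M (nat_lit 334) (B (lo111_11_2 (nat_lit 335)) (lo113_14_6 (nat_lit 461)))) (M (nat_lit 398) (B (lo111_11_0 (nat_lit 399)) (lo110_11_0 (nat_lit 362)))))))) (B (M (nat_lit 395) (B (lo115_11_1 (nat_lit 367)) (M (nat_lit 394) (B (lo114_11_1 (nat_lit 363)) (lo19_12_2 (nat_lit 393)))))) (B (M (nat_lit 395) (B (lo115_11_1 (nat_lit 367)) (M (nat_lit 394) (B (lo110_12_2 (nat_lit 397)) (lo19_12_2 (nat_lit 393)))))) (K _ _ _ o1_s44259)))))))))) _ _ _ (by decide +kernel)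
theorem o1_s44559 : Sem (nat_lit 2079502270590611144796540682080456772516022875177750608691892447808565334648169183913526837783605888859300960143521576617263497216) (nat_lit 346583716919514701119868639172312604077485484639290777782000975545968899685251468466319566898634571024988010595439653500009578496) (nat_lit 346583716919514701119868639172312604077485484639290777782000975545968899685251468466319566898634571024988010595439653500009578496) := sem_of_chk (M (nat_lit 363) (B (M (nat_lit 366) (B (M (nat_lit 367) (B (M (nat_lit 399) (B (lo112_11_0 (nat_lit 400)) (lo111_11_0 (nat_lit 398)))) (M (nat_lit 331) (B (lo115_11_3 (nat_lit 332)) (lo114_11_3 (nat_lit 330)))))) (B (M (nat_lit 362) (B (M (nat_lit 334) (B (lo111_11_2 (nat_lit 335)) (lo110_11_2 (nat_lit 333)))) (M (nat_lit 330) (B (lo114_11_3 (nat_lit 331)) (lo113_11_3 (nat_lit 329)))))) (M (nat_lit 362) (B (M (nat_lit 334) (B (lo111_11_2 (nat_lit 335)) (lo110_11_2 (nat_lit 333))))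 (M (nat_lit 398) (B (lo111_11_0 (nat_lit 399)) (lo110_11_0 (nat_lit 397))))))))) (B (M (nat_lit 362) (B (M (nat_lit 361) (B (M (nat_lit 333) (B (lo110_11_2 (nat_lit 334)) (lo19_11_2 (nat_lit 332)))) (M (nat_lit 393) (B (lo113_11_1 (nat_lit 394)) (lo112_11_1 (nat_lit 392)))))) (B (M (nat_lit 397) (B (lo110_11_0 (nat_lit 398)) (M (nat_lit 361) (B (lo19_11_0 (nat_lit 396)) (M (nat_lit 329) (B (lo113_11_3 (nat_lit 330)) (lo112_11_3 (nat_lit 328)))))))) (M (nat_lit 366) (B (M (nat_lit 334) (B (lo111_11_2 (nat_lit 335)) (lo110_11_2 (nat_lit 333)))) (M (nat_lit 330) (B (lo114_11_3 (nat_lit 331)) (lo113_11_3 (nat_lit 329))))))))) (B (M (nat_lit 362) (B (M (nat_lit 361) (B (M (nat_lit 333) (B (lo110_11_2 (nat_lit 334)) (lo19_11_2 (nat_lit 332)))) (M (nat_lit 393) (B (lo113_11_1 (nat_lit 394)) (lo112_11_1 (nat_lit 392)))))) (B (M (nat_lit 397) (B (lo110_11_0 (nat_lit 398)) (M (nat_lit 361) (B (lo19_11_0 (nat_lit 396)) (M (nat_lit 329) (B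 (lo113_11_3 (nat_lit 330)) (lo112_11_3 (nat_lit 328)))))))) (M (nat_lit 366) (B (M (nat_lit 398) (B (lo111_11_0 (nat_lit 399)) (lo110_11_0 (nat_lit 397)))) (M (nat_lit 330) (B (lo114_11_3 (nat_lit 331)) (lo113_11_3 (nat_lit 329))))))))) (B (M (nat_lit 362) (B (M (nat_lit 361) (B (M (nat_lit 397) (B (lo110_11_0 (nat_lit 398)) (lo19_11_0 (nat_lit 396)))) (M (nat_lit 393) (B (lo113_11_1 (nat_lit 394)) (lo112_11_1 (nat_lit 392)))))) (B (M (nat_lit 361) (B (M (nat_lit 329) (B (lo113_11_3 (nat_lit 330)) (lo112_11_3 (nat_lit 328)))) (M (nat_lit 393) (B (lo113_11_1 (nat_lit 394)) (lo112_11_1 (nat_lit 392)))))) (B (M (nat_lit 397) (B (lo110_11_0 (nat_lit 398)) (M (nat_lit 361) (B (lo19_11_0 (nat_lit 396)) (M (nat_lit 329) (B (lo113_11_3 (nat_lit 330)) (lo112_11_3 (nat_lit 328)))))))) (M (nat_lit 366) (B (M (nat_lit 398) (B (lo111_11_0 (nat_lit 399)) (lo110_11_0 (nat_lit 397)))) (M (nat_lit 330) (B (lo114_11_3 (nat_lit 331)) (lo113_11_3 (nat_lit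 329)))))))))) (B (M (nat_lit 397) (B (M (nat_lit 398) (B (lo110_11_0 (nat_lit 362)) (M (nat_lit 399) (B (lo116_12_3 (nat_lit 400)) (lo115_12_3 (nat_lit 396)))))) (B (M (nat_lit 362) (B (lo110_11_0 (nat_lit 398)) (M (nat_lit 333) (B (lo110_11_2 (nat_lit 334)) (M (nat_lit 361) (B (lo19_11_2 (nat_lit 332)) (lo19_11_0 (nat_lit 396)))))))) (B (M (nat_lit 333) (B (M (nat_lit 334) (B (lo113_13_6 (nat_lit 302)) (lo110_11_2 (nat_lit 362)))) (M (nat_lit 301) (B (lo113_9_5 (nat_lit 396)) (M (nat_lit 300) (B (lo113_12_7 (nat_lit 268)) (lo113_13_7 (nat_lit 332)))))))) (B (M (nat_lit 362) (B (lo110_11_0 (nat_lit 398)) (M (nat_lit 333) (B (lo110_11_2 (nat_lit 334)) (M (nat_lit 332) (B (lo113_13_7 (nat_lit 300)) (lo19_11_2 (nat_lit 361)))))))) (M (nat_lit 333) (B (M (nat_lit 301) (B (lo113_9_5 (nat_lit 396)) (M (nat_lit 300) (B (lo113_12_7 (nat_lit 268)) (lo113_13_7 (nat_lit 332)))))) (B (M (nat_lit 332) (B (lo113_13_7 (nat_lit 300)) (M (nat_lit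 334) (B (lo115_10_1 (nat_lit 335)) (lo113_13_6 (nat_lit 302)))))) (M (nat_lit 301) (B (lo113_9_5 (nat_lit 396)) (M (nat_lit 302) (B (lo113_12_6 (nat_lit 270)) (lo113_13_6 (nat_lit 334)))))))))))))) (B (K _ _ _ o1_s43837) (M (nat_lit 332) (B (M (nat_lit 300) (B (M (nat_lit 397) (B (lo113_13_7 (nat_lit 333)) (lo112_8_4 (nat_lit 268)))) (B (M (nat_lit 397) (B (lo112_8_4 (nat_lit 268)) (lo112_9_4 (nat_lit 396)))) (B (M (nat_lit 268) (B (lo112_8_5 (nat_lit 395)) (M (nat_lit 236) (B (lo112_7_4 (nat_lit 333)) (lo112_7_5 (nat_lit 331)))))) (M (nat_lit 397) (B (lo113_13_7 (nat_lit 333)) (lo112_9_4 (nat_lit 396)))))))) (B (M (nat_lit 300) (B (M (nat_lit 397) (B (lo112_8_4 (nat_lit 268)) (lo112_9_4 (nat_lit 396)))) (B (M (nat_lit 395) (B (lo112_8_5 (nat_lit 268)) (M (nat_lit 427) (B (lo112_9_5 (nat_lit 396)) (lo111_13_6 (nat_lit 331)))))) (B (M (nat_lit 396) (B (lo112_9_4 (nat_lit 397)) (M (nat_lit 299) (B (lo112_12_7 (nat_lit 267)) (lo112_13_7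 (nat_lit 331)))))) (M (nat_lit 268) (B (lo112_8_4 (nat_lit 397)) (lo112_8_5 (nat_lit 395)))))))) (B (M (nat_lit 300) (B (M (nat_lit 268) (B (lo112_8_5 (nat_lit 395)) (M (nat_lit 236) (B (lo112_7_4 (nat_lit 333)) (lo112_7_5 (nat_lit 331)))))) (B (M (nat_lit 395) (B (lo112_8_5 (nat_lit 268)) (M (nat_lit 427) (B (lo112_9_5 (nat_lit 396)) (lo111_13_6 (nat_lit 331)))))) (B (M (nat_lit 396) (B (M (nat_lit 301) (B (lo112_12_6 (nat_lit 269)) (lo112_13_6 (nat_lit 333)))) (M (nat_lit 299) (B (lo112_12_7 (nat_lit 267)) (lo112_13_7 (nat_lit 331)))))) (M (nat_lit 396) (B (M (nat_lit 301) (B (lo112_12_6 (nat_lit 269)) (lo112_13_6 (nat_lit 333)))) (M (nat_lit 395) (B (lo112_8_5 (nat_lit 268)) (lo112_9_5 (nat_lit 427)))))))))) (B (M (nat_lit 396) (B (M (nat_lit 331) (B (lo112_13_7 (nat_lit 299)) (M (nat_lit 366) (B (lo115_11_3 (nat_lit 367)) (lo114_11_3 (nat_lit 330)))))) (M (nat_lit 301) (B (lo112_13_6 (nat_lit 333)) (M (nat_lit 300) (B (lo112_12_6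 (nat_lit 269)) (lo112_9_4 (nat_lit 397)))))))) (B (M (nat_lit 333) (B (M (nat_lit 396) (B (lo112_13_6 (nat_lit 301)) (M (nat_lit 331) (B (lo112_13_7 (nat_lit 299)) (M (nat_lit 366) (B (lo115_11_3 (nat_lit 367)) (lo110_10_0 (nat_lit 330)))))))) (B (M (nat_lit 334) (B (lo115_10_1 (nat_lit 335)) (M (nat_lit 331) (B (M (nat_lit 302) (B (lo111_10_2 (nat_lit 303)) (lo113_13_6 (nat_lit 397)))) (M (nat_lit 396) (B (lo112_13_6 (nat_lit 301)) (lo112_13_7 (nat_lit 299)))))))) (B (M (nat_lit 334) (B (lo115_10_1 (nat_lit 335)) (M (nat_lit 331) (B (M (nat_lit 302) (B (lo111_10_2 (nat_lit 303)) (lo113_13_6 (nat_lit 397)))) (M (nat_lit 366) (B (lo111_10_0 (nat_lit 367)) (lo110_10_0 (nat_lit 330)))))))) (M (nat_lit 366) (B (M (nat_lit 335) (B (lo111_11_2 (nat_lit 334)) (M (nat_lit 367) (B (lo112_11_2 (nat_lit 336)) (lo116_11_3 (nat_lit 368)))))) (M (nat_lit 301) (B (lo112_13_6 (nat_lit 396)) (M (nat_lit 398) (B (lo111_11_0 (nat_lit 399)) (lo113_8_4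 (nat_lit 269)))))))))))) (B (M (nat_lit 366) (B (M (nat_lit 331) (B (lo115_11_3 (nat_lit 367)) (lo114_11_3 (nat_lit 330)))) (M (nat_lit 334) (B (lo111_11_2 (nat_lit 335)) (M (nat_lit 397) (B (M (nat_lit 302) (B (lo114_8_5 (nat_lit 270)) (lo114_9_5 (nat_lit 398)))) (B (M (nat_lit 302) (B (lo114_9_5 (nat_lit 398)) (lo113_13_6 (nat_lit 333)))) (M (nat_lit 300) (B (lo113_13_7 (nat_lit 333)) (lo112_8_4 (nat_lit 268))))))))))) (M (nat_lit 300) (B (M (nat_lit 397) (B (lo113_13_7 (nat_lit 333)) (lo112_8_4 (nat_lit 268)))) (B (M (nat_lit 268) (B (lo112_8_4 (nat_lit 397)) (lo112_8_5 (nat_lit 395)))) (B (M (nat_lit 396) (B (M (nat_lit 301) (B (lo112_12_6 (nat_lit 269)) (lo112_13_6 (nat_lit 333)))) (M (nat_lit 395) (B (lo112_8_5 (nat_lit 268)) (lo112_9_5 (nat_lit 427)))))) (M (nat_lit 397) (B (lo113_13_7 (nat_lit 333)) (lo112_9_4 (nat_lit 396)))))))))))))))))))))) _ _ _ (by decide +kernel)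
theorem o1_s44581 : Sem (nat_lit 2079502270590611144758964000756075440869791185629121216253881527026032216716852528369011493381772153763881776169365277368752537600) (nat_lit 471745303487121338087015241189471259227851892739058870683160167845037743041796753464922709357958876267904409564349731775547424111343260197085358675421236023297574961152) (nat_lit 471745303487121338087015241189471259227851892739058870683160167845037743041796753464922709357958876267904409564349731775547424111343260197085358675421236023297574961152) := sem_of_chk (M (nat_lit 397) (B (M (nat_lit 460) (B (lo113_10_5 (nat_lit 333)) (M (nat_lit 492) (B (lo112_15_6 (nat_lit 396)) (lo112_16_6 (nat_lit 524)))))) (B (K _ _ _ o1_s43992) (B (M (nat_lit 460) (B (lo113_10_5 (nat_lit 333)) (M (nat_lit 492) (B (lo113_11_5 (nat_lit 461)) (lo112_16_6 (nat_lit 524)))))) (K _ _ _ o1_s44580))))) _ _ _ (by decide +kernel)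
theorem o1_s44593 : Sem (nat_lit 2079502270590611144758964000756075440869791185629121216253881527026032216716852528369011493381772153763881776169365277368752537600) (nat_lit 274591906494731163126227235077934448710047289864188248232192718014525193330228044208966409876245722858449875272734854210835298182567264216092187216226975481856) (nat_lit 274591906494731163126227235077934448710047289864188248232192718014525193330228044208966409876245722858449875272734854210835298182567264216092187216226975481856) := sem_of_chk (M (nat_lit 397) (B (M (nat_lit 460) (B (lo113_10_5 (nat_lit 333)) (M (nat_lit 492) (B (lo113_11_5 (nat_lit 461)) (lo112_16_6 (nat_lit 524)))))) (B (M (nat_lit 461) (B (M (nat_lit 460) (B (lo113_11_5 (nat_lit 492)) (M (nat_lit 462) (B (lo113_11_4 (nat_lit 494)) (M (nat_lit 463) (B (lo116_14_3 (nat_lit 464)) (lo115_14_3 (nat_lit 427)))))))) (B (M (nat_lit 493) (B (M (nat_lit 494) (B (lo113_11_4 (nat_lit 462)) (lo113_12_4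 (nat_lit 526)))) (M (nat_lit 492) (B (lo113_11_5 (nat_lit 460)) (lo113_12_5 (nat_lit 524)))))) (B (M (nat_lit 493) (B (M (nat_lit 364) (B (lo113_14_7 (nat_lit 332)) (lo113_15_7 (nat_lit 396)))) (M (nat_lit 492) (B (lo113_11_5 (nat_lit 460)) (lo113_12_5 (nat_lit 524)))))) (M (nat_lit 493) (B (M (nat_lit 494) (B (lo113_11_4 (nat_lit 462)) (lo113_12_4 (nat_lit 526)))) (M (nat_lit 364) (B (lo113_14_7 (nat_lit 332)) (lo113_15_7 (nat_lit 396)))))))))) (B (M (nat_lit 460) (B (lo113_10_5 (nat_lit 333)) (M (nat_lit 492) (B (lo112_15_6 (nat_lit 396)) (lo112_16_6 (nat_lit 524)))))) (K _ _ _ o1_s44592))))) _ _ _ (by decide +kernel)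
theorem o1_s44746 : Sem (nat_lit 2079502270590611144758964000756075440869791185629121216253881527026032216716852528369011493381772153763881776169365277368752537600) (nat_lit 471745303487121338087015241189471259227851892743053288464255877432525483747493573131475151744488033293748467813253532632940404209521690062204218718173741914153994420224) (nat_lit 471745303487121338087015241189471259227851892743053288464255877432525483747493573131475151744488033293748467813253532632940404209521690062204218718173741914153994420224) := sem_of_chk (M (nat_lit 397) (B (M (nat_lit 460) (B (lo113_10_5 (nat_lit 333)) (M (nat_lit 492) (B (lo113_11_5 (nat_lit 461)) (lo112_16_6 (nat_lit 524)))))) (B (K _ _ _ o1_s43992) (B (M (nat_lit 460) (B (lo113_10_5 (nat_lit 333)) (M (nat_lit 492) (B (lo112_15_6 (nat_lit 396)) (lo112_16_6 (nat_lit 524)))))) (M (nat_lit 364) (B (M (nat_lit 461) (B (lo113_14_7 (nat_lit 332)) (M (nat_lit 493) (B (lo113_15_7 (nat_lit 396))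 (M (nat_lit 494) (B (lo113_11_4 (nat_lit 462)) (lo113_12_4 (nat_lit 526)))))))) (B (M (nat_lit 461) (B (lo113_14_7 (nat_lit 332)) (M (nat_lit 493) (B (lo113_15_7 (nat_lit 396)) (M (nat_lit 366) (B (lo113_14_6 (nat_lit 334)) (lo113_15_6 (nat_lit 398)))))))) (B (K _ _ _ o1_s44707) (B (M (nat_lit 366) (B (M (nat_lit 334) (B (lo113_14_6 (nat_lit 461)) (M (nat_lit 302) (B (lo114_8_5 (nat_lit 270)) (lo113_13_6 (nat_lit 333)))))) (B (M (nat_lit 334) (B (lo113_14_6 (nat_lit 461)) (M (nat_lit 302) (B (lo114_9_5 (nat_lit 398)) (lo113_13_6 (nat_lit 333)))))) (M (nat_lit 399) (B (M (nat_lit 400) (B (lo112_11_0 (nat_lit 367)) (lo116_12_3 (nat_lit 398)))) (B (M (nat_lit 396) (B (M (nat_lit 367) (B (lo116_11_1 (nat_lit 368)) (lo115_11_1 (nat_lit 395)))) (M (nat_lit 398) (B (lo111_11_0 (nat_lit 363)) (lo115_12_1 (nat_lit 427)))))) (B (M (nat_lit 398) (B (lo116_12_3 (nat_lit 400)) (lo111_11_0 (nat_lit 363)))) (M (nat_lit 367) (B (lo112_11_0 (nat_lit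 400)) (M (nat_lit 396) (B (lo116_11_1 (nat_lit 368)) (lo115_11_1 (nat_lit 395))))))))))))) (K _ _ _ o1_s44689)))))))))) _ _ _ (by decide +kernel)
theorem o1_s44801 : Sem (nat_lit 2079502270752001762176972468933951720766211117323357220743718917360481544431959660289579412447958723439309574608265524865560215552) (nat_lit 2977131414714805823811073280623693099868639621177957725755781836222798333904658048502178426197635452793833542453060188548537413351008894976) (nat_lit 2977131414714805823811073280623693099868639621177957725755781836222798333904658048502178426197635452793833542453060188548537413351008894976) := sem_of_chk (M (nat_lit 363) (B (M (nat_lit 460) (B (lo112_14_7 (nat_lit 331)) (lo112_14_6 (nat_lit 333)))) (B (M (nat_lit 366) (B (M (nat_lit 395) (B (lo114_11_1 (nat_lit 394)) (lo115_11_1 (nat_lit 367)))) (M (nat_lit 333) (B (lo112_14_6 (nat_lit 460)) (M (nat_lit 334) (B (lo110_11_2 (nat_lit 362)) (lo111_11_2 (nat_lit 335))))))))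 (B (K _ _ _ o1_s44800) (M (nat_lit 331) (B (lo112_14_7 (nat_lit 460)) (M (nat_lit 299) (B (lo111_8_4 (nat_lit 267)) (lo111_9_4 (nat_lit 395)))))))))) _ _ _ (by decide +kernel)
theorem o1_s44893 : Sem (nat_lit 2079502271074782996825105998667797622327892532968682267533339094116714610205590646408138528571163187313069251615284523616620773376) (nat_lit 109836762587663119569853283974729823202444276849644740772601850658961284840573854637802015187240988996802127811924561024118761604126660186663052241712160178176) (nat_lit 109836762587663119569853283974729823202444276849644740772601850658961284840573854637802015187240988996802127811924561024118761604126660186663052241712160178176) := sem_of_chk (M (nat_lit 398) (B (M (nat_lit 427) (B (lo110_13_2 (nat_lit 426)) (lo115_12_1 (nat_lit 399)))) (B (M (nat_lit 399) (B (lo115_12_1 (nat_lit 427)) (lo116_12_1 (nat_lit 400)))) (B (M (nat_lit 364) (B (M (nat_lit 399) (B (lo115_12_3 (nat_lit 363)) (lo116_12_1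 (nat_lit 400)))) (M (nat_lit 461) (B (lo112_10_4 (nat_lit 332)) (lo113_15_7 (nat_lit 493)))))) (M (nat_lit 461) (B (M (nat_lit 364) (B (lo112_10_4 (nat_lit 332)) (lo113_15_7 (nat_lit 493)))) (B (M (nat_lit 493) (B (lo113_15_7 (nat_lit 364)) (lo113_15_6 (nat_lit 366)))) (B (M (nat_lit 493) (B (lo113_16_7 (nat_lit 525)) (lo113_15_6 (nat_lit 366)))) (K _ _ _ o1_s44891))))))))) _ _ _ (by decide +kernel)
theorem o1_s45450 : Sem (nat_lit 2079502271074782996825105998667797622327892532968682267533339094116714610205590646408138528571163187313069251615284523616620773376) (nat_lit 31966705165655720401195959727883273901794353818468076800721865579831306539091487131199485592505892934439828034082470533150932989391690365951935512576) (nat_lit 31966705165655720401195959727883273901794353818468076800721865579831306539091487131199485592505892934439828034082470533150932989391690365951935512576) := sem_of_chk (M (nat_lit 364) (B (M (nat_lit 332) (B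 (lo112_9_4 (nat_lit 300)) (lo112_10_4 (nat_lit 461)))) (B (M (nat_lit 461) (B (lo112_10_4 (nat_lit 332)) (lo113_15_7 (nat_lit 493)))) (B (K _ _ _ o1_s44817) (M (nat_lit 332) (B (lo112_9_4 (nat_lit 300)) (M (nat_lit 460) (B (M (nat_lit 459) (B (lo112_10_5 (nat_lit 427)) (lo112_11_5 (nat_lit 491)))) (M (nat_lit 333) (B (lo112_13_6 (nat_lit 301)) (lo112_14_6 (nat_lit 365)))))))))))) _ _ _ (by decide +kernel)
theorem o1_s46044 : Sem (nat_lit 2079502270752001762101819106285189057473747738226098435867697075795415308569326349200548723644291253248471206659952926368538296320) (nat_lit 25573364133120002603622461979936394762709721483290124288512291153014706044843310739788881317056590900742592984661191444766566953187987724820979646464) (nat_lit 25573364133120002603622461979936394762709721483290124288512291153014706044843310739788881317056590900742592984661191444766566953187987724820979646464) := sem_of_chk (M (nat_lit 365) (B (M (nat_lit 333)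 (B (lo112_14_6 (nat_lit 460)) (M (nat_lit 301) (B (lo113_8_5 (nat_lit 269)) (lo113_9_5 (nat_lit 397)))))) (B (M (nat_lit 366) (B (M (nat_lit 395) (B (lo115_11_1 (nat_lit 367)) (M (nat_lit 394) (B (lo19_12_2 (nat_lit 393)) (lo110_12_2 (nat_lit 397)))))) (B (M (nat_lit 395) (B (lo115_11_1 (nat_lit 367)) (M (nat_lit 394) (B (lo114_11_1 (nat_lit 363)) (lo110_12_2 (nat_lit 397)))))) (B (M (nat_lit 397) (B (M (nat_lit 367) (B (lo115_11_1 (nat_lit 395)) (lo116_11_1 (nat_lit 368)))) (M (nat_lit 461) (B (lo113_15_7 (nat_lit 493)) (lo113_14_6 (nat_lit 334)))))) (B (M (nat_lit 334) (B (M (nat_lit 397) (B (lo113_14_6 (nat_lit 461)) (M (nat_lit 302) (B (lo113_13_6 (nat_lit 333)) (lo114_9_5 (nat_lit 398)))))) (B (M (nat_lit 367) (B (M (nat_lit 335) (B (lo111_11_2 (nat_lit 363)) (lo112_11_2 (nat_lit 336)))) (M (nat_lit 397) (B (lo116_11_1 (nat_lit 368)) (lo113_14_6 (nat_lit 461)))))) (M (nat_lit 335) (B (lo111_11_2 (nat_lit 363)) (M (nat_lit 336)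 (B (lo116_10_1 (nat_lit 333)) (lo112_11_2 (nat_lit 367))))))))) (B (M (nat_lit 395) (B (lo115_11_1 (nat_lit 367)) (M (nat_lit 394) (B (lo19_12_2 (nat_lit 393)) (lo114_11_1 (nat_lit 363)))))) (K _ _ _ o1_s44924))))))) (B (M (nat_lit 363) (B (M (nat_lit 331) (B (lo112_14_7 (nat_lit 460)) (M (nat_lit 299) (B (lo111_8_4 (nat_lit 267)) (lo111_9_4 (nat_lit 395)))))) (B (M (nat_lit 366) (B (M (nat_lit 331) (B (lo114_11_3 (nat_lit 330)) (lo112_14_7 (nat_lit 460)))) (M (nat_lit 395) (B (lo114_11_1 (nat_lit 394)) (lo115_11_1 (nat_lit 367)))))) (B (M (nat_lit 397) (B (M (nat_lit 398) (B (lo110_11_0 (nat_lit 362)) (lo115_12_3 (nat_lit 399)))) (M (nat_lit 366) (B (M (nat_lit 395) (B (lo114_11_1 (nat_lit 394)) (lo115_11_1 (nat_lit 367)))) (M (nat_lit 461) (B (lo113_15_7 (nat_lit 493)) (lo113_14_6 (nat_lit 334)))))))) (M (nat_lit 331) (B (lo112_14_7 (nat_lit 460)) (M (nat_lit 330) (B (lo114_11_3 (nat_lit 366)) (M (nat_lit 329) (B (lo18_10_0 (nat_lit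 328)) (lo113_11_3 (nat_lit 362)))))))))))) (M (nat_lit 363) (B (M (nat_lit 460) (B (lo112_14_7 (nat_lit 331)) (lo112_14_6 (nat_lit 333)))) (B (M (nat_lit 333) (B (lo112_14_6 (nat_lit 460)) (M (nat_lit 334) (B (lo110_11_2 (nat_lit 362)) (M (nat_lit 335) (B (lo111_11_2 (nat_lit 366)) (lo116_10_1 (nat_lit 336)))))))) (B (K _ _ _ o1_s44800) (M (nat_lit 366) (B (M (nat_lit 331) (B (lo114_11_3 (nat_lit 330)) (lo112_14_7 (nat_lit 460)))) (M (nat_lit 395) (B (lo114_11_1 (nat_lit 394)) (lo115_11_1 (nat_lit 367)))))))))))))) _ _ _ (by decide +kernel)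
theorem o1_s46356 : Sem (nat_lit 2079502271074782996900259361316560285620355912065941052409360935681780846068223957497169217374830657503907619563597122113642692608) (nat_lit 25573364131631436896871580565798559707759062650284883610469874256997301544840892862100044361937693586305091631258861562704928838216605964273757192192) (nat_lit 25573364131631436896871580565798559707759062650284883610469874256997301544840892862100044361937693586305091631258861562704928838216605964273757192192) := sem_of_chk (M (nat_lit 364) (B (M (nat_lit 332) (B (lo112_9_4 (nat_lit 300)) (lo112_10_4 (nat_lit 461)))) (B (M (nat_lit 461) (B (lo112_10_4 (nat_lit 332)) (lo113_15_7 (nat_lit 493)))) (B (K _ _ _ o1_s45402) (M (nat_lit 427) (B (M (nat_lit 426) (B (lo19_13_2 (nat_lit 425)) (lo110_13_2 (nat_lit 398)))) (M (nat_lit 332) (B (lo112_10_5 (nat_lit 459)) (lo112_9_4 (nat_lit 300)))))))))) _ _ _ (by decide +kernel)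
theorem o1_s47116 : Sem (nat_lit 2079502271155478305515321892094545096452986654041485573559252328892672715097485884596164815903339604603073558847656497740769132544) (nat_lit 38360046195214306783881359802935108590316916826413331254064430748969292066035732117439120049717049880441826141585750911613926118044514649030233423872) (nat_lit 38360046195214306783881359802935108590316916826413331254064430748969292066035732117439120049717049880441826141585750911613926118044514649030233423872) := sem_of_chk (M (nat_lit 398) (B (M (nat_lit 427) (B (lo114_12_1 (nat_lit 426)) (lo115_12_1 (nat_lit 399)))) (B (M (nat_lit 399) (B (lo115_12_1 (nat_lit 427)) (lo116_12_1 (nat_lit 400)))) (B (M (nat_lit 399) (B (lo116_12_1 (nat_lit 400)) (M (nat_lit 367) (B (lo111_12_2 (nat_lit 366)) (lo112_12_2 (nat_lit 368)))))) (K _ _ _ o1_s47115))))) _ _ _ (by decide +kernel)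
theorem o1_s47219 : Sem (nat_lit 2079502271155478305515321892094545096452986654041485573559252328892672715097485884596164815903339604603073558847656497740769132544) (nat_lit 164755143881494679366688451620780666237520702647444265230191555718442823231904415222565226302465691313168724170245416909894332538807037239109286486330694434816) (nat_lit 164755143881494679366688451620780666237520702647444265230191555718442823231904415222565226302465691313168724170245416909894332538807037239109286486330694434816) := sem_of_chk (M (nat_lit 427) (B (M (nat_lit 426) (B (lo19_13_2 (nat_lit 425)) (lo114_12_1 (nat_lit 398)))) (B (M (nat_lit 398) (B (lo114_12_1 (nat_lit 426)) (lo115_12_1 (nat_lit 399)))) (B (M (nat_lit 363) (B (M (nat_lit 398) (B (lo114_12_3 (nat_lit 362)) (lo115_12_1 (nat_lit 399)))) (M (nat_lit 460) (B (lo111_10_4 (nat_lit 331)) (lo112_15_7 (nat_lit 492)))))) (K _ _ _ o1_s47218))))) _ _ _ (by decide +kernel)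
theorem o1_s47943 : Sem (nat_lit 12786682065071435596533330347513450650139335203175549624871689488070368929427518189586217672946360874874207478988269499452064581419175223757100810240) (nat_lit 2026130649457353972712048612769295103916396106291141880709454580155803706669640879156289918352156602414445593755198834824488733957945824915352816815023358566259839038258151424000) (nat_lit 2026130649457353972712048612769295103916396106291141880709454580155803706669640879156289918352156602414445593755198834824488733957945824915352816815023358566259839038258151424000) := sem_of_chk (M (nat_lit 493) (B (M (nat_lit 525) (B (lo112_12_4 (nat_lit 396)) (M (nat_lit 557) (B (lo113_18_7 (nat_lit 589)) (lo113_17_7 (nat_lit 461)))))) (B (M (nat_lit 396) (B (lo112_12_4 (nat_lit 525)) (M (nat_lit 491) (B (lo112_12_5 (nat_lit 523)) (M (nat_lit 364) (B (lo112_11_4 (nat_lit 461)) (lo112_11_5 (nat_lit 459)))))))) (B (M (nat_lit 397) (B (M (nat_lit 365) (B (lo113_11_5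 (nat_lit 461)) (lo113_10_5 (nat_lit 333)))) (B (M (nat_lit 365) (B (lo113_10_5 (nat_lit 333)) (lo112_15_6 (nat_lit 396)))) (M (nat_lit 461) (B (M (nat_lit 494) (B (lo113_12_4 (nat_lit 526)) (M (nat_lit 495) (B (lo116_15_3 (nat_lit 496)) (lo115_15_3 (nat_lit 459)))))) (M (nat_lit 491) (B (M (nat_lit 462) (B (lo115_14_1 (nat_lit 463)) (lo110_15_2 (nat_lit 490)))) (M (nat_lit 396) (B (lo113_15_7 (nat_lit 364)) (lo112_12_5 (nat_lit 523))))))))))) (B (K _ _ _ o1_s42157) (M (nat_lit 494) (B (M (nat_lit 459) (B (lo115_15_3 (nat_lit 495)) (M (nat_lit 458) (B (lo110_14_0 (nat_lit 461)) (lo114_15_3 (nat_lit 491)))))) (B (K _ _ _ o1_s47941) (B (M (nat_lit 459) (B (lo115_15_3 (nat_lit 495)) (M (nat_lit 458) (B (lo114_15_3 (nat_lit 491)) (lo19_14_0 (nat_lit 457)))))) (B (M (nat_lit 459) (B (lo115_15_3 (nat_lit 495)) (M (nat_lit 458) (B (lo110_14_0 (nat_lit 461)) (lo19_14_0 (nat_lit 457)))))) (K _ _ _ o1_s42996))))))))))) _ _ _ (by decide +kernel)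
theorem o1_s48087 : Sem (nat_lit 8931394246223919741660702096011610356244857817703092131270813998909555257798399662686454848450707498188754549070842202668325863684147511296) (nat_lit 27459191009737883488865305986786380085975050788552280024882368642390006829947695219982507667856358567867363345559780976143464112889835077182791875563920293888) (nat_lit 27459191009737883488865305986786380085975050788552280024882368642390006829947695219982507667856358567867363345559780976143464112889835077182791875563920293888) := sem_of_chk (M (nat_lit 462) (B (M (nat_lit 463) (B (lo116_14_3 (nat_lit 464)) (lo115_14_3 (nat_lit 427)))) (B (M (nat_lit 427) (B (lo115_14_3 (nat_lit 463)) (lo110_13_0 (nat_lit 426)))) (B (K _ _ _ o1_s48080) (M (nat_lit 459) (B (M (nat_lit 458) (B (lo19_14_2 (nat_lit 457)) (M (nat_lit 490) (B (lo114_14_1 (nat_lit 491)) (lo113_14_1 (nat_lit 489)))))) (M (nat_lit 495) (B (lo111_14_0 (nat_lit 494)) (M (nat_lit 463) (B (lo112_14_0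 (nat_lit 496)) (lo116_14_3 (nat_lit 464)))))))))))) _ _ _ (by decide +kernel)
theorem o1_s48638 : Sem (nat_lit 12786682065071435596533330347513450650139335203175549624871689488070368929427518189586217672946360874874207478988269499452064581419175223757100810240) (nat_lit 2532663311674272059401570257390708557352374751049322266638286089747723312778382488199105411568449790267824650586264775223670554909304491524695767059950796292911516442488880496640) (nat_lit 2532663311674272059401570257390708557352374751049322266638286089747723312778382488199105411568449790267824650586264775223670554909304491524695767059950796292911516442488880496640) := sem_of_chk (M (nat_lit 493) (B (M (nat_lit 525) (B (lo112_12_4 (nat_lit 396)) (M (nat_lit 557) (B (lo113_18_7 (nat_lit 589)) (lo112_13_4 (nat_lit 524)))))) (B (M (nat_lit 525) (B (lo112_12_4 (nat_lit 396)) (M (nat_lit 557) (B (lo113_17_7 (nat_lit 461)) (lo112_13_4 (nat_lit 524)))))) (B (M (nat_lit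 396) (B (lo112_12_4 (nat_lit 525)) (M (nat_lit 491) (B (lo112_12_5 (nat_lit 523)) (M (nat_lit 364) (B (lo112_11_4 (nat_lit 461)) (lo112_11_5 (nat_lit 459)))))))) (B (M (nat_lit 491) (B (M (nat_lit 396) (B (lo112_12_5 (nat_lit 523)) (M (nat_lit 364) (B (lo112_11_4 (nat_lit 461)) (lo112_11_5 (nat_lit 459)))))) (B (M (nat_lit 523) (B (lo112_12_5 (nat_lit 396)) (M (nat_lit 555) (B (lo112_13_5 (nat_lit 524)) (lo111_18_6 (nat_lit 587)))))) (K _ _ _ o1_s48629)))) (M (nat_lit 494) (B (M (nat_lit 459) (B (lo115_15_3 (nat_lit 495)) (M (nat_lit 458) (B (lo110_14_0 (nat_lit 461)) (lo114_15_3 (nat_lit 491)))))) (B (M (nat_lit 491) (B (M (nat_lit 459) (B (lo114_15_3 (nat_lit 458)) (M (nat_lit 523) (B (lo114_15_1 (nat_lit 522)) (lo111_17_6 (nat_lit 555)))))) (M (nat_lit 525) (B (M (nat_lit 526) (B (lo111_15_0 (nat_lit 527)) (lo110_15_0 (nat_lit 490)))) (M (nat_lit 557) (B (lo113_17_7 (nat_lit 461)) (lo112_13_4 (nat_lit 524)))))))) (B (M (nat_lit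 459) (B (lo115_15_3 (nat_lit 495)) (M (nat_lit 458) (B (lo114_15_3 (nat_lit 491)) (lo19_14_0 (nat_lit 457)))))) (B (M (nat_lit 459) (B (lo115_15_3 (nat_lit 495)) (M (nat_lit 458) (B (lo110_14_0 (nat_lit 461)) (lo19_14_0 (nat_lit 457)))))) (M (nat_lit 491) (B (M (nat_lit 523) (B (lo114_15_1 (nat_lit 522)) (M (nat_lit 524) (B (lo115_15_1 (nat_lit 495)) (lo112_13_5 (nat_lit 555)))))) (B (M (nat_lit 525) (B (M (nat_lit 526) (B (lo111_15_0 (nat_lit 527)) (lo110_15_0 (nat_lit 490)))) (M (nat_lit 557) (B (lo113_17_7 (nat_lit 461)) (lo112_13_4 (nat_lit 524)))))) (M (nat_lit 490) (B (M (nat_lit 526) (B (lo111_15_0 (nat_lit 527)) (lo110_15_0 (nat_lit 525)))) (M (nat_lit 462) (B (lo111_15_2 (nat_lit 463)) (lo110_15_2 (nat_lit 461))))))))))))))))))) _ _ _ (by decide +kernel)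
theorem o1_s48777 : Sem (nat_lit 38360046195214306785440986501359129661050384333312023319460412851147381925526835197836721057130644190062660827808599131210106927815420313527841193984) (nat_lit 943490606864405913800544287255389189928259493429350125967825210738826098749147997912632455225043434699016425373150163341307928327965944087772372433477539906724707696640) (nat_lit 943490606864405913800544287255389189928259493429350125967825210738826098749147997912632455225043434699016425373150163341307928327965944087772372433477539906724707696640) := sem_of_chk (M (nat_lit 462) (B (M (nat_lit 463) (B (lo116_14_1 (nat_lit 464)) (lo115_14_1 (nat_lit 491)))) (B (M (nat_lit 491) (B (lo115_14_1 (nat_lit 463)) (lo110_15_2 (nat_lit 490)))) (B (K _ _ _ o1_s48775) (M (nat_lit 463) (B (lo116_14_1 (nat_lit 464)) (lo115_14_3 (nat_lit 427)))))))) _ _ _ (by decide +kernel)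
theorem o1_s48961 : Sem (nat_lit 8931394246223919741660702096011610356244857817703092131270813998909555257798399662686454848450707498188754549070842202668325863684147511296) (nat_lit 1415235909637588294853572326562297897528533049321263121174537294131985779141979470076796766151667760807270952800692477974998112684393611974363423961031593579901475618816) (nat_lit 1415235909637588294853572326562297897528533049321263121174537294131985779141979470076796766151667760807270952800692477974998112684393611974363423961031593579901475618816) := sem_of_chk (M (nat_lit 493) (B (M (nat_lit 525) (B (lo113_17_7 (nat_lit 557)) (lo113_16_7 (nat_lit 396)))) (B (M (nat_lit 396) (B (lo113_16_7 (nat_lit 525)) (lo112_11_4 (nat_lit 364)))) (B (M (nat_lit 397) (B (M (nat_lit 365) (B (lo113_10_5 (nat_lit 333)) (M (nat_lit 366) (B (lo113_15_6 (nat_lit 398)) (lo113_14_6 (nat_lit 334)))))) (B (M (nat_lit 364) (B (lo113_15_7 (nat_lit 396)) (M (nat_lit 365) (B (lo113_14_7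 (nat_lit 332)) (lo113_10_5 (nat_lit 333)))))) (M (nat_lit 396) (B (lo113_15_7 (nat_lit 364)) (M (nat_lit 398) (B (lo113_15_6 (nat_lit 366)) (M (nat_lit 399) (B (lo116_12_1 (nat_lit 400)) (lo115_12_1 (nat_lit 427))))))))))) (K _ _ _ o1_s48873))))) _ _ _ (by decide +kernel)
theorem o1_s49099 : Sem (nat_lit 2977131416794308094280641461793077210819827790952582581444846287221758209573443874798297761003556369114987972072309673036810407142536249344) (nat_lit 3656026100796391588724886968473945070000630188306996112709009356502701922634865362656626088338832908617158898170362426676798419039611285260398327681577144703161196347392) (nat_lit 3656026100796391588724886968473945070000630188306996112709009356502701922634865362656626088338832908617158898170362426676798419039611285260398327681577144703161196347392) := sem_of_chk (M (nat_lit 461) (B (M (nat_lit 462) (B (M (nat_lit 463) (B (lo116_14_3 (nat_lit 464)) (lo115_14_3 (nat_lit 427)))) (B (M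 (nat_lit 427) (B (lo115_14_3 (nat_lit 463)) (lo110_13_0 (nat_lit 426)))) (B (M (nat_lit 459) (B (M (nat_lit 426) (B (lo110_13_0 (nat_lit 427)) (M (nat_lit 458) (B (lo113_14_3 (nat_lit 425)) (lo19_14_2 (nat_lit 457)))))) (B (M (nat_lit 494) (B (lo111_14_0 (nat_lit 495)) (M (nat_lit 458) (B (lo110_14_0 (nat_lit 493)) (lo19_14_2 (nat_lit 457)))))) (M (nat_lit 494) (B (lo111_14_0 (nat_lit 495)) (M (nat_lit 397) (B (lo113_11_4 (nat_lit 365)) (M (nat_lit 526) (B (lo114_17_7 (nat_lit 558)) (lo113_12_4 (nat_lit 493))))))))))) (M (nat_lit 492) (B (M (nat_lit 463) (B (lo116_14_3 (nat_lit 464)) (lo115_14_1 (nat_lit 491)))) (M (nat_lit 397) (B (lo113_11_5 (nat_lit 365)) (lo112_16_6 (nat_lit 524)))))))))) (B (M (nat_lit 397) (B (M (nat_lit 365) (B (lo113_11_5 (nat_lit 492)) (lo113_10_5 (nat_lit 333)))) (B (K _ _ _ o1_s48987) (M (nat_lit 462) (B (M (nat_lit 365) (B (lo113_11_4 (nat_lit 494)) (lo113_10_5 (nat_lit 333)))) (M (nat_lit 427) (B (lo115_14_3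 (nat_lit 463)) (lo110_13_0 (nat_lit 426))))))))) (B (M (nat_lit 427) (B (M (nat_lit 462) (B (lo115_14_3 (nat_lit 463)) (lo110_13_0 (nat_lit 426)))) (B (M (nat_lit 426) (B (lo110_13_0 (nat_lit 462)) (lo19_13_0 (nat_lit 425)))) (B (M (nat_lit 397) (B (M (nat_lit 426) (B (lo110_13_2 (nat_lit 398)) (lo19_13_0 (nat_lit 425)))) (M (nat_lit 365) (B (lo113_11_5 (nat_lit 492)) (lo113_10_5 (nat_lit 333)))))) (M (nat_lit 459) (B (M (nat_lit 458) (B (lo19_14_2 (nat_lit 457)) (M (nat_lit 462) (B (lo115_14_3 (nat_lit 463)) (M (nat_lit 490) (B (lo114_14_1 (nat_lit 491)) (lo113_14_1 (nat_lit 489)))))))) (B (M (nat_lit 524) (B (M (nat_lit 492) (B (lo112_17_6 (nat_lit 556)) (lo112_16_6 (nat_lit 397)))) (B (M (nat_lit 492) (B (lo112_17_6 (nat_lit 556)) (lo112_16_7 (nat_lit 395)))) (B (M (nat_lit 492) (B (lo112_16_6 (nat_lit 397)) (lo112_16_7 (nat_lit 395)))) (M (nat_lit 493) (B (M (nat_lit 458) (B (lo110_14_0 (nat_lit 494)) (lo19_14_2 (nat_lit 457))))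 (M (nat_lit 525) (B (lo113_17_7 (nat_lit 557)) (lo113_13_5 (nat_lit 556)))))))))) (M (nat_lit 524) (B (M (nat_lit 492) (B (lo112_17_6 (nat_lit 556)) (lo112_16_6 (nat_lit 397)))) (B (M (nat_lit 492) (B (lo112_17_6 (nat_lit 556)) (lo112_16_7 (nat_lit 395)))) (B (M (nat_lit 492) (B (lo112_16_6 (nat_lit 397)) (lo112_16_7 (nat_lit 395)))) (M (nat_lit 491) (B (M (nat_lit 462) (B (lo115_14_3 (nat_lit 463)) (lo114_14_1 (nat_lit 490)))) (M (nat_lit 523) (B (lo111_13_4 (nat_lit 556)) (lo111_17_6 (nat_lit 555))))))))))))))))) (B (M (nat_lit 397) (B (M (nat_lit 365) (B (lo113_11_5 (nat_lit 492)) (lo113_10_5 (nat_lit 333)))) (B (K _ _ _ o1_s48987) (K _ _ _ o1_s40478)))) (B (M (nat_lit 462) (B (M (nat_lit 463) (B (lo116_14_3 (nat_lit 464)) (lo115_14_3 (nat_lit 427)))) (B (M (nat_lit 427) (B (lo115_14_3 (nat_lit 463)) (lo110_13_0 (nat_lit 426)))) (B (M (nat_lit 459) (B (M (nat_lit 426) (B (lo110_13_0 (nat_lit 427)) (M (nat_lit 458) (B (lo113_14_3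 (nat_lit 425)) (lo19_14_2 (nat_lit 457)))))) (B (M (nat_lit 458) (B (lo19_14_2 (nat_lit 457)) (M (nat_lit 490) (B (lo114_14_1 (nat_lit 491)) (lo113_14_1 (nat_lit 489)))))) (M (nat_lit 427) (B (lo110_13_0 (nat_lit 426)) (M (nat_lit 524) (B (M (nat_lit 492) (B (lo112_17_6 (nat_lit 556)) (lo112_16_6 (nat_lit 397)))) (B (M (nat_lit 492) (B (lo112_17_6 (nat_lit 556)) (lo112_16_7 (nat_lit 395)))) (B (M (nat_lit 492) (B (lo112_16_6 (nat_lit 397)) (lo112_16_7 (nat_lit 395)))) (M (nat_lit 491) (B (lo114_14_1 (nat_lit 490)) (M (nat_lit 523) (B (lo111_13_4 (nat_lit 556)) (lo111_17_6 (nat_lit 555))))))))))))))) (M (nat_lit 492) (B (M (nat_lit 463) (B (lo116_14_3 (nat_lit 464)) (lo115_14_1 (nat_lit 491)))) (M (nat_lit 397) (B (lo113_11_5 (nat_lit 365)) (lo112_16_6 (nat_lit 524)))))))))) (B (M (nat_lit 397) (B (M (nat_lit 365) (B (lo113_11_5 (nat_lit 492)) (lo113_10_5 (nat_lit 333)))) (B (M (nat_lit 493) (B (M (nat_lit 524) (B (lo113_12_5 (nat_lit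 492)) (M (nat_lit 525) (B (lo113_17_7 (nat_lit 557)) (lo113_13_5 (nat_lit 556)))))) (B (M (nat_lit 525) (B (M (nat_lit 526) (B (lo113_13_4 (nat_lit 558)) (lo113_12_4 (nat_lit 494)))) (M (nat_lit 524) (B (lo113_13_5 (nat_lit 556)) (lo113_12_5 (nat_lit 492)))))) (B (M (nat_lit 492) (B (lo113_12_5 (nat_lit 524)) (M (nat_lit 494) (B (lo113_12_4 (nat_lit 526)) (M (nat_lit 495) (B (lo116_15_3 (nat_lit 496)) (lo115_15_3 (nat_lit 459)))))))) (M (nat_lit 526) (B (lo113_12_4 (nat_lit 494)) (M (nat_lit 525) (B (lo113_13_4 (nat_lit 558)) (lo113_17_7 (nat_lit 557)))))))))) (K _ _ _ o1_s49029)))) (B (M (nat_lit 492) (B (M (nat_lit 524) (B (lo112_17_6 (nat_lit 556)) (M (nat_lit 427) (B (lo112_16_7 (nat_lit 395)) (M (nat_lit 462) (B (lo115_14_3 (nat_lit 463)) (lo110_13_0 (nat_lit 426)))))))) (B (M (nat_lit 427) (B (M (nat_lit 426) (B (lo110_13_0 (nat_lit 462)) (lo19_13_0 (nat_lit 425)))) (M (nat_lit 524) (B (lo112_17_6 (nat_lit 556)) (lo112_16_7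 (nat_lit 395)))))) (B (M (nat_lit 524) (B (lo112_17_6 (nat_lit 556)) (M (nat_lit 525) (B (lo112_13_4 (nat_lit 557)) (M (nat_lit 523) (B (lo112_13_5 (nat_lit 555)) (M (nat_lit 526) (B (M (nat_lit 558) (B (lo111_16_0 (nat_lit 559)) (lo113_13_4 (nat_lit 493)))) (M (nat_lit 491) (B (lo115_16_3 (nat_lit 527)) (lo114_16_3 (nat_lit 490)))))))))))) (B (M (nat_lit 493) (B (K _ _ _ o1_s49049) (B (M (nat_lit 525) (B (lo113_17_7 (nat_lit 557)) (M (nat_lit 526) (B (lo113_13_4 (nat_lit 558)) (M (nat_lit 491) (B (lo110_15_0 (nat_lit 490)) (M (nat_lit 527) (B (lo111_15_0 (nat_lit 494)) (lo115_16_3 (nat_lit 524)))))))))) (B (M (nat_lit 524) (B (M (nat_lit 427) (B (lo112_16_7 (nat_lit 395)) (M (nat_lit 426) (B (lo110_13_0 (nat_lit 462)) (lo19_13_0 (nat_lit 425)))))) (M (nat_lit 523) (B (lo112_13_5 (nat_lit 555)) (M (nat_lit 494) (B (lo115_15_1 (nat_lit 495)) (M (nat_lit 522) (B (lo114_15_1 (nat_lit 491)) (lo19_16_2 (nat_lit 521)))))))))) (B (K _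 _ _ o1_s49062) (M (nat_lit 524) (B (M (nat_lit 427) (B (lo112_16_7 (nat_lit 395)) (M (nat_lit 426) (B (lo110_13_0 (nat_lit 462)) (lo19_13_0 (nat_lit 425)))))) (M (nat_lit 525) (B (lo113_17_7 (nat_lit 557)) (M (nat_lit 523) (B (lo112_13_5 (nat_lit 555)) (M (nat_lit 494) (B (lo115_15_1 (nat_lit 495)) (lo110_16_2 (nat_lit 522))))))))))))))) (K _ _ _ o1_s48748)))))) (B (K _ _ _ o1_s48967) (M (nat_lit 493) (B (K _ _ _ o1_s49067) (B (M (nat_lit 397) (B (M (nat_lit 492) (B (lo113_12_5 (nat_lit 524)) (lo113_11_5 (nat_lit 365)))) (B (M (nat_lit 524) (B (lo113_12_5 (nat_lit 492)) (M (nat_lit 525) (B (lo113_17_7 (nat_lit 557)) (lo113_13_5 (nat_lit 556)))))) (B (M (nat_lit 365) (B (lo113_11_5 (nat_lit 492)) (lo113_10_5 (nat_lit 333)))) (M (nat_lit 494) (B (lo113_12_4 (nat_lit 526)) (M (nat_lit 365) (B (lo113_11_4 (nat_lit 462)) (lo113_10_5 (nat_lit 333)))))))))) (B (M (nat_lit 397) (B (M (nat_lit 492) (B (lo113_12_5 (nat_lit 524)) (lo113_11_5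 (nat_lit 365)))) (B (M (nat_lit 524) (B (lo113_12_5 (nat_lit 492)) (M (nat_lit 525) (B (lo113_17_7 (nat_lit 557)) (lo113_13_5 (nat_lit 556)))))) (B (M (nat_lit 365) (B (lo113_11_5 (nat_lit 492)) (lo113_10_5 (nat_lit 333)))) (M (nat_lit 462) (B (M (nat_lit 463) (B (lo116_14_3 (nat_lit 464)) (lo115_14_3 (nat_lit 427)))) (M (nat_lit 365) (B (lo113_11_4 (nat_lit 494)) (lo113_10_5 (nat_lit 333)))))))))) (B (K _ _ _ o1_s49084) (B (K _ _ _ o1_s49092) (B (M (nat_lit 492) (B (M (nat_lit 427) (B (M (nat_lit 426) (B (lo110_13_0 (nat_lit 462)) (lo19_13_0 (nat_lit 425)))) (M (nat_lit 524) (B (lo112_17_6 (nat_lit 556)) (lo112_16_7 (nat_lit 395)))))) (B (M (nat_lit 524) (B (lo112_17_6 (nat_lit 556)) (M (nat_lit 525) (B (lo113_17_7 (nat_lit 557)) (M (nat_lit 523) (B (lo112_13_5 (nat_lit 555)) (M (nat_lit 494) (B (lo115_15_1 (nat_lit 495)) (lo110_16_2 (nat_lit 522)))))))))) (B (K _ _ _ o1_s49062) (K _ _ _ o1_s49049))))) (B (M (nat_lit 397) (B (M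 (nat_lit 365) (B (lo113_11_5 (nat_lit 492)) (lo113_10_5 (nat_lit 333)))) (M (nat_lit 526) (B (lo113_12_4 (nat_lit 494)) (M (nat_lit 525) (B (lo113_13_4 (nat_lit 558)) (lo113_17_7 (nat_lit 557)))))))) (K _ _ _ o1_s48873)))))))))))))))))) _ _ _ (by decide +kernel)
theorem o1_s49519 : Sem (nat_lit 2079502270752001762101819106285189057473747738226098435867697075795415308569326349200548723644291253248471206659952926368538296320) (nat_lit 109836762600449801634924719569010359423827520488883076388489441619894807336745713779985860641063932308185906650105259929824903330313369970017791581418275471360) (nat_lit 109836762600449801634924719569010359423827520488883076388489441619894807336745713779985860641063932308185906650105259929824903330313369970017791581418275471360) := sem_of_chk (M (nat_lit 365) (B (M (nat_lit 333) (B (lo112_14_6 (nat_lit 460)) (M (nat_lit 301) (B (lo113_8_5 (nat_lit 269)) (lo113_9_5 (nat_lit 397)))))) (B (M (nat_lit 460)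 (B (lo112_14_6 (nat_lit 333)) (M (nat_lit 363) (B (lo112_14_7 (nat_lit 331)) (M (nat_lit 492) (B (lo112_15_6 (nat_lit 397)) (lo112_15_7 (nat_lit 395)))))))) (B (M (nat_lit 461) (B (M (nat_lit 493) (B (lo113_15_7 (nat_lit 397)) (lo113_16_7 (nat_lit 525)))) (B (M (nat_lit 493) (B (lo113_16_7 (nat_lit 525)) (lo112_11_4 (nat_lit 460)))) (M (nat_lit 397) (B (M (nat_lit 366) (B (lo113_14_6 (nat_lit 334)) (M (nat_lit 367) (B (lo116_11_1 (nat_lit 368)) (lo115_11_1 (nat_lit 395)))))) (M (nat_lit 363) (B (M (nat_lit 398) (B (lo115_12_3 (nat_lit 399)) (lo110_11_0 (nat_lit 362)))) (M (nat_lit 460) (B (lo113_11_5 (nat_lit 492)) (lo112_14_7 (nat_lit 331))))))))))) (B (K _ _ _ o1_s43583) (M (nat_lit 366) (B (M (nat_lit 395) (B (lo115_11_1 (nat_lit 367)) (M (nat_lit 394) (B (lo110_12_2 (nat_lit 397)) (lo114_11_1 (nat_lit 363)))))) (B (K _ _ _ o1_s49517) (B (M (nat_lit 395) (B (lo115_11_1 (nat_lit 367)) (M (nat_lit 394) (B (lo114_11_1 (nat_lit 363))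 (lo19_12_2 (nat_lit 393)))))) (B (M (nat_lit 395) (B (lo115_11_1 (nat_lit 367)) (M (nat_lit 394) (B (lo110_12_2 (nat_lit 397)) (lo19_12_2 (nat_lit 393)))))) (K _ _ _ o1_s44259))))))))))) _ _ _ (by decide +kernel)
theorem o1_s49661 : Sem (nat_lit 2079502271074782996825105998667797622327892532968682267533339094116714610205590646408138528571163187313069251615284523616620773376) (nat_lit 12786682065071435595060349577171921833933297186490088490879773843296776007966490801022630779810127121713471279994402453964201932365621249047326097408) (nat_lit 12786682065071435595060349577171921833933297186490088490879773843296776007966490801022630779810127121713471279994402453964201932365621249047326097408) := sem_of_chk (M (nat_lit 398) (B (M (nat_lit 399) (B (lo116_12_1 (nat_lit 400)) (lo115_12_1 (nat_lit 427)))) (B (M (nat_lit 427) (B (lo115_12_1 (nat_lit 399)) (lo110_13_2 (nat_lit 426)))) (B (K _ _ _ o1_s49654) (M (nat_lit 395) (B (M (nat_lit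 394) (B (lo19_12_0 (nat_lit 393)) (M (nat_lit 362) (B (lo114_12_3 (nat_lit 363)) (lo113_12_3 (nat_lit 361)))))) (M (nat_lit 367) (B (lo111_12_2 (nat_lit 366)) (M (nat_lit 399) (B (lo112_12_2 (nat_lit 368)) (lo116_12_1 (nat_lit 400)))))))))))) _ _ _ (by decide +kernel)
theorem o1_s50181 : Sem (nat_lit 2079502270752001762101819106285189057473747738226098435867697075795415308569326349200548723644291253248471206659952926368538296320) (nat_lit 12786682065071435594453828081905774817630612033982298858353376182963723892663860978545041488666148899573106439382736717591690849574932906661967298560) (nat_lit 12786682065071435594453828081905774817630612033982298858353376182963723892663860978545041488666148899573106439382736717591690849574932906661967298560) := sem_of_chk (M (nat_lit 365) (B (M (nat_lit 333) (B (lo112_14_6 (nat_lit 460)) (M (nat_lit 301) (B (lo113_8_5 (nat_lit 269)) (lo112_13_6 (nat_lit 332)))))) (B (M (nat_lit 333) (B (lo112_14_6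 (nat_lit 460)) (M (nat_lit 301) (B (lo113_9_5 (nat_lit 397)) (lo112_13_6 (nat_lit 332)))))) (B (M (nat_lit 460) (B (lo112_14_6 (nat_lit 333)) (M (nat_lit 363) (B (lo112_14_7 (nat_lit 331)) (M (nat_lit 492) (B (lo112_15_6 (nat_lit 397)) (lo112_15_7 (nat_lit 395)))))))) (B (M (nat_lit 363) (B (M (nat_lit 460) (B (lo112_14_7 (nat_lit 331)) (M (nat_lit 492) (B (lo112_15_6 (nat_lit 397)) (lo112_15_7 (nat_lit 395)))))) (B (M (nat_lit 331) (B (lo112_14_7 (nat_lit 460)) (M (nat_lit 299) (B (lo112_13_7 (nat_lit 332)) (lo111_8_4 (nat_lit 267)))))) (K _ _ _ o1_s50172)))) (M (nat_lit 366) (B (M (nat_lit 395) (B (lo115_11_1 (nat_lit 367)) (M (nat_lit 394) (B (lo110_12_2 (nat_lit 397)) (lo114_11_1 (nat_lit 363)))))) (B (M (nat_lit 363) (B (M (nat_lit 395) (B (lo114_11_1 (nat_lit 394)) (M (nat_lit 331) (B (lo114_11_3 (nat_lit 330)) (lo111_9_4 (nat_lit 299)))))) (M (nat_lit 333) (B (M (nat_lit 334) (B (lo111_11_2 (nat_lit 335)) (lo110_11_2 (nat_lit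 362)))) (M (nat_lit 301) (B (lo113_9_5 (nat_lit 397)) (lo112_13_6 (nat_lit 332)))))))) (B (M (nat_lit 395) (B (lo115_11_1 (nat_lit 367)) (M (nat_lit 394) (B (lo114_11_1 (nat_lit 363)) (lo19_12_2 (nat_lit 393)))))) (B (M (nat_lit 395) (B (lo115_11_1 (nat_lit 367)) (M (nat_lit 394) (B (lo110_12_2 (nat_lit 397)) (lo19_12_2 (nat_lit 393)))))) (M (nat_lit 363) (B (M (nat_lit 331) (B (lo114_11_3 (nat_lit 330)) (M (nat_lit 332) (B (lo115_11_3 (nat_lit 367)) (lo112_13_7 (nat_lit 299)))))) (B (M (nat_lit 333) (B (M (nat_lit 334) (B (lo111_11_2 (nat_lit 335)) (lo110_11_2 (nat_lit 362)))) (M (nat_lit 301) (B (lo113_9_5 (nat_lit 397)) (lo112_13_6 (nat_lit 332)))))) (M (nat_lit 362) (B (M (nat_lit 334) (B (lo111_11_2 (nat_lit 335)) (lo110_11_2 (nat_lit 333)))) (M (nat_lit 398) (B (lo111_11_0 (nat_lit 399)) (lo110_11_0 (nat_lit 397))))))))))))))))))) _ _ _ (by decide +kernel)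
theorem o1_s50318 : Sem (nat_lit 2079502271074782996937836042640941617266587601614570444847371856464313963999540613041684561776664392599326803537753421362153652224) (nat_lit 346583716364734453869937286523442807686813326370078599212897910594856428166165697025412064360015422544708522386153554271608504320) (nat_lit 346583716364734453869937286523442807686813326370078599212897910594856428166165697025412064360015422544708522386153554271608504320) := sem_of_chk (M (nat_lit 398) (B (M (nat_lit 399) (B (lo116_12_3 (nat_lit 400)) (lo115_12_3 (nat_lit 363)))) (B (M (nat_lit 363) (B (lo115_12_3 (nat_lit 399)) (lo110_11_0 (nat_lit 362)))) (B (K _ _ _ o1_s50316) (M (nat_lit 399) (B (lo116_12_3 (nat_lit 400)) (lo115_12_1 (nat_lit 427)))))))) _ _ _ (by decide +kernel)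
theorem o1_s50499 : Sem (nat_lit 2079502271074782996825105998667797622327892532968682267533339094116714610205590646408138528571163187313069251615284523616620773376) (nat_lit 384428669056820918565937647863236740185874082814508934487684639436671023912706597341957323043788645084402819135431631299066859535631270936640246455454710890496) (nat_lit 384428669056820918565937647863236740185874082814508934487684639436671023912706597341957323043788645084402819135431631299066859535631270936640246455454710890496) := sem_of_chk (M (nat_lit 365) (B (M (nat_lit 333) (B (lo113_9_5 (nat_lit 301)) (lo113_10_5 (nat_lit 460)))) (B (M (nat_lit 460) (B (lo113_10_5 (nat_lit 333)) (lo112_15_6 (nat_lit 492)))) (B (M (nat_lit 461) (B (M (nat_lit 493) (B (lo113_16_7 (nat_lit 525)) (M (nat_lit 494) (B (lo113_11_4 (nat_lit 462)) (lo113_12_4 (nat_lit 526)))))) (B (M (nat_lit 492) (B (lo113_11_5 (nat_lit 460)) (M (nat_lit 493) (B (lo113_12_5 (nat_lit 524)) (lo113_16_7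 (nat_lit 525)))))) (M (nat_lit 460) (B (lo113_11_5 (nat_lit 492)) (M (nat_lit 462) (B (lo113_11_4 (nat_lit 494)) (M (nat_lit 463) (B (lo116_14_3 (nat_lit 464)) (lo115_14_3 (nat_lit 427))))))))))) (K _ _ _ o1_s50412))))) _ _ _ (by decide +kernel)
theorem o1_s50638 : Sem (nat_lit 2079502270752001762064242424960807725827516048677469043429686155012882190638009693656033379242457518153052022685796627120027336704) (nat_lit 329510287762989358711048417630593767302886810161517806567076410132376196048612325893277703426428546724588024468596381025619039754406129203130505612487464845312) (nat_lit 329510287762989358711048417630593767302886810161517806567076410132376196048612325893277703426428546724588024468596381025619039754406129203130505612487464845312) := sem_of_chk (M (nat_lit 397) (B (M (nat_lit 398) (B (M (nat_lit 399) (B (lo116_12_1 (nat_lit 400)) (lo115_12_1 (nat_lit 427)))) (B (M (nat_lit 427) (B (lo115_12_1 (nat_lit 399)) (lo110_13_2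 (nat_lit 426)))) (B (M (nat_lit 395) (B (M (nat_lit 426) (B (lo110_13_2 (nat_lit 427)) (M (nat_lit 394) (B (lo113_12_1 (nat_lit 425)) (lo19_12_0 (nat_lit 393)))))) (B (M (nat_lit 366) (B (lo111_12_2 (nat_lit 367)) (M (nat_lit 394) (B (lo110_12_2 (nat_lit 365)) (lo19_12_0 (nat_lit 393)))))) (M (nat_lit 366) (B (lo111_12_2 (nat_lit 367)) (M (nat_lit 461) (B (lo113_15_6 (nat_lit 493)) (M (nat_lit 334) (B (lo114_9_5 (nat_lit 302)) (lo113_14_6 (nat_lit 365))))))))))) (M (nat_lit 364) (B (M (nat_lit 399) (B (lo116_12_1 (nat_lit 400)) (lo115_12_3 (nat_lit 363)))) (M (nat_lit 461) (B (lo113_15_7 (nat_lit 493)) (lo112_10_4 (nat_lit 332)))))))))) (B (M (nat_lit 461) (B (M (nat_lit 493) (B (lo113_15_7 (nat_lit 364)) (lo113_16_7 (nat_lit 525)))) (B (K _ _ _ o1_s50525) (M (nat_lit 398) (B (M (nat_lit 493) (B (lo113_15_6 (nat_lit 366)) (lo113_16_7 (nat_lit 525)))) (M (nat_lit 427) (B (lo115_12_1 (nat_lit 399)) (lo110_13_2 (nat_lit 426)))))))))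 (B (M (nat_lit 427) (B (M (nat_lit 398) (B (lo115_12_1 (nat_lit 399)) (lo110_13_2 (nat_lit 426)))) (B (M (nat_lit 426) (B (lo110_13_2 (nat_lit 398)) (lo19_13_2 (nat_lit 425)))) (B (M (nat_lit 461) (B (M (nat_lit 426) (B (lo110_13_0 (nat_lit 462)) (lo19_13_2 (nat_lit 425)))) (M (nat_lit 493) (B (lo113_15_7 (nat_lit 364)) (lo113_16_7 (nat_lit 525)))))) (M (nat_lit 395) (B (M (nat_lit 394) (B (lo19_12_0 (nat_lit 393)) (M (nat_lit 398) (B (lo115_12_1 (nat_lit 399)) (M (nat_lit 362) (B (lo114_12_3 (nat_lit 363)) (lo113_12_3 (nat_lit 361)))))))) (B (M (nat_lit 332) (B (M (nat_lit 364) (B (lo112_9_4 (nat_lit 300)) (lo112_10_4 (nat_lit 461)))) (B (M (nat_lit 364) (B (lo112_9_4 (nat_lit 300)) (lo112_10_5 (nat_lit 459)))) (B (M (nat_lit 364) (B (lo112_10_4 (nat_lit 461)) (lo112_10_5 (nat_lit 459)))) (M (nat_lit 365) (B (M (nat_lit 394) (B (lo110_12_2 (nat_lit 366)) (lo19_12_0 (nat_lit 393)))) (M (nat_lit 333) (B (lo113_9_5 (nat_lit 301))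 (lo113_13_7 (nat_lit 300)))))))))) (M (nat_lit 332) (B (M (nat_lit 364) (B (lo112_9_4 (nat_lit 300)) (lo112_10_4 (nat_lit 461)))) (B (M (nat_lit 364) (B (lo112_9_4 (nat_lit 300)) (lo112_10_5 (nat_lit 459)))) (B (M (nat_lit 364) (B (lo112_10_4 (nat_lit 461)) (lo112_10_5 (nat_lit 459)))) (M (nat_lit 363) (B (M (nat_lit 398) (B (lo115_12_1 (nat_lit 399)) (lo114_12_3 (nat_lit 362)))) (M (nat_lit 331) (B (lo111_13_6 (nat_lit 300)) (lo111_9_4 (nat_lit 299))))))))))))))))) (B (M (nat_lit 461) (B (M (nat_lit 493) (B (lo113_15_7 (nat_lit 364)) (lo113_16_7 (nat_lit 525)))) (B (K _ _ _ o1_s50525) (K _ _ _ o1_s46370)))) (B (M (nat_lit 398) (B (M (nat_lit 399) (B (lo116_12_1 (nat_lit 400)) (lo115_12_1 (nat_lit 427)))) (B (M (nat_lit 427) (B (lo115_12_1 (nat_lit 399)) (lo110_13_2 (nat_lit 426)))) (B (M (nat_lit 395) (B (M (nat_lit 426) (B (lo110_13_2 (nat_lit 427)) (M (nat_lit 394) (B (lo113_12_1 (nat_lit 425)) (lo19_12_0 (nat_lit 393)))))) (B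 (M (nat_lit 394) (B (lo19_12_0 (nat_lit 393)) (M (nat_lit 362) (B (lo114_12_3 (nat_lit 363)) (lo113_12_3 (nat_lit 361)))))) (M (nat_lit 427) (B (lo110_13_2 (nat_lit 426)) (M (nat_lit 332) (B (M (nat_lit 364) (B (lo112_9_4 (nat_lit 300)) (lo112_10_4 (nat_lit 461)))) (B (M (nat_lit 364) (B (lo112_9_4 (nat_lit 300)) (lo112_10_5 (nat_lit 459)))) (B (M (nat_lit 364) (B (lo112_10_4 (nat_lit 461)) (lo112_10_5 (nat_lit 459)))) (M (nat_lit 363) (B (lo114_12_3 (nat_lit 362)) (M (nat_lit 331) (B (lo111_13_6 (nat_lit 300)) (lo111_9_4 (nat_lit 299))))))))))))))) (M (nat_lit 364) (B (M (nat_lit 399) (B (lo116_12_1 (nat_lit 400)) (lo115_12_3 (nat_lit 363)))) (M (nat_lit 461) (B (lo113_15_7 (nat_lit 493)) (lo112_10_4 (nat_lit 332)))))))))) (B (M (nat_lit 461) (B (M (nat_lit 493) (B (lo113_15_7 (nat_lit 364)) (lo113_16_7 (nat_lit 525)))) (B (M (nat_lit 365) (B (M (nat_lit 332) (B (lo113_14_7 (nat_lit 364)) (M (nat_lit 333) (B (lo113_9_5 (nat_lit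 301)) (lo113_13_7 (nat_lit 300)))))) (B (M (nat_lit 333) (B (M (nat_lit 334) (B (lo113_13_6 (nat_lit 302)) (lo113_14_6 (nat_lit 366)))) (M (nat_lit 332) (B (lo113_13_7 (nat_lit 300)) (lo113_14_7 (nat_lit 364)))))) (B (M (nat_lit 364) (B (lo113_14_7 (nat_lit 332)) (M (nat_lit 366) (B (lo113_14_6 (nat_lit 334)) (M (nat_lit 367) (B (lo116_11_1 (nat_lit 368)) (lo115_11_1 (nat_lit 395)))))))) (M (nat_lit 334) (B (lo113_14_6 (nat_lit 366)) (M (nat_lit 333) (B (lo113_13_6 (nat_lit 302)) (lo113_9_5 (nat_lit 301)))))))))) (K _ _ _ o1_s50566)))) (B (M (nat_lit 364) (B (M (nat_lit 332) (B (lo112_9_4 (nat_lit 300)) (M (nat_lit 427) (B (lo112_10_5 (nat_lit 459)) (M (nat_lit 398) (B (lo115_12_1 (nat_lit 399)) (lo110_13_2 (nat_lit 426)))))))) (B (M (nat_lit 427) (B (M (nat_lit 426) (B (lo110_13_2 (nat_lit 398)) (lo19_13_2 (nat_lit 425)))) (M (nat_lit 332) (B (lo112_9_4 (nat_lit 300)) (lo112_10_5 (nat_lit 459)))))) (B (M (nat_lit 332) (B (lo112_9_4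 (nat_lit 300)) (M (nat_lit 333) (B (lo112_13_6 (nat_lit 301)) (M (nat_lit 331) (B (lo112_13_7 (nat_lit 299)) (M (nat_lit 334) (B (M (nat_lit 302) (B (lo111_10_2 (nat_lit 303)) (lo113_13_6 (nat_lit 365)))) (M (nat_lit 363) (B (lo115_10_1 (nat_lit 335)) (lo114_10_1 (nat_lit 362)))))))))))) (B (M (nat_lit 365) (B (K _ _ _ o1_s50586) (B (M (nat_lit 333) (B (lo113_9_5 (nat_lit 301)) (M (nat_lit 334) (B (lo113_13_6 (nat_lit 302)) (M (nat_lit 363) (B (lo110_11_2 (nat_lit 362)) (M (nat_lit 335) (B (lo111_11_2 (nat_lit 366)) (lo115_10_1 (nat_lit 332)))))))))) (B (M (nat_lit 332) (B (M (nat_lit 427) (B (lo112_10_5 (nat_lit 459)) (M (nat_lit 426) (B (lo110_13_2 (nat_lit 398)) (lo19_13_2 (nat_lit 425)))))) (M (nat_lit 331) (B (lo112_13_7 (nat_lit 299)) (M (nat_lit 366) (B (lo115_11_3 (nat_lit 367)) (M (nat_lit 330) (B (lo114_11_3 (nat_lit 363)) (lo19_10_0 (nat_lit 329)))))))))) (B (K _ _ _ o1_s50599) (M (nat_lit 332) (B (M (nat_lit 427) (B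 (lo112_10_5 (nat_lit 459)) (M (nat_lit 426) (B (lo110_13_2 (nat_lit 398)) (lo19_13_2 (nat_lit 425)))))) (M (nat_lit 333) (B (lo113_9_5 (nat_lit 301)) (M (nat_lit 331) (B (lo112_13_7 (nat_lit 299)) (M (nat_lit 366) (B (lo115_11_3 (nat_lit 367)) (lo110_10_0 (nat_lit 330))))))))))))))) (K _ _ _ o1_s50289)))))) (B (K _ _ _ o1_s50505) (M (nat_lit 365) (B (K _ _ _ o1_s50604) (B (M (nat_lit 461) (B (M (nat_lit 364) (B (lo113_14_7 (nat_lit 332)) (lo113_15_7 (nat_lit 493)))) (B (M (nat_lit 332) (B (lo113_14_7 (nat_lit 364)) (M (nat_lit 333) (B (lo113_9_5 (nat_lit 301)) (lo113_13_7 (nat_lit 300)))))) (B (M (nat_lit 493) (B (lo113_15_7 (nat_lit 364)) (lo113_16_7 (nat_lit 525)))) (M (nat_lit 366) (B (lo113_14_6 (nat_lit 334)) (M (nat_lit 493) (B (lo113_15_6 (nat_lit 398)) (lo113_16_7 (nat_lit 525)))))))))) (B (M (nat_lit 461) (B (M (nat_lit 364) (B (lo113_14_7 (nat_lit 332)) (lo113_15_7 (nat_lit 493)))) (B (M (nat_lit 332) (B (lo113_14_7 (nat_lit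 364)) (M (nat_lit 333) (B (lo113_9_5 (nat_lit 301)) (lo113_13_7 (nat_lit 300)))))) (B (M (nat_lit 493) (B (lo113_15_7 (nat_lit 364)) (lo113_16_7 (nat_lit 525)))) (M (nat_lit 398) (B (M (nat_lit 399) (B (lo116_12_1 (nat_lit 400)) (lo115_12_1 (nat_lit 427)))) (M (nat_lit 493) (B (lo113_15_6 (nat_lit 366)) (lo113_16_7 (nat_lit 525)))))))))) (B (K _ _ _ o1_s50621) (B (K _ _ _ o1_s50631) (B (M (nat_lit 364) (B (M (nat_lit 427) (B (M (nat_lit 426) (B (lo110_13_2 (nat_lit 398)) (lo19_13_2 (nat_lit 425)))) (M (nat_lit 332) (B (lo112_9_4 (nat_lit 300)) (lo112_10_5 (nat_lit 459)))))) (B (M (nat_lit 332) (B (lo112_9_4 (nat_lit 300)) (M (nat_lit 333) (B (lo113_9_5 (nat_lit 301)) (M (nat_lit 331) (B (lo112_13_7 (nat_lit 299)) (M (nat_lit 366) (B (lo115_11_3 (nat_lit 367)) (lo110_10_0 (nat_lit 330)))))))))) (B (K _ _ _ o1_s50599) (K _ _ _ o1_s50586))))) (B (M (nat_lit 461) (B (M (nat_lit 493) (B (lo113_15_7 (nat_lit 364)) (lo113_16_7 (nat_lit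 525)))) (M (nat_lit 334) (B (lo113_14_6 (nat_lit 366)) (M (nat_lit 333) (B (lo113_13_6 (nat_lit 302)) (lo113_9_5 (nat_lit 301)))))))) (K _ _ _ o1_s50412)))))))))))))))))) _ _ _ (by decide +kernel)
theorem o1_s51307 : Sem (nat_lit 12786682065071435596533330347836231884900198776882539521372065972361582153531171128690050092513941827626312628316975168612081810348663120253694246912) (nat_lit 943490606425058863374770051892059755403119057591764861273558996366485782735704319315268936671099978810338298639278643559730391918677120943773003622553227468706446049280) (nat_lit 943490606425058863374770051892059755403119057591764861273558996366485782735704319315268936671099978810338298639278643559730391918677120943773003622553227468706446049280) := sem_of_chk (M (nat_lit 461) (B (lo113_11_5 (nat_lit 365)) (M (nat_lit 462) (B (M (nat_lit 463) (B (lo115_14_1 (nat_lit 491)) (lo115_14_3 (nat_lit 427)))) (B (M (nat_lit 463) (B (lo115_14_3 (nat_lit 427))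 (lo116_14_3 (nat_lit 464)))) (B (M (nat_lit 463) (B (lo115_14_1 (nat_lit 491)) (lo116_14_3 (nat_lit 464)))) (K _ _ _ o1_s51186))))))) _ _ _ (by decide +kernel)
theorem o1_s51328 : Sem (nat_lit 19180023093141456271688035650601215544583629413494390476706176408615753006738326125032042887860104364462010044052379809222684385259343852041874178048) (nat_lit 137295953282528957278529925254404852547277655365406012506506385611948860390639667414977993540330352673597724479864795879306437109916499139607564428831021334528) (nat_lit 137295953282528957278529925254404852547277655365406012506506385611948860390639667414977993540330352673597724479864795879306437109916499139607564428831021334528) := sem_of_chk (M (nat_lit 461) (B (M (nat_lit 493) (B (lo113_16_7 (nat_lit 525)) (M (nat_lit 364) (B (lo112_10_4 (nat_lit 332)) (lo113_15_7 (nat_lit 397)))))) (B (M (nat_lit 493) (B (lo113_16_7 (nat_lit 525)) (M (nat_lit 462) (B (lo110_15_2 (nat_lit 490)) (M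 (nat_lit 463) (B (lo111_15_2 (nat_lit 494)) (lo116_14_1 (nat_lit 464)))))))) (B (M (nat_lit 493) (B (M (nat_lit 364) (B (lo112_10_4 (nat_lit 332)) (lo113_15_7 (nat_lit 397)))) (M (nat_lit 462) (B (lo110_15_2 (nat_lit 490)) (M (nat_lit 463) (B (lo111_15_2 (nat_lit 494)) (lo116_14_1 (nat_lit 464)))))))) (K _ _ _ o1_s51327))))) _ _ _ (by decide +kernel)
theorem o1_s52224 : Sem (nat_lit 19180023093141456272034619362204926784650499399658780991385542800892123466582809603056954341552017090965954270151044421904849672164775350272199229440) (nat_lit 41188785963980328810624960815347316914577612402851610122566618013979286223915731513487178611544854216100253744700010362553139253760589270256808097737613508608) (nat_lit 41188785963980328810624960815347316914577612402851610122566618013979286223915731513487178611544854216100253744700010362553139253760589270256808097737613508608) := sem_of_chk (M (nat_lit 459) (B (M (nat_lit 396) (B (lo111_16_6 (nat_lit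 523)) (M (nat_lit 364) (B (lo111_15_6 (nat_lit 395)) (lo112_10_5 (nat_lit 332)))))) (B (K _ _ _ o1_s52222) (B (M (nat_lit 396) (B (lo111_16_6 (nat_lit 523)) (M (nat_lit 364) (B (lo112_11_5 (nat_lit 460)) (lo112_10_5 (nat_lit 332)))))) (K _ _ _ o1_s52223))))) _ _ _ (by decide +kernel)
theorem o1_s52468 : Sem (nat_lit 12786682068048567011594719882968582824695903548905950101176498897405329857167726661275523230366142621477779844288170235213504747605108398506528210944) (nat_lit 5065326623820289418802944641080942089265032722477007580048178930642737405659467687961756762733082524007336803573922771835036870985025194249952937422150064074737621202908638871552) (nat_lit 5065326623820289418802944641080942089265032722477007580048178930642737405659467687961756762733082524007336803573922771835036870985025194249952937422150064074737621202908638871552) := sem_of_chk (M (nat_lit 493) (B (M (nat_lit 396) (B (lo113_16_7 (nat_lit 525)) (M (nat_lit 364)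 (B (lo112_10_4 (nat_lit 332)) (lo113_15_7 (nat_lit 397)))))) (B (M (nat_lit 524) (B (lo113_12_5 (nat_lit 397)) (M (nat_lit 556) (B (lo112_18_6 (nat_lit 588)) (lo113_13_5 (nat_lit 525)))))) (B (M (nat_lit 397) (B (lo113_12_5 (nat_lit 524)) (M (nat_lit 396) (B (lo113_15_7 (nat_lit 364)) (M (nat_lit 398) (B (lo115_12_1 (nat_lit 399)) (lo113_15_6 (nat_lit 366)))))))) (K _ _ _ o1_s52467))))) _ _ _ (by decide +kernel)
theorem o1_s52499 : Sem (nat_lit 12786682068048567011594719882968582824695903548905950101176498897405329857167726661275523230366142621477779844288170235213504747605108398506528210944) (nat_lit 5065326623820289418802944641141678829143340346942955790667978705451651317623037144842211505668849163517567381464820337034058998804877885379529517307220428229010067372222888017920) (nat_lit 5065326623820289418802944641141678829143340346942955790667978705451651317623037144842211505668849163517567381464820337034058998804877885379529517307220428229010067372222888017920)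 := sem_of_chk (M (nat_lit 493) (B (M (nat_lit 462) (B (lo110_13_0 (nat_lit 426)) (M (nat_lit 463) (B (lo116_14_1 (nat_lit 464)) (M (nat_lit 491) (B (lo110_15_2 (nat_lit 490)) (lo111_15_2 (nat_lit 494)))))))) (K _ _ _ o1_s52467))) _ _ _ (by decide +kernel)
theorem o1_s52690 : Sem (nat_lit 38360046186282912541643152742054140567169886388192363742264203160830407429891449573076115038774111761771930934960966712974482034738322575194046070784) (nat_lit 1013065324669708824813688064109506060657432614110086084284941386950720563748506777191733756972242722989957536349491799843755704711073893326219128814639400136478668800577882816512) (nat_lit 1013065324669708824813688064109506060657432614110086084284941386950720563748506777191733756972242722989957536349491799843755704711073893326219128814639400136478668800577882816512) := sem_of_chk (M (nat_lit 491) (B (K _ _ _ o1_s52615) (B (M (nat_lit 524) (B (M (nat_lit 461) (B (lo113_12_5 (nat_lit 397))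 (M (nat_lit 556) (B (lo112_18_6 (nat_lit 588)) (lo113_13_5 (nat_lit 525)))))) (M (nat_lit 494) (B (M (nat_lit 459) (B (lo114_15_3 (nat_lit 458)) (lo111_12_4 (nat_lit 395)))) (M (nat_lit 523) (B (lo114_15_1 (nat_lit 522)) (lo115_15_1 (nat_lit 495)))))))) (B (M (nat_lit 494) (B (M (nat_lit 461) (B (M (nat_lit 462) (B (lo110_15_2 (nat_lit 490)) (lo111_15_2 (nat_lit 463)))) (M (nat_lit 397) (B (lo113_12_5 (nat_lit 524)) (lo113_12_4 (nat_lit 526)))))) (B (M (nat_lit 524) (B (M (nat_lit 523) (B (lo114_15_1 (nat_lit 522)) (lo115_15_1 (nat_lit 495)))) (M (nat_lit 459) (B (lo114_15_3 (nat_lit 458)) (lo111_12_4 (nat_lit 395)))))) (M (nat_lit 490) (B (M (nat_lit 522) (B (lo113_15_1 (nat_lit 521)) (lo114_15_1 (nat_lit 523)))) (M (nat_lit 458) (B (lo113_15_3 (nat_lit 457)) (lo114_15_3 (nat_lit 459))))))))) (B (M (nat_lit 494) (B (M (nat_lit 490) (B (M (nat_lit 522) (B (lo113_15_1 (nat_lit 521)) (lo114_15_1 (nat_lit 523)))) (M (nat_lit 458) (B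 (lo113_15_3 (nat_lit 457)) (lo114_15_3 (nat_lit 459)))))) (M (nat_lit 495) (B (M (nat_lit 527) (B (lo111_15_0 (nat_lit 526)) (lo112_15_0 (nat_lit 528)))) (M (nat_lit 463) (B (lo111_15_2 (nat_lit 462)) (lo112_15_2 (nat_lit 464)))))))) (M (nat_lit 524) (B (M (nat_lit 461) (B (lo113_12_5 (nat_lit 397)) (M (nat_lit 556) (B (lo112_18_6 (nat_lit 588)) (lo113_13_5 (nat_lit 525)))))) (B (M (nat_lit 525) (B (M (nat_lit 490) (B (lo19_15_0 (nat_lit 489)) (lo110_15_0 (nat_lit 526)))) (M (nat_lit 461) (B (lo113_13_5 (nat_lit 556)) (lo113_12_5 (nat_lit 397)))))) (B (M (nat_lit 490) (B (M (nat_lit 525) (B (lo19_15_0 (nat_lit 489)) (lo110_15_0 (nat_lit 526)))) (M (nat_lit 461) (B (lo110_15_2 (nat_lit 462)) (lo113_12_5 (nat_lit 397)))))) (M (nat_lit 459) (B (lo111_12_4 (nat_lit 395)) (M (nat_lit 556) (B (lo111_13_4 (nat_lit 523)) (lo112_18_7 (nat_lit 588))))))))))))))) _ _ _ (by decide +kernel)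
theorem o1_s53537 : Sem (nat_lit 12786682065071435596533330347513450650139335203175549624871689488070368929427518189586217672946360874874207478988269499452064581419175223757100810240) (nat_lit 353808977409397073703803070185922678677168501013459820870657095292587756632210843018579820537626916283885691562236639146459047396555165948466038574891495548052496711680) (nat_lit 353808977409397073703803070185922678677168501013459820870657095292587756632210843018579820537626916283885691562236639146459047396555165948466038574891495548052496711680) := sem_of_chk (M (nat_lit 461) (B (M (nat_lit 524) (B (lo112_17_6 (nat_lit 556)) (M (nat_lit 427) (B (lo112_16_7 (nat_lit 395)) (M (nat_lit 426) (B (lo19_13_0 (nat_lit 425)) (lo110_13_0 (nat_lit 462)))))))) (B (M (nat_lit 427) (B (M (nat_lit 524) (B (lo112_16_7 (nat_lit 395)) (lo112_17_6 (nat_lit 556)))) (M (nat_lit 462) (B (lo110_13_0 (nat_lit 426)) (lo115_14_3 (nat_lit 463)))))) (B (M (nat_lit 396)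 (B (M (nat_lit 364) (B (lo112_10_4 (nat_lit 332)) (M (nat_lit 363) (B (lo112_15_7 (nat_lit 395)) (lo112_14_7 (nat_lit 331)))))) (B (M (nat_lit 364) (B (lo112_10_4 (nat_lit 332)) (M (nat_lit 491) (B (lo112_12_5 (nat_lit 523)) (lo112_11_5 (nat_lit 459)))))) (M (nat_lit 524) (B (lo112_17_6 (nat_lit 556)) (M (nat_lit 395) (B (lo112_16_7 (nat_lit 427)) (lo112_15_7 (nat_lit 363))))))))) (B (M (nat_lit 396) (B (M (nat_lit 491) (B (lo112_12_5 (nat_lit 523)) (M (nat_lit 364) (B (lo112_11_5 (nat_lit 459)) (lo112_10_4 (nat_lit 332)))))) (B (M (nat_lit 364) (B (lo112_10_4 (nat_lit 332)) (M (nat_lit 363) (B (lo112_15_7 (nat_lit 395)) (lo112_14_7 (nat_lit 331)))))) (M (nat_lit 523) (B (lo112_12_5 (nat_lit 491)) (M (nat_lit 524) (B (lo112_13_5 (nat_lit 555)) (lo112_17_6 (nat_lit 556))))))))) (M (nat_lit 462) (B (M (nat_lit 427) (B (lo110_13_0 (nat_lit 426)) (lo115_14_3 (nat_lit 463)))) (B (M (nat_lit 463) (B (lo115_14_1 (nat_lit 491)) (lo115_14_3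 (nat_lit 427)))) (B (M (nat_lit 463) (B (lo115_14_1 (nat_lit 491)) (lo116_14_3 (nat_lit 464)))) (K _ _ _ o1_s39071)))))))))) _ _ _ (by decide +kernel)
theorem o1_s53889 : Sem (nat_lit 2079502270590611144796540682080456772516022875177750608691892447808565334648169183913526837783605888859300960143521576617263497216) (nat_lit 4837838549344789107877961035513597301375222437702828366301719012175850711039367424421255086160562356171636955285751606445866194172416884736) (nat_lit 4837838549344789107877961035513597301375222437702828366301719012175850711039367424421255086160562356171636955285751606445866194172416884736) := sem_of_chk (M (nat_lit 363) (B (M (nat_lit 362) (B (M (nat_lit 330) (B (M (nat_lit 298) (B (M (nat_lit 299) (B (M (nat_lit 331) (B (M (nat_lit 297) (B (M (nat_lit 296) (B (M (nat_lit 327) (B (lo111_9_1 (nat_lit 328)) (M (nat_lit 295) (B (lo110_9_1 (nat_lit 326)) (lo17_9_0 (nat_lit 331)))))) (B (M (nat_lit 295) (B (lo17_9_0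 (nat_lit 331)) (M (nat_lit 263) (B (lo110_9_3 (nat_lit 262)) (lo111_9_3 (nat_lit 264)))))) (M (nat_lit 264) (B (lo111_9_3 (nat_lit 263)) (M (nat_lit 265) (B (lo112_9_3 (nat_lit 300)) (M (nat_lit 328) (B (lo111_9_1 (nat_lit 327)) (M (nat_lit 360) (B (lo18_12_6 (nat_lit 392)) (lo18_11_6 (nat_lit 233))))))))))))) (M (nat_lit 333) (B (lo113_10_3 (nat_lit 332)) (lo110_11_2 (nat_lit 334)))))) (B (M (nat_lit 297) (B (M (nat_lit 267) (B (M (nat_lit 235) (B (lo111_6_5 (nat_lit 203)) (lo111_7_5 (nat_lit 362)))) (M (nat_lit 296) (B (lo18_9_2 (nat_lit 268)) (lo17_9_0 (nat_lit 295)))))) (M (nat_lit 333) (B (lo113_10_3 (nat_lit 332)) (lo110_11_2 (nat_lit 334)))))) (M (nat_lit 268) (B (M (nat_lit 267) (B (lo111_7_5 (nat_lit 235)) (lo111_11_6 (nat_lit 236)))) (M (nat_lit 395) (B (lo111_13_7 (nat_lit 427)) (lo111_12_6 (nat_lit 300))))))))) (B (M (nat_lit 333) (B (lo110_11_2 (nat_lit 334)) (M (nat_lit 297) (B (M (nat_lit 394) (B (lo113_11_1 (nat_lit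 393)) (lo110_12_7 (nat_lit 265)))) (M (nat_lit 332) (B (lo113_10_3 (nat_lit 331)) (lo19_9_0 (nat_lit 300)))))))) (M (nat_lit 394) (B (lo113_11_1 (nat_lit 393)) (lo110_12_6 (nat_lit 267))))))) (B (M (nat_lit 267) (B (M (nat_lit 235) (B (lo110_11_6 (nat_lit 266)) (M (nat_lit 299) (B (lo111_7_5 (nat_lit 331)) (lo110_12_6 (nat_lit 394)))))) (B (M (nat_lit 297) (B (M (nat_lit 394) (B (lo110_12_6 (nat_lit 299)) (lo110_12_7 (nat_lit 265)))) (B (M (nat_lit 265) (B (lo110_12_7 (nat_lit 394)) (M (nat_lit 233) (B (lo110_11_7 (nat_lit 266)) (lo19_6_4 (nat_lit 201)))))) (B (M (nat_lit 296) (B (M (nat_lit 295) (B (lo17_9_2 (nat_lit 266)) (lo17_9_0 (nat_lit 331)))) (B (M (nat_lit 268) (B (lo18_9_2 (nat_lit 299)) (M (nat_lit 266) (B (lo113_8_1 (nat_lit 269)) (lo17_9_2 (nat_lit 295)))))) (B (M (nat_lit 299) (B (lo18_9_2 (nat_lit 268)) (M (nat_lit 331) (B (lo18_9_0 (nat_lit 332)) (lo17_9_0 (nat_lit 295)))))) (M (nat_lit 268) (B (lo18_9_2 (nat_lit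 299)) (M (nat_lit 266) (B (lo113_8_1 (nat_lit 269)) (lo112_8_1 (nat_lit 265)))))))))) (M (nat_lit 296) (B (M (nat_lit 299) (B (lo18_9_2 (nat_lit 268)) (lo110_12_6 (nat_lit 394)))) (M (nat_lit 295) (B (lo17_9_2 (nat_lit 266)) (lo17_9_0 (nat_lit 331)))))))))) (B (M (nat_lit 266) (B (lo110_11_6 (nat_lit 235)) (M (nat_lit 265) (B (lo110_11_7 (nat_lit 233)) (M (nat_lit 297) (B (lo110_12_7 (nat_lit 394)) (M (nat_lit 296) (B (lo112_8_1 (nat_lit 268)) (lo17_9_2 (nat_lit 295)))))))))) (B (M (nat_lit 299) (B (lo110_12_6 (nat_lit 394)) (M (nat_lit 235) (B (lo111_6_5 (nat_lit 203)) (lo111_7_5 (nat_lit 331)))))) (M (nat_lit 235) (B (lo110_11_6 (nat_lit 266)) (M (nat_lit 299) (B (lo111_6_5 (nat_lit 203)) (lo111_7_5 (nat_lit 331))))))))))) (B (M (nat_lit 266) (B (M (nat_lit 265) (B (lo110_11_7 (nat_lit 233)) (M (nat_lit 394) (B (lo110_12_7 (nat_lit 297)) (M (nat_lit 267) (B (lo110_11_6 (nat_lit 235)) (lo110_12_6 (nat_lit 299)))))))) (B (M (nat_lit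 394) (B (M (nat_lit 265) (B (lo110_11_7 (nat_lit 233)) (lo110_12_7 (nat_lit 297)))) (M (nat_lit 395) (B (lo110_8_4 (nat_lit 363)) (lo110_9_4 (nat_lit 427)))))) (B (M (nat_lit 394) (B (M (nat_lit 267) (B (lo110_11_6 (nat_lit 235)) (lo110_12_6 (nat_lit 299)))) (M (nat_lit 395) (B (lo110_8_4 (nat_lit 363)) (lo110_9_4 (nat_lit 427)))))) (M (nat_lit 234) (B (M (nat_lit 235) (B (lo110_10_6 (nat_lit 203)) (lo110_11_6 (nat_lit 267)))) (M (nat_lit 233) (B (lo110_10_7 (nat_lit 201)) (lo110_11_7 (nat_lit 265)))))))))) (M (nat_lit 395) (B (M (nat_lit 427) (B (lo111_14_7 (nat_lit 459)) (lo111_13_7 (nat_lit 331)))) (lo110_8_4 (nat_lit 266)))))))) (lo113_11_3 (nat_lit 329)))) (B (M (nat_lit 393) (B (M (nat_lit 392) (B (lo112_11_1 (nat_lit 361)) (M (nat_lit 394) (B (lo18_12_2 (nat_lit 395)) (lo113_11_1 (nat_lit 365)))))) (B (M (nat_lit 330) (B (lo113_11_1 (nat_lit 394)) (B (M (nat_lit 329) (B (lo113_11_3 (nat_lit 365)) (M (nat_lit 328) (B (lo112_11_3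 (nat_lit 361)) (lo17_10_0 (nat_lit 327)))))) (B (M (nat_lit 298) (B (M (nat_lit 266) (B (lo110_8_5 (nat_lit 361)) (lo110_8_4 (nat_lit 395)))) (B (M (nat_lit 425) (B (lo110_9_5 (nat_lit 394)) (M (nat_lit 361) (B (lo19_14_6 (nat_lit 457)) (lo110_8_5 (nat_lit 266)))))) (B (M (nat_lit 394) (B (lo110_9_5 (nat_lit 425)) (M (nat_lit 395) (B (lo110_9_4 (nat_lit 427)) (lo110_8_4 (nat_lit 266)))))) (M (nat_lit 425) (B (lo110_9_5 (nat_lit 394)) (M (nat_lit 361) (B (lo19_14_6 (nat_lit 457)) (lo19_13_6 (nat_lit 329)))))))))) (M (nat_lit 298) (B (M (nat_lit 394) (B (lo110_9_5 (nat_lit 425)) (lo113_11_1 (nat_lit 365)))) (M (nat_lit 266) (B (lo110_8_5 (nat_lit 361)) (lo110_8_4 (nat_lit 395)))))))))) (B (M (nat_lit 361) (B (lo112_11_1 (nat_lit 392)) (M (nat_lit 329) (B (lo112_11_3 (nat_lit 328)) (M (nat_lit 330) (B (lo113_11_3 (nat_lit 365)) (M (nat_lit 298) (B (lo19_13_6 (nat_lit 425)) (lo110_8_5 (nat_lit 266)))))))))) (B (M (nat_lit 394) (B (lo113_11_1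 (nat_lit 365)) (M (nat_lit 392) (B (lo17_12_2 (nat_lit 391)) (lo18_12_2 (nat_lit 395)))))) (M (nat_lit 392) (B (lo112_11_1 (nat_lit 361)) (M (nat_lit 394) (B (lo17_12_2 (nat_lit 391)) (lo18_12_2 (nat_lit 395))))))))))) (B (M (nat_lit 361) (B (M (nat_lit 333) (B (lo110_11_2 (nat_lit 334)) (lo19_11_2 (nat_lit 332)))) (M (nat_lit 393) (B (lo113_11_1 (nat_lit 394)) (lo112_11_1 (nat_lit 392)))))) (M (nat_lit 361) (B (M (nat_lit 333) (B (lo110_11_2 (nat_lit 334)) (lo19_11_2 (nat_lit 332)))) (M (nat_lit 329) (B (lo113_11_3 (nat_lit 330)) (lo112_11_3 (nat_lit 328)))))))))) (B (K _ _ _ o1_s30434) (B (K _ _ _ o1_s36143) (B (K _ _ _ o1_s53888) (B (K _ _ _ o1_s36149) (B (K _ _ _ o1_s36160) (K _ _ _ o1_s36161)))))))) _ _ _ (by decide +kernel)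
theorem o1_s53917 : Sem (nat_lit 2079502270752001762176972468933951720766211117323357220743718917360481544431959660289579412447958723439309574608265524865560215552) (nat_lit 19180023097607153393413660676610453980038745215632751976180820395160996993841572061621247588124632593008973680191029080542380330714020281496943722496) (nat_lit 19180023097607153393413660676610453980038745215632751976180820395160996993841572061621247588124632593008973680191029080542380330714020281496943722496) := sem_of_chk (M (nat_lit 397) (B (K _ _ _ o1_s53910) (M (nat_lit 459) (B (M (nat_lit 460) (B (lo112_11_5 (nat_lit 491)) (lo112_15_6 (nat_lit 492)))) (M (nat_lit 332) (B (lo112_9_4 (nat_lit 300)) (lo112_10_5 (nat_lit 427)))))))) _ _ _ (by decide +kernel)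
theorem o1_s54541 : Sem (nat_lit 5954262831509113918132062396320352251710219084224257288052066147555494124020371096457483436647699852718057830247003736291468382910149558272) (nat_lit 25573364124188608359824628223213655546319602311566153977834703140649786695902340326257256589613192912514064085953854889008417591320078990852615045120) (nat_lit 25573364124188608359824628223213655546319602311566153977834703140649786695902340326257256589613192912514064085953854889008417591320078990852615045120) := sem_of_chk (M (nat_lit 397) (B (lo113_15_7 (nat_lit 493)) (M (nat_lit 398) (B (M (nat_lit 399) (B (lo115_12_3 (nat_lit 363)) (lo115_12_1 (nat_lit 427)))) (B (M (nat_lit 399) (B (lo115_12_1 (nat_lit 427)) (lo116_12_1 (nat_lit 400)))) (B (M (nat_lit 399) (B (lo115_12_3 (nat_lit 363)) (lo116_12_1 (nat_lit 400)))) (K _ _ _ o1_s54427))))))) _ _ _ (by decide +kernel)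
theorem o1_s54562 : Sem (nat_lit 2977131416794308094280641461849442232806399788421930115767790375878774590747243551695272744320329385717738574715438448998044856015302688768) (nat_lit 54918381293831559801300864768642927345884830731573735850254928406136848585343286390579571710172773039470695495232815680833601168360149507828591731687783661568) (nat_lit 54918381293831559801300864768642927345884830731573735850254928406136848585343286390579571710172773039470695495232815680833601168360149507828591731687783661568) := sem_of_chk (M (nat_lit 397) (B (M (nat_lit 365) (B (lo113_10_5 (nat_lit 333)) (M (nat_lit 492) (B (lo112_16_6 (nat_lit 524)) (lo113_11_5 (nat_lit 461)))))) (B (M (nat_lit 365) (B (lo113_10_5 (nat_lit 333)) (M (nat_lit 398) (B (lo110_11_0 (nat_lit 362)) (M (nat_lit 399) (B (lo111_11_0 (nat_lit 366)) (lo116_12_3 (nat_lit 400)))))))) (B (M (nat_lit 365) (B (M (nat_lit 492) (B (lo112_16_6 (nat_lit 524)) (lo113_11_5 (nat_lit 461))))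 (M (nat_lit 398) (B (lo110_11_0 (nat_lit 362)) (M (nat_lit 399) (B (lo111_11_0 (nat_lit 366)) (lo116_12_3 (nat_lit 400)))))))) (K _ _ _ o1_s54561))))) _ _ _ (by decide +kernel)
theorem o1_s55471 : Sem (nat_lit 2426085982355713002187477433111770237976229975276783591931186014211593321226897403476750621943872733478346085552462574223118827520) (nat_lit 54918381303421571334288430823377662820877316729300399430248934697245852379295894223367817370577876492729126855163410516829244425297187578011860500946121392128) (nat_lit 54918381303421571334288430823377662820877316729300399430248934697245852379295894223367817370577876492729126855163410516829244425297187578011860500946121392128) := sem_of_chk (M (nat_lit 395) (B (M (nat_lit 460) (B (lo111_10_4 (nat_lit 331)) (M (nat_lit 492) (B (lo111_11_4 (nat_lit 459)) (lo112_16_7 (nat_lit 524)))))) (B (K _ _ _ o1_s55469) (B (M (nat_lit 460) (B (lo111_10_4 (nat_lit 331)) (M (nat_lit 492) (B (lo112_15_7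 (nat_lit 396)) (lo112_16_7 (nat_lit 524)))))) (K _ _ _ o1_s55470))))) _ _ _ (by decide +kernel)
theorem o1_s55712 : Sem (nat_lit 2426085982678494236929552666156569468653490614793682119815833492924159181828820028456598099071661535090653722494872321095456784384) (nat_lit 54918381344978288074983698512068344359669983099591885190332047727309348588820021137494529482338769200547845682756184670540184324450931318866178618755804823552) (nat_lit 54918381344978288074983698512068344359669983099591885190332047727309348588820021137494529482338769200547845682756184670540184324450931318866178618755804823552) := sem_of_chk (M (nat_lit 365) (B (M (nat_lit 460) (B (lo113_10_5 (nat_lit 333)) (M (nat_lit 492) (B (lo112_16_6 (nat_lit 524)) (lo113_11_5 (nat_lit 461)))))) (B (M (nat_lit 332) (B (lo113_14_7 (nat_lit 461)) (M (nat_lit 300) (B (lo112_8_4 (nat_lit 268)) (lo113_13_7 (nat_lit 333)))))) (B (M (nat_lit 461) (B (lo113_14_7 (nat_lit 332)) (M (nat_lit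 460) (B (lo113_11_5 (nat_lit 492)) (M (nat_lit 462) (B (lo115_14_3 (nat_lit 463)) (lo113_11_4 (nat_lit 494)))))))) (K _ _ _ o1_s55711))))) _ _ _ (by decide +kernel)
theorem o1_s55738 : Sem (nat_lit 2426085982678494236929552666156569468653490614793682119815833492924159181828820028456598099071661535090653722494872321095456784384) (nat_lit 2977131414888097684091518532738650090120133304765550362373348815150521114367673270629799063946942730252533078139265198608314809184828784640) (nat_lit 2977131414888097684091518532738650090120133304765550362373348815150521114367673270629799063946942730252533078139265198608314809184828784640) := sem_of_chk (M (nat_lit 365) (B (M (nat_lit 398) (B (lo110_13_2 (nat_lit 426)) (M (nat_lit 399) (B (lo116_12_3 (nat_lit 400)) (M (nat_lit 363) (B (lo110_11_0 (nat_lit 362)) (lo111_11_0 (nat_lit 366)))))))) (K _ _ _ o1_s55711))) _ _ _ (by decide +kernel)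
theorem o1_s55939 : Sem (nat_lit 2426085982355713002243842455098342235445577509599727680588202395385392998123872386793523638546623336121474861513697023095885266944) (nat_lit 7442828536787014564208011104877797623213228173019802972800970018790560379679115032654960897263715895702806939857034057080483754623381798912) (nat_lit 7442828536787014564208011104877797623213228173019802972800970018790560379679115032654960897263715895702806939857034057080483754623381798912) := sem_of_chk (M (nat_lit 363) (B (K _ _ _ o1_s55857) (B (M (nat_lit 332) (B (M (nat_lit 397) (B (lo113_14_7 (nat_lit 461)) (M (nat_lit 300) (B (lo112_8_4 (nat_lit 268)) (lo113_13_7 (nat_lit 333)))))) (M (nat_lit 366) (B (M (nat_lit 395) (B (lo114_11_1 (nat_lit 394)) (lo111_14_6 (nat_lit 459)))) (M (nat_lit 331) (B (lo114_11_3 (nat_lit 330)) (lo115_11_3 (nat_lit 367)))))))) (B (M (nat_lit 366) (B (M (nat_lit 397) (B (M (nat_lit 398) (B (lo110_11_0 (nat_lit 362)) (lo111_11_0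 (nat_lit 399)))) (M (nat_lit 461) (B (lo113_14_7 (nat_lit 332)) (lo113_14_6 (nat_lit 334)))))) (B (M (nat_lit 332) (B (M (nat_lit 331) (B (lo114_11_3 (nat_lit 330)) (lo115_11_3 (nat_lit 367)))) (M (nat_lit 395) (B (lo114_11_1 (nat_lit 394)) (lo111_14_6 (nat_lit 459)))))) (M (nat_lit 362) (B (M (nat_lit 330) (B (lo113_11_3 (nat_lit 329)) (lo114_11_3 (nat_lit 331)))) (M (nat_lit 394) (B (lo113_11_1 (nat_lit 393)) (lo114_11_1 (nat_lit 395))))))))) (B (M (nat_lit 366) (B (M (nat_lit 362) (B (M (nat_lit 330) (B (lo113_11_3 (nat_lit 329)) (lo114_11_3 (nat_lit 331)))) (M (nat_lit 394) (B (lo113_11_1 (nat_lit 393)) (lo114_11_1 (nat_lit 395)))))) (M (nat_lit 367) (B (M (nat_lit 335) (B (lo111_11_2 (nat_lit 334)) (lo112_11_2 (nat_lit 336)))) (M (nat_lit 399) (B (lo111_11_0 (nat_lit 398)) (lo112_11_0 (nat_lit 400)))))))) (M (nat_lit 332) (B (M (nat_lit 397) (B (lo113_14_7 (nat_lit 461)) (M (nat_lit 300) (B (lo112_8_4 (nat_lit 268)) (lo113_13_7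 (nat_lit 333)))))) (B (M (nat_lit 333) (B (M (nat_lit 362) (B (lo19_11_2 (nat_lit 361)) (lo110_11_2 (nat_lit 334)))) (M (nat_lit 397) (B (lo113_13_7 (nat_lit 300)) (lo113_14_7 (nat_lit 461)))))) (B (M (nat_lit 362) (B (M (nat_lit 333) (B (lo19_11_2 (nat_lit 361)) (lo110_11_2 (nat_lit 334)))) (M (nat_lit 397) (B (lo110_11_0 (nat_lit 398)) (lo113_14_7 (nat_lit 461)))))) (M (nat_lit 395) (B (lo111_14_6 (nat_lit 459)) (M (nat_lit 300) (B (lo111_13_6 (nat_lit 331)) (lo112_8_5 (nat_lit 268))))))))))))))) _ _ _ (by decide +kernel)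
theorem o1_s56786 : Sem (nat_lit 2079502270752001762101819106285189057473747738226098435867697075795415308569326349200548723644291253248471206659952926368538296320) (nat_lit 82377571940747339677389962981263982223189346422084743793225282371605770702235905182284504687111826508298203755107167988473674610172494000014451898882981888000) (nat_lit 82377571940747339677389962981263982223189346422084743793225282371605770702235905182284504687111826508298203755107167988473674610172494000014451898882981888000) := sem_of_chk (M (nat_lit 397) (B (M (nat_lit 332) (B (lo112_9_4 (nat_lit 300)) (M (nat_lit 427) (B (lo112_10_5 (nat_lit 459)) (M (nat_lit 426) (B (lo19_13_2 (nat_lit 425)) (lo110_13_2 (nat_lit 398)))))))) (B (M (nat_lit 427) (B (M (nat_lit 332) (B (lo112_10_5 (nat_lit 459)) (lo112_9_4 (nat_lit 300)))) (M (nat_lit 398) (B (lo110_13_2 (nat_lit 426)) (lo115_12_1 (nat_lit 399)))))) (B (M (nat_lit 460) (B (M (nat_lit 492) (B (lo112_16_6 (nat_lit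 524)) (M (nat_lit 491) (B (lo112_11_5 (nat_lit 459)) (lo112_12_5 (nat_lit 523)))))) (B (M (nat_lit 492) (B (lo112_16_6 (nat_lit 524)) (M (nat_lit 363) (B (lo112_14_7 (nat_lit 331)) (lo112_15_7 (nat_lit 395)))))) (M (nat_lit 332) (B (lo112_9_4 (nat_lit 300)) (M (nat_lit 459) (B (lo112_10_5 (nat_lit 427)) (lo112_11_5 (nat_lit 491))))))))) (B (M (nat_lit 460) (B (M (nat_lit 363) (B (lo112_14_7 (nat_lit 331)) (M (nat_lit 492) (B (lo112_15_7 (nat_lit 395)) (lo112_16_6 (nat_lit 524)))))) (B (M (nat_lit 492) (B (lo112_16_6 (nat_lit 524)) (M (nat_lit 491) (B (lo112_11_5 (nat_lit 459)) (lo112_12_5 (nat_lit 523)))))) (M (nat_lit 331) (B (lo112_14_7 (nat_lit 363)) (M (nat_lit 332) (B (lo112_13_7 (nat_lit 299)) (lo112_9_4 (nat_lit 300))))))))) (M (nat_lit 398) (B (M (nat_lit 427) (B (lo110_13_2 (nat_lit 426)) (lo115_12_1 (nat_lit 399)))) (B (M (nat_lit 399) (B (lo115_12_3 (nat_lit 363)) (lo115_12_1 (nat_lit 427)))) (B (M (nat_lit 399) (B (lo115_12_3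 (nat_lit 363)) (lo116_12_1 (nat_lit 400)))) (K _ _ _ o1_s44907)))))))))) _ _ _ (by decide +kernel)
theorem o1_s57036 : Sem (nat_lit 12786682065071435596533330347513450650139335203175549624871689488070368929427518189586217672946360874874207478988269499452064581419175223757100810240) (nat_lit 2026130649693226623645563157485840258416963034726139445311728653937470209207389665283395547928805332902504237477987233035034399987938625019562410087489111808187713285758889492480) (nat_lit 2026130649693226623645563157485840258416963034726139445311728653937470209207389665283395547928805332902504237477987233035034399987938625019562410087489111808187713285758889492480) := sem_of_chk (M (nat_lit 396) (B (M (nat_lit 491) (B (lo112_12_5 (nat_lit 523)) (M (nat_lit 364) (B (lo112_11_5 (nat_lit 459)) (M (nat_lit 363) (B (lo112_15_7 (nat_lit 395)) (lo112_14_7 (nat_lit 331)))))))) (B (M (nat_lit 364) (B (M (nat_lit 363) (B (lo112_15_7 (nat_lit 395)) (lo112_14_7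 (nat_lit 331)))) (M (nat_lit 332) (B (lo112_10_4 (nat_lit 461)) (M (nat_lit 333) (B (lo112_14_6 (nat_lit 365)) (lo112_13_6 (nat_lit 301)))))))) (B (K _ _ _ o1_s48126) (M (nat_lit 524) (B (M (nat_lit 523) (B (lo112_13_5 (nat_lit 555)) (lo112_12_5 (nat_lit 491)))) (M (nat_lit 556) (B (lo112_17_6 (nat_lit 461)) (M (nat_lit 557) (B (lo112_14_4 (nat_lit 589)) (lo112_13_4 (nat_lit 525)))))))))))) _ _ _ (by decide +kernel)
theorem o1_s57220 : Sem (nat_lit 2977131416794308094280641461793077210819827790952582581444846287221758209573443874798297761003556369114987972072309673036810407142536249344) (nat_lit 1533172235440720653069712062464623652466600156467854962065434450730559843741191130352893711373251633517935140804930074658627339002464043574462742917303825109816203804672) (nat_lit 1533172235440720653069712062464623652466600156467854962065434450730559843741191130352893711373251633517935140804930074658627339002464043574462742917303825109816203804672)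 := sem_of_chk (M (nat_lit 461) (B (M (nat_lit 462) (B (M (nat_lit 427) (B (lo115_14_3 (nat_lit 463)) (lo110_13_0 (nat_lit 426)))) (M (nat_lit 493) (B (M (nat_lit 525) (B (lo113_17_7 (nat_lit 557)) (lo113_16_7 (nat_lit 396)))) (M (nat_lit 494) (B (M (nat_lit 495) (B (lo116_15_3 (nat_lit 496)) (lo111_14_0 (nat_lit 459)))) (M (nat_lit 397) (B (lo113_12_4 (nat_lit 526)) (lo113_11_4 (nat_lit 365)))))))))) (B (M (nat_lit 462) (B (M (nat_lit 463) (B (lo116_14_3 (nat_lit 464)) (lo115_14_3 (nat_lit 427)))) (B (M (nat_lit 427) (B (lo115_14_3 (nat_lit 463)) (lo110_13_0 (nat_lit 426)))) (M (nat_lit 493) (B (M (nat_lit 396) (B (lo113_16_7 (nat_lit 525)) (lo112_11_4 (nat_lit 364)))) (M (nat_lit 494) (B (M (nat_lit 495) (B (lo116_15_3 (nat_lit 496)) (lo111_14_0 (nat_lit 459)))) (M (nat_lit 397) (B (lo113_12_4 (nat_lit 526)) (lo113_11_4 (nat_lit 365))))))))))) (B (M (nat_lit 462) (B (M (nat_lit 463) (B (lo116_14_3 (nat_lit 464)) (lo115_14_3 (nat_lit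 427)))) (B (M (nat_lit 427) (B (lo115_14_3 (nat_lit 463)) (lo110_13_0 (nat_lit 426)))) (B (K _ _ _ o1_s57122) (K _ _ _ o1_s57123))))) (B (M (nat_lit 462) (B (M (nat_lit 427) (B (lo115_14_3 (nat_lit 463)) (lo110_13_0 (nat_lit 426)))) (M (nat_lit 493) (B (M (nat_lit 396) (B (lo113_16_7 (nat_lit 525)) (lo112_11_4 (nat_lit 364)))) (M (nat_lit 494) (B (M (nat_lit 526) (B (lo114_17_7 (nat_lit 558)) (lo113_12_4 (nat_lit 397)))) (M (nat_lit 459) (B (lo111_14_0 (nat_lit 495)) (lo110_14_0 (nat_lit 458)))))))))) (B (M (nat_lit 427) (B (M (nat_lit 426) (B (lo110_13_0 (nat_lit 462)) (lo19_13_0 (nat_lit 425)))) (B (M (nat_lit 426) (B (lo19_13_0 (nat_lit 425)) (M (nat_lit 493) (B (M (nat_lit 525) (B (lo113_17_7 (nat_lit 557)) (lo113_16_7 (nat_lit 396)))) (M (nat_lit 494) (B (M (nat_lit 397) (B (lo113_12_4 (nat_lit 526)) (lo110_13_2 (nat_lit 398)))) (M (nat_lit 458) (B (lo110_14_0 (nat_lit 459)) (lo113_13_1 (nat_lit 457)))))))))) (M (nat_lit 493)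 (B (M (nat_lit 525) (B (lo113_17_7 (nat_lit 557)) (lo113_16_7 (nat_lit 396)))) (B (M (nat_lit 396) (B (lo113_16_7 (nat_lit 525)) (lo112_11_4 (nat_lit 364)))) (B (M (nat_lit 397) (B (M (nat_lit 365) (B (lo113_10_5 (nat_lit 333)) (M (nat_lit 494) (B (lo113_12_4 (nat_lit 526)) (lo113_11_4 (nat_lit 462)))))) (M (nat_lit 396) (B (lo112_11_4 (nat_lit 364)) (M (nat_lit 398) (B (lo113_15_6 (nat_lit 366)) (lo115_12_1 (nat_lit 399)))))))) (M (nat_lit 397) (B (M (nat_lit 365) (B (lo113_10_5 (nat_lit 333)) (M (nat_lit 366) (B (lo113_15_6 (nat_lit 398)) (lo113_14_6 (nat_lit 334)))))) (M (nat_lit 526) (B (lo113_12_4 (nat_lit 494)) (M (nat_lit 525) (B (lo113_13_4 (nat_lit 558)) (lo113_17_7 (nat_lit 557))))))))))))))) (B (M (nat_lit 397) (B (K _ _ _ o1_s57157) (B (M (nat_lit 365) (B (lo113_10_5 (nat_lit 333)) (M (nat_lit 364) (B (lo113_14_7 (nat_lit 332)) (M (nat_lit 396) (B (M (nat_lit 366) (B (lo113_14_6 (nat_lit 334)) (M (nat_lit 367) (B (lo116_11_1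 (nat_lit 368)) (lo115_11_1 (nat_lit 395)))))) (M (nat_lit 363) (B (lo112_14_7 (nat_lit 331)) (M (nat_lit 398) (B (lo115_12_3 (nat_lit 399)) (lo110_11_0 (nat_lit 362)))))))))))) (B (M (nat_lit 365) (B (lo113_10_5 (nat_lit 333)) (M (nat_lit 364) (B (lo113_14_7 (nat_lit 332)) (M (nat_lit 396) (B (lo112_11_4 (nat_lit 493)) (M (nat_lit 366) (B (lo113_14_6 (nat_lit 334)) (M (nat_lit 367) (B (lo116_11_1 (nat_lit 368)) (lo115_11_1 (nat_lit 395)))))))))))) (B (M (nat_lit 365) (B (lo113_10_5 (nat_lit 333)) (M (nat_lit 366) (B (lo113_14_6 (nat_lit 334)) (M (nat_lit 398) (B (lo113_15_6 (nat_lit 493)) (M (nat_lit 364) (B (lo113_14_7 (nat_lit 332)) (M (nat_lit 399) (B (lo116_12_1 (nat_lit 400)) (lo111_11_0 (nat_lit 363)))))))))))) (B (M (nat_lit 364) (B (M (nat_lit 396) (B (lo112_11_4 (nat_lit 493)) (lo112_10_4 (nat_lit 332)))) (B (M (nat_lit 365) (B (lo113_14_7 (nat_lit 332)) (lo113_10_5 (nat_lit 333)))) (M (nat_lit 426) (B (M (nat_lit 427)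 (B (lo110_13_0 (nat_lit 462)) (lo19_13_0 (nat_lit 425)))) (B (M (nat_lit 427) (B (lo19_13_0 (nat_lit 425)) (lo110_13_2 (nat_lit 398)))) (B (M (nat_lit 459) (B (M (nat_lit 396) (B (lo112_11_4 (nat_lit 493)) (lo112_11_5 (nat_lit 491)))) (M (nat_lit 458) (B (lo113_14_3 (nat_lit 425)) (lo19_14_2 (nat_lit 457)))))) (M (nat_lit 427) (B (lo110_13_0 (nat_lit 462)) (lo110_13_2 (nat_lit 398))))))))))) (B (M (nat_lit 396) (B (M (nat_lit 493) (B (lo113_16_7 (nat_lit 525)) (lo112_11_4 (nat_lit 364)))) (B (M (nat_lit 364) (B (lo112_11_4 (nat_lit 493)) (lo112_10_4 (nat_lit 332)))) (B (M (nat_lit 426) (B (M (nat_lit 427) (B (lo110_13_0 (nat_lit 462)) (lo19_13_0 (nat_lit 425)))) (B (M (nat_lit 427) (B (lo19_13_0 (nat_lit 425)) (lo110_13_2 (nat_lit 398)))) (B (M (nat_lit 459) (B (M (nat_lit 364) (B (lo112_11_5 (nat_lit 491)) (lo112_10_4 (nat_lit 332)))) (M (nat_lit 458) (B (lo113_14_3 (nat_lit 425)) (lo19_14_2 (nat_lit 457)))))) (M (nat_lit 427)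 (B (lo110_13_0 (nat_lit 462)) (lo110_13_2 (nat_lit 398)))))))) (M (nat_lit 398) (B (M (nat_lit 493) (B (lo113_16_7 (nat_lit 525)) (lo113_15_6 (nat_lit 366)))) (M (nat_lit 399) (B (lo116_12_1 (nat_lit 400)) (lo115_12_1 (nat_lit 427)))))))))) (M (nat_lit 365) (B (lo113_10_5 (nat_lit 333)) (M (nat_lit 493) (B (M (nat_lit 525) (B (lo113_17_7 (nat_lit 557)) (lo113_16_7 (nat_lit 396)))) (M (nat_lit 366) (B (lo113_15_6 (nat_lit 398)) (lo113_14_6 (nat_lit 334))))))))))))))) (B (M (nat_lit 462) (B (M (nat_lit 463) (B (lo116_14_3 (nat_lit 464)) (lo115_14_3 (nat_lit 427)))) (B (M (nat_lit 427) (B (lo115_14_3 (nat_lit 463)) (lo110_13_0 (nat_lit 426)))) (B (M (nat_lit 459) (B (M (nat_lit 458) (B (lo19_14_2 (nat_lit 457)) (M (nat_lit 490) (B (lo114_14_1 (nat_lit 491)) (lo113_14_1 (nat_lit 489)))))) (B (M (nat_lit 426) (B (lo114_14_3 (nat_lit 427)) (M (nat_lit 458) (B (lo113_14_3 (nat_lit 425)) (lo19_14_2 (nat_lit 457)))))) (M (nat_lit 427) (B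 (lo114_14_3 (nat_lit 426)) (M (nat_lit 491) (B (lo114_14_1 (nat_lit 490)) (M (nat_lit 523) (B (lo111_17_6 (nat_lit 555)) (lo111_16_6 (nat_lit 396))))))))))) (K _ _ _ o1_s57123))))) (B (M (nat_lit 493) (B (M (nat_lit 525) (B (lo113_17_7 (nat_lit 557)) (lo113_16_7 (nat_lit 396)))) (B (M (nat_lit 396) (B (lo113_16_7 (nat_lit 525)) (lo112_11_4 (nat_lit 364)))) (B (M (nat_lit 397) (B (M (nat_lit 364) (B (lo112_11_4 (nat_lit 396)) (M (nat_lit 365) (B (lo113_14_7 (nat_lit 332)) (lo113_10_5 (nat_lit 333)))))) (B (M (nat_lit 365) (B (lo113_10_5 (nat_lit 333)) (M (nat_lit 366) (B (lo113_15_6 (nat_lit 398)) (lo113_14_6 (nat_lit 334)))))) (M (nat_lit 396) (B (lo112_11_4 (nat_lit 364)) (M (nat_lit 398) (B (lo113_15_6 (nat_lit 366)) (M (nat_lit 427) (B (lo110_13_2 (nat_lit 426)) (lo115_12_1 (nat_lit 399))))))))))) (M (nat_lit 397) (B (M (nat_lit 365) (B (lo113_10_5 (nat_lit 333)) (M (nat_lit 366) (B (lo113_15_6 (nat_lit 398)) (lo113_14_6 (nat_lit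 334)))))) (M (nat_lit 526) (B (lo113_12_4 (nat_lit 494)) (M (nat_lit 525) (B (lo113_13_4 (nat_lit 558)) (lo113_17_7 (nat_lit 557)))))))))))) (B (M (nat_lit 493) (B (M (nat_lit 525) (B (lo113_17_7 (nat_lit 557)) (lo113_16_7 (nat_lit 396)))) (B (M (nat_lit 396) (B (lo113_16_7 (nat_lit 525)) (lo112_11_4 (nat_lit 364)))) (M (nat_lit 397) (B (M (nat_lit 494) (B (lo113_12_4 (nat_lit 526)) (M (nat_lit 365) (B (lo113_11_4 (nat_lit 462)) (lo113_10_5 (nat_lit 333)))))) (B (M (nat_lit 365) (B (lo113_10_5 (nat_lit 333)) (M (nat_lit 366) (B (lo113_15_6 (nat_lit 398)) (lo113_14_6 (nat_lit 334)))))) (M (nat_lit 494) (B (lo113_12_4 (nat_lit 526)) (M (nat_lit 459) (B (lo110_14_0 (nat_lit 458)) (M (nat_lit 495) (B (lo116_15_3 (nat_lit 496)) (lo111_14_0 (nat_lit 462)))))))))))))) (M (nat_lit 462) (B (M (nat_lit 463) (B (lo116_14_3 (nat_lit 464)) (lo115_14_3 (nat_lit 427)))) (B (M (nat_lit 427) (B (lo115_14_3 (nat_lit 463)) (lo110_13_0 (nat_lit 426))))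 (B (M (nat_lit 459) (B (M (nat_lit 426) (B (lo114_14_3 (nat_lit 427)) (M (nat_lit 458) (B (lo113_14_3 (nat_lit 425)) (lo19_14_2 (nat_lit 457)))))) (M (nat_lit 494) (B (lo111_14_0 (nat_lit 495)) (M (nat_lit 397) (B (lo113_11_4 (nat_lit 365)) (M (nat_lit 526) (B (lo114_17_7 (nat_lit 558)) (lo113_12_4 (nat_lit 493)))))))))) (M (nat_lit 494) (B (M (nat_lit 459) (B (lo111_14_0 (nat_lit 495)) (M (nat_lit 458) (B (lo110_14_0 (nat_lit 493)) (lo19_14_2 (nat_lit 457)))))) (B (M (nat_lit 526) (B (lo114_17_7 (nat_lit 558)) (M (nat_lit 397) (B (lo113_12_4 (nat_lit 493)) (lo113_11_4 (nat_lit 365)))))) (M (nat_lit 495) (B (lo111_14_0 (nat_lit 459)) (M (nat_lit 463) (B (lo112_14_0 (nat_lit 496)) (lo116_14_3 (nat_lit 464))))))))))))))))))))))) _ _ _ (by decide +kernel)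
theorem o1_s57332 : Sem (nat_lit 2977131416794308094280641461793077210819827790952582581444846287221758209573443874798297761003556369114987972072309673036810407142536249344) (nat_lit 384428669374889634860161322907665505793323643238841156050840784834411401914468432304458298460394225998519048573636708567850261125575819516793098622273144750080) (nat_lit 384428669374889634860161322907665505793323643238841156050840784834411401914468432304458298460394225998519048573636708567850261125575819516793098622273144750080) := sem_of_chk (M (nat_lit 396) (B (M (nat_lit 364) (B (M (nat_lit 461) (B (lo112_11_4 (nat_lit 493)) (lo112_10_4 (nat_lit 332)))) (B (M (nat_lit 332) (B (lo112_10_4 (nat_lit 461)) (M (nat_lit 459) (B (lo112_11_5 (nat_lit 491)) (lo112_10_5 (nat_lit 427)))))) (B (M (nat_lit 332) (B (M (nat_lit 459) (B (lo112_11_5 (nat_lit 491)) (lo112_10_5 (nat_lit 427)))) (M (nat_lit 331) (B (lo112_14_7 (nat_lit 363)) (lo112_13_7 (nat_lit 299))))))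 (M (nat_lit 492) (B (M (nat_lit 493) (B (lo112_12_4 (nat_lit 525)) (lo112_11_4 (nat_lit 461)))) (M (nat_lit 397) (B (lo112_16_6 (nat_lit 524)) (lo112_15_6 (nat_lit 365)))))))))) (B (M (nat_lit 365) (B (M (nat_lit 397) (B (lo112_15_6 (nat_lit 492)) (lo113_10_5 (nat_lit 333)))) (B (M (nat_lit 333) (B (lo113_10_5 (nat_lit 397)) (lo112_14_6 (nat_lit 364)))) (B (M (nat_lit 364) (B (lo112_14_6 (nat_lit 333)) (M (nat_lit 461) (B (lo112_11_4 (nat_lit 493)) (lo112_10_4 (nat_lit 332)))))) (M (nat_lit 461) (B (M (nat_lit 364) (B (lo112_11_4 (nat_lit 493)) (lo112_10_4 (nat_lit 332)))) (M (nat_lit 462) (B (M (nat_lit 397) (B (lo113_11_4 (nat_lit 494)) (lo113_11_5 (nat_lit 492)))) (M (nat_lit 463) (B (lo116_14_3 (nat_lit 464)) (lo115_14_3 (nat_lit 427)))))))))))) (B (M (nat_lit 364) (B (M (nat_lit 332) (B (lo112_10_4 (nat_lit 461)) (M (nat_lit 459) (B (lo112_11_5 (nat_lit 491)) (lo112_10_5 (nat_lit 427)))))) (K _ _ _ o1_s57239))) (B (M (nat_lit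 459) (B (M (nat_lit 364) (B (lo112_11_5 (nat_lit 491)) (M (nat_lit 461) (B (lo112_11_4 (nat_lit 493)) (lo112_10_4 (nat_lit 332)))))) (B (M (nat_lit 364) (B (lo112_11_5 (nat_lit 491)) (M (nat_lit 332) (B (lo112_10_4 (nat_lit 461)) (lo112_10_5 (nat_lit 427)))))) (B (M (nat_lit 461) (B (M (nat_lit 364) (B (lo112_11_4 (nat_lit 493)) (lo112_10_4 (nat_lit 332)))) (K _ _ _ o1_s57253))) (B (M (nat_lit 364) (B (lo112_11_5 (nat_lit 491)) (M (nat_lit 332) (B (lo112_10_5 (nat_lit 427)) (M (nat_lit 333) (B (lo112_14_6 (nat_lit 365)) (lo112_13_6 (nat_lit 301)))))))) (M (nat_lit 458) (B (lo19_14_2 (nat_lit 457)) (M (nat_lit 461) (B (M (nat_lit 493) (B (lo113_16_7 (nat_lit 525)) (lo110_14_0 (nat_lit 494)))) (M (nat_lit 462) (B (M (nat_lit 490) (B (lo114_14_1 (nat_lit 491)) (lo113_14_1 (nat_lit 489)))) (M (nat_lit 426) (B (lo114_14_3 (nat_lit 427)) (lo113_14_3 (nat_lit 425))))))))))))))) (B (M (nat_lit 364) (B (M (nat_lit 332) (B (M (nat_lit 459)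 (B (lo112_11_5 (nat_lit 491)) (lo112_10_5 (nat_lit 427)))) (M (nat_lit 331) (B (lo112_14_7 (nat_lit 363)) (lo112_13_7 (nat_lit 299)))))) (B (M (nat_lit 397) (B (M (nat_lit 492) (B (lo112_16_6 (nat_lit 524)) (lo112_15_6 (nat_lit 365)))) (B (M (nat_lit 365) (B (lo112_15_6 (nat_lit 492)) (lo113_10_5 (nat_lit 333)))) (M (nat_lit 332) (B (lo112_9_4 (nat_lit 300)) (M (nat_lit 331) (B (lo112_14_7 (nat_lit 363)) (lo112_13_7 (nat_lit 299))))))))) (B (M (nat_lit 397) (B (M (nat_lit 492) (B (lo112_16_6 (nat_lit 524)) (lo112_15_6 (nat_lit 365)))) (B (M (nat_lit 365) (B (lo112_15_6 (nat_lit 492)) (lo113_10_5 (nat_lit 333)))) (M (nat_lit 332) (B (lo112_9_4 (nat_lit 300)) (M (nat_lit 459) (B (lo112_11_5 (nat_lit 491)) (lo112_10_5 (nat_lit 427))))))))) (K _ _ _ o1_s57239))))) (B (M (nat_lit 364) (B (M (nat_lit 461) (B (lo112_11_4 (nat_lit 493)) (lo112_10_4 (nat_lit 332)))) (B (M (nat_lit 333) (B (lo112_14_6 (nat_lit 365)) (M (nat_lit 332) (B (lo112_10_4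 (nat_lit 461)) (lo112_13_6 (nat_lit 301)))))) (B (M (nat_lit 332) (B (M (nat_lit 333) (B (lo112_14_6 (nat_lit 365)) (lo112_13_6 (nat_lit 301)))) (M (nat_lit 331) (B (lo112_14_7 (nat_lit 363)) (lo112_13_7 (nat_lit 299)))))) (M (nat_lit 492) (B (M (nat_lit 493) (B (lo112_12_4 (nat_lit 525)) (lo112_11_4 (nat_lit 461)))) (M (nat_lit 397) (B (lo112_16_6 (nat_lit 524)) (lo112_15_6 (nat_lit 365)))))))))) (B (M (nat_lit 459) (B (M (nat_lit 364) (B (lo112_11_5 (nat_lit 491)) (M (nat_lit 461) (B (lo112_11_4 (nat_lit 493)) (lo112_10_4 (nat_lit 332)))))) (B (M (nat_lit 364) (B (lo112_11_5 (nat_lit 491)) (M (nat_lit 332) (B (lo112_10_4 (nat_lit 461)) (lo112_10_5 (nat_lit 427)))))) (B (M (nat_lit 461) (B (M (nat_lit 493) (B (lo113_16_7 (nat_lit 525)) (lo112_11_4 (nat_lit 364)))) (B (M (nat_lit 364) (B (lo112_11_4 (nat_lit 493)) (lo112_10_4 (nat_lit 332)))) (K _ _ _ o1_s57253)))) (B (M (nat_lit 364) (B (lo112_11_5 (nat_lit 491)) (M (nat_lit 332)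 (B (lo112_10_5 (nat_lit 427)) (M (nat_lit 331) (B (lo112_14_7 (nat_lit 363)) (lo112_13_7 (nat_lit 299)))))))) (M (nat_lit 458) (B (lo19_14_2 (nat_lit 457)) (M (nat_lit 493) (B (M (nat_lit 525) (B (lo112_12_4 (nat_lit 492)) (lo113_16_7 (nat_lit 461)))) (B (M (nat_lit 494) (B (lo110_14_0 (nat_lit 461)) (M (nat_lit 492) (B (lo115_15_3 (nat_lit 495)) (lo114_15_3 (nat_lit 491)))))) (B (M (nat_lit 461) (B (lo113_16_7 (nat_lit 525)) (lo110_14_0 (nat_lit 494)))) (M (nat_lit 492) (B (lo112_12_4 (nat_lit 525)) (M (nat_lit 494) (B (lo115_15_3 (nat_lit 495)) (lo114_15_3 (nat_lit 491))))))))))))))))) (M (nat_lit 397) (B (M (nat_lit 492) (B (lo112_16_6 (nat_lit 524)) (lo112_15_6 (nat_lit 365)))) (B (M (nat_lit 365) (B (lo112_15_6 (nat_lit 492)) (lo113_10_5 (nat_lit 333)))) (B (M (nat_lit 365) (B (lo113_10_5 (nat_lit 333)) (M (nat_lit 461) (B (M (nat_lit 493) (B (lo113_16_7 (nat_lit 525)) (M (nat_lit 494) (B (lo113_12_4 (nat_lit 526)) (lo113_11_4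 (nat_lit 462)))))) (B (M (nat_lit 493) (B (lo113_16_7 (nat_lit 525)) (M (nat_lit 366) (B (lo113_15_6 (nat_lit 398)) (lo113_14_6 (nat_lit 334)))))) (M (nat_lit 462) (B (lo113_11_4 (nat_lit 494)) (M (nat_lit 427) (B (lo115_14_3 (nat_lit 463)) (lo110_13_0 (nat_lit 426))))))))))) (M (nat_lit 493) (B (M (nat_lit 492) (B (lo112_12_4 (nat_lit 525)) (lo112_16_6 (nat_lit 524)))) (B (M (nat_lit 461) (B (M (nat_lit 398) (B (lo113_15_6 (nat_lit 366)) (M (nat_lit 427) (B (lo110_13_2 (nat_lit 426)) (lo115_12_1 (nat_lit 399)))))) (M (nat_lit 492) (B (lo113_12_5 (nat_lit 524)) (M (nat_lit 494) (B (lo113_12_4 (nat_lit 526)) (M (nat_lit 495) (B (lo116_15_3 (nat_lit 496)) (lo115_15_3 (nat_lit 459)))))))))) (B (M (nat_lit 525) (B (lo112_12_4 (nat_lit 492)) (lo113_16_7 (nat_lit 461)))) (M (nat_lit 398) (B (M (nat_lit 461) (B (lo113_16_7 (nat_lit 525)) (lo113_15_6 (nat_lit 366)))) (M (nat_lit 427) (B (lo110_13_2 (nat_lit 426)) (lo115_12_1 (nat_lit 399))))))))))))))))))))))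 _ _ _ (by decide +kernel)
theorem o1_s57351 : Sem (nat_lit 12786682065071435596533330347674841267519766990029044573121877730215975541479344659138133882730151351250260053652622334032073195883919172005397528576) (nat_lit 322781234892381958372946067416279190570750398913309515139985421432565531986834407816470503056127206841528631174356795392) (nat_lit 322781234892381958372946067416279190570750398913309515139985421432565531986834407816470503056127206841528631174356795392) := sem_of_chk (M (nat_lit 364) (B (M (nat_lit 365) (B (lo112_15_6 (nat_lit 397)) (lo112_14_6 (nat_lit 333)))) (B (M (nat_lit 332) (B (M (nat_lit 333) (B (lo112_14_6 (nat_lit 365)) (lo112_13_6 (nat_lit 301)))) (M (nat_lit 331) (B (lo112_14_7 (nat_lit 363)) (lo112_13_7 (nat_lit 299)))))) (B (K _ _ _ o1_s57348) (M (nat_lit 332) (B (M (nat_lit 397) (B (lo112_9_4 (nat_lit 300)) (lo112_15_6 (nat_lit 365)))) (M (nat_lit 331) (B (lo112_14_7 (nat_lit 363)) (lo112_13_7 (nat_lit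 299)))))))))) _ _ _ (by decide +kernel)
theorem o1_s57404 : Sem (nat_lit 2977131416794308094280641461793077210819827790952582581444846287221758209573443874798297761003556369114987972072309673036810407142536249344) (nat_lit 1297299583834455937286356705495095944571380456704241816891414224336542868646294682201375233708723101121609486254742610465326007911550023038129509340595963618522172489728) (nat_lit 1297299583834455937286356705495095944571380456704241816891414224336542868646294682201375233708723101121609486254742610465326007911550023038129509340595963618522172489728) := sem_of_chk (M (nat_lit 461) (B (M (nat_lit 492) (B (M (nat_lit 397) (B (lo112_16_6 (nat_lit 524)) (lo113_11_5 (nat_lit 365)))) (M (nat_lit 491) (B (M (nat_lit 462) (B (lo115_14_1 (nat_lit 463)) (M (nat_lit 490) (B (lo110_15_2 (nat_lit 493)) (lo19_15_2 (nat_lit 489)))))) (B (M (nat_lit 490) (B (lo19_15_2 (nat_lit 489)) (M (nat_lit 462) (B (lo115_14_1 (nat_lit 463))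 (lo114_14_1 (nat_lit 459)))))) (M (nat_lit 396) (B (lo112_12_5 (nat_lit 523)) (M (nat_lit 364) (B (lo112_11_4 (nat_lit 493)) (lo112_11_5 (nat_lit 459))))))))))) (B (M (nat_lit 462) (B (M (nat_lit 463) (B (lo116_14_3 (nat_lit 464)) (lo115_14_3 (nat_lit 427)))) (B (M (nat_lit 427) (B (lo115_14_3 (nat_lit 463)) (lo110_13_0 (nat_lit 426)))) (B (K _ _ _ o1_s57122) (M (nat_lit 459) (B (M (nat_lit 458) (B (lo19_14_2 (nat_lit 457)) (M (nat_lit 490) (B (lo114_14_1 (nat_lit 491)) (lo113_14_1 (nat_lit 489)))))) (B (M (nat_lit 458) (B (lo19_14_2 (nat_lit 457)) (M (nat_lit 494) (B (lo111_14_0 (nat_lit 495)) (lo110_14_0 (nat_lit 493)))))) (M (nat_lit 463) (B (lo116_14_3 (nat_lit 464)) (M (nat_lit 491) (B (lo115_14_1 (nat_lit 492)) (lo114_14_1 (nat_lit 490))))))))))))) (B (M (nat_lit 397) (B (M (nat_lit 492) (B (lo112_16_6 (nat_lit 524)) (lo113_11_5 (nat_lit 365)))) (B (M (nat_lit 365) (B (lo113_11_5 (nat_lit 492)) (lo113_10_5 (nat_lit 333))))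 (B (M (nat_lit 462) (B (M (nat_lit 365) (B (lo113_11_4 (nat_lit 494)) (lo113_10_5 (nat_lit 333)))) (M (nat_lit 427) (B (lo115_14_3 (nat_lit 463)) (lo110_13_0 (nat_lit 426)))))) (K _ _ _ o1_s57380))))) (B (M (nat_lit 492) (B (M (nat_lit 524) (B (lo112_17_6 (nat_lit 556)) (lo112_16_6 (nat_lit 397)))) (B (M (nat_lit 397) (B (lo112_16_6 (nat_lit 524)) (lo113_11_5 (nat_lit 365)))) (M (nat_lit 462) (B (M (nat_lit 463) (B (lo115_14_1 (nat_lit 491)) (lo116_14_3 (nat_lit 464)))) (B (M (nat_lit 463) (B (lo116_14_3 (nat_lit 464)) (lo115_14_3 (nat_lit 427)))) (B (M (nat_lit 463) (B (lo115_14_1 (nat_lit 491)) (lo115_14_3 (nat_lit 427)))) (M (nat_lit 459) (B (M (nat_lit 426) (B (lo114_14_3 (nat_lit 427)) (M (nat_lit 458) (B (lo113_14_3 (nat_lit 425)) (lo19_14_2 (nat_lit 457)))))) (M (nat_lit 491) (B (lo114_14_1 (nat_lit 490)) (M (nat_lit 523) (B (lo111_17_6 (nat_lit 555)) (lo112_12_5 (nat_lit 396))))))))))))))) (B (M (nat_lit 462) (B (M (nat_lit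 463) (B (lo116_14_3 (nat_lit 464)) (lo115_14_3 (nat_lit 427)))) (B (M (nat_lit 427) (B (lo115_14_3 (nat_lit 463)) (lo110_13_0 (nat_lit 426)))) (B (K _ _ _ o1_s57122) (K _ _ _ o1_s57123))))) (B (M (nat_lit 492) (B (M (nat_lit 524) (B (lo112_17_6 (nat_lit 556)) (lo112_16_6 (nat_lit 397)))) (B (M (nat_lit 397) (B (lo112_16_6 (nat_lit 524)) (lo113_11_5 (nat_lit 365)))) (M (nat_lit 491) (B (M (nat_lit 490) (B (lo19_15_2 (nat_lit 489)) (M (nat_lit 462) (B (lo110_15_2 (nat_lit 493)) (lo114_14_1 (nat_lit 459)))))) (B (M (nat_lit 396) (B (lo112_12_5 (nat_lit 523)) (M (nat_lit 364) (B (lo112_11_5 (nat_lit 459)) (lo112_10_4 (nat_lit 332)))))) (M (nat_lit 396) (B (lo112_12_5 (nat_lit 523)) (M (nat_lit 364) (B (lo112_11_4 (nat_lit 493)) (lo112_10_4 (nat_lit 332)))))))))))) (B (M (nat_lit 397) (B (M (nat_lit 492) (B (lo112_16_6 (nat_lit 524)) (lo113_11_5 (nat_lit 365)))) (B (M (nat_lit 365) (B (lo113_11_5 (nat_lit 492)) (lo113_10_5 (nat_lit 333))))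 (B (K _ _ _ o1_s57157) (K _ _ _ o1_s57380))))) (B (M (nat_lit 492) (B (M (nat_lit 524) (B (lo112_17_6 (nat_lit 556)) (lo112_16_6 (nat_lit 397)))) (B (M (nat_lit 397) (B (lo112_16_6 (nat_lit 524)) (lo113_11_5 (nat_lit 365)))) (B (M (nat_lit 462) (B (M (nat_lit 463) (B (lo115_14_1 (nat_lit 491)) (lo116_14_3 (nat_lit 464)))) (B (M (nat_lit 463) (B (lo116_14_3 (nat_lit 464)) (lo115_14_3 (nat_lit 427)))) (B (M (nat_lit 463) (B (lo115_14_1 (nat_lit 491)) (lo115_14_3 (nat_lit 427)))) (M (nat_lit 396) (B (M (nat_lit 364) (B (lo112_11_4 (nat_lit 493)) (lo112_10_4 (nat_lit 332)))) (B (M (nat_lit 364) (B (lo112_10_4 (nat_lit 332)) (M (nat_lit 365) (B (lo113_11_5 (nat_lit 397)) (lo112_14_6 (nat_lit 333)))))) (M (nat_lit 491) (B (lo112_12_5 (nat_lit 523)) (M (nat_lit 490) (B (lo110_15_2 (nat_lit 493)) (lo19_15_2 (nat_lit 489))))))))))))) (M (nat_lit 491) (B (M (nat_lit 462) (B (lo115_14_1 (nat_lit 463)) (M (nat_lit 490) (B (lo110_15_2 (nat_lit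 493)) (lo19_15_2 (nat_lit 489)))))) (M (nat_lit 524) (B (lo112_17_6 (nat_lit 556)) (M (nat_lit 523) (B (lo112_13_5 (nat_lit 555)) (lo112_12_5 (nat_lit 396)))))))))))) (M (nat_lit 462) (B (M (nat_lit 463) (B (lo116_14_3 (nat_lit 464)) (lo115_14_3 (nat_lit 427)))) (B (M (nat_lit 427) (B (lo115_14_3 (nat_lit 463)) (lo110_13_0 (nat_lit 426)))) (B (M (nat_lit 397) (B (M (nat_lit 365) (B (lo113_11_4 (nat_lit 494)) (lo113_11_5 (nat_lit 492)))) (B (M (nat_lit 365) (B (lo113_11_5 (nat_lit 492)) (lo113_10_5 (nat_lit 333)))) (B (M (nat_lit 365) (B (lo113_11_4 (nat_lit 494)) (lo113_10_5 (nat_lit 333)))) (M (nat_lit 459) (B (M (nat_lit 426) (B (lo114_14_3 (nat_lit 427)) (M (nat_lit 458) (B (lo113_14_3 (nat_lit 425)) (lo19_14_2 (nat_lit 457)))))) (M (nat_lit 494) (B (lo111_14_0 (nat_lit 495)) (M (nat_lit 526) (B (lo114_17_7 (nat_lit 558)) (lo113_12_4 (nat_lit 493)))))))))))) (M (nat_lit 492) (B (M (nat_lit 524) (B (lo112_17_6 (nat_lit 556)) (lo112_16_6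 (nat_lit 397)))) (M (nat_lit 463) (B (lo115_14_1 (nat_lit 491)) (lo116_14_3 (nat_lit 464))))))))))))))))))) _ _ _ (by decide +kernel)
theorem o1_s57415 : Sem (nat_lit 2977131416794308094280641461793077210819827790952582581444846287221758209573443874798297761003556369114987972072309673036810407142536249344) (nat_lit 2532663311910144709621145846059439364198450182554196922898533317899162269466814269789952443888626472276935452638814604314497409940443857561267109502090792743107083967782069469184) (nat_lit 2532663311910144709621145846059439364198450182554196922898533317899162269466814269789952443888626472276935452638814604314497409940443857561267109502090792743107083967782069469184) := sem_of_chk (M (nat_lit 492) (B (M (nat_lit 397) (B (lo112_16_6 (nat_lit 524)) (M (nat_lit 365) (B (lo113_10_5 (nat_lit 333)) (lo112_15_6 (nat_lit 396)))))) (B (K _ _ _ o1_s47938) (B (M (nat_lit 396) (B (M (nat_lit 493) (B (lo112_12_4 (nat_lit 525)) (M (nat_lit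 491) (B (lo112_12_5 (nat_lit 523)) (M (nat_lit 364) (B (lo112_11_4 (nat_lit 461)) (lo112_11_5 (nat_lit 459)))))))) (B (M (nat_lit 364) (B (M (nat_lit 461) (B (lo112_11_4 (nat_lit 493)) (lo112_10_4 (nat_lit 332)))) (M (nat_lit 491) (B (lo112_12_5 (nat_lit 523)) (lo112_11_5 (nat_lit 459)))))) (B (M (nat_lit 364) (B (M (nat_lit 365) (B (lo112_15_6 (nat_lit 397)) (lo112_14_6 (nat_lit 333)))) (M (nat_lit 491) (B (lo112_12_5 (nat_lit 523)) (lo112_11_5 (nat_lit 459)))))) (B (K _ _ _ o1_s47986) (M (nat_lit 364) (B (M (nat_lit 493) (B (lo112_12_4 (nat_lit 525)) (lo112_11_4 (nat_lit 461)))) (M (nat_lit 365) (B (lo112_15_6 (nat_lit 397)) (lo112_14_6 (nat_lit 333))))))))))) (M (nat_lit 397) (B (lo112_16_6 (nat_lit 524)) (M (nat_lit 365) (B (lo113_11_5 (nat_lit 461)) (lo113_10_5 (nat_lit 333)))))))))) _ _ _ (by decide +kernel)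
theorem o1_s57578 : Sem (nat_lit 2079502270752001762064242424960807725827516048677469043429686155012882190638009693656033379242457518153052022685796627120027336704) (nat_lit 137295953247365581527388040563949181178119438007636441616206557305618264356656981091197391424325734669108762200111413030641526022409498558540544708438355083264) (nat_lit 137295953247365581527388040563949181178119438007636441616206557305618264356656981091197391424325734669108762200111413030641526022409498558540544708438355083264) := sem_of_chk (M (nat_lit 364) (B (M (nat_lit 460) (B (M (nat_lit 492) (B (M (nat_lit 363) (B (lo112_14_7 (nat_lit 331)) (lo112_15_7 (nat_lit 395)))) (M (nat_lit 493) (B (lo112_11_4 (nat_lit 461)) (lo112_12_4 (nat_lit 525)))))) (B (M (nat_lit 332) (B (M (nat_lit 461) (B (lo112_10_4 (nat_lit 429)) (lo112_11_4 (nat_lit 493)))) (M (nat_lit 459) (B (lo112_10_5 (nat_lit 427)) (lo112_11_5 (nat_lit 491)))))) (M (nat_lit 332) (B (M (nat_lit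 331) (B (lo112_13_7 (nat_lit 299)) (lo112_14_7 (nat_lit 363)))) (M (nat_lit 459) (B (lo112_10_5 (nat_lit 427)) (lo112_11_5 (nat_lit 491))))))))) (B (M (nat_lit 460) (B (M (nat_lit 492) (B (M (nat_lit 363) (B (lo112_14_7 (nat_lit 331)) (lo112_15_7 (nat_lit 395)))) (M (nat_lit 491) (B (lo112_11_5 (nat_lit 459)) (lo112_12_5 (nat_lit 523)))))) (M (nat_lit 332) (B (M (nat_lit 333) (B (lo112_13_6 (nat_lit 301)) (lo112_14_6 (nat_lit 365)))) (M (nat_lit 461) (B (lo112_10_4 (nat_lit 429)) (lo112_11_4 (nat_lit 493)))))))) (B (K _ _ _ o1_s36534) (B (M (nat_lit 460) (B (M (nat_lit 332) (B (M (nat_lit 333) (B (lo112_13_6 (nat_lit 301)) (lo112_14_6 (nat_lit 365)))) (M (nat_lit 459) (B (lo112_10_5 (nat_lit 427)) (lo112_11_5 (nat_lit 491)))))) (B (M (nat_lit 332) (B (M (nat_lit 461) (B (lo112_10_4 (nat_lit 429)) (lo112_11_4 (nat_lit 493)))) (M (nat_lit 459) (B (lo112_10_5 (nat_lit 427)) (lo112_11_5 (nat_lit 491)))))) (B (M (nat_lit 492) (B (M (nat_lit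 493) (B (lo112_11_4 (nat_lit 461)) (lo112_12_4 (nat_lit 525)))) (M (nat_lit 491) (B (lo112_11_5 (nat_lit 459)) (lo112_12_5 (nat_lit 523)))))) (M (nat_lit 332) (B (M (nat_lit 333) (B (lo112_13_6 (nat_lit 301)) (lo112_14_6 (nat_lit 365)))) (M (nat_lit 461) (B (lo112_10_4 (nat_lit 429)) (lo112_11_4 (nat_lit 493)))))))))) (B (M (nat_lit 460) (B (M (nat_lit 332) (B (M (nat_lit 333) (B (lo112_13_6 (nat_lit 301)) (lo112_14_6 (nat_lit 365)))) (M (nat_lit 459) (B (lo112_10_5 (nat_lit 427)) (lo112_11_5 (nat_lit 491)))))) (B (M (nat_lit 332) (B (M (nat_lit 331) (B (lo112_13_7 (nat_lit 299)) (lo112_14_7 (nat_lit 363)))) (M (nat_lit 459) (B (lo112_10_5 (nat_lit 427)) (lo112_11_5 (nat_lit 491)))))) (B (M (nat_lit 492) (B (M (nat_lit 363) (B (lo112_14_7 (nat_lit 331)) (lo112_15_7 (nat_lit 395)))) (M (nat_lit 491) (B (lo112_11_5 (nat_lit 459)) (lo112_12_5 (nat_lit 523)))))) (M (nat_lit 332) (B (M (nat_lit 333) (B (lo112_13_6 (nat_lit 301)) (lo112_14_6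 (nat_lit 365)))) (M (nat_lit 331) (B (lo112_13_7 (nat_lit 299)) (lo112_14_7 (nat_lit 363)))))))))) (B (M (nat_lit 332) (B (M (nat_lit 300) (B (M (nat_lit 299) (B (lo112_12_7 (nat_lit 267)) (lo112_13_7 (nat_lit 331)))) (M (nat_lit 427) (B (lo112_9_5 (nat_lit 395)) (lo112_10_5 (nat_lit 459)))))) (B (M (nat_lit 300) (B (M (nat_lit 301) (B (lo112_12_6 (nat_lit 269)) (lo112_13_6 (nat_lit 333)))) (M (nat_lit 427) (B (lo112_9_5 (nat_lit 395)) (lo112_10_5 (nat_lit 459)))))) (K _ _ _ o1_s57568)))) (M (nat_lit 460) (B (M (nat_lit 461) (B (lo112_11_4 (nat_lit 493)) (M (nat_lit 333) (B (lo112_14_6 (nat_lit 365)) (M (nat_lit 332) (B (lo112_13_6 (nat_lit 301)) (lo112_10_4 (nat_lit 429)))))))) (B (M (nat_lit 332) (B (M (nat_lit 331) (B (lo112_13_7 (nat_lit 299)) (lo112_14_7 (nat_lit 363)))) (M (nat_lit 461) (B (lo112_10_4 (nat_lit 429)) (lo112_11_4 (nat_lit 493)))))) (B (M (nat_lit 492) (B (M (nat_lit 363) (B (lo112_14_7 (nat_lit 331)) (lo112_15_7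 (nat_lit 395)))) (M (nat_lit 493) (B (lo112_11_4 (nat_lit 461)) (lo112_12_4 (nat_lit 525)))))) (M (nat_lit 332) (B (M (nat_lit 333) (B (lo112_13_6 (nat_lit 301)) (lo112_14_6 (nat_lit 365)))) (M (nat_lit 331) (B (lo112_13_7 (nat_lit 299)) (lo112_14_7 (nat_lit 363))))))))))))))))) _ _ _ (by decide +kernel)
theorem o1_s57639 : Sem (nat_lit 2079502270752001762064242424960807725827516048677469043429686155012882190638009693656033379242457518153052022685796627120027336704) (nat_lit 589681629070580170816153362525171695454665280983041271190942283796471957857089130537467055207894872077349155174992714377383627843806792201458426967432057128735985369088) (nat_lit 589681629070580170816153362525171695454665280983041271190942283796471957857089130537467055207894872077349155174992714377383627843806792201458426967432057128735985369088) := sem_of_chk (M (nat_lit 364) (B (M (nat_lit 460) (B (M (nat_lit 332) (B (M (nat_lit 331) (B (lo112_13_7 (nat_lit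 299)) (lo112_14_7 (nat_lit 363)))) (M (nat_lit 461) (B (lo112_10_4 (nat_lit 429)) (lo112_11_4 (nat_lit 493)))))) (B (M (nat_lit 492) (B (M (nat_lit 365) (B (lo112_14_6 (nat_lit 333)) (lo112_15_6 (nat_lit 397)))) (M (nat_lit 363) (B (lo112_14_7 (nat_lit 331)) (lo112_15_7 (nat_lit 395)))))) (M (nat_lit 461) (B (lo112_11_4 (nat_lit 493)) (M (nat_lit 333) (B (lo112_14_6 (nat_lit 365)) (M (nat_lit 332) (B (lo112_13_6 (nat_lit 301)) (lo112_10_4 (nat_lit 429))))))))))) (B (M (nat_lit 460) (B (M (nat_lit 492) (B (M (nat_lit 365) (B (lo112_14_6 (nat_lit 333)) (lo112_15_6 (nat_lit 397)))) (M (nat_lit 363) (B (lo112_14_7 (nat_lit 331)) (lo112_15_7 (nat_lit 395)))))) (B (M (nat_lit 492) (B (M (nat_lit 363) (B (lo112_14_7 (nat_lit 331)) (lo112_15_7 (nat_lit 395)))) (M (nat_lit 493) (B (lo112_11_4 (nat_lit 461)) (lo112_12_4 (nat_lit 525)))))) (B (M (nat_lit 492) (B (M (nat_lit 365) (B (lo112_14_6 (nat_lit 333)) (lo112_15_6 (nat_lit 397)))) (M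 (nat_lit 493) (B (lo112_11_4 (nat_lit 461)) (lo112_12_4 (nat_lit 525)))))) (M (nat_lit 332) (B (M (nat_lit 331) (B (lo112_13_7 (nat_lit 299)) (lo112_14_7 (nat_lit 363)))) (M (nat_lit 461) (B (lo112_10_4 (nat_lit 429)) (lo112_11_4 (nat_lit 493)))))))))) (B (M (nat_lit 460) (B (M (nat_lit 492) (B (M (nat_lit 365) (B (lo112_14_6 (nat_lit 333)) (lo112_15_6 (nat_lit 397)))) (M (nat_lit 363) (B (lo112_14_7 (nat_lit 331)) (lo112_15_7 (nat_lit 395)))))) (B (M (nat_lit 492) (B (M (nat_lit 363) (B (lo112_14_7 (nat_lit 331)) (lo112_15_7 (nat_lit 395)))) (M (nat_lit 493) (B (lo112_11_4 (nat_lit 461)) (lo112_12_4 (nat_lit 525)))))) (B (M (nat_lit 492) (B (M (nat_lit 365) (B (lo112_14_6 (nat_lit 333)) (lo112_15_6 (nat_lit 397)))) (M (nat_lit 493) (B (lo112_11_4 (nat_lit 461)) (lo112_12_4 (nat_lit 525)))))) (M (nat_lit 461) (B (lo112_11_4 (nat_lit 493)) (M (nat_lit 333) (B (lo112_14_6 (nat_lit 365)) (M (nat_lit 332) (B (lo112_13_6 (nat_lit 301))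 (lo112_10_4 (nat_lit 429)))))))))))) (B (M (nat_lit 460) (B (M (nat_lit 492) (B (M (nat_lit 363) (B (lo112_14_7 (nat_lit 331)) (lo112_15_7 (nat_lit 395)))) (M (nat_lit 493) (B (lo112_11_4 (nat_lit 461)) (lo112_12_4 (nat_lit 525)))))) (B (K _ _ _ o1_s57587) (B (M (nat_lit 492) (B (M (nat_lit 363) (B (lo112_14_7 (nat_lit 331)) (lo112_15_7 (nat_lit 395)))) (M (nat_lit 524) (B (M (nat_lit 397) (B (lo112_15_6 (nat_lit 365)) (lo112_16_6 (nat_lit 429)))) (M (nat_lit 523) (B (lo112_12_5 (nat_lit 491)) (lo112_13_5 (nat_lit 555)))))))) (M (nat_lit 332) (B (M (nat_lit 331) (B (lo112_13_7 (nat_lit 299)) (lo112_14_7 (nat_lit 363)))) (M (nat_lit 461) (B (lo112_10_4 (nat_lit 429)) (lo112_11_4 (nat_lit 493)))))))))) (B (M (nat_lit 460) (B (M (nat_lit 492) (B (M (nat_lit 363) (B (lo112_14_7 (nat_lit 331)) (lo112_15_7 (nat_lit 395)))) (M (nat_lit 493) (B (lo112_11_4 (nat_lit 461)) (lo112_12_4 (nat_lit 525)))))) (B (M (nat_lit 492) (B (M (nat_lit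 365) (B (lo112_14_6 (nat_lit 333)) (lo112_15_6 (nat_lit 397)))) (M (nat_lit 493) (B (lo112_11_4 (nat_lit 461)) (lo112_12_4 (nat_lit 525)))))) (B (M (nat_lit 492) (B (M (nat_lit 365) (B (lo112_14_6 (nat_lit 333)) (lo112_15_6 (nat_lit 397)))) (M (nat_lit 363) (B (lo112_14_7 (nat_lit 331)) (lo112_15_7 (nat_lit 395)))))) (K _ _ _ o1_s57602))))) (B (M (nat_lit 460) (B (M (nat_lit 492) (B (M (nat_lit 365) (B (lo112_14_6 (nat_lit 333)) (lo112_15_6 (nat_lit 397)))) (M (nat_lit 493) (B (lo112_11_4 (nat_lit 461)) (lo112_12_4 (nat_lit 525)))))) (B (K _ _ _ o1_s57587) (B (M (nat_lit 492) (B (M (nat_lit 493) (B (lo112_11_4 (nat_lit 461)) (lo112_12_4 (nat_lit 525)))) (B (M (nat_lit 524) (B (M (nat_lit 525) (B (lo112_12_4 (nat_lit 493)) (lo112_13_4 (nat_lit 557)))) (M (nat_lit 523) (B (lo112_12_5 (nat_lit 491)) (lo112_13_5 (nat_lit 555)))))) (M (nat_lit 524) (B (M (nat_lit 523) (B (lo112_12_5 (nat_lit 491)) (lo112_13_5 (nat_lit 555)))) (lo112_16_6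 (nat_lit 397))))))) (B (M (nat_lit 461) (B (lo112_11_4 (nat_lit 493)) (M (nat_lit 333) (B (lo112_14_6 (nat_lit 365)) (M (nat_lit 332) (B (lo112_13_6 (nat_lit 301)) (lo112_10_4 (nat_lit 429)))))))) (B (K _ _ _ o1_s57607) (M (nat_lit 365) (B (lo112_14_6 (nat_lit 333)) (M (nat_lit 395) (B (M (nat_lit 492) (B (lo112_15_6 (nat_lit 397)) (lo112_15_7 (nat_lit 363)))) (B (M (nat_lit 366) (B (lo115_11_1 (nat_lit 367)) (M (nat_lit 394) (B (lo110_12_2 (nat_lit 397)) (lo19_12_2 (nat_lit 393)))))) (M (nat_lit 366) (B (lo115_11_1 (nat_lit 367)) (M (nat_lit 394) (B (lo114_11_1 (nat_lit 363)) (lo19_12_2 (nat_lit 393))))))))))))))))) (B (M (nat_lit 332) (B (M (nat_lit 300) (B (M (nat_lit 301) (B (lo112_12_6 (nat_lit 269)) (lo112_13_6 (nat_lit 333)))) (lo112_9_4 (nat_lit 397)))) (B (M (nat_lit 299) (B (lo112_13_7 (nat_lit 331)) (M (nat_lit 300) (B (lo112_12_7 (nat_lit 267)) (lo112_9_4 (nat_lit 397)))))) (B (M (nat_lit 460) (B (M (nat_lit 331) (B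 (lo112_13_7 (nat_lit 299)) (lo112_14_7 (nat_lit 363)))) (M (nat_lit 461) (B (lo112_10_4 (nat_lit 429)) (lo112_11_4 (nat_lit 493)))))) (M (nat_lit 300) (B (M (nat_lit 301) (B (lo112_12_6 (nat_lit 269)) (lo112_13_6 (nat_lit 333)))) (M (nat_lit 299) (B (lo112_12_7 (nat_lit 267)) (lo112_13_7 (nat_lit 331)))))))))) (B (M (nat_lit 332) (B (M (nat_lit 299) (B (lo112_13_7 (nat_lit 331)) (M (nat_lit 300) (B (lo112_12_7 (nat_lit 267)) (lo112_9_4 (nat_lit 397)))))) (B (M (nat_lit 300) (B (M (nat_lit 301) (B (lo112_12_6 (nat_lit 269)) (lo112_13_6 (nat_lit 333)))) (lo112_9_4 (nat_lit 397)))) (B (M (nat_lit 460) (B (M (nat_lit 333) (B (lo112_13_6 (nat_lit 301)) (lo112_14_6 (nat_lit 365)))) (M (nat_lit 461) (B (lo112_10_4 (nat_lit 429)) (lo112_11_4 (nat_lit 493)))))) (M (nat_lit 300) (B (M (nat_lit 301) (B (lo112_12_6 (nat_lit 269)) (lo112_13_6 (nat_lit 333)))) (M (nat_lit 299) (B (lo112_12_7 (nat_lit 267)) (lo112_13_7 (nat_lit 331)))))))))) (B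 (M (nat_lit 332) (B (M (nat_lit 331) (B (lo112_13_7 (nat_lit 299)) (M (nat_lit 460) (B (lo112_14_7 (nat_lit 363)) (M (nat_lit 333) (B (lo112_13_6 (nat_lit 301)) (lo112_14_6 (nat_lit 365)))))))) (B (M (nat_lit 460) (B (M (nat_lit 331) (B (lo112_13_7 (nat_lit 299)) (lo112_14_7 (nat_lit 363)))) (M (nat_lit 461) (B (lo112_10_4 (nat_lit 429)) (lo112_11_4 (nat_lit 493)))))) (B (M (nat_lit 460) (B (M (nat_lit 333) (B (lo112_13_6 (nat_lit 301)) (lo112_14_6 (nat_lit 365)))) (M (nat_lit 461) (B (lo112_10_4 (nat_lit 429)) (lo112_11_4 (nat_lit 493)))))) (M (nat_lit 300) (B (M (nat_lit 301) (B (lo112_12_6 (nat_lit 269)) (lo112_13_6 (nat_lit 333)))) (M (nat_lit 299) (B (lo112_12_7 (nat_lit 267)) (lo112_13_7 (nat_lit 331)))))))))) (B (M (nat_lit 460) (B (M (nat_lit 492) (B (M (nat_lit 365) (B (lo112_14_6 (nat_lit 333)) (lo112_15_6 (nat_lit 397)))) (M (nat_lit 363) (B (lo112_14_7 (nat_lit 331)) (lo112_15_7 (nat_lit 395)))))) (B (M (nat_lit 492)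 (B (M (nat_lit 363) (B (lo112_14_7 (nat_lit 331)) (lo112_15_7 (nat_lit 395)))) (M (nat_lit 524) (B (M (nat_lit 525) (B (lo112_12_4 (nat_lit 493)) (lo112_13_4 (nat_lit 557)))) (M (nat_lit 523) (B (lo112_12_5 (nat_lit 491)) (lo112_13_5 (nat_lit 555)))))))) (B (K _ _ _ o1_s57607) (M (nat_lit 332) (B (M (nat_lit 333) (B (lo112_13_6 (nat_lit 301)) (lo112_14_6 (nat_lit 365)))) (M (nat_lit 331) (B (lo112_13_7 (nat_lit 299)) (lo112_14_7 (nat_lit 363)))))))))) (M (nat_lit 332) (B (M (nat_lit 300) (B (M (nat_lit 301) (B (lo112_12_6 (nat_lit 269)) (lo112_13_6 (nat_lit 333)))) (lo112_9_4 (nat_lit 397)))) (B (M (nat_lit 299) (B (lo112_13_7 (nat_lit 331)) (M (nat_lit 300) (B (lo112_12_7 (nat_lit 267)) (lo112_9_4 (nat_lit 397)))))) (K _ _ _ o1_s57568))))))))))))))) _ _ _ (by decide +kernel)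
theorem o1_s57740 : Sem (nat_lit 2079502270752001762064242424960807725827516048677469043429686155012882190638009693656033379242457518153052022685796627120027336704) (nat_lit 411887860013813738464187845215720454523115628290847702419236296920171045744156554208377336201945309816613728047168082027515415924354729168242018269504022249472) (nat_lit 411887860013813738464187845215720454523115628290847702419236296920171045744156554208377336201945309816613728047168082027515415924354729168242018269504022249472) := sem_of_chk (M (nat_lit 397) (B (M (nat_lit 398) (B (M (nat_lit 427) (B (lo115_12_1 (nat_lit 399)) (lo110_13_2 (nat_lit 426)))) (M (nat_lit 365) (B (M (nat_lit 333) (B (lo113_9_5 (nat_lit 301)) (lo113_10_5 (nat_lit 460)))) (M (nat_lit 366) (B (M (nat_lit 367) (B (lo116_11_1 (nat_lit 368)) (lo111_12_2 (nat_lit 395)))) (M (nat_lit 461) (B (lo113_14_6 (nat_lit 334)) (lo113_15_6 (nat_lit 493)))))))))) (B (M (nat_lit 398) (B (M (nat_lit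 399) (B (lo116_12_1 (nat_lit 400)) (lo115_12_1 (nat_lit 427)))) (B (M (nat_lit 427) (B (lo115_12_1 (nat_lit 399)) (lo110_13_2 (nat_lit 426)))) (M (nat_lit 365) (B (M (nat_lit 460) (B (lo113_10_5 (nat_lit 333)) (lo112_15_6 (nat_lit 492)))) (M (nat_lit 366) (B (M (nat_lit 367) (B (lo116_11_1 (nat_lit 368)) (lo111_12_2 (nat_lit 395)))) (M (nat_lit 461) (B (lo113_14_6 (nat_lit 334)) (lo113_15_6 (nat_lit 493))))))))))) (B (M (nat_lit 398) (B (M (nat_lit 399) (B (lo116_12_1 (nat_lit 400)) (lo115_12_1 (nat_lit 427)))) (B (M (nat_lit 427) (B (lo115_12_1 (nat_lit 399)) (lo110_13_2 (nat_lit 426)))) (B (K _ _ _ o1_s57648) (K _ _ _ o1_s57649))))) (B (M (nat_lit 398) (B (M (nat_lit 427) (B (lo115_12_1 (nat_lit 399)) (lo110_13_2 (nat_lit 426)))) (M (nat_lit 365) (B (M (nat_lit 460) (B (lo113_10_5 (nat_lit 333)) (lo112_15_6 (nat_lit 492)))) (M (nat_lit 366) (B (M (nat_lit 334) (B (lo114_9_5 (nat_lit 302)) (lo113_14_6 (nat_lit 461)))) (M (nat_lit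 395) (B (lo111_12_2 (nat_lit 367)) (lo110_12_2 (nat_lit 394)))))))))) (B (M (nat_lit 427) (B (M (nat_lit 426) (B (lo110_13_2 (nat_lit 398)) (lo19_13_2 (nat_lit 425)))) (B (M (nat_lit 426) (B (lo19_13_2 (nat_lit 425)) (M (nat_lit 365) (B (M (nat_lit 333) (B (lo113_9_5 (nat_lit 301)) (lo113_10_5 (nat_lit 460)))) (M (nat_lit 366) (B (M (nat_lit 461) (B (lo113_14_6 (nat_lit 334)) (lo110_13_0 (nat_lit 462)))) (M (nat_lit 394) (B (lo110_12_2 (nat_lit 395)) (lo113_13_3 (nat_lit 393)))))))))) (M (nat_lit 365) (B (M (nat_lit 333) (B (lo113_9_5 (nat_lit 301)) (lo113_10_5 (nat_lit 460)))) (B (M (nat_lit 460) (B (lo113_10_5 (nat_lit 333)) (lo112_15_6 (nat_lit 492)))) (B (M (nat_lit 461) (B (M (nat_lit 493) (B (lo113_16_7 (nat_lit 525)) (M (nat_lit 366) (B (lo113_14_6 (nat_lit 334)) (lo113_15_6 (nat_lit 398)))))) (M (nat_lit 460) (B (lo112_15_6 (nat_lit 492)) (M (nat_lit 462) (B (lo113_11_4 (nat_lit 494)) (lo115_14_3 (nat_lit 463)))))))) (M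 (nat_lit 461) (B (M (nat_lit 493) (B (lo113_16_7 (nat_lit 525)) (M (nat_lit 494) (B (lo113_11_4 (nat_lit 462)) (lo113_12_4 (nat_lit 526)))))) (M (nat_lit 334) (B (lo113_14_6 (nat_lit 366)) (M (nat_lit 333) (B (lo113_13_6 (nat_lit 302)) (lo113_9_5 (nat_lit 301))))))))))))))) (B (M (nat_lit 461) (B (K _ _ _ o1_s57681) (B (M (nat_lit 493) (B (lo113_16_7 (nat_lit 525)) (M (nat_lit 492) (B (lo113_12_5 (nat_lit 524)) (M (nat_lit 460) (B (M (nat_lit 494) (B (lo113_12_4 (nat_lit 526)) (M (nat_lit 495) (B (lo116_15_3 (nat_lit 496)) (lo115_15_3 (nat_lit 459)))))) (M (nat_lit 491) (B (lo112_12_5 (nat_lit 523)) (M (nat_lit 462) (B (lo115_14_1 (nat_lit 463)) (lo110_15_2 (nat_lit 490)))))))))))) (B (M (nat_lit 493) (B (lo113_16_7 (nat_lit 525)) (M (nat_lit 492) (B (lo113_12_5 (nat_lit 524)) (M (nat_lit 460) (B (lo112_15_6 (nat_lit 365)) (M (nat_lit 494) (B (lo113_12_4 (nat_lit 526)) (M (nat_lit 495) (B (lo116_15_3 (nat_lit 496)) (lo115_15_3 (nat_lit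 459)))))))))))) (B (M (nat_lit 493) (B (lo113_16_7 (nat_lit 525)) (M (nat_lit 494) (B (lo113_12_4 (nat_lit 526)) (M (nat_lit 462) (B (lo113_11_4 (nat_lit 365)) (M (nat_lit 492) (B (lo113_12_5 (nat_lit 524)) (M (nat_lit 463) (B (lo116_14_3 (nat_lit 464)) (lo111_15_2 (nat_lit 491)))))))))))) (B (M (nat_lit 492) (B (M (nat_lit 460) (B (lo112_15_6 (nat_lit 365)) (lo112_16_6 (nat_lit 524)))) (B (M (nat_lit 493) (B (lo113_12_5 (nat_lit 524)) (lo113_16_7 (nat_lit 525)))) (M (nat_lit 426) (B (M (nat_lit 427) (B (lo110_13_2 (nat_lit 398)) (lo19_13_2 (nat_lit 425)))) (B (M (nat_lit 427) (B (lo19_13_2 (nat_lit 425)) (lo110_13_0 (nat_lit 462)))) (B (M (nat_lit 395) (B (M (nat_lit 460) (B (lo112_15_6 (nat_lit 365)) (lo112_15_7 (nat_lit 363)))) (M (nat_lit 394) (B (lo113_12_1 (nat_lit 425)) (lo19_12_0 (nat_lit 393)))))) (M (nat_lit 427) (B (lo110_13_2 (nat_lit 398)) (lo110_13_0 (nat_lit 462))))))))))) (B (M (nat_lit 460) (B (M (nat_lit 365) (B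 (lo113_10_5 (nat_lit 333)) (lo112_15_6 (nat_lit 492)))) (B (M (nat_lit 492) (B (lo112_15_6 (nat_lit 365)) (lo112_16_6 (nat_lit 524)))) (B (M (nat_lit 426) (B (M (nat_lit 427) (B (lo110_13_2 (nat_lit 398)) (lo19_13_2 (nat_lit 425)))) (B (M (nat_lit 427) (B (lo19_13_2 (nat_lit 425)) (lo110_13_0 (nat_lit 462)))) (B (M (nat_lit 395) (B (M (nat_lit 492) (B (lo112_15_7 (nat_lit 363)) (lo112_16_6 (nat_lit 524)))) (M (nat_lit 394) (B (lo113_12_1 (nat_lit 425)) (lo19_12_0 (nat_lit 393)))))) (M (nat_lit 427) (B (lo110_13_2 (nat_lit 398)) (lo110_13_0 (nat_lit 462)))))))) (M (nat_lit 462) (B (M (nat_lit 365) (B (lo113_10_5 (nat_lit 333)) (lo113_11_4 (nat_lit 494)))) (M (nat_lit 463) (B (lo116_14_3 (nat_lit 464)) (lo115_14_3 (nat_lit 427)))))))))) (M (nat_lit 493) (B (lo113_16_7 (nat_lit 525)) (M (nat_lit 365) (B (M (nat_lit 333) (B (lo113_9_5 (nat_lit 301)) (lo113_10_5 (nat_lit 460)))) (M (nat_lit 494) (B (lo113_11_4 (nat_lit 462)) (lo113_12_4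 (nat_lit 526))))))))))))))) (B (M (nat_lit 398) (B (M (nat_lit 399) (B (lo116_12_1 (nat_lit 400)) (lo115_12_1 (nat_lit 427)))) (B (M (nat_lit 427) (B (lo115_12_1 (nat_lit 399)) (lo110_13_2 (nat_lit 426)))) (B (M (nat_lit 395) (B (M (nat_lit 394) (B (lo19_12_0 (nat_lit 393)) (M (nat_lit 362) (B (lo114_12_3 (nat_lit 363)) (lo113_12_3 (nat_lit 361)))))) (B (M (nat_lit 426) (B (lo114_12_1 (nat_lit 427)) (M (nat_lit 394) (B (lo113_12_1 (nat_lit 425)) (lo19_12_0 (nat_lit 393)))))) (M (nat_lit 427) (B (lo114_12_1 (nat_lit 426)) (M (nat_lit 363) (B (lo114_12_3 (nat_lit 362)) (M (nat_lit 331) (B (lo111_9_4 (nat_lit 299)) (lo111_10_4 (nat_lit 460))))))))))) (K _ _ _ o1_s57649))))) (B (M (nat_lit 365) (B (M (nat_lit 333) (B (lo113_9_5 (nat_lit 301)) (lo113_10_5 (nat_lit 460)))) (B (M (nat_lit 460) (B (lo113_10_5 (nat_lit 333)) (lo112_15_6 (nat_lit 492)))) (B (M (nat_lit 461) (B (M (nat_lit 492) (B (lo112_15_6 (nat_lit 460)) (M (nat_lit 493)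 (B (lo113_12_5 (nat_lit 524)) (lo113_16_7 (nat_lit 525)))))) (B (M (nat_lit 493) (B (lo113_16_7 (nat_lit 525)) (M (nat_lit 494) (B (lo113_11_4 (nat_lit 462)) (lo113_12_4 (nat_lit 526)))))) (M (nat_lit 460) (B (lo112_15_6 (nat_lit 492)) (M (nat_lit 462) (B (lo113_11_4 (nat_lit 494)) (M (nat_lit 427) (B (lo110_13_0 (nat_lit 426)) (lo115_14_3 (nat_lit 463))))))))))) (M (nat_lit 461) (B (M (nat_lit 493) (B (lo113_16_7 (nat_lit 525)) (M (nat_lit 494) (B (lo113_11_4 (nat_lit 462)) (lo113_12_4 (nat_lit 526)))))) (M (nat_lit 334) (B (lo113_14_6 (nat_lit 366)) (M (nat_lit 333) (B (lo113_13_6 (nat_lit 302)) (lo113_9_5 (nat_lit 301)))))))))))) (B (M (nat_lit 365) (B (M (nat_lit 333) (B (lo113_9_5 (nat_lit 301)) (lo113_10_5 (nat_lit 460)))) (B (M (nat_lit 460) (B (lo113_10_5 (nat_lit 333)) (lo112_15_6 (nat_lit 492)))) (M (nat_lit 461) (B (M (nat_lit 366) (B (lo113_14_6 (nat_lit 334)) (M (nat_lit 493) (B (lo113_15_6 (nat_lit 398)) (lo113_16_7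 (nat_lit 525)))))) (B (M (nat_lit 493) (B (lo113_16_7 (nat_lit 525)) (M (nat_lit 494) (B (lo113_11_4 (nat_lit 462)) (lo113_12_4 (nat_lit 526)))))) (M (nat_lit 366) (B (lo113_14_6 (nat_lit 334)) (M (nat_lit 395) (B (lo110_12_2 (nat_lit 394)) (M (nat_lit 367) (B (lo116_11_1 (nat_lit 368)) (lo111_12_2 (nat_lit 398)))))))))))))) (M (nat_lit 398) (B (M (nat_lit 399) (B (lo116_12_1 (nat_lit 400)) (lo115_12_1 (nat_lit 427)))) (B (M (nat_lit 427) (B (lo115_12_1 (nat_lit 399)) (lo110_13_2 (nat_lit 426)))) (B (M (nat_lit 395) (B (M (nat_lit 426) (B (lo114_12_1 (nat_lit 427)) (M (nat_lit 394) (B (lo113_12_1 (nat_lit 425)) (lo19_12_0 (nat_lit 393)))))) (M (nat_lit 366) (B (lo111_12_2 (nat_lit 367)) (M (nat_lit 461) (B (lo113_15_6 (nat_lit 493)) (M (nat_lit 334) (B (lo114_9_5 (nat_lit 302)) (lo113_14_6 (nat_lit 365)))))))))) (M (nat_lit 366) (B (M (nat_lit 395) (B (lo111_12_2 (nat_lit 367)) (M (nat_lit 394) (B (lo110_12_2 (nat_lit 365)) (lo19_12_0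 (nat_lit 393)))))) (B (M (nat_lit 334) (B (lo114_9_5 (nat_lit 302)) (M (nat_lit 461) (B (lo113_14_6 (nat_lit 365)) (lo113_15_6 (nat_lit 493)))))) (M (nat_lit 367) (B (lo111_12_2 (nat_lit 395)) (M (nat_lit 399) (B (lo112_12_2 (nat_lit 368)) (lo116_12_1 (nat_lit 400))))))))))))))))))))))) _ _ _ (by decide +kernel)
theorem o1_s57750 : Sem (nat_lit 2079502270752001762101819106285189057473747738226098435867697075795415308569326349200548723644291253248471206659952926368538296320) (nat_lit 6393341035512849213674638421380435900618558890793874955767086314492778185631043298857606828487755092753055447052850625119331560745562252784078684160) (nat_lit 6393341035512849213674638421380435900618558890793874955767086314492778185631043298857606828487755092753055447052850625119331560745562252784078684160) := sem_of_chk (M (nat_lit 332) (B (M (nat_lit 300) (B (M (nat_lit 299) (B (lo112_12_7 (nat_lit 267)) (lo112_13_7 (nat_lit 331)))) (M (nat_lit 427)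 (B (lo112_9_5 (nat_lit 395)) (lo112_10_5 (nat_lit 459)))))) (B (M (nat_lit 460) (B (M (nat_lit 331) (B (lo112_13_7 (nat_lit 299)) (lo112_14_7 (nat_lit 363)))) (M (nat_lit 459) (B (lo112_10_5 (nat_lit 427)) (lo112_11_5 (nat_lit 491)))))) (B (M (nat_lit 300) (B (M (nat_lit 427) (B (lo112_9_5 (nat_lit 395)) (lo112_10_5 (nat_lit 459)))) (M (nat_lit 268) (B (M (nat_lit 269) (B (lo112_11_6 (nat_lit 237)) (lo112_12_6 (nat_lit 301)))) (M (nat_lit 397) (B (lo112_8_4 (nat_lit 365)) (lo112_9_4 (nat_lit 429)))))))) (K _ _ _ o1_s35893))))) _ _ _ (by decide +kernel)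
theorem o1_s57919 : Sem (nat_lit 2079502270752001762064242424960807725827516048677469043429686155012882190638009693656033379242457518153052022685796627120027336704) (nat_lit 825554280841600030509773433515985696447266141320739051245567317013001516541785894572471198543959127700017638947708776950516812263479652123548546197478304050846850088960) (nat_lit 825554280841600030509773433515985696447266141320739051245567317013001516541785894572471198543959127700017638947708776950516812263479652123548546197478304050846850088960) := sem_of_chk (M (nat_lit 460) (B (M (nat_lit 492) (B (M (nat_lit 397) (B (lo112_15_6 (nat_lit 365)) (lo112_16_6 (nat_lit 524)))) (B (M (nat_lit 524) (B (lo112_16_6 (nat_lit 397)) (M (nat_lit 395) (B (lo112_15_7 (nat_lit 363)) (lo112_16_7 (nat_lit 427)))))) (B (M (nat_lit 524) (B (M (nat_lit 395) (B (lo112_15_7 (nat_lit 363)) (lo112_16_7 (nat_lit 427)))) (M (nat_lit 523) (B (lo112_12_5 (nat_lit 491)) (lo112_13_5 (nat_lit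 555)))))) (M (nat_lit 364) (B (M (nat_lit 365) (B (lo112_14_6 (nat_lit 333)) (lo112_15_6 (nat_lit 397)))) (M (nat_lit 461) (B (lo112_10_4 (nat_lit 332)) (lo112_11_4 (nat_lit 493)))))))))) (B (M (nat_lit 493) (B (M (nat_lit 461) (B (lo112_11_4 (nat_lit 364)) (lo113_16_7 (nat_lit 525)))) (B (M (nat_lit 525) (B (lo113_16_7 (nat_lit 461)) (lo112_12_4 (nat_lit 492)))) (B (M (nat_lit 492) (B (lo112_12_4 (nat_lit 525)) (M (nat_lit 397) (B (lo112_15_6 (nat_lit 365)) (lo112_16_6 (nat_lit 524)))))) (M (nat_lit 397) (B (M (nat_lit 492) (B (lo112_15_6 (nat_lit 365)) (lo112_16_6 (nat_lit 524)))) (M (nat_lit 398) (B (M (nat_lit 461) (B (lo113_15_6 (nat_lit 366)) (lo113_15_7 (nat_lit 364)))) (M (nat_lit 399) (B (lo116_12_1 (nat_lit 400)) (lo115_12_1 (nat_lit 427)))))))))))) (B (M (nat_lit 492) (B (M (nat_lit 524) (B (lo112_16_6 (nat_lit 397)) (M (nat_lit 395) (B (lo112_15_7 (nat_lit 363)) (lo112_16_7 (nat_lit 427)))))) (K _ _ _ o1_s57834))) (B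 (M (nat_lit 395) (B (M (nat_lit 492) (B (lo112_15_7 (nat_lit 363)) (M (nat_lit 397) (B (lo112_15_6 (nat_lit 365)) (lo112_16_6 (nat_lit 524)))))) (B (M (nat_lit 492) (B (lo112_15_7 (nat_lit 363)) (M (nat_lit 524) (B (lo112_16_6 (nat_lit 397)) (lo112_16_7 (nat_lit 427)))))) (B (M (nat_lit 397) (B (M (nat_lit 492) (B (lo112_15_6 (nat_lit 365)) (lo112_16_6 (nat_lit 524)))) (K _ _ _ o1_s57848))) (B (M (nat_lit 492) (B (lo112_15_7 (nat_lit 363)) (M (nat_lit 524) (B (lo112_16_7 (nat_lit 427)) (M (nat_lit 525) (B (lo112_12_4 (nat_lit 493)) (lo112_13_4 (nat_lit 557)))))))) (M (nat_lit 394) (B (lo19_12_0 (nat_lit 393)) (M (nat_lit 397) (B (M (nat_lit 365) (B (lo113_10_5 (nat_lit 333)) (lo110_12_2 (nat_lit 366)))) (M (nat_lit 398) (B (M (nat_lit 362) (B (lo114_12_3 (nat_lit 363)) (lo113_12_3 (nat_lit 361)))) (M (nat_lit 426) (B (lo114_12_1 (nat_lit 427)) (lo113_12_1 (nat_lit 425))))))))))))))) (B (M (nat_lit 492) (B (M (nat_lit 524) (B (M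 (nat_lit 395) (B (lo112_15_7 (nat_lit 363)) (lo112_16_7 (nat_lit 427)))) (M (nat_lit 523) (B (lo112_12_5 (nat_lit 491)) (lo112_13_5 (nat_lit 555)))))) (B (M (nat_lit 461) (B (M (nat_lit 364) (B (lo112_10_4 (nat_lit 332)) (lo112_11_4 (nat_lit 493)))) (B (M (nat_lit 493) (B (lo112_11_4 (nat_lit 364)) (lo113_16_7 (nat_lit 525)))) (M (nat_lit 524) (B (lo112_17_6 (nat_lit 556)) (M (nat_lit 523) (B (lo112_12_5 (nat_lit 491)) (lo112_13_5 (nat_lit 555))))))))) (B (M (nat_lit 461) (B (M (nat_lit 364) (B (lo112_10_4 (nat_lit 332)) (lo112_11_4 (nat_lit 493)))) (B (M (nat_lit 493) (B (lo112_11_4 (nat_lit 364)) (lo113_16_7 (nat_lit 525)))) (M (nat_lit 524) (B (lo112_17_6 (nat_lit 556)) (M (nat_lit 395) (B (lo112_15_7 (nat_lit 363)) (lo112_16_7 (nat_lit 427))))))))) (K _ _ _ o1_s57834))))) (B (M (nat_lit 492) (B (M (nat_lit 397) (B (lo112_15_6 (nat_lit 365)) (lo112_16_6 (nat_lit 524)))) (B (M (nat_lit 525) (B (lo112_12_4 (nat_lit 493)) (M (nat_lit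 524) (B (lo112_16_6 (nat_lit 397)) (lo112_13_4 (nat_lit 557)))))) (B (M (nat_lit 524) (B (M (nat_lit 525) (B (lo112_12_4 (nat_lit 493)) (lo112_13_4 (nat_lit 557)))) (M (nat_lit 523) (B (lo112_12_5 (nat_lit 491)) (lo112_13_5 (nat_lit 555)))))) (M (nat_lit 364) (B (M (nat_lit 365) (B (lo112_14_6 (nat_lit 333)) (lo112_15_6 (nat_lit 397)))) (M (nat_lit 461) (B (lo112_10_4 (nat_lit 332)) (lo112_11_4 (nat_lit 493)))))))))) (B (M (nat_lit 395) (B (M (nat_lit 492) (B (lo112_15_7 (nat_lit 363)) (M (nat_lit 397) (B (lo112_15_6 (nat_lit 365)) (lo112_16_6 (nat_lit 524)))))) (B (M (nat_lit 492) (B (lo112_15_7 (nat_lit 363)) (M (nat_lit 524) (B (lo112_16_6 (nat_lit 397)) (lo112_16_7 (nat_lit 427)))))) (B (M (nat_lit 397) (B (M (nat_lit 365) (B (lo113_10_5 (nat_lit 333)) (lo112_15_6 (nat_lit 492)))) (B (M (nat_lit 492) (B (lo112_15_6 (nat_lit 365)) (lo112_16_6 (nat_lit 524)))) (K _ _ _ o1_s57848)))) (B (M (nat_lit 492) (B (lo112_15_7 (nat_lit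 363)) (M (nat_lit 524) (B (lo112_16_7 (nat_lit 427)) (M (nat_lit 523) (B (lo112_12_5 (nat_lit 491)) (lo112_13_5 (nat_lit 555)))))))) (M (nat_lit 394) (B (lo19_12_0 (nat_lit 393)) (M (nat_lit 365) (B (M (nat_lit 333) (B (lo112_14_6 (nat_lit 364)) (lo113_10_5 (nat_lit 397)))) (B (M (nat_lit 366) (B (lo110_12_2 (nat_lit 397)) (M (nat_lit 364) (B (lo115_11_1 (nat_lit 367)) (lo114_11_1 (nat_lit 363)))))) (B (M (nat_lit 397) (B (lo113_10_5 (nat_lit 333)) (lo110_12_2 (nat_lit 366)))) (M (nat_lit 364) (B (lo112_14_6 (nat_lit 333)) (M (nat_lit 366) (B (lo115_11_1 (nat_lit 367)) (lo114_11_1 (nat_lit 363))))))))))))))))) (M (nat_lit 461) (B (M (nat_lit 364) (B (lo112_10_4 (nat_lit 332)) (lo112_11_4 (nat_lit 493)))) (B (M (nat_lit 493) (B (lo112_11_4 (nat_lit 364)) (lo113_16_7 (nat_lit 525)))) (B (M (nat_lit 493) (B (lo113_16_7 (nat_lit 525)) (M (nat_lit 397) (B (M (nat_lit 365) (B (lo113_10_5 (nat_lit 333)) (M (nat_lit 366) (B (lo113_14_6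 (nat_lit 334)) (lo113_15_6 (nat_lit 398)))))) (B (M (nat_lit 365) (B (lo113_10_5 (nat_lit 333)) (M (nat_lit 494) (B (lo113_11_4 (nat_lit 462)) (lo113_12_4 (nat_lit 526)))))) (M (nat_lit 398) (B (lo113_15_6 (nat_lit 366)) (M (nat_lit 427) (B (lo115_12_1 (nat_lit 399)) (lo110_13_2 (nat_lit 426))))))))))) (M (nat_lit 365) (B (M (nat_lit 364) (B (lo112_14_6 (nat_lit 333)) (lo112_10_4 (nat_lit 332)))) (B (M (nat_lit 397) (B (M (nat_lit 462) (B (lo113_11_4 (nat_lit 494)) (M (nat_lit 427) (B (lo110_13_0 (nat_lit 426)) (lo115_14_3 (nat_lit 463)))))) (M (nat_lit 364) (B (lo113_14_7 (nat_lit 332)) (M (nat_lit 366) (B (lo113_14_6 (nat_lit 334)) (M (nat_lit 367) (B (lo116_11_1 (nat_lit 368)) (lo115_11_1 (nat_lit 395)))))))))) (B (M (nat_lit 333) (B (lo112_14_6 (nat_lit 364)) (lo113_10_5 (nat_lit 397)))) (M (nat_lit 462) (B (M (nat_lit 397) (B (lo113_10_5 (nat_lit 333)) (lo113_11_4 (nat_lit 494)))) (M (nat_lit 427) (B (lo110_13_0 (nat_lit 426))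 (lo115_14_3 (nat_lit 463)))))))))))))))))))))) _ _ _ (by decide +kernel)
theorem o1_s57935 : Sem (nat_lit 2977131416794308094442032079211085678997704070849002513139082291711595599907893202513404892924124288181174541747737471475710654639343927296) (nat_lit 2026130649693226623645563157524200304601757381557999109159339980417752183833154374685177111745692912106236606638410812126716648137821615338519854077787263309795610043834257375232) (nat_lit 2026130649693226623645563157524200304601757381557999109159339980417752183833154374685177111745692912106236606638410812126716648137821615338519854077787263309795610043834257375232) := sem_of_chk (M (nat_lit 492) (B (M (nat_lit 493) (B (lo112_11_4 (nat_lit 461)) (lo112_12_4 (nat_lit 525)))) (B (M (nat_lit 524) (B (M (nat_lit 525) (B (lo112_12_4 (nat_lit 493)) (lo112_13_4 (nat_lit 557)))) (M (nat_lit 523) (B (lo112_12_5 (nat_lit 491)) (lo112_13_5 (nat_lit 555)))))) (B (K _ _ _ o1_s57932) (M (nat_lit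 524) (B (M (nat_lit 461) (B (lo112_17_6 (nat_lit 556)) (lo112_11_4 (nat_lit 493)))) (M (nat_lit 523) (B (lo112_12_5 (nat_lit 491)) (lo112_13_5 (nat_lit 555)))))))))) _ _ _ (by decide +kernel)
theorem o1_s57984 : Sem (nat_lit 2079502270752001762064242424960807725827516048677469043429686155012882190638009693656033379242457518153052022685796627120027336704) (nat_lit 384428669056820918518303545228059784795640359446439273702413462301984335891394815881313484475760165904509377099269693136870193692118302540049689338495031574528) (nat_lit 384428669056820918518303545228059784795640359446439273702413462301984335891394815881313484475760165904509377099269693136870193692118302540049689338495031574528) := sem_of_chk (M (nat_lit 397) (B (M (nat_lit 364) (B (M (nat_lit 461) (B (lo112_10_4 (nat_lit 332)) (lo113_15_7 (nat_lit 493)))) (M (nat_lit 363) (B (M (nat_lit 398) (B (lo115_12_3 (nat_lit 399)) (M (nat_lit 362) (B (lo110_11_0 (nat_lit 365)) (lo19_11_0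 (nat_lit 361)))))) (B (M (nat_lit 362) (B (lo19_11_0 (nat_lit 361)) (M (nat_lit 398) (B (lo115_12_3 (nat_lit 399)) (lo114_12_3 (nat_lit 395)))))) (M (nat_lit 460) (B (lo112_14_7 (nat_lit 331)) (M (nat_lit 492) (B (lo112_15_6 (nat_lit 365)) (lo112_15_7 (nat_lit 395))))))))))) (B (M (nat_lit 398) (B (M (nat_lit 399) (B (lo116_12_1 (nat_lit 400)) (lo115_12_1 (nat_lit 427)))) (B (M (nat_lit 427) (B (lo115_12_1 (nat_lit 399)) (lo110_13_2 (nat_lit 426)))) (B (K _ _ _ o1_s57648) (M (nat_lit 395) (B (M (nat_lit 394) (B (lo19_12_0 (nat_lit 393)) (M (nat_lit 362) (B (lo114_12_3 (nat_lit 363)) (lo113_12_3 (nat_lit 361)))))) (B (M (nat_lit 394) (B (lo19_12_0 (nat_lit 393)) (M (nat_lit 366) (B (lo111_12_2 (nat_lit 367)) (lo110_12_2 (nat_lit 365)))))) (M (nat_lit 399) (B (lo116_12_1 (nat_lit 400)) (M (nat_lit 363) (B (lo115_12_3 (nat_lit 364)) (lo114_12_3 (nat_lit 362))))))))))))) (B (M (nat_lit 461) (B (M (nat_lit 364) (B (lo112_10_4 (nat_lit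 332)) (lo113_15_7 (nat_lit 493)))) (B (M (nat_lit 493) (B (lo113_15_7 (nat_lit 364)) (lo113_16_7 (nat_lit 525)))) (B (M (nat_lit 398) (B (M (nat_lit 493) (B (lo113_15_6 (nat_lit 366)) (lo113_16_7 (nat_lit 525)))) (M (nat_lit 427) (B (lo115_12_1 (nat_lit 399)) (lo110_13_2 (nat_lit 426)))))) (K _ _ _ o1_s57960))))) (B (M (nat_lit 364) (B (M (nat_lit 332) (B (lo112_9_4 (nat_lit 300)) (lo112_10_4 (nat_lit 461)))) (B (M (nat_lit 461) (B (lo112_10_4 (nat_lit 332)) (lo113_15_7 (nat_lit 493)))) (M (nat_lit 398) (B (M (nat_lit 399) (B (lo115_12_3 (nat_lit 363)) (lo116_12_1 (nat_lit 400)))) (B (M (nat_lit 399) (B (lo116_12_1 (nat_lit 400)) (lo115_12_1 (nat_lit 427)))) (B (M (nat_lit 399) (B (lo115_12_3 (nat_lit 363)) (lo115_12_1 (nat_lit 427)))) (M (nat_lit 395) (B (M (nat_lit 426) (B (lo114_12_1 (nat_lit 427)) (M (nat_lit 394) (B (lo113_12_1 (nat_lit 425)) (lo19_12_0 (nat_lit 393)))))) (M (nat_lit 363) (B (lo114_12_3 (nat_lit 362)) (M (nat_lit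 331) (B (lo111_9_4 (nat_lit 299)) (lo112_14_7 (nat_lit 460))))))))))))))) (B (M (nat_lit 398) (B (M (nat_lit 399) (B (lo116_12_1 (nat_lit 400)) (lo115_12_1 (nat_lit 427)))) (B (M (nat_lit 427) (B (lo115_12_1 (nat_lit 399)) (lo110_13_2 (nat_lit 426)))) (B (K _ _ _ o1_s57648) (K _ _ _ o1_s57649))))) (B (M (nat_lit 364) (B (M (nat_lit 332) (B (lo112_9_4 (nat_lit 300)) (lo112_10_4 (nat_lit 461)))) (B (M (nat_lit 461) (B (lo112_10_4 (nat_lit 332)) (lo113_15_7 (nat_lit 493)))) (M (nat_lit 363) (B (M (nat_lit 362) (B (lo19_11_0 (nat_lit 361)) (M (nat_lit 398) (B (lo110_11_0 (nat_lit 365)) (lo114_12_3 (nat_lit 395)))))) (B (M (nat_lit 460) (B (lo112_14_7 (nat_lit 331)) (M (nat_lit 492) (B (lo112_15_7 (nat_lit 395)) (lo112_16_6 (nat_lit 524)))))) (M (nat_lit 460) (B (lo112_14_7 (nat_lit 331)) (M (nat_lit 492) (B (lo112_15_6 (nat_lit 365)) (lo112_16_6 (nat_lit 524)))))))))))) (B (M (nat_lit 461) (B (M (nat_lit 364) (B (lo112_10_4 (nat_lit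 332)) (lo113_15_7 (nat_lit 493)))) (B (M (nat_lit 493) (B (lo113_15_7 (nat_lit 364)) (lo113_16_7 (nat_lit 525)))) (B (K _ _ _ o1_s57681) (K _ _ _ o1_s57960))))) (B (M (nat_lit 364) (B (M (nat_lit 332) (B (lo112_9_4 (nat_lit 300)) (lo112_10_4 (nat_lit 461)))) (B (M (nat_lit 461) (B (lo112_10_4 (nat_lit 332)) (lo113_15_7 (nat_lit 493)))) (B (M (nat_lit 398) (B (M (nat_lit 399) (B (lo115_12_3 (nat_lit 363)) (lo116_12_1 (nat_lit 400)))) (B (M (nat_lit 399) (B (lo116_12_1 (nat_lit 400)) (lo115_12_1 (nat_lit 427)))) (B (M (nat_lit 399) (B (lo115_12_3 (nat_lit 363)) (lo115_12_1 (nat_lit 427)))) (M (nat_lit 460) (B (M (nat_lit 492) (B (lo112_15_6 (nat_lit 365)) (lo112_16_6 (nat_lit 524)))) (B (M (nat_lit 492) (B (lo112_16_6 (nat_lit 524)) (M (nat_lit 493) (B (lo113_15_7 (nat_lit 461)) (lo112_12_4 (nat_lit 525)))))) (M (nat_lit 363) (B (lo112_14_7 (nat_lit 331)) (M (nat_lit 362) (B (lo110_11_0 (nat_lit 365)) (lo19_11_0 (nat_lit 361)))))))))))))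 (M (nat_lit 363) (B (M (nat_lit 398) (B (lo115_12_3 (nat_lit 399)) (M (nat_lit 362) (B (lo110_11_0 (nat_lit 365)) (lo19_11_0 (nat_lit 361)))))) (M (nat_lit 332) (B (lo112_9_4 (nat_lit 300)) (M (nat_lit 331) (B (lo112_13_7 (nat_lit 299)) (lo112_14_7 (nat_lit 460)))))))))))) (M (nat_lit 398) (B (M (nat_lit 399) (B (lo116_12_1 (nat_lit 400)) (lo115_12_1 (nat_lit 427)))) (B (M (nat_lit 427) (B (lo115_12_1 (nat_lit 399)) (lo110_13_2 (nat_lit 426)))) (B (M (nat_lit 461) (B (M (nat_lit 493) (B (lo113_15_6 (nat_lit 366)) (lo113_15_7 (nat_lit 364)))) (B (M (nat_lit 493) (B (lo113_15_7 (nat_lit 364)) (lo113_16_7 (nat_lit 525)))) (B (M (nat_lit 493) (B (lo113_15_6 (nat_lit 366)) (lo113_16_7 (nat_lit 525)))) (M (nat_lit 395) (B (M (nat_lit 426) (B (lo114_12_1 (nat_lit 427)) (M (nat_lit 394) (B (lo113_12_1 (nat_lit 425)) (lo19_12_0 (nat_lit 393)))))) (M (nat_lit 366) (B (lo111_12_2 (nat_lit 367)) (M (nat_lit 334) (B (lo114_9_5 (nat_lit 302))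 (lo113_14_6 (nat_lit 365)))))))))))) (M (nat_lit 364) (B (M (nat_lit 332) (B (lo112_9_4 (nat_lit 300)) (lo112_10_4 (nat_lit 461)))) (M (nat_lit 399) (B (lo115_12_3 (nat_lit 363)) (lo116_12_1 (nat_lit 400))))))))))))))))))) _ _ _ (by decide +kernel)
theorem o1_s58015 : Sem (nat_lit 2977131416794308094764813313934372571380312635703147307881666123377237618229192504149669190131714093108046475812335516431042251887426404352) (nat_lit 54918381293831559781949510572996689491637373916941812237673967695723706010322565946658285203049238883452839198717783485541476665227169904911480028823407296512) (nat_lit 54918381293831559781949510572996689491637373916941812237673967695723706010322565946658285203049238883452839198717783485541476665227169904911480028823407296512) := sem_of_chk (M (nat_lit 398) (B (M (nat_lit 399) (B (lo116_12_1 (nat_lit 400)) (lo115_12_1 (nat_lit 427)))) (B (M (nat_lit 427) (B (lo115_12_1 (nat_lit 399)) (lo110_13_2 (nat_lit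 426)))) (B (K _ _ _ o1_s58008) (M (nat_lit 492) (B (lo112_16_6 (nat_lit 524)) (M (nat_lit 399) (B (lo116_12_1 (nat_lit 400)) (M (nat_lit 363) (B (lo115_12_3 (nat_lit 364)) (lo112_15_7 (nat_lit 395)))))))))))) _ _ _ (by decide +kernel)
theorem o1_s58037 : Sem (nat_lit 2977131416794308094764813313934372571380312635703147307881666123377237618229192504149669190131714093108046475812335516431042251887426404352) (nat_lit 109836762594056460615413951711420658647369811740657490759909074420983616664209149432770365198975673448281208826077649805840196623300248098539744007296584253440) (nat_lit 109836762594056460615413951711420658647369811740657490759909074420983616664209149432770365198975673448281208826077649805840196623300248098539744007296584253440) := sem_of_chk (M (nat_lit 461) (B (M (nat_lit 493) (B (lo113_16_7 (nat_lit 525)) (lo113_15_7 (nat_lit 364)))) (B (M (nat_lit 364) (B (lo113_15_7 (nat_lit 493)) (lo112_10_4 (nat_lit 332)))) (B (K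 _ _ _ o1_s58036) (M (nat_lit 398) (B (M (nat_lit 399) (B (lo116_12_1 (nat_lit 400)) (lo115_12_1 (nat_lit 427)))) (M (nat_lit 493) (B (lo113_15_6 (nat_lit 366)) (lo113_16_7 (nat_lit 525)))))))))) _ _ _ (by decide +kernel)
theorem o1_s58083 : Sem (nat_lit 12786682065071435596533330347513450650139335203175549624871689488070368929427518189586217672946360874874207478988269499452064581419175223757100810240) (nat_lit 356969478721580513889388888615039443810563230747980987511386355042228521453154570238407392924308543355146035662104016325528197362091235020783233144654045118464) (nat_lit 356969478721580513889388888615039443810563230747980987511386355042228521453154570238407392924308543355146035662104016325528197362091235020783233144654045118464) := sem_of_chk (M (nat_lit 396) (B (M (nat_lit 493) (B (lo112_12_4 (nat_lit 525)) (M (nat_lit 491) (B (lo112_12_5 (nat_lit 523)) (M (nat_lit 364) (B (lo112_11_4 (nat_lit 461)) (lo112_11_5 (nat_lit 459))))))))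 (B (M (nat_lit 364) (B (M (nat_lit 461) (B (lo112_11_4 (nat_lit 493)) (lo112_10_4 (nat_lit 332)))) (M (nat_lit 491) (B (lo112_12_5 (nat_lit 523)) (lo112_11_5 (nat_lit 459)))))) (B (M (nat_lit 364) (B (M (nat_lit 365) (B (lo112_15_6 (nat_lit 397)) (lo112_14_6 (nat_lit 333)))) (M (nat_lit 491) (B (lo112_12_5 (nat_lit 523)) (lo112_11_5 (nat_lit 459)))))) (B (K _ _ _ o1_s48031) (M (nat_lit 364) (B (M (nat_lit 493) (B (lo112_12_4 (nat_lit 525)) (lo112_11_4 (nat_lit 461)))) (M (nat_lit 365) (B (lo112_15_6 (nat_lit 397)) (lo112_14_6 (nat_lit 333))))))))))) _ _ _ (by decide +kernel)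
theorem o1_s58163 : Sem (nat_lit 8931394246223919741983483330772473929951847714203468615562027223013208196902232082254035801202812647517460218230859431597813760180740947968) (nat_lit 943490606425058863374770051838471389938512490549813704428274554897486669048440115690331395302915365556769048370889802391459270345046563644743714107704508336181119811584) (nat_lit 943490606425058863374770051838471389938512490549813704428274554897486669048440115690331395302915365556769048370889802391459270345046563644743714107704508336181119811584) := sem_of_chk (M (nat_lit 459) (B (M (nat_lit 458) (B (lo19_14_2 (nat_lit 457)) (M (nat_lit 426) (B (lo113_14_3 (nat_lit 425)) (M (nat_lit 427) (B (lo110_13_0 (nat_lit 462)) (lo110_13_2 (nat_lit 398)))))))) (B (K _ _ _ o1_s58136) (B (K _ _ _ o1_s58141) (M (nat_lit 462) (B (M (nat_lit 427) (B (lo115_14_3 (nat_lit 463)) (lo110_13_0 (nat_lit 426)))) (M (nat_lit 494) (B (lo111_14_0 (nat_lit 495)) (M (nat_lit 526)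 (B (lo114_17_7 (nat_lit 558)) (lo113_12_4 (nat_lit 493)))))))))))) _ _ _ (by decide +kernel)
theorem o1_s58445 : Sem (nat_lit 8931394246223919741822092713392042143098352765953280373416420610961381727350315872470245324826760072853107383650850817133069811932444229632) (nat_lit 164628531635428835914636451165333753191894515659141470083182171354684044159853369192507380056406310614765632296767411463576129461306397401436022374400) (nat_lit 164628531635428835914636451165333753191894515659141470083182171354684044159853369192507380056406310614765632296767411463576129461306397401436022374400) := sem_of_chk (M (nat_lit 459) (B (M (nat_lit 364) (B (lo112_10_4 (nat_lit 332)) (lo112_11_5 (nat_lit 491)))) (B (K _ _ _ o1_s58225) (M (nat_lit 462) (B (M (nat_lit 427) (B (lo115_14_3 (nat_lit 463)) (lo110_13_0 (nat_lit 426)))) (M (nat_lit 365) (B (M (nat_lit 494) (B (lo111_14_0 (nat_lit 495)) (lo113_11_4 (nat_lit 397)))) (B (M (nat_lit 397) (B (lo113_11_4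 (nat_lit 494)) (lo113_10_5 (nat_lit 333)))) (B (M (nat_lit 333) (B (lo113_10_5 (nat_lit 397)) (lo112_14_6 (nat_lit 364)))) (M (nat_lit 364) (B (lo112_10_4 (nat_lit 332)) (lo112_14_6 (nat_lit 333))))))))))))) _ _ _ (by decide +kernel)
theorem o1_s58751 : Sem (nat_lit 8931394246223919741822092713392042143098352765953280373416420610961381727350315872470245324826760072853107383650850817133069811932444229632) (nat_lit 19180023179106125870105073034487767439619814059721883656761226333035272077966233668270354091594732731154433918975181326286966774193409012035550707712) (nat_lit 19180023179106125870105073034487767439619814059721883656761226333035272077966233668270354091594732731154433918975181326286966774193409012035550707712) := sem_of_chk (M (nat_lit 462) (B (M (nat_lit 463) (B (lo116_14_3 (nat_lit 464)) (lo115_14_3 (nat_lit 427)))) (B (M (nat_lit 427) (B (lo115_14_3 (nat_lit 463)) (lo110_13_0 (nat_lit 426)))) (B (K _ _ _ o1_s58744) (M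 (nat_lit 364) (B (lo112_10_4 (nat_lit 332)) (M (nat_lit 463) (B (lo116_14_3 (nat_lit 464)) (M (nat_lit 491) (B (lo115_14_1 (nat_lit 492)) (lo112_11_5 (nat_lit 459)))))))))))) _ _ _ (by decide +kernel)
theorem o1_s58768 : Sem (nat_lit 8931394246223919741822092713392042143098352765953280373416420610961381727350315872470245324826760072853107383650850817133069811932444229632) (nat_lit 54918381344978288113686406903967341564338865967054385613612265881847621792128468424225253359812916964614362753223268598704685851054469626417733230066390794240) (nat_lit 54918381344978288113686406903967341564338865967054385613612265881847621792128468424225253359812916964614362753223268598704685851054469626417733230066390794240) := sem_of_chk (M (nat_lit 397) (B (M (nat_lit 365) (B (lo113_10_5 (nat_lit 333)) (lo113_11_5 (nat_lit 492)))) (B (M (nat_lit 492) (B (lo113_11_5 (nat_lit 365)) (lo112_16_6 (nat_lit 524)))) (B (K _ _ _ o1_s58767) (M (nat_lit 462)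 (B (M (nat_lit 463) (B (lo116_14_3 (nat_lit 464)) (lo115_14_3 (nat_lit 427)))) (M (nat_lit 365) (B (lo113_11_4 (nat_lit 494)) (lo113_10_5 (nat_lit 333)))))))))) _ _ _ (by decide +kernel)
theorem o1_s58814 : Sem (nat_lit 2079502270752001762101819106285189057473747738226098435867697075795415308569326349200548723644291253248471206659952926368538296320) (nat_lit 164755143881494679354779925961314921447575129672982344465994652445385612682118178169270536031413341858929123616914964242927813610090638960040818645143549640704) (nat_lit 164755143881494679354779925961314921447575129672982344465994652445385612682118178169270536031413341858929123616914964242927813610090638960040818645143549640704) := sem_of_chk (M (nat_lit 460) (B (M (nat_lit 365) (B (lo112_14_6 (nat_lit 333)) (M (nat_lit 363) (B (lo112_14_7 (nat_lit 331)) (M (nat_lit 492) (B (lo112_15_6 (nat_lit 397)) (lo112_15_7 (nat_lit 395)))))))) (B (M (nat_lit 492) (B (M (nat_lit 397) (B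 (lo112_15_6 (nat_lit 365)) (lo112_16_6 (nat_lit 524)))) (M (nat_lit 363) (B (lo112_14_7 (nat_lit 331)) (lo112_15_7 (nat_lit 395)))))) (B (M (nat_lit 492) (B (M (nat_lit 493) (B (lo112_11_4 (nat_lit 461)) (lo112_12_4 (nat_lit 525)))) (M (nat_lit 363) (B (lo112_14_7 (nat_lit 331)) (lo112_15_7 (nat_lit 395)))))) (B (K _ _ _ o1_s49607) (M (nat_lit 492) (B (M (nat_lit 365) (B (lo112_14_6 (nat_lit 333)) (lo112_15_6 (nat_lit 397)))) (M (nat_lit 493) (B (lo112_11_4 (nat_lit 461)) (lo112_12_4 (nat_lit 525))))))))))) _ _ _ (by decide +kernel)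
theorem o1_s58890 : Sem (nat_lit 5954262831509113918454843631043639144092827649078402082794649979221136142341670398093747733855289657644929764311601781246799980158232035328) (nat_lit 51146728260285742378421833805358190471686888753528162727867713670748331190678810391480844733184182142540719820461863160771467833010080053554592088064) (nat_lit 51146728260285742378421833805358190471686888753528162727867713670748331190678810391480844733184182142540719820461863160771467833010080053554592088064) := sem_of_chk (M (nat_lit 395) (B (M (nat_lit 394) (B (lo19_12_0 (nat_lit 393)) (M (nat_lit 426) (B (lo113_12_1 (nat_lit 425)) (M (nat_lit 427) (B (lo110_13_2 (nat_lit 398)) (lo110_13_0 (nat_lit 462)))))))) (B (K _ _ _ o1_s58863) (B (K _ _ _ o1_s58868) (M (nat_lit 398) (B (M (nat_lit 427) (B (lo115_12_1 (nat_lit 399)) (lo110_13_2 (nat_lit 426)))) (M (nat_lit 366) (B (lo111_12_2 (nat_lit 367)) (M (nat_lit 334) (B (lo114_9_5 (nat_lit 302)) (lo113_14_6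 (nat_lit 365)))))))))))) _ _ _ (by decide +kernel)
theorem o1_s59154 : Sem (nat_lit 2977131416794308094764813313934372571380312635703147307881666123377237618229192504149669190131714093108046475812335516431042251887426404352) (nat_lit 164755143881494679351802794547206637121794017730573182668186694384757005776377735115700930685784329363742590452988792605526616841691071770014937475203800760320) (nat_lit 164755143881494679351802794547206637121794017730573182668186694384757005776377735115700930685784329363742590452988792605526616841691071770014937475203800760320) := sem_of_chk (M (nat_lit 395) (B (M (nat_lit 492) (B (lo112_16_6 (nat_lit 524)) (lo112_15_7 (nat_lit 363)))) (B (K _ _ _ o1_s58953) (M (nat_lit 398) (B (M (nat_lit 427) (B (lo115_12_1 (nat_lit 399)) (lo110_13_2 (nat_lit 426)))) (M (nat_lit 493) (B (M (nat_lit 366) (B (lo111_12_2 (nat_lit 367)) (lo113_15_6 (nat_lit 461)))) (B (M (nat_lit 461) (B (lo113_15_6 (nat_lit 366)) (lo113_16_7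 (nat_lit 525)))) (B (M (nat_lit 525) (B (lo113_16_7 (nat_lit 461)) (lo112_12_4 (nat_lit 492)))) (M (nat_lit 492) (B (lo112_16_6 (nat_lit 524)) (lo112_12_4 (nat_lit 525))))))))))))) _ _ _ (by decide +kernel)
theorem o1_s59651 : Sem (nat_lit 2079502270752001762101819106285189057473747738226098435867697075795415308569326349200548723644291253248471206659952926368538296320) (nat_lit 1488565707703986623690812325253452630152734983046547710359660425499637769345987294907445567849897710097796408659512665233985838567141670912) (nat_lit 1488565707703986623690812325253452630152734983046547710359660425499637769345987294907445567849897710097796408659512665233985838567141670912) := sem_of_chk (M (nat_lit 332) (B (M (nat_lit 427) (B (lo112_10_5 (nat_lit 459)) (M (nat_lit 299) (B (lo112_13_7 (nat_lit 331)) (M (nat_lit 300) (B (lo112_12_7 (nat_lit 267)) (lo112_9_5 (nat_lit 395)))))))) (B (M (nat_lit 300) (B (M (nat_lit 301) (B (lo112_12_6 (nat_lit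 269)) (lo112_13_6 (nat_lit 333)))) (M (nat_lit 427) (B (lo112_9_5 (nat_lit 395)) (lo112_10_5 (nat_lit 459)))))) (K _ _ _ o1_s59650)))) _ _ _ (by decide +kernel)
theorem o1_s59672 : Sem (nat_lit 2079502270752001762101819106285189057473747738226098435867697075795415308569326349200548723644291253248471206659952926368538296320) (nat_lit 27459190659702461957534756589739233543610290980847822627318201158097461857078432775945698328198634591830819770457394321187003503422267959329187852737555988480) (nat_lit 27459190659702461957534756589739233543610290980847822627318201158097461857078432775945698328198634591830819770457394321187003503422267959329187852737555988480) := sem_of_chk (M (nat_lit 332) (B (M (nat_lit 460) (B (M (nat_lit 331) (B (lo112_13_7 (nat_lit 299)) (lo112_14_7 (nat_lit 363)))) (M (nat_lit 459) (B (lo112_10_5 (nat_lit 427)) (lo112_11_5 (nat_lit 491)))))) (B (M (nat_lit 460) (B (M (nat_lit 459) (B (lo112_10_5 (nat_lit 427))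 (lo112_11_5 (nat_lit 491)))) (B (M (nat_lit 492) (B (M (nat_lit 365) (B (lo112_14_6 (nat_lit 333)) (lo112_15_6 (nat_lit 397)))) (M (nat_lit 491) (B (lo112_11_5 (nat_lit 459)) (lo112_12_5 (nat_lit 523)))))) (M (nat_lit 365) (B (lo112_14_6 (nat_lit 333)) (M (nat_lit 397) (B (lo112_15_6 (nat_lit 492)) (M (nat_lit 300) (B (lo112_8_4 (nat_lit 268)) (lo112_9_4 (nat_lit 429))))))))))) (B (M (nat_lit 460) (B (M (nat_lit 331) (B (lo112_13_7 (nat_lit 299)) (lo112_14_7 (nat_lit 363)))) (M (nat_lit 492) (B (M (nat_lit 365) (B (lo112_14_6 (nat_lit 333)) (lo112_15_6 (nat_lit 397)))) (M (nat_lit 491) (B (lo112_11_5 (nat_lit 459)) (lo112_12_5 (nat_lit 523)))))))) (B (M (nat_lit 365) (B (M (nat_lit 460) (B (lo112_14_6 (nat_lit 333)) (M (nat_lit 331) (B (lo112_13_7 (nat_lit 299)) (lo112_14_7 (nat_lit 363)))))) (B (M (nat_lit 397) (B (M (nat_lit 300) (B (lo112_8_4 (nat_lit 268)) (lo112_9_4 (nat_lit 429)))) (M (nat_lit 460) (B (lo112_14_6 (nat_lit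 333)) (lo112_15_6 (nat_lit 492)))))) (M (nat_lit 300) (B (M (nat_lit 299) (B (lo112_12_7 (nat_lit 267)) (lo112_13_7 (nat_lit 331)))) (M (nat_lit 397) (B (lo112_8_4 (nat_lit 268)) (lo112_9_4 (nat_lit 429))))))))) (M (nat_lit 300) (B (M (nat_lit 299) (B (lo112_12_7 (nat_lit 267)) (lo112_13_7 (nat_lit 331)))) (B (M (nat_lit 268) (B (M (nat_lit 397) (B (lo112_8_4 (nat_lit 365)) (lo112_9_4 (nat_lit 429)))) (M (nat_lit 236) (B (M (nat_lit 237) (B (lo112_10_6 (nat_lit 205)) (lo112_11_6 (nat_lit 269)))) (M (nat_lit 331) (B (lo112_7_5 (nat_lit 363)) (lo112_13_7 (nat_lit 299)))))))) (K _ _ _ o1_s35882))))))))) _ _ _ (by decide +kernel)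

end Vale.Agent.Lib.P062.Data
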