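import Vale.Agent.Lib.P062.Data.o1_lines
import Vale.Agent.Lib.P062.Data.o1_0_0
import Vale.Agent.Lib.P062.Data.o1_0_1
import Vale.Agent.Lib.P062.Data.o1_1_0

namespace Vale.Agent.Lib.P062.Data

theorem o1_s3865 : Sem (nat_lit 2599377838238263930854763297645077225595574817786690550357912713652973323222240083782104858754680619462301139892433414474778542080) (nat_lit 2797086719643682703447696558450453931457405530504751954181108388462015714853735779567243380789475167746529114230326615699018996578048004314202374144) (nat_lit 2797086719643682703447696558450453931457405530504751954181108388462015714853735779567243380789475167746529114230326615699018996578048004314202374144) := sem_of_chk (M (nat_lit 329) (B (M (nat_lit 327) (B (M (nat_lit 295) (B (M (nat_lit 297) (B (M (nat_lit 359) (B (M (nat_lit 361) (B (M (nat_lit 265) (B (M (nat_lit 234) (B (lo19_11_6 (nat_lit 266)) (M (nat_lit 233) (B (lo19_10_6 (nat_lit 202)) (lo19_7_4 (nat_lit 362)))))) (B (M (nat_lit 233) (B (lo19_7_4 (nat_lit 362)) (M (nat_lit 232) (B (lo19_10_7 (nat_lit 200)) (lo19_11_7 (nat_lit 264)))))) (M (nat_lit 264) (B (lo19_11_7 (nat_lit 232)) (M (nat_lit 296) (B (lo19_12_7 (nat_lit 393)) (M (nat_lit 266) (B (lo19_11_6 (nat_lit 234)) (M (nat_lit 267) (B (lo112_8_1 (nat_lit 268)) (lo111_8_1 (nat_lit 295))))))))))))) (B (K _ _ _ o1_s32) (M (nat_lit 360) (B (lo16_11_2 (nat_lit 358)) (M (nat_lit 362) (B (lo110_11_3 (nat_lit 326)) (M (nat_lit 391) (B (lo110_11_1 (nat_lit 390)) (M (nat_lit 392) (B (lo111_11_1 (nat_lit 363)) (lo17_9_4 (nat_lit 424))))))))))))) (B (M (nat_lit 361) (B (K _ _ _ o1_s32) (B (M (nat_lit 265) (B (M (nat_lit 233) (B (lo19_7_4 (nat_lit 362)) (M (nat_lit 232) (B (lo19_10_7 (nat_lit 200)) (lo19_11_7 (nat_lit 264)))))) (B (M (nat_lit 233) (B (M (nat_lit 234) (B (lo19_10_6 (nat_lit 202)) (lo19_11_6 (nat_lit 266)))) (M (nat_lit 232) (B (lo19_10_7 (nat_lit 200)) (lo19_11_7 (nat_lit 264)))))) (B (M (nat_lit 296) (B (lo16_9_0 (nat_lit 294)) (M (nat_lit 264) (B (lo19_11_7 (nat_lit 232)) (M (nat_lit 266) (B (lo111_8_1 (nat_lit 267)) (lo19_11_6 (nat_lit 234)))))))) (M (nat_lit 233) (B (lo19_7_4 (nat_lit 362)) (M (nat_lit 234) (B (lo19_10_6 (nat_lit 202)) (lo19_11_6 (nat_lit 266)))))))))) (M (nat_lit 393) (B (M (nat_lit 392) (B (lo112_13_3 (nat_lit 425)) (lo19_9_5 (nat_lit 424)))) (M (nat_lit 296) (B (lo16_9_0 (nat_lit 294)) (lo19_12_7 (nat_lit 264))))))))) (B (M (nat_lit 391) (B (M (nat_lit 294) (B (lo17_12_7 (nat_lit 262)) (M (nat_lit 423) (B (lo17_13_7 (nat_lit 326)) (M (nat_lit 424) (B (lo17_9_4 (nat_lit 392)) (lo17_10_4 (nat_lit 456)))))))) (B (M (nat_lit 423) (B (M (nat_lit 294) (B (lo17_12_7 (nat_lit 262)) (lo17_13_7 (nat_lit 326)))) (M (nat_lit 422) (B (lo17_9_5 (nat_lit 390)) (lo17_10_5 (nat_lit 454)))))) (B (M (nat_lit 294) (B (lo17_12_7 (nat_lit 262)) (M (nat_lit 392) (B (lo17_9_4 (nat_lit 424)) (M (nat_lit 390) (B (lo17_9_5 (nat_lit 422)) (M (nat_lit 358) (B (M (nat_lit 357) (B (lo19_12_3 (nat_lit 393)) (lo14_11_0 (nat_lit 356)))) (M (nat_lit 389) (B (M (nat_lit 360) (B (lo15_12_2 (nat_lit 361)) (lo14_12_2 (nat_lit 388)))) (M (nat_lit 421) (B (lo18_12_1 (nat_lit 420)) (lo16_9_5 (nat_lit 326)))))))))))))) (M (nat_lit 423) (B (M (nat_lit 424) (B (lo17_9_4 (nat_lit 392)) (lo17_10_4 (nat_lit 456)))) (M (nat_lit 422) (B (lo17_9_5 (nat_lit 390)) (lo17_10_5 (nat_lit 454)))))))))) (B (M (nat_lit 391) (B (M (nat_lit 294) (B (lo16_9_0 (nat_lit 296)) (lo17_12_7 (nat_lit 262)))) (M (nat_lit 423) (B (M (nat_lit 424) (B (lo17_9_4 (nat_lit 392)) (lo17_10_4 (nat_lit 456)))) (M (nat_lit 422) (B (lo17_9_5 (nat_lit 390)) (lo17_10_5 (nat_lit 454)))))))) (M (nat_lit 294) (B (lo16_9_0 (nat_lit 296)) (M (nat_lit 262) (B (lo17_12_7 (nat_lit 391)) (M (nat_lit 230) (B (lo16_6_4 (nat_lit 198)) (lo16_7_4 (nat_lit 326))))))))))))) (B (M (nat_lit 265) (B (M (nat_lit 361) (B (K _ _ _ o1_s131) (B (M (nat_lit 360) (B (lo19_8_5 (nat_lit 392)) (M (nat_lit 359) (B (lo16_11_2 (nat_lit 358)) (M (nat_lit 391) (B (M (nat_lit 362) (B (lo110_11_3 (nat_lit 326)) (lo110_11_1 (nat_lit 390)))) (B (M (nat_lit 423) (B (M (nat_lit 294) (B (lo17_12_7 (nat_lit 262)) (lo17_13_7 (nat_lit 326)))) (M (nat_lit 422) (B (lo17_9_5 (nat_lit 390)) (lo17_10_5 (nat_lit 454)))))) (B (M (nat_lit 390) (B (lo110_11_1 (nat_lit 362)) (lo17_9_5 (nat_lit 422)))) (M (nat_lit 294) (B (lo17_12_7 (nat_lit 262)) (M (nat_lit 326) (B (lo110_11_3 (nat_lit 362)) (lo17_13_7 (nat_lit 423)))))))))))))) (M (nat_lit 393) (B (M (nat_lit 298) (B (lo19_13_6 (nat_lit 425)) (lo19_12_6 (nat_lit 266)))) (M (nat_lit 392) (B (lo19_8_5 (nat_lit 360)) (lo19_9_5 (nat_lit 424))))))))) (B (K _ _ _ o1_s186) (B (K _ _ _ o1_s195) (B (M (nat_lit 233) (B (lo19_7_4 (nat_lit 362)) (M (nat_lit 201) (B (lo19_6_4 (nat_lit 298)) (M (nat_lit 200) (B (lo19_10_7 (nat_lit 232)) (lo19_9_7 (nat_lit 168)))))))) (M (nat_lit 233) (B (lo19_7_4 (nat_lit 362)) (M (nat_lit 201) (B (lo19_6_4 (nat_lit 298)) (M (nat_lit 202) (B (lo19_9_6 (nat_lit 170)) (lo19_10_6 (nat_lit 234))))))))))))) (B (K _ _ _ o1_s236) (B (K _ _ _ o1_s267) (B (K _ _ _ o1_s281) (K _ _ _ o1_s288))))))) (B (M (nat_lit 361) (B (M (nat_lit 297) (B (M (nat_lit 265) (B (M (nat_lit 233) (B (M (nat_lit 201) (B (lo19_6_4 (nat_lit 298)) (M (nat_lit 200) (B (lo19_10_7 (nat_lit 232)) (lo19_9_7 (nat_lit 168)))))) (B (M (nat_lit 201) (B (lo19_6_4 (nat_lit 298)) (M (nat_lit 202) (B (lo19_10_6 (nat_lit 234)) (lo19_9_6 (nat_lit 170)))))) (M (nat_lit 232) (B (lo19_10_7 (nat_lit 200)) (M (nat_lit 264) (B (lo19_11_7 (nat_lit 361)) (M (nat_lit 234) (B (lo19_10_6 (nat_lit 202)) (M (nat_lit 235) (B (lo111_7_1 (nat_lit 263)) (lo112_7_1 (nat_lit 236))))))))))))) (B (M (nat_lit 393) (B (M (nat_lit 264) (B (lo19_11_7 (nat_lit 232)) (lo19_12_7 (nat_lit 296)))) (M (nat_lit 425) (B (lo19_13_6 (nat_lit 298)) (M (nat_lit 457) (B (lo19_14_6 (nat_lit 362)) (M (nat_lit 456) (B (lo19_10_5 (nat_lit 424)) (lo19_11_5 (nat_lit 488)))))))))) (B (M (nat_lit 233) (B (lo19_7_4 (nat_lit 362)) (M (nat_lit 201) (B (lo19_6_4 (nat_lit 298)) (M (nat_lit 202) (B (lo19_9_6 (nat_lit 170)) (lo19_10_6 (nat_lit 234)))))))) (M (nat_lit 233) (B (M (nat_lit 232) (B (lo19_11_7 (nat_lit 264)) (lo19_10_7 (nat_lit 200)))) (lo19_7_4 (nat_lit 362)))))))) (B (K _ _ _ o1_s348) (B (K _ _ _ o1_s363) (B (K _ _ _ o1_s372) (B (M (nat_lit 298) (B (K _ _ _ o1_s341) (M (nat_lit 393) (B (lo19_13_6 (nat_lit 425)) (lo19_12_6 (nat_lit 266)))))) (B (K _ _ _ o1_s382) (K _ _ _ o1_s392)))))))) (B (M (nat_lit 359) (B (M (nat_lit 391) (B (M (nat_lit 297) (B (M (nat_lit 392) (B (lo17_9_4 (nat_lit 424)) (M (nat_lit 360) (B (lo16_11_2 (nat_lit 358)) (lo19_8_5 (nat_lit 265)))))) (M (nat_lit 298) (B (M (nat_lit 266) (B (lo110_7_5 (nat_lit 234)) (lo19_12_6 (nat_lit 393)))) (M (nat_lit 296) (B (lo110_9_1 (nat_lit 326)) (lo17_12_6 (nat_lit 264)))))))) (B (M (nat_lit 423) (B (M (nat_lit 422) (B (lo17_9_5 (nat_lit 390)) (lo17_10_5 (nat_lit 454)))) (M (nat_lit 455) (B (M (nat_lit 456) (B (lo17_10_4 (nat_lit 424)) (lo17_11_4 (nat_lit 488)))) (M (nat_lit 358) (B (lo16_11_2 (nat_lit 360)) (lo17_14_7 (nat_lit 326)))))))) (B (M (nat_lit 423) (B (M (nat_lit 422) (B (lo17_10_5 (nat_lit 454)) (lo17_9_5 (nat_lit 390)))) (M (nat_lit 424) (B (lo17_9_4 (nat_lit 392)) (lo17_10_4 (nat_lit 456)))))) (M (nat_lit 360) (B (lo16_11_2 (nat_lit 358)) (M (nat_lit 390) (B (lo17_9_5 (nat_lit 422)) (M (nat_lit 389) (B (lo15_12_2 (nat_lit 392)) (lo14_12_2 (nat_lit 388)))))))))))) (B (M (nat_lit 392) (B (M (nat_lit 360) (B (lo17_8_4 (nat_lit 263)) (M (nat_lit 424) (B (lo18_14_6 (nat_lit 456)) (lo17_9_4 (nat_lit 391)))))) (B (M (nat_lit 424) (B (lo17_9_4 (nat_lit 391)) (M (nat_lit 393) (B (lo19_9_5 (nat_lit 297)) (M (nat_lit 456) (B (lo19_10_5 (nat_lit 425)) (lo18_15_6 (nat_lit 488)))))))) (M (nat_lit 263) (B (lo17_8_4 (nat_lit 360)) (M (nat_lit 231) (B (M (nat_lit 232) (B (lo17_10_6 (nat_lit 200)) (lo17_11_6 (nat_lit 264)))) (M (nat_lit 230) (B (lo17_10_7 (nat_lit 198)) (lo17_11_7 (nat_lit 262))))))))))) (B (K _ _ _ o1_s477) (B (K _ _ _ o1_s484) (M (nat_lit 358) (B (lo16_11_2 (nat_lit 360)) (M (nat_lit 390) (B (lo17_8_5 (nat_lit 263)) (M (nat_lit 422) (B (lo17_9_5 (nat_lit 391)) (lo16_14_6 (nat_lit 454))))))))))))) (B (M (nat_lit 297) (B (M (nat_lit 359) (B (M (nat_lit 264) (B (M (nat_lit 296) (B (lo17_12_6 (nat_lit 391)) (M (nat_lit 232) (B (lo18_6_4 (nat_lit 200)) (lo17_11_6 (nat_lit 263)))))) (B (M (nat_lit 232) (B (lo17_11_6 (nat_lit 263)) (M (nat_lit 265) (B (lo19_11_7 (nat_lit 361)) (M (nat_lit 200) (B (lo19_10_7 (nat_lit 233)) (lo18_5_4 (nat_lit 168)))))))) (B (M (nat_lit 296) (B (lo17_12_6 (nat_lit 391)) (M (nat_lit 298) (B (lo110_9_1 (nat_lit 326)) (M (nat_lit 263) (B (lo111_9_3 (nat_lit 299)) (lo110_9_3 (nat_lit 262)))))))) (M (nat_lit 296) (B (lo17_12_6 (nat_lit 391)) (M (nat_lit 232) (B (lo18_6_4 (nat_lit 200)) (lo19_12_7 (nat_lit 393)))))))))) (B (M (nat_lit 265) (B (M (nat_lit 360) (B (lo16_11_2 (nat_lit 358)) (lo19_8_5 (nat_lit 392)))) (M (nat_lit 233) (B (M (nat_lit 232) (B (lo19_11_7 (nat_lit 264)) (lo19_10_7 (nat_lit 200)))) (M (nat_lit 202) (B (lo19_10_6 (nat_lit 234)) (M (nat_lit 201) (B (lo19_6_4 (nat_lit 298)) (lo19_9_6 (nat_lit 170)))))))))) (B (M (nat_lit 263) (B (M (nat_lit 358) (B (lo17_8_5 (nat_lit 390)) (M (nat_lit 360) (B (lo17_8_4 (nat_lit 392)) (lo16_11_2 (nat_lit 330)))))) (M (nat_lit 296) (B (M (nat_lit 264) (B (lo17_11_6 (nat_lit 232)) (lo19_12_7 (nat_lit 393)))) (M (nat_lit 262) (B (lo17_11_7 (nat_lit 230)) (lo110_9_3 (nat_lit 298)))))))) (M (nat_lit 360) (B (M (nat_lit 392) (B (lo19_8_5 (nat_lit 265)) (lo17_8_4 (nat_lit 263)))) (lo16_11_2 (nat_lit 358)))))))) (B (K _ _ _ o1_s348) (B (K _ _ _ o1_s363) (B (K _ _ _ o1_s372) (B (K _ _ _ o1_s392) (B (M (nat_lit 298) (B (K _ _ _ o1_s341) (M (nat_lit 393) (B (lo19_13_6 (nat_lit 425)) (lo19_12_6 (nat_lit 266)))))) (K _ _ _ o1_s382)))))))) (B (M (nat_lit 359) (B (M (nat_lit 391) (B (M (nat_lit 424) (B (lo17_9_4 (nat_lit 392)) (M (nat_lit 423) (B (lo17_10_4 (nat_lit 456)) (M (nat_lit 422) (B (lo17_9_5 (nat_lit 390)) (lo17_10_5 (nat_lit 454)))))))) (B (M (nat_lit 264) (B (lo17_12_6 (nat_lit 296)) (M (nat_lit 265) (B (M (nat_lit 232) (B (lo19_11_7 (nat_lit 297)) (lo17_11_6 (nat_lit 263)))) (B (M (nat_lit 263) (B (lo17_11_6 (nat_lit 232)) (M (nat_lit 230) (B (lo17_11_7 (nat_lit 262)) (M (nat_lit 231) (B (lo110_8_3 (nat_lit 266)) (lo17_10_7 (nat_lit 198)))))))) (B (M (nat_lit 266) (B (M (nat_lit 234) (B (lo110_7_5 (nat_lit 298)) (lo19_11_6 (nat_lit 297)))) (B (M (nat_lit 362) (B (M (nat_lit 233) (B (lo110_11_7 (nat_lit 298)) (lo19_7_4 (nat_lit 297)))) (M (nat_lit 390) (B (lo110_11_1 (nat_lit 360)) (lo17_9_5 (nat_lit 422)))))) (B (M (nat_lit 263) (B (M (nat_lit 234) (B (lo17_8_2 (nat_lit 235)) (lo19_11_6 (nat_lit 297)))) (M (nat_lit 230) (B (lo110_8_3 (nat_lit 231)) (lo17_11_7 (nat_lit 262)))))) (M (nat_lit 263) (B (M (nat_lit 234) (B (lo17_8_2 (nat_lit 235)) (lo110_7_5 (nat_lit 298)))) (M (nat_lit 230) (B (lo110_8_3 (nat_lit 231)) (lo17_11_7 (nat_lit 262)))))))))) (M (nat_lit 362) (B (M (nat_lit 297) (B (lo19_7_4 (nat_lit 233)) (lo19_11_7 (nat_lit 232)))) (M (nat_lit 360) (B (lo110_11_3 (nat_lit 326)) (lo110_11_1 (nat_lit 390)))))))))))) (M (nat_lit 263) (B (M (nat_lit 264) (B (lo17_11_6 (nat_lit 232)) (lo17_12_6 (nat_lit 296)))) (M (nat_lit 392) (B (lo17_8_4 (nat_lit 360)) (lo17_9_4 (nat_lit 424))))))))) (B (K _ _ _ o1_s604) (B (K _ _ _ o1_s477) (B (K _ _ _ o1_s484) (K _ _ _ o1_s613)))))) (B (M (nat_lit 359) (B (M (nat_lit 392) (B (M (nat_lit 360) (B (lo17_8_4 (nat_lit 263)) (M (nat_lit 424) (B (lo18_14_6 (nat_lit 456)) (lo17_9_4 (nat_lit 391)))))) (B (M (nat_lit 424) (B (lo17_9_4 (nat_lit 391)) (M (nat_lit 393) (B (lo19_9_5 (nat_lit 297)) (M (nat_lit 456) (B (lo19_10_5 (nat_lit 425)) (lo18_15_6 (nat_lit 488)))))))) (B (M (nat_lit 360) (B (lo17_8_4 (nat_lit 263)) (M (nat_lit 362) (B (lo110_11_3 (nat_lit 326)) (M (nat_lit 391) (B (lo111_11_1 (nat_lit 363)) (lo110_11_1 (nat_lit 390)))))))) (M (nat_lit 360) (B (lo17_8_4 (nat_lit 263)) (M (nat_lit 424) (B (lo18_14_6 (nat_lit 456)) (M (nat_lit 297) (B (lo19_8_5 (nat_lit 265)) (lo19_9_5 (nat_lit 393)))))))))))) (B (K _ _ _ o1_s604) (B (K _ _ _ o1_s477) (B (K _ _ _ o1_s484) (K _ _ _ o1_s613)))))) (B (M (nat_lit 393) (B (M (nat_lit 297) (B (M (nat_lit 298) (B (lo19_12_6 (nat_lit 266)) (M (nat_lit 296) (B (lo110_9_1 (nat_lit 326)) (lo19_12_7 (nat_lit 264)))))) (B (M (nat_lit 265) (B (M (nat_lit 264) (B (lo19_11_7 (nat_lit 232)) (lo19_12_7 (nat_lit 296)))) (M (nat_lit 392) (B (lo19_8_5 (nat_lit 360)) (lo19_9_5 (nat_lit 424)))))) (M (nat_lit 265) (B (M (nat_lit 266) (B (lo19_11_6 (nat_lit 234)) (lo19_12_6 (nat_lit 298)))) (M (nat_lit 392) (B (lo19_8_5 (nat_lit 360)) (lo19_9_5 (nat_lit 424))))))))) (B (M (nat_lit 425) (B (lo19_13_6 (nat_lit 298)) (M (nat_lit 457) (B (lo19_14_6 (nat_lit 362)) (M (nat_lit 456) (B (lo19_10_5 (nat_lit 424)) (lo19_11_5 (nat_lit 488)))))))) (B (M (nat_lit 425) (B (lo112_13_3 (nat_lit 392)) (M (nat_lit 456) (B (lo112_13_1 (nat_lit 457)) (M (nat_lit 424) (B (lo111_13_1 (nat_lit 455)) (lo19_10_5 (nat_lit 361)))))))) (M (nat_lit 425) (B (lo112_13_3 (nat_lit 392)) (lo19_13_6 (nat_lit 298)))))))) (M (nat_lit 425) (B (M (nat_lit 456) (B (lo112_13_1 (nat_lit 457)) (M (nat_lit 424) (B (lo111_13_1 (nat_lit 455)) (M (nat_lit 392) (B (lo111_13_3 (nat_lit 391)) (lo18_14_6 (nat_lit 360)))))))) (B (M (nat_lit 393) (B (lo19_13_6 (nat_lit 298)) (M (nat_lit 457) (B (lo19_14_6 (nat_lit 362)) (M (nat_lit 456) (B (lo19_11_5 (nat_lit 488)) (lo19_10_5 (nat_lit 424)))))))) (M (nat_lit 393) (B (lo19_13_6 (nat_lit 298)) (lo112_13_3 (nat_lit 392)))))))))))))) (B (M (nat_lit 297) (B (M (nat_lit 265) (B (M (nat_lit 361) (B (M (nat_lit 263) (B (M (nat_lit 264) (B (lo19_11_7 (nat_lit 232)) (M (nat_lit 266) (B (lo19_11_6 (nat_lit 234)) (lo110_8_1 (nat_lit 294)))))) (B (M (nat_lit 232) (B (lo19_11_7 (nat_lit 264)) (M (nat_lit 358) (B (M (nat_lit 360) (B (lo16_11_2 (nat_lit 359)) (lo19_8_5 (nat_lit 392)))) (M (nat_lit 231) (B (lo17_10_6 (nat_lit 200)) (lo17_7_5 (nat_lit 326)))))))) (B (M (nat_lit 231) (B (M (nat_lit 360) (B (lo19_8_5 (nat_lit 392)) (M (nat_lit 358) (B (lo16_11_2 (nat_lit 359)) (lo17_7_5 (nat_lit 326)))))) (M (nat_lit 266) (B (lo19_11_6 (nat_lit 234)) (M (nat_lit 230) (B (lo110_8_3 (nat_lit 264)) (lo17_10_7 (nat_lit 198)))))))) (M (nat_lit 231) (B (M (nat_lit 360) (B (lo19_8_5 (nat_lit 392)) (M (nat_lit 358) (B (lo16_11_2 (nat_lit 359)) (lo17_7_5 (nat_lit 326)))))) (M (nat_lit 199) (B (M (nat_lit 200) (B (lo17_9_6 (nat_lit 168)) (lo17_10_6 (nat_lit 232)))) (M (nat_lit 198) (B (lo17_9_7 (nat_lit 166)) (lo17_10_7 (nat_lit 230)))))))))))) (B (K _ _ _ o1_s131) (M (nat_lit 392) (B (M (nat_lit 393) (B (lo112_13_3 (nat_lit 425)) (lo19_9_5 (nat_lit 424)))) (lo19_8_5 (nat_lit 360))))))) (B (K _ _ _ o1_s186) (B (K _ _ _ o1_s195) (B (M (nat_lit 233) (B (lo19_7_4 (nat_lit 362)) (M (nat_lit 201) (B (lo19_6_4 (nat_lit 298)) (M (nat_lit 200) (B (lo19_10_7 (nat_lit 232)) (lo19_9_7 (nat_lit 168)))))))) (M (nat_lit 233) (B (lo19_7_4 (nat_lit 362)) (M (nat_lit 201) (B (lo19_6_4 (nat_lit 298)) (M (nat_lit 202) (B (lo19_9_6 (nat_lit 170)) (lo19_10_6 (nat_lit 234))))))))))))) (B (K _ _ _ o1_s236) (B (M (nat_lit 265) (B (K _ _ _ o1_s217) (B (M (nat_lit 296) (B (lo16_9_0 (nat_lit 294)) (M (nat_lit 232) (B (M (nat_lit 233) (B (lo19_7_4 (nat_lit 362)) (lo19_10_7 (nat_lit 200)))) (B (M (nat_lit 200) (B (lo19_10_7 (nat_lit 233)) (lo18_6_4 (nat_lit 264)))) (B (M (nat_lit 264) (B (lo19_11_7 (nat_lit 361)) (lo18_6_4 (nat_lit 200)))) (M (nat_lit 264) (B (lo19_11_7 (nat_lit 361)) (M (nat_lit 359) (B (lo17_11_6 (nat_lit 263)) (lo17_12_6 (nat_lit 391)))))))))))) (B (K _ _ _ o1_s727) (B (M (nat_lit 296) (B (lo16_9_0 (nat_lit 294)) (M (nat_lit 264) (B (M (nat_lit 361) (B (lo19_11_7 (nat_lit 232)) (lo19_12_7 (nat_lit 393)))) (B (M (nat_lit 232) (B (lo18_6_4 (nat_lit 200)) (M (nat_lit 359) (B (lo17_11_6 (nat_lit 263)) (lo17_12_6 (nat_lit 391)))))) (M (nat_lit 266) (B (lo111_8_1 (nat_lit 267)) (M (nat_lit 361) (B (lo19_11_6 (nat_lit 234)) (lo19_12_7 (nat_lit 393))))))))))) (K _ _ _ o1_s738)))))) (B (K _ _ _ o1_s267) (B (K _ _ _ o1_s281) (K _ _ _ o1_s288))))))) (B (M (nat_lit 263) (B (M (nat_lit 359) (B (M (nat_lit 391) (B (M (nat_lit 262) (B (lo17_11_7 (nat_lit 230)) (lo17_12_7 (nat_lit 294)))) (M (nat_lit 392) (B (lo17_8_4 (nat_lit 360)) (lo17_9_4 (nat_lit 424)))))) (B (M (nat_lit 391) (B (M (nat_lit 264) (B (lo17_11_6 (nat_lit 232)) (lo17_12_6 (nat_lit 296)))) (M (nat_lit 390) (B (lo17_8_5 (nat_lit 358)) (lo17_9_5 (nat_lit 422)))))) (M (nat_lit 231) (B (M (nat_lit 232) (B (lo17_10_6 (nat_lit 200)) (lo17_11_6 (nat_lit 264)))) (M (nat_lit 358) (B (lo17_7_5 (nat_lit 326)) (lo17_8_5 (nat_lit 390))))))))) (B (M (nat_lit 359) (B (M (nat_lit 391) (B (M (nat_lit 264) (B (lo17_11_6 (nat_lit 232)) (lo17_12_6 (nat_lit 296)))) (M (nat_lit 392) (B (lo17_8_4 (nat_lit 360)) (lo17_9_4 (nat_lit 424)))))) (B (M (nat_lit 391) (B (M (nat_lit 392) (B (lo17_8_4 (nat_lit 360)) (lo17_9_4 (nat_lit 424)))) (M (nat_lit 390) (B (lo17_8_5 (nat_lit 358)) (lo17_9_5 (nat_lit 422)))))) (B (M (nat_lit 391) (B (M (nat_lit 264) (B (lo17_11_6 (nat_lit 232)) (lo17_12_6 (nat_lit 296)))) (M (nat_lit 390) (B (lo17_8_5 (nat_lit 358)) (lo17_9_5 (nat_lit 422)))))) (M (nat_lit 231) (B (M (nat_lit 230) (B (lo17_10_7 (nat_lit 198)) (lo17_11_7 (nat_lit 262)))) (M (nat_lit 358) (B (lo17_7_5 (nat_lit 326)) (lo17_8_5 (nat_lit 390)))))))))) (B (M (nat_lit 359) (B (M (nat_lit 391) (B (M (nat_lit 262) (B (lo17_11_7 (nat_lit 230)) (lo17_12_7 (nat_lit 294)))) (M (nat_lit 392) (B (lo17_8_4 (nat_lit 360)) (lo17_9_4 (nat_lit 424)))))) (B (M (nat_lit 391) (B (M (nat_lit 392) (B (lo17_8_4 (nat_lit 360)) (lo17_9_4 (nat_lit 424)))) (M (nat_lit 390) (B (lo17_8_5 (nat_lit 358)) (lo17_9_5 (nat_lit 422)))))) (B (M (nat_lit 391) (B (M (nat_lit 262) (B (lo17_11_7 (nat_lit 230)) (lo17_12_7 (nat_lit 294)))) (M (nat_lit 390) (B (lo17_8_5 (nat_lit 358)) (lo17_9_5 (nat_lit 422)))))) (M (nat_lit 231) (B (M (nat_lit 230) (B (lo17_10_7 (nat_lit 198)) (lo17_11_7 (nat_lit 262)))) (M (nat_lit 358) (B (lo17_7_5 (nat_lit 326)) (lo17_8_5 (nat_lit 390)))))))))) (B (M (nat_lit 264) (B (M (nat_lit 232) (B (lo17_11_6 (nat_lit 359)) (M (nat_lit 200) (B (lo18_5_5 (nat_lit 168)) (lo18_6_5 (nat_lit 296)))))) (B (M (nat_lit 359) (B (lo17_11_6 (nat_lit 232)) (M (nat_lit 391) (B (lo17_12_6 (nat_lit 296)) (M (nat_lit 392) (B (lo17_8_4 (nat_lit 360)) (lo17_9_4 (nat_lit 424)))))))) (B (M (nat_lit 265) (B (M (nat_lit 294) (B (lo110_8_1 (nat_lit 266)) (M (nat_lit 293) (B (lo19_8_1 (nat_lit 262)) (lo14_9_2 (nat_lit 292)))))) (B (M (nat_lit 262) (B (M (nat_lit 230) (B (lo19_8_3 (nat_lit 229)) (lo17_11_7 (nat_lit 359)))) (M (nat_lit 261) (B (M (nat_lit 297) (B (lo16_8_0 (nat_lit 298)) (lo15_8_0 (nat_lit 296)))) (M (nat_lit 293) (B (lo19_8_1 (nat_lit 294)) (lo18_8_1 (nat_lit 292)))))))) (B (M (nat_lit 294) (B (lo110_8_1 (nat_lit 266)) (M (nat_lit 293) (B (lo15_9_2 (nat_lit 296)) (lo14_9_2 (nat_lit 292)))))) (M (nat_lit 262) (B (M (nat_lit 230) (B (lo19_8_3 (nat_lit 229)) (lo17_11_7 (nat_lit 359)))) (M (nat_lit 266) (B (M (nat_lit 234) (B (lo17_8_2 (nat_lit 235)) (lo16_8_2 (nat_lit 233)))) (M (nat_lit 298) (B (lo17_8_0 (nat_lit 299)) (lo16_8_0 (nat_lit 297)))))))))))) (B (M (nat_lit 359) (B (lo17_11_6 (nat_lit 232)) (M (nat_lit 391) (B (M (nat_lit 262) (B (lo17_11_7 (nat_lit 230)) (lo17_12_7 (nat_lit 294)))) (M (nat_lit 390) (B (lo17_8_5 (nat_lit 358)) (lo17_9_5 (nat_lit 422)))))))) (M (nat_lit 265) (B (M (nat_lit 294) (B (lo110_8_1 (nat_lit 266)) (M (nat_lit 293) (B (lo19_8_1 (nat_lit 262)) (lo15_9_2 (nat_lit 296)))))) (B (M (nat_lit 262) (B (M (nat_lit 294) (B (lo19_8_1 (nat_lit 293)) (M (nat_lit 230) (B (lo16_6_4 (nat_lit 198)) (lo19_8_3 (nat_lit 229)))))) (M (nat_lit 261) (B (M (nat_lit 233) (B (lo16_8_2 (nat_lit 234)) (lo15_8_2 (nat_lit 232)))) (M (nat_lit 297) (B (lo16_8_0 (nat_lit 298)) (lo15_8_0 (nat_lit 296)))))))) (B (M (nat_lit 294) (B (lo110_8_1 (nat_lit 266)) (M (nat_lit 293) (B (lo15_9_2 (nat_lit 296)) (lo14_9_2 (nat_lit 292)))))) (B (M (nat_lit 294) (B (lo110_8_1 (nat_lit 266)) (M (nat_lit 293) (B (lo19_8_1 (nat_lit 262)) (lo14_9_2 (nat_lit 292)))))) (M (nat_lit 262) (B (M (nat_lit 261) (B (M (nat_lit 229) (B (lo19_8_3 (nat_lit 230)) (lo18_8_3 (nat_lit 228)))) (M (nat_lit 297) (B (lo16_8_0 (nat_lit 298)) (lo15_8_0 (nat_lit 296)))))) (B (M (nat_lit 261) (B (M (nat_lit 233) (B (lo16_8_2 (nat_lit 234)) (lo15_8_2 (nat_lit 232)))) (M (nat_lit 297) (B (lo16_8_0 (nat_lit 298)) (lo15_8_0 (nat_lit 296)))))) (B (M (nat_lit 266) (B (M (nat_lit 234) (B (lo17_8_2 (nat_lit 235)) (lo16_8_2 (nat_lit 233)))) (M (nat_lit 298) (B (lo17_8_0 (nat_lit 299)) (lo16_8_0 (nat_lit 297)))))) (M (nat_lit 261) (B (M (nat_lit 233) (B (lo16_8_2 (nat_lit 234)) (lo15_8_2 (nat_lit 232)))) (M (nat_lit 229) (B (lo19_8_3 (nat_lit 230)) (lo18_8_3 (nat_lit 228)))))))))))))))))))) (B (M (nat_lit 359) (B (M (nat_lit 391) (B (M (nat_lit 264) (B (lo17_11_6 (nat_lit 232)) (lo17_12_6 (nat_lit 296)))) (M (nat_lit 392) (B (lo17_8_4 (nat_lit 360)) (lo17_9_4 (nat_lit 424)))))) (B (M (nat_lit 391) (B (M (nat_lit 392) (B (lo17_8_4 (nat_lit 360)) (lo17_9_4 (nat_lit 424)))) (M (nat_lit 390) (B (lo17_8_5 (nat_lit 358)) (lo17_9_5 (nat_lit 422)))))) (B (M (nat_lit 391) (B (M (nat_lit 264) (B (lo17_11_6 (nat_lit 232)) (lo17_12_6 (nat_lit 296)))) (M (nat_lit 390) (B (lo17_8_5 (nat_lit 358)) (lo17_9_5 (nat_lit 422)))))) (M (nat_lit 231) (B (M (nat_lit 232) (B (lo17_10_6 (nat_lit 200)) (lo17_11_6 (nat_lit 264)))) (M (nat_lit 358) (B (lo17_7_5 (nat_lit 326)) (lo17_8_5 (nat_lit 390)))))))))) (B (M (nat_lit 359) (B (M (nat_lit 231) (B (M (nat_lit 230) (B (lo17_10_7 (nat_lit 198)) (lo17_11_7 (nat_lit 262)))) (M (nat_lit 358) (B (lo17_7_5 (nat_lit 326)) (lo17_8_5 (nat_lit 390)))))) (B (M (nat_lit 231) (B (M (nat_lit 232) (B (lo17_10_6 (nat_lit 200)) (lo17_11_6 (nat_lit 264)))) (M (nat_lit 358) (B (lo17_7_5 (nat_lit 326)) (lo17_8_5 (nat_lit 390)))))) (B (M (nat_lit 391) (B (M (nat_lit 264) (B (lo17_11_6 (nat_lit 232)) (lo17_12_6 (nat_lit 296)))) (M (nat_lit 390) (B (lo17_8_5 (nat_lit 358)) (lo17_9_5 (nat_lit 422)))))) (M (nat_lit 231) (B (M (nat_lit 232) (B (lo17_10_6 (nat_lit 200)) (lo17_11_6 (nat_lit 264)))) (M (nat_lit 230) (B (lo17_10_7 (nat_lit 198)) (lo17_11_7 (nat_lit 262)))))))))) (B (M (nat_lit 231) (B (M (nat_lit 199) (B (M (nat_lit 198) (B (lo17_9_7 (nat_lit 166)) (lo17_10_7 (nat_lit 230)))) (M (nat_lit 326) (B (lo17_6_5 (nat_lit 294)) (lo17_7_5 (nat_lit 358)))))) (B (M (nat_lit 199) (B (M (nat_lit 200) (B (lo17_9_6 (nat_lit 168)) (lo17_10_6 (nat_lit 232)))) (M (nat_lit 326) (B (lo17_6_5 (nat_lit 294)) (lo17_7_5 (nat_lit 358)))))) (M (nat_lit 232) (B (lo17_10_6 (nat_lit 200)) (M (nat_lit 230) (B (lo17_10_7 (nat_lit 198)) (M (nat_lit 233) (B (M (nat_lit 262) (B (lo110_7_1 (nat_lit 234)) (lo19_7_1 (nat_lit 261)))) (B (M (nat_lit 229) (B (M (nat_lit 265) (B (lo16_7_0 (nat_lit 266)) (lo15_7_0 (nat_lit 264)))) (M (nat_lit 261) (B (lo19_7_1 (nat_lit 262)) (lo18_7_1 (nat_lit 260)))))) (M (nat_lit 234) (B (M (nat_lit 202) (B (lo17_7_2 (nat_lit 203)) (lo16_7_2 (nat_lit 201)))) (M (nat_lit 266) (B (lo17_7_0 (nat_lit 267)) (lo16_7_0 (nat_lit 265)))))))))))))))) (M (nat_lit 359) (B (M (nat_lit 391) (B (M (nat_lit 262) (B (lo17_11_7 (nat_lit 230)) (lo17_12_7 (nat_lit 294)))) (M (nat_lit 392) (B (lo17_8_4 (nat_lit 360)) (lo17_9_4 (nat_lit 424)))))) (B (M (nat_lit 391) (B (M (nat_lit 264) (B (lo17_11_6 (nat_lit 232)) (lo17_12_6 (nat_lit 296)))) (M (nat_lit 392) (B (lo17_8_4 (nat_lit 360)) (lo17_9_4 (nat_lit 424)))))) (B (M (nat_lit 391) (B (M (nat_lit 264) (B (lo17_11_6 (nat_lit 232)) (lo17_12_6 (nat_lit 296)))) (M (nat_lit 262) (B (lo17_11_7 (nat_lit 230)) (lo17_12_7 (nat_lit 294)))))) (M (nat_lit 231) (B (M (nat_lit 232) (B (lo17_10_6 (nat_lit 200)) (lo17_11_6 (nat_lit 264)))) (M (nat_lit 230) (B (lo17_10_7 (nat_lit 198)) (lo17_11_7 (nat_lit 262)))))))))))))))))) (B (M (nat_lit 359) (B (K _ _ _ o1_s885) (B (M (nat_lit 263) (B (M (nat_lit 391) (B (M (nat_lit 392) (B (lo17_8_4 (nat_lit 360)) (lo17_9_4 (nat_lit 424)))) (M (nat_lit 262) (B (lo17_11_7 (nat_lit 230)) (lo17_12_7 (nat_lit 294)))))) (B (M (nat_lit 391) (B (M (nat_lit 262) (B (lo17_11_7 (nat_lit 230)) (lo17_12_7 (nat_lit 294)))) (M (nat_lit 390) (B (lo17_8_5 (nat_lit 358)) (lo17_9_5 (nat_lit 422)))))) (B (M (nat_lit 231) (B (M (nat_lit 230) (B (lo17_10_7 (nat_lit 198)) (lo17_11_7 (nat_lit 262)))) (M (nat_lit 358) (B (lo17_7_5 (nat_lit 326)) (lo17_8_5 (nat_lit 390)))))) (M (nat_lit 391) (B (M (nat_lit 392) (B (lo17_8_4 (nat_lit 360)) (lo17_9_4 (nat_lit 424)))) (M (nat_lit 390) (B (lo17_8_5 (nat_lit 358)) (lo17_9_5 (nat_lit 422)))))))))) (B (M (nat_lit 391) (B (M (nat_lit 294) (B (lo17_12_7 (nat_lit 262)) (M (nat_lit 423) (B (lo17_13_7 (nat_lit 326)) (M (nat_lit 424) (B (lo17_9_4 (nat_lit 392)) (lo17_10_4 (nat_lit 456)))))))) (B (M (nat_lit 423) (B (M (nat_lit 294) (B (lo17_12_7 (nat_lit 262)) (lo17_13_7 (nat_lit 326)))) (M (nat_lit 422) (B (lo17_9_5 (nat_lit 390)) (lo17_10_5 (nat_lit 454)))))) (B (M (nat_lit 263) (B (M (nat_lit 262) (B (lo17_11_7 (nat_lit 230)) (lo17_12_7 (nat_lit 294)))) (M (nat_lit 390) (B (lo17_8_5 (nat_lit 358)) (lo17_9_5 (nat_lit 422)))))) (M (nat_lit 423) (B (M (nat_lit 424) (B (lo17_9_4 (nat_lit 392)) (lo17_10_4 (nat_lit 456)))) (M (nat_lit 422) (B (lo17_9_5 (nat_lit 390)) (lo17_10_5 (nat_lit 454)))))))))) (B (M (nat_lit 263) (B (M (nat_lit 231) (B (M (nat_lit 230) (B (lo17_10_7 (nat_lit 198)) (lo17_11_7 (nat_lit 262)))) (M (nat_lit 358) (B (lo17_7_5 (nat_lit 326)) (lo17_8_5 (nat_lit 390)))))) (B (M (nat_lit 391) (B (M (nat_lit 262) (B (lo17_11_7 (nat_lit 230)) (lo17_12_7 (nat_lit 294)))) (M (nat_lit 390) (B (lo17_8_5 (nat_lit 358)) (lo17_9_5 (nat_lit 422)))))) (B (M (nat_lit 391) (B (M (nat_lit 390) (B (lo17_8_5 (nat_lit 358)) (lo17_9_5 (nat_lit 422)))) (B (M (nat_lit 423) (B (M (nat_lit 294) (B (lo17_12_7 (nat_lit 262)) (lo17_13_7 (nat_lit 326)))) (M (nat_lit 422) (B (lo17_9_5 (nat_lit 390)) (lo17_10_5 (nat_lit 454)))))) (M (nat_lit 294) (B (lo17_12_7 (nat_lit 262)) (M (nat_lit 326) (B (lo17_13_7 (nat_lit 423)) (M (nat_lit 231) (B (lo17_6_5 (nat_lit 199)) (lo17_7_5 (nat_lit 358))))))))))) (B (M (nat_lit 231) (B (M (nat_lit 358) (B (lo17_7_5 (nat_lit 326)) (lo17_8_5 (nat_lit 390)))) (M (nat_lit 199) (B (M (nat_lit 200) (B (lo17_9_6 (nat_lit 168)) (lo17_10_6 (nat_lit 232)))) (M (nat_lit 198) (B (lo17_9_7 (nat_lit 166)) (lo17_10_7 (nat_lit 230)))))))) (M (nat_lit 231) (B (M (nat_lit 230) (B (lo17_10_7 (nat_lit 198)) (lo17_11_7 (nat_lit 262)))) (B (M (nat_lit 262) (B (lo17_11_7 (nat_lit 230)) (M (nat_lit 294) (B (lo17_12_7 (nat_lit 391)) (M (nat_lit 199) (B (lo17_5_5 (nat_lit 167)) (lo17_6_5 (nat_lit 326)))))))) (B (M (nat_lit 199) (B (M (nat_lit 200) (B (lo17_9_6 (nat_lit 168)) (lo17_10_6 (nat_lit 232)))) (M (nat_lit 294) (B (lo17_6_5 (nat_lit 326)) (M (nat_lit 262) (B (lo17_5_5 (nat_lit 167)) (lo17_12_7 (nat_lit 391)))))))) (M (nat_lit 199) (B (M (nat_lit 200) (B (lo17_9_6 (nat_lit 168)) (lo17_10_6 (nat_lit 232)))) (M (nat_lit 198) (B (lo17_9_7 (nat_lit 166)) (lo17_10_7 (nat_lit 230))))))))))))))) (B (K _ _ _ o1_s971) (B (M (nat_lit 263) (B (M (nat_lit 358) (B (lo17_8_5 (nat_lit 390)) (M (nat_lit 360) (B (lo16_11_2 (nat_lit 361)) (lo17_8_4 (nat_lit 392)))))) (B (M (nat_lit 231) (B (M (nat_lit 230) (B (lo17_10_7 (nat_lit 198)) (lo17_11_7 (nat_lit 262)))) (M (nat_lit 358) (B (lo17_7_5 (nat_lit 326)) (lo17_8_5 (nat_lit 390)))))) (M (nat_lit 231) (B (M (nat_lit 230) (B (lo17_10_7 (nat_lit 198)) (lo17_11_7 (nat_lit 262)))) (B (M (nat_lit 262) (B (lo17_11_7 (nat_lit 230)) (M (nat_lit 199) (B (M (nat_lit 200) (B (lo17_9_6 (nat_lit 168)) (lo17_10_6 (nat_lit 232)))) (M (nat_lit 294) (B (lo17_5_5 (nat_lit 167)) (lo17_6_5 (nat_lit 326)))))))) (B (M (nat_lit 199) (B (M (nat_lit 200) (B (lo17_9_6 (nat_lit 168)) (lo17_10_6 (nat_lit 232)))) (M (nat_lit 167) (B (M (nat_lit 166) (B (lo17_8_7 (nat_lit 134)) (lo17_9_7 (nat_lit 198)))) (M (nat_lit 294) (B (lo17_5_5 (nat_lit 262)) (lo17_6_5 (nat_lit 326)))))))) (M (nat_lit 199) (B (M (nat_lit 200) (B (lo17_9_6 (nat_lit 168)) (lo17_10_6 (nat_lit 232)))) (M (nat_lit 198) (B (lo17_9_7 (nat_lit 166)) (lo17_10_7 (nat_lit 230))))))))))))) (B (K _ _ _ o1_s1017) (B (K _ _ _ o1_s1046) (B (K _ _ _ o1_s1048) (M (nat_lit 263) (B (M (nat_lit 391) (B (M (nat_lit 392) (B (lo17_8_4 (nat_lit 360)) (lo17_9_4 (nat_lit 424)))) (M (nat_lit 262) (B (lo17_11_7 (nat_lit 230)) (lo17_12_7 (nat_lit 294)))))) (B (M (nat_lit 231) (B (M (nat_lit 230) (B (lo17_10_7 (nat_lit 198)) (lo17_11_7 (nat_lit 262)))) (M (nat_lit 199) (B (M (nat_lit 200) (B (lo17_9_6 (nat_lit 168)) (lo17_10_6 (nat_lit 232)))) (M (nat_lit 326) (B (lo17_6_5 (nat_lit 294)) (lo17_7_5 (nat_lit 358)))))))) (B (M (nat_lit 326) (B (M (nat_lit 358) (B (lo17_7_5 (nat_lit 231)) (M (nat_lit 360) (B (lo16_11_2 (nat_lit 361)) (lo17_8_4 (nat_lit 392)))))) (B (M (nat_lit 294) (B (M (nat_lit 231) (B (lo17_6_5 (nat_lit 199)) (lo17_7_5 (nat_lit 358)))) (M (nat_lit 391) (B (lo17_12_7 (nat_lit 262)) (lo17_13_7 (nat_lit 423)))))) (M (nat_lit 391) (B (M (nat_lit 392) (B (lo17_8_4 (nat_lit 360)) (lo17_9_4 (nat_lit 424)))) (M (nat_lit 294) (B (lo17_12_7 (nat_lit 262)) (lo17_13_7 (nat_lit 423))))))))) (M (nat_lit 231) (B (M (nat_lit 360) (B (lo17_8_4 (nat_lit 392)) (M (nat_lit 358) (B (lo16_11_2 (nat_lit 361)) (lo17_7_5 (nat_lit 326)))))) (M (nat_lit 199) (B (M (nat_lit 200) (B (lo17_9_6 (nat_lit 168)) (lo17_10_6 (nat_lit 232)))) (M (nat_lit 198) (B (lo17_9_7 (nat_lit 166)) (lo17_10_7 (nat_lit 230)))))))))))))))))))))) (B (M (nat_lit 297) (B (K _ _ _ o1_s288) (B (K _ _ _ o1_s1089) (B (K _ _ _ o1_s1140) (B (K _ _ _ o1_s1149) (B (M (nat_lit 265) (B (M (nat_lit 233) (B (lo19_7_4 (nat_lit 362)) (M (nat_lit 201) (B (lo19_6_4 (nat_lit 298)) (M (nat_lit 200) (B (lo19_9_7 (nat_lit 168)) (lo19_10_7 (nat_lit 232)))))))) (B (K _ _ _ o1_s738) (B (K _ _ _ o1_s218) (B (K _ _ _ o1_s217) (B (M (nat_lit 264) (B (K _ _ _ o1_s1157) (B (K _ _ _ o1_s1116) (B (M (nat_lit 263) (B (M (nat_lit 232) (B (lo19_11_7 (nat_lit 361)) (M (nat_lit 200) (B (lo18_5_4 (nat_lit 168)) (lo17_10_6 (nat_lit 231)))))) (M (nat_lit 262) (B (lo16_8_0 (nat_lit 298)) (M (nat_lit 294) (B (lo19_8_1 (nat_lit 293)) (M (nat_lit 230) (B (lo19_8_3 (nat_lit 229)) (lo16_6_4 (nat_lit 198)))))))))) (B (M (nat_lit 263) (B (M (nat_lit 266) (B (lo110_8_1 (nat_lit 294)) (M (nat_lit 298) (B (lo17_8_0 (nat_lit 299)) (lo16_8_0 (nat_lit 262)))))) (B (M (nat_lit 294) (B (lo110_8_1 (nat_lit 266)) (M (nat_lit 262) (B (lo16_8_0 (nat_lit 298)) (lo19_8_1 (nat_lit 293)))))) (B (M (nat_lit 262) (B (lo16_8_0 (nat_lit 298)) (M (nat_lit 294) (B (lo19_8_1 (nat_lit 293)) (M (nat_lit 230) (B (lo19_8_3 (nat_lit 229)) (lo16_6_4 (nat_lit 198)))))))) (B (M (nat_lit 266) (B (lo110_8_1 (nat_lit 294)) (M (nat_lit 231) (B (lo110_8_3 (nat_lit 230)) (M (nat_lit 232) (B (lo111_8_3 (nat_lit 267)) (lo17_10_6 (nat_lit 200)))))))) (M (nat_lit 298) (B (lo16_8_0 (nat_lit 262)) (M (nat_lit 299) (B (lo112_9_3 (nat_lit 300)) (lo17_8_0 (nat_lit 266))))))))))) (M (nat_lit 263) (B (M (nat_lit 298) (B (lo16_8_0 (nat_lit 262)) (M (nat_lit 299) (B (lo112_9_3 (nat_lit 300)) (lo17_8_0 (nat_lit 266)))))) (B (M (nat_lit 266) (B (lo110_8_1 (nat_lit 294)) (M (nat_lit 234) (B (lo17_8_2 (nat_lit 235)) (lo19_11_6 (nat_lit 361)))))) (M (nat_lit 262) (B (lo16_8_0 (nat_lit 298)) (M (nat_lit 294) (B (lo19_8_1 (nat_lit 293)) (M (nat_lit 230) (B (lo19_8_3 (nat_lit 229)) (lo16_6_4 (nat_lit 198)))))))))))))))) (M (nat_lit 233) (B (lo19_7_4 (nat_lit 362)) (M (nat_lit 201) (B (lo19_6_4 (nat_lit 298)) (M (nat_lit 202) (B (lo19_9_6 (nat_lit 170)) (lo19_10_6 (nat_lit 234)))))))))))))) (M (nat_lit 298) (B (M (nat_lit 296) (B (lo110_9_1 (nat_lit 326)) (M (nat_lit 266) (B (lo17_9_2 (nat_lit 267)) (M (nat_lit 234) (B (lo110_6_5 (nat_lit 202)) (lo110_7_5 (nat_lit 361)))))))) (B (M (nat_lit 296) (B (lo110_9_1 (nat_lit 326)) (M (nat_lit 264) (B (M (nat_lit 263) (B (lo111_9_3 (nat_lit 299)) (lo110_9_3 (nat_lit 262)))) (M (nat_lit 361) (B (lo19_12_7 (nat_lit 393)) (M (nat_lit 232) (B (lo19_11_7 (nat_lit 265)) (lo18_6_4 (nat_lit 200)))))))))) (B (M (nat_lit 296) (B (lo110_9_1 (nat_lit 326)) (M (nat_lit 299) (B (M (nat_lit 267) (B (lo18_9_2 (nat_lit 268)) (lo17_9_2 (nat_lit 266)))) (M (nat_lit 263) (B (lo111_9_3 (nat_lit 264)) (lo110_9_3 (nat_lit 262)))))))) (M (nat_lit 266) (B (M (nat_lit 234) (B (lo110_6_5 (nat_lit 202)) (lo110_7_5 (nat_lit 361)))) (B (M (nat_lit 361) (B (lo110_7_5 (nat_lit 234)) (lo19_12_6 (nat_lit 393)))) (B (M (nat_lit 265) (B (M (nat_lit 233) (B (lo110_11_7 (nat_lit 362)) (lo19_6_4 (nat_lit 201)))) (M (nat_lit 264) (B (M (nat_lit 299) (B (lo112_9_3 (nat_lit 300)) (lo17_8_0 (nat_lit 263)))) (M (nat_lit 361) (B (lo19_12_6 (nat_lit 393)) (lo19_11_7 (nat_lit 232)))))))) (K _ _ _ o1_s1223))))))))))))))) (B (M (nat_lit 297) (B (K _ _ _ o1_s288) (B (K _ _ _ o1_s1089) (B (M (nat_lit 265) (B (K _ _ _ o1_s217) (B (M (nat_lit 264) (B (M (nat_lit 232) (B (lo19_11_7 (nat_lit 361)) (M (nat_lit 233) (B (lo19_7_4 (nat_lit 362)) (lo19_10_7 (nat_lit 200)))))) (B (M (nat_lit 232) (B (lo19_11_7 (nat_lit 361)) (M (nat_lit 200) (B (lo19_10_7 (nat_lit 233)) (lo18_6_4 (nat_lit 296)))))) (B (M (nat_lit 232) (B (lo19_11_7 (nat_lit 361)) (M (nat_lit 296) (B (lo16_9_0 (nat_lit 294)) (lo18_6_4 (nat_lit 200)))))) (K _ _ _ o1_s1244))))) (B (K _ _ _ o1_s738) (B (K _ _ _ o1_s727) (M (nat_lit 264) (B (M (nat_lit 232) (B (lo19_11_7 (nat_lit 361)) (M (nat_lit 296) (B (lo16_9_0 (nat_lit 294)) (lo18_6_4 (nat_lit 200)))))) (B (K _ _ _ o1_s1244) (M (nat_lit 232) (B (lo19_11_7 (nat_lit 361)) (M (nat_lit 200) (B (lo18_5_4 (nat_lit 168)) (M (nat_lit 263) (B (lo17_10_6 (nat_lit 231)) (lo17_11_6 (nat_lit 359)))))))))))))))) (B (K _ _ _ o1_s1149) (B (M (nat_lit 265) (B (M (nat_lit 233) (B (lo19_7_4 (nat_lit 362)) (M (nat_lit 201) (B (lo19_6_4 (nat_lit 298)) (M (nat_lit 202) (B (lo19_9_6 (nat_lit 170)) (lo19_10_6 (nat_lit 234)))))))) (B (M (nat_lit 233) (B (lo19_7_4 (nat_lit 362)) (M (nat_lit 201) (B (lo19_6_4 (nat_lit 298)) (M (nat_lit 200) (B (lo19_9_7 (nat_lit 168)) (lo19_10_7 (nat_lit 232)))))))) (B (K _ _ _ o1_s738) (B (K _ _ _ o1_s218) (B (K _ _ _ o1_s217) (M (nat_lit 263) (B (M (nat_lit 264) (B (M (nat_lit 232) (B (lo19_11_7 (nat_lit 361)) (lo17_11_6 (nat_lit 359)))) (M (nat_lit 294) (B (lo110_8_1 (nat_lit 266)) (M (nat_lit 262) (B (lo16_8_0 (nat_lit 298)) (lo19_8_1 (nat_lit 293)))))))) (B (M (nat_lit 264) (B (M (nat_lit 232) (B (lo19_11_7 (nat_lit 361)) (lo17_11_6 (nat_lit 359)))) (B (M (nat_lit 232) (B (lo17_11_6 (nat_lit 359)) (M (nat_lit 200) (B (lo18_5_4 (nat_lit 168)) (lo17_10_6 (nat_lit 231)))))) (B (M (nat_lit 262) (B (lo16_8_0 (nat_lit 298)) (M (nat_lit 230) (B (lo19_8_3 (nat_lit 229)) (lo17_11_7 (nat_lit 359)))))) (M (nat_lit 232) (B (lo19_11_7 (nat_lit 361)) (M (nat_lit 200) (B (lo18_5_4 (nat_lit 168)) (lo17_10_6 (nat_lit 231)))))))))) (B (M (nat_lit 264) (B (M (nat_lit 232) (B (lo19_11_7 (nat_lit 361)) (lo17_11_6 (nat_lit 359)))) (B (M (nat_lit 232) (B (lo17_11_6 (nat_lit 359)) (M (nat_lit 200) (B (lo18_5_4 (nat_lit 168)) (lo17_10_6 (nat_lit 231)))))) (B (M (nat_lit 230) (B (M (nat_lit 231) (B (lo110_8_3 (nat_lit 266)) (lo17_10_7 (nat_lit 198)))) (M (nat_lit 262) (B (lo19_8_3 (nat_lit 229)) (lo17_11_7 (nat_lit 359)))))) (M (nat_lit 232) (B (lo19_11_7 (nat_lit 361)) (M (nat_lit 200) (B (lo18_5_4 (nat_lit 168)) (lo17_10_6 (nat_lit 231)))))))))) (B (M (nat_lit 264) (B (M (nat_lit 232) (B (lo17_11_6 (nat_lit 359)) (M (nat_lit 200) (B (lo18_5_4 (nat_lit 168)) (lo17_10_6 (nat_lit 231)))))) (M (nat_lit 294) (B (lo110_8_1 (nat_lit 266)) (M (nat_lit 262) (B (lo16_8_0 (nat_lit 298)) (lo19_8_1 (nat_lit 293)))))))) (B (M (nat_lit 266) (B (M (nat_lit 264) (B (lo110_8_1 (nat_lit 294)) (M (nat_lit 298) (B (lo17_8_0 (nat_lit 299)) (lo16_8_0 (nat_lit 262)))))) (B (M (nat_lit 264) (B (lo110_8_1 (nat_lit 294)) (M (nat_lit 234) (B (lo17_8_2 (nat_lit 235)) (lo19_11_6 (nat_lit 361)))))) (M (nat_lit 234) (B (lo19_11_6 (nat_lit 361)) (M (nat_lit 202) (B (lo110_5_5 (nat_lit 170)) (lo110_6_5 (nat_lit 298))))))))) (B (M (nat_lit 231) (B (M (nat_lit 199) (B (M (nat_lit 200) (B (lo17_9_6 (nat_lit 168)) (lo17_10_6 (nat_lit 232)))) (M (nat_lit 326) (B (lo17_6_5 (nat_lit 294)) (lo17_7_5 (nat_lit 358)))))) (B (M (nat_lit 199) (B (M (nat_lit 198) (B (lo17_9_7 (nat_lit 166)) (lo17_10_7 (nat_lit 230)))) (M (nat_lit 326) (B (lo17_6_5 (nat_lit 294)) (lo17_7_5 (nat_lit 358)))))) (B (M (nat_lit 359) (B (M (nat_lit 230) (B (lo17_10_7 (nat_lit 198)) (lo17_11_7 (nat_lit 262)))) (M (nat_lit 358) (B (lo17_7_5 (nat_lit 326)) (lo17_8_5 (nat_lit 390)))))) (M (nat_lit 199) (B (M (nat_lit 200) (B (lo17_9_6 (nat_lit 168)) (lo17_10_6 (nat_lit 232)))) (M (nat_lit 198) (B (lo17_9_7 (nat_lit 166)) (lo17_10_7 (nat_lit 230)))))))))) (M (nat_lit 264) (B (M (nat_lit 232) (B (lo19_11_7 (nat_lit 361)) (lo17_11_6 (nat_lit 359)))) (B (M (nat_lit 232) (B (lo17_11_6 (nat_lit 359)) (M (nat_lit 200) (B (lo18_5_4 (nat_lit 168)) (lo17_10_6 (nat_lit 231)))))) (M (nat_lit 266) (B (lo110_8_1 (nat_lit 294)) (M (nat_lit 234) (B (lo17_8_2 (nat_lit 235)) (lo19_11_6 (nat_lit 361)))))))))))))))))))))) (K _ _ _ o1_s1313))))))) (B (M (nat_lit 297) (B (M (nat_lit 265) (B (M (nat_lit 233) (B (lo19_7_4 (nat_lit 362)) (M (nat_lit 201) (B (lo19_6_4 (nat_lit 298)) (M (nat_lit 202) (B (lo19_9_6 (nat_lit 170)) (lo19_10_6 (nat_lit 234)))))))) (B (M (nat_lit 233) (B (lo19_7_4 (nat_lit 362)) (M (nat_lit 201) (B (lo19_6_4 (nat_lit 298)) (M (nat_lit 200) (B (lo19_9_7 (nat_lit 168)) (lo19_10_7 (nat_lit 232)))))))) (B (K _ _ _ o1_s738) (B (K _ _ _ o1_s218) (B (K _ _ _ o1_s217) (M (nat_lit 264) (B (M (nat_lit 232) (B (lo19_11_7 (nat_lit 361)) (M (nat_lit 200) (B (lo18_5_4 (nat_lit 168)) (M (nat_lit 263) (B (lo17_10_6 (nat_lit 231)) (lo17_11_6 (nat_lit 359)))))))) (B (M (nat_lit 263) (B (M (nat_lit 266) (B (lo110_8_1 (nat_lit 294)) (M (nat_lit 298) (B (lo17_8_0 (nat_lit 299)) (lo16_8_0 (nat_lit 262)))))) (M (nat_lit 232) (B (lo17_11_6 (nat_lit 359)) (M (nat_lit 200) (B (lo18_5_4 (nat_lit 168)) (lo17_10_6 (nat_lit 231)))))))) (B (K _ _ _ o1_s1157) (M (nat_lit 266) (B (M (nat_lit 263) (B (lo110_8_1 (nat_lit 294)) (M (nat_lit 298) (B (lo17_8_0 (nat_lit 299)) (lo16_8_0 (nat_lit 262)))))) (B (M (nat_lit 234) (B (lo19_11_6 (nat_lit 361)) (M (nat_lit 263) (B (lo17_8_2 (nat_lit 235)) (lo110_8_1 (nat_lit 294)))))) (M (nat_lit 234) (B (lo19_11_6 (nat_lit 361)) (M (nat_lit 202) (B (lo110_5_5 (nat_lit 170)) (lo110_6_5 (nat_lit 298))))))))))))))))))) (B (K _ _ _ o1_s1140) (B (K _ _ _ o1_s1313) (B (M (nat_lit 296) (B (lo16_9_0 (nat_lit 294)) (M (nat_lit 264) (B (M (nat_lit 232) (B (lo18_6_4 (nat_lit 200)) (M (nat_lit 361) (B (lo19_12_7 (nat_lit 393)) (lo19_11_7 (nat_lit 265)))))) (M (nat_lit 298) (B (lo110_9_1 (nat_lit 326)) (M (nat_lit 263) (B (lo111_9_3 (nat_lit 299)) (lo110_9_3 (nat_lit 262)))))))))) (B (K _ _ _ o1_s1149) (K _ _ _ o1_s288))))))) (B (M (nat_lit 359) (B (M (nat_lit 391) (B (M (nat_lit 294) (B (lo17_12_7 (nat_lit 262)) (M (nat_lit 296) (B (lo16_9_0 (nat_lit 297)) (lo17_12_6 (nat_lit 264)))))) (M (nat_lit 263) (B (M (nat_lit 392) (B (lo17_8_4 (nat_lit 360)) (lo17_9_4 (nat_lit 424)))) (M (nat_lit 390) (B (lo17_8_5 (nat_lit 358)) (lo17_9_5 (nat_lit 422)))))))) (B (K _ _ _ o1_s885) (B (K _ _ _ o1_s1339) (B (M (nat_lit 361) (B (M (nat_lit 358) (B (lo16_11_2 (nat_lit 360)) (M (nat_lit 390) (B (lo17_8_5 (nat_lit 263)) (M (nat_lit 422) (B (lo17_9_5 (nat_lit 391)) (lo16_13_6 (nat_lit 326)))))))) (B (M (nat_lit 296) (B (M (nat_lit 297) (B (lo16_9_0 (nat_lit 294)) (M (nat_lit 264) (B (lo19_12_7 (nat_lit 393)) (lo17_12_6 (nat_lit 391)))))) (B (M (nat_lit 391) (B (lo17_12_6 (nat_lit 264)) (M (nat_lit 423) (B (M (nat_lit 294) (B (lo17_12_7 (nat_lit 262)) (lo17_13_7 (nat_lit 326)))) (M (nat_lit 422) (B (lo17_9_5 (nat_lit 390)) (lo17_10_5 (nat_lit 454)))))))) (B (M (nat_lit 297) (B (lo16_9_0 (nat_lit 294)) (M (nat_lit 298) (B (lo110_9_1 (nat_lit 326)) (M (nat_lit 266) (B (lo17_9_2 (nat_lit 267)) (lo19_12_6 (nat_lit 393)))))))) (K _ _ _ o1_s1366))))) (B (M (nat_lit 358) (B (lo16_11_2 (nat_lit 360)) (M (nat_lit 390) (B (lo17_8_5 (nat_lit 263)) (M (nat_lit 422) (B (lo16_13_6 (nat_lit 326)) (lo16_14_6 (nat_lit 454)))))))) (B (M (nat_lit 358) (B (lo16_11_2 (nat_lit 360)) (M (nat_lit 390) (B (lo17_8_5 (nat_lit 263)) (M (nat_lit 422) (B (lo17_9_5 (nat_lit 391)) (lo16_14_6 (nat_lit 454)))))))) (M (nat_lit 296) (B (M (nat_lit 297) (B (lo16_9_0 (nat_lit 294)) (M (nat_lit 264) (B (lo19_12_7 (nat_lit 393)) (lo17_12_6 (nat_lit 391)))))) (B (M (nat_lit 391) (B (lo17_12_6 (nat_lit 264)) (M (nat_lit 326) (B (M (nat_lit 360) (B (lo16_11_2 (nat_lit 358)) (lo110_11_3 (nat_lit 362)))) (M (nat_lit 294) (B (lo17_12_7 (nat_lit 262)) (lo17_13_7 (nat_lit 423)))))))) (B (M (nat_lit 326) (B (M (nat_lit 297) (B (lo110_9_1 (nat_lit 298)) (lo16_9_0 (nat_lit 294)))) (M (nat_lit 360) (B (lo16_11_2 (nat_lit 358)) (lo110_11_3 (nat_lit 362)))))) (K _ _ _ o1_s1366)))))))))) (B (M (nat_lit 297) (B (M (nat_lit 296) (B (lo16_9_0 (nat_lit 294)) (M (nat_lit 298) (B (lo110_9_1 (nat_lit 326)) (M (nat_lit 266) (B (lo17_9_2 (nat_lit 267)) (M (nat_lit 234) (B (lo110_6_5 (nat_lit 202)) (lo110_7_5 (nat_lit 361)))))))))) (B (M (nat_lit 361) (B (M (nat_lit 360) (B (lo16_11_2 (nat_lit 358)) (M (nat_lit 392) (B (lo19_8_5 (nat_lit 265)) (lo17_8_4 (nat_lit 263)))))) (M (nat_lit 298) (B (M (nat_lit 266) (B (lo110_7_5 (nat_lit 234)) (lo19_12_6 (nat_lit 393)))) (M (nat_lit 296) (B (lo110_9_1 (nat_lit 326)) (lo16_9_0 (nat_lit 294)))))))) (B (M (nat_lit 263) (B (M (nat_lit 358) (B (lo17_8_5 (nat_lit 390)) (M (nat_lit 360) (B (lo16_11_2 (nat_lit 361)) (lo17_8_4 (nat_lit 392)))))) (M (nat_lit 296) (B (lo16_9_0 (nat_lit 294)) (M (nat_lit 298) (B (lo110_9_3 (nat_lit 262)) (lo110_9_1 (nat_lit 326)))))))) (B (M (nat_lit 360) (B (M (nat_lit 392) (B (lo17_8_4 (nat_lit 263)) (M (nat_lit 361) (B (lo16_11_2 (nat_lit 358)) (lo19_8_5 (nat_lit 265)))))) (B (M (nat_lit 263) (B (lo17_8_4 (nat_lit 392)) (M (nat_lit 358) (B (lo16_11_2 (nat_lit 361)) (lo17_8_5 (nat_lit 390)))))) (B (M (nat_lit 263) (B (lo17_8_4 (nat_lit 392)) (M (nat_lit 231) (B (M (nat_lit 230) (B (lo17_10_7 (nat_lit 198)) (lo17_11_7 (nat_lit 262)))) (M (nat_lit 358) (B (lo17_7_5 (nat_lit 326)) (lo17_8_5 (nat_lit 390)))))))) (B (M (nat_lit 358) (B (lo16_11_2 (nat_lit 361)) (M (nat_lit 390) (B (lo17_8_5 (nat_lit 263)) (M (nat_lit 422) (B (lo16_13_6 (nat_lit 326)) (lo16_14_6 (nat_lit 454)))))))) (B (M (nat_lit 361) (B (lo16_11_2 (nat_lit 358)) (M (nat_lit 392) (B (lo19_8_5 (nat_lit 265)) (M (nat_lit 424) (B (lo19_9_5 (nat_lit 393)) (lo18_14_6 (nat_lit 456)))))))) (M (nat_lit 392) (B (lo17_8_4 (nat_lit 263)) (M (nat_lit 424) (B (lo18_14_7 (nat_lit 456)) (M (nat_lit 361) (B (lo19_8_5 (nat_lit 265)) (lo19_9_5 (nat_lit 393)))))))))))))) (B (M (nat_lit 296) (B (lo16_9_0 (nat_lit 294)) (M (nat_lit 298) (B (lo110_9_1 (nat_lit 326)) (M (nat_lit 299) (B (M (nat_lit 267) (B (lo18_9_2 (nat_lit 268)) (lo17_9_2 (nat_lit 266)))) (M (nat_lit 263) (B (lo111_9_3 (nat_lit 264)) (lo110_9_3 (nat_lit 262)))))))))) (M (nat_lit 361) (B (M (nat_lit 360) (B (lo16_11_2 (nat_lit 358)) (M (nat_lit 392) (B (lo19_8_5 (nat_lit 265)) (lo17_8_4 (nat_lit 263)))))) (M (nat_lit 393) (B (M (nat_lit 298) (B (lo19_12_6 (nat_lit 266)) (lo19_13_6 (nat_lit 425)))) (M (nat_lit 296) (B (lo16_9_0 (nat_lit 294)) (lo19_12_7 (nat_lit 264)))))))))))))) (B (M (nat_lit 391) (B (M (nat_lit 263) (B (M (nat_lit 392) (B (lo17_8_4 (nat_lit 360)) (lo17_9_4 (nat_lit 424)))) (M (nat_lit 390) (B (lo17_8_5 (nat_lit 358)) (lo17_9_5 (nat_lit 422)))))) (B (M (nat_lit 423) (B (M (nat_lit 424) (B (lo17_9_4 (nat_lit 392)) (lo17_10_4 (nat_lit 456)))) (M (nat_lit 422) (B (lo17_9_5 (nat_lit 390)) (lo17_10_5 (nat_lit 454)))))) (B (M (nat_lit 294) (B (M (nat_lit 296) (B (lo16_9_0 (nat_lit 297)) (lo17_12_6 (nat_lit 264)))) (M (nat_lit 423) (B (lo17_13_7 (nat_lit 326)) (M (nat_lit 422) (B (lo17_9_5 (nat_lit 390)) (lo17_10_5 (nat_lit 454)))))))) (M (nat_lit 294) (B (M (nat_lit 296) (B (lo16_9_0 (nat_lit 297)) (lo17_12_6 (nat_lit 264)))) (M (nat_lit 423) (B (lo17_13_7 (nat_lit 326)) (M (nat_lit 424) (B (lo17_9_4 (nat_lit 392)) (lo17_10_4 (nat_lit 456)))))))))))) (B (K _ _ _ o1_s1046) (M (nat_lit 391) (B (M (nat_lit 294) (B (lo17_12_7 (nat_lit 262)) (M (nat_lit 296) (B (lo16_9_0 (nat_lit 297)) (lo17_12_6 (nat_lit 264)))))) (M (nat_lit 392) (B (lo17_9_4 (nat_lit 424)) (M (nat_lit 360) (B (lo17_8_4 (nat_lit 263)) (M (nat_lit 358) (B (lo16_11_2 (nat_lit 361)) (M (nat_lit 357) (B (lo15_11_0 (nat_lit 393)) (lo14_11_0 (nat_lit 356)))))))))))))))))))) (B (M (nat_lit 359) (B (K _ _ _ o1_s885) (B (M (nat_lit 263) (B (M (nat_lit 391) (B (M (nat_lit 392) (B (lo17_8_4 (nat_lit 360)) (lo17_9_4 (nat_lit 424)))) (M (nat_lit 390) (B (lo17_8_5 (nat_lit 358)) (lo17_9_5 (nat_lit 422)))))) (M (nat_lit 231) (B (M (nat_lit 232) (B (lo17_10_6 (nat_lit 200)) (lo17_11_6 (nat_lit 264)))) (M (nat_lit 230) (B (lo17_10_7 (nat_lit 198)) (lo17_11_7 (nat_lit 262)))))))) (B (M (nat_lit 263) (B (M (nat_lit 231) (B (M (nat_lit 232) (B (lo17_10_6 (nat_lit 200)) (lo17_11_6 (nat_lit 264)))) (M (nat_lit 358) (B (lo17_7_5 (nat_lit 326)) (lo17_8_5 (nat_lit 390)))))) (B (M (nat_lit 231) (B (M (nat_lit 230) (B (lo17_10_7 (nat_lit 198)) (lo17_11_7 (nat_lit 262)))) (M (nat_lit 358) (B (lo17_7_5 (nat_lit 326)) (lo17_8_5 (nat_lit 390)))))) (B (M (nat_lit 391) (B (M (nat_lit 262) (B (lo17_11_7 (nat_lit 230)) (lo17_12_7 (nat_lit 294)))) (M (nat_lit 390) (B (lo17_8_5 (nat_lit 358)) (lo17_9_5 (nat_lit 422)))))) (M (nat_lit 231) (B (M (nat_lit 232) (B (lo17_10_6 (nat_lit 200)) (lo17_11_6 (nat_lit 264)))) (M (nat_lit 230) (B (lo17_10_7 (nat_lit 198)) (lo17_11_7 (nat_lit 262)))))))))) (B (K _ _ _ o1_s971) (B (K _ _ _ o1_s1477) (B (K _ _ _ o1_s1017) (B (K _ _ _ o1_s1048) (M (nat_lit 263) (B (M (nat_lit 231) (B (M (nat_lit 232) (B (lo17_10_6 (nat_lit 200)) (lo17_11_6 (nat_lit 264)))) (M (nat_lit 230) (B (lo17_10_7 (nat_lit 198)) (lo17_11_7 (nat_lit 262)))))) (B (M (nat_lit 391) (B (M (nat_lit 392) (B (lo17_8_4 (nat_lit 360)) (lo17_9_4 (nat_lit 424)))) (M (nat_lit 262) (B (lo17_11_7 (nat_lit 230)) (lo17_12_7 (nat_lit 294)))))) (M (nat_lit 358) (B (M (nat_lit 360) (B (lo16_11_2 (nat_lit 361)) (lo17_8_4 (nat_lit 392)))) (M (nat_lit 232) (B (lo17_11_6 (nat_lit 264)) (M (nat_lit 231) (B (lo17_10_6 (nat_lit 200)) (lo17_7_5 (nat_lit 326))))))))))))))))))) (B (M (nat_lit 359) (B (M (nat_lit 263) (B (M (nat_lit 358) (B (lo17_8_5 (nat_lit 390)) (M (nat_lit 360) (B (lo16_11_2 (nat_lit 361)) (lo17_8_4 (nat_lit 392)))))) (M (nat_lit 391) (B (M (nat_lit 264) (B (lo17_11_6 (nat_lit 232)) (lo17_12_6 (nat_lit 296)))) (M (nat_lit 262) (B (lo17_11_7 (nat_lit 230)) (lo17_12_7 (nat_lit 294)))))))) (B (M (nat_lit 263) (B (M (nat_lit 391) (B (M (nat_lit 392) (B (lo17_8_4 (nat_lit 360)) (lo17_9_4 (nat_lit 424)))) (M (nat_lit 390) (B (lo17_8_5 (nat_lit 358)) (lo17_9_5 (nat_lit 422)))))) (B (M (nat_lit 391) (B (M (nat_lit 264) (B (lo17_11_6 (nat_lit 232)) (lo17_12_6 (nat_lit 296)))) (M (nat_lit 390) (B (lo17_8_5 (nat_lit 358)) (lo17_9_5 (nat_lit 422)))))) (M (nat_lit 231) (B (M (nat_lit 232) (B (lo17_10_6 (nat_lit 200)) (lo17_11_6 (nat_lit 264)))) (M (nat_lit 230) (B (lo17_10_7 (nat_lit 198)) (lo17_11_7 (nat_lit 262))))))))) (B (K _ _ _ o1_s885) (B (M (nat_lit 391) (B (M (nat_lit 423) (B (M (nat_lit 424) (B (lo17_9_4 (nat_lit 392)) (lo17_10_4 (nat_lit 456)))) (M (nat_lit 422) (B (lo17_9_5 (nat_lit 390)) (lo17_10_5 (nat_lit 454)))))) (M (nat_lit 263) (B (M (nat_lit 264) (B (lo17_11_6 (nat_lit 232)) (lo17_12_6 (nat_lit 296)))) (M (nat_lit 262) (B (lo17_11_7 (nat_lit 230)) (lo17_12_7 (nat_lit 294)))))))) (B (M (nat_lit 263) (B (M (nat_lit 391) (B (M (nat_lit 262) (B (lo17_11_7 (nat_lit 230)) (lo17_12_7 (nat_lit 294)))) (M (nat_lit 390) (B (lo17_8_5 (nat_lit 358)) (lo17_9_5 (nat_lit 422)))))) (B (M (nat_lit 231) (B (M (nat_lit 232) (B (lo17_10_6 (nat_lit 200)) (lo17_11_6 (nat_lit 264)))) (M (nat_lit 230) (B (lo17_10_7 (nat_lit 198)) (lo17_11_7 (nat_lit 262)))))) (M (nat_lit 391) (B (M (nat_lit 264) (B (lo17_11_6 (nat_lit 232)) (lo17_12_6 (nat_lit 296)))) (M (nat_lit 390) (B (lo17_8_5 (nat_lit 358)) (lo17_9_5 (nat_lit 422))))))))) (B (M (nat_lit 391) (B (M (nat_lit 294) (B (lo17_12_7 (nat_lit 262)) (M (nat_lit 423) (B (lo17_13_7 (nat_lit 326)) (M (nat_lit 424) (B (lo17_9_4 (nat_lit 392)) (lo17_10_4 (nat_lit 456)))))))) (B (M (nat_lit 423) (B (M (nat_lit 294) (B (lo17_12_7 (nat_lit 262)) (lo17_13_7 (nat_lit 326)))) (M (nat_lit 422) (B (lo17_9_5 (nat_lit 390)) (lo17_10_5 (nat_lit 454)))))) (B (M (nat_lit 361) (B (M (nat_lit 360) (B (lo16_11_2 (nat_lit 358)) (M (nat_lit 362) (B (lo110_11_3 (nat_lit 326)) (lo110_11_1 (nat_lit 390)))))) (B (M (nat_lit 360) (B (lo16_11_2 (nat_lit 358)) (M (nat_lit 390) (B (lo17_9_5 (nat_lit 422)) (M (nat_lit 392) (B (lo15_12_2 (nat_lit 389)) (lo17_9_4 (nat_lit 424)))))))) (B (M (nat_lit 393) (B (M (nat_lit 298) (B (lo19_13_6 (nat_lit 425)) (M (nat_lit 266) (B (lo110_7_5 (nat_lit 234)) (lo110_8_5 (nat_lit 362)))))) (B (M (nat_lit 425) (B (lo19_13_6 (nat_lit 298)) (M (nat_lit 424) (B (lo19_10_5 (nat_lit 456)) (lo17_9_4 (nat_lit 392)))))) (M (nat_lit 392) (B (lo17_9_4 (nat_lit 424)) (M (nat_lit 390) (B (lo16_12_2 (nat_lit 362)) (lo17_9_5 (nat_lit 422))))))))) (M (nat_lit 360) (B (lo16_11_2 (nat_lit 358)) (M (nat_lit 392) (B (lo17_9_4 (nat_lit 424)) (M (nat_lit 362) (B (lo111_11_1 (nat_lit 363)) (lo110_11_3 (nat_lit 326)))))))))))) (M (nat_lit 423) (B (M (nat_lit 424) (B (lo17_9_4 (nat_lit 392)) (lo17_10_4 (nat_lit 456)))) (M (nat_lit 422) (B (lo17_9_5 (nat_lit 390)) (lo17_10_5 (nat_lit 454)))))))))) (B (K _ _ _ o1_s1477) (B (M (nat_lit 263) (B (M (nat_lit 358) (B (lo17_8_5 (nat_lit 390)) (M (nat_lit 360) (B (lo16_11_2 (nat_lit 361)) (lo17_8_4 (nat_lit 392)))))) (B (M (nat_lit 231) (B (M (nat_lit 232) (B (lo17_10_6 (nat_lit 200)) (lo17_11_6 (nat_lit 264)))) (M (nat_lit 358) (B (lo17_7_5 (nat_lit 326)) (lo17_8_5 (nat_lit 390)))))) (M (nat_lit 391) (B (M (nat_lit 264) (B (lo17_11_6 (nat_lit 232)) (lo17_12_6 (nat_lit 296)))) (M (nat_lit 392) (B (lo17_8_4 (nat_lit 360)) (lo17_9_4 (nat_lit 424))))))))) (M (nat_lit 391) (B (M (nat_lit 263) (B (M (nat_lit 264) (B (lo17_11_6 (nat_lit 232)) (lo17_12_6 (nat_lit 296)))) (M (nat_lit 262) (B (lo17_11_7 (nat_lit 230)) (lo17_12_7 (nat_lit 294)))))) (B (M (nat_lit 263) (B (M (nat_lit 392) (B (lo17_8_4 (nat_lit 360)) (lo17_9_4 (nat_lit 424)))) (M (nat_lit 262) (B (lo17_11_7 (nat_lit 230)) (lo17_12_7 (nat_lit 294)))))) (B (M (nat_lit 294) (B (lo17_12_7 (nat_lit 262)) (M (nat_lit 423) (B (lo17_13_7 (nat_lit 326)) (M (nat_lit 424) (B (lo17_9_4 (nat_lit 392)) (lo17_10_4 (nat_lit 456)))))))) (M (nat_lit 263) (B (M (nat_lit 264) (B (lo17_11_6 (nat_lit 232)) (lo17_12_6 (nat_lit 296)))) (M (nat_lit 392) (B (lo17_8_4 (nat_lit 360)) (lo17_9_4 (nat_lit 424))))))))))))))))))) (M (nat_lit 359) (B (M (nat_lit 263) (B (M (nat_lit 358) (B (lo17_8_5 (nat_lit 390)) (M (nat_lit 360) (B (lo16_11_2 (nat_lit 361)) (lo17_8_4 (nat_lit 392)))))) (B (M (nat_lit 391) (B (M (nat_lit 264) (B (lo17_11_6 (nat_lit 232)) (lo17_12_6 (nat_lit 296)))) (M (nat_lit 390) (B (lo17_8_5 (nat_lit 358)) (lo17_9_5 (nat_lit 422)))))) (M (nat_lit 391) (B (M (nat_lit 264) (B (lo17_11_6 (nat_lit 232)) (lo17_12_6 (nat_lit 296)))) (M (nat_lit 392) (B (lo17_8_4 (nat_lit 360)) (lo17_9_4 (nat_lit 424))))))))) (B (K _ _ _ o1_s1339) (B (K _ _ _ o1_s885) (B (M (nat_lit 391) (B (M (nat_lit 294) (B (lo17_12_7 (nat_lit 262)) (M (nat_lit 296) (B (lo16_9_0 (nat_lit 297)) (lo17_12_6 (nat_lit 264)))))) (B (M (nat_lit 263) (B (M (nat_lit 262) (B (lo17_11_7 (nat_lit 230)) (lo17_12_7 (nat_lit 294)))) (M (nat_lit 390) (B (lo17_8_5 (nat_lit 358)) (lo17_9_5 (nat_lit 422)))))) (M (nat_lit 263) (B (M (nat_lit 264) (B (lo17_11_6 (nat_lit 232)) (lo17_12_6 (nat_lit 296)))) (M (nat_lit 390) (B (lo17_8_5 (nat_lit 358)) (lo17_9_5 (nat_lit 422))))))))) (B (K _ _ _ o1_s1477) (M (nat_lit 391) (B (M (nat_lit 294) (B (lo17_12_7 (nat_lit 262)) (M (nat_lit 296) (B (lo16_9_0 (nat_lit 297)) (lo17_12_6 (nat_lit 264)))))) (B (M (nat_lit 263) (B (M (nat_lit 392) (B (lo17_8_4 (nat_lit 360)) (lo17_9_4 (nat_lit 424)))) (M (nat_lit 262) (B (lo17_11_7 (nat_lit 230)) (lo17_12_7 (nat_lit 294)))))) (M (nat_lit 263) (B (M (nat_lit 264) (B (lo17_11_6 (nat_lit 232)) (lo17_12_6 (nat_lit 296)))) (M (nat_lit 392) (B (lo17_8_4 (nat_lit 360)) (lo17_9_4 (nat_lit 424))))))))))))))))))))))))))) (B (M (nat_lit 298) (B (M (nat_lit 266) (B (M (nat_lit 361) (B (lo110_7_5 (nat_lit 234)) (M (nat_lit 393) (B (lo110_8_5 (nat_lit 362)) (lo19_13_6 (nat_lit 425)))))) (B (M (nat_lit 265) (B (M (nat_lit 233) (B (lo110_11_7 (nat_lit 362)) (M (nat_lit 201) (B (lo19_5_4 (nat_lit 169)) (lo19_6_4 (nat_lit 297)))))) (M (nat_lit 299) (B (lo17_10_2 (nat_lit 328)) (M (nat_lit 300) (B (lo113_9_3 (nat_lit 301)) (M (nat_lit 264) (B (lo18_8_0 (nat_lit 267)) (lo17_8_0 (nat_lit 263)))))))))) (M (nat_lit 361) (B (lo110_7_5 (nat_lit 234)) (M (nat_lit 393) (B (lo19_12_6 (nat_lit 297)) (lo19_13_6 (nat_lit 425))))))))) (B (M (nat_lit 266) (B (M (nat_lit 361) (B (lo110_7_5 (nat_lit 234)) (M (nat_lit 393) (B (lo19_12_6 (nat_lit 297)) (lo19_13_6 (nat_lit 425)))))) (B (M (nat_lit 265) (B (M (nat_lit 233) (B (lo110_11_7 (nat_lit 362)) (M (nat_lit 201) (B (lo19_5_4 (nat_lit 169)) (lo19_6_4 (nat_lit 297)))))) (B (M (nat_lit 299) (B (lo17_10_2 (nat_lit 328)) (M (nat_lit 264) (B (lo17_8_0 (nat_lit 263)) (M (nat_lit 300) (B (lo18_8_0 (nat_lit 267)) (lo112_9_3 (nat_lit 297)))))))) (M (nat_lit 362) (B (lo110_11_7 (nat_lit 233)) (M (nat_lit 328) (B (lo17_10_2 (nat_lit 299)) (lo17_10_0 (nat_lit 363))))))))) (M (nat_lit 361) (B (lo110_7_5 (nat_lit 234)) (M (nat_lit 393) (B (lo110_8_5 (nat_lit 362)) (lo19_13_6 (nat_lit 425))))))))) (B (M (nat_lit 328) (B (lo17_10_2 (nat_lit 299)) (K _ _ _ o1_s1572))) (B (M (nat_lit 266) (B (M (nat_lit 361) (B (lo110_7_5 (nat_lit 234)) (M (nat_lit 393) (B (lo110_8_5 (nat_lit 362)) (lo19_13_6 (nat_lit 425)))))) (B (M (nat_lit 265) (B (M (nat_lit 362) (B (lo110_11_7 (nat_lit 233)) (M (nat_lit 328) (B (lo17_10_2 (nat_lit 299)) (lo17_10_0 (nat_lit 363)))))) (B (M (nat_lit 362) (B (lo110_11_7 (nat_lit 233)) (M (nat_lit 363) (B (lo110_8_4 (nat_lit 395)) (lo17_10_0 (nat_lit 328)))))) (B (M (nat_lit 299) (B (lo17_10_2 (nat_lit 328)) (M (nat_lit 264) (B (lo17_8_0 (nat_lit 263)) (M (nat_lit 300) (B (lo113_9_3 (nat_lit 301)) (lo112_9_3 (nat_lit 297)))))))) (M (nat_lit 297) (B (M (nat_lit 233) (B (lo110_11_7 (nat_lit 362)) (lo19_6_4 (nat_lit 201)))) (M (nat_lit 264) (B (M (nat_lit 263) (B (lo17_8_0 (nat_lit 299)) (lo16_8_0 (nat_lit 262)))) (M (nat_lit 361) (B (lo19_12_6 (nat_lit 393)) (lo19_11_7 (nat_lit 232)))))))))))) (B (M (nat_lit 361) (B (lo110_7_5 (nat_lit 234)) (M (nat_lit 393) (B (lo19_12_6 (nat_lit 297)) (lo19_13_6 (nat_lit 425)))))) (M (nat_lit 234) (B (M (nat_lit 202) (B (lo110_6_5 (nat_lit 297)) (M (nat_lit 203) (B (lo110_9_6 (nat_lit 171)) (lo110_10_6 (nat_lit 235)))))) (M (nat_lit 362) (B (M (nat_lit 363) (B (lo110_8_4 (nat_lit 395)) (lo17_10_0 (nat_lit 328)))) (M (nat_lit 233) (B (lo110_10_7 (nat_lit 201)) (lo110_11_7 (nat_lit 265)))))))))))) (B (M (nat_lit 295) (B (M (nat_lit 359) (B (M (nat_lit 328) (B (lo110_10_3 (nat_lit 294)) (lo110_10_1 (nat_lit 358)))) (B (K _ _ _ o1_s1627) (M (nat_lit 358) (B (lo110_10_1 (nat_lit 328)) (M (nat_lit 263) (B (lo17_8_5 (nat_lit 390)) (M (nat_lit 360) (B (lo16_11_2 (nat_lit 361)) (lo17_8_4 (nat_lit 392))))))))))) (B (M (nat_lit 359) (B (M (nat_lit 328) (B (lo110_10_3 (nat_lit 294)) (lo110_10_1 (nat_lit 358)))) (B (M (nat_lit 263) (B (M (nat_lit 358) (B (lo17_8_5 (nat_lit 390)) (M (nat_lit 360) (B (lo16_11_2 (nat_lit 361)) (lo17_8_4 (nat_lit 392)))))) (M (nat_lit 391) (B (M (nat_lit 264) (B (lo17_11_6 (nat_lit 232)) (lo17_12_6 (nat_lit 296)))) (M (nat_lit 262) (B (lo17_11_7 (nat_lit 230)) (lo17_12_7 (nat_lit 294)))))))) (B (M (nat_lit 358) (B (lo110_10_1 (nat_lit 328)) (M (nat_lit 263) (B (lo17_8_5 (nat_lit 390)) (M (nat_lit 360) (B (lo16_11_2 (nat_lit 361)) (lo17_8_4 (nat_lit 392)))))))) (M (nat_lit 263) (B (M (nat_lit 328) (B (lo110_10_3 (nat_lit 294)) (M (nat_lit 360) (B (lo17_7_4 (nat_lit 231)) (lo17_8_4 (nat_lit 392)))))) (B (M (nat_lit 391) (B (M (nat_lit 264) (B (lo17_11_6 (nat_lit 232)) (lo17_12_6 (nat_lit 296)))) (M (nat_lit 262) (B (lo17_11_7 (nat_lit 230)) (lo17_12_7 (nat_lit 294)))))) (M (nat_lit 231) (B (M (nat_lit 232) (B (lo17_10_6 (nat_lit 200)) (lo17_11_6 (nat_lit 264)))) (M (nat_lit 360) (B (lo17_7_4 (nat_lit 328)) (lo17_8_4 (nat_lit 392))))))))))))) (B (M (nat_lit 359) (B (M (nat_lit 328) (B (lo110_10_3 (nat_lit 294)) (lo110_10_1 (nat_lit 358)))) (B (K _ _ _ o1_s1627) (M (nat_lit 263) (B (M (nat_lit 358) (B (lo110_10_1 (nat_lit 328)) (lo17_8_5 (nat_lit 390)))) (B (M (nat_lit 391) (B (M (nat_lit 264) (B (lo17_11_6 (nat_lit 232)) (lo17_12_6 (nat_lit 296)))) (M (nat_lit 390) (B (lo17_8_5 (nat_lit 358)) (lo17_9_5 (nat_lit 422)))))) (M (nat_lit 231) (B (M (nat_lit 232) (B (lo17_10_6 (nat_lit 200)) (lo17_11_6 (nat_lit 264)))) (M (nat_lit 360) (B (lo17_7_4 (nat_lit 328)) (lo17_8_4 (nat_lit 392)))))))))))) (B (M (nat_lit 359) (B (M (nat_lit 328) (B (lo110_10_3 (nat_lit 294)) (lo110_10_1 (nat_lit 358)))) (B (K _ _ _ o1_s1663) (B (M (nat_lit 358) (B (lo110_10_1 (nat_lit 328)) (M (nat_lit 263) (B (lo17_8_5 (nat_lit 390)) (M (nat_lit 360) (B (lo16_11_2 (nat_lit 361)) (lo17_8_4 (nat_lit 392)))))))) (M (nat_lit 294) (B (lo110_10_3 (nat_lit 328)) (M (nat_lit 391) (B (lo17_12_7 (nat_lit 262)) (M (nat_lit 296) (B (lo16_9_0 (nat_lit 297)) (lo17_12_6 (nat_lit 264)))))))))))) (B (M (nat_lit 359) (B (M (nat_lit 328) (B (lo110_10_3 (nat_lit 294)) (lo110_10_1 (nat_lit 358)))) (B (K _ _ _ o1_s1663) (B (M (nat_lit 358) (B (lo110_10_1 (nat_lit 328)) (M (nat_lit 263) (B (lo17_8_5 (nat_lit 390)) (M (nat_lit 360) (B (lo16_11_2 (nat_lit 361)) (lo17_8_4 (nat_lit 392)))))))) (M (nat_lit 294) (B (lo110_10_3 (nat_lit 328)) (M (nat_lit 262) (B (lo17_12_7 (nat_lit 391)) (M (nat_lit 230) (B (lo17_11_7 (nat_lit 263)) (lo16_6_4 (nat_lit 198)))))))))))) (B (M (nat_lit 297) (B (M (nat_lit 296) (B (lo16_9_0 (nat_lit 294)) (M (nat_lit 266) (B (lo17_9_2 (nat_lit 267)) (M (nat_lit 361) (B (lo110_7_5 (nat_lit 234)) (lo19_12_6 (nat_lit 393)))))))) (B (M (nat_lit 266) (B (M (nat_lit 234) (B (lo110_6_5 (nat_lit 202)) (lo110_7_5 (nat_lit 361)))) (K _ _ _ o1_s1693))) (B (M (nat_lit 265) (B (M (nat_lit 233) (B (lo19_6_4 (nat_lit 201)) (lo19_7_4 (nat_lit 362)))) (M (nat_lit 264) (B (M (nat_lit 296) (B (lo16_9_0 (nat_lit 294)) (M (nat_lit 361) (B (lo19_11_7 (nat_lit 232)) (lo19_12_7 (nat_lit 393)))))) (B (M (nat_lit 263) (B (lo16_8_0 (nat_lit 262)) (M (nat_lit 294) (B (lo110_8_1 (nat_lit 266)) (lo16_9_0 (nat_lit 296)))))) (M (nat_lit 361) (B (lo19_11_7 (nat_lit 232)) (M (nat_lit 393) (B (lo19_12_6 (nat_lit 266)) (lo19_13_6 (nat_lit 425))))))))))) (B (M (nat_lit 359) (B (M (nat_lit 296) (B (lo16_9_0 (nat_lit 294)) (M (nat_lit 264) (B (lo17_12_6 (nat_lit 391)) (M (nat_lit 263) (B (lo110_9_3 (nat_lit 262)) (lo17_11_6 (nat_lit 232)))))))) (B (M (nat_lit 263) (B (M (nat_lit 262) (B (lo110_9_3 (nat_lit 296)) (lo17_11_7 (nat_lit 230)))) (M (nat_lit 360) (B (lo17_8_4 (nat_lit 392)) (M (nat_lit 358) (B (lo16_11_2 (nat_lit 361)) (lo17_8_5 (nat_lit 390)))))))) (B (M (nat_lit 263) (B (M (nat_lit 360) (B (lo17_8_4 (nat_lit 392)) (M (nat_lit 358) (B (lo16_11_2 (nat_lit 361)) (lo17_8_5 (nat_lit 390)))))) (M (nat_lit 262) (B (lo17_11_7 (nat_lit 230)) (M (nat_lit 264) (B (lo16_8_0 (nat_lit 265)) (lo17_11_6 (nat_lit 232)))))))) (M (nat_lit 361) (B (M (nat_lit 393) (B (lo19_13_6 (nat_lit 425)) (M (nat_lit 296) (B (lo16_9_0 (nat_lit 294)) (lo19_12_7 (nat_lit 264)))))) (M (nat_lit 265) (B (M (nat_lit 233) (B (lo19_6_4 (nat_lit 201)) (lo19_7_4 (nat_lit 362)))) (M (nat_lit 360) (B (lo16_11_2 (nat_lit 358)) (lo19_8_5 (nat_lit 392)))))))))))) (B (M (nat_lit 266) (B (M (nat_lit 296) (B (lo17_9_2 (nat_lit 267)) (lo16_9_0 (nat_lit 294)))) (B (K _ _ _ o1_s1693) (K _ _ _ o1_s1223)))) (B (M (nat_lit 266) (B (M (nat_lit 234) (B (lo110_6_5 (nat_lit 202)) (lo110_7_5 (nat_lit 361)))) (B (M (nat_lit 361) (B (lo110_7_5 (nat_lit 234)) (lo19_12_6 (nat_lit 393)))) (B (M (nat_lit 265) (B (M (nat_lit 233) (B (lo110_11_7 (nat_lit 362)) (lo19_6_4 (nat_lit 201)))) (M (nat_lit 264) (B (M (nat_lit 263) (B (lo110_8_1 (nat_lit 294)) (lo16_8_0 (nat_lit 262)))) (M (nat_lit 361) (B (lo19_12_6 (nat_lit 393)) (lo19_11_7 (nat_lit 232)))))))) (K _ _ _ o1_s1223))))) (M (nat_lit 263) (B (M (nat_lit 296) (B (lo110_9_3 (nat_lit 262)) (M (nat_lit 266) (B (lo17_9_2 (nat_lit 267)) (M (nat_lit 234) (B (lo110_6_5 (nat_lit 202)) (lo110_7_5 (nat_lit 361)))))))) (B (M (nat_lit 265) (B (M (nat_lit 262) (B (lo16_8_0 (nat_lit 264)) (lo110_9_3 (nat_lit 296)))) (M (nat_lit 233) (B (lo19_6_4 (nat_lit 201)) (lo19_7_4 (nat_lit 362)))))) (B (M (nat_lit 265) (B (M (nat_lit 233) (B (lo19_6_4 (nat_lit 201)) (lo19_7_4 (nat_lit 362)))) (M (nat_lit 361) (B (M (nat_lit 266) (B (lo110_7_5 (nat_lit 234)) (lo19_12_6 (nat_lit 393)))) (M (nat_lit 264) (B (lo16_8_0 (nat_lit 262)) (lo19_11_7 (nat_lit 232)))))))) (M (nat_lit 359) (B (M (nat_lit 360) (B (lo17_8_4 (nat_lit 392)) (M (nat_lit 358) (B (lo16_11_2 (nat_lit 361)) (lo17_8_5 (nat_lit 390)))))) (B (M (nat_lit 391) (B (M (nat_lit 264) (B (lo17_11_6 (nat_lit 232)) (lo17_12_6 (nat_lit 296)))) (M (nat_lit 390) (B (lo17_8_5 (nat_lit 358)) (lo17_9_5 (nat_lit 422)))))) (M (nat_lit 391) (B (M (nat_lit 264) (B (lo17_11_6 (nat_lit 232)) (lo17_12_6 (nat_lit 296)))) (M (nat_lit 392) (B (lo17_8_4 (nat_lit 360)) (lo17_9_4 (nat_lit 424)))))))))))))))))))) (B (M (nat_lit 296) (B (M (nat_lit 294) (B (lo16_9_0 (nat_lit 297)) (lo110_10_3 (nat_lit 328)))) (B (M (nat_lit 328) (B (lo110_10_3 (nat_lit 294)) (M (nat_lit 359) (B (lo110_10_1 (nat_lit 358)) (M (nat_lit 264) (B (lo18_7_5 (nat_lit 232)) (lo17_12_6 (nat_lit 391)))))))) (B (M (nat_lit 297) (B (lo16_9_0 (nat_lit 294)) (M (nat_lit 266) (B (lo17_9_2 (nat_lit 267)) (M (nat_lit 361) (B (lo110_7_5 (nat_lit 234)) (lo19_12_6 (nat_lit 393)))))))) (M (nat_lit 266) (B (M (nat_lit 361) (B (lo110_7_5 (nat_lit 234)) (M (nat_lit 393) (B (lo110_8_5 (nat_lit 362)) (lo19_13_6 (nat_lit 425)))))) (B (M (nat_lit 362) (B (M (nat_lit 267) (B (lo110_11_6 (nat_lit 235)) (lo17_9_2 (nat_lit 297)))) (M (nat_lit 363) (B (lo110_8_4 (nat_lit 395)) (lo17_10_0 (nat_lit 328)))))) (M (nat_lit 297) (B (lo17_9_2 (nat_lit 267)) (M (nat_lit 234) (B (lo110_6_5 (nat_lit 202)) (lo110_7_5 (nat_lit 361))))))))))))) (M (nat_lit 266) (B (M (nat_lit 361) (B (lo110_7_5 (nat_lit 234)) (M (nat_lit 393) (B (lo110_8_5 (nat_lit 362)) (lo19_13_6 (nat_lit 425)))))) (B (M (nat_lit 362) (B (M (nat_lit 363) (B (lo110_8_4 (nat_lit 395)) (lo17_10_0 (nat_lit 328)))) (M (nat_lit 265) (B (lo110_11_7 (nat_lit 233)) (M (nat_lit 267) (B (lo110_11_6 (nat_lit 235)) (M (nat_lit 296) (B (lo17_9_2 (nat_lit 297)) (lo111_8_1 (nat_lit 264)))))))))) (M (nat_lit 361) (B (lo110_7_5 (nat_lit 234)) (M (nat_lit 393) (B (lo19_12_6 (nat_lit 297)) (lo19_13_6 (nat_lit 425))))))))))))))))) (B (M (nat_lit 328) (B (lo17_10_2 (nat_lit 299)) (M (nat_lit 295) (B (lo110_10_3 (nat_lit 294)) (M (nat_lit 359) (B (lo110_10_1 (nat_lit 358)) (M (nat_lit 296) (B (M (nat_lit 264) (B (lo18_7_5 (nat_lit 232)) (lo17_12_6 (nat_lit 391)))) (M (nat_lit 263) (B (M (nat_lit 360) (B (lo18_12_7 (nat_lit 392)) (lo17_7_4 (nat_lit 231)))) (M (nat_lit 262) (B (lo110_9_3 (nat_lit 297)) (lo17_11_7 (nat_lit 230)))))))))))))) (B (M (nat_lit 328) (B (lo17_10_2 (nat_lit 299)) (M (nat_lit 359) (B (lo110_10_1 (nat_lit 358)) (M (nat_lit 295) (B (lo110_10_3 (nat_lit 294)) (M (nat_lit 391) (B (M (nat_lit 296) (B (lo17_12_6 (nat_lit 264)) (lo17_13_6 (nat_lit 423)))) (B (M (nat_lit 424) (B (lo17_9_4 (nat_lit 392)) (M (nat_lit 423) (B (lo17_13_6 (nat_lit 296)) (lo17_10_4 (nat_lit 456)))))) (B (M (nat_lit 423) (B (M (nat_lit 424) (B (lo17_9_4 (nat_lit 392)) (lo17_10_4 (nat_lit 456)))) (M (nat_lit 422) (B (lo17_9_5 (nat_lit 390)) (lo17_10_5 (nat_lit 454)))))) (M (nat_lit 263) (B (M (nat_lit 264) (B (lo17_11_6 (nat_lit 232)) (lo17_12_6 (nat_lit 296)))) (M (nat_lit 392) (B (lo17_8_4 (nat_lit 360)) (lo17_9_4 (nat_lit 424)))))))))))))))) (B (M (nat_lit 328) (B (lo17_10_2 (nat_lit 299)) (M (nat_lit 361) (B (M (nat_lit 362) (B (lo17_10_0 (nat_lit 363)) (M (nat_lit 266) (B (lo110_7_5 (nat_lit 234)) (lo110_8_5 (nat_lit 393)))))) (B (M (nat_lit 393) (B (lo19_13_6 (nat_lit 425)) (M (nat_lit 266) (B (lo110_7_5 (nat_lit 234)) (lo19_12_6 (nat_lit 297)))))) (B (M (nat_lit 393) (B (lo19_13_6 (nat_lit 425)) (M (nat_lit 266) (B (lo110_8_5 (nat_lit 362)) (lo19_12_6 (nat_lit 297)))))) (M (nat_lit 360) (B (M (nat_lit 295) (B (lo110_10_3 (nat_lit 294)) (M (nat_lit 392) (B (lo18_13_7 (nat_lit 424)) (M (nat_lit 263) (B (lo18_12_7 (nat_lit 296)) (lo17_7_4 (nat_lit 231)))))))) (B (M (nat_lit 359) (B (lo16_11_2 (nat_lit 358)) (M (nat_lit 295) (B (lo110_10_3 (nat_lit 294)) (M (nat_lit 392) (B (lo18_13_7 (nat_lit 424)) (lo17_8_4 (nat_lit 263)))))))) (M (nat_lit 359) (B (lo16_11_2 (nat_lit 358)) (M (nat_lit 391) (B (M (nat_lit 362) (B (lo17_10_0 (nat_lit 363)) (lo110_11_1 (nat_lit 390)))) (M (nat_lit 423) (B (lo17_13_6 (nat_lit 296)) (lo17_14_6 (nat_lit 455))))))))))))))))) (K _ _ _ o1_s1990)))))))))) (B (M (nat_lit 298) (B (M (nat_lit 328) (B (lo17_10_2 (nat_lit 299)) (M (nat_lit 326) (B (lo16_10_2 (nat_lit 297)) (M (nat_lit 294) (B (lo110_10_3 (nat_lit 295)) (lo19_10_3 (nat_lit 293)))))))) (B (M (nat_lit 361) (B (M (nat_lit 266) (B (lo110_7_5 (nat_lit 234)) (M (nat_lit 393) (B (lo110_8_5 (nat_lit 362)) (lo19_13_6 (nat_lit 425)))))) (B (M (nat_lit 393) (B (lo19_13_6 (nat_lit 425)) (M (nat_lit 266) (B (lo110_8_5 (nat_lit 362)) (lo19_12_6 (nat_lit 297)))))) (B (M (nat_lit 359) (B (M (nat_lit 358) (B (lo16_11_2 (nat_lit 360)) (lo110_10_1 (nat_lit 328)))) (B (M (nat_lit 360) (B (lo16_11_2 (nat_lit 358)) (K _ _ _ o1_s2016))) (B (M (nat_lit 328) (B (lo110_10_1 (nat_lit 358)) (M (nat_lit 362) (B (lo17_10_0 (nat_lit 363)) (lo16_10_0 (nat_lit 326)))))) (M (nat_lit 360) (B (M (nat_lit 326) (B (lo110_11_3 (nat_lit 362)) (M (nat_lit 328) (B (lo16_10_2 (nat_lit 297)) (lo15_10_0 (nat_lit 325)))))) (B (M (nat_lit 328) (B (M (nat_lit 326) (B (lo16_10_2 (nat_lit 297)) (lo15_10_0 (nat_lit 325)))) (M (nat_lit 295) (B (lo110_10_3 (nat_lit 294)) (M (nat_lit 392) (B (lo18_13_7 (nat_lit 424)) (lo17_8_4 (nat_lit 263)))))))) (B (M (nat_lit 362) (B (lo110_11_3 (nat_lit 326)) (M (nat_lit 363) (B (lo17_10_0 (nat_lit 328)) (M (nat_lit 391) (B (lo111_11_1 (nat_lit 392)) (lo110_11_1 (nat_lit 390)))))))) (B (K _ _ _ o1_s2016) (K _ _ _ o1_s2052)))))))))) (B (M (nat_lit 393) (B (lo19_13_6 (nat_lit 425)) (M (nat_lit 266) (B (lo110_7_5 (nat_lit 234)) (lo19_12_6 (nat_lit 297)))))) (M (nat_lit 360) (B (M (nat_lit 359) (B (lo16_11_2 (nat_lit 358)) (M (nat_lit 326) (B (lo110_11_3 (nat_lit 362)) (M (nat_lit 328) (B (lo16_10_2 (nat_lit 297)) (lo15_10_0 (nat_lit 325)))))))) (B (M (nat_lit 328) (B (M (nat_lit 326) (B (lo16_10_2 (nat_lit 297)) (lo15_10_0 (nat_lit 325)))) (M (nat_lit 359) (B (lo16_11_2 (nat_lit 358)) (M (nat_lit 295) (B (lo110_10_3 (nat_lit 294)) (M (nat_lit 392) (B (lo18_13_7 (nat_lit 424)) (lo17_8_4 (nat_lit 263)))))))))) (B (M (nat_lit 362) (B (M (nat_lit 328) (B (lo17_10_0 (nat_lit 363)) (lo16_10_0 (nat_lit 326)))) (B (M (nat_lit 359) (B (lo16_11_2 (nat_lit 358)) (lo110_11_3 (nat_lit 326)))) (M (nat_lit 363) (B (lo17_10_0 (nat_lit 328)) (M (nat_lit 266) (B (lo110_8_4 (nat_lit 395)) (lo110_7_5 (nat_lit 234))))))))) (B (M (nat_lit 359) (B (lo16_11_2 (nat_lit 358)) (M (nat_lit 362) (B (lo110_11_3 (nat_lit 326)) (M (nat_lit 363) (B (M (nat_lit 266) (B (lo110_8_4 (nat_lit 395)) (lo110_7_5 (nat_lit 234)))) (M (nat_lit 391) (B (lo111_11_1 (nat_lit 392)) (lo110_11_1 (nat_lit 390)))))))))) (B (M (nat_lit 328) (B (M (nat_lit 362) (B (lo17_10_0 (nat_lit 363)) (lo16_10_0 (nat_lit 326)))) (B (M (nat_lit 326) (B (lo16_10_2 (nat_lit 297)) (lo16_10_0 (nat_lit 362)))) (B (M (nat_lit 297) (B (lo16_10_2 (nat_lit 326)) (M (nat_lit 265) (B (lo19_7_5 (nat_lit 233)) (lo19_8_5 (nat_lit 392)))))) (M (nat_lit 265) (B (M (nat_lit 297) (B (lo19_7_5 (nat_lit 233)) (lo19_8_5 (nat_lit 392)))) (B (M (nat_lit 392) (B (lo19_8_5 (nat_lit 297)) (M (nat_lit 295) (B (lo110_10_3 (nat_lit 294)) (lo18_13_7 (nat_lit 424)))))) (M (nat_lit 362) (B (lo17_10_0 (nat_lit 363)) (M (nat_lit 266) (B (lo110_7_5 (nat_lit 234)) (lo110_11_7 (nat_lit 233))))))))))))) (M (nat_lit 359) (B (lo16_11_2 (nat_lit 358)) (K _ _ _ o1_s2052)))))))))))))) (B (M (nat_lit 328) (B (lo17_10_2 (nat_lit 299)) (M (nat_lit 326) (B (M (nat_lit 362) (B (lo17_10_0 (nat_lit 363)) (lo16_10_0 (nat_lit 361)))) (M (nat_lit 358) (B (lo110_10_1 (nat_lit 359)) (lo19_10_1 (nat_lit 357)))))))) (M (nat_lit 266) (B (M (nat_lit 361) (B (lo110_7_5 (nat_lit 234)) (M (nat_lit 393) (B (lo110_8_5 (nat_lit 362)) (lo19_12_6 (nat_lit 297)))))) (B (M (nat_lit 265) (B (M (nat_lit 233) (B (lo110_11_7 (nat_lit 362)) (M (nat_lit 201) (B (lo19_5_4 (nat_lit 169)) (lo19_6_4 (nat_lit 297)))))) (B (M (nat_lit 264) (B (M (nat_lit 299) (B (lo17_8_0 (nat_lit 263)) (M (nat_lit 300) (B (lo113_9_3 (nat_lit 301)) (lo112_9_3 (nat_lit 297)))))) (B (M (nat_lit 299) (B (lo17_8_0 (nat_lit 263)) (M (nat_lit 300) (B (lo18_8_0 (nat_lit 267)) (lo112_9_3 (nat_lit 297)))))) (B (M (nat_lit 232) (B (M (nat_lit 297) (B (lo19_11_7 (nat_lit 361)) (M (nat_lit 200) (B (lo19_10_7 (nat_lit 233)) (lo18_5_4 (nat_lit 168)))))) (M (nat_lit 231) (B (lo111_8_3 (nat_lit 267)) (M (nat_lit 230) (B (lo110_8_3 (nat_lit 263)) (lo15_7_0 (nat_lit 229)))))))) (B (M (nat_lit 299) (B (lo17_8_0 (nat_lit 263)) (M (nat_lit 300) (B (lo113_9_3 (nat_lit 301)) (lo18_8_0 (nat_lit 267)))))) (M (nat_lit 267) (B (M (nat_lit 299) (B (lo18_8_0 (nat_lit 300)) (M (nat_lit 235) (B (lo18_8_2 (nat_lit 236)) (lo111_6_5 (nat_lit 203)))))) (B (M (nat_lit 268) (B (M (nat_lit 300) (B (lo19_8_0 (nat_lit 301)) (lo18_8_0 (nat_lit 299)))) (M (nat_lit 232) (B (lo112_8_3 (nat_lit 233)) (lo111_8_3 (nat_lit 231)))))) (M (nat_lit 268) (B (M (nat_lit 236) (B (lo19_8_2 (nat_lit 237)) (lo18_8_2 (nat_lit 235)))) (M (nat_lit 232) (B (lo112_8_3 (nat_lit 233)) (lo111_8_3 (nat_lit 231)))))))))))))) (B (K _ _ _ o1_s1954) (K _ _ _ o1_s1979))))) (B (M (nat_lit 361) (B (lo110_7_5 (nat_lit 234)) (M (nat_lit 393) (B (lo19_12_6 (nat_lit 297)) (lo19_13_6 (nat_lit 425)))))) (B (M (nat_lit 361) (B (lo110_7_5 (nat_lit 234)) (M (nat_lit 393) (B (lo110_8_5 (nat_lit 362)) (lo19_13_6 (nat_lit 425)))))) (K _ _ _ o1_s1989)))))))))) (B (M (nat_lit 298) (B (M (nat_lit 328) (B (lo17_10_2 (nat_lit 299)) (M (nat_lit 326) (B (lo16_10_2 (nat_lit 297)) (M (nat_lit 362) (B (lo17_10_0 (nat_lit 363)) (lo16_10_0 (nat_lit 361)))))))) (B (M (nat_lit 266) (B (M (nat_lit 361) (B (lo110_7_5 (nat_lit 234)) (M (nat_lit 393) (B (lo110_8_5 (nat_lit 362)) (lo19_13_6 (nat_lit 425)))))) (B (M (nat_lit 265) (B (M (nat_lit 233) (B (lo110_11_7 (nat_lit 362)) (M (nat_lit 201) (B (lo19_5_4 (nat_lit 169)) (lo19_6_4 (nat_lit 297)))))) (B (M (nat_lit 297) (B (M (nat_lit 233) (B (lo19_6_4 (nat_lit 201)) (M (nat_lit 328) (B (lo16_10_2 (nat_lit 326)) (lo19_7_5 (nat_lit 360)))))) (B (M (nat_lit 295) (B (M (nat_lit 296) (B (lo17_9_2 (nat_lit 267)) (lo16_9_2 (nat_lit 294)))) (B (M (nat_lit 296) (B (lo16_9_2 (nat_lit 294)) (lo110_9_1 (nat_lit 326)))) (B (M (nat_lit 328) (B (lo16_10_2 (nat_lit 326)) (lo110_10_3 (nat_lit 294)))) (M (nat_lit 326) (B (lo16_10_2 (nat_lit 328)) (lo110_9_1 (nat_lit 296)))))))) (M (nat_lit 361) (B (lo19_12_6 (nat_lit 393)) (M (nat_lit 233) (B (lo19_6_4 (nat_lit 201)) (M (nat_lit 232) (B (lo19_10_7 (nat_lit 200)) (lo19_11_7 (nat_lit 264))))))))))) (B (M (nat_lit 362) (B (lo110_11_7 (nat_lit 233)) (M (nat_lit 363) (B (lo110_8_4 (nat_lit 395)) (lo17_10_0 (nat_lit 328)))))) (M (nat_lit 328) (B (M (nat_lit 362) (B (lo17_10_0 (nat_lit 363)) (M (nat_lit 326) (B (lo16_10_2 (nat_lit 297)) (lo16_10_0 (nat_lit 361)))))) (B (M (nat_lit 326) (B (lo16_10_2 (nat_lit 297)) (M (nat_lit 294) (B (lo110_10_3 (nat_lit 295)) (lo19_10_3 (nat_lit 293)))))) (B (M (nat_lit 362) (B (lo17_10_0 (nat_lit 363)) (M (nat_lit 361) (B (lo110_8_5 (nat_lit 393)) (lo16_10_0 (nat_lit 326)))))) (M (nat_lit 295) (B (lo110_10_3 (nat_lit 294)) (M (nat_lit 267) (B (M (nat_lit 362) (B (lo110_11_6 (nat_lit 235)) (lo17_10_0 (nat_lit 363)))) (M (nat_lit 296) (B (lo17_9_2 (nat_lit 297)) (lo111_8_1 (nat_lit 264)))))))))))))))) (B (M (nat_lit 361) (B (lo110_7_5 (nat_lit 234)) (M (nat_lit 393) (B (lo19_12_6 (nat_lit 297)) (lo19_13_6 (nat_lit 425)))))) (K _ _ _ o1_s1989))))) (B (M (nat_lit 328) (B (lo17_10_2 (nat_lit 299)) (M (nat_lit 326) (B (lo16_10_2 (nat_lit 297)) (M (nat_lit 294) (B (lo110_10_3 (nat_lit 295)) (lo19_10_3 (nat_lit 293)))))))) (B (M (nat_lit 328) (B (lo17_10_2 (nat_lit 299)) (M (nat_lit 326) (B (M (nat_lit 362) (B (lo17_10_0 (nat_lit 363)) (lo16_10_0 (nat_lit 361)))) (M (nat_lit 294) (B (lo110_10_3 (nat_lit 295)) (lo19_10_3 (nat_lit 293)))))))) (K _ _ _ o1_s1990)))))) (B (M (nat_lit 328) (B (M (nat_lit 361) (B (M (nat_lit 298) (B (lo17_10_2 (nat_lit 299)) (M (nat_lit 362) (B (lo17_10_0 (nat_lit 363)) (M (nat_lit 266) (B (lo110_8_5 (nat_lit 393)) (lo110_7_5 (nat_lit 234)))))))) (B (M (nat_lit 298) (B (lo17_10_2 (nat_lit 299)) (M (nat_lit 266) (B (lo110_7_5 (nat_lit 234)) (M (nat_lit 393) (B (lo110_8_5 (nat_lit 362)) (lo19_13_6 (nat_lit 425)))))))) (B (M (nat_lit 296) (B (M (nat_lit 264) (B (lo18_7_4 (nat_lit 232)) (M (nat_lit 393) (B (lo19_13_7 (nat_lit 425)) (lo18_8_4 (nat_lit 360)))))) (B (M (nat_lit 264) (B (lo18_7_4 (nat_lit 232)) (M (nat_lit 393) (B (lo19_12_7 (nat_lit 297)) (lo18_8_4 (nat_lit 360)))))) (B (M (nat_lit 264) (B (lo18_7_4 (nat_lit 232)) (M (nat_lit 359) (B (lo110_10_1 (nat_lit 358)) (M (nat_lit 391) (B (lo18_8_5 (nat_lit 360)) (lo17_13_6 (nat_lit 423)))))))) (B (M (nat_lit 264) (B (lo18_7_4 (nat_lit 232)) (M (nat_lit 393) (B (lo19_13_7 (nat_lit 425)) (lo19_12_7 (nat_lit 297)))))) (M (nat_lit 359) (B (lo110_10_1 (nat_lit 358)) (M (nat_lit 362) (B (lo17_10_0 (nat_lit 363)) (M (nat_lit 391) (B (lo17_13_6 (nat_lit 423)) (M (nat_lit 393) (B (lo19_13_7 (nat_lit 425)) (M (nat_lit 390) (B (lo16_12_2 (nat_lit 392)) (lo110_11_1 (nat_lit 360))))))))))))))))) (B (M (nat_lit 298) (B (lo17_10_2 (nat_lit 299)) (M (nat_lit 266) (B (lo110_7_5 (nat_lit 234)) (M (nat_lit 393) (B (lo19_13_6 (nat_lit 425)) (lo19_12_6 (nat_lit 297)))))))) (M (nat_lit 265) (B (M (nat_lit 298) (B (lo17_10_2 (nat_lit 299)) (M (nat_lit 362) (B (lo17_10_0 (nat_lit 363)) (M (nat_lit 266) (B (lo110_11_7 (nat_lit 233)) (lo110_7_5 (nat_lit 234)))))))) (B (M (nat_lit 298) (B (lo17_10_2 (nat_lit 299)) (M (nat_lit 233) (B (M (nat_lit 266) (B (lo110_11_7 (nat_lit 362)) (lo110_7_5 (nat_lit 234)))) (M (nat_lit 297) (B (lo19_6_4 (nat_lit 201)) (lo19_7_5 (nat_lit 360)))))))) (B (M (nat_lit 362) (B (lo17_10_0 (nat_lit 363)) (M (nat_lit 266) (B (M (nat_lit 233) (B (lo110_11_7 (nat_lit 298)) (lo19_7_4 (nat_lit 297)))) (B (M (nat_lit 297) (B (lo19_7_4 (nat_lit 233)) (lo19_11_6 (nat_lit 234)))) (B (M (nat_lit 298) (B (lo110_11_7 (nat_lit 233)) (lo110_7_5 (nat_lit 234)))) (M (nat_lit 234) (B (lo110_7_5 (nat_lit 298)) (lo19_11_6 (nat_lit 297)))))))))) (B (M (nat_lit 297) (B (M (nat_lit 360) (B (lo19_8_5 (nat_lit 392)) (lo19_7_5 (nat_lit 233)))) (M (nat_lit 266) (B (lo19_11_6 (nat_lit 234)) (M (nat_lit 267) (B (M (nat_lit 268) (B (lo112_8_1 (nat_lit 296)) (M (nat_lit 298) (B (lo113_8_1 (nat_lit 269)) (lo17_10_2 (nat_lit 299)))))) (B (M (nat_lit 299) (B (lo17_10_2 (nat_lit 298)) (M (nat_lit 264) (B (lo18_8_0 (nat_lit 300)) (lo19_11_7 (nat_lit 232)))))) (M (nat_lit 236) (B (M (nat_lit 268) (B (lo19_8_2 (nat_lit 237)) (lo112_8_1 (nat_lit 296)))) (M (nat_lit 264) (B (lo18_8_2 (nat_lit 235)) (lo19_11_7 (nat_lit 232))))))))))))) (B (M (nat_lit 360) (B (M (nat_lit 297) (B (lo19_8_5 (nat_lit 392)) (lo19_7_5 (nat_lit 233)))) (M (nat_lit 359) (B (lo16_11_2 (nat_lit 358)) (M (nat_lit 391) (B (M (nat_lit 362) (B (lo17_10_0 (nat_lit 363)) (lo110_11_1 (nat_lit 390)))) (M (nat_lit 423) (B (lo17_14_6 (nat_lit 455)) (lo17_13_6 (nat_lit 296)))))))))) (M (nat_lit 266) (B (M (nat_lit 298) (B (lo17_10_2 (nat_lit 299)) (lo110_7_5 (nat_lit 234)))) (B (M (nat_lit 234) (B (lo110_7_5 (nat_lit 298)) (lo19_11_6 (nat_lit 297)))) (B (M (nat_lit 360) (B (M (nat_lit 297) (B (lo19_11_6 (nat_lit 234)) (lo19_8_5 (nat_lit 392)))) (M (nat_lit 359) (B (lo16_11_2 (nat_lit 358)) (M (nat_lit 391) (B (M (nat_lit 362) (B (lo17_10_0 (nat_lit 363)) (lo110_11_1 (nat_lit 390)))) (M (nat_lit 423) (B (lo17_14_6 (nat_lit 455)) (lo17_13_6 (nat_lit 296)))))))))) (M (nat_lit 264) (B (M (nat_lit 232) (B (lo19_11_7 (nat_lit 297)) (lo18_7_4 (nat_lit 296)))) (M (nat_lit 267) (B (M (nat_lit 299) (B (lo18_8_0 (nat_lit 300)) (lo17_10_2 (nat_lit 298)))) (B (M (nat_lit 235) (B (lo18_8_2 (nat_lit 236)) (M (nat_lit 362) (B (lo17_10_0 (nat_lit 363)) (lo110_11_6 (nat_lit 298)))))) (M (nat_lit 268) (B (M (nat_lit 300) (B (lo19_8_0 (nat_lit 301)) (lo18_8_0 (nat_lit 299)))) (M (nat_lit 236) (B (lo19_8_2 (nat_lit 237)) (lo18_8_2 (nat_lit 235)))))))))))))))))))))))))) (B (M (nat_lit 298) (B (M (nat_lit 299) (B (lo17_10_2 (nat_lit 330)) (M (nat_lit 297) (B (lo111_9_1 (nat_lit 296)) (lo16_10_2 (nat_lit 326)))))) (B (M (nat_lit 361) (B (M (nat_lit 326) (B (lo16_10_2 (nat_lit 297)) (lo16_10_0 (nat_lit 362)))) (B (M (nat_lit 362) (B (lo16_10_0 (nat_lit 326)) (M (nat_lit 363) (B (lo17_10_0 (nat_lit 330)) (lo112_11_3 (nat_lit 364)))))) (B (M (nat_lit 393) (B (M (nat_lit 425) (B (lo19_13_6 (nat_lit 330)) (lo19_13_7 (nat_lit 296)))) (B (M (nat_lit 266) (B (lo19_12_6 (nat_lit 297)) (lo110_7_5 (nat_lit 234)))) (B (M (nat_lit 297) (B (lo19_12_6 (nat_lit 266)) (M (nat_lit 296) (B (lo19_12_7 (nat_lit 264)) (lo19_13_7 (nat_lit 425)))))) (M (nat_lit 266) (B (lo19_12_6 (nat_lit 297)) (lo110_7_5 (nat_lit 234)))))))) (M (nat_lit 393) (B (M (nat_lit 297) (B (lo19_12_6 (nat_lit 266)) (lo16_10_2 (nat_lit 326)))) (M (nat_lit 425) (B (lo19_13_6 (nat_lit 330)) (lo19_13_7 (nat_lit 296)))))))))) (B (lo17_10_2 (nat_lit 299)) (B (M (nat_lit 297) (B (lo16_10_2 (nat_lit 326)) (M (nat_lit 299) (B (lo112_9_1 (nat_lit 300)) (lo111_9_1 (nat_lit 296)))))) (M (nat_lit 299) (B (lo17_10_2 (nat_lit 330)) (M (nat_lit 297) (B (lo112_9_1 (nat_lit 300)) (lo111_9_1 (nat_lit 296))))))))))) (B (M (nat_lit 326) (B (M (nat_lit 358) (B (lo110_10_1 (nat_lit 359)) (lo19_10_1 (nat_lit 357)))) (M (nat_lit 362) (B (lo17_10_0 (nat_lit 363)) (lo16_10_0 (nat_lit 361)))))) (M (nat_lit 326) (B (M (nat_lit 358) (B (lo19_10_1 (nat_lit 357)) (lo110_10_1 (nat_lit 359)))) (M (nat_lit 298) (B (lo16_10_2 (nat_lit 297)) (lo17_10_2 (nat_lit 299)))))))))) (B (M (nat_lit 328) (B (M (nat_lit 326) (B (M (nat_lit 298) (B (lo17_10_2 (nat_lit 299)) (lo16_10_2 (nat_lit 297)))) (M (nat_lit 294) (B (lo110_10_3 (nat_lit 295)) (lo19_10_3 (nat_lit 293)))))) (B (M (nat_lit 326) (B (M (nat_lit 362) (B (lo17_10_0 (nat_lit 363)) (lo16_10_0 (nat_lit 361)))) (M (nat_lit 358) (B (lo110_10_1 (nat_lit 359)) (lo19_10_1 (nat_lit 357)))))) (M (nat_lit 360) (B (M (nat_lit 359) (B (lo110_10_1 (nat_lit 358)) (M (nat_lit 295) (B (lo110_10_3 (nat_lit 294)) (M (nat_lit 392) (B (lo18_13_7 (nat_lit 424)) (lo17_8_4 (nat_lit 263)))))))) (B (M (nat_lit 361) (B (M (nat_lit 362) (B (lo17_10_0 (nat_lit 363)) (M (nat_lit 298) (B (lo17_10_2 (nat_lit 299)) (M (nat_lit 266) (B (lo110_7_5 (nat_lit 234)) (lo110_8_5 (nat_lit 393)))))))) (B (M (nat_lit 359) (B (lo16_11_2 (nat_lit 358)) (M (nat_lit 391) (B (M (nat_lit 362) (B (lo17_10_0 (nat_lit 363)) (lo110_11_1 (nat_lit 390)))) (M (nat_lit 423) (B (lo17_13_6 (nat_lit 296)) (lo17_14_6 (nat_lit 455)))))))) (M (nat_lit 298) (B (lo17_10_2 (nat_lit 299)) (M (nat_lit 393) (B (lo19_13_6 (nat_lit 425)) (M (nat_lit 266) (B (lo110_7_5 (nat_lit 234)) (lo19_12_6 (nat_lit 297))))))))))) (M (nat_lit 295) (B (lo110_10_3 (nat_lit 294)) (M (nat_lit 392) (B (lo18_13_7 (nat_lit 424)) (M (nat_lit 263) (B (lo18_12_7 (nat_lit 296)) (lo17_7_4 (nat_lit 231)))))))))))))) (B (M (nat_lit 328) (B (M (nat_lit 326) (B (M (nat_lit 362) (B (lo17_10_0 (nat_lit 363)) (lo16_10_0 (nat_lit 361)))) (M (nat_lit 294) (B (lo110_10_3 (nat_lit 295)) (lo19_10_3 (nat_lit 293)))))) (B (M (nat_lit 326) (B (M (nat_lit 294) (B (lo110_10_3 (nat_lit 295)) (lo19_10_3 (nat_lit 293)))) (M (nat_lit 358) (B (lo110_10_1 (nat_lit 359)) (lo19_10_1 (nat_lit 357)))))) (B (M (nat_lit 326) (B (M (nat_lit 362) (B (lo17_10_0 (nat_lit 363)) (lo16_10_0 (nat_lit 361)))) (M (nat_lit 358) (B (lo110_10_1 (nat_lit 359)) (lo19_10_1 (nat_lit 357)))))) (M (nat_lit 295) (B (lo110_10_3 (nat_lit 294)) (M (nat_lit 359) (B (lo110_10_1 (nat_lit 358)) (M (nat_lit 263) (B (M (nat_lit 360) (B (lo17_7_4 (nat_lit 231)) (lo17_8_4 (nat_lit 392)))) (B (M (nat_lit 231) (B (M (nat_lit 232) (B (lo17_10_6 (nat_lit 200)) (lo17_11_6 (nat_lit 264)))) (M (nat_lit 230) (B (lo17_10_7 (nat_lit 198)) (lo17_11_7 (nat_lit 262)))))) (M (nat_lit 391) (B (M (nat_lit 264) (B (lo17_11_6 (nat_lit 232)) (lo17_12_6 (nat_lit 296)))) (M (nat_lit 392) (B (lo17_8_4 (nat_lit 360)) (lo17_9_4 (nat_lit 424))))))))))))))))) (B (M (nat_lit 328) (B (M (nat_lit 326) (B (M (nat_lit 298) (B (lo17_10_2 (nat_lit 299)) (lo16_10_2 (nat_lit 297)))) (M (nat_lit 358) (B (lo110_10_1 (nat_lit 359)) (lo19_10_1 (nat_lit 357)))))) (B (M (nat_lit 326) (B (M (nat_lit 358) (B (lo110_10_1 (nat_lit 359)) (lo19_10_1 (nat_lit 357)))) (M (nat_lit 294) (B (lo110_10_3 (nat_lit 295)) (lo19_10_3 (nat_lit 293)))))) (B (M (nat_lit 326) (B (M (nat_lit 298) (B (lo17_10_2 (nat_lit 299)) (lo16_10_2 (nat_lit 297)))) (M (nat_lit 294) (B (lo110_10_3 (nat_lit 295)) (lo19_10_3 (nat_lit 293)))))) (M (nat_lit 359) (B (lo110_10_1 (nat_lit 358)) (M (nat_lit 295) (B (lo110_10_3 (nat_lit 294)) (M (nat_lit 391) (B (M (nat_lit 296) (B (lo17_13_6 (nat_lit 423)) (lo17_12_6 (nat_lit 264)))) (B (M (nat_lit 423) (B (M (nat_lit 424) (B (lo17_10_4 (nat_lit 456)) (lo17_9_4 (nat_lit 392)))) (M (nat_lit 422) (B (lo17_10_5 (nat_lit 454)) (lo17_9_5 (nat_lit 390)))))) (M (nat_lit 263) (B (M (nat_lit 392) (B (lo17_9_4 (nat_lit 424)) (lo17_8_4 (nat_lit 360)))) (M (nat_lit 264) (B (lo17_12_6 (nat_lit 296)) (lo17_11_6 (nat_lit 232))))))))))))))))) (M (nat_lit 328) (B (M (nat_lit 326) (B (M (nat_lit 298) (B (lo17_10_2 (nat_lit 299)) (lo16_10_2 (nat_lit 297)))) (M (nat_lit 294) (B (lo110_10_3 (nat_lit 295)) (lo19_10_3 (nat_lit 293)))))) (B (M (nat_lit 326) (B (M (nat_lit 362) (B (lo17_10_0 (nat_lit 363)) (lo16_10_0 (nat_lit 361)))) (M (nat_lit 358) (B (lo110_10_1 (nat_lit 359)) (lo19_10_1 (nat_lit 357)))))) (M (nat_lit 298) (B (lo17_10_2 (nat_lit 299)) (K _ _ _ o1_s1572))))))))))))))) (B (M (nat_lit 461) (B (M (nat_lit 364) (B (M (nat_lit 361) (B (M (nat_lit 331) (B (M (nat_lit 266) (B (M (nat_lit 298) (B (lo110_7_5 (nat_lit 234)) (M (nat_lit 393) (B (lo19_12_6 (nat_lit 297)) (lo19_13_6 (nat_lit 425)))))) (B (M (nat_lit 298) (B (M (nat_lit 393) (B (lo19_12_6 (nat_lit 297)) (lo110_8_5 (nat_lit 362)))) (B (M (nat_lit 393) (B (lo110_8_5 (nat_lit 362)) (lo19_13_6 (nat_lit 425)))) (B (M (nat_lit 393) (B (lo19_12_6 (nat_lit 297)) (lo19_13_6 (nat_lit 425)))) (M (nat_lit 265) (B (M (nat_lit 233) (B (lo110_11_7 (nat_lit 362)) (M (nat_lit 201) (B (lo19_5_4 (nat_lit 169)) (lo19_6_4 (nat_lit 297)))))) (B (M (nat_lit 267) (B (M (nat_lit 362) (B (lo110_11_6 (nat_lit 235)) (lo110_11_7 (nat_lit 233)))) (M (nat_lit 264) (B (M (nat_lit 232) (B (lo111_8_3 (nat_lit 231)) (lo19_11_7 (nat_lit 297)))) (M (nat_lit 299) (B (lo18_8_0 (nat_lit 300)) (lo17_8_0 (nat_lit 263)))))))) (B (M (nat_lit 264) (B (M (nat_lit 299) (B (lo17_8_0 (nat_lit 263)) (M (nat_lit 300) (B (lo18_8_0 (nat_lit 267)) (lo113_9_3 (nat_lit 301)))))) (B (M (nat_lit 299) (B (lo17_8_0 (nat_lit 263)) (M (nat_lit 300) (B (lo113_9_3 (nat_lit 301)) (lo112_9_3 (nat_lit 297)))))) (M (nat_lit 267) (B (M (nat_lit 235) (B (lo18_8_2 (nat_lit 236)) (lo110_11_6 (nat_lit 362)))) (M (nat_lit 232) (B (lo111_8_3 (nat_lit 231)) (lo19_11_7 (nat_lit 297))))))))) (B (M (nat_lit 267) (B (M (nat_lit 362) (B (lo110_11_6 (nat_lit 235)) (lo110_11_7 (nat_lit 233)))) (B (M (nat_lit 299) (B (M (nat_lit 300) (B (lo18_8_0 (nat_lit 264)) (lo113_9_3 (nat_lit 301)))) (M (nat_lit 268) (B (M (nat_lit 236) (B (lo19_8_2 (nat_lit 237)) (lo111_11_6 (nat_lit 363)))) (M (nat_lit 233) (B (lo112_8_3 (nat_lit 232)) (lo110_11_7 (nat_lit 362)))))))) (B (M (nat_lit 299) (B (M (nat_lit 235) (B (lo111_6_5 (nat_lit 203)) (lo110_11_6 (nat_lit 362)))) (M (nat_lit 264) (B (lo18_8_0 (nat_lit 300)) (lo17_8_0 (nat_lit 263)))))) (M (nat_lit 299) (B (M (nat_lit 300) (B (lo18_8_0 (nat_lit 264)) (lo113_9_3 (nat_lit 301)))) (M (nat_lit 236) (B (M (nat_lit 235) (B (lo111_10_6 (nat_lit 204)) (lo111_6_5 (nat_lit 203)))) (M (nat_lit 268) (B (lo19_8_2 (nat_lit 237)) (lo111_11_6 (nat_lit 363)))))))))))) (M (nat_lit 264) (B (M (nat_lit 299) (B (lo17_8_0 (nat_lit 263)) (M (nat_lit 300) (B (lo18_8_0 (nat_lit 267)) (lo113_9_3 (nat_lit 301)))))) (B (M (nat_lit 299) (B (lo17_8_0 (nat_lit 263)) (M (nat_lit 300) (B (lo113_9_3 (nat_lit 301)) (lo112_9_3 (nat_lit 297)))))) (B (M (nat_lit 267) (B (M (nat_lit 232) (B (lo111_8_3 (nat_lit 231)) (lo19_11_7 (nat_lit 297)))) (M (nat_lit 268) (B (M (nat_lit 236) (B (lo19_8_2 (nat_lit 237)) (lo18_8_2 (nat_lit 235)))) (M (nat_lit 300) (B (lo19_8_0 (nat_lit 301)) (lo18_8_0 (nat_lit 299)))))))) (B (M (nat_lit 299) (B (lo17_8_0 (nat_lit 263)) (M (nat_lit 300) (B (lo18_8_0 (nat_lit 267)) (lo112_9_3 (nat_lit 297)))))) (M (nat_lit 267) (B (M (nat_lit 232) (B (lo111_8_3 (nat_lit 231)) (lo19_11_7 (nat_lit 297)))) (B (M (nat_lit 268) (B (M (nat_lit 236) (B (lo19_8_2 (nat_lit 237)) (lo18_8_2 (nat_lit 235)))) (M (nat_lit 297) (B (lo113_8_1 (nat_lit 269)) (lo112_8_1 (nat_lit 296)))))) (M (nat_lit 268) (B (M (nat_lit 236) (B (lo19_8_2 (nat_lit 237)) (lo18_8_2 (nat_lit 235)))) (M (nat_lit 232) (B (lo112_8_3 (nat_lit 233)) (lo111_8_3 (nat_lit 231))))))))))))))))))))))) (B (M (nat_lit 265) (B (M (nat_lit 297) (B (lo19_11_6 (nat_lit 234)) (M (nat_lit 232) (B (lo19_11_7 (nat_lit 264)) (M (nat_lit 233) (B (lo19_10_7 (nat_lit 200)) (lo19_7_4 (nat_lit 362)))))))) (B (M (nat_lit 297) (B (lo19_11_6 (nat_lit 234)) (M (nat_lit 264) (B (lo19_11_7 (nat_lit 232)) (M (nat_lit 296) (B (lo19_12_7 (nat_lit 393)) (M (nat_lit 267) (B (lo112_8_1 (nat_lit 268)) (lo111_8_1 (nat_lit 295)))))))))) (B (M (nat_lit 267) (B (M (nat_lit 297) (B (M (nat_lit 296) (B (lo112_8_1 (nat_lit 268)) (M (nat_lit 264) (B (lo19_11_7 (nat_lit 232)) (lo111_8_1 (nat_lit 295)))))) (B (M (nat_lit 296) (B (lo112_8_1 (nat_lit 268)) (M (nat_lit 295) (B (lo111_8_1 (nat_lit 264)) (lo16_9_2 (nat_lit 294)))))) (B (M (nat_lit 264) (B (lo19_11_7 (nat_lit 232)) (M (nat_lit 296) (B (lo111_8_1 (nat_lit 295)) (lo19_12_7 (nat_lit 393)))))) (B (M (nat_lit 233) (B (lo19_7_4 (nat_lit 362)) (M (nat_lit 268) (B (lo112_8_3 (nat_lit 232)) (lo112_8_1 (nat_lit 296)))))) (M (nat_lit 233) (B (lo19_7_4 (nat_lit 362)) (M (nat_lit 232) (B (lo112_8_3 (nat_lit 268)) (lo19_11_7 (nat_lit 264))))))))))) (B (M (nat_lit 264) (B (M (nat_lit 232) (B (lo111_8_3 (nat_lit 231)) (lo19_11_7 (nat_lit 297)))) (M (nat_lit 235) (B (lo18_8_2 (nat_lit 236)) (M (nat_lit 299) (B (lo111_7_5 (nat_lit 362)) (lo18_8_0 (nat_lit 300)))))))) (B (K _ _ _ o1_s2599) (B (K _ _ _ o1_s2611) (B (K _ _ _ o1_s2623) (M (nat_lit 264) (B (M (nat_lit 232) (B (lo111_8_3 (nat_lit 231)) (lo19_11_7 (nat_lit 297)))) (B (M (nat_lit 296) (B (lo111_8_1 (nat_lit 295)) (M (nat_lit 297) (B (lo112_8_1 (nat_lit 268)) (lo19_12_7 (nat_lit 393)))))) (M (nat_lit 268) (B (M (nat_lit 236) (B (lo19_8_2 (nat_lit 237)) (lo18_8_2 (nat_lit 235)))) (M (nat_lit 232) (B (lo112_8_3 (nat_lit 233)) (lo111_8_3 (nat_lit 231))))))))))))))) (B (M (nat_lit 267) (B (M (nat_lit 297) (B (lo19_11_6 (nat_lit 234)) (M (nat_lit 296) (B (lo112_8_1 (nat_lit 268)) (M (nat_lit 295) (B (lo111_8_1 (nat_lit 264)) (lo16_9_2 (nat_lit 294)))))))) (B (K _ _ _ o1_s2599) (B (M (nat_lit 234) (B (lo19_11_6 (nat_lit 297)) (M (nat_lit 299) (B (lo111_11_7 (nat_lit 363)) (M (nat_lit 202) (B (lo110_5_4 (nat_lit 170)) (lo111_10_7 (nat_lit 235)))))))) (K _ _ _ o1_s2645))))) (B (M (nat_lit 267) (B (M (nat_lit 297) (B (lo19_11_6 (nat_lit 234)) (M (nat_lit 233) (B (lo19_7_4 (nat_lit 362)) (M (nat_lit 268) (B (lo112_8_3 (nat_lit 232)) (lo112_8_1 (nat_lit 296)))))))) (B (K _ _ _ o1_s2611) (B (M (nat_lit 234) (B (lo19_11_6 (nat_lit 297)) (M (nat_lit 299) (B (lo111_11_7 (nat_lit 363)) (M (nat_lit 202) (B (lo110_5_4 (nat_lit 170)) (lo111_10_7 (nat_lit 235)))))))) (K _ _ _ o1_s2672))))) (M (nat_lit 267) (B (M (nat_lit 299) (B (M (nat_lit 300) (B (lo18_8_0 (nat_lit 264)) (M (nat_lit 301) (B (lo19_8_0 (nat_lit 268)) (lo114_9_3 (nat_lit 302)))))) (B (M (nat_lit 235) (B (lo111_7_5 (nat_lit 362)) (M (nat_lit 264) (B (lo18_8_2 (nat_lit 236)) (lo18_8_0 (nat_lit 300)))))) (M (nat_lit 235) (B (lo111_7_5 (nat_lit 362)) (M (nat_lit 234) (B (lo111_10_7 (nat_lit 202)) (lo111_11_7 (nat_lit 363))))))))) (B (K _ _ _ o1_s2623) (B (K _ _ _ o1_s2645) (B (M (nat_lit 268) (B (M (nat_lit 299) (B (M (nat_lit 236) (B (lo19_8_2 (nat_lit 237)) (lo111_11_6 (nat_lit 363)))) (M (nat_lit 300) (B (lo19_8_0 (nat_lit 301)) (lo18_8_0 (nat_lit 264)))))) (B (M (nat_lit 299) (B (M (nat_lit 363) (B (lo111_11_6 (nat_lit 236)) (lo111_11_7 (nat_lit 234)))) (M (nat_lit 300) (B (lo19_8_0 (nat_lit 301)) (lo18_8_0 (nat_lit 264)))))) (B (M (nat_lit 264) (B (M (nat_lit 232) (B (lo112_8_3 (nat_lit 233)) (lo111_8_3 (nat_lit 231)))) (M (nat_lit 300) (B (lo19_8_0 (nat_lit 301)) (lo18_8_0 (nat_lit 299)))))) (M (nat_lit 269) (B (M (nat_lit 237) (B (lo110_8_2 (nat_lit 238)) (lo19_8_2 (nat_lit 236)))) (M (nat_lit 233) (B (lo113_8_3 (nat_lit 234)) (lo112_8_3 (nat_lit 232)))))))))) (B (M (nat_lit 264) (B (M (nat_lit 235) (B (lo18_8_2 (nat_lit 236)) (M (nat_lit 299) (B (lo111_7_5 (nat_lit 362)) (lo18_8_0 (nat_lit 300)))))) (M (nat_lit 263) (B (M (nat_lit 231) (B (lo111_8_3 (nat_lit 232)) (lo110_8_3 (nat_lit 230)))) (M (nat_lit 295) (B (lo111_8_1 (nat_lit 296)) (lo110_8_1 (nat_lit 294)))))))) (B (K _ _ _ o1_s2672) (B (M (nat_lit 235) (B (M (nat_lit 236) (B (lo18_8_2 (nat_lit 264)) (M (nat_lit 237) (B (lo114_7_1 (nat_lit 238)) (lo19_8_2 (nat_lit 268)))))) (B (M (nat_lit 236) (B (lo18_8_2 (nat_lit 264)) (M (nat_lit 237) (B (lo113_7_1 (nat_lit 234)) (lo19_8_2 (nat_lit 268)))))) (M (nat_lit 299) (B (lo111_7_5 (nat_lit 362)) (M (nat_lit 234) (B (lo111_10_7 (nat_lit 202)) (lo111_11_7 (nat_lit 363))))))))) (M (nat_lit 268) (B (M (nat_lit 301) (B (lo19_8_0 (nat_lit 300)) (M (nat_lit 233) (B (lo112_8_3 (nat_lit 232)) (M (nat_lit 269) (B (lo113_8_3 (nat_lit 234)) (lo110_8_0 (nat_lit 302)))))))) (B (M (nat_lit 269) (B (M (nat_lit 237) (B (lo110_8_2 (nat_lit 238)) (lo19_8_2 (nat_lit 236)))) (M (nat_lit 301) (B (lo110_8_0 (nat_lit 302)) (lo19_8_0 (nat_lit 300)))))) (M (nat_lit 264) (B (M (nat_lit 236) (B (lo19_8_2 (nat_lit 237)) (lo18_8_2 (nat_lit 235)))) (M (nat_lit 232) (B (lo112_8_3 (nat_lit 233)) (lo111_8_3 (nat_lit 231))))))))))))))))))))))) (B (M (nat_lit 298) (B (lo110_7_5 (nat_lit 234)) (M (nat_lit 393) (B (lo110_8_5 (nat_lit 362)) (lo19_13_6 (nat_lit 425)))))) (M (nat_lit 265) (B (M (nat_lit 234) (B (lo19_11_6 (nat_lit 297)) (lo110_7_5 (nat_lit 298)))) (B (M (nat_lit 264) (B (M (nat_lit 232) (B (lo19_11_7 (nat_lit 297)) (M (nat_lit 231) (B (lo111_8_3 (nat_lit 267)) (M (nat_lit 230) (B (lo16_7_0 (nat_lit 233)) (lo110_8_3 (nat_lit 263)))))))) (B (M (nat_lit 267) (B (M (nat_lit 232) (B (lo111_8_3 (nat_lit 231)) (lo19_11_7 (nat_lit 297)))) (M (nat_lit 235) (B (lo18_8_2 (nat_lit 236)) (M (nat_lit 299) (B (lo111_7_5 (nat_lit 362)) (lo18_8_0 (nat_lit 300)))))))) (B (M (nat_lit 267) (B (M (nat_lit 235) (B (lo18_8_2 (nat_lit 236)) (M (nat_lit 299) (B (lo111_7_5 (nat_lit 362)) (lo18_8_0 (nat_lit 300)))))) (B (M (nat_lit 268) (B (M (nat_lit 300) (B (lo19_8_0 (nat_lit 301)) (lo18_8_0 (nat_lit 299)))) (M (nat_lit 296) (B (lo112_8_1 (nat_lit 297)) (lo111_8_1 (nat_lit 295)))))) (M (nat_lit 268) (B (M (nat_lit 236) (B (lo19_8_2 (nat_lit 237)) (lo18_8_2 (nat_lit 235)))) (M (nat_lit 296) (B (lo112_8_1 (nat_lit 297)) (lo111_8_1 (nat_lit 295))))))))) (B (M (nat_lit 297) (B (lo19_11_7 (nat_lit 232)) (M (nat_lit 298) (B (M (nat_lit 233) (B (lo19_6_4 (nat_lit 201)) (lo110_11_7 (nat_lit 362)))) (M (nat_lit 299) (B (lo17_8_0 (nat_lit 263)) (lo112_9_3 (nat_lit 300)))))))) (M (nat_lit 267) (B (M (nat_lit 235) (B (lo18_8_2 (nat_lit 236)) (M (nat_lit 299) (B (lo111_7_5 (nat_lit 362)) (lo18_8_0 (nat_lit 300)))))) (B (M (nat_lit 268) (B (M (nat_lit 232) (B (lo112_8_3 (nat_lit 233)) (lo111_8_3 (nat_lit 231)))) (M (nat_lit 300) (B (lo19_8_0 (nat_lit 301)) (lo18_8_0 (nat_lit 299)))))) (M (nat_lit 268) (B (M (nat_lit 236) (B (lo19_8_2 (nat_lit 237)) (lo18_8_2 (nat_lit 235)))) (M (nat_lit 232) (B (lo112_8_3 (nat_lit 233)) (lo111_8_3 (nat_lit 231)))))))))))))) (B (M (nat_lit 297) (B (lo19_11_6 (nat_lit 234)) (M (nat_lit 232) (B (lo19_11_7 (nat_lit 264)) (M (nat_lit 233) (B (lo19_10_7 (nat_lit 200)) (lo19_7_4 (nat_lit 362)))))))) (M (nat_lit 267) (B (M (nat_lit 298) (B (lo110_7_5 (nat_lit 234)) (M (nat_lit 362) (B (lo110_11_6 (nat_lit 235)) (lo110_11_7 (nat_lit 233)))))) (B (M (nat_lit 299) (B (M (nat_lit 234) (B (lo111_11_7 (nat_lit 363)) (lo110_7_5 (nat_lit 298)))) (M (nat_lit 300) (B (lo18_8_0 (nat_lit 264)) (M (nat_lit 301) (B (lo19_8_0 (nat_lit 268)) (lo114_9_3 (nat_lit 302)))))))) (K _ _ _ o1_s2623))))))))))))) (lo112_10_1 (nat_lit 360)))) (B (M (nat_lit 297) (B (M (nat_lit 265) (B (M (nat_lit 266) (B (M (nat_lit 234) (B (lo19_11_6 (nat_lit 361)) (M (nat_lit 202) (B (lo110_6_5 (nat_lit 298)) (lo110_5_5 (nat_lit 170)))))) (B (M (nat_lit 267) (B (M (nat_lit 296) (B (lo112_8_1 (nat_lit 268)) (M (nat_lit 295) (B (lo16_9_2 (nat_lit 294)) (lo111_8_1 (nat_lit 264)))))) (B (M (nat_lit 296) (B (lo112_8_1 (nat_lit 268)) (M (nat_lit 295) (B (lo17_9_2 (nat_lit 298)) (lo111_8_1 (nat_lit 264)))))) (B (M (nat_lit 268) (B (lo112_8_1 (nat_lit 296)) (M (nat_lit 269) (B (lo113_8_1 (nat_lit 298)) (M (nat_lit 301) (B (lo19_8_0 (nat_lit 300)) (lo110_8_0 (nat_lit 302)))))))) (B (M (nat_lit 264) (B (M (nat_lit 235) (B (lo18_8_2 (nat_lit 236)) (M (nat_lit 263) (B (lo17_8_2 (nat_lit 234)) (M (nat_lit 231) (B (lo110_8_3 (nat_lit 230)) (lo111_8_3 (nat_lit 232)))))))) (B (K _ _ _ o1_s2789) (M (nat_lit 263) (B (M (nat_lit 231) (B (lo110_8_3 (nat_lit 230)) (lo111_8_3 (nat_lit 232)))) (M (nat_lit 262) (B (lo16_8_0 (nat_lit 298)) (M (nat_lit 294) (B (lo19_8_1 (nat_lit 293)) (lo110_8_1 (nat_lit 295))))))))))) (M (nat_lit 264) (B (M (nat_lit 232) (B (lo111_8_3 (nat_lit 231)) (M (nat_lit 296) (B (lo18_6_4 (nat_lit 200)) (lo111_8_1 (nat_lit 295)))))) (B (M (nat_lit 235) (B (lo18_8_2 (nat_lit 236)) (M (nat_lit 263) (B (lo17_8_2 (nat_lit 234)) (M (nat_lit 231) (B (lo110_8_3 (nat_lit 230)) (lo111_8_3 (nat_lit 232)))))))) (M (nat_lit 263) (B (M (nat_lit 295) (B (lo110_8_1 (nat_lit 294)) (lo111_8_1 (nat_lit 296)))) (M (nat_lit 235) (B (lo17_8_2 (nat_lit 234)) (lo18_8_2 (nat_lit 236)))))))))))))) (B (M (nat_lit 264) (B (lo19_11_7 (nat_lit 232)) (B (M (nat_lit 267) (B (M (nat_lit 296) (B (lo111_8_1 (nat_lit 295)) (lo112_8_1 (nat_lit 268)))) (M (nat_lit 235) (B (lo18_8_2 (nat_lit 236)) (M (nat_lit 263) (B (lo17_8_2 (nat_lit 234)) (M (nat_lit 231) (B (lo110_8_3 (nat_lit 230)) (lo111_8_3 (nat_lit 232)))))))))) (B (M (nat_lit 263) (B (M (nat_lit 234) (B (lo19_11_6 (nat_lit 361)) (lo17_8_2 (nat_lit 235)))) (M (nat_lit 262) (B (M (nat_lit 294) (B (lo19_8_1 (nat_lit 293)) (lo110_8_1 (nat_lit 295)))) (M (nat_lit 230) (B (lo19_8_3 (nat_lit 229)) (lo110_8_3 (nat_lit 231)))))))) (M (nat_lit 232) (B (lo19_11_7 (nat_lit 361)) (M (nat_lit 200) (B (lo18_6_4 (nat_lit 296)) (lo18_5_4 (nat_lit 168)))))))))) (M (nat_lit 264) (B (M (nat_lit 232) (B (lo19_11_7 (nat_lit 361)) (M (nat_lit 200) (B (lo18_6_4 (nat_lit 296)) (lo18_5_4 (nat_lit 168)))))) (B (M (nat_lit 263) (B (M (nat_lit 262) (B (lo16_8_0 (nat_lit 298)) (M (nat_lit 294) (B (lo19_8_1 (nat_lit 293)) (lo110_8_1 (nat_lit 295)))))) (B (M (nat_lit 262) (B (lo16_8_0 (nat_lit 298)) (M (nat_lit 230) (B (lo19_8_3 (nat_lit 229)) (lo110_8_3 (nat_lit 231)))))) (M (nat_lit 267) (B (M (nat_lit 295) (B (lo110_8_1 (nat_lit 294)) (lo111_8_1 (nat_lit 296)))) (M (nat_lit 231) (B (lo110_8_3 (nat_lit 230)) (lo111_8_3 (nat_lit 232))))))))) (B (M (nat_lit 232) (B (lo19_11_7 (nat_lit 361)) (M (nat_lit 231) (B (lo111_8_3 (nat_lit 267)) (M (nat_lit 230) (B (lo110_8_3 (nat_lit 263)) (lo15_7_0 (nat_lit 229)))))))) (M (nat_lit 267) (B (M (nat_lit 296) (B (lo111_8_1 (nat_lit 295)) (lo112_8_1 (nat_lit 268)))) (B (M (nat_lit 268) (B (lo112_8_1 (nat_lit 296)) (M (nat_lit 236) (B (lo18_8_2 (nat_lit 235)) (lo19_8_2 (nat_lit 237)))))) (B (K _ _ _ o1_s2789) (M (nat_lit 263) (B (M (nat_lit 295) (B (lo110_8_1 (nat_lit 294)) (lo111_8_1 (nat_lit 296)))) (M (nat_lit 262) (B (lo16_8_0 (nat_lit 298)) (M (nat_lit 230) (B (lo19_8_3 (nat_lit 229)) (lo110_8_3 (nat_lit 231)))))))))))))))))))) (B (M (nat_lit 233) (B (lo19_7_4 (nat_lit 362)) (M (nat_lit 201) (B (lo19_6_4 (nat_lit 298)) (M (nat_lit 200) (B (lo19_10_7 (nat_lit 232)) (lo19_9_7 (nat_lit 168)))))))) (M (nat_lit 234) (B (M (nat_lit 233) (B (lo19_7_4 (nat_lit 362)) (lo19_10_6 (nat_lit 202)))) (lo19_11_6 (nat_lit 266))))))) (B (M (nat_lit 265) (B (M (nat_lit 233) (B (lo19_7_4 (nat_lit 362)) (M (nat_lit 232) (B (lo19_11_7 (nat_lit 264)) (lo19_10_7 (nat_lit 200)))))) (B (M (nat_lit 233) (B (M (nat_lit 232) (B (lo19_11_7 (nat_lit 264)) (lo19_10_7 (nat_lit 200)))) (M (nat_lit 201) (B (lo19_6_4 (nat_lit 298)) (M (nat_lit 202) (B (lo19_10_6 (nat_lit 234)) (lo19_9_6 (nat_lit 170)))))))) (B (M (nat_lit 233) (B (lo19_7_4 (nat_lit 362)) (M (nat_lit 201) (B (lo19_6_4 (nat_lit 298)) (M (nat_lit 202) (B (lo19_10_6 (nat_lit 234)) (lo19_9_6 (nat_lit 170)))))))) (M (nat_lit 360) (B (lo19_8_5 (nat_lit 392)) (M (nat_lit 359) (B (lo16_11_2 (nat_lit 358)) (M (nat_lit 331) (B (lo17_11_2 (nat_lit 362)) (lo112_10_1 (nat_lit 332)))))))))))) (M (nat_lit 331) (B (lo112_10_1 (nat_lit 360)) (lo112_10_3 (nat_lit 296))))))) (B (M (nat_lit 393) (B (M (nat_lit 297) (B (M (nat_lit 266) (B (lo19_12_6 (nat_lit 298)) (M (nat_lit 265) (B (lo19_11_6 (nat_lit 234)) (M (nat_lit 264) (B (lo19_11_7 (nat_lit 232)) (lo19_12_7 (nat_lit 296)))))))) (B (M (nat_lit 298) (B (lo19_12_6 (nat_lit 266)) (M (nat_lit 296) (B (lo19_12_7 (nat_lit 264)) (M (nat_lit 331) (B (lo17_9_0 (nat_lit 295)) (lo112_10_3 (nat_lit 332)))))))) (B (M (nat_lit 265) (B (M (nat_lit 266) (B (lo19_11_6 (nat_lit 234)) (lo19_12_6 (nat_lit 298)))) (B (M (nat_lit 298) (B (lo19_12_6 (nat_lit 266)) (M (nat_lit 233) (B (lo19_6_4 (nat_lit 201)) (lo19_7_4 (nat_lit 362)))))) (B (M (nat_lit 233) (B (lo19_7_4 (nat_lit 362)) (M (nat_lit 201) (B (lo19_6_4 (nat_lit 298)) (M (nat_lit 200) (B (lo19_9_7 (nat_lit 168)) (lo19_10_7 (nat_lit 232)))))))) (M (nat_lit 233) (B (lo19_7_4 (nat_lit 362)) (M (nat_lit 234) (B (lo19_10_6 (nat_lit 202)) (lo19_11_6 (nat_lit 266)))))))))) (B (M (nat_lit 265) (B (M (nat_lit 264) (B (lo19_11_7 (nat_lit 232)) (lo19_12_7 (nat_lit 296)))) (M (nat_lit 233) (B (lo19_7_4 (nat_lit 362)) (M (nat_lit 201) (B (lo19_6_4 (nat_lit 298)) (M (nat_lit 202) (B (lo19_9_6 (nat_lit 170)) (lo19_10_6 (nat_lit 234)))))))))) (M (nat_lit 265) (B (M (nat_lit 264) (B (lo19_11_7 (nat_lit 232)) (lo19_12_7 (nat_lit 296)))) (M (nat_lit 233) (B (lo19_7_4 (nat_lit 362)) (M (nat_lit 234) (B (lo19_10_6 (nat_lit 202)) (lo19_11_6 (nat_lit 266))))))))))))) (M (nat_lit 425) (B (lo112_13_3 (nat_lit 392)) (M (nat_lit 456) (B (lo112_13_1 (nat_lit 457)) (M (nat_lit 424) (B (lo111_13_1 (nat_lit 455)) (lo19_10_5 (nat_lit 361)))))))))) (B (M (nat_lit 297) (B (M (nat_lit 265) (B (M (nat_lit 234) (B (lo19_11_6 (nat_lit 266)) (M (nat_lit 233) (B (lo19_10_6 (nat_lit 202)) (lo19_7_4 (nat_lit 362)))))) (B (M (nat_lit 233) (B (lo19_7_4 (nat_lit 362)) (M (nat_lit 232) (B (lo19_10_7 (nat_lit 200)) (lo19_11_7 (nat_lit 264)))))) (M (nat_lit 264) (B (lo19_11_7 (nat_lit 232)) (M (nat_lit 296) (B (lo19_12_7 (nat_lit 393)) (M (nat_lit 266) (B (lo19_11_6 (nat_lit 234)) (M (nat_lit 267) (B (lo112_8_1 (nat_lit 268)) (lo111_8_1 (nat_lit 295))))))))))))) (B (M (nat_lit 360) (B (M (nat_lit 392) (B (lo19_8_5 (nat_lit 265)) (M (nat_lit 424) (B (lo18_14_6 (nat_lit 456)) (lo19_9_5 (nat_lit 393)))))) (M (nat_lit 331) (B (lo112_10_1 (nat_lit 332)) (M (nat_lit 359) (B (lo16_11_2 (nat_lit 358)) (lo17_11_2 (nat_lit 362)))))))) (M (nat_lit 331) (B (lo112_10_1 (nat_lit 360)) (lo112_10_3 (nat_lit 296))))))) (B (M (nat_lit 297) (B (M (nat_lit 265) (B (M (nat_lit 233) (B (M (nat_lit 232) (B (lo19_10_7 (nat_lit 200)) (lo19_11_7 (nat_lit 264)))) (M (nat_lit 234) (B (lo19_10_6 (nat_lit 202)) (lo19_11_6 (nat_lit 266)))))) (B (M (nat_lit 393) (B (M (nat_lit 266) (B (lo19_11_6 (nat_lit 234)) (lo19_12_6 (nat_lit 298)))) (M (nat_lit 392) (B (lo19_8_5 (nat_lit 360)) (lo19_9_5 (nat_lit 424)))))) (B (M (nat_lit 393) (B (M (nat_lit 392) (B (lo19_8_5 (nat_lit 360)) (lo19_9_5 (nat_lit 424)))) (M (nat_lit 298) (B (lo19_12_6 (nat_lit 266)) (lo19_13_6 (nat_lit 425)))))) (M (nat_lit 233) (B (M (nat_lit 232) (B (lo19_10_7 (nat_lit 200)) (lo19_11_7 (nat_lit 264)))) (M (nat_lit 201) (B (lo19_6_4 (nat_lit 298)) (M (nat_lit 202) (B (lo19_9_6 (nat_lit 170)) (lo19_10_6 (nat_lit 234)))))))))))) (B (M (nat_lit 393) (B (M (nat_lit 296) (B (lo19_12_7 (nat_lit 264)) (lo112_10_3 (nat_lit 331)))) (M (nat_lit 298) (B (lo19_12_6 (nat_lit 266)) (lo19_13_6 (nat_lit 425)))))) (M (nat_lit 331) (B (lo112_10_1 (nat_lit 360)) (lo112_10_3 (nat_lit 296))))))) (M (nat_lit 425) (B (M (nat_lit 456) (B (lo112_13_1 (nat_lit 457)) (M (nat_lit 424) (B (lo111_13_1 (nat_lit 455)) (M (nat_lit 392) (B (lo111_13_3 (nat_lit 391)) (lo18_14_6 (nat_lit 360)))))))) (B (M (nat_lit 393) (B (lo19_13_6 (nat_lit 298)) (M (nat_lit 457) (B (lo19_14_6 (nat_lit 362)) (M (nat_lit 456) (B (lo19_11_5 (nat_lit 488)) (lo19_10_5 (nat_lit 424)))))))) (M (nat_lit 393) (B (lo19_13_6 (nat_lit 298)) (lo112_13_3 (nat_lit 392))))))))))))) (M (nat_lit 397) (B (lo110_13_2 (nat_lit 398)) (lo113_14_7 (nat_lit 365)))))) (lo110_13_0 (nat_lit 462)))) (B (M (nat_lit 328) (B (M (nat_lit 331) (B (M (nat_lit 360) (B (lo111_10_1 (nat_lit 359)) (lo112_10_1 (nat_lit 361)))) (B (M (nat_lit 327) (B (M (nat_lit 299) (B (lo17_10_2 (nat_lit 298)) (lo18_10_2 (nat_lit 300)))) (M (nat_lit 363) (B (lo17_10_0 (nat_lit 362)) (lo18_10_0 (nat_lit 364)))))) (M (nat_lit 327) (B (M (nat_lit 359) (B (lo110_10_1 (nat_lit 358)) (lo111_10_1 (nat_lit 360)))) (M (nat_lit 363) (B (lo17_10_0 (nat_lit 362)) (lo18_10_0 (nat_lit 364))))))))) (B (M (nat_lit 331) (B (M (nat_lit 360) (B (lo111_10_1 (nat_lit 359)) (lo112_10_1 (nat_lit 361)))) (M (nat_lit 327) (B (M (nat_lit 295) (B (lo110_10_3 (nat_lit 294)) (lo111_10_3 (nat_lit 296)))) (M (nat_lit 299) (B (lo17_10_2 (nat_lit 298)) (lo18_10_2 (nat_lit 300)))))))) (B (M (nat_lit 331) (B (M (nat_lit 360) (B (lo111_10_1 (nat_lit 359)) (lo112_10_1 (nat_lit 361)))) (B (M (nat_lit 300) (B (lo18_10_2 (nat_lit 299)) (lo19_10_2 (nat_lit 301)))) (B (M (nat_lit 360) (B (lo111_10_1 (nat_lit 359)) (lo112_10_1 (nat_lit 361)))) (M (nat_lit 296) (B (lo111_10_3 (nat_lit 295)) (M (nat_lit 360) (B (lo111_10_1 (nat_lit 359)) (M (nat_lit 392) (B (M (nat_lit 425) (B (lo18_9_4 (nat_lit 393)) (M (nat_lit 424) (B (lo18_10_4 (nat_lit 457)) (M (nat_lit 423) (B (lo18_9_5 (nat_lit 391)) (lo18_10_5 (nat_lit 455)))))))) (B (M (nat_lit 264) (B (M (nat_lit 361) (B (lo18_7_4 (nat_lit 232)) (lo18_8_4 (nat_lit 393)))) (B (M (nat_lit 393) (B (lo18_8_4 (nat_lit 361)) (lo18_9_4 (nat_lit 425)))) (M (nat_lit 232) (B (M (nat_lit 231) (B (lo18_10_7 (nat_lit 199)) (lo18_11_7 (nat_lit 263)))) (M (nat_lit 233) (B (lo18_10_6 (nat_lit 201)) (lo18_11_6 (nat_lit 265))))))))) (B (M (nat_lit 424) (B (M (nat_lit 423) (B (lo18_9_5 (nat_lit 391)) (lo18_10_5 (nat_lit 455)))) (M (nat_lit 456) (B (lo18_14_6 (nat_lit 361)) (M (nat_lit 457) (B (lo18_10_4 (nat_lit 425)) (lo18_11_4 (nat_lit 489)))))))) (M (nat_lit 423) (B (lo18_9_5 (nat_lit 391)) (M (nat_lit 361) (B (M (nat_lit 264) (B (lo18_7_4 (nat_lit 232)) (lo18_8_4 (nat_lit 393)))) (M (nat_lit 424) (B (lo18_10_5 (nat_lit 455)) (lo18_14_6 (nat_lit 456)))))))))))))))))))) (B (M (nat_lit 331) (B (M (nat_lit 327) (B (M (nat_lit 295) (B (lo110_10_3 (nat_lit 294)) (lo111_10_3 (nat_lit 296)))) (M (nat_lit 363) (B (lo17_10_0 (nat_lit 362)) (lo18_10_0 (nat_lit 364)))))) (B (M (nat_lit 327) (B (M (nat_lit 299) (B (lo17_10_2 (nat_lit 298)) (lo18_10_2 (nat_lit 300)))) (M (nat_lit 363) (B (lo17_10_0 (nat_lit 362)) (lo18_10_0 (nat_lit 364)))))) (B (M (nat_lit 300) (B (lo18_10_2 (nat_lit 299)) (lo19_10_2 (nat_lit 301)))) (M (nat_lit 327) (B (M (nat_lit 295) (B (lo110_10_3 (nat_lit 294)) (lo111_10_3 (nat_lit 296)))) (M (nat_lit 299) (B (lo17_10_2 (nat_lit 298)) (lo18_10_2 (nat_lit 300)))))))))) (B (M (nat_lit 331) (B (M (nat_lit 327) (B (M (nat_lit 295) (B (lo110_10_3 (nat_lit 294)) (lo111_10_3 (nat_lit 296)))) (M (nat_lit 363) (B (lo17_10_0 (nat_lit 362)) (lo18_10_0 (nat_lit 364)))))) (B (M (nat_lit 327) (B (M (nat_lit 359) (B (lo110_10_1 (nat_lit 358)) (lo111_10_1 (nat_lit 360)))) (M (nat_lit 363) (B (lo17_10_0 (nat_lit 362)) (lo18_10_0 (nat_lit 364)))))) (B (M (nat_lit 360) (B (lo111_10_1 (nat_lit 359)) (lo112_10_1 (nat_lit 361)))) (M (nat_lit 327) (B (M (nat_lit 295) (B (lo110_10_3 (nat_lit 294)) (lo111_10_3 (nat_lit 296)))) (M (nat_lit 359) (B (lo110_10_1 (nat_lit 358)) (lo111_10_1 (nat_lit 360)))))))))) (B (M (nat_lit 327) (B (M (nat_lit 326) (B (M (nat_lit 358) (B (lo19_10_1 (nat_lit 357)) (lo110_10_1 (nat_lit 359)))) (M (nat_lit 362) (B (lo16_10_0 (nat_lit 361)) (lo17_10_0 (nat_lit 363)))))) (B (M (nat_lit 326) (B (M (nat_lit 294) (B (lo19_10_3 (nat_lit 293)) (lo110_10_3 (nat_lit 295)))) (M (nat_lit 362) (B (lo16_10_0 (nat_lit 361)) (lo17_10_0 (nat_lit 363)))))) (K _ _ _ o1_s3090)))) (M (nat_lit 331) (B (M (nat_lit 299) (B (lo18_10_2 (nat_lit 300)) (M (nat_lit 295) (B (lo111_10_3 (nat_lit 296)) (M (nat_lit 327) (B (lo110_10_3 (nat_lit 294)) (lo17_10_2 (nat_lit 298)))))))) (B (M (nat_lit 327) (B (M (nat_lit 359) (B (lo110_10_1 (nat_lit 358)) (lo111_10_1 (nat_lit 360)))) (M (nat_lit 299) (B (lo17_10_2 (nat_lit 298)) (lo18_10_2 (nat_lit 300)))))) (B (M (nat_lit 360) (B (lo111_10_1 (nat_lit 359)) (lo112_10_1 (nat_lit 361)))) (M (nat_lit 327) (B (M (nat_lit 295) (B (lo110_10_3 (nat_lit 294)) (lo111_10_3 (nat_lit 296)))) (M (nat_lit 359) (B (lo110_10_1 (nat_lit 358)) (lo111_10_1 (nat_lit 360))))))))))))))))) (B (M (nat_lit 328) (B (M (nat_lit 331) (B (M (nat_lit 300) (B (lo18_10_2 (nat_lit 299)) (lo19_10_2 (nat_lit 301)))) (B (M (nat_lit 296) (B (lo111_10_3 (nat_lit 295)) (lo112_10_3 (nat_lit 297)))) (B (M (nat_lit 296) (B (lo111_10_3 (nat_lit 295)) (lo112_10_3 (nat_lit 297)))) (M (nat_lit 327) (B (M (nat_lit 295) (B (lo110_10_3 (nat_lit 294)) (lo111_10_3 (nat_lit 296)))) (M (nat_lit 363) (B (lo17_10_0 (nat_lit 362)) (lo18_10_0 (nat_lit 364)))))))))) (B (M (nat_lit 331) (B (M (nat_lit 296) (B (lo111_10_3 (nat_lit 295)) (lo112_10_3 (nat_lit 297)))) (B (M (nat_lit 360) (B (lo111_10_1 (nat_lit 359)) (lo112_10_1 (nat_lit 361)))) (B (M (nat_lit 296) (B (lo111_10_3 (nat_lit 295)) (lo112_10_3 (nat_lit 297)))) (M (nat_lit 327) (B (M (nat_lit 359) (B (lo110_10_1 (nat_lit 358)) (lo111_10_1 (nat_lit 360)))) (M (nat_lit 363) (B (lo17_10_0 (nat_lit 362)) (lo18_10_0 (nat_lit 364)))))))))) (B (M (nat_lit 331) (B (M (nat_lit 300) (B (lo18_10_2 (nat_lit 299)) (lo19_10_2 (nat_lit 301)))) (B (M (nat_lit 360) (B (lo111_10_1 (nat_lit 359)) (lo112_10_1 (nat_lit 361)))) (B (M (nat_lit 360) (B (lo111_10_1 (nat_lit 359)) (lo112_10_1 (nat_lit 361)))) (M (nat_lit 327) (B (M (nat_lit 359) (B (lo110_10_1 (nat_lit 358)) (lo111_10_1 (nat_lit 360)))) (M (nat_lit 363) (B (lo17_10_0 (nat_lit 362)) (lo18_10_0 (nat_lit 364)))))))))) (B (M (nat_lit 360) (B (M (nat_lit 359) (B (lo111_10_1 (nat_lit 331)) (M (nat_lit 358) (B (lo15_11_2 (nat_lit 357)) (lo16_11_2 (nat_lit 361)))))) (B (M (nat_lit 331) (B (lo111_10_1 (nat_lit 359)) (lo112_10_1 (nat_lit 361)))) (B (M (nat_lit 296) (B (M (nat_lit 331) (B (lo111_10_3 (nat_lit 295)) (lo112_10_3 (nat_lit 297)))) (B (M (nat_lit 392) (B (M (nat_lit 297) (B (lo18_12_6 (nat_lit 265)) (lo18_13_6 (nat_lit 424)))) (B (M (nat_lit 264) (B (M (nat_lit 265) (B (lo18_11_6 (nat_lit 233)) (lo18_12_6 (nat_lit 297)))) (M (nat_lit 231) (B (lo18_11_7 (nat_lit 263)) (M (nat_lit 232) (B (lo18_10_7 (nat_lit 199)) (lo18_7_4 (nat_lit 361)))))))) (B (M (nat_lit 424) (B (lo18_13_6 (nat_lit 297)) (M (nat_lit 423) (B (lo18_9_5 (nat_lit 391)) (lo18_10_5 (nat_lit 455)))))) (K _ _ _ o1_s3138))))) (B (M (nat_lit 331) (B (lo111_10_3 (nat_lit 295)) (lo112_10_1 (nat_lit 361)))) (M (nat_lit 392) (B (M (nat_lit 295) (B (lo18_12_7 (nat_lit 263)) (lo111_10_3 (nat_lit 331)))) (M (nat_lit 297) (B (lo18_12_6 (nat_lit 265)) (lo18_13_6 (nat_lit 424)))))))))) (B (M (nat_lit 331) (B (lo111_10_1 (nat_lit 359)) (M (nat_lit 296) (B (lo111_10_3 (nat_lit 295)) (lo112_10_3 (nat_lit 297)))))) (M (nat_lit 392) (B (M (nat_lit 297) (B (lo18_13_6 (nat_lit 424)) (M (nat_lit 265) (B (lo18_12_6 (nat_lit 296)) (lo19_7_5 (nat_lit 233)))))) (B (M (nat_lit 297) (B (lo18_13_6 (nat_lit 424)) (M (nat_lit 265) (B (lo19_7_5 (nat_lit 233)) (lo19_8_5 (nat_lit 361)))))) (B (M (nat_lit 296) (B (M (nat_lit 297) (B (lo18_12_6 (nat_lit 265)) (M (nat_lit 295) (B (lo16_9_0 (nat_lit 294)) (lo18_12_7 (nat_lit 263)))))) (B (M (nat_lit 264) (B (M (nat_lit 391) (B (lo18_8_5 (nat_lit 359)) (lo18_9_5 (nat_lit 423)))) (M (nat_lit 265) (B (lo18_11_6 (nat_lit 233)) (lo18_12_6 (nat_lit 297)))))) (M (nat_lit 264) (B (M (nat_lit 263) (B (lo18_11_7 (nat_lit 231)) (lo18_12_7 (nat_lit 295)))) (M (nat_lit 391) (B (lo18_8_5 (nat_lit 359)) (lo18_9_5 (nat_lit 423))))))))) (B (M (nat_lit 297) (B (lo18_13_6 (nat_lit 424)) (M (nat_lit 265) (B (lo18_12_6 (nat_lit 296)) (lo19_8_5 (nat_lit 361)))))) (B (M (nat_lit 424) (B (lo18_13_6 (nat_lit 297)) (M (nat_lit 456) (B (lo18_14_6 (nat_lit 361)) (M (nat_lit 457) (B (lo18_10_4 (nat_lit 425)) (lo18_11_4 (nat_lit 489)))))))) (M (nat_lit 296) (B (M (nat_lit 264) (B (M (nat_lit 263) (B (lo18_11_7 (nat_lit 231)) (lo18_12_7 (nat_lit 295)))) (M (nat_lit 391) (B (lo18_8_5 (nat_lit 359)) (lo18_9_5 (nat_lit 423)))))) (B (K _ _ _ o1_s3138) (M (nat_lit 264) (B (M (nat_lit 263) (B (lo18_11_7 (nat_lit 231)) (lo18_12_7 (nat_lit 295)))) (M (nat_lit 232) (B (lo18_7_4 (nat_lit 361)) (M (nat_lit 233) (B (lo18_10_6 (nat_lit 201)) (lo18_11_6 (nat_lit 265)))))))))))))))))))))) (B (M (nat_lit 327) (B (M (nat_lit 326) (B (M (nat_lit 294) (B (lo19_10_3 (nat_lit 293)) (lo110_10_3 (nat_lit 295)))) (M (nat_lit 358) (B (lo19_10_1 (nat_lit 357)) (lo110_10_1 (nat_lit 359)))))) (B (M (nat_lit 326) (B (M (nat_lit 358) (B (lo19_10_1 (nat_lit 357)) (lo110_10_1 (nat_lit 359)))) (M (nat_lit 362) (B (lo16_10_0 (nat_lit 361)) (lo17_10_0 (nat_lit 363)))))) (B (M (nat_lit 326) (B (M (nat_lit 294) (B (lo19_10_3 (nat_lit 293)) (lo110_10_3 (nat_lit 295)))) (M (nat_lit 362) (B (lo16_10_0 (nat_lit 361)) (lo17_10_0 (nat_lit 363)))))) (K _ _ _ o1_s3090))))) (M (nat_lit 331) (B (M (nat_lit 296) (B (lo111_10_3 (nat_lit 295)) (lo112_10_3 (nat_lit 297)))) (B (M (nat_lit 360) (B (lo111_10_1 (nat_lit 359)) (lo112_10_1 (nat_lit 361)))) (B (M (nat_lit 296) (B (lo111_10_3 (nat_lit 295)) (lo112_10_3 (nat_lit 297)))) (M (nat_lit 327) (B (M (nat_lit 295) (B (lo110_10_3 (nat_lit 294)) (lo111_10_3 (nat_lit 296)))) (M (nat_lit 359) (B (lo110_10_1 (nat_lit 358)) (lo111_10_1 (nat_lit 360)))))))))))))))) (B (M (nat_lit 328) (B (M (nat_lit 331) (B (M (nat_lit 364) (B (lo18_10_0 (nat_lit 363)) (lo19_10_0 (nat_lit 365)))) (B (M (nat_lit 360) (B (lo111_10_1 (nat_lit 359)) (lo112_10_1 (nat_lit 361)))) (B (M (nat_lit 360) (B (lo111_10_1 (nat_lit 359)) (lo112_10_1 (nat_lit 361)))) (M (nat_lit 327) (B (M (nat_lit 359) (B (lo110_10_1 (nat_lit 358)) (lo111_10_1 (nat_lit 360)))) (M (nat_lit 299) (B (lo17_10_2 (nat_lit 298)) (lo18_10_2 (nat_lit 300)))))))))) (B (M (nat_lit 331) (B (M (nat_lit 360) (B (lo111_10_1 (nat_lit 359)) (lo112_10_1 (nat_lit 361)))) (B (M (nat_lit 296) (B (lo111_10_3 (nat_lit 295)) (lo112_10_3 (nat_lit 297)))) (B (M (nat_lit 360) (B (lo111_10_1 (nat_lit 359)) (lo112_10_1 (nat_lit 361)))) (M (nat_lit 327) (B (M (nat_lit 295) (B (lo110_10_3 (nat_lit 294)) (lo111_10_3 (nat_lit 296)))) (M (nat_lit 299) (B (lo17_10_2 (nat_lit 298)) (lo18_10_2 (nat_lit 300)))))))))) (B (M (nat_lit 331) (B (M (nat_lit 364) (B (lo18_10_0 (nat_lit 363)) (lo19_10_0 (nat_lit 365)))) (B (M (nat_lit 296) (B (lo111_10_3 (nat_lit 295)) (lo112_10_3 (nat_lit 297)))) (B (M (nat_lit 296) (B (lo111_10_3 (nat_lit 295)) (lo112_10_3 (nat_lit 297)))) (M (nat_lit 327) (B (M (nat_lit 295) (B (lo110_10_3 (nat_lit 294)) (lo111_10_3 (nat_lit 296)))) (M (nat_lit 299) (B (lo17_10_2 (nat_lit 298)) (lo18_10_2 (nat_lit 300)))))))))) (B (M (nat_lit 296) (B (M (nat_lit 295) (B (lo111_10_3 (nat_lit 331)) (M (nat_lit 294) (B (lo15_9_0 (nat_lit 293)) (lo16_9_0 (nat_lit 297)))))) (B (M (nat_lit 331) (B (lo111_10_3 (nat_lit 295)) (lo112_10_3 (nat_lit 297)))) (B (M (nat_lit 360) (B (M (nat_lit 331) (B (lo111_10_1 (nat_lit 359)) (lo112_10_1 (nat_lit 361)))) (B (M (nat_lit 264) (B (M (nat_lit 361) (B (lo18_8_4 (nat_lit 393)) (lo18_7_4 (nat_lit 232)))) (B (M (nat_lit 392) (B (M (nat_lit 393) (B (lo18_9_4 (nat_lit 425)) (lo18_8_4 (nat_lit 361)))) (M (nat_lit 423) (B (lo18_9_5 (nat_lit 391)) (M (nat_lit 424) (B (lo18_10_5 (nat_lit 455)) (lo18_13_6 (nat_lit 297)))))))) (B (M (nat_lit 232) (B (lo18_7_4 (nat_lit 361)) (M (nat_lit 231) (B (lo18_11_7 (nat_lit 263)) (lo18_10_7 (nat_lit 199)))))) (K _ _ _ o1_s3227))))) (B (M (nat_lit 331) (B (lo111_10_1 (nat_lit 359)) (lo112_10_3 (nat_lit 297)))) (M (nat_lit 264) (B (M (nat_lit 359) (B (lo18_8_5 (nat_lit 391)) (lo111_10_1 (nat_lit 331)))) (M (nat_lit 361) (B (lo18_8_4 (nat_lit 393)) (lo18_7_4 (nat_lit 232)))))))))) (B (M (nat_lit 331) (B (lo111_10_3 (nat_lit 295)) (M (nat_lit 360) (B (lo111_10_1 (nat_lit 359)) (lo112_10_1 (nat_lit 361)))))) (M (nat_lit 264) (B (M (nat_lit 361) (B (lo18_7_4 (nat_lit 232)) (M (nat_lit 393) (B (lo18_8_4 (nat_lit 360)) (lo19_13_7 (nat_lit 425)))))) (B (M (nat_lit 361) (B (lo18_7_4 (nat_lit 232)) (M (nat_lit 393) (B (lo19_13_7 (nat_lit 425)) (lo19_12_7 (nat_lit 297)))))) (B (M (nat_lit 360) (B (M (nat_lit 361) (B (lo18_8_4 (nat_lit 393)) (M (nat_lit 359) (B (lo16_11_2 (nat_lit 358)) (lo18_8_5 (nat_lit 391)))))) (B (M (nat_lit 392) (B (M (nat_lit 263) (B (lo18_12_7 (nat_lit 295)) (lo18_11_7 (nat_lit 231)))) (M (nat_lit 393) (B (lo18_9_4 (nat_lit 425)) (lo18_8_4 (nat_lit 361)))))) (M (nat_lit 392) (B (M (nat_lit 391) (B (lo18_9_5 (nat_lit 423)) (lo18_8_5 (nat_lit 359)))) (M (nat_lit 263) (B (lo18_12_7 (nat_lit 295)) (lo18_11_7 (nat_lit 231))))))))) (B (M (nat_lit 361) (B (lo18_7_4 (nat_lit 232)) (M (nat_lit 393) (B (lo18_8_4 (nat_lit 360)) (lo19_12_7 (nat_lit 297)))))) (B (M (nat_lit 232) (B (lo18_7_4 (nat_lit 361)) (M (nat_lit 200) (B (lo18_6_4 (nat_lit 297)) (M (nat_lit 201) (B (lo18_10_6 (nat_lit 233)) (lo18_9_6 (nat_lit 169)))))))) (M (nat_lit 360) (B (M (nat_lit 392) (B (M (nat_lit 391) (B (lo18_9_5 (nat_lit 423)) (lo18_8_5 (nat_lit 359)))) (M (nat_lit 263) (B (lo18_12_7 (nat_lit 295)) (lo18_11_7 (nat_lit 231)))))) (B (K _ _ _ o1_s3227) (M (nat_lit 392) (B (M (nat_lit 391) (B (lo18_9_5 (nat_lit 423)) (lo18_8_5 (nat_lit 359)))) (M (nat_lit 424) (B (lo18_13_6 (nat_lit 297)) (M (nat_lit 425) (B (lo18_10_4 (nat_lit 457)) (lo18_9_4 (nat_lit 393)))))))))))))))))))))) (B (M (nat_lit 327) (B (M (nat_lit 326) (B (M (nat_lit 358) (B (lo19_10_1 (nat_lit 357)) (lo110_10_1 (nat_lit 359)))) (M (nat_lit 294) (B (lo19_10_3 (nat_lit 293)) (lo110_10_3 (nat_lit 295)))))) (B (M (nat_lit 326) (B (M (nat_lit 294) (B (lo19_10_3 (nat_lit 293)) (lo110_10_3 (nat_lit 295)))) (M (nat_lit 298) (B (lo16_10_2 (nat_lit 297)) (lo17_10_2 (nat_lit 299)))))) (B (M (nat_lit 326) (B (M (nat_lit 358) (B (lo19_10_1 (nat_lit 357)) (lo110_10_1 (nat_lit 359)))) (M (nat_lit 298) (B (lo16_10_2 (nat_lit 297)) (lo17_10_2 (nat_lit 299)))))) (M (nat_lit 359) (B (lo110_10_1 (nat_lit 358)) (M (nat_lit 295) (B (lo110_10_3 (nat_lit 294)) (M (nat_lit 391) (B (M (nat_lit 296) (B (lo17_13_6 (nat_lit 423)) (lo17_12_6 (nat_lit 264)))) (B (M (nat_lit 263) (B (M (nat_lit 392) (B (lo17_9_4 (nat_lit 424)) (lo17_8_4 (nat_lit 360)))) (M (nat_lit 264) (B (lo17_12_6 (nat_lit 296)) (lo17_11_6 (nat_lit 232)))))) (M (nat_lit 423) (B (M (nat_lit 422) (B (lo17_10_5 (nat_lit 454)) (lo17_9_5 (nat_lit 390)))) (M (nat_lit 424) (B (lo17_10_4 (nat_lit 456)) (lo17_9_4 (nat_lit 392))))))))))))))))) (M (nat_lit 331) (B (M (nat_lit 360) (B (lo111_10_1 (nat_lit 359)) (lo112_10_1 (nat_lit 361)))) (B (M (nat_lit 296) (B (lo111_10_3 (nat_lit 295)) (lo112_10_3 (nat_lit 297)))) (B (M (nat_lit 360) (B (lo111_10_1 (nat_lit 359)) (lo112_10_1 (nat_lit 361)))) (M (nat_lit 327) (B (M (nat_lit 359) (B (lo110_10_1 (nat_lit 358)) (lo111_10_1 (nat_lit 360)))) (M (nat_lit 295) (B (lo110_10_3 (nat_lit 294)) (lo111_10_3 (nat_lit 296)))))))))))))))) (B (M (nat_lit 328) (B (M (nat_lit 327) (B (M (nat_lit 326) (B (M (nat_lit 294) (B (lo19_10_3 (nat_lit 293)) (lo110_10_3 (nat_lit 295)))) (M (nat_lit 358) (B (lo19_10_1 (nat_lit 357)) (lo110_10_1 (nat_lit 359)))))) (B (M (nat_lit 326) (B (M (nat_lit 358) (B (lo19_10_1 (nat_lit 357)) (lo110_10_1 (nat_lit 359)))) (M (nat_lit 362) (B (lo16_10_0 (nat_lit 361)) (lo17_10_0 (nat_lit 363)))))) (B (M (nat_lit 359) (B (lo110_10_1 (nat_lit 358)) (M (nat_lit 295) (B (lo110_10_3 (nat_lit 294)) (M (nat_lit 331) (B (lo111_10_3 (nat_lit 296)) (lo111_10_1 (nat_lit 360)))))))) (M (nat_lit 326) (B (M (nat_lit 294) (B (lo19_10_3 (nat_lit 293)) (lo110_10_3 (nat_lit 295)))) (M (nat_lit 362) (B (lo16_10_0 (nat_lit 361)) (lo17_10_0 (nat_lit 363)))))))))) (B (M (nat_lit 327) (B (M (nat_lit 359) (B (lo110_10_1 (nat_lit 358)) (M (nat_lit 295) (B (lo110_10_3 (nat_lit 294)) (M (nat_lit 331) (B (lo111_10_3 (nat_lit 296)) (lo111_10_1 (nat_lit 360)))))))) (B (M (nat_lit 331) (B (M (nat_lit 359) (B (lo110_10_1 (nat_lit 358)) (lo111_10_1 (nat_lit 360)))) (M (nat_lit 363) (B (lo17_10_0 (nat_lit 362)) (lo18_10_0 (nat_lit 364)))))) (B (M (nat_lit 326) (B (M (nat_lit 358) (B (lo19_10_1 (nat_lit 357)) (lo110_10_1 (nat_lit 359)))) (M (nat_lit 362) (B (lo16_10_0 (nat_lit 361)) (lo17_10_0 (nat_lit 363)))))) (M (nat_lit 331) (B (M (nat_lit 295) (B (lo110_10_3 (nat_lit 294)) (lo111_10_3 (nat_lit 296)))) (M (nat_lit 363) (B (lo17_10_0 (nat_lit 362)) (lo18_10_0 (nat_lit 364)))))))))) (B (M (nat_lit 331) (B (M (nat_lit 360) (B (lo111_10_1 (nat_lit 359)) (lo112_10_1 (nat_lit 361)))) (B (M (nat_lit 360) (B (lo111_10_1 (nat_lit 359)) (lo112_10_1 (nat_lit 361)))) (B (M (nat_lit 327) (B (M (nat_lit 359) (B (lo110_10_1 (nat_lit 358)) (lo111_10_1 (nat_lit 360)))) (M (nat_lit 363) (B (lo17_10_0 (nat_lit 362)) (lo18_10_0 (nat_lit 364)))))) (M (nat_lit 296) (B (lo111_10_3 (nat_lit 295)) (lo112_10_3 (nat_lit 297)))))))) (B (M (nat_lit 327) (B (M (nat_lit 326) (B (M (nat_lit 358) (B (lo19_10_1 (nat_lit 357)) (lo110_10_1 (nat_lit 359)))) (M (nat_lit 362) (B (lo16_10_0 (nat_lit 361)) (lo17_10_0 (nat_lit 363)))))) (B (M (nat_lit 331) (B (M (nat_lit 359) (B (lo110_10_1 (nat_lit 358)) (lo111_10_1 (nat_lit 360)))) (M (nat_lit 363) (B (lo17_10_0 (nat_lit 362)) (lo18_10_0 (nat_lit 364)))))) (B (M (nat_lit 326) (B (M (nat_lit 362) (B (lo16_10_0 (nat_lit 361)) (lo17_10_0 (nat_lit 363)))) (M (nat_lit 325) (B (M (nat_lit 293) (B (lo18_10_3 (nat_lit 292)) (lo19_10_3 (nat_lit 294)))) (M (nat_lit 297) (B (lo15_10_2 (nat_lit 296)) (lo16_10_2 (nat_lit 298)))))))) (M (nat_lit 326) (B (M (nat_lit 358) (B (lo19_10_1 (nat_lit 357)) (lo110_10_1 (nat_lit 359)))) (M (nat_lit 325) (B (M (nat_lit 293) (B (lo18_10_3 (nat_lit 292)) (lo19_10_3 (nat_lit 294)))) (M (nat_lit 297) (B (lo15_10_2 (nat_lit 296)) (lo16_10_2 (nat_lit 298)))))))))))) (B (M (nat_lit 327) (B (M (nat_lit 326) (B (M (nat_lit 294) (B (lo19_10_3 (nat_lit 293)) (lo110_10_3 (nat_lit 295)))) (M (nat_lit 362) (B (lo16_10_0 (nat_lit 361)) (lo17_10_0 (nat_lit 363)))))) (B (M (nat_lit 326) (B (M (nat_lit 358) (B (lo19_10_1 (nat_lit 357)) (lo110_10_1 (nat_lit 359)))) (M (nat_lit 362) (B (lo16_10_0 (nat_lit 361)) (lo17_10_0 (nat_lit 363)))))) (B (M (nat_lit 331) (B (M (nat_lit 359) (B (lo110_10_1 (nat_lit 358)) (lo111_10_1 (nat_lit 360)))) (M (nat_lit 363) (B (lo17_10_0 (nat_lit 362)) (lo18_10_0 (nat_lit 364)))))) (M (nat_lit 326) (B (M (nat_lit 294) (B (lo19_10_3 (nat_lit 293)) (lo110_10_3 (nat_lit 295)))) (M (nat_lit 358) (B (lo19_10_1 (nat_lit 357)) (lo110_10_1 (nat_lit 359)))))))))) (B (M (nat_lit 360) (B (M (nat_lit 359) (B (lo111_10_1 (nat_lit 331)) (M (nat_lit 358) (B (lo15_11_2 (nat_lit 357)) (lo16_11_2 (nat_lit 361)))))) (B (M (nat_lit 392) (B (M (nat_lit 297) (B (lo18_13_6 (nat_lit 424)) (M (nat_lit 265) (B (lo18_12_6 (nat_lit 296)) (lo19_8_5 (nat_lit 361)))))) (B (M (nat_lit 424) (B (lo18_13_6 (nat_lit 297)) (M (nat_lit 456) (B (lo18_14_6 (nat_lit 361)) (M (nat_lit 455) (B (lo18_10_5 (nat_lit 423)) (lo18_11_5 (nat_lit 487)))))))) (B (M (nat_lit 424) (B (M (nat_lit 456) (B (lo18_14_6 (nat_lit 361)) (M (nat_lit 455) (B (lo18_10_5 (nat_lit 423)) (lo18_11_5 (nat_lit 487)))))) (B (M (nat_lit 456) (B (M (nat_lit 455) (B (lo18_10_5 (nat_lit 423)) (lo18_11_5 (nat_lit 487)))) (M (nat_lit 457) (B (lo18_10_4 (nat_lit 425)) (lo18_11_4 (nat_lit 489)))))) (B (M (nat_lit 456) (B (lo18_14_6 (nat_lit 361)) (M (nat_lit 457) (B (lo18_10_4 (nat_lit 425)) (lo18_11_4 (nat_lit 489)))))) (M (nat_lit 296) (B (M (nat_lit 423) (B (lo18_9_5 (nat_lit 391)) (lo18_10_5 (nat_lit 455)))) (M (nat_lit 425) (B (lo18_9_4 (nat_lit 393)) (lo18_10_4 (nat_lit 457)))))))))) (B (M (nat_lit 297) (B (lo18_13_6 (nat_lit 424)) (M (nat_lit 296) (B (lo18_12_6 (nat_lit 265)) (M (nat_lit 295) (B (lo18_12_7 (nat_lit 263)) (lo16_9_0 (nat_lit 294)))))))) (M (nat_lit 296) (B (M (nat_lit 295) (B (lo18_12_7 (nat_lit 263)) (M (nat_lit 294) (B (lo15_9_0 (nat_lit 293)) (lo16_9_0 (nat_lit 297)))))) (M (nat_lit 264) (B (M (nat_lit 391) (B (lo18_8_5 (nat_lit 359)) (lo18_9_5 (nat_lit 423)))) (M (nat_lit 393) (B (lo18_8_4 (nat_lit 361)) (lo18_9_4 (nat_lit 425))))))))))))) (B (M (nat_lit 392) (B (M (nat_lit 297) (B (lo18_13_6 (nat_lit 424)) (M (nat_lit 265) (B (lo18_12_6 (nat_lit 296)) (lo19_8_5 (nat_lit 361)))))) (B (M (nat_lit 424) (B (lo18_13_6 (nat_lit 297)) (M (nat_lit 456) (B (lo18_14_6 (nat_lit 361)) (M (nat_lit 457) (B (lo18_10_4 (nat_lit 425)) (lo18_11_4 (nat_lit 489)))))))) (B (M (nat_lit 424) (B (M (nat_lit 456) (B (lo18_14_6 (nat_lit 361)) (M (nat_lit 457) (B (lo18_10_4 (nat_lit 425)) (lo18_11_4 (nat_lit 489)))))) (B (M (nat_lit 296) (B (M (nat_lit 295) (B (lo18_12_7 (nat_lit 263)) (lo111_10_3 (nat_lit 331)))) (M (nat_lit 425) (B (lo18_9_4 (nat_lit 393)) (lo18_10_4 (nat_lit 457)))))) (M (nat_lit 296) (B (M (nat_lit 295) (B (lo18_12_7 (nat_lit 263)) (lo111_10_3 (nat_lit 331)))) (M (nat_lit 423) (B (lo18_9_5 (nat_lit 391)) (lo18_10_5 (nat_lit 455))))))))) (B (M (nat_lit 296) (B (M (nat_lit 297) (B (lo18_12_6 (nat_lit 265)) (lo18_13_6 (nat_lit 424)))) (M (nat_lit 295) (B (lo18_12_7 (nat_lit 263)) (lo111_10_3 (nat_lit 331)))))) (M (nat_lit 296) (B (M (nat_lit 295) (B (lo18_12_7 (nat_lit 263)) (lo111_10_3 (nat_lit 331)))) (B (M (nat_lit 297) (B (lo18_12_6 (nat_lit 265)) (M (nat_lit 331) (B (lo111_10_3 (nat_lit 295)) (lo112_10_3 (nat_lit 332)))))) (B (M (nat_lit 361) (B (M (nat_lit 393) (B (lo18_8_4 (nat_lit 264)) (lo19_13_7 (nat_lit 425)))) (M (nat_lit 363) (B (M (nat_lit 331) (B (lo18_10_0 (nat_lit 364)) (lo112_10_1 (nat_lit 332)))) (B (M (nat_lit 362) (B (lo112_11_3 (nat_lit 364)) (lo111_11_1 (nat_lit 391)))) (M (nat_lit 391) (B (lo18_9_5 (nat_lit 423)) (lo111_11_1 (nat_lit 362))))))))) (M (nat_lit 297) (B (lo18_12_6 (nat_lit 265)) (M (nat_lit 295) (B (lo18_12_7 (nat_lit 263)) (lo16_9_0 (nat_lit 294))))))))))))))) (M (nat_lit 331) (B (lo111_10_1 (nat_lit 359)) (M (nat_lit 296) (B (lo111_10_3 (nat_lit 295)) (M (nat_lit 297) (B (lo112_10_3 (nat_lit 332)) (M (nat_lit 392) (B (lo18_12_6 (nat_lit 265)) (lo18_13_6 (nat_lit 424)))))))))))))) (B (M (nat_lit 327) (B (M (nat_lit 326) (B (M (nat_lit 358) (B (lo19_10_1 (nat_lit 357)) (lo110_10_1 (nat_lit 359)))) (M (nat_lit 362) (B (lo16_10_0 (nat_lit 361)) (lo17_10_0 (nat_lit 363)))))) (B (M (nat_lit 359) (B (lo110_10_1 (nat_lit 358)) (M (nat_lit 295) (B (lo110_10_3 (nat_lit 294)) (M (nat_lit 391) (B (M (nat_lit 296) (B (lo17_12_6 (nat_lit 264)) (lo17_13_6 (nat_lit 423)))) (B (M (nat_lit 423) (B (lo17_13_6 (nat_lit 296)) (M (nat_lit 422) (B (lo17_9_5 (nat_lit 390)) (lo17_10_5 (nat_lit 454)))))) (B (M (nat_lit 423) (B (M (nat_lit 422) (B (lo17_9_5 (nat_lit 390)) (lo17_10_5 (nat_lit 454)))) (M (nat_lit 424) (B (lo17_9_4 (nat_lit 392)) (lo17_10_4 (nat_lit 456)))))) (M (nat_lit 263) (B (M (nat_lit 264) (B (lo17_11_6 (nat_lit 232)) (lo17_12_6 (nat_lit 296)))) (M (nat_lit 392) (B (lo17_8_4 (nat_lit 360)) (lo17_9_4 (nat_lit 424)))))))))))))) (M (nat_lit 326) (B (M (nat_lit 294) (B (lo19_10_3 (nat_lit 293)) (lo110_10_3 (nat_lit 295)))) (M (nat_lit 362) (B (lo16_10_0 (nat_lit 361)) (lo17_10_0 (nat_lit 363))))))))) (B (M (nat_lit 331) (B (M (nat_lit 360) (B (lo111_10_1 (nat_lit 359)) (lo112_10_1 (nat_lit 361)))) (B (M (nat_lit 360) (B (lo111_10_1 (nat_lit 359)) (lo112_10_1 (nat_lit 361)))) (M (nat_lit 327) (B (M (nat_lit 295) (B (lo110_10_3 (nat_lit 294)) (lo111_10_3 (nat_lit 296)))) (M (nat_lit 363) (B (lo17_10_0 (nat_lit 362)) (lo18_10_0 (nat_lit 364))))))))) (B (M (nat_lit 327) (B (M (nat_lit 326) (B (M (nat_lit 294) (B (lo19_10_3 (nat_lit 293)) (lo110_10_3 (nat_lit 295)))) (M (nat_lit 362) (B (lo16_10_0 (nat_lit 361)) (lo17_10_0 (nat_lit 363)))))) (B (M (nat_lit 331) (B (M (nat_lit 295) (B (lo110_10_3 (nat_lit 294)) (lo111_10_3 (nat_lit 296)))) (M (nat_lit 363) (B (lo17_10_0 (nat_lit 362)) (lo18_10_0 (nat_lit 364)))))) (B (M (nat_lit 326) (B (M (nat_lit 362) (B (lo16_10_0 (nat_lit 361)) (lo17_10_0 (nat_lit 363)))) (M (nat_lit 325) (B (M (nat_lit 297) (B (lo15_10_2 (nat_lit 296)) (lo16_10_2 (nat_lit 298)))) (M (nat_lit 357) (B (lo18_10_1 (nat_lit 356)) (lo19_10_1 (nat_lit 358)))))))) (M (nat_lit 326) (B (M (nat_lit 294) (B (lo19_10_3 (nat_lit 293)) (lo110_10_3 (nat_lit 295)))) (M (nat_lit 325) (B (M (nat_lit 297) (B (lo15_10_2 (nat_lit 296)) (lo16_10_2 (nat_lit 298)))) (M (nat_lit 357) (B (lo18_10_1 (nat_lit 356)) (lo19_10_1 (nat_lit 358)))))))))))) (B (M (nat_lit 327) (B (M (nat_lit 331) (B (M (nat_lit 359) (B (lo110_10_1 (nat_lit 358)) (lo111_10_1 (nat_lit 360)))) (M (nat_lit 363) (B (lo17_10_0 (nat_lit 362)) (lo18_10_0 (nat_lit 364)))))) (B (M (nat_lit 326) (B (M (nat_lit 294) (B (lo19_10_3 (nat_lit 293)) (lo110_10_3 (nat_lit 295)))) (M (nat_lit 358) (B (lo19_10_1 (nat_lit 357)) (lo110_10_1 (nat_lit 359)))))) (M (nat_lit 331) (B (M (nat_lit 295) (B (lo110_10_3 (nat_lit 294)) (lo111_10_3 (nat_lit 296)))) (M (nat_lit 363) (B (lo17_10_0 (nat_lit 362)) (lo18_10_0 (nat_lit 364))))))))) (B (M (nat_lit 331) (B (M (nat_lit 360) (B (lo111_10_1 (nat_lit 359)) (lo112_10_1 (nat_lit 361)))) (B (M (nat_lit 359) (B (lo111_10_1 (nat_lit 360)) (M (nat_lit 327) (B (lo110_10_1 (nat_lit 358)) (M (nat_lit 295) (B (lo110_10_3 (nat_lit 294)) (lo111_10_3 (nat_lit 296)))))))) (M (nat_lit 296) (B (lo111_10_3 (nat_lit 295)) (lo112_10_3 (nat_lit 297))))))) (M (nat_lit 327) (B (M (nat_lit 326) (B (M (nat_lit 294) (B (lo19_10_3 (nat_lit 293)) (lo110_10_3 (nat_lit 295)))) (M (nat_lit 358) (B (lo19_10_1 (nat_lit 357)) (lo110_10_1 (nat_lit 359)))))) (B (M (nat_lit 359) (B (lo110_10_1 (nat_lit 358)) (M (nat_lit 295) (B (lo110_10_3 (nat_lit 294)) (M (nat_lit 331) (B (lo111_10_3 (nat_lit 296)) (lo111_10_1 (nat_lit 360)))))))) (B (M (nat_lit 326) (B (M (nat_lit 358) (B (lo19_10_1 (nat_lit 357)) (lo110_10_1 (nat_lit 359)))) (M (nat_lit 325) (B (M (nat_lit 297) (B (lo15_10_2 (nat_lit 296)) (lo16_10_2 (nat_lit 298)))) (M (nat_lit 361) (B (lo15_10_0 (nat_lit 360)) (lo16_10_0 (nat_lit 362)))))))) (M (nat_lit 326) (B (M (nat_lit 294) (B (lo19_10_3 (nat_lit 293)) (lo110_10_3 (nat_lit 295)))) (M (nat_lit 325) (B (M (nat_lit 297) (B (lo15_10_2 (nat_lit 296)) (lo16_10_2 (nat_lit 298)))) (M (nat_lit 361) (B (lo15_10_0 (nat_lit 360)) (lo16_10_0 (nat_lit 362)))))))))))))))))))))))) (B (M (nat_lit 328) (B (M (nat_lit 327) (B (M (nat_lit 326) (B (M (nat_lit 358) (B (lo19_10_1 (nat_lit 357)) (lo110_10_1 (nat_lit 359)))) (M (nat_lit 294) (B (lo19_10_3 (nat_lit 293)) (lo110_10_3 (nat_lit 295)))))) (B (M (nat_lit 326) (B (M (nat_lit 294) (B (lo19_10_3 (nat_lit 293)) (lo110_10_3 (nat_lit 295)))) (M (nat_lit 298) (B (lo16_10_2 (nat_lit 297)) (lo17_10_2 (nat_lit 299)))))) (B (M (nat_lit 295) (B (lo110_10_3 (nat_lit 294)) (M (nat_lit 359) (B (lo110_10_1 (nat_lit 358)) (M (nat_lit 331) (B (lo111_10_1 (nat_lit 360)) (lo111_10_3 (nat_lit 296)))))))) (M (nat_lit 326) (B (M (nat_lit 358) (B (lo19_10_1 (nat_lit 357)) (lo110_10_1 (nat_lit 359)))) (M (nat_lit 298) (B (lo16_10_2 (nat_lit 297)) (lo17_10_2 (nat_lit 299)))))))))) (B (M (nat_lit 327) (B (M (nat_lit 295) (B (lo110_10_3 (nat_lit 294)) (M (nat_lit 359) (B (lo110_10_1 (nat_lit 358)) (M (nat_lit 331) (B (lo111_10_1 (nat_lit 360)) (lo111_10_3 (nat_lit 296)))))))) (B (M (nat_lit 331) (B (M (nat_lit 295) (B (lo110_10_3 (nat_lit 294)) (lo111_10_3 (nat_lit 296)))) (M (nat_lit 299) (B (lo17_10_2 (nat_lit 298)) (lo18_10_2 (nat_lit 300)))))) (B (M (nat_lit 326) (B (M (nat_lit 294) (B (lo19_10_3 (nat_lit 293)) (lo110_10_3 (nat_lit 295)))) (M (nat_lit 298) (B (lo16_10_2 (nat_lit 297)) (lo17_10_2 (nat_lit 299)))))) (M (nat_lit 331) (B (M (nat_lit 359) (B (lo110_10_1 (nat_lit 358)) (lo111_10_1 (nat_lit 360)))) (M (nat_lit 299) (B (lo17_10_2 (nat_lit 298)) (lo18_10_2 (nat_lit 300)))))))))) (B (M (nat_lit 331) (B (M (nat_lit 296) (B (lo111_10_3 (nat_lit 295)) (lo112_10_3 (nat_lit 297)))) (B (M (nat_lit 296) (B (lo111_10_3 (nat_lit 295)) (lo112_10_3 (nat_lit 297)))) (B (M (nat_lit 327) (B (M (nat_lit 295) (B (lo110_10_3 (nat_lit 294)) (lo111_10_3 (nat_lit 296)))) (M (nat_lit 299) (B (lo17_10_2 (nat_lit 298)) (lo18_10_2 (nat_lit 300)))))) (M (nat_lit 360) (B (lo111_10_1 (nat_lit 359)) (lo112_10_1 (nat_lit 361)))))))) (B (M (nat_lit 327) (B (M (nat_lit 326) (B (M (nat_lit 294) (B (lo19_10_3 (nat_lit 293)) (lo110_10_3 (nat_lit 295)))) (M (nat_lit 298) (B (lo16_10_2 (nat_lit 297)) (lo17_10_2 (nat_lit 299)))))) (B (M (nat_lit 331) (B (M (nat_lit 295) (B (lo110_10_3 (nat_lit 294)) (lo111_10_3 (nat_lit 296)))) (M (nat_lit 299) (B (lo17_10_2 (nat_lit 298)) (lo18_10_2 (nat_lit 300)))))) (B (M (nat_lit 326) (B (M (nat_lit 298) (B (lo16_10_2 (nat_lit 297)) (lo17_10_2 (nat_lit 299)))) (M (nat_lit 325) (B (M (nat_lit 357) (B (lo18_10_1 (nat_lit 356)) (lo19_10_1 (nat_lit 358)))) (M (nat_lit 361) (B (lo15_10_0 (nat_lit 360)) (lo16_10_0 (nat_lit 362)))))))) (M (nat_lit 326) (B (M (nat_lit 294) (B (lo19_10_3 (nat_lit 293)) (lo110_10_3 (nat_lit 295)))) (M (nat_lit 325) (B (M (nat_lit 357) (B (lo18_10_1 (nat_lit 356)) (lo19_10_1 (nat_lit 358)))) (M (nat_lit 361) (B (lo15_10_0 (nat_lit 360)) (lo16_10_0 (nat_lit 362)))))))))))) (B (M (nat_lit 327) (B (M (nat_lit 326) (B (M (nat_lit 358) (B (lo19_10_1 (nat_lit 357)) (lo110_10_1 (nat_lit 359)))) (M (nat_lit 298) (B (lo16_10_2 (nat_lit 297)) (lo17_10_2 (nat_lit 299)))))) (B (M (nat_lit 326) (B (M (nat_lit 294) (B (lo19_10_3 (nat_lit 293)) (lo110_10_3 (nat_lit 295)))) (M (nat_lit 298) (B (lo16_10_2 (nat_lit 297)) (lo17_10_2 (nat_lit 299)))))) (B (M (nat_lit 331) (B (M (nat_lit 295) (B (lo110_10_3 (nat_lit 294)) (lo111_10_3 (nat_lit 296)))) (M (nat_lit 299) (B (lo17_10_2 (nat_lit 298)) (lo18_10_2 (nat_lit 300)))))) (M (nat_lit 326) (B (M (nat_lit 358) (B (lo19_10_1 (nat_lit 357)) (lo110_10_1 (nat_lit 359)))) (M (nat_lit 294) (B (lo19_10_3 (nat_lit 293)) (lo110_10_3 (nat_lit 295)))))))))) (B (M (nat_lit 296) (B (M (nat_lit 295) (B (lo111_10_3 (nat_lit 331)) (M (nat_lit 294) (B (lo15_9_0 (nat_lit 293)) (lo16_9_0 (nat_lit 297)))))) (B (M (nat_lit 264) (B (M (nat_lit 361) (B (lo18_7_4 (nat_lit 232)) (M (nat_lit 393) (B (lo18_8_4 (nat_lit 360)) (lo19_12_7 (nat_lit 297)))))) (B (M (nat_lit 232) (B (lo18_7_4 (nat_lit 361)) (M (nat_lit 200) (B (lo18_6_4 (nat_lit 297)) (M (nat_lit 199) (B (lo18_10_7 (nat_lit 231)) (lo18_9_7 (nat_lit 167)))))))) (B (M (nat_lit 232) (B (M (nat_lit 200) (B (lo18_6_4 (nat_lit 297)) (M (nat_lit 199) (B (lo18_10_7 (nat_lit 231)) (lo18_9_7 (nat_lit 167)))))) (B (M (nat_lit 200) (B (M (nat_lit 199) (B (lo18_10_7 (nat_lit 231)) (lo18_9_7 (nat_lit 167)))) (M (nat_lit 201) (B (lo18_10_6 (nat_lit 233)) (lo18_9_6 (nat_lit 169)))))) (B (M (nat_lit 200) (B (lo18_6_4 (nat_lit 297)) (M (nat_lit 201) (B (lo18_10_6 (nat_lit 233)) (lo18_9_6 (nat_lit 169)))))) (M (nat_lit 360) (B (M (nat_lit 231) (B (lo18_11_7 (nat_lit 263)) (lo18_10_7 (nat_lit 199)))) (M (nat_lit 233) (B (lo18_11_6 (nat_lit 265)) (lo18_10_6 (nat_lit 201)))))))))) (B (M (nat_lit 361) (B (lo18_7_4 (nat_lit 232)) (M (nat_lit 360) (B (lo18_8_4 (nat_lit 393)) (M (nat_lit 359) (B (lo18_8_5 (nat_lit 391)) (lo16_11_2 (nat_lit 358)))))))) (M (nat_lit 360) (B (M (nat_lit 359) (B (lo18_8_5 (nat_lit 391)) (M (nat_lit 358) (B (lo15_11_2 (nat_lit 357)) (lo16_11_2 (nat_lit 361)))))) (M (nat_lit 392) (B (M (nat_lit 263) (B (lo18_12_7 (nat_lit 295)) (lo18_11_7 (nat_lit 231)))) (M (nat_lit 265) (B (lo18_12_6 (nat_lit 297)) (lo18_11_6 (nat_lit 233))))))))))))) (B (M (nat_lit 264) (B (M (nat_lit 361) (B (lo18_7_4 (nat_lit 232)) (M (nat_lit 393) (B (lo18_8_4 (nat_lit 360)) (lo19_12_7 (nat_lit 297)))))) (B (M (nat_lit 232) (B (lo18_7_4 (nat_lit 361)) (M (nat_lit 200) (B (lo18_6_4 (nat_lit 297)) (M (nat_lit 201) (B (lo18_10_6 (nat_lit 233)) (lo18_9_6 (nat_lit 169)))))))) (B (M (nat_lit 232) (B (M (nat_lit 200) (B (lo18_6_4 (nat_lit 297)) (M (nat_lit 201) (B (lo18_10_6 (nat_lit 233)) (lo18_9_6 (nat_lit 169)))))) (B (M (nat_lit 360) (B (M (nat_lit 359) (B (lo18_8_5 (nat_lit 391)) (lo111_10_1 (nat_lit 331)))) (M (nat_lit 233) (B (lo18_11_6 (nat_lit 265)) (lo18_10_6 (nat_lit 201)))))) (M (nat_lit 360) (B (M (nat_lit 359) (B (lo18_8_5 (nat_lit 391)) (lo111_10_1 (nat_lit 331)))) (M (nat_lit 231) (B (lo18_11_7 (nat_lit 263)) (lo18_10_7 (nat_lit 199))))))))) (B (M (nat_lit 360) (B (M (nat_lit 361) (B (lo18_8_4 (nat_lit 393)) (lo18_7_4 (nat_lit 232)))) (M (nat_lit 359) (B (lo18_8_5 (nat_lit 391)) (lo111_10_1 (nat_lit 331)))))) (M (nat_lit 360) (B (M (nat_lit 359) (B (lo18_8_5 (nat_lit 391)) (lo111_10_1 (nat_lit 331)))) (B (M (nat_lit 361) (B (lo18_8_4 (nat_lit 393)) (M (nat_lit 331) (B (lo111_10_1 (nat_lit 359)) (lo112_10_1 (nat_lit 332)))))) (B (M (nat_lit 297) (B (M (nat_lit 265) (B (lo18_12_6 (nat_lit 392)) (lo19_7_5 (nat_lit 233)))) (M (nat_lit 299) (B (M (nat_lit 331) (B (lo18_10_2 (nat_lit 300)) (lo112_10_3 (nat_lit 332)))) (B (M (nat_lit 298) (B (lo112_9_1 (nat_lit 300)) (lo111_9_3 (nat_lit 263)))) (M (nat_lit 263) (B (lo18_11_7 (nat_lit 231)) (lo111_9_3 (nat_lit 298))))))))) (M (nat_lit 361) (B (lo18_8_4 (nat_lit 393)) (M (nat_lit 359) (B (lo18_8_5 (nat_lit 391)) (lo16_11_2 (nat_lit 358))))))))))))))) (M (nat_lit 331) (B (lo111_10_3 (nat_lit 295)) (M (nat_lit 360) (B (lo111_10_1 (nat_lit 359)) (M (nat_lit 361) (B (lo112_10_1 (nat_lit 332)) (M (nat_lit 264) (B (lo18_8_4 (nat_lit 393)) (lo18_7_4 (nat_lit 232)))))))))))))) (B (M (nat_lit 327) (B (M (nat_lit 326) (B (M (nat_lit 294) (B (lo19_10_3 (nat_lit 293)) (lo110_10_3 (nat_lit 295)))) (M (nat_lit 298) (B (lo16_10_2 (nat_lit 297)) (lo17_10_2 (nat_lit 299)))))) (B (M (nat_lit 295) (B (lo110_10_3 (nat_lit 294)) (M (nat_lit 359) (B (lo110_10_1 (nat_lit 358)) (M (nat_lit 263) (B (M (nat_lit 360) (B (lo17_8_4 (nat_lit 392)) (lo17_7_4 (nat_lit 231)))) (B (M (nat_lit 231) (B (lo17_7_4 (nat_lit 360)) (M (nat_lit 230) (B (lo17_11_7 (nat_lit 262)) (lo17_10_7 (nat_lit 198)))))) (B (M (nat_lit 231) (B (M (nat_lit 230) (B (lo17_11_7 (nat_lit 262)) (lo17_10_7 (nat_lit 198)))) (M (nat_lit 232) (B (lo17_11_6 (nat_lit 264)) (lo17_10_6 (nat_lit 200)))))) (M (nat_lit 391) (B (M (nat_lit 392) (B (lo17_9_4 (nat_lit 424)) (lo17_8_4 (nat_lit 360)))) (M (nat_lit 264) (B (lo17_12_6 (nat_lit 296)) (lo17_11_6 (nat_lit 232)))))))))))))) (M (nat_lit 326) (B (M (nat_lit 358) (B (lo19_10_1 (nat_lit 357)) (lo110_10_1 (nat_lit 359)))) (M (nat_lit 298) (B (lo16_10_2 (nat_lit 297)) (lo17_10_2 (nat_lit 299))))))))) (B (M (nat_lit 331) (B (M (nat_lit 296) (B (lo111_10_3 (nat_lit 295)) (lo112_10_3 (nat_lit 297)))) (B (M (nat_lit 296) (B (lo111_10_3 (nat_lit 295)) (lo112_10_3 (nat_lit 297)))) (M (nat_lit 327) (B (M (nat_lit 359) (B (lo110_10_1 (nat_lit 358)) (lo111_10_1 (nat_lit 360)))) (M (nat_lit 299) (B (lo17_10_2 (nat_lit 298)) (lo18_10_2 (nat_lit 300))))))))) (B (M (nat_lit 327) (B (M (nat_lit 326) (B (M (nat_lit 358) (B (lo19_10_1 (nat_lit 357)) (lo110_10_1 (nat_lit 359)))) (M (nat_lit 298) (B (lo16_10_2 (nat_lit 297)) (lo17_10_2 (nat_lit 299)))))) (B (M (nat_lit 331) (B (M (nat_lit 359) (B (lo110_10_1 (nat_lit 358)) (lo111_10_1 (nat_lit 360)))) (M (nat_lit 299) (B (lo17_10_2 (nat_lit 298)) (lo18_10_2 (nat_lit 300)))))) (B (M (nat_lit 326) (B (M (nat_lit 298) (B (lo16_10_2 (nat_lit 297)) (lo17_10_2 (nat_lit 299)))) (M (nat_lit 325) (B (M (nat_lit 361) (B (lo15_10_0 (nat_lit 360)) (lo16_10_0 (nat_lit 362)))) (M (nat_lit 293) (B (lo18_10_3 (nat_lit 292)) (lo19_10_3 (nat_lit 294)))))))) (M (nat_lit 326) (B (M (nat_lit 358) (B (lo19_10_1 (nat_lit 357)) (lo110_10_1 (nat_lit 359)))) (M (nat_lit 325) (B (M (nat_lit 361) (B (lo15_10_0 (nat_lit 360)) (lo16_10_0 (nat_lit 362)))) (M (nat_lit 293) (B (lo18_10_3 (nat_lit 292)) (lo19_10_3 (nat_lit 294)))))))))))) (B (M (nat_lit 327) (B (M (nat_lit 331) (B (M (nat_lit 295) (B (lo110_10_3 (nat_lit 294)) (lo111_10_3 (nat_lit 296)))) (M (nat_lit 299) (B (lo17_10_2 (nat_lit 298)) (lo18_10_2 (nat_lit 300)))))) (B (M (nat_lit 326) (B (M (nat_lit 358) (B (lo19_10_1 (nat_lit 357)) (lo110_10_1 (nat_lit 359)))) (M (nat_lit 294) (B (lo19_10_3 (nat_lit 293)) (lo110_10_3 (nat_lit 295)))))) (M (nat_lit 331) (B (M (nat_lit 359) (B (lo110_10_1 (nat_lit 358)) (lo111_10_1 (nat_lit 360)))) (M (nat_lit 299) (B (lo17_10_2 (nat_lit 298)) (lo18_10_2 (nat_lit 300))))))))) (B (M (nat_lit 331) (B (M (nat_lit 296) (B (lo111_10_3 (nat_lit 295)) (lo112_10_3 (nat_lit 297)))) (B (M (nat_lit 295) (B (lo111_10_3 (nat_lit 296)) (M (nat_lit 327) (B (lo110_10_3 (nat_lit 294)) (M (nat_lit 359) (B (lo110_10_1 (nat_lit 358)) (lo111_10_1 (nat_lit 360)))))))) (M (nat_lit 360) (B (lo111_10_1 (nat_lit 359)) (lo112_10_1 (nat_lit 361))))))) (M (nat_lit 327) (B (M (nat_lit 326) (B (M (nat_lit 358) (B (lo19_10_1 (nat_lit 357)) (lo110_10_1 (nat_lit 359)))) (M (nat_lit 294) (B (lo19_10_3 (nat_lit 293)) (lo110_10_3 (nat_lit 295)))))) (B (M (nat_lit 295) (B (lo110_10_3 (nat_lit 294)) (M (nat_lit 359) (B (lo110_10_1 (nat_lit 358)) (M (nat_lit 331) (B (lo111_10_1 (nat_lit 360)) (lo111_10_3 (nat_lit 296)))))))) (B (M (nat_lit 326) (B (M (nat_lit 294) (B (lo19_10_3 (nat_lit 293)) (lo110_10_3 (nat_lit 295)))) (M (nat_lit 325) (B (M (nat_lit 361) (B (lo15_10_0 (nat_lit 360)) (lo16_10_0 (nat_lit 362)))) (M (nat_lit 297) (B (lo15_10_2 (nat_lit 296)) (lo16_10_2 (nat_lit 298)))))))) (M (nat_lit 326) (B (M (nat_lit 358) (B (lo19_10_1 (nat_lit 357)) (lo110_10_1 (nat_lit 359)))) (M (nat_lit 325) (B (M (nat_lit 361) (B (lo15_10_0 (nat_lit 360)) (lo16_10_0 (nat_lit 362)))) (M (nat_lit 297) (B (lo15_10_2 (nat_lit 296)) (lo16_10_2 (nat_lit 298)))))))))))))))))))))))) (B (M (nat_lit 331) (B (M (nat_lit 300) (B (M (nat_lit 268) (B (M (nat_lit 363) (B (lo112_7_5 (nat_lit 236)) (M (nat_lit 395) (B (lo112_8_5 (nat_lit 364)) (lo111_13_6 (nat_lit 427)))))) (B (M (nat_lit 267) (B (M (nat_lit 235) (B (lo112_11_7 (nat_lit 364)) (M (nat_lit 203) (B (lo111_5_4 (nat_lit 171)) (lo111_6_4 (nat_lit 299)))))) (B (M (nat_lit 298) (B (M (nat_lit 297) (B (M (nat_lit 269) (B (lo19_9_2 (nat_lit 299)) (lo113_8_1 (nat_lit 266)))) (B (M (nat_lit 296) (B (lo18_9_2 (nat_lit 299)) (lo112_10_3 (nat_lit 329)))) (M (nat_lit 296) (B (lo112_10_3 (nat_lit 329)) (lo17_9_0 (nat_lit 295))))))) (B (M (nat_lit 235) (B (M (nat_lit 203) (B (lo111_5_4 (nat_lit 171)) (lo111_6_4 (nat_lit 299)))) (B (M (nat_lit 299) (B (lo111_6_4 (nat_lit 203)) (lo111_7_5 (nat_lit 362)))) (B (M (nat_lit 362) (B (lo111_7_5 (nat_lit 299)) (lo110_11_6 (nat_lit 266)))) (M (nat_lit 203) (B (lo111_5_4 (nat_lit 171)) (M (nat_lit 266) (B (lo110_10_6 (nat_lit 234)) (lo110_11_6 (nat_lit 362)))))))))) (B (M (nat_lit 266) (B (M (nat_lit 363) (B (lo110_7_4 (nat_lit 234)) (M (nat_lit 395) (B (lo111_13_6 (nat_lit 427)) (lo110_8_4 (nat_lit 362)))))) (M (nat_lit 297) (B (lo113_8_1 (nat_lit 269)) (M (nat_lit 296) (B (lo112_8_1 (nat_lit 265)) (lo112_10_3 (nat_lit 329)))))))) (M (nat_lit 299) (B (M (nat_lit 297) (B (lo19_9_2 (nat_lit 269)) (lo18_9_2 (nat_lit 296)))) (M (nat_lit 235) (B (lo111_6_4 (nat_lit 203)) (lo111_7_5 (nat_lit 362)))))))))) (B (M (nat_lit 235) (B (lo112_11_7 (nat_lit 364)) (M (nat_lit 299) (B (lo111_6_4 (nat_lit 203)) (lo111_7_5 (nat_lit 362)))))) (B (M (nat_lit 235) (B (lo112_11_7 (nat_lit 364)) (M (nat_lit 298) (B (M (nat_lit 362) (B (lo111_7_5 (nat_lit 299)) (lo110_11_6 (nat_lit 266)))) (B (M (nat_lit 297) (B (M (nat_lit 266) (B (lo113_8_1 (nat_lit 269)) (lo110_11_6 (nat_lit 362)))) (M (nat_lit 296) (B (lo112_10_3 (nat_lit 329)) (lo17_9_0 (nat_lit 295)))))) (B (M (nat_lit 299) (B (lo111_7_5 (nat_lit 362)) (M (nat_lit 269) (B (lo114_8_1 (nat_lit 270)) (lo19_9_2 (nat_lit 297)))))) (M (nat_lit 297) (B (M (nat_lit 269) (B (lo19_9_2 (nat_lit 299)) (lo113_8_1 (nat_lit 266)))) (B (M (nat_lit 296) (B (lo18_9_2 (nat_lit 299)) (lo112_10_3 (nat_lit 329)))) (M (nat_lit 296) (B (lo112_10_3 (nat_lit 329)) (lo17_9_0 (nat_lit 295))))))))))))) (B (M (nat_lit 266) (B (M (nat_lit 363) (B (M (nat_lit 395) (B (lo112_8_5 (nat_lit 364)) (lo111_12_6 (nat_lit 299)))) (B (M (nat_lit 395) (B (lo111_12_6 (nat_lit 299)) (lo111_13_6 (nat_lit 427)))) (B (M (nat_lit 395) (B (lo112_8_5 (nat_lit 364)) (lo111_13_6 (nat_lit 427)))) (M (nat_lit 234) (B (lo111_11_7 (nat_lit 299)) (lo110_7_4 (nat_lit 298)))))))) (B (M (nat_lit 363) (B (M (nat_lit 395) (B (lo111_12_6 (nat_lit 299)) (lo111_13_6 (nat_lit 427)))) (B (M (nat_lit 395) (B (lo111_13_6 (nat_lit 427)) (M (nat_lit 298) (B (lo110_7_4 (nat_lit 234)) (lo110_8_4 (nat_lit 362)))))) (M (nat_lit 234) (B (lo111_11_7 (nat_lit 299)) (lo110_7_4 (nat_lit 298))))))) (B (M (nat_lit 363) (B (M (nat_lit 395) (B (lo112_8_5 (nat_lit 364)) (lo111_13_6 (nat_lit 427)))) (B (M (nat_lit 395) (B (lo111_13_6 (nat_lit 427)) (M (nat_lit 298) (B (lo110_7_4 (nat_lit 234)) (lo110_8_4 (nat_lit 362)))))) (M (nat_lit 269) (B (M (nat_lit 237) (B (lo110_8_2 (nat_lit 238)) (lo112_11_6 (nat_lit 364)))) (M (nat_lit 298) (B (lo113_8_1 (nat_lit 297)) (lo110_7_4 (nat_lit 234))))))))) (B (K _ _ _ o1_s3599) (M (nat_lit 363) (B (M (nat_lit 395) (B (lo112_8_5 (nat_lit 364)) (lo111_12_6 (nat_lit 299)))) (B (M (nat_lit 299) (B (lo111_12_6 (nat_lit 395)) (lo111_11_7 (nat_lit 234)))) (B (M (nat_lit 395) (B (lo112_8_5 (nat_lit 364)) (lo111_13_6 (nat_lit 427)))) (M (nat_lit 269) (B (M (nat_lit 237) (B (lo110_8_2 (nat_lit 238)) (lo112_11_6 (nat_lit 364)))) (M (nat_lit 234) (B (lo113_8_3 (nat_lit 233)) (lo111_11_7 (nat_lit 299))))))))))))))) (M (nat_lit 266) (B (M (nat_lit 235) (B (lo112_11_7 (nat_lit 364)) (M (nat_lit 298) (B (lo110_11_6 (nat_lit 362)) (M (nat_lit 203) (B (lo111_5_4 (nat_lit 171)) (lo110_10_6 (nat_lit 234)))))))) (B (M (nat_lit 298) (B (M (nat_lit 297) (B (lo113_8_1 (nat_lit 269)) (M (nat_lit 296) (B (lo112_8_1 (nat_lit 265)) (lo112_10_3 (nat_lit 329)))))) (M (nat_lit 234) (B (lo110_7_4 (nat_lit 363)) (M (nat_lit 235) (B (lo110_10_6 (nat_lit 203)) (lo110_11_6 (nat_lit 362)))))))) (B (M (nat_lit 269) (B (M (nat_lit 237) (B (lo110_8_2 (nat_lit 238)) (lo112_11_6 (nat_lit 364)))) (B (M (nat_lit 364) (B (lo112_11_6 (nat_lit 237)) (lo112_11_7 (nat_lit 235)))) (B (M (nat_lit 235) (B (lo112_11_7 (nat_lit 364)) (M (nat_lit 234) (B (lo114_8_3 (nat_lit 270)) (lo113_8_3 (nat_lit 233)))))) (M (nat_lit 270) (B (M (nat_lit 238) (B (lo111_8_2 (nat_lit 239)) (lo110_8_2 (nat_lit 237)))) (M (nat_lit 234) (B (lo114_8_3 (nat_lit 235)) (lo113_8_3 (nat_lit 233)))))))))) (K _ _ _ o1_s3599))))))))))) (B (M (nat_lit 363) (B (lo112_7_5 (nat_lit 236)) (M (nat_lit 395) (B (lo111_12_6 (nat_lit 299)) (lo111_13_6 (nat_lit 427)))))) (M (nat_lit 236) (B (M (nat_lit 204) (B (lo112_6_5 (nat_lit 299)) (M (nat_lit 203) (B (lo112_9_7 (nat_lit 171)) (lo112_10_7 (nat_lit 235)))))) (B (M (nat_lit 364) (B (M (nat_lit 237) (B (lo112_10_6 (nat_lit 205)) (lo112_11_6 (nat_lit 269)))) (M (nat_lit 235) (B (lo112_10_7 (nat_lit 203)) (lo112_11_7 (nat_lit 267)))))) (M (nat_lit 204) (B (lo112_6_5 (nat_lit 299)) (M (nat_lit 205) (B (lo112_9_6 (nat_lit 173)) (lo112_10_6 (nat_lit 237))))))))))))) (lo19_10_2 (nat_lit 301)))) (B (K _ _ _ o1_s3671) (B (M (nat_lit 363) (B (M (nat_lit 395) (B (lo111_13_6 (nat_lit 300)) (lo111_13_7 (nat_lit 298)))) (M (nat_lit 364) (B (lo18_10_0 (nat_lit 328)) (lo19_10_0 (nat_lit 365)))))) (M (nat_lit 328) (B (M (nat_lit 300) (B (lo19_10_2 (nat_lit 301)) (lo18_10_2 (nat_lit 299)))) (M (nat_lit 296) (B (lo112_10_3 (nat_lit 297)) (lo111_10_3 (nat_lit 295)))))))))) (B (M (nat_lit 331) (B (M (nat_lit 300) (B (M (nat_lit 268) (B (M (nat_lit 298) (B (M (nat_lit 269) (B (M (nat_lit 299) (B (lo19_9_2 (nat_lit 297)) (M (nat_lit 270) (B (lo114_8_1 (nat_lit 267)) (lo115_8_1 (nat_lit 271)))))) (M (nat_lit 364) (B (lo112_11_6 (nat_lit 237)) (M (nat_lit 365) (B (lo19_10_0 (nat_lit 329)) (lo112_8_4 (nat_lit 397)))))))) (M (nat_lit 361) (B (lo112_10_1 (nat_lit 360)) (M (nat_lit 266) (B (lo110_7_5 (nat_lit 234)) (M (nat_lit 393) (B (lo110_8_5 (nat_lit 362)) (lo19_13_6 (nat_lit 425)))))))))) (M (nat_lit 363) (B (lo111_13_6 (nat_lit 395)) (lo112_7_5 (nat_lit 236)))))) (lo19_10_2 (nat_lit 301)))) (B (K _ _ _ o1_s3770) (B (M (nat_lit 328) (B (M (nat_lit 327) (B (M (nat_lit 359) (B (lo110_10_1 (nat_lit 358)) (lo111_10_1 (nat_lit 360)))) (M (nat_lit 299) (B (lo17_10_2 (nat_lit 298)) (lo18_10_2 (nat_lit 300)))))) (B (M (nat_lit 360) (B (lo111_10_1 (nat_lit 359)) (lo112_10_1 (nat_lit 361)))) (B (M (nat_lit 327) (B (M (nat_lit 299) (B (lo17_10_2 (nat_lit 298)) (lo18_10_2 (nat_lit 300)))) (K _ _ _ o1_s3779))) (B (M (nat_lit 327) (B (M (nat_lit 299) (B (lo17_10_2 (nat_lit 298)) (lo18_10_2 (nat_lit 300)))) (M (nat_lit 326) (B (M (nat_lit 358) (B (lo19_10_1 (nat_lit 357)) (lo110_10_1 (nat_lit 359)))) (M (nat_lit 294) (B (lo19_10_3 (nat_lit 293)) (lo110_10_3 (nat_lit 295)))))))) (M (nat_lit 327) (B (M (nat_lit 359) (B (lo110_10_1 (nat_lit 358)) (lo111_10_1 (nat_lit 360)))) (B (M (nat_lit 360) (B (lo111_10_1 (nat_lit 359)) (M (nat_lit 361) (B (lo112_10_1 (nat_lit 332)) (M (nat_lit 326) (B (lo15_10_0 (nat_lit 325)) (lo16_10_0 (nat_lit 362)))))))) (B (K _ _ _ o1_s3779) (M (nat_lit 326) (B (M (nat_lit 358) (B (lo19_10_1 (nat_lit 357)) (lo110_10_1 (nat_lit 359)))) (M (nat_lit 294) (B (lo19_10_3 (nat_lit 293)) (lo110_10_3 (nat_lit 295))))))))))))))) (B (K _ _ _ o1_s3791) (M (nat_lit 363) (B (M (nat_lit 395) (B (lo111_13_6 (nat_lit 300)) (lo111_13_7 (nat_lit 298)))) (M (nat_lit 364) (B (lo18_10_0 (nat_lit 328)) (lo19_10_0 (nat_lit 365))))))))))) (B (M (nat_lit 331) (B (K _ _ _ o1_s3824) (B (K _ _ _ o1_s3770) (B (K _ _ _ o1_s3791) (M (nat_lit 363) (B (M (nat_lit 395) (B (lo111_13_6 (nat_lit 300)) (lo111_13_7 (nat_lit 298)))) (M (nat_lit 364) (B (lo18_10_0 (nat_lit 328)) (lo19_10_0 (nat_lit 365)))))))))) (M (nat_lit 331) (B (K _ _ _ o1_s3824) (B (M (nat_lit 328) (B (M (nat_lit 296) (B (lo111_10_3 (nat_lit 295)) (lo112_10_3 (nat_lit 297)))) (B (M (nat_lit 363) (B (lo18_10_0 (nat_lit 364)) (M (nat_lit 327) (B (lo17_10_0 (nat_lit 362)) (M (nat_lit 295) (B (lo111_10_3 (nat_lit 296)) (lo110_10_3 (nat_lit 294)))))))) (B (M (nat_lit 327) (B (M (nat_lit 295) (B (lo111_10_3 (nat_lit 296)) (lo110_10_3 (nat_lit 294)))) (M (nat_lit 326) (B (M (nat_lit 362) (B (lo17_10_0 (nat_lit 363)) (lo16_10_0 (nat_lit 361)))) (M (nat_lit 298) (B (lo17_10_2 (nat_lit 299)) (lo16_10_2 (nat_lit 297)))))))) (B (M (nat_lit 327) (B (M (nat_lit 295) (B (lo111_10_3 (nat_lit 296)) (lo110_10_3 (nat_lit 294)))) (M (nat_lit 298) (B (lo17_10_2 (nat_lit 299)) (M (nat_lit 361) (B (M (nat_lit 326) (B (lo16_10_0 (nat_lit 362)) (lo16_10_2 (nat_lit 297)))) (B (M (nat_lit 266) (B (lo110_7_5 (nat_lit 234)) (M (nat_lit 393) (B (lo19_13_6 (nat_lit 425)) (lo19_12_6 (nat_lit 297)))))) (M (nat_lit 362) (B (lo16_10_0 (nat_lit 326)) (M (nat_lit 266) (B (lo110_8_5 (nat_lit 393)) (lo110_7_5 (nat_lit 234))))))))))))) (M (nat_lit 298) (B (M (nat_lit 327) (B (lo17_10_2 (nat_lit 299)) (M (nat_lit 363) (B (lo18_10_0 (nat_lit 364)) (lo17_10_0 (nat_lit 362)))))) (B (M (nat_lit 327) (B (lo17_10_2 (nat_lit 299)) (M (nat_lit 326) (B (lo16_10_2 (nat_lit 297)) (M (nat_lit 362) (B (lo17_10_0 (nat_lit 363)) (lo16_10_0 (nat_lit 361)))))))) (B (M (nat_lit 361) (B (M (nat_lit 266) (B (lo110_7_5 (nat_lit 234)) (M (nat_lit 393) (B (lo110_8_5 (nat_lit 362)) (lo19_13_6 (nat_lit 425)))))) (B (M (nat_lit 266) (B (lo110_7_5 (nat_lit 234)) (M (nat_lit 393) (B (lo19_13_6 (nat_lit 425)) (lo19_12_6 (nat_lit 297)))))) (M (nat_lit 327) (B (lo17_10_2 (nat_lit 299)) (M (nat_lit 326) (B (lo16_10_0 (nat_lit 362)) (lo16_10_2 (nat_lit 297))))))))) (B (M (nat_lit 363) (B (lo18_10_0 (nat_lit 364)) (M (nat_lit 362) (B (lo17_10_0 (nat_lit 327)) (M (nat_lit 395) (B (lo111_13_7 (nat_lit 427)) (lo110_8_4 (nat_lit 266)))))))) (B (M (nat_lit 299) (B (lo17_10_2 (nat_lit 327)) (M (nat_lit 363) (B (lo18_10_0 (nat_lit 364)) (M (nat_lit 266) (B (lo111_12_7 (nat_lit 395)) (lo110_7_4 (nat_lit 234)))))))) (M (nat_lit 363) (B (lo18_10_0 (nat_lit 364)) (M (nat_lit 395) (B (lo111_13_7 (nat_lit 427)) (M (nat_lit 266) (B (lo110_8_4 (nat_lit 362)) (lo110_7_4 (nat_lit 234))))))))))))))))))) (B (M (nat_lit 363) (B (M (nat_lit 395) (B (lo111_13_6 (nat_lit 300)) (lo111_13_7 (nat_lit 298)))) (M (nat_lit 364) (B (lo18_10_0 (nat_lit 328)) (lo19_10_0 (nat_lit 365)))))) (M (nat_lit 328) (B (M (nat_lit 300) (B (lo19_10_2 (nat_lit 301)) (lo18_10_2 (nat_lit 299)))) (M (nat_lit 296) (B (lo112_10_3 (nat_lit 297)) (lo111_10_3 (nat_lit 295))))))))))))))))))))) _ _ _ (by decide +kernel)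
theorem o1_s9439 : Sem (nat_lit 2686023766260234703906804634315359811829142537843125613222315328496372496828595060508001493245561633571852042851231684333467074560) (nat_lit 253266331521236183188917834189743984512210903487091248331475194570741512958439735451220424531606715795873104715674734449880646433414615427124825882987245310884185562646159818752) (nat_lit 253266331521236183188917834189743984512210903487091248331475194570741512958439735451220424531606715795873104715674734449880646433414615427124825882987245310884185562646159818752) := sem_of_chk (M (nat_lit 363) (B (M (nat_lit 459) (B (M (nat_lit 362) (B (M (nat_lit 361) (B (K _ _ _ o1_s9341) (B (M (nat_lit 329) (B (M (nat_lit 364) (B (lo112_11_3 (nat_lit 328)) (lo111_14_6 (nat_lit 332)))) (M (nat_lit 458) (B (lo19_10_4 (nat_lit 393)) (lo111_11_5 (nat_lit 490)))))) (M (nat_lit 360) (B (M (nat_lit 392) (B (lo112_13_3 (nat_lit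 393)) (lo111_11_1 (nat_lit 391)))) (lo18_11_0 (nat_lit 396))))))) (lo111_14_7 (nat_lit 330)))) (B (K _ _ _ o1_s9367) (B (K _ _ _ o1_s9370) (K _ _ _ o1_s9379))))) (B (K _ _ _ o1_s9428) (B (K _ _ _ o1_s9436) (M (nat_lit 458) (B (M (nat_lit 490) (B (lo111_11_5 (nat_lit 459)) (lo110_16_6 (nat_lit 522)))) (lo111_10_5 (nat_lit 331)))))))) _ _ _ (by decide +kernel)
theorem o1_s9860 : Sem (nat_lit 2686023766260234703906804634315359811829142537843125613222315328496372496828595060508001493245561633571852042851231684333467074560) (nat_lit 253266331521236183188917834189943776419756750737766750204425249806232492221940217830734422006464467191210087809489005046283937300356090000774963030677611780721082422110145478656) (nat_lit 253266331521236183188917834189943776419756750737766750204425249806232492221940217830734422006464467191210087809489005046283937300356090000774963030677611780721082422110145478656)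 := sem_of_chk (M (nat_lit 363) (B (M (nat_lit 459) (B (M (nat_lit 362) (B (M (nat_lit 458) (B (M (nat_lit 361) (B (M (nat_lit 364) (B (M (nat_lit 329) (B (lo112_11_3 (nat_lit 328)) (lo110_14_7 (nat_lit 394)))) (M (nat_lit 332) (B (lo19_11_2 (nat_lit 333)) (lo111_14_6 (nat_lit 459)))))) (B (M (nat_lit 424) (B (M (nat_lit 394) (B (lo17_13_2 (nat_lit 423)) (lo110_14_7 (nat_lit 329)))) (B (M (nat_lit 392) (B (lo111_13_3 (nat_lit 391)) (M (nat_lit 329) (B (lo110_14_7 (nat_lit 394)) (M (nat_lit 456) (B (lo111_13_1 (nat_lit 455)) (lo18_14_6 (nat_lit 360)))))))) (B (M (nat_lit 423) (B (lo17_13_2 (nat_lit 394)) (lo17_13_0 (nat_lit 459)))) (M (nat_lit 391) (B (lo111_13_3 (nat_lit 392)) (M (nat_lit 423) (B (lo110_13_3 (nat_lit 390)) (lo17_13_0 (nat_lit 459)))))))))) (B (M (nat_lit 391) (B (M (nat_lit 392) (B (lo111_11_1 (nat_lit 360)) (lo111_13_3 (nat_lit 424)))) (B (M (nat_lit 424) (B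 (lo111_13_3 (nat_lit 392)) (M (nat_lit 423) (B (lo110_13_3 (nat_lit 390)) (lo17_13_2 (nat_lit 394)))))) (B (M (nat_lit 359) (B (M (nat_lit 360) (B (lo110_11_1 (nat_lit 390)) (lo17_11_0 (nat_lit 394)))) (B (M (nat_lit 360) (B (lo17_11_0 (nat_lit 394)) (M (nat_lit 327) (B (lo110_11_3 (nat_lit 326)) (lo111_11_3 (nat_lit 328)))))) (B (M (nat_lit 423) (B (M (nat_lit 424) (B (lo110_13_3 (nat_lit 390)) (lo17_13_2 (nat_lit 394)))) (B (M (nat_lit 424) (B (lo17_13_2 (nat_lit 394)) (lo17_13_0 (nat_lit 459)))) (M (nat_lit 327) (B (M (nat_lit 295) (B (M (nat_lit 294) (B (lo17_12_7 (nat_lit 262)) (lo17_13_7 (nat_lit 326)))) (M (nat_lit 296) (B (lo17_12_6 (nat_lit 264)) (lo17_13_6 (nat_lit 328)))))) (B (M (nat_lit 295) (B (M (nat_lit 422) (B (lo17_9_5 (nat_lit 390)) (lo17_10_5 (nat_lit 454)))) (M (nat_lit 296) (B (lo17_12_6 (nat_lit 264)) (lo17_13_6 (nat_lit 328)))))) (M (nat_lit 455) (B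 (M (nat_lit 326) (B (lo17_13_7 (nat_lit 294)) (lo17_14_7 (nat_lit 358)))) (M (nat_lit 454) (B (lo17_10_5 (nat_lit 422)) (lo17_11_5 (nat_lit 486)))))))))))) (M (nat_lit 360) (B (lo110_11_1 (nat_lit 390)) (M (nat_lit 327) (B (lo110_11_3 (nat_lit 326)) (lo111_11_3 (nat_lit 328)))))))))) (M (nat_lit 360) (B (lo111_11_1 (nat_lit 392)) (M (nat_lit 359) (B (lo110_11_1 (nat_lit 390)) (lo17_11_0 (nat_lit 394)))))))))) (B (M (nat_lit 424) (B (M (nat_lit 391) (B (lo111_13_3 (nat_lit 392)) (M (nat_lit 423) (B (lo110_13_3 (nat_lit 390)) (lo17_13_0 (nat_lit 459)))))) (B (M (nat_lit 423) (B (lo17_13_0 (nat_lit 459)) (M (nat_lit 455) (B (lo110_13_1 (nat_lit 454)) (lo111_13_1 (nat_lit 456)))))) (B (M (nat_lit 360) (B (M (nat_lit 392) (B (lo111_11_1 (nat_lit 391)) (M (nat_lit 456) (B (lo111_13_1 (nat_lit 455)) (lo18_14_6 (nat_lit 329)))))) (B (M (nat_lit 364) (B (M (nat_lit 328) (B (lo111_11_3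 (nat_lit 327)) (lo112_11_3 (nat_lit 329)))) (M (nat_lit 332) (B (lo19_11_2 (nat_lit 333)) (lo111_14_6 (nat_lit 459)))))) (M (nat_lit 359) (B (M (nat_lit 327) (B (lo110_11_3 (nat_lit 326)) (lo111_11_3 (nat_lit 328)))) (M (nat_lit 391) (B (lo110_11_1 (nat_lit 390)) (lo111_11_1 (nat_lit 392))))))))) (M (nat_lit 423) (B (M (nat_lit 391) (B (lo110_13_3 (nat_lit 390)) (lo111_13_3 (nat_lit 392)))) (M (nat_lit 455) (B (lo110_13_1 (nat_lit 454)) (lo111_13_1 (nat_lit 456)))))))))) (M (nat_lit 329) (B (lo110_14_7 (nat_lit 394)) (M (nat_lit 328) (B (lo112_11_3 (nat_lit 364)) (M (nat_lit 327) (B (lo16_10_0 (nat_lit 326)) (lo111_11_3 (nat_lit 360))))))))))))) (lo111_11_5 (nat_lit 490)))) (lo111_14_7 (nat_lit 330)))) (B (M (nat_lit 491) (B (M (nat_lit 362) (B (lo111_14_7 (nat_lit 330)) (lo111_15_7 (nat_lit 394)))) (B (M (nat_lit 394) (B (lo111_15_7 (nat_lit 362)) (lo111_16_7 (nat_lit 523))))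 (B (M (nat_lit 523) (B (lo111_16_7 (nat_lit 394)) (M (nat_lit 524) (B (lo111_12_4 (nat_lit 492)) (lo111_13_4 (nat_lit 556)))))) (K _ _ _ o1_s9245))))) (B (K _ _ _ o1_s9370) (M (nat_lit 491) (B (M (nat_lit 394) (B (lo111_16_7 (nat_lit 523)) (lo111_15_7 (nat_lit 362)))) (B (M (nat_lit 362) (B (lo111_15_7 (nat_lit 394)) (lo111_14_7 (nat_lit 330)))) (M (nat_lit 523) (B (M (nat_lit 524) (B (lo111_13_4 (nat_lit 556)) (lo111_12_4 (nat_lit 492)))) (M (nat_lit 522) (B (lo111_13_5 (nat_lit 554)) (lo111_12_5 (nat_lit 490))))))))))))) (B (K _ _ _ o1_s9859) (B (K _ _ _ o1_s9436) (M (nat_lit 458) (B (M (nat_lit 490) (B (lo111_11_5 (nat_lit 459)) (lo110_16_6 (nat_lit 522)))) (lo111_10_5 (nat_lit 331)))))))) _ _ _ (by decide +kernel)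
theorem o1_s11149 : Sem (nat_lit 2426085982355713002131112411125198240506882440953839503274169633037793644329922420159977605341122130835217309591228125350352388096) (nat_lit 1179363258141160341632306725051831956614175232962819111292089686576693795640441123711681915811960345656298407388059826507218670286476461638434061360474746156820671234048) (nat_lit 1179363258141160341632306725051831956614175232962819111292089686576693795640441123711681915811960345656298407388059826507218670286476461638434061360474746156820671234048) := sem_of_chk (M (nat_lit 397) (B (M (nat_lit 398) (B (lo110_13_2 (nat_lit 426)) (M (nat_lit 399) (B (lo116_12_1 (nat_lit 400)) (lo115_12_1 (nat_lit 396)))))) (B (M (nat_lit 426) (B (lo110_13_2 (nat_lit 398)) (M (nat_lit 425) (B (lo19_13_2 (nat_lit 396)) (M (nat_lit 393) (B (lo113_13_3 (nat_lit 394)) (lo112_13_3 (nat_lit 392)))))))) (B (M (nat_lit 461) (B (M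 (nat_lit 426) (B (lo110_13_0 (nat_lit 462)) (M (nat_lit 396) (B (lo19_13_2 (nat_lit 425)) (M (nat_lit 493) (B (lo113_15_7 (nat_lit 364)) (lo113_16_7 (nat_lit 525)))))))) (B (M (nat_lit 365) (B (M (nat_lit 333) (B (M (nat_lit 334) (B (lo113_13_6 (nat_lit 302)) (lo113_14_6 (nat_lit 366)))) (M (nat_lit 332) (B (lo113_13_7 (nat_lit 300)) (lo113_14_7 (nat_lit 364)))))) (B (M (nat_lit 333) (B (M (nat_lit 332) (B (lo113_13_7 (nat_lit 300)) (lo113_14_7 (nat_lit 364)))) (B (M (nat_lit 396) (B (lo113_9_5 (nat_lit 301)) (M (nat_lit 364) (B (lo113_14_7 (nat_lit 332)) (lo113_15_7 (nat_lit 493)))))) (B (M (nat_lit 396) (B (lo113_9_5 (nat_lit 301)) (M (nat_lit 493) (B (lo113_15_7 (nat_lit 364)) (lo113_16_7 (nat_lit 525)))))) (M (nat_lit 301) (B (lo113_9_5 (nat_lit 396)) (M (nat_lit 300) (B (lo113_12_7 (nat_lit 268)) (lo113_13_7 (nat_lit 332)))))))))) (B (M (nat_lit 493) (B (M (nat_lit 364)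 (B (lo113_14_7 (nat_lit 332)) (lo113_15_7 (nat_lit 396)))) (B (M (nat_lit 396) (B (lo113_15_7 (nat_lit 364)) (lo113_16_7 (nat_lit 525)))) (B (M (nat_lit 525) (B (lo113_16_7 (nat_lit 396)) (M (nat_lit 526) (B (lo113_12_4 (nat_lit 494)) (lo113_13_4 (nat_lit 558)))))) (M (nat_lit 525) (B (M (nat_lit 526) (B (lo113_12_4 (nat_lit 494)) (lo113_13_4 (nat_lit 558)))) (M (nat_lit 524) (B (lo113_12_5 (nat_lit 492)) (lo113_13_5 (nat_lit 556)))))))))) (B (M (nat_lit 334) (B (lo113_14_6 (nat_lit 366)) (M (nat_lit 396) (B (M (nat_lit 333) (B (lo113_13_6 (nat_lit 302)) (lo113_9_5 (nat_lit 301)))) (M (nat_lit 493) (B (lo113_15_7 (nat_lit 364)) (lo113_16_7 (nat_lit 525)))))))) (M (nat_lit 333) (B (M (nat_lit 334) (B (lo113_13_6 (nat_lit 302)) (lo113_14_6 (nat_lit 366)))) (M (nat_lit 301) (B (lo113_9_5 (nat_lit 396)) (M (nat_lit 300) (B (lo113_12_7 (nat_lit 268)) (lo113_13_7 (nat_lit 332)))))))))))))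 (B (M (nat_lit 426) (B (lo110_13_0 (nat_lit 462)) (M (nat_lit 393) (B (lo113_13_3 (nat_lit 394)) (M (nat_lit 425) (B (lo19_13_2 (nat_lit 396)) (lo112_13_3 (nat_lit 392)))))))) (M (nat_lit 462) (B (lo110_13_0 (nat_lit 426)) (M (nat_lit 494) (B (lo113_11_4 (nat_lit 365)) (M (nat_lit 526) (B (lo114_17_7 (nat_lit 558)) (lo113_12_4 (nat_lit 493)))))))))))) (B (M (nat_lit 365) (B (M (nat_lit 426) (B (lo110_13_2 (nat_lit 398)) (M (nat_lit 461) (B (lo110_13_0 (nat_lit 462)) (M (nat_lit 333) (B (M (nat_lit 334) (B (lo113_13_6 (nat_lit 302)) (lo113_14_6 (nat_lit 366)))) (M (nat_lit 332) (B (lo113_13_7 (nat_lit 300)) (lo113_14_7 (nat_lit 364)))))))))) (B (K _ _ _ o1_s10722) (B (M (nat_lit 426) (B (lo110_13_2 (nat_lit 398)) (M (nat_lit 394) (B (lo113_13_3 (nat_lit 393)) (M (nat_lit 330) (B (M (nat_lit 362) (B (lo110_10_4 (nat_lit 459)) (M (nat_lit 298) (B (lo110_9_4 (nat_lit 395)) (M (nat_lit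 299) (B (lo110_12_6 (nat_lit 267)) (lo110_13_6 (nat_lit 331)))))))) (B (M (nat_lit 362) (B (lo110_10_4 (nat_lit 459)) (M (nat_lit 298) (B (lo110_9_4 (nat_lit 395)) (M (nat_lit 297) (B (lo110_12_7 (nat_lit 265)) (lo110_13_7 (nat_lit 329)))))))) (B (M (nat_lit 362) (B (lo110_10_4 (nat_lit 459)) (M (nat_lit 298) (B (M (nat_lit 299) (B (lo110_12_6 (nat_lit 267)) (lo110_13_6 (nat_lit 331)))) (M (nat_lit 297) (B (lo110_12_7 (nat_lit 265)) (lo110_13_7 (nat_lit 329)))))))) (M (nat_lit 332) (B (M (nat_lit 461) (B (lo110_13_0 (nat_lit 462)) (lo113_14_7 (nat_lit 364)))) (M (nat_lit 333) (B (lo113_13_7 (nat_lit 300)) (M (nat_lit 302) (B (lo113_13_6 (nat_lit 334)) (M (nat_lit 301) (B (lo113_12_6 (nat_lit 270)) (lo110_10_2 (nat_lit 331)))))))))))))))))) (B (K _ _ _ o1_s10755) (B (K _ _ _ o1_s10764) (B (K _ _ _ o1_s10864) (K _ _ _ o1_s10910)))))))) (K _ _ _ o1_s11148)))))) _ _ _ (by decide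 +kernel)
theorem o1_s11319 : Sem (nat_lit 2426085982355713002131112411125198240506882440953839503274169633037793644329922420159977605341122130835217309591228125350352388096) (nat_lit 633165829156899435491528421775416162500072482031808715483469012767756506161534891626135212998036051652976422554160785022239543161558748943712385896406902432577387016431396192256) (nat_lit 633165829156899435491528421775416162500072482031808715483469012767756506161534891626135212998036051652976422554160785022239543161558748943712385896406902432577387016431396192256) := sem_of_chk (M (nat_lit 397) (B (M (nat_lit 365) (B (M (nat_lit 426) (B (M (nat_lit 458) (B (M (nat_lit 490) (B (M (nat_lit 363) (B (M (nat_lit 362) (B (M (nat_lit 333) (B (M (nat_lit 332) (B (M (nat_lit 334) (B (lo114_10_1 (nat_lit 331)) (lo113_13_6 (nat_lit 302)))) (B (M (nat_lit 300) (B (lo113_13_7 (nat_lit 429)) (M (nat_lit 268)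 (B (lo112_7_4 (nat_lit 236)) (lo113_12_7 (nat_lit 301)))))) (M (nat_lit 331) (B (lo114_10_1 (nat_lit 334)) (M (nat_lit 361) (B (lo113_10_1 (nat_lit 330)) (lo18_11_2 (nat_lit 360))))))))) (B (M (nat_lit 461) (B (M (nat_lit 462) (B (lo113_11_4 (nat_lit 494)) (lo110_13_0 (nat_lit 427)))) (M (nat_lit 332) (B (lo113_13_7 (nat_lit 300)) (lo113_14_7 (nat_lit 364)))))) (M (nat_lit 334) (B (lo110_11_2 (nat_lit 364)) (lo113_13_6 (nat_lit 302))))))) (B (M (nat_lit 394) (B (M (nat_lit 364) (B (M (nat_lit 461) (B (lo113_14_7 (nat_lit 332)) (lo110_13_0 (nat_lit 462)))) (M (nat_lit 329) (B (lo110_14_7 (nat_lit 361)) (lo113_11_3 (nat_lit 330)))))) (M (nat_lit 491) (B (lo110_11_4 (nat_lit 459)) (lo110_12_4 (nat_lit 523)))))) (M (nat_lit 394) (B (M (nat_lit 491) (B (lo110_11_4 (nat_lit 459)) (lo110_12_4 (nat_lit 523)))) (lo110_14_6 (nat_lit 331))))))) (B (M (nat_lit 395) (B (lo111_11_5 (nat_lit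 459)) (lo111_10_5 (nat_lit 331)))) (B (M (nat_lit 395) (B (lo111_11_5 (nat_lit 459)) (lo110_15_6 (nat_lit 394)))) (M (nat_lit 395) (B (lo110_15_6 (nat_lit 394)) (lo111_10_5 (nat_lit 331)))))))) (B (M (nat_lit 522) (B (M (nat_lit 554) (B (lo110_17_6 (nat_lit 459)) (M (nat_lit 555) (B (lo110_14_4 (nat_lit 587)) (lo110_13_4 (nat_lit 523)))))) (B (M (nat_lit 394) (B (M (nat_lit 521) (B (lo110_13_5 (nat_lit 553)) (lo110_12_5 (nat_lit 489)))) (M (nat_lit 523) (B (lo110_13_4 (nat_lit 555)) (lo110_12_4 (nat_lit 491)))))) (M (nat_lit 554) (B (lo110_17_6 (nat_lit 459)) (M (nat_lit 553) (B (lo110_14_5 (nat_lit 585)) (lo110_13_5 (nat_lit 521))))))))) (B (M (nat_lit 522) (B (lo110_16_6 (nat_lit 395)) (M (nat_lit 553) (B (lo110_13_5 (nat_lit 521)) (M (nat_lit 555) (B (lo110_13_4 (nat_lit 523)) (M (nat_lit 554) (B (lo110_14_5 (nat_lit 585)) (lo110_14_4 (nat_lit 587)))))))))) (M (nat_lit 395)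 (B (M (nat_lit 363) (B (lo111_11_5 (nat_lit 459)) (lo111_10_5 (nat_lit 331)))) (lo110_16_6 (nat_lit 522)))))))) (lo113_13_1 (nat_lit 457)))) (lo110_13_2 (nat_lit 398)))) (B (K _ _ _ o1_s10864) (B (M (nat_lit 332) (B (M (nat_lit 364) (B (lo113_14_7 (nat_lit 461)) (M (nat_lit 300) (B (lo112_8_4 (nat_lit 268)) (lo113_13_7 (nat_lit 333)))))) (B (M (nat_lit 333) (B (lo113_13_7 (nat_lit 300)) (M (nat_lit 334) (B (lo113_13_6 (nat_lit 302)) (M (nat_lit 366) (B (lo113_14_6 (nat_lit 461)) (M (nat_lit 331) (B (lo110_10_0 (nat_lit 330)) (lo111_10_0 (nat_lit 367)))))))))) (B (M (nat_lit 461) (B (lo113_14_7 (nat_lit 364)) (M (nat_lit 493) (B (M (nat_lit 494) (B (lo113_12_4 (nat_lit 526)) (lo113_11_4 (nat_lit 462)))) (M (nat_lit 366) (B (lo113_15_6 (nat_lit 398)) (lo113_14_6 (nat_lit 334)))))))) (M (nat_lit 364) (B (M (nat_lit 300) (B (lo112_8_4 (nat_lit 268)) (lo113_13_7 (nat_lit 333))))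 (B (M (nat_lit 366) (B (M (nat_lit 331) (B (lo115_11_3 (nat_lit 367)) (M (nat_lit 330) (B (lo19_10_0 (nat_lit 329)) (lo114_11_3 (nat_lit 363)))))) (B (M (nat_lit 331) (B (lo115_11_3 (nat_lit 367)) (M (nat_lit 330) (B (lo114_11_3 (nat_lit 363)) (lo110_10_0 (nat_lit 333)))))) (B (M (nat_lit 363) (B (M (nat_lit 395) (B (lo114_11_1 (nat_lit 394)) (lo111_14_6 (nat_lit 459)))) (M (nat_lit 398) (B (lo110_11_0 (nat_lit 362)) (lo111_11_0 (nat_lit 399)))))) (M (nat_lit 331) (B (lo115_11_3 (nat_lit 367)) (M (nat_lit 330) (B (lo19_10_0 (nat_lit 329)) (lo110_10_0 (nat_lit 333)))))))))) (M (nat_lit 363) (B (M (nat_lit 395) (B (lo111_14_6 (nat_lit 459)) (M (nat_lit 300) (B (lo111_13_6 (nat_lit 331)) (lo112_8_5 (nat_lit 268)))))) (M (nat_lit 398) (B (lo110_11_0 (nat_lit 362)) (M (nat_lit 399) (B (lo111_11_0 (nat_lit 366)) (lo116_12_1 (nat_lit 400))))))))))))))) (B (K _ _ _ o1_s10722) (B (K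 _ _ _ o1_s10755) (K _ _ _ o1_s10764))))))) (B (K _ _ _ o1_s11148) (B (M (nat_lit 461) (B (M (nat_lit 426) (B (lo110_13_0 (nat_lit 462)) (M (nat_lit 396) (B (lo19_13_2 (nat_lit 425)) (M (nat_lit 493) (B (lo113_16_7 (nat_lit 525)) (lo113_15_7 (nat_lit 364)))))))) (B (M (nat_lit 396) (B (M (nat_lit 364) (B (lo113_15_7 (nat_lit 493)) (lo112_10_4 (nat_lit 332)))) (M (nat_lit 426) (B (lo110_13_0 (nat_lit 462)) (lo19_13_2 (nat_lit 425)))))) (B (M (nat_lit 426) (B (lo110_13_0 (nat_lit 462)) (M (nat_lit 457) (B (lo113_13_1 (nat_lit 458)) (M (nat_lit 425) (B (lo112_13_1 (nat_lit 456)) (lo19_13_2 (nat_lit 396)))))))) (B (M (nat_lit 365) (B (M (nat_lit 332) (B (lo113_14_7 (nat_lit 364)) (M (nat_lit 333) (B (lo113_13_7 (nat_lit 300)) (M (nat_lit 334) (B (lo113_14_6 (nat_lit 366)) (lo113_13_6 (nat_lit 302)))))))) (B (K _ _ _ o1_s10130) (B (K _ _ _ o1_s10139) (M (nat_lit 333) (B (M (nat_lit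 334) (B (lo113_14_6 (nat_lit 366)) (lo113_13_6 (nat_lit 302)))) (M (nat_lit 396) (B (lo113_9_5 (nat_lit 301)) (M (nat_lit 493) (B (lo113_16_7 (nat_lit 525)) (lo113_15_7 (nat_lit 364)))))))))))) (M (nat_lit 462) (B (lo110_13_0 (nat_lit 426)) (M (nat_lit 494) (B (lo113_11_4 (nat_lit 365)) (M (nat_lit 526) (B (lo114_17_7 (nat_lit 558)) (lo113_12_4 (nat_lit 493))))))))))))) (M (nat_lit 398) (B (M (nat_lit 399) (B (lo116_12_1 (nat_lit 400)) (lo115_12_1 (nat_lit 396)))) (lo110_13_2 (nat_lit 426)))))))) _ _ _ (by decide +kernel)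
theorem o1_s12273 : Sem (nat_lit 1488565709783488894200728160685745697481455747194509828410331431196118895094032591301961692021765387609563775084850441999106989485755203584) (nat_lit 7614394267015645485229171078522753386853720632672312796112758828165094459824613008613255037098657751710067172544818641812212355173709966275695597295206176062474846603484729199654990774272) (nat_lit 7614394267015645485229171078522753386853720632672312796112758828165094459824613008613255037098657751710067172544818641812212355173709966275695597295206176062474846603484729199654990774272) := sem_of_chk (M (nat_lit 457) (B (M (nat_lit 491) (B (M (nat_lit 523) (B (M (nat_lit 489) (B (M (nat_lit 555) (B (M (nat_lit 554) (B (M (nat_lit 425) (B (M (nat_lit 552) (B (M (nat_lit 520) (B (M (nat_lit 456) (B (lo112_13_1 (nat_lit 426)) (lo18_17_6 (nat_lit 488)))) (M (nat_lit 553) (B (lo18_17_2 (nat_lit 524)) (lo111_17_3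 (nat_lit 519)))))) (B (M (nat_lit 553) (B (M (nat_lit 584) (B (lo19_14_5 (nat_lit 521)) (lo111_17_1 (nat_lit 583)))) (lo18_17_2 (nat_lit 524)))) (M (nat_lit 456) (B (M (nat_lit 520) (B (lo19_13_5 (nat_lit 521)) (lo18_17_6 (nat_lit 488)))) (lo112_13_1 (nat_lit 426))))))) (B (M (nat_lit 552) (B (M (nat_lit 520) (B (M (nat_lit 553) (B (lo18_17_2 (nat_lit 524)) (lo111_17_3 (nat_lit 519)))) (M (nat_lit 488) (B (lo19_12_5 (nat_lit 393)) (lo18_18_6 (nat_lit 584)))))) (B (M (nat_lit 553) (B (M (nat_lit 584) (B (lo19_14_5 (nat_lit 521)) (lo111_17_1 (nat_lit 583)))) (lo18_17_2 (nat_lit 524)))) (B (M (nat_lit 520) (B (M (nat_lit 488) (B (lo19_12_5 (nat_lit 393)) (lo18_18_6 (nat_lit 584)))) (lo19_13_5 (nat_lit 521)))) (M (nat_lit 520) (B (M (nat_lit 553) (B (lo18_17_2 (nat_lit 524)) (lo111_17_3 (nat_lit 519)))) (lo19_13_5 (nat_lit 521)))))))) (B (M (nat_lit 393) (B (M (nat_lit 361) (B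 (M (nat_lit 488) (B (lo19_12_5 (nat_lit 520)) (lo19_11_5 (nat_lit 456)))) (M (nat_lit 360) (B (lo19_15_7 (nat_lit 392)) (lo19_14_7 (nat_lit 328)))))) (B (M (nat_lit 456) (B (M (nat_lit 488) (B (lo19_11_5 (nat_lit 361)) (lo19_12_5 (nat_lit 520)))) (lo112_13_1 (nat_lit 426)))) (M (nat_lit 392) (B (lo112_13_3 (nat_lit 426)) (lo19_15_7 (nat_lit 360))))))) (M (nat_lit 392) (B (M (nat_lit 424) (B (M (nat_lit 360) (B (lo18_11_4 (nat_lit 456)) (lo18_10_4 (nat_lit 328)))) (lo19_16_7 (nat_lit 521)))) (B (M (nat_lit 393) (B (lo112_13_3 (nat_lit 426)) (lo19_15_7 (nat_lit 360)))) (M (nat_lit 426) (B (lo112_13_1 (nat_lit 456)) (lo112_13_3 (nat_lit 393))))))))))) (lo111_14_5 (nat_lit 586)))) (B (M (nat_lit 587) (B (M (nat_lit 588) (B (lo111_14_4 (nat_lit 556)) (lo111_15_4 (nat_lit 620)))) (M (nat_lit 586) (B (lo111_14_5 (nat_lit 554)) (lo111_15_5 (nat_lit 618)))))) (M (nat_lit 556) (B (lo111_13_4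 (nat_lit 524)) (lo111_14_4 (nat_lit 588))))))) (B (K _ _ _ o1_s11743) (B (M (nat_lit 524) (B (M (nat_lit 492) (B (M (nat_lit 490) (B (lo18_15_0 (nat_lit 488)) (lo19_15_0 (nat_lit 525)))) (lo111_12_4 (nat_lit 395)))) (lo111_13_4 (nat_lit 556)))) (M (nat_lit 524) (B (M (nat_lit 492) (B (M (nat_lit 490) (B (lo19_15_0 (nat_lit 525)) (lo112_15_3 (nat_lit 456)))) (lo111_12_4 (nat_lit 395)))) (lo111_13_4 (nat_lit 556)))))))) (B (M (nat_lit 489) (B (M (nat_lit 425) (B (M (nat_lit 521) (B (M (nat_lit 555) (B (M (nat_lit 553) (B (M (nat_lit 586) (B (M (nat_lit 618) (B (lo111_15_5 (nat_lit 587)) (lo19_15_4 (nat_lit 585)))) (lo19_14_4 (nat_lit 554)))) (M (nat_lit 552) (B (lo19_13_5 (nat_lit 520)) (lo19_14_5 (nat_lit 584)))))) (lo111_17_6 (nat_lit 460)))) (B (M (nat_lit 553) (B (M (nat_lit 555) (B (M (nat_lit 586) (B (M (nat_lit 618) (B (lo111_15_5 (nat_lit 587)) (lo19_15_4 (nat_lit 585))))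 (lo19_14_4 (nat_lit 554)))) (lo111_17_6 (nat_lit 460)))) (M (nat_lit 424) (B (lo19_17_7 (nat_lit 456)) (lo19_16_7 (nat_lit 392)))))) (M (nat_lit 393) (B (M (nat_lit 392) (B (lo19_16_7 (nat_lit 424)) (lo19_15_7 (nat_lit 360)))) (M (nat_lit 520) (B (lo19_13_5 (nat_lit 552)) (lo19_12_5 (nat_lit 488))))))))) (B (M (nat_lit 460) (B (M (nat_lit 492) (B (M (nat_lit 424) (B (M (nat_lit 392) (B (M (nat_lit 360) (B (lo19_15_7 (nat_lit 393)) (lo18_10_4 (nat_lit 328)))) (lo19_16_7 (nat_lit 521)))) (lo18_13_0 (nat_lit 426)))) (M (nat_lit 395) (B (lo111_12_4 (nat_lit 524)) (lo111_11_4 (nat_lit 363)))))) (lo111_17_6 (nat_lit 555)))) (B (M (nat_lit 393) (B (M (nat_lit 361) (B (M (nat_lit 488) (B (lo19_11_5 (nat_lit 456)) (lo19_12_5 (nat_lit 520)))) (M (nat_lit 360) (B (lo19_15_7 (nat_lit 392)) (lo19_14_7 (nat_lit 328)))))) (B (M (nat_lit 456) (B (M (nat_lit 488) (B (lo19_11_5 (nat_lit 361))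 (lo19_12_5 (nat_lit 520)))) (lo112_13_1 (nat_lit 426)))) (M (nat_lit 392) (B (lo112_13_3 (nat_lit 426)) (lo19_15_7 (nat_lit 360))))))) (M (nat_lit 460) (B (M (nat_lit 426) (B (lo18_13_0 (nat_lit 424)) (lo112_13_1 (nat_lit 456)))) (lo111_17_6 (nat_lit 555)))))))) (B (M (nat_lit 555) (B (M (nat_lit 492) (B (M (nat_lit 425) (B (M (nat_lit 392) (B (M (nat_lit 521) (B (M (nat_lit 520) (B (lo112_15_1 (nat_lit 490)) (lo19_13_5 (nat_lit 552)))) (lo19_16_7 (nat_lit 424)))) (M (nat_lit 393) (B (lo112_13_3 (nat_lit 426)) (lo19_15_7 (nat_lit 360)))))) (B (M (nat_lit 521) (B (M (nat_lit 553) (B (M (nat_lit 424) (B (lo19_17_7 (nat_lit 456)) (lo19_16_7 (nat_lit 392)))) (M (nat_lit 552) (B (lo19_13_5 (nat_lit 520)) (lo19_14_5 (nat_lit 584)))))) (B (M (nat_lit 456) (B (M (nat_lit 424) (B (lo19_17_7 (nat_lit 553)) (lo19_16_7 (nat_lit 392)))) (lo112_15_3 (nat_lit 490)))) (M (nat_lit 520) (B (lo112_15_1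 (nat_lit 490)) (lo19_13_5 (nat_lit 552))))))) (B (M (nat_lit 392) (B (M (nat_lit 424) (B (M (nat_lit 360) (B (lo18_11_4 (nat_lit 456)) (lo18_10_4 (nat_lit 328)))) (lo19_16_7 (nat_lit 521)))) (B (M (nat_lit 393) (B (lo112_13_3 (nat_lit 426)) (lo19_15_7 (nat_lit 360)))) (M (nat_lit 426) (B (lo112_13_1 (nat_lit 456)) (lo112_13_3 (nat_lit 393))))))) (M (nat_lit 456) (B (lo112_13_1 (nat_lit 426)) (lo112_15_3 (nat_lit 490)))))))) (M (nat_lit 587) (B (M (nat_lit 524) (B (lo111_12_4 (nat_lit 395)) (lo111_19_6 (nat_lit 619)))) (M (nat_lit 586) (B (lo111_14_5 (nat_lit 554)) (lo111_15_5 (nat_lit 618)))))))) (lo111_17_6 (nat_lit 460)))) (B (K _ _ _ o1_s11743) (B (M (nat_lit 460) (B (M (nat_lit 492) (B (M (nat_lit 425) (B (M (nat_lit 424) (B (M (nat_lit 392) (B (M (nat_lit 360) (B (lo19_15_7 (nat_lit 393)) (lo18_10_4 (nat_lit 328)))) (lo19_16_7 (nat_lit 521)))) (lo18_13_0 (nat_lit 426))))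 (B (M (nat_lit 488) (B (M (nat_lit 520) (B (M (nat_lit 552) (B (lo19_13_5 (nat_lit 521)) (lo18_18_6 (nat_lit 584)))) (lo19_12_5 (nat_lit 393)))) (lo18_15_2 (nat_lit 490)))) (B (M (nat_lit 521) (B (M (nat_lit 424) (B (lo18_13_0 (nat_lit 426)) (lo19_16_7 (nat_lit 392)))) (M (nat_lit 490) (B (lo18_15_2 (nat_lit 488)) (lo112_15_1 (nat_lit 520)))))) (M (nat_lit 393) (B (M (nat_lit 488) (B (lo18_15_2 (nat_lit 490)) (lo19_12_5 (nat_lit 520)))) (M (nat_lit 392) (B (lo112_13_3 (nat_lit 426)) (lo19_15_7 (nat_lit 360)))))))))) (M (nat_lit 395) (B (lo111_12_4 (nat_lit 524)) (lo111_11_4 (nat_lit 363)))))) (lo111_17_6 (nat_lit 555)))) (B (M (nat_lit 425) (B (M (nat_lit 488) (B (M (nat_lit 520) (B (M (nat_lit 552) (B (lo19_13_5 (nat_lit 521)) (lo18_17_6 (nat_lit 456)))) (lo19_12_5 (nat_lit 393)))) (M (nat_lit 460) (B (lo111_17_6 (nat_lit 555)) (lo18_15_2 (nat_lit 490)))))) (B (M (nat_lit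 488) (B (M (nat_lit 393) (B (M (nat_lit 392) (B (lo112_13_3 (nat_lit 426)) (lo19_15_7 (nat_lit 360)))) (lo19_12_5 (nat_lit 520)))) (M (nat_lit 460) (B (lo111_17_6 (nat_lit 555)) (lo18_15_2 (nat_lit 490)))))) (B (K _ _ _ o1_s11735) (M (nat_lit 460) (B (M (nat_lit 426) (B (lo18_13_0 (nat_lit 424)) (lo112_13_1 (nat_lit 456)))) (lo111_17_6 (nat_lit 555)))))))) (M (nat_lit 490) (B (M (nat_lit 492) (B (M (nat_lit 524) (B (lo19_15_0 (nat_lit 525)) (lo111_12_4 (nat_lit 395)))) (lo112_15_3 (nat_lit 456)))) (M (nat_lit 460) (B (lo111_17_6 (nat_lit 555)) (lo18_15_2 (nat_lit 488)))))))))))) (B (M (nat_lit 524) (B (M (nat_lit 492) (B (M (nat_lit 525) (B (M (nat_lit 460) (B (lo112_16_6 (nat_lit 397)) (lo112_13_4 (nat_lit 557)))) (M (nat_lit 490) (B (lo114_16_3 (nat_lit 526)) (lo19_15_0 (nat_lit 489)))))) (lo111_12_4 (nat_lit 395)))) (lo111_13_4 (nat_lit 556)))) (M (nat_lit 555) (B (M (nat_lit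 587) (B (M (nat_lit 588) (B (lo111_14_4 (nat_lit 556)) (lo111_15_4 (nat_lit 620)))) (M (nat_lit 586) (B (lo111_14_5 (nat_lit 554)) (lo111_15_5 (nat_lit 618)))))) (lo111_17_6 (nat_lit 460)))))))) (B (M (nat_lit 492) (B (M (nat_lit 489) (B (M (nat_lit 425) (B (M (nat_lit 524) (B (M (nat_lit 521) (B (M (nat_lit 393) (B (M (nat_lit 392) (B (lo19_16_7 (nat_lit 424)) (lo19_15_7 (nat_lit 360)))) (M (nat_lit 520) (B (lo19_12_5 (nat_lit 488)) (lo19_13_5 (nat_lit 552)))))) (B (M (nat_lit 553) (B (M (nat_lit 424) (B (lo19_17_7 (nat_lit 456)) (lo19_16_7 (nat_lit 392)))) (M (nat_lit 554) (B (lo19_13_4 (nat_lit 522)) (lo19_14_4 (nat_lit 586)))))) (M (nat_lit 553) (B (M (nat_lit 552) (B (lo19_14_5 (nat_lit 584)) (lo19_13_5 (nat_lit 520)))) (M (nat_lit 554) (B (lo19_13_4 (nat_lit 522)) (lo19_14_4 (nat_lit 586))))))))) (M (nat_lit 460) (B (lo112_16_6 (nat_lit 397)) (lo112_17_7 (nat_lit 556))))))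 (B (M (nat_lit 521) (B (M (nat_lit 460) (B (M (nat_lit 424) (B (lo18_13_0 (nat_lit 426)) (lo19_16_7 (nat_lit 392)))) (M (nat_lit 524) (B (lo112_16_6 (nat_lit 397)) (lo112_17_7 (nat_lit 556)))))) (M (nat_lit 553) (B (M (nat_lit 552) (B (lo19_13_5 (nat_lit 520)) (lo19_14_5 (nat_lit 584)))) (M (nat_lit 554) (B (lo19_13_4 (nat_lit 522)) (lo19_14_4 (nat_lit 586)))))))) (B (M (nat_lit 393) (B (M (nat_lit 361) (B (M (nat_lit 488) (B (lo19_11_5 (nat_lit 456)) (lo19_12_5 (nat_lit 520)))) (M (nat_lit 360) (B (lo19_15_7 (nat_lit 392)) (lo19_14_7 (nat_lit 328)))))) (B (M (nat_lit 456) (B (M (nat_lit 488) (B (lo19_11_5 (nat_lit 361)) (lo19_12_5 (nat_lit 520)))) (lo112_13_1 (nat_lit 426)))) (M (nat_lit 392) (B (lo112_13_3 (nat_lit 426)) (lo19_15_7 (nat_lit 360))))))) (M (nat_lit 460) (B (M (nat_lit 524) (B (lo112_16_6 (nat_lit 397)) (lo112_17_7 (nat_lit 556)))) (M (nat_lit 426) (B (lo18_13_0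 (nat_lit 424)) (lo112_13_1 (nat_lit 456)))))))))) (B (M (nat_lit 490) (B (M (nat_lit 493) (B (M (nat_lit 525) (B (lo19_15_0 (nat_lit 524)) (lo110_15_0 (nat_lit 526)))) (M (nat_lit 521) (B (lo113_15_1 (nat_lit 522)) (lo112_15_1 (nat_lit 520)))))) (B (M (nat_lit 488) (B (M (nat_lit 520) (B (lo112_15_1 (nat_lit 521)) (lo111_15_1 (nat_lit 519)))) (lo18_15_2 (nat_lit 460)))) (M (nat_lit 460) (B (M (nat_lit 524) (B (lo112_16_6 (nat_lit 397)) (lo112_17_7 (nat_lit 556)))) (lo18_15_2 (nat_lit 488))))))) (B (M (nat_lit 490) (B (M (nat_lit 493) (B (M (nat_lit 525) (B (lo19_15_0 (nat_lit 524)) (lo110_15_0 (nat_lit 526)))) (M (nat_lit 521) (B (lo113_15_1 (nat_lit 522)) (lo112_15_1 (nat_lit 520)))))) (lo112_15_3 (nat_lit 456)))) (B (M (nat_lit 524) (B (M (nat_lit 460) (B (lo112_16_6 (nat_lit 397)) (lo112_17_7 (nat_lit 556)))) (M (nat_lit 490) (B (lo19_15_0 (nat_lit 525)) (lo112_15_3 (nat_lit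 456)))))) (M (nat_lit 490) (B (M (nat_lit 488) (B (M (nat_lit 520) (B (lo112_15_1 (nat_lit 521)) (lo111_15_1 (nat_lit 519)))) (lo18_15_2 (nat_lit 460)))) (lo112_15_3 (nat_lit 456))))))))) (B (M (nat_lit 490) (B (M (nat_lit 522) (B (M (nat_lit 493) (B (M (nat_lit 494) (B (M (nat_lit 495) (B (M (nat_lit 463) (B (lo111_15_2 (nat_lit 462)) (lo112_15_2 (nat_lit 464)))) (lo115_15_3 (nat_lit 460)))) (M (nat_lit 526) (B (lo110_15_0 (nat_lit 525)) (lo111_15_0 (nat_lit 527)))))) (lo113_15_1 (nat_lit 521)))) (lo111_12_5 (nat_lit 395)))) (B (M (nat_lit 460) (B (M (nat_lit 395) (B (lo111_12_5 (nat_lit 522)) (lo111_11_4 (nat_lit 363)))) (M (nat_lit 489) (B (lo18_15_2 (nat_lit 488)) (lo112_15_3 (nat_lit 456)))))) (B (M (nat_lit 489) (B (M (nat_lit 488) (B (M (nat_lit 520) (B (lo112_15_1 (nat_lit 521)) (lo111_15_1 (nat_lit 519)))) (lo18_15_2 (nat_lit 460)))) (lo112_15_3 (nat_lit 456)))) (M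 (nat_lit 521) (B (M (nat_lit 522) (B (lo111_12_5 (nat_lit 395)) (lo113_15_1 (nat_lit 493)))) (M (nat_lit 489) (B (lo112_15_1 (nat_lit 520)) (lo112_15_3 (nat_lit 456)))))))))) (B (M (nat_lit 490) (B (M (nat_lit 489) (B (M (nat_lit 493) (B (M (nat_lit 525) (B (lo19_15_0 (nat_lit 524)) (lo110_15_0 (nat_lit 526)))) (M (nat_lit 521) (B (lo113_15_1 (nat_lit 522)) (lo112_15_1 (nat_lit 520)))))) (lo112_15_3 (nat_lit 456)))) (B (M (nat_lit 521) (B (M (nat_lit 522) (B (lo111_12_5 (nat_lit 395)) (lo113_15_1 (nat_lit 493)))) (M (nat_lit 489) (B (lo112_15_1 (nat_lit 520)) (lo112_15_3 (nat_lit 456)))))) (B (M (nat_lit 524) (B (M (nat_lit 489) (B (lo19_15_0 (nat_lit 525)) (lo112_15_3 (nat_lit 456)))) (lo111_12_4 (nat_lit 395)))) (M (nat_lit 395) (B (lo111_12_4 (nat_lit 524)) (lo111_12_5 (nat_lit 522)))))))) (M (nat_lit 524) (B (M (nat_lit 460) (B (lo112_16_6 (nat_lit 397)) (lo112_17_7 (nat_lit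 556)))) (lo111_12_4 (nat_lit 395)))))))) (B (M (nat_lit 490) (B (M (nat_lit 489) (B (K _ _ _ o1_s12098) (B (M (nat_lit 522) (B (M (nat_lit 521) (B (M (nat_lit 524) (B (M (nat_lit 492) (B (lo113_15_1 (nat_lit 493)) (lo19_15_0 (nat_lit 525)))) (M (nat_lit 523) (B (lo18_15_0 (nat_lit 488)) (lo111_13_4 (nat_lit 556)))))) (M (nat_lit 425) (B (M (nat_lit 520) (B (lo19_13_5 (nat_lit 552)) (lo17_16_2 (nat_lit 519)))) (lo19_12_4 (nat_lit 393)))))) (B (M (nat_lit 425) (B (M (nat_lit 554) (B (lo19_13_4 (nat_lit 521)) (lo110_18_6 (nat_lit 586)))) (lo19_12_4 (nat_lit 393)))) (M (nat_lit 554) (B (lo111_13_5 (nat_lit 523)) (lo110_18_6 (nat_lit 586))))))) (B (M (nat_lit 521) (B (M (nat_lit 522) (B (M (nat_lit 425) (B (M (nat_lit 520) (B (lo19_13_5 (nat_lit 552)) (lo17_16_2 (nat_lit 519)))) (lo19_12_4 (nat_lit 393)))) (M (nat_lit 554) (B (lo111_13_5 (nat_lit 523)) (lo110_18_6 (nat_lit 586))))))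 (B (M (nat_lit 522) (B (M (nat_lit 492) (B (lo113_15_1 (nat_lit 493)) (lo112_15_3 (nat_lit 456)))) (M (nat_lit 554) (B (lo111_13_5 (nat_lit 523)) (lo110_18_6 (nat_lit 586)))))) (M (nat_lit 492) (B (lo112_15_3 (nat_lit 456)) (lo112_15_1 (nat_lit 520))))))) (M (nat_lit 524) (B (M (nat_lit 492) (B (lo19_15_0 (nat_lit 525)) (lo112_15_3 (nat_lit 456)))) (M (nat_lit 523) (B (lo18_15_0 (nat_lit 488)) (lo111_13_4 (nat_lit 556)))))))))) (B (M (nat_lit 489) (B (K _ _ _ o1_s12098) (B (M (nat_lit 522) (B (M (nat_lit 425) (B (M (nat_lit 554) (B (lo19_13_4 (nat_lit 521)) (lo110_18_6 (nat_lit 586)))) (lo19_12_4 (nat_lit 393)))) (lo111_12_5 (nat_lit 395)))) (M (nat_lit 492) (B (M (nat_lit 524) (B (lo111_12_4 (nat_lit 395)) (lo19_15_0 (nat_lit 525)))) (lo112_15_3 (nat_lit 456))))))) (B (M (nat_lit 489) (B (K _ _ _ o1_s12098) (B (M (nat_lit 524) (B (M (nat_lit 523) (B (lo18_15_0 (nat_lit 488))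 (lo111_13_4 (nat_lit 556)))) (M (nat_lit 492) (B (lo111_12_4 (nat_lit 395)) (lo19_15_0 (nat_lit 525)))))) (M (nat_lit 492) (B (M (nat_lit 524) (B (lo111_12_4 (nat_lit 395)) (lo19_15_0 (nat_lit 525)))) (lo112_15_3 (nat_lit 456))))))) (M (nat_lit 522) (B (M (nat_lit 554) (B (lo111_13_5 (nat_lit 523)) (lo110_18_6 (nat_lit 586)))) (lo111_12_5 (nat_lit 395)))))))) (B (M (nat_lit 490) (B (M (nat_lit 489) (B (M (nat_lit 425) (B (M (nat_lit 392) (B (M (nat_lit 424) (B (M (nat_lit 426) (B (lo18_13_0 (nat_lit 460)) (lo111_13_3 (nat_lit 391)))) (lo19_16_7 (nat_lit 521)))) (B (M (nat_lit 424) (B (M (nat_lit 360) (B (lo19_15_7 (nat_lit 393)) (lo18_10_4 (nat_lit 328)))) (lo19_16_7 (nat_lit 521)))) (M (nat_lit 393) (B (lo112_13_3 (nat_lit 426)) (lo19_15_7 (nat_lit 360))))))) (B (K _ _ _ o1_s12180) (M (nat_lit 456) (B (lo112_13_1 (nat_lit 426)) (lo112_15_3 (nat_lit 492))))))) (B (M (nat_lit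 488) (B (M (nat_lit 520) (B (M (nat_lit 425) (B (M (nat_lit 552) (B (lo19_13_5 (nat_lit 521)) (lo18_18_6 (nat_lit 584)))) (lo19_12_5 (nat_lit 393)))) (lo111_15_1 (nat_lit 519)))) (lo18_15_2 (nat_lit 460)))) (M (nat_lit 456) (B (M (nat_lit 455) (B (lo16_14_0 (nat_lit 454)) (lo111_15_3 (nat_lit 488)))) (lo112_15_3 (nat_lit 492))))))) (M (nat_lit 522) (B (M (nat_lit 554) (B (lo111_13_5 (nat_lit 523)) (lo110_18_6 (nat_lit 586)))) (lo111_12_5 (nat_lit 395)))))) (B (K _ _ _ o1_s12225) (B (M (nat_lit 492) (B (M (nat_lit 524) (B (M (nat_lit 490) (B (M (nat_lit 525) (B (M (nat_lit 460) (B (lo112_16_6 (nat_lit 397)) (lo112_13_4 (nat_lit 557)))) (M (nat_lit 526) (B (lo110_15_0 (nat_lit 493)) (lo114_16_3 (nat_lit 523)))))) (B (M (nat_lit 460) (B (M (nat_lit 489) (B (lo18_15_2 (nat_lit 488)) (lo112_15_3 (nat_lit 456)))) (lo112_16_6 (nat_lit 397)))) (M (nat_lit 489) (B (lo19_15_0 (nat_lit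 525)) (lo112_15_3 (nat_lit 456))))))) (B (M (nat_lit 460) (B (lo112_16_6 (nat_lit 397)) (lo112_17_7 (nat_lit 556)))) (M (nat_lit 556) (B (lo112_18_7 (nat_lit 588)) (lo111_13_4 (nat_lit 523))))))) (B (M (nat_lit 490) (B (M (nat_lit 460) (B (M (nat_lit 395) (B (lo111_12_5 (nat_lit 522)) (lo111_11_4 (nat_lit 363)))) (M (nat_lit 489) (B (lo18_15_2 (nat_lit 488)) (lo112_15_3 (nat_lit 456)))))) (B (M (nat_lit 522) (B (M (nat_lit 521) (B (M (nat_lit 520) (B (lo18_16_2 (nat_lit 523)) (lo17_16_2 (nat_lit 519)))) (lo113_15_1 (nat_lit 493)))) (lo111_12_5 (nat_lit 395)))) (M (nat_lit 489) (B (M (nat_lit 488) (B (M (nat_lit 520) (B (lo112_15_1 (nat_lit 521)) (lo111_15_1 (nat_lit 519)))) (lo18_15_2 (nat_lit 460)))) (lo112_15_3 (nat_lit 456))))))) (B (M (nat_lit 524) (B (M (nat_lit 460) (B (lo112_16_6 (nat_lit 397)) (lo112_17_7 (nat_lit 556)))) (lo111_12_4 (nat_lit 395)))) (M (nat_lit 524)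 (B (M (nat_lit 556) (B (lo112_18_7 (nat_lit 588)) (lo111_13_4 (nat_lit 523)))) (lo111_12_4 (nat_lit 395)))))))) (B (M (nat_lit 523) (B (M (nat_lit 522) (B (M (nat_lit 490) (B (M (nat_lit 524) (B (M (nat_lit 489) (B (lo18_15_0 (nat_lit 488)) (lo113_16_3 (nat_lit 525)))) (lo111_13_4 (nat_lit 556)))) (lo111_12_5 (nat_lit 395)))) (lo111_13_5 (nat_lit 554)))) (B (M (nat_lit 554) (B (M (nat_lit 555) (B (lo111_17_6 (nat_lit 460)) (lo111_14_5 (nat_lit 586)))) (lo111_13_5 (nat_lit 522)))) (M (nat_lit 555) (B (M (nat_lit 556) (B (lo111_13_4 (nat_lit 524)) (lo111_14_4 (nat_lit 588)))) (lo111_17_6 (nat_lit 460))))))) (M (nat_lit 523) (B (M (nat_lit 524) (B (M (nat_lit 492) (B (M (nat_lit 522) (B (M (nat_lit 521) (B (lo19_16_2 (nat_lit 493)) (lo18_16_2 (nat_lit 520)))) (lo111_13_5 (nat_lit 554)))) (lo111_12_4 (nat_lit 395)))) (lo111_13_4 (nat_lit 556)))) (B (M (nat_lit 554) (B (M (nat_lit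 555) (B (lo111_17_6 (nat_lit 460)) (lo111_14_5 (nat_lit 586)))) (lo111_13_5 (nat_lit 522)))) (M (nat_lit 555) (B (M (nat_lit 556) (B (lo111_13_4 (nat_lit 524)) (lo111_14_4 (nat_lit 588)))) (lo111_17_6 (nat_lit 460))))))))))))))) (B (M (nat_lit 458) (B (lo113_13_1 (nat_lit 426)) (lo19_14_2 (nat_lit 460)))) (B (M (nat_lit 458) (B (lo19_14_2 (nat_lit 460)) (lo18_14_2 (nat_lit 456)))) (M (nat_lit 458) (B (lo113_13_1 (nat_lit 426)) (lo18_14_2 (nat_lit 456)))))))) _ _ _ (by decide +kernel)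
theorem o1_s14186 : Sem (nat_lit 1488565709956780750163974398099612477417145952784381266694123273170187103658404527931708531649790075323248916005941699916566686849214447616) (nat_lit 1013065324846613311822781578762100152300878690778999554579669990208941851108910165428045488707997583113082481337242822928455695038660772336521300921866703834939847308723913490432) (nat_lit 1013065324846613311822781578762100152300878690778999554579669990208941851108910165428045488707997583113082481337242822928455695038660772336521300921866703834939847308723913490432) := sem_of_chk (M (nat_lit 363) (B (K _ _ _ o1_s14185) (M (nat_lit 331) (B (M (nat_lit 332) (B (lo111_13_6 (nat_lit 300)) (lo111_14_6 (nat_lit 364)))) (M (nat_lit 330) (B (lo111_13_7 (nat_lit 298)) (lo111_14_7 (nat_lit 362)))))))) _ _ _ (by decide +kernel)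
theorem o1_s14274 : Sem (nat_lit 2599377838318959239544979191060888446096753879237631345248237841602165580959669259788002293054807271756308567508687822713811632128) (nat_lit 158291457407161184648555272701402621281645806202438084751815384027898871513782599388186654992598555735420644779588916882984589637501688907994359218243326941459234964551711588352) (nat_lit 158291457407161184648555272701402621281645806202438084751815384027898871513782599388186654992598555735420644779588916882984589637501688907994359218243326941459234964551711588352) := sem_of_chk (M (nat_lit 459) (B (K _ _ _ o1_s14157) (B (K _ _ _ o1_s14233) (B (K _ _ _ o1_s14249) (B (M (nat_lit 491) (B (M (nat_lit 457) (B (M (nat_lit 490) (B (M (nat_lit 492) (B (M (nat_lit 456) (B (lo112_13_1 (nat_lit 425)) (lo112_15_3 (nat_lit 489)))) (lo111_12_4 (nat_lit 524)))) (lo111_12_5 (nat_lit 522)))) (lo113_13_1 (nat_lit 458))))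 (B (M (nat_lit 523) (B (M (nat_lit 458) (B (lo113_13_1 (nat_lit 457)) (lo111_17_7 (nat_lit 555)))) (M (nat_lit 524) (B (lo111_12_4 (nat_lit 492)) (lo111_13_4 (nat_lit 556)))))) (B (M (nat_lit 523) (B (M (nat_lit 522) (B (lo111_12_5 (nat_lit 490)) (lo111_13_5 (nat_lit 554)))) (M (nat_lit 524) (B (lo111_12_4 (nat_lit 492)) (lo111_13_4 (nat_lit 556)))))) (M (nat_lit 523) (B (M (nat_lit 522) (B (lo111_12_5 (nat_lit 490)) (lo111_13_5 (nat_lit 554)))) (M (nat_lit 458) (B (lo113_13_1 (nat_lit 457)) (lo111_17_7 (nat_lit 555)))))))))) (K _ _ _ o1_s14273)))))) _ _ _ (by decide +kernel)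
theorem o1_s14281 : Sem (nat_lit 2599377838318959239544979191060888446096753879237631345248237841602165580959669259788002293054807271756308567508687822713811632128) (nat_lit 1013065324846613311822781578762100152303111539340035658949737329244670414089175628731104804749843433598442749185486451811349373729027055998947655883972263468595017229986873475072) (nat_lit 1013065324846613311822781578762100152303111539340035658949737329244670414089175628731104804749843433598442749185486451811349373729027055998947655883972263468595017229986873475072) := sem_of_chk (M (nat_lit 363) (B (M (nat_lit 459) (B (K _ _ _ o1_s14207) (B (K _ _ _ o1_s14275) (K _ _ _ o1_s14185)))) (B (M (nat_lit 458) (B (M (nat_lit 490) (B (lo110_15_6 (nat_lit 394)) (lo110_16_6 (nat_lit 522)))) (lo111_10_5 (nat_lit 331)))) (M (nat_lit 331) (B (lo111_10_4 (nat_lit 460)) (lo111_10_5 (nat_lit 458))))))) _ _ _ (by decide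 +kernel)
theorem o1_s20909 : Sem (nat_lit 2686023766260234703906804634315359811829142537843125613222315328496372496828595060508001493245561633571852042851231684333467074560) (nat_lit 253266331521236183188917834189743984512210903487091248331475194570741512958439735451220424531606715795873104715674734449880646433414615427124825882987245310884185562646159818752) (nat_lit 253266331521236183188917834189743984512210903487091248331475194570741512958439735451220424531606715795873104715674734449880646433414615427124825882987245310884185562646159818752) := sem_of_chk (M (nat_lit 363) (B (M (nat_lit 459) (B (M (nat_lit 362) (B (M (nat_lit 361) (B (K _ _ _ o1_s9341) (B (M (nat_lit 329) (B (M (nat_lit 364) (B (lo112_11_3 (nat_lit 328)) (lo111_14_6 (nat_lit 332)))) (M (nat_lit 458) (B (lo19_10_4 (nat_lit 393)) (lo111_11_5 (nat_lit 490)))))) (M (nat_lit 458) (B (M (nat_lit 393) (B (lo112_13_3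 (nat_lit 392)) (lo19_10_4 (nat_lit 329)))) (lo111_11_5 (nat_lit 490))))))) (lo111_14_7 (nat_lit 330)))) (B (K _ _ _ o1_s9367) (B (K _ _ _ o1_s9370) (K _ _ _ o1_s9379))))) (B (K _ _ _ o1_s9428) (B (K _ _ _ o1_s9436) (M (nat_lit 458) (B (M (nat_lit 490) (B (lo111_11_5 (nat_lit 459)) (lo110_16_6 (nat_lit 522)))) (lo111_10_5 (nat_lit 331)))))))) _ _ _ (by decide +kernel)
theorem o1_s23512 : Sem (nat_lit 19180023093141456272034619362204926784650499399658780991385542800892123466582809603056954341552017090965954270151044421904849672164775350272199229440) (nat_lit 2026130649339417647852825933134387914534253937751256234653847550309807286811321665599348235933113495541663472314686748651929915456964205200250643197342004313758901088311132028928) (nat_lit 2026130649339417647852825933134387914534253937751256234653847550309807286811321665599348235933113495541663472314686748651929915456964205200250643197342004313758901088311132028928)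 := sem_of_chk (M (nat_lit 460) (B (M (nat_lit 395) (B (lo112_16_7 (nat_lit 524)) (M (nat_lit 363) (B (lo111_10_4 (nat_lit 331)) (lo112_15_7 (nat_lit 396)))))) (B (M (nat_lit 493) (B (M (nat_lit 525) (B (lo112_12_4 (nat_lit 396)) (M (nat_lit 557) (B (lo112_13_4 (nat_lit 524)) (lo113_18_7 (nat_lit 589)))))) (B (M (nat_lit 525) (B (lo112_12_4 (nat_lit 396)) (M (nat_lit 557) (B (lo113_18_7 (nat_lit 589)) (lo113_17_7 (nat_lit 461)))))) (B (M (nat_lit 490) (B (M (nat_lit 461) (B (lo19_15_2 (nat_lit 489)) (lo110_15_2 (nat_lit 462)))) (B (M (nat_lit 461) (B (lo110_15_2 (nat_lit 462)) (M (nat_lit 525) (B (lo110_15_0 (nat_lit 526)) (lo113_17_7 (nat_lit 557)))))) (M (nat_lit 525) (B (lo110_15_0 (nat_lit 526)) (M (nat_lit 524) (B (lo19_15_0 (nat_lit 489)) (lo112_13_4 (nat_lit 557))))))))) (B (M (nat_lit 490) (B (M (nat_lit 525) (B (lo110_15_0 (nat_lit 526)) (lo112_12_4 (nat_lit 396))))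 (M (nat_lit 461) (B (lo19_15_2 (nat_lit 489)) (lo110_15_2 (nat_lit 462)))))) (K _ _ _ o1_s23489)))))) (B (M (nat_lit 493) (B (M (nat_lit 525) (B (lo112_12_4 (nat_lit 396)) (M (nat_lit 557) (B (lo113_18_7 (nat_lit 589)) (lo113_17_7 (nat_lit 461)))))) (B (M (nat_lit 490) (B (M (nat_lit 461) (B (lo19_15_2 (nat_lit 489)) (lo110_15_2 (nat_lit 462)))) (B (M (nat_lit 461) (B (lo110_15_2 (nat_lit 462)) (M (nat_lit 525) (B (lo110_15_0 (nat_lit 526)) (lo113_17_7 (nat_lit 557)))))) (M (nat_lit 489) (B (M (nat_lit 521) (B (lo112_15_1 (nat_lit 520)) (lo113_15_1 (nat_lit 522)))) (M (nat_lit 457) (B (lo112_15_3 (nat_lit 456)) (lo113_15_3 (nat_lit 458))))))))) (B (M (nat_lit 490) (B (M (nat_lit 525) (B (lo110_15_0 (nat_lit 526)) (lo112_12_4 (nat_lit 396)))) (M (nat_lit 461) (B (lo19_15_2 (nat_lit 489)) (lo110_15_2 (nat_lit 462)))))) (B (K _ _ _ o1_s23489) (M (nat_lit 525) (B (lo112_12_4 (nat_lit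 396)) (M (nat_lit 526) (B (lo110_15_0 (nat_lit 490)) (M (nat_lit 527) (B (lo111_15_0 (nat_lit 494)) (lo116_16_3 (nat_lit 528))))))))))))) (M (nat_lit 524) (B (lo112_16_7 (nat_lit 395)) (M (nat_lit 525) (B (lo112_13_4 (nat_lit 557)) (M (nat_lit 490) (B (lo19_15_0 (nat_lit 489)) (M (nat_lit 526) (B (lo110_15_0 (nat_lit 493)) (lo115_16_3 (nat_lit 527)))))))))))))) _ _ _ (by decide +kernel)
theorem o1_s28732 : Sem (nat_lit 2079502270590611144683810638107312777577327806531862431377859685460965980854219217279980804578104683573043408221052678871730618368) (nat_lit 5438853054421584524242321432644389424980270605248949605020322459609974890914620729686511274695913130133828873641503147642746644528503368682993142841808515845260355783530668525224816803840) (nat_lit 5438853054421584524242321432644389424980270605248949605020322459609974890914620729686511274695913130133828873641503147642746644528503368682993142841808515845260355783530668525224816803840) := sem_of_chk (M (nat_lit 492) (B (M (nat_lit 460) (B (M (nat_lit 397) (B (lo112_16_6 (nat_lit 524)) (M (nat_lit 365) (B (lo113_11_5 (nat_lit 461)) (lo113_10_5 (nat_lit 333)))))) (B (K _ _ _ o1_s26201) (B (M (nat_lit 397) (B (lo112_16_6 (nat_lit 524)) (M (nat_lit 365) (B (lo112_15_6 (nat_lit 396)) (lo113_10_5 (nat_lit 333)))))) (M (nat_lit 461) (B (M (nat_lit 427) (B (M (nat_lit 426) (B (lo19_13_0 (nat_lit 425)) (lo110_13_0 (nat_lit 462)))) (M (nat_lit 524) (B (lo112_16_7 (nat_lit 395)) (lo112_17_6 (nat_lit 556)))))) (B (M (nat_lit 427) (B (M (nat_lit 524) (B (lo112_16_7 (nat_lit 395)) (lo112_17_6 (nat_lit 556)))) (M (nat_lit 462) (B (lo110_13_0 (nat_lit 426)) (lo115_14_3 (nat_lit 463)))))) (B (M (nat_lit 396) (B (M (nat_lit 493) (B (lo112_12_4 (nat_lit 525)) (lo112_11_4 (nat_lit 364)))) (M (nat_lit 524) (B (lo112_17_6 (nat_lit 556)) (M (nat_lit 395) (B (lo112_16_7 (nat_lit 427)) (lo112_15_7 (nat_lit 363)))))))) (M (nat_lit 491) (B (M (nat_lit 490) (B (lo19_15_2 (nat_lit 489)) (M (nat_lit 462) (B (lo114_14_1 (nat_lit 459)) (lo115_14_1 (nat_lit 463)))))) (B (M (nat_lit 396) (B (lo112_12_5 (nat_lit 523)) (M (nat_lit 364) (B (lo112_11_5 (nat_lit 459)) (lo112_11_4 (nat_lit 493)))))) (M (nat_lit 396) (B (lo112_12_5 (nat_lit 523)) (M (nat_lit 493) (B (lo112_12_4 (nat_lit 525)) (lo112_11_4 (nat_lit 364))))))))))))))))) (B (M (nat_lit 460) (B (M (nat_lit 397) (B (lo112_16_6 (nat_lit 524)) (M (nat_lit 365) (B (lo112_15_6 (nat_lit 396)) (lo113_10_5 (nat_lit 333)))))) (B (M (nat_lit 396) (B (M (nat_lit 364) (B (M (nat_lit 491) (B (lo112_12_5 (nat_lit 523)) (lo112_11_5 (nat_lit 459)))) (M (nat_lit 365) (B (lo112_15_6 (nat_lit 397)) (lo112_14_6 (nat_lit 333)))))) (B (M (nat_lit 364) (B (M (nat_lit 363) (B (lo112_15_7 (nat_lit 395)) (lo112_14_7 (nat_lit 331)))) (M (nat_lit 365) (B (lo112_15_6 (nat_lit 397)) (lo112_14_6 (nat_lit 333)))))) (B (K _ _ _ o1_s26239) (M (nat_lit 491) (B (lo112_12_5 (nat_lit 523)) (M (nat_lit 364) (B (lo112_11_5 (nat_lit 459)) (M (nat_lit 363) (B (lo112_15_7 (nat_lit 395)) (lo112_14_7 (nat_lit 331)))))))))))) (B (M (nat_lit 397) (B (lo112_16_6 (nat_lit 524)) (M (nat_lit 365) (B (lo113_11_5 (nat_lit 461)) (lo113_10_5 (nat_lit 333)))))) (K _ _ _ o1_s26263))))) (B (M (nat_lit 493) (B (K _ _ _ o1_s26279) (B (M (nat_lit 396) (B (M (nat_lit 525) (B (lo112_12_4 (nat_lit 460)) (lo113_16_7 (nat_lit 461)))) (B (M (nat_lit 461) (B (lo113_16_7 (nat_lit 525)) (M (nat_lit 364) (B (lo112_10_4 (nat_lit 332)) (lo113_15_7 (nat_lit 397)))))) (B (M (nat_lit 364) (B (M (nat_lit 461) (B (lo112_11_4 (nat_lit 460)) (lo112_10_4 (nat_lit 332)))) (B (M (nat_lit 461) (B (lo112_10_4 (nat_lit 332)) (lo113_15_7 (nat_lit 397)))) (B (M (nat_lit 461) (B (lo112_11_4 (nat_lit 460)) (lo113_15_7 (nat_lit 397)))) (M (nat_lit 460) (B (M (nat_lit 491) (B (lo112_12_5 (nat_lit 523)) (lo112_11_5 (nat_lit 459)))) (M (nat_lit 365) (B (lo112_15_6 (nat_lit 397)) (lo112_14_6 (nat_lit 333)))))))))) (M (nat_lit 460) (B (lo112_12_4 (nat_lit 525)) (M (nat_lit 364) (B (M (nat_lit 491) (B (lo112_12_5 (nat_lit 523)) (lo112_11_5 (nat_lit 459)))) (M (nat_lit 365) (B (lo112_15_6 (nat_lit 397)) (lo112_14_6 (nat_lit 333)))))))))))) (B (K _ _ _ o1_s26327) (B (K _ _ _ o1_s26350) (B (K _ _ _ o1_s26361) (B (M (nat_lit 460) (B (M (nat_lit 525) (B (lo112_12_4 (nat_lit 396)) (M (nat_lit 524) (B (lo112_13_4 (nat_lit 557)) (lo112_16_6 (nat_lit 397)))))) (B (K _ _ _ o1_s26366) (B (K _ _ _ o1_s26367) (M (nat_lit 525) (B (lo112_12_4 (nat_lit 396)) (M (nat_lit 557) (B (lo112_13_4 (nat_lit 524)) (lo113_18_7 (nat_lit 589)))))))))) (K _ _ _ o1_s26379)))))))) (B (M (nat_lit 493) (B (K _ _ _ o1_s26279) (B (K _ _ _ o1_s26388) (B (M (nat_lit 526) (B (M (nat_lit 461) (B (M (nat_lit 525) (B (lo113_16_7 (nat_lit 396)) (lo113_13_4 (nat_lit 558)))) (M (nat_lit 397) (B (lo113_12_5 (nat_lit 524)) (lo113_12_4 (nat_lit 494)))))) (B (M (nat_lit 461) (B (M (nat_lit 525) (B (lo113_16_7 (nat_lit 396)) (lo113_13_4 (nat_lit 558)))) (B (M (nat_lit 494) (B (lo113_12_4 (nat_lit 397)) (M (nat_lit 558) (B (lo113_13_4 (nat_lit 525)) (lo114_18_7 (nat_lit 590)))))) (B (M (nat_lit 494) (B (lo113_12_4 (nat_lit 397)) (M (nat_lit 558) (B (lo114_18_7 (nat_lit 590)) (lo114_17_7 (nat_lit 462)))))) (M (nat_lit 491) (B (M (nat_lit 525) (B (lo110_15_0 (nat_lit 490)) (lo113_16_7 (nat_lit 396)))) (M (nat_lit 494) (B (lo111_15_0 (nat_lit 527)) (lo113_12_4 (nat_lit 397)))))))))) (B (M (nat_lit 494) (B (M (nat_lit 527) (B (lo111_15_0 (nat_lit 491)) (M (nat_lit 528) (B (lo116_16_3 (nat_lit 525)) (lo112_15_0 (nat_lit 495)))))) (B (M (nat_lit 461) (B (lo113_12_4 (nat_lit 397)) (M (nat_lit 558) (B (lo113_13_4 (nat_lit 525)) (lo114_17_7 (nat_lit 462)))))) (M (nat_lit 527) (B (lo111_15_0 (nat_lit 491)) (M (nat_lit 528) (B (lo112_15_0 (nat_lit 495)) (lo117_16_3 (nat_lit 529))))))))) (B (M (nat_lit 494) (B (M (nat_lit 527) (B (lo111_15_0 (nat_lit 491)) (M (nat_lit 528) (B (lo112_15_0 (nat_lit 495)) (lo117_16_3 (nat_lit 529)))))) (M (nat_lit 461) (B (lo113_12_4 (nat_lit 397)) (M (nat_lit 558) (B (lo114_18_7 (nat_lit 590)) (lo114_17_7 (nat_lit 462)))))))) (B (M (nat_lit 527) (B (M (nat_lit 491) (B (lo111_15_0 (nat_lit 494)) (M (nat_lit 525) (B (lo115_16_3 (nat_lit 524)) (lo116_16_3 (nat_lit 528)))))) (B (M (nat_lit 528) (B (lo116_16_3 (nat_lit 525)) (M (nat_lit 494) (B (lo112_15_0 (nat_lit 495)) (lo117_16_3 (nat_lit 529)))))) (B (M (nat_lit 494) (B (lo111_15_0 (nat_lit 491)) (M (nat_lit 528) (B (lo112_15_0 (nat_lit 495)) (lo117_16_3 (nat_lit 529)))))) (B (M (nat_lit 525) (B (lo116_16_3 (nat_lit 528)) (M (nat_lit 491) (B (lo110_15_0 (nat_lit 490)) (lo115_16_3 (nat_lit 524)))))) (M (nat_lit 491) (B (lo111_15_0 (nat_lit 494)) (M (nat_lit 525) (B (lo110_15_0 (nat_lit 490)) (lo115_16_3 (nat_lit 524))))))))))) (M (nat_lit 525) (B (M (nat_lit 461) (B (lo113_16_7 (nat_lit 396)) (lo113_13_4 (nat_lit 558)))) (M (nat_lit 491) (B (lo110_15_0 (nat_lit 490)) (M (nat_lit 527) (B (lo115_16_3 (nat_lit 524)) (lo116_16_3 (nat_lit 528)))))))))))))) (B (M (nat_lit 524) (B (M (nat_lit 397) (B (lo112_16_6 (nat_lit 460)) (lo113_12_5 (nat_lit 461)))) (B (M (nat_lit 461) (B (lo113_12_5 (nat_lit 397)) (M (nat_lit 556) (B (lo112_18_6 (nat_lit 588)) (lo113_13_5 (nat_lit 525)))))) (B (M (nat_lit 460) (B (lo112_16_6 (nat_lit 397)) (M (nat_lit 556) (B (M (nat_lit 427) (B (lo112_17_7 (nat_lit 459)) (lo112_16_7 (nat_lit 395)))) (M (nat_lit 557) (B (lo112_14_4 (nat_lit 589)) (lo112_13_4 (nat_lit 525)))))))) (M (nat_lit 556) (B (M (nat_lit 461) (B (lo112_18_6 (nat_lit 588)) (lo112_17_6 (nat_lit 460)))) (B (M (nat_lit 461) (B (lo112_17_6 (nat_lit 460)) (lo113_13_5 (nat_lit 525)))) (B (M (nat_lit 461) (B (lo112_18_6 (nat_lit 588)) (lo113_13_5 (nat_lit 525)))) (M (nat_lit 460) (B (M (nat_lit 427) (B (lo112_17_7 (nat_lit 459)) (lo112_16_7 (nat_lit 395)))) (M (nat_lit 557) (B (lo112_14_4 (nat_lit 589)) (lo112_13_4 (nat_lit 525)))))))))))))) (B (K _ _ _ o1_s26361) (B (M (nat_lit 460) (B (M (nat_lit 525) (B (lo112_12_4 (nat_lit 396)) (M (nat_lit 524) (B (lo112_13_4 (nat_lit 557)) (lo112_16_6 (nat_lit 397)))))) (B (K _ _ _ o1_s26452) (B (M (nat_lit 524) (B (lo112_16_6 (nat_lit 397)) (M (nat_lit 556) (B (M (nat_lit 427) (B (lo112_17_7 (nat_lit 459)) (lo112_16_7 (nat_lit 395)))) (M (nat_lit 557) (B (lo112_14_4 (nat_lit 589)) (lo112_13_4 (nat_lit 525)))))))) (B (M (nat_lit 397) (B (lo112_16_6 (nat_lit 524)) (M (nat_lit 365) (B (lo112_15_6 (nat_lit 396)) (lo113_10_5 (nat_lit 333)))))) (M (nat_lit 525) (B (lo112_12_4 (nat_lit 396)) (M (nat_lit 557) (B (lo112_13_4 (nat_lit 524)) (lo113_18_7 (nat_lit 589))))))))))) (K _ _ _ o1_s26379)))))))) (B (M (nat_lit 493) (B (K _ _ _ o1_s26279) (B (K _ _ _ o1_s26388) (B (K _ _ _ o1_s26327) (B (K _ _ _ o1_s26350) (B (K _ _ _ o1_s26361) (B (M (nat_lit 460) (B (M (nat_lit 525) (B (lo112_12_4 (nat_lit 396)) (M (nat_lit 524) (B (lo112_13_4 (nat_lit 557)) (lo112_16_6 (nat_lit 397)))))) (B (K _ _ _ o1_s26452) (B (K _ _ _ o1_s26367) (M (nat_lit 525) (B (lo112_12_4 (nat_lit 396)) (M (nat_lit 557) (B (lo112_13_4 (nat_lit 524)) (lo113_18_7 (nat_lit 589)))))))))) (K _ _ _ o1_s26379)))))))) (B (M (nat_lit 493) (B (K _ _ _ o1_s26279) (B (K _ _ _ o1_s26388) (B (M (nat_lit 461) (B (M (nat_lit 524) (B (lo113_12_5 (nat_lit 397)) (M (nat_lit 525) (B (lo113_13_5 (nat_lit 556)) (lo113_16_7 (nat_lit 396)))))) (B (M (nat_lit 396) (B (lo113_16_7 (nat_lit 525)) (M (nat_lit 364) (B (lo112_10_4 (nat_lit 332)) (lo113_15_7 (nat_lit 397)))))) (B (M (nat_lit 524) (B (lo113_12_5 (nat_lit 397)) (M (nat_lit 556) (B (lo112_18_6 (nat_lit 588)) (lo113_13_5 (nat_lit 525)))))) (B (K _ _ _ o1_s26317) (K _ _ _ o1_s26468)))))) (B (M (nat_lit 524) (B (M (nat_lit 397) (B (lo112_16_6 (nat_lit 460)) (lo113_12_5 (nat_lit 461)))) (B (M (nat_lit 461) (B (lo113_12_5 (nat_lit 397)) (M (nat_lit 556) (B (lo112_18_6 (nat_lit 588)) (lo113_13_5 (nat_lit 525)))))) (B (M (nat_lit 523) (B (M (nat_lit 460) (B (lo112_13_5 (nat_lit 555)) (lo112_16_6 (nat_lit 397)))) (M (nat_lit 522) (B (lo19_16_2 (nat_lit 521)) (M (nat_lit 494) (B (lo114_15_1 (nat_lit 491)) (lo115_15_1 (nat_lit 495)))))))) (M (nat_lit 525) (B (M (nat_lit 526) (B (M (nat_lit 491) (B (lo110_15_0 (nat_lit 490)) (lo115_16_3 (nat_lit 527)))) (M (nat_lit 461) (B (lo113_13_5 (nat_lit 556)) (lo113_13_4 (nat_lit 558)))))) (M (nat_lit 523) (B (M (nat_lit 522) (B (lo19_16_2 (nat_lit 521)) (lo110_16_2 (nat_lit 494)))) (M (nat_lit 460) (B (lo112_13_5 (nat_lit 555)) (lo112_13_4 (nat_lit 557)))))))))))) (B (K _ _ _ o1_s26361) (B (M (nat_lit 460) (B (M (nat_lit 525) (B (lo112_12_4 (nat_lit 396)) (M (nat_lit 524) (B (lo112_13_4 (nat_lit 557)) (lo112_16_6 (nat_lit 397)))))) (B (K _ _ _ o1_s26452) (B (M (nat_lit 524) (B (lo112_16_6 (nat_lit 397)) (M (nat_lit 525) (B (lo112_13_4 (nat_lit 557)) (M (nat_lit 523) (B (lo112_13_5 (nat_lit 555)) (M (nat_lit 522) (B (lo19_16_2 (nat_lit 521)) (lo110_16_2 (nat_lit 494)))))))))) (B (M (nat_lit 397) (B (lo112_16_6 (nat_lit 524)) (M (nat_lit 365) (B (lo112_15_6 (nat_lit 396)) (lo113_10_5 (nat_lit 333)))))) (M (nat_lit 525) (B (lo112_12_4 (nat_lit 396)) (M (nat_lit 557) (B (lo112_13_4 (nat_lit 524)) (lo113_18_7 (nat_lit 589))))))))))) (K _ _ _ o1_s26379)))))))) (B (M (nat_lit 460) (B (M (nat_lit 397) (B (lo112_16_6 (nat_lit 524)) (M (nat_lit 365) (B (lo113_11_5 (nat_lit 461)) (lo113_10_5 (nat_lit 333)))))) (B (M (nat_lit 493) (B (M (nat_lit 396) (B (lo112_12_4 (nat_lit 525)) (M (nat_lit 364) (B (lo112_11_4 (nat_lit 461)) (M (nat_lit 491) (B (lo112_12_5 (nat_lit 523)) (lo112_11_5 (nat_lit 459)))))))) (B (M (nat_lit 396) (B (lo112_12_4 (nat_lit 525)) (M (nat_lit 364) (B (lo112_11_4 (nat_lit 461)) (M (nat_lit 365) (B (lo112_15_6 (nat_lit 397)) (lo112_14_6 (nat_lit 333)))))))) (B (M (nat_lit 494) (B (M (nat_lit 459) (B (lo115_15_3 (nat_lit 495)) (M (nat_lit 458) (B (lo19_14_0 (nat_lit 457)) (lo110_14_0 (nat_lit 461)))))) (B (M (nat_lit 459) (B (lo115_15_3 (nat_lit 495)) (M (nat_lit 458) (B (lo114_15_3 (nat_lit 491)) (lo110_14_0 (nat_lit 461)))))) (B (M (nat_lit 461) (B (M (nat_lit 495) (B (lo115_15_3 (nat_lit 459)) (lo116_15_3 (nat_lit 496)))) (M (nat_lit 397) (B (lo113_11_5 (nat_lit 365)) (lo113_12_4 (nat_lit 526)))))) (B (K _ _ _ o1_s26529) (B (M (nat_lit 459) (B (lo115_15_3 (nat_lit 495)) (M (nat_lit 458) (B (lo19_14_0 (nat_lit 457)) (lo114_15_3 (nat_lit 491)))))) (K _ _ _ o1_s26548))))))) (B (M (nat_lit 397) (B (M (nat_lit 365) (B (lo112_15_6 (nat_lit 396)) (lo113_11_5 (nat_lit 461)))) (B (M (nat_lit 365) (B (lo113_11_5 (nat_lit 461)) (lo113_10_5 (nat_lit 333)))) (B (M (nat_lit 365) (B (lo112_15_6 (nat_lit 396)) (lo113_10_5 (nat_lit 333)))) (M (nat_lit 461) (B (M (nat_lit 494) (B (lo113_12_4 (nat_lit 526)) (M (nat_lit 459) (B (lo110_14_0 (nat_lit 458)) (lo115_15_3 (nat_lit 495)))))) (M (nat_lit 491) (B (M (nat_lit 490) (B (lo19_15_2 (nat_lit 489)) (lo110_15_2 (nat_lit 462)))) (M (nat_lit 396) (B (lo112_12_5 (nat_lit 523)) (lo112_11_4 (nat_lit 364)))))))))))) (K _ _ _ o1_s26366)))))) (B (M (nat_lit 397) (B (lo112_16_6 (nat_lit 524)) (M (nat_lit 365) (B (lo112_15_6 (nat_lit 396)) (lo113_10_5 (nat_lit 333)))))) (K _ _ _ o1_s26263))))) (B (M (nat_lit 460) (B (M (nat_lit 397) (B (lo112_16_6 (nat_lit 524)) (M (nat_lit 365) (B (lo112_15_6 (nat_lit 396)) (lo113_10_5 (nat_lit 333)))))) (B (K _ _ _ o1_s26201) (B (M (nat_lit 397) (B (lo112_16_6 (nat_lit 524)) (M (nat_lit 365) (B (lo113_11_5 (nat_lit 461)) (lo113_10_5 (nat_lit 333)))))) (K _ _ _ o1_s26570))))) (B (M (nat_lit 491) (B (M (nat_lit 460) (B (M (nat_lit 523) (B (lo112_12_5 (nat_lit 396)) (M (nat_lit 555) (B (lo111_18_6 (nat_lit 587)) (lo111_17_6 (nat_lit 459)))))) (B (M (nat_lit 396) (B (lo112_12_5 (nat_lit 523)) (M (nat_lit 364) (B (lo112_11_5 (nat_lit 459)) (M (nat_lit 493) (B (lo112_12_4 (nat_lit 525)) (lo112_11_4 (nat_lit 461)))))))) (B (K _ _ _ o1_s26597) (B (K _ _ _ o1_s26602) (M (nat_lit 490) (B (M (nat_lit 461) (B (lo19_15_2 (nat_lit 489)) (M (nat_lit 462) (B (lo114_14_1 (nat_lit 459)) (lo110_15_2 (nat_lit 493)))))) (B (K _ _ _ o1_s26611) (B (M (nat_lit 461) (B (lo19_15_2 (nat_lit 489)) (M (nat_lit 462) (B (lo110_15_2 (nat_lit 493)) (lo115_14_1 (nat_lit 463)))))) (B (M (nat_lit 461) (B (lo19_15_2 (nat_lit 489)) (M (nat_lit 462) (B (lo114_14_1 (nat_lit 459)) (lo115_14_1 (nat_lit 463)))))) (M (nat_lit 489) (B (M (nat_lit 457) (B (lo112_15_3 (nat_lit 456)) (M (nat_lit 458) (B (lo113_15_3 (nat_lit 493)) (lo19_14_2 (nat_lit 459)))))) (B (M (nat_lit 520) (B (lo112_15_1 (nat_lit 521)) (M (nat_lit 488) (B (lo111_15_1 (nat_lit 519)) (lo18_15_2 (nat_lit 459)))))) (M (nat_lit 493) (B (M (nat_lit 521) (B (lo112_15_1 (nat_lit 520)) (lo113_15_1 (nat_lit 522)))) (M (nat_lit 457) (B (lo112_15_3 (nat_lit 456)) (lo113_15_3 (nat_lit 458))))))))))))))))))) (B (M (nat_lit 493) (B (M (nat_lit 525) (B (M (nat_lit 396) (B (lo112_12_4 (nat_lit 460)) (lo113_16_7 (nat_lit 461)))) (M (nat_lit 526) (B (lo110_15_0 (nat_lit 490)) (M (nat_lit 527) (B (lo111_15_0 (nat_lit 494)) (lo116_16_3 (nat_lit 528)))))))) (B (K _ _ _ o1_s26652) (B (K _ _ _ o1_s26659) (B (K _ _ _ o1_s26679) (M (nat_lit 494) (B (M (nat_lit 490) (B (M (nat_lit 522) (B (lo113_15_1 (nat_lit 521)) (lo114_15_1 (nat_lit 523)))) (M (nat_lit 458) (B (lo113_15_3 (nat_lit 457)) (lo114_15_3 (nat_lit 459)))))) (M (nat_lit 495) (B (M (nat_lit 527) (B (lo111_15_0 (nat_lit 526)) (lo112_15_0 (nat_lit 528)))) (M (nat_lit 463) (B (lo111_15_2 (nat_lit 462)) (lo112_15_2 (nat_lit 464))))))))))))) (B (M (nat_lit 396) (B (M (nat_lit 460) (B (lo112_12_5 (nat_lit 523)) (M (nat_lit 364) (B (lo112_11_5 (nat_lit 459)) (M (nat_lit 363) (B (lo112_15_7 (nat_lit 395)) (lo112_14_7 (nat_lit 331)))))))) (B (K _ _ _ o1_s26691) (B (K _ _ _ o1_s26693) (B (M (nat_lit 460) (B (lo112_12_5 (nat_lit 523)) (M (nat_lit 364) (B (lo112_11_5 (nat_lit 459)) (M (nat_lit 493) (B (lo112_12_4 (nat_lit 525)) (lo112_11_4 (nat_lit 461)))))))) (B (M (nat_lit 493) (B (M (nat_lit 461) (B (lo113_16_7 (nat_lit 525)) (M (nat_lit 364) (B (lo112_10_4 (nat_lit 332)) (lo113_15_7 (nat_lit 397)))))) (B (K _ _ _ o1_s26705) (M (nat_lit 459) (B (M (nat_lit 523) (B (lo111_16_6 (nat_lit 427)) (M (nat_lit 494) (B (lo114_15_1 (nat_lit 522)) (lo114_15_3 (nat_lit 458)))))) (B (M (nat_lit 458) (B (lo114_15_3 (nat_lit 494)) (M (nat_lit 457) (B (lo18_14_0 (nat_lit 456)) (lo113_15_3 (nat_lit 490)))))) (M (nat_lit 427) (B (lo111_16_6 (nat_lit 523)) (M (nat_lit 364) (B (lo111_15_6 (nat_lit 395)) (lo112_10_5 (nat_lit 332)))))))))))) (M (nat_lit 493) (B (M (nat_lit 460) (B (lo112_12_5 (nat_lit 523)) (lo112_12_4 (nat_lit 525)))) (B (M (nat_lit 525) (B (lo112_12_4 (nat_lit 460)) (lo113_16_7 (nat_lit 461)))) (B (K _ _ _ o1_s26705) (M (nat_lit 523) (B (lo112_12_5 (nat_lit 460)) (M (nat_lit 494) (B (lo114_15_1 (nat_lit 522)) (M (nat_lit 459) (B (lo114_15_3 (nat_lit 458)) (lo111_16_6 (nat_lit 427)))))))))))))))))) (B (M (nat_lit 493) (B (K _ _ _ o1_s26652) (B (K _ _ _ o1_s26659) (B (M (nat_lit 494) (B (M (nat_lit 490) (B (M (nat_lit 522) (B (lo113_15_1 (nat_lit 521)) (lo114_15_1 (nat_lit 523)))) (M (nat_lit 526) (B (lo110_15_0 (nat_lit 525)) (lo111_15_0 (nat_lit 527)))))) (B (M (nat_lit 490) (B (M (nat_lit 526) (B (lo110_15_0 (nat_lit 525)) (lo111_15_0 (nat_lit 527)))) (M (nat_lit 462) (B (lo110_15_2 (nat_lit 461)) (lo111_15_2 (nat_lit 463)))))) (M (nat_lit 495) (B (M (nat_lit 459) (B (lo114_15_3 (nat_lit 458)) (lo115_15_3 (nat_lit 460)))) (M (nat_lit 463) (B (lo111_15_2 (nat_lit 462)) (lo112_15_2 (nat_lit 464))))))))) (K _ _ _ o1_s26744))))) (B (M (nat_lit 460) (B (M (nat_lit 523) (B (lo112_12_5 (nat_lit 396)) (M (nat_lit 555) (B (lo111_18_6 (nat_lit 587)) (lo111_17_6 (nat_lit 459)))))) (B (M (nat_lit 396) (B (lo112_12_5 (nat_lit 523)) (M (nat_lit 364) (B (lo112_11_5 (nat_lit 459)) (M (nat_lit 493) (B (lo112_12_4 (nat_lit 525)) (lo112_11_4 (nat_lit 461)))))))) (B (K _ _ _ o1_s26597) (B (K _ _ _ o1_s26602) (M (nat_lit 490) (B (M (nat_lit 461) (B (lo19_15_2 (nat_lit 489)) (M (nat_lit 462) (B (lo114_14_1 (nat_lit 459)) (lo110_15_2 (nat_lit 493)))))) (B (M (nat_lit 493) (B (M (nat_lit 461) (B (lo110_15_2 (nat_lit 462)) (M (nat_lit 525) (B (lo110_15_0 (nat_lit 526)) (lo113_17_7 (nat_lit 557)))))) (B (M (nat_lit 494) (B (M (nat_lit 458) (B (lo113_15_3 (nat_lit 457)) (lo114_15_3 (nat_lit 459)))) (M (nat_lit 462) (B (lo110_15_2 (nat_lit 461)) (lo111_15_2 (nat_lit 463)))))) (M (nat_lit 494) (B (M (nat_lit 458) (B (lo113_15_3 (nat_lit 457)) (lo114_15_3 (nat_lit 459)))) (M (nat_lit 526) (B (lo110_15_0 (nat_lit 525)) (lo111_15_0 (nat_lit 527))))))))) (B (M (nat_lit 461) (B (lo19_15_2 (nat_lit 489)) (M (nat_lit 462) (B (lo110_15_2 (nat_lit 493)) (lo115_14_1 (nat_lit 463)))))) (B (M (nat_lit 461) (B (lo19_15_2 (nat_lit 489)) (M (nat_lit 462) (B (lo114_14_1 (nat_lit 459)) (lo115_14_1 (nat_lit 463)))))) (K _ _ _ o1_s26760))))))))))) (B (M (nat_lit 396) (B (M (nat_lit 460) (B (lo112_12_5 (nat_lit 523)) (M (nat_lit 364) (B (lo112_11_5 (nat_lit 459)) (M (nat_lit 493) (B (lo112_12_4 (nat_lit 525)) (lo112_11_4 (nat_lit 461)))))))) (B (K _ _ _ o1_s26691) (B (M (nat_lit 460) (B (lo112_12_5 (nat_lit 523)) (M (nat_lit 364) (B (M (nat_lit 363) (B (lo112_15_7 (nat_lit 395)) (lo112_14_7 (nat_lit 331)))) (M (nat_lit 365) (B (lo112_15_6 (nat_lit 397)) (lo112_14_6 (nat_lit 333)))))))) (B (M (nat_lit 493) (B (M (nat_lit 461) (B (lo113_16_7 (nat_lit 525)) (M (nat_lit 364) (B (lo112_10_4 (nat_lit 332)) (lo113_15_7 (nat_lit 397)))))) (B (K _ _ _ o1_s26769) (K _ _ _ o1_s26777)))) (M (nat_lit 493) (B (M (nat_lit 460) (B (lo112_12_5 (nat_lit 523)) (lo112_12_4 (nat_lit 525)))) (B (M (nat_lit 525) (B (lo112_12_4 (nat_lit 460)) (lo113_16_7 (nat_lit 461)))) (K _ _ _ o1_s26777))))))))) (B (M (nat_lit 493) (B (K _ _ _ o1_s26652) (B (K _ _ _ o1_s26784) (B (K _ _ _ o1_s26659) (B (M (nat_lit 494) (B (M (nat_lit 490) (B (M (nat_lit 522) (B (lo113_15_1 (nat_lit 521)) (lo114_15_1 (nat_lit 523)))) (M (nat_lit 462) (B (lo110_15_2 (nat_lit 461)) (lo111_15_2 (nat_lit 463)))))) (B (M (nat_lit 490) (B (M (nat_lit 526) (B (lo110_15_0 (nat_lit 525)) (lo111_15_0 (nat_lit 527)))) (M (nat_lit 462) (B (lo110_15_2 (nat_lit 461)) (lo111_15_2 (nat_lit 463)))))) (B (M (nat_lit 495) (B (M (nat_lit 527) (B (lo111_15_0 (nat_lit 526)) (lo112_15_0 (nat_lit 528)))) (M (nat_lit 463) (B (lo111_15_2 (nat_lit 462)) (lo112_15_2 (nat_lit 464)))))) (M (nat_lit 490) (B (M (nat_lit 522) (B (lo113_15_1 (nat_lit 521)) (lo114_15_1 (nat_lit 523)))) (M (nat_lit 526) (B (lo110_15_0 (nat_lit 525)) (lo111_15_0 (nat_lit 527)))))))))) (K _ _ _ o1_s26744)))))) (B (M (nat_lit 493) (B (K _ _ _ o1_s26784) (B (K _ _ _ o1_s26798) (B (K _ _ _ o1_s26811) (B (M (nat_lit 490) (B (M (nat_lit 489) (B (M (nat_lit 521) (B (lo112_15_1 (nat_lit 520)) (lo113_15_1 (nat_lit 522)))) (M (nat_lit 461) (B (lo19_15_2 (nat_lit 460)) (lo110_15_2 (nat_lit 462)))))) (B (M (nat_lit 489) (B (M (nat_lit 457) (B (lo112_15_3 (nat_lit 456)) (lo113_15_3 (nat_lit 458)))) (M (nat_lit 461) (B (lo19_15_2 (nat_lit 460)) (lo110_15_2 (nat_lit 462)))))) (B (M (nat_lit 494) (B (M (nat_lit 458) (B (lo113_15_3 (nat_lit 457)) (lo114_15_3 (nat_lit 459)))) (M (nat_lit 462) (B (lo110_15_2 (nat_lit 461)) (lo111_15_2 (nat_lit 463)))))) (M (nat_lit 489) (B (M (nat_lit 521) (B (lo112_15_1 (nat_lit 520)) (lo113_15_1 (nat_lit 522)))) (M (nat_lit 457) (B (lo112_15_3 (nat_lit 456)) (lo113_15_3 (nat_lit 458)))))))))) (K _ _ _ o1_s26820)))))) (B (M (nat_lit 460) (B (K _ _ _ o1_s26822) (B (M (nat_lit 493) (B (M (nat_lit 396) (B (lo112_12_4 (nat_lit 525)) (M (nat_lit 364) (B (lo112_11_4 (nat_lit 461)) (M (nat_lit 363) (B (lo112_15_7 (nat_lit 395)) (lo112_14_7 (nat_lit 331)))))))) (B (M (nat_lit 461) (B (M (nat_lit 490) (B (lo19_15_2 (nat_lit 489)) (lo110_15_2 (nat_lit 462)))) (M (nat_lit 525) (B (lo112_12_4 (nat_lit 396)) (lo113_17_7 (nat_lit 557)))))) (B (M (nat_lit 461) (B (M (nat_lit 490) (B (lo19_15_2 (nat_lit 489)) (lo110_15_2 (nat_lit 462)))) (B (M (nat_lit 525) (B (lo113_17_7 (nat_lit 557)) (M (nat_lit 490) (B (lo110_15_0 (nat_lit 526)) (lo110_15_2 (nat_lit 462)))))) (M (nat_lit 526) (B (M (nat_lit 525) (B (lo113_17_7 (nat_lit 557)) (lo113_13_4 (nat_lit 558)))) (M (nat_lit 397) (B (lo113_11_5 (nat_lit 365)) (lo113_12_4 (nat_lit 494))))))))) (B (M (nat_lit 494) (B (M (nat_lit 462) (B (lo111_15_2 (nat_lit 463)) (M (nat_lit 461) (B (lo110_15_2 (nat_lit 490)) (M (nat_lit 526) (B (lo111_15_0 (nat_lit 527)) (lo114_17_7 (nat_lit 558)))))))) (B (K _ _ _ o1_s26858) (B (M (nat_lit 495) (B (M (nat_lit 527) (B (lo111_15_0 (nat_lit 526)) (lo112_15_0 (nat_lit 528)))) (M (nat_lit 463) (B (lo111_15_2 (nat_lit 462)) (lo112_15_2 (nat_lit 464)))))) (M (nat_lit 490) (B (M (nat_lit 461) (B (lo19_15_2 (nat_lit 489)) (lo110_15_2 (nat_lit 462)))) (B (M (nat_lit 462) (B (lo110_15_2 (nat_lit 461)) (lo111_15_2 (nat_lit 463)))) (M (nat_lit 489) (B (M (nat_lit 521) (B (lo112_15_1 (nat_lit 520)) (lo113_15_1 (nat_lit 522)))) (M (nat_lit 457) (B (lo112_15_3 (nat_lit 456)) (lo113_15_3 (nat_lit 458))))))))))))) (M (nat_lit 525) (B (lo112_12_4 (nat_lit 396)) (M (nat_lit 526) (B (lo110_15_0 (nat_lit 490)) (M (nat_lit 527) (B (lo111_15_0 (nat_lit 494)) (lo116_16_3 (nat_lit 528))))))))))))) (B (K _ _ _ o1_s26602) (B (M (nat_lit 490) (B (M (nat_lit 461) (B (lo19_15_2 (nat_lit 489)) (M (nat_lit 462) (B (lo110_15_2 (nat_lit 493)) (lo115_14_1 (nat_lit 463)))))) (B (K _ _ _ o1_s26888) (B (M (nat_lit 489) (B (lo19_15_2 (nat_lit 461)) (M (nat_lit 488) (B (M (nat_lit 520) (B (lo111_15_1 (nat_lit 519)) (lo112_15_1 (nat_lit 521)))) (M (nat_lit 456) (B (lo111_15_3 (nat_lit 455)) (lo112_15_3 (nat_lit 457)))))))) (M (nat_lit 489) (B (M (nat_lit 493) (B (M (nat_lit 521) (B (lo112_15_1 (nat_lit 520)) (lo113_15_1 (nat_lit 522)))) (M (nat_lit 457) (B (lo112_15_3 (nat_lit 456)) (lo113_15_3 (nat_lit 458)))))) (B (M (nat_lit 457) (B (lo112_15_3 (nat_lit 456)) (M (nat_lit 458) (B (lo113_15_3 (nat_lit 493)) (M (nat_lit 426) (B (lo113_13_1 (nat_lit 427)) (M (nat_lit 521) (B (lo19_17_6 (nat_lit 553)) (lo110_12_5 (nat_lit 394)))))))))) (B (M (nat_lit 521) (B (lo112_15_1 (nat_lit 520)) (M (nat_lit 458) (B (M (nat_lit 493) (B (lo113_15_1 (nat_lit 522)) (lo113_15_3 (nat_lit 457)))) (B (M (nat_lit 426) (B (lo110_12_5 (nat_lit 394)) (M (nat_lit 553) (B (lo19_18_6 (nat_lit 585)) (lo110_13_5 (nat_lit 522)))))) (M (nat_lit 426) (B (lo110_12_5 (nat_lit 394)) (M (nat_lit 553) (B (lo19_18_6 (nat_lit 585)) (lo19_17_6 (nat_lit 457))))))))))) (B (M (nat_lit 457) (B (lo112_15_3 (nat_lit 456)) (M (nat_lit 458) (B (lo113_15_3 (nat_lit 493)) (M (nat_lit 426) (B (lo113_13_1 (nat_lit 427)) (M (nat_lit 394) (B (lo110_11_5 (nat_lit 362)) (lo110_12_4 (nat_lit 523)))))))))) (B (M (nat_lit 488) (B (M (nat_lit 520) (B (lo111_15_1 (nat_lit 519)) (lo112_15_1 (nat_lit 521)))) (B (M (nat_lit 521) (B (lo112_15_1 (nat_lit 520)) (M (nat_lit 522) (B (lo113_15_1 (nat_lit 493)) (M (nat_lit 487) (B (lo16_15_0 (nat_lit 486)) (lo17_15_0 (nat_lit 523)))))))) (B (M (nat_lit 487) (B (M (nat_lit 455) (B (lo110_15_3 (nat_lit 454)) (lo111_15_3 (nat_lit 456)))) (M (nat_lit 522) (B (lo17_15_0 (nat_lit 523)) (M (nat_lit 521) (B (lo16_15_0 (nat_lit 486)) (lo113_15_1 (nat_lit 493)))))))) (M (nat_lit 487) (B (M (nat_lit 519) (B (lo110_15_1 (nat_lit 518)) (lo111_15_1 (nat_lit 520)))) (M (nat_lit 455) (B (lo110_15_3 (nat_lit 454)) (lo111_15_3 (nat_lit 456)))))))))) (M (nat_lit 488) (B (M (nat_lit 520) (B (lo111_15_1 (nat_lit 519)) (lo112_15_1 (nat_lit 521)))) (M (nat_lit 456) (B (lo111_15_3 (nat_lit 455)) (lo112_15_3 (nat_lit 457)))))))))))))))) (K _ _ _ o1_s26940)))))) (B (K _ _ _ o1_s26950) (B (M (nat_lit 490) (B (M (nat_lit 458) (B (M (nat_lit 457) (B (lo113_15_3 (nat_lit 493)) (M (nat_lit 456) (B (lo17_14_0 (nat_lit 455)) (lo18_14_0 (nat_lit 459)))))) (B (M (nat_lit 457) (B (lo113_15_3 (nat_lit 493)) (M (nat_lit 456) (B (lo112_15_3 (nat_lit 489)) (lo18_14_0 (nat_lit 459)))))) (B (M (nat_lit 493) (B (lo113_15_3 (nat_lit 457)) (M (nat_lit 494) (B (lo114_15_3 (nat_lit 459)) (M (nat_lit 522) (B (lo113_15_1 (nat_lit 521)) (lo114_15_1 (nat_lit 523)))))))) (B (M (nat_lit 493) (B (M (nat_lit 494) (B (lo114_15_3 (nat_lit 459)) (M (nat_lit 522) (B (lo113_15_1 (nat_lit 521)) (lo114_15_1 (nat_lit 523)))))) (B (M (nat_lit 494) (B (lo114_15_3 (nat_lit 459)) (M (nat_lit 526) (B (lo110_15_0 (nat_lit 525)) (lo111_15_0 (nat_lit 527)))))) (B (M (nat_lit 494) (B (M (nat_lit 522) (B (lo113_15_1 (nat_lit 521)) (lo114_15_1 (nat_lit 523)))) (M (nat_lit 526) (B (lo110_15_0 (nat_lit 525)) (lo111_15_0 (nat_lit 527)))))) (M (nat_lit 489) (B (M (nat_lit 521) (B (lo112_15_1 (nat_lit 520)) (lo113_15_1 (nat_lit 522)))) (M (nat_lit 461) (B (lo19_15_2 (nat_lit 460)) (lo110_15_2 (nat_lit 462)))))))))) (B (M (nat_lit 457) (B (lo113_15_3 (nat_lit 493)) (M (nat_lit 456) (B (lo17_14_0 (nat_lit 455)) (lo112_15_3 (nat_lit 489)))))) (K _ _ _ o1_s26990))))))) (B (M (nat_lit 493) (B (M (nat_lit 489) (B (M (nat_lit 457) (B (lo112_15_3 (nat_lit 456)) (lo113_15_3 (nat_lit 458)))) (M (nat_lit 461) (B (lo19_15_2 (nat_lit 460)) (lo110_15_2 (nat_lit 462)))))) (B (M (nat_lit 489) (B (M (nat_lit 521) (B (lo112_15_1 (nat_lit 520)) (lo113_15_1 (nat_lit 522)))) (M (nat_lit 461) (B (lo19_15_2 (nat_lit 460)) (lo110_15_2 (nat_lit 462)))))) (B (M (nat_lit 494) (B (M (nat_lit 522) (B (lo113_15_1 (nat_lit 521)) (lo114_15_1 (nat_lit 523)))) (M (nat_lit 462) (B (lo110_15_2 (nat_lit 461)) (lo111_15_2 (nat_lit 463)))))) (M (nat_lit 489) (B (M (nat_lit 521) (B (lo112_15_1 (nat_lit 520)) (lo113_15_1 (nat_lit 522)))) (M (nat_lit 457) (B (lo112_15_3 (nat_lit 456)) (lo113_15_3 (nat_lit 458)))))))))) (B (M (nat_lit 493) (B (M (nat_lit 494) (B (M (nat_lit 522) (B (lo113_15_1 (nat_lit 521)) (lo114_15_1 (nat_lit 523)))) (M (nat_lit 526) (B (lo110_15_0 (nat_lit 525)) (lo111_15_0 (nat_lit 527)))))) (B (M (nat_lit 494) (B (M (nat_lit 526) (B (lo110_15_0 (nat_lit 525)) (lo111_15_0 (nat_lit 527)))) (M (nat_lit 462) (B (lo110_15_2 (nat_lit 461)) (lo111_15_2 (nat_lit 463)))))) (B (M (nat_lit 494) (B (M (nat_lit 522) (B (lo113_15_1 (nat_lit 521)) (lo114_15_1 (nat_lit 523)))) (M (nat_lit 462) (B (lo110_15_2 (nat_lit 461)) (lo111_15_2 (nat_lit 463)))))) (M (nat_lit 489) (B (M (nat_lit 457) (B (lo112_15_3 (nat_lit 456)) (lo113_15_3 (nat_lit 458)))) (M (nat_lit 461) (B (lo19_15_2 (nat_lit 460)) (lo110_15_2 (nat_lit 462)))))))))) (B (M (nat_lit 493) (B (M (nat_lit 494) (B (M (nat_lit 522) (B (lo113_15_1 (nat_lit 521)) (lo114_15_1 (nat_lit 523)))) (M (nat_lit 526) (B (lo110_15_0 (nat_lit 525)) (lo111_15_0 (nat_lit 527)))))) (B (M (nat_lit 494) (B (M (nat_lit 458) (B (lo113_15_3 (nat_lit 457)) (lo114_15_3 (nat_lit 459)))) (M (nat_lit 462) (B (lo110_15_2 (nat_lit 461)) (lo111_15_2 (nat_lit 463)))))) (M (nat_lit 489) (B (M (nat_lit 521) (B (lo112_15_1 (nat_lit 520)) (lo113_15_1 (nat_lit 522)))) (M (nat_lit 461) (B (lo19_15_2 (nat_lit 460)) (lo110_15_2 (nat_lit 462))))))))) (B (M (nat_lit 493) (B (M (nat_lit 494) (B (M (nat_lit 458) (B (lo113_15_3 (nat_lit 457)) (lo114_15_3 (nat_lit 459)))) (M (nat_lit 526) (B (lo110_15_0 (nat_lit 525)) (lo111_15_0 (nat_lit 527)))))) (B (M (nat_lit 494) (B (M (nat_lit 526) (B (lo110_15_0 (nat_lit 525)) (lo111_15_0 (nat_lit 527)))) (M (nat_lit 462) (B (lo110_15_2 (nat_lit 461)) (lo111_15_2 (nat_lit 463)))))) (B (M (nat_lit 494) (B (M (nat_lit 458) (B (lo113_15_3 (nat_lit 457)) (lo114_15_3 (nat_lit 459)))) (M (nat_lit 462) (B (lo110_15_2 (nat_lit 461)) (lo111_15_2 (nat_lit 463)))))) (M (nat_lit 489) (B (M (nat_lit 457) (B (lo112_15_3 (nat_lit 456)) (lo113_15_3 (nat_lit 458)))) (M (nat_lit 461) (B (lo19_15_2 (nat_lit 460)) (lo110_15_2 (nat_lit 462)))))))))) (B (M (nat_lit 458) (B (M (nat_lit 457) (B (lo113_15_3 (nat_lit 493)) (M (nat_lit 456) (B (lo17_14_0 (nat_lit 455)) (lo18_14_0 (nat_lit 459)))))) (B (M (nat_lit 493) (B (lo113_15_3 (nat_lit 457)) (M (nat_lit 494) (B (lo114_15_3 (nat_lit 459)) (M (nat_lit 522) (B (lo113_15_1 (nat_lit 521)) (lo114_15_1 (nat_lit 523)))))))) (B (M (nat_lit 522) (B (M (nat_lit 493) (B (lo113_15_1 (nat_lit 521)) (M (nat_lit 494) (B (lo114_15_1 (nat_lit 523)) (lo114_15_3 (nat_lit 459)))))) (B (M (nat_lit 426) (B (M (nat_lit 523) (B (lo110_13_4 (nat_lit 555)) (lo110_12_4 (nat_lit 394)))) (B (M (nat_lit 554) (B (M (nat_lit 555) (B (lo110_14_4 (nat_lit 587)) (lo110_13_4 (nat_lit 523)))) (M (nat_lit 427) (B (lo110_17_6 (nat_lit 459)) (lo110_16_6 (nat_lit 395)))))) (M (nat_lit 427) (B (lo110_16_6 (nat_lit 395)) (M (nat_lit 393) (B (lo110_16_7 (nat_lit 425)) (lo113_13_3 (nat_lit 394))))))))) (B (M (nat_lit 459) (B (M (nat_lit 427) (B (lo110_17_6 (nat_lit 554)) (lo111_12_5 (nat_lit 395)))) (M (nat_lit 493) (B (lo113_15_1 (nat_lit 521)) (lo114_15_3 (nat_lit 494)))))) (M (nat_lit 426) (B (M (nat_lit 521) (B (lo110_13_5 (nat_lit 553)) (lo113_15_1 (nat_lit 493)))) (M (nat_lit 523) (B (lo110_13_4 (nat_lit 555)) (lo110_12_4 (nat_lit 394)))))))))) (B (M (nat_lit 522) (B (M (nat_lit 493) (B (lo113_15_1 (nat_lit 521)) (lo113_15_3 (nat_lit 457)))) (B (M (nat_lit 426) (B (M (nat_lit 457) (B (lo113_15_3 (nat_lit 493)) (lo113_13_1 (nat_lit 427)))) (M (nat_lit 523) (B (lo110_13_4 (nat_lit 555)) (lo110_12_4 (nat_lit 394)))))) (B (M (nat_lit 426) (B (M (nat_lit 521) (B (lo110_13_5 (nat_lit 553)) (lo113_15_1 (nat_lit 493)))) (M (nat_lit 523) (B (lo110_13_4 (nat_lit 555)) (lo110_12_4 (nat_lit 394)))))) (M (nat_lit 426) (B (M (nat_lit 427) (B (lo113_13_1 (nat_lit 457)) (lo110_16_6 (nat_lit 395)))) (M (nat_lit 523) (B (lo110_13_4 (nat_lit 555)) (lo110_12_4 (nat_lit 394)))))))))) (K _ _ _ o1_s26990)))))) (B (M (nat_lit 493) (B (M (nat_lit 494) (B (M (nat_lit 522) (B (lo113_15_1 (nat_lit 521)) (lo114_15_1 (nat_lit 523)))) (M (nat_lit 526) (B (lo110_15_0 (nat_lit 525)) (lo111_15_0 (nat_lit 527)))))) (B (M (nat_lit 494) (B (M (nat_lit 526) (B (lo110_15_0 (nat_lit 525)) (lo111_15_0 (nat_lit 527)))) (M (nat_lit 462) (B (lo110_15_2 (nat_lit 461)) (lo111_15_2 (nat_lit 463)))))) (B (M (nat_lit 494) (B (M (nat_lit 522) (B (lo113_15_1 (nat_lit 521)) (lo114_15_1 (nat_lit 523)))) (M (nat_lit 462) (B (lo110_15_2 (nat_lit 461)) (lo111_15_2 (nat_lit 463)))))) (M (nat_lit 489) (B (M (nat_lit 521) (B (lo112_15_1 (nat_lit 520)) (lo113_15_1 (nat_lit 522)))) (M (nat_lit 461) (B (lo19_15_2 (nat_lit 460)) (lo110_15_2 (nat_lit 462)))))))))) (M (nat_lit 489) (B (M (nat_lit 456) (B (lo112_15_3 (nat_lit 457)) (M (nat_lit 488) (B (lo111_15_3 (nat_lit 455)) (M (nat_lit 520) (B (lo111_15_1 (nat_lit 519)) (lo112_15_1 (nat_lit 521)))))))) (B (M (nat_lit 488) (B (M (nat_lit 456) (B (lo111_15_3 (nat_lit 455)) (lo112_15_3 (nat_lit 457)))) (M (nat_lit 460) (B (lo18_15_2 (nat_lit 459)) (lo19_15_2 (nat_lit 461)))))) (B (M (nat_lit 488) (B (M (nat_lit 520) (B (lo111_15_1 (nat_lit 519)) (lo112_15_1 (nat_lit 521)))) (M (nat_lit 460) (B (lo18_15_2 (nat_lit 459)) (lo19_15_2 (nat_lit 461)))))) (M (nat_lit 458) (B (M (nat_lit 457) (B (lo112_15_3 (nat_lit 456)) (M (nat_lit 460) (B (lo19_15_2 (nat_lit 461)) (lo19_14_2 (nat_lit 459)))))) (M (nat_lit 521) (B (lo112_15_1 (nat_lit 520)) (M (nat_lit 426) (B (lo110_12_5 (nat_lit 394)) (M (nat_lit 553) (B (lo19_18_6 (nat_lit 585)) (lo110_13_5 (nat_lit 522)))))))))))))))))))))) (B (M (nat_lit 523) (B (M (nat_lit 460) (B (lo112_12_5 (nat_lit 396)) (M (nat_lit 555) (B (lo111_18_6 (nat_lit 587)) (lo111_17_6 (nat_lit 459)))))) (B (M (nat_lit 459) (B (M (nat_lit 460) (B (lo111_17_6 (nat_lit 555)) (lo112_12_5 (nat_lit 396)))) (B (M (nat_lit 396) (B (lo111_16_6 (nat_lit 427)) (lo112_12_5 (nat_lit 460)))) (B (M (nat_lit 427) (B (lo111_16_6 (nat_lit 396)) (M (nat_lit 426) (B (lo111_16_7 (nat_lit 394)) (M (nat_lit 458) (B (lo113_13_1 (nat_lit 457)) (lo111_17_7 (nat_lit 555)))))))) (M (nat_lit 555) (B (lo111_17_6 (nat_lit 460)) (M (nat_lit 427) (B (M (nat_lit 554) (B (lo111_14_5 (nat_lit 586)) (lo111_13_5 (nat_lit 522)))) (M (nat_lit 426) (B (lo111_17_7 (nat_lit 458)) (lo111_16_7 (nat_lit 394)))))))))))) (B (M (nat_lit 427) (B (M (nat_lit 396) (B (lo111_16_6 (nat_lit 459)) (lo112_12_5 (nat_lit 460)))) (B (M (nat_lit 426) (B (M (nat_lit 458) (B (lo113_13_1 (nat_lit 457)) (M (nat_lit 394) (B (lo113_13_3 (nat_lit 393)) (lo110_12_4 (nat_lit 490)))))) (B (M (nat_lit 425) (B (M (nat_lit 393) (B (lo112_13_3 (nat_lit 392)) (lo113_13_3 (nat_lit 394)))) (M (nat_lit 460) (B (lo19_13_0 (nat_lit 461)) (lo112_12_5 (nat_lit 396)))))) (M (nat_lit 425) (B (M (nat_lit 457) (B (lo112_13_1 (nat_lit 456)) (lo113_13_1 (nat_lit 458)))) (M (nat_lit 460) (B (lo19_13_0 (nat_lit 461)) (lo112_12_5 (nat_lit 396))))))))) (B (M (nat_lit 426) (B (M (nat_lit 394) (B (lo113_13_3 (nat_lit 393)) (lo111_16_7 (nat_lit 459)))) (B (M (nat_lit 459) (B (lo111_16_7 (nat_lit 394)) (lo111_16_6 (nat_lit 396)))) (B (M (nat_lit 425) (B (M (nat_lit 457) (B (lo112_13_1 (nat_lit 456)) (lo113_13_1 (nat_lit 458)))) (M (nat_lit 396) (B (lo19_13_2 (nat_lit 397)) (lo111_16_6 (nat_lit 459)))))) (M (nat_lit 425) (B (M (nat_lit 457) (B (lo112_13_1 (nat_lit 456)) (lo113_13_1 (nat_lit 458)))) (M (nat_lit 393) (B (lo112_13_3 (nat_lit 392)) (lo113_13_3 (nat_lit 394)))))))))) (M (nat_lit 426) (B (M (nat_lit 394) (B (lo113_13_3 (nat_lit 393)) (lo111_16_7 (nat_lit 459)))) (M (nat_lit 425) (B (M (nat_lit 457) (B (lo112_13_1 (nat_lit 456)) (lo113_13_1 (nat_lit 458)))) (M (nat_lit 461) (B (lo19_13_0 (nat_lit 460)) (lo110_13_0 (nat_lit 462)))))))))))) (B (M (nat_lit 490) (B (M (nat_lit 460) (B (lo112_12_5 (nat_lit 396)) (M (nat_lit 461) (B (lo19_15_2 (nat_lit 489)) (M (nat_lit 462) (B (lo110_15_2 (nat_lit 493)) (lo115_14_1 (nat_lit 463)))))))) (B (M (nat_lit 458) (B (M (nat_lit 457) (B (lo113_15_3 (nat_lit 493)) (M (nat_lit 426) (B (lo113_13_1 (nat_lit 427)) (lo110_12_4 (nat_lit 394)))))) (B (M (nat_lit 426) (B (lo110_12_4 (nat_lit 394)) (M (nat_lit 555) (B (lo110_13_4 (nat_lit 522)) (lo111_18_7 (nat_lit 587)))))) (M (nat_lit 493) (B (lo113_15_3 (nat_lit 457)) (M (nat_lit 522) (B (lo113_15_1 (nat_lit 521)) (lo114_15_1 (nat_lit 494))))))))) (M (nat_lit 489) (B (M (nat_lit 460) (B (lo19_15_2 (nat_lit 461)) (lo112_12_5 (nat_lit 396)))) (M (nat_lit 488) (B (M (nat_lit 520) (B (lo111_15_1 (nat_lit 519)) (lo112_15_1 (nat_lit 521)))) (M (nat_lit 456) (B (lo111_15_3 (nat_lit 455)) (lo112_15_3 (nat_lit 457))))))))))) (B (M (nat_lit 459) (B (M (nat_lit 427) (B (lo111_16_6 (nat_lit 396)) (M (nat_lit 426) (B (lo111_16_7 (nat_lit 394)) (M (nat_lit 458) (B (lo113_13_1 (nat_lit 457)) (lo111_17_7 (nat_lit 555)))))))) (B (M (nat_lit 427) (B (lo111_16_6 (nat_lit 396)) (M (nat_lit 555) (B (M (nat_lit 554) (B (lo111_14_5 (nat_lit 586)) (lo111_13_5 (nat_lit 522)))) (M (nat_lit 426) (B (lo111_17_7 (nat_lit 458)) (lo111_16_7 (nat_lit 394)))))))) (B (M (nat_lit 522) (B (M (nat_lit 427) (B (lo111_13_5 (nat_lit 554)) (lo111_16_6 (nat_lit 396)))) (M (nat_lit 521) (B (lo18_16_2 (nat_lit 520)) (M (nat_lit 493) (B (lo113_15_1 (nat_lit 490)) (lo114_15_1 (nat_lit 494)))))))) (M (nat_lit 458) (B (M (nat_lit 457) (B (lo18_14_0 (nat_lit 456)) (M (nat_lit 493) (B (lo113_15_3 (nat_lit 490)) (lo114_15_3 (nat_lit 494)))))) (B (M (nat_lit 490) (B (M (nat_lit 493) (B (lo113_15_3 (nat_lit 457)) (lo114_15_3 (nat_lit 494)))) (M (nat_lit 555) (B (lo111_18_7 (nat_lit 587)) (lo111_17_7 (nat_lit 426)))))) (B (M (nat_lit 555) (B (lo111_17_7 (nat_lit 426)) (M (nat_lit 587) (B (lo111_18_7 (nat_lit 490)) (M (nat_lit 586) (B (lo111_15_5 (nat_lit 618)) (lo111_14_5 (nat_lit 554)))))))) (M (nat_lit 555) (B (lo111_17_7 (nat_lit 426)) (M (nat_lit 587) (B (M (nat_lit 586) (B (lo111_15_5 (nat_lit 618)) (lo111_14_5 (nat_lit 554)))) (M (nat_lit 588) (B (lo111_15_4 (nat_lit 620)) (lo111_14_4 (nat_lit 556)))))))))))))))) (M (nat_lit 459) (B (M (nat_lit 555) (B (lo111_17_6 (nat_lit 460)) (M (nat_lit 458) (B (lo111_17_7 (nat_lit 426)) (M (nat_lit 587) (B (lo111_18_7 (nat_lit 490)) (M (nat_lit 586) (B (lo111_15_5 (nat_lit 618)) (lo111_14_5 (nat_lit 554)))))))))) (B (K _ _ _ o1_s27203) (B (M (nat_lit 555) (B (lo111_17_6 (nat_lit 460)) (M (nat_lit 587) (B (M (nat_lit 586) (B (lo111_15_5 (nat_lit 618)) (lo111_14_5 (nat_lit 554)))) (M (nat_lit 588) (B (lo111_15_4 (nat_lit 620)) (lo111_14_4 (nat_lit 556)))))))) (B (M (nat_lit 427) (B (M (nat_lit 522) (B (lo111_13_5 (nat_lit 554)) (M (nat_lit 493) (B (lo114_15_1 (nat_lit 494)) (M (nat_lit 521) (B (lo18_16_2 (nat_lit 520)) (lo113_15_1 (nat_lit 490)))))))) (M (nat_lit 426) (B (lo111_16_7 (nat_lit 394)) (M (nat_lit 425) (B (M (nat_lit 457) (B (lo112_13_1 (nat_lit 456)) (lo113_13_1 (nat_lit 458)))) (M (nat_lit 461) (B (lo19_13_0 (nat_lit 460)) (lo110_13_0 (nat_lit 462)))))))))) (K _ _ _ o1_s27226)))))))))))) (B (M (nat_lit 427) (B (M (nat_lit 459) (B (M (nat_lit 396) (B (lo111_16_6 (nat_lit 523)) (M (nat_lit 364) (B (lo111_15_6 (nat_lit 395)) (lo112_10_5 (nat_lit 332)))))) (B (K _ _ _ o1_s27234) (B (M (nat_lit 396) (B (lo111_16_6 (nat_lit 523)) (M (nat_lit 364) (B (lo112_11_5 (nat_lit 460)) (lo112_10_5 (nat_lit 332)))))) (M (nat_lit 395) (B (M (nat_lit 490) (B (lo111_12_5 (nat_lit 522)) (M (nat_lit 363) (B (lo111_11_5 (nat_lit 458)) (lo111_11_4 (nat_lit 460)))))) (M (nat_lit 394) (B (lo111_15_7 (nat_lit 362)) (M (nat_lit 426) (B (lo113_13_3 (nat_lit 393)) (lo111_16_7 (nat_lit 523)))))))))))) (B (M (nat_lit 396) (B (M (nat_lit 523) (B (lo111_16_6 (nat_lit 459)) (lo112_12_5 (nat_lit 460)))) (B (M (nat_lit 364) (B (M (nat_lit 459) (B (lo111_15_6 (nat_lit 395)) (lo112_11_5 (nat_lit 460)))) (B (M (nat_lit 332) (B (lo112_10_4 (nat_lit 461)) (M (nat_lit 300) (B (lo112_9_5 (nat_lit 395)) (lo112_9_4 (nat_lit 397)))))) (M (nat_lit 332) (B (lo112_10_5 (nat_lit 459)) (lo112_10_4 (nat_lit 461))))))) (B (M (nat_lit 460) (B (lo112_12_5 (nat_lit 523)) (M (nat_lit 364) (B (M (nat_lit 363) (B (lo112_15_7 (nat_lit 395)) (lo112_14_7 (nat_lit 331)))) (M (nat_lit 365) (B (lo112_15_6 (nat_lit 397)) (lo112_14_6 (nat_lit 333)))))))) (M (nat_lit 459) (B (lo111_16_6 (nat_lit 523)) (M (nat_lit 364) (B (lo111_15_6 (nat_lit 395)) (lo112_10_5 (nat_lit 332)))))))))) (B (M (nat_lit 426) (B (M (nat_lit 461) (B (lo110_13_0 (nat_lit 462)) (M (nat_lit 425) (B (lo19_13_0 (nat_lit 460)) (M (nat_lit 393) (B (lo112_13_3 (nat_lit 392)) (lo113_13_3 (nat_lit 394)))))))) (B (M (nat_lit 425) (B (M (nat_lit 457) (B (lo112_13_1 (nat_lit 456)) (lo113_13_1 (nat_lit 458)))) (M (nat_lit 461) (B (lo19_13_0 (nat_lit 460)) (lo110_13_0 (nat_lit 462)))))) (B (K _ _ _ o1_s27308) (M (nat_lit 425) (B (M (nat_lit 457) (B (lo112_13_1 (nat_lit 456)) (lo113_13_1 (nat_lit 458)))) (M (nat_lit 393) (B (lo112_13_3 (nat_lit 392)) (lo113_13_3 (nat_lit 394)))))))))) (B (M (nat_lit 426) (B (M (nat_lit 461) (B (lo110_13_0 (nat_lit 462)) (M (nat_lit 425) (B (lo19_13_0 (nat_lit 460)) (M (nat_lit 393) (B (lo112_13_3 (nat_lit 392)) (lo113_13_3 (nat_lit 394)))))))) (B (M (nat_lit 425) (B (M (nat_lit 457) (B (lo112_13_1 (nat_lit 456)) (lo113_13_1 (nat_lit 458)))) (M (nat_lit 461) (B (lo19_13_0 (nat_lit 460)) (lo110_13_0 (nat_lit 462)))))) (M (nat_lit 458) (B (lo113_13_1 (nat_lit 457)) (M (nat_lit 394) (B (lo113_13_3 (nat_lit 393)) (M (nat_lit 490) (B (lo110_12_4 (nat_lit 523)) (M (nat_lit 395) (B (lo110_16_6 (nat_lit 522)) (lo110_15_6 (nat_lit 363))))))))))))) (B (M (nat_lit 459) (B (M (nat_lit 396) (B (lo111_16_6 (nat_lit 523)) (M (nat_lit 364) (B (lo112_11_5 (nat_lit 460)) (lo112_10_5 (nat_lit 332)))))) (B (M (nat_lit 426) (B (M (nat_lit 394) (B (lo113_13_3 (nat_lit 393)) (M (nat_lit 458) (B (lo113_13_1 (nat_lit 457)) (lo110_11_4 (nat_lit 362)))))) (B (M (nat_lit 425) (B (M (nat_lit 393) (B (lo112_13_3 (nat_lit 392)) (lo113_13_3 (nat_lit 394)))) (M (nat_lit 461) (B (lo19_13_0 (nat_lit 460)) (lo110_13_0 (nat_lit 462)))))) (M (nat_lit 425) (B (M (nat_lit 457) (B (lo112_13_1 (nat_lit 456)) (lo113_13_1 (nat_lit 458)))) (M (nat_lit 461) (B (lo19_13_0 (nat_lit 460)) (lo110_13_0 (nat_lit 462))))))))) (M (nat_lit 523) (B (lo111_16_6 (nat_lit 396)) (M (nat_lit 426) (B (lo111_16_7 (nat_lit 394)) (M (nat_lit 458) (B (lo113_13_1 (nat_lit 457)) (lo111_17_7 (nat_lit 555))))))))))) (K _ _ _ o1_s27346))))))) (M (nat_lit 459) (B (K _ _ _ o1_s27356) (B (K _ _ _ o1_s27399) (B (K _ _ _ o1_s27490) (B (M (nat_lit 427) (B (M (nat_lit 396) (B (lo111_16_6 (nat_lit 523)) (M (nat_lit 364) (B (lo111_15_6 (nat_lit 395)) (lo112_10_5 (nat_lit 332)))))) (B (K _ _ _ o1_s27341) (B (M (nat_lit 523) (B (lo111_16_6 (nat_lit 396)) (M (nat_lit 426) (B (lo111_16_7 (nat_lit 394)) (M (nat_lit 458) (B (lo113_13_1 (nat_lit 457)) (lo111_17_7 (nat_lit 555)))))))) (K _ _ _ o1_s27504))))) (M (nat_lit 490) (B (K _ _ _ o1_s27508) (B (K _ _ _ o1_s27516) (B (K _ _ _ o1_s27539) (B (M (nat_lit 522) (B (M (nat_lit 554) (B (lo110_18_6 (nat_lit 586)) (M (nat_lit 427) (B (lo110_17_6 (nat_lit 458)) (lo111_12_5 (nat_lit 395)))))) (M (nat_lit 521) (B (lo113_15_1 (nat_lit 493)) (M (nat_lit 520) (B (lo17_16_2 (nat_lit 519)) (lo18_16_2 (nat_lit 523)))))))) (B (M (nat_lit 457) (B (M (nat_lit 456) (B (lo112_15_3 (nat_lit 489)) (lo18_14_0 (nat_lit 458)))) (B (M (nat_lit 458) (B (lo113_15_3 (nat_lit 493)) (lo19_14_2 (nat_lit 460)))) (M (nat_lit 489) (B (lo112_15_3 (nat_lit 456)) (M (nat_lit 520) (B (lo112_15_1 (nat_lit 521)) (M (nat_lit 488) (B (lo111_15_1 (nat_lit 519)) (lo18_15_2 (nat_lit 460))))))))))) (B (K _ _ _ o1_s27569) (K _ _ _ o1_s27573))))))))))))))))))))))))))) (B (M (nat_lit 493) (B (K _ _ _ o1_s26327) (B (M (nat_lit 461) (B (M (nat_lit 396) (B (lo113_16_7 (nat_lit 525)) (M (nat_lit 364) (B (lo112_10_4 (nat_lit 332)) (lo113_15_7 (nat_lit 397)))))) (B (K _ _ _ o1_s27584) (K _ _ _ o1_s26468)))) (B (M (nat_lit 491) (B (K _ _ _ o1_s26944) (B (K _ _ _ o1_s26659) (B (M (nat_lit 396) (B (M (nat_lit 461) (B (lo113_16_7 (nat_lit 525)) (M (nat_lit 364) (B (lo112_10_4 (nat_lit 332)) (lo113_15_7 (nat_lit 397)))))) (B (K _ _ _ o1_s26769) (K _ _ _ o1_s26777)))) (B (K _ _ _ o1_s26679) (B (K _ _ _ o1_s26947) (B (K _ _ _ o1_s26811) (M (nat_lit 396) (B (M (nat_lit 461) (B (lo113_16_7 (nat_lit 525)) (M (nat_lit 364) (B (lo112_10_4 (nat_lit 332)) (lo113_15_7 (nat_lit 397)))))) (B (M (nat_lit 494) (B (M (nat_lit 526) (B (lo111_15_0 (nat_lit 527)) (M (nat_lit 525) (B (lo110_15_0 (nat_lit 490)) (lo113_16_7 (nat_lit 461)))))) (M (nat_lit 523) (B (lo114_15_1 (nat_lit 522)) (M (nat_lit 459) (B (lo114_15_3 (nat_lit 458)) (lo111_16_6 (nat_lit 427)))))))) (M (nat_lit 459) (B (M (nat_lit 458) (B (lo114_15_3 (nat_lit 494)) (M (nat_lit 457) (B (lo18_14_0 (nat_lit 456)) (lo113_15_3 (nat_lit 490)))))) (M (nat_lit 427) (B (lo111_16_6 (nat_lit 523)) (M (nat_lit 364) (B (lo111_15_6 (nat_lit 395)) (lo112_10_5 (nat_lit 332)))))))))))))))))) (B (M (nat_lit 494) (B (M (nat_lit 526) (B (M (nat_lit 461) (B (lo113_12_4 (nat_lit 397)) (M (nat_lit 558) (B (lo113_13_4 (nat_lit 525)) (lo114_18_7 (nat_lit 590)))))) (B (M (nat_lit 461) (B (lo113_12_4 (nat_lit 397)) (M (nat_lit 558) (B (lo114_18_7 (nat_lit 590)) (lo114_17_7 (nat_lit 462)))))) (M (nat_lit 527) (B (lo111_15_0 (nat_lit 491)) (M (nat_lit 528) (B (lo116_16_3 (nat_lit 525)) (lo112_15_0 (nat_lit 495))))))))) (B (M (nat_lit 495) (B (M (nat_lit 496) (B (M (nat_lit 524) (B (lo115_15_1 (nat_lit 523)) (lo116_15_1 (nat_lit 525)))) (M (nat_lit 528) (B (lo112_15_0 (nat_lit 527)) (lo113_15_0 (nat_lit 529)))))) (B (M (nat_lit 496) (B (M (nat_lit 528) (B (lo112_15_0 (nat_lit 527)) (lo113_15_0 (nat_lit 529)))) (M (nat_lit 464) (B (lo112_15_2 (nat_lit 463)) (lo113_15_2 (nat_lit 465)))))) (B (M (nat_lit 496) (B (M (nat_lit 524) (B (lo115_15_1 (nat_lit 523)) (lo116_15_1 (nat_lit 525)))) (M (nat_lit 464) (B (lo112_15_2 (nat_lit 463)) (lo113_15_2 (nat_lit 465)))))) (M (nat_lit 524) (B (lo115_15_1 (nat_lit 523)) (M (nat_lit 461) (B (lo113_12_5 (nat_lit 397)) (M (nat_lit 556) (B (lo112_18_6 (nat_lit 588)) (lo113_13_5 (nat_lit 525)))))))))))) (B (M (nat_lit 526) (B (M (nat_lit 461) (B (lo113_12_4 (nat_lit 397)) (M (nat_lit 558) (B (lo114_18_7 (nat_lit 590)) (lo114_17_7 (nat_lit 462)))))) (M (nat_lit 527) (B (lo111_15_0 (nat_lit 491)) (M (nat_lit 528) (B (lo112_15_0 (nat_lit 495)) (lo117_16_3 (nat_lit 529)))))))) (B (M (nat_lit 491) (B (M (nat_lit 490) (B (M (nat_lit 458) (B (lo113_15_3 (nat_lit 457)) (lo114_15_3 (nat_lit 459)))) (M (nat_lit 526) (B (lo110_15_0 (nat_lit 525)) (lo111_15_0 (nat_lit 527)))))) (B (M (nat_lit 490) (B (M (nat_lit 522) (B (lo113_15_1 (nat_lit 521)) (lo114_15_1 (nat_lit 523)))) (M (nat_lit 526) (B (lo110_15_0 (nat_lit 525)) (lo111_15_0 (nat_lit 527)))))) (M (nat_lit 495) (B (M (nat_lit 523) (B (lo114_15_1 (nat_lit 522)) (lo115_15_1 (nat_lit 524)))) (M (nat_lit 463) (B (lo111_15_2 (nat_lit 462)) (lo112_15_2 (nat_lit 464))))))))) (B (M (nat_lit 524) (B (M (nat_lit 523) (B (lo115_15_1 (nat_lit 495)) (M (nat_lit 522) (B (lo19_16_2 (nat_lit 521)) (lo110_16_2 (nat_lit 525)))))) (B (M (nat_lit 523) (B (lo115_15_1 (nat_lit 495)) (M (nat_lit 522) (B (lo114_15_1 (nat_lit 491)) (lo110_16_2 (nat_lit 525)))))) (B (M (nat_lit 461) (B (lo113_12_5 (nat_lit 397)) (M (nat_lit 556) (B (lo112_18_6 (nat_lit 588)) (lo113_13_5 (nat_lit 525)))))) (M (nat_lit 523) (B (lo115_15_1 (nat_lit 495)) (M (nat_lit 522) (B (lo19_16_2 (nat_lit 521)) (lo114_15_1 (nat_lit 491)))))))))) (K _ _ _ o1_s27640))))))) (B (M (nat_lit 461) (B (K _ _ _ o1_s26317) (B (M (nat_lit 396) (B (M (nat_lit 364) (B (lo112_10_4 (nat_lit 332)) (lo113_15_7 (nat_lit 397)))) (B (M (nat_lit 491) (B (M (nat_lit 462) (B (lo110_15_2 (nat_lit 490)) (M (nat_lit 463) (B (lo111_15_2 (nat_lit 494)) (lo116_14_1 (nat_lit 464)))))) (B (M (nat_lit 494) (B (M (nat_lit 526) (B (lo111_15_0 (nat_lit 527)) (lo113_12_4 (nat_lit 397)))) (M (nat_lit 523) (B (lo114_15_1 (nat_lit 522)) (M (nat_lit 459) (B (lo114_15_3 (nat_lit 458)) (lo111_16_6 (nat_lit 427)))))))) (K _ _ _ o1_s27661)))) (M (nat_lit 491) (B (M (nat_lit 462) (B (lo110_15_2 (nat_lit 490)) (M (nat_lit 463) (B (lo111_15_2 (nat_lit 494)) (lo116_14_1 (nat_lit 464)))))) (B (M (nat_lit 494) (B (M (nat_lit 523) (B (lo114_15_1 (nat_lit 522)) (M (nat_lit 459) (B (lo114_15_3 (nat_lit 458)) (lo111_16_6 (nat_lit 427)))))) (M (nat_lit 462) (B (lo111_15_2 (nat_lit 463)) (M (nat_lit 526) (B (lo111_15_0 (nat_lit 527)) (lo114_17_7 (nat_lit 558)))))))) (B (K _ _ _ o1_s27661) (M (nat_lit 459) (B (M (nat_lit 458) (B (lo114_15_3 (nat_lit 494)) (M (nat_lit 457) (B (lo18_14_0 (nat_lit 456)) (lo113_15_3 (nat_lit 490)))))) (M (nat_lit 427) (B (lo111_16_6 (nat_lit 523)) (M (nat_lit 364) (B (lo111_15_6 (nat_lit 395)) (lo112_10_5 (nat_lit 332))))))))))))))) (B (K _ _ _ o1_s27584) (B (M (nat_lit 491) (B (M (nat_lit 462) (B (lo110_15_2 (nat_lit 490)) (M (nat_lit 463) (B (lo111_15_2 (nat_lit 494)) (lo116_14_1 (nat_lit 464)))))) (B (M (nat_lit 494) (B (M (nat_lit 462) (B (lo111_15_2 (nat_lit 463)) (M (nat_lit 526) (B (lo111_15_0 (nat_lit 527)) (lo114_17_7 (nat_lit 558)))))) (B (M (nat_lit 495) (B (M (nat_lit 523) (B (lo114_15_1 (nat_lit 522)) (lo115_15_1 (nat_lit 524)))) (M (nat_lit 463) (B (lo111_15_2 (nat_lit 462)) (lo112_15_2 (nat_lit 464)))))) (M (nat_lit 495) (B (M (nat_lit 523) (B (lo114_15_1 (nat_lit 522)) (lo115_15_1 (nat_lit 524)))) (M (nat_lit 527) (B (lo111_15_0 (nat_lit 526)) (lo112_15_0 (nat_lit 528))))))))) (B (M (nat_lit 490) (B (lo110_15_2 (nat_lit 462)) (M (nat_lit 489) (B (M (nat_lit 521) (B (lo112_15_1 (nat_lit 520)) (lo113_15_1 (nat_lit 522)))) (M (nat_lit 457) (B (lo112_15_3 (nat_lit 456)) (lo113_15_3 (nat_lit 458)))))))) (M (nat_lit 459) (B (M (nat_lit 458) (B (lo114_15_3 (nat_lit 494)) (M (nat_lit 457) (B (lo18_14_0 (nat_lit 456)) (lo113_15_3 (nat_lit 490)))))) (B (M (nat_lit 427) (B (M (nat_lit 458) (B (lo114_15_3 (nat_lit 494)) (M (nat_lit 457) (B (lo113_15_3 (nat_lit 490)) (lo113_13_1 (nat_lit 426)))))) (M (nat_lit 523) (B (lo111_16_6 (nat_lit 396)) (M (nat_lit 524) (B (lo111_13_4 (nat_lit 556)) (lo111_12_4 (nat_lit 395)))))))) (B (M (nat_lit 523) (B (M (nat_lit 494) (B (lo114_15_1 (nat_lit 522)) (lo114_15_3 (nat_lit 458)))) (M (nat_lit 427) (B (lo111_16_6 (nat_lit 396)) (M (nat_lit 524) (B (lo111_13_4 (nat_lit 556)) (lo111_12_4 (nat_lit 395)))))))) (B (M (nat_lit 523) (B (M (nat_lit 522) (B (lo114_15_1 (nat_lit 494)) (M (nat_lit 427) (B (lo111_13_5 (nat_lit 554)) (lo111_16_6 (nat_lit 396)))))) (B (M (nat_lit 522) (B (lo114_15_1 (nat_lit 494)) (M (nat_lit 521) (B (lo18_16_2 (nat_lit 520)) (lo19_16_2 (nat_lit 524)))))) (M (nat_lit 427) (B (lo111_16_6 (nat_lit 396)) (M (nat_lit 524) (B (lo111_13_4 (nat_lit 556)) (lo111_12_4 (nat_lit 395))))))))) (M (nat_lit 427) (B (M (nat_lit 523) (B (lo111_16_6 (nat_lit 396)) (M (nat_lit 524) (B (lo111_13_4 (nat_lit 556)) (lo111_12_4 (nat_lit 395)))))) (B (M (nat_lit 395) (B (lo111_12_4 (nat_lit 524)) (M (nat_lit 396) (B (lo111_15_6 (nat_lit 364)) (M (nat_lit 394) (B (lo19_12_0 (nat_lit 393)) (lo111_15_7 (nat_lit 362)))))))) (B (M (nat_lit 523) (B (lo111_16_6 (nat_lit 396)) (M (nat_lit 522) (B (lo111_13_5 (nat_lit 554)) (M (nat_lit 524) (B (lo19_16_2 (nat_lit 521)) (lo111_13_4 (nat_lit 556)))))))) (B (M (nat_lit 522) (B (M (nat_lit 523) (B (lo111_13_5 (nat_lit 554)) (lo111_16_6 (nat_lit 396)))) (M (nat_lit 490) (B (lo113_15_1 (nat_lit 521)) (lo111_12_5 (nat_lit 395)))))) (M (nat_lit 394) (B (M (nat_lit 426) (B (lo113_13_3 (nat_lit 393)) (lo111_16_7 (nat_lit 523)))) (M (nat_lit 395) (B (lo111_15_7 (nat_lit 362)) (lo111_12_4 (nat_lit 524)))))))))))))))))))) (B (M (nat_lit 396) (B (M (nat_lit 364) (B (lo112_10_4 (nat_lit 332)) (lo113_15_7 (nat_lit 397)))) (B (M (nat_lit 491) (B (M (nat_lit 462) (B (lo110_15_2 (nat_lit 490)) (M (nat_lit 463) (B (lo111_15_2 (nat_lit 494)) (lo116_14_1 (nat_lit 464)))))) (B (M (nat_lit 494) (B (M (nat_lit 397) (B (lo113_12_5 (nat_lit 524)) (M (nat_lit 462) (B (lo111_15_2 (nat_lit 463)) (lo113_11_4 (nat_lit 365)))))) (M (nat_lit 523) (B (lo114_15_1 (nat_lit 522)) (M (nat_lit 459) (B (lo114_15_3 (nat_lit 458)) (lo111_16_6 (nat_lit 427)))))))) (B (K _ _ _ o1_s27661) (M (nat_lit 459) (B (M (nat_lit 458) (B (lo114_15_3 (nat_lit 494)) (M (nat_lit 457) (B (lo18_14_0 (nat_lit 456)) (lo113_15_3 (nat_lit 490)))))) (M (nat_lit 427) (B (lo111_16_6 (nat_lit 523)) (M (nat_lit 524) (B (lo111_12_4 (nat_lit 395)) (lo113_12_5 (nat_lit 397)))))))))))) (M (nat_lit 491) (B (M (nat_lit 462) (B (lo110_15_2 (nat_lit 490)) (M (nat_lit 463) (B (lo111_15_2 (nat_lit 494)) (lo116_14_1 (nat_lit 464)))))) (B (M (nat_lit 427) (B (M (nat_lit 462) (B (lo110_13_0 (nat_lit 426)) (M (nat_lit 463) (B (lo111_15_2 (nat_lit 494)) (lo116_14_1 (nat_lit 464)))))) (M (nat_lit 459) (B (lo111_16_6 (nat_lit 523)) (M (nat_lit 395) (B (lo111_12_4 (nat_lit 524)) (lo111_15_6 (nat_lit 364)))))))) (B (M (nat_lit 427) (B (M (nat_lit 462) (B (lo110_15_2 (nat_lit 490)) (lo110_13_0 (nat_lit 426)))) (M (nat_lit 459) (B (lo111_16_6 (nat_lit 523)) (M (nat_lit 395) (B (lo111_12_4 (nat_lit 524)) (lo111_15_6 (nat_lit 364)))))))) (M (nat_lit 459) (B (M (nat_lit 458) (B (lo114_15_3 (nat_lit 494)) (M (nat_lit 457) (B (lo18_14_0 (nat_lit 456)) (lo113_15_3 (nat_lit 490)))))) (M (nat_lit 427) (B (lo111_16_6 (nat_lit 523)) (M (nat_lit 395) (B (lo111_12_4 (nat_lit 524)) (lo111_15_6 (nat_lit 364))))))))))))))) (K _ _ _ o1_s27793))))))) (B (M (nat_lit 491) (B (K _ _ _ o1_s27795) (B (K _ _ _ o1_s27797) (B (K _ _ _ o1_s27816) (B (K _ _ _ o1_s27824) (B (K _ _ _ o1_s27830) (B (K _ _ _ o1_s26949) (B (M (nat_lit 459) (B (M (nat_lit 458) (B (lo114_15_3 (nat_lit 494)) (M (nat_lit 457) (B (lo18_14_0 (nat_lit 456)) (lo113_15_3 (nat_lit 490)))))) (B (K _ _ _ o1_s27840) (B (K _ _ _ o1_s27844) (B (M (nat_lit 523) (B (M (nat_lit 522) (B (lo114_15_1 (nat_lit 494)) (M (nat_lit 427) (B (lo111_13_5 (nat_lit 554)) (lo111_16_6 (nat_lit 396)))))) (B (M (nat_lit 522) (B (lo114_15_1 (nat_lit 494)) (M (nat_lit 521) (B (lo113_15_1 (nat_lit 490)) (lo19_16_2 (nat_lit 524)))))) (M (nat_lit 427) (B (lo111_16_6 (nat_lit 396)) (M (nat_lit 524) (B (lo111_13_4 (nat_lit 556)) (lo111_12_4 (nat_lit 395))))))))) (K _ _ _ o1_s27865)))))) (M (nat_lit 427) (B (K _ _ _ o1_s27867) (B (M (nat_lit 459) (B (M (nat_lit 395) (B (lo111_12_4 (nat_lit 524)) (M (nat_lit 396) (B (lo111_16_6 (nat_lit 523)) (lo111_15_6 (nat_lit 364)))))) (B (M (nat_lit 395) (B (lo111_12_4 (nat_lit 524)) (M (nat_lit 396) (B (lo111_15_6 (nat_lit 364)) (M (nat_lit 394) (B (lo19_12_0 (nat_lit 393)) (lo111_15_7 (nat_lit 362)))))))) (B (M (nat_lit 523) (B (lo111_16_6 (nat_lit 396)) (M (nat_lit 522) (B (lo111_13_5 (nat_lit 554)) (M (nat_lit 524) (B (lo19_16_2 (nat_lit 521)) (lo111_13_4 (nat_lit 556)))))))) (B (M (nat_lit 522) (B (M (nat_lit 523) (B (lo111_13_5 (nat_lit 554)) (lo111_16_6 (nat_lit 396)))) (M (nat_lit 490) (B (lo113_15_1 (nat_lit 521)) (lo111_12_5 (nat_lit 395)))))) (M (nat_lit 524) (B (lo111_12_4 (nat_lit 395)) (M (nat_lit 556) (B (lo111_13_4 (nat_lit 523)) (lo112_18_7 (nat_lit 588))))))))))) (B (M (nat_lit 459) (B (M (nat_lit 523) (B (lo111_16_6 (nat_lit 396)) (M (nat_lit 524) (B (lo111_13_4 (nat_lit 556)) (lo111_12_4 (nat_lit 395)))))) (B (M (nat_lit 395) (B (lo111_12_4 (nat_lit 524)) (M (nat_lit 396) (B (lo111_15_6 (nat_lit 364)) (M (nat_lit 394) (B (lo19_12_0 (nat_lit 393)) (lo111_15_7 (nat_lit 362)))))))) (B (M (nat_lit 523) (B (lo111_16_6 (nat_lit 396)) (M (nat_lit 426) (B (lo111_16_7 (nat_lit 394)) (M (nat_lit 458) (B (lo113_13_1 (nat_lit 457)) (lo111_17_7 (nat_lit 555)))))))) (M (nat_lit 394) (B (M (nat_lit 426) (B (lo113_13_3 (nat_lit 393)) (lo111_16_7 (nat_lit 523)))) (M (nat_lit 395) (B (lo111_15_7 (nat_lit 362)) (lo111_12_4 (nat_lit 524)))))))))) (B (K _ _ _ o1_s27895) (B (K _ _ _ o1_s27906) (B (K _ _ _ o1_s27916) (B (K _ _ _ o1_s27923) (M (nat_lit 426) (B (M (nat_lit 425) (B (M (nat_lit 457) (B (lo112_13_1 (nat_lit 456)) (lo113_13_1 (nat_lit 458)))) (M (nat_lit 393) (B (lo112_13_3 (nat_lit 392)) (lo113_13_3 (nat_lit 394)))))) (B (M (nat_lit 394) (B (lo113_13_3 (nat_lit 393)) (M (nat_lit 459) (B (lo111_16_7 (nat_lit 523)) (M (nat_lit 458) (B (lo113_13_1 (nat_lit 457)) (lo110_11_4 (nat_lit 362)))))))) (B (M (nat_lit 394) (B (lo113_13_3 (nat_lit 393)) (M (nat_lit 459) (B (lo111_16_7 (nat_lit 523)) (M (nat_lit 362) (B (lo110_11_4 (nat_lit 458)) (lo111_15_7 (nat_lit 395)))))))) (B (M (nat_lit 396) (B (M (nat_lit 459) (B (lo111_16_6 (nat_lit 523)) (M (nat_lit 364) (B (lo111_15_6 (nat_lit 395)) (lo112_10_5 (nat_lit 332)))))) (M (nat_lit 457) (B (lo113_13_1 (nat_lit 458)) (M (nat_lit 425) (B (lo112_13_1 (nat_lit 456)) (lo19_13_2 (nat_lit 397)))))))) (M (nat_lit 396) (B (M (nat_lit 425) (B (lo19_13_2 (nat_lit 397)) (M (nat_lit 393) (B (lo112_13_3 (nat_lit 392)) (lo113_13_3 (nat_lit 394)))))) (M (nat_lit 459) (B (lo111_16_6 (nat_lit 523)) (M (nat_lit 364) (B (lo111_15_6 (nat_lit 395)) (lo112_10_5 (nat_lit 332))))))))))))))))))))))))))))) (B (M (nat_lit 491) (B (K _ _ _ o1_s26944) (B (M (nat_lit 490) (B (M (nat_lit 461) (B (lo110_15_2 (nat_lit 462)) (M (nat_lit 525) (B (lo110_15_0 (nat_lit 526)) (lo113_16_7 (nat_lit 396)))))) (B (M (nat_lit 494) (B (M (nat_lit 458) (B (lo113_15_3 (nat_lit 457)) (lo114_15_3 (nat_lit 459)))) (M (nat_lit 462) (B (lo110_15_2 (nat_lit 461)) (lo111_15_2 (nat_lit 463)))))) (M (nat_lit 494) (B (M (nat_lit 458) (B (lo113_15_3 (nat_lit 457)) (lo114_15_3 (nat_lit 459)))) (M (nat_lit 526) (B (lo110_15_0 (nat_lit 525)) (lo111_15_0 (nat_lit 527))))))))) (B (K _ _ _ o1_s27824) (B (K _ _ _ o1_s27830) (B (M (nat_lit 494) (B (M (nat_lit 490) (B (M (nat_lit 458) (B (lo113_15_3 (nat_lit 457)) (lo114_15_3 (nat_lit 459)))) (M (nat_lit 462) (B (lo110_15_2 (nat_lit 461)) (lo111_15_2 (nat_lit 463)))))) (B (M (nat_lit 490) (B (M (nat_lit 522) (B (lo113_15_1 (nat_lit 521)) (lo114_15_1 (nat_lit 523)))) (M (nat_lit 462) (B (lo110_15_2 (nat_lit 461)) (lo111_15_2 (nat_lit 463)))))) (B (M (nat_lit 495) (B (M (nat_lit 523) (B (lo114_15_1 (nat_lit 522)) (lo115_15_1 (nat_lit 524)))) (M (nat_lit 463) (B (lo111_15_2 (nat_lit 462)) (lo112_15_2 (nat_lit 464)))))) (M (nat_lit 490) (B (M (nat_lit 522) (B (lo113_15_1 (nat_lit 521)) (lo114_15_1 (nat_lit 523)))) (M (nat_lit 458) (B (lo113_15_3 (nat_lit 457)) (lo114_15_3 (nat_lit 459)))))))))) (K _ _ _ o1_s26811))))))) (B (M (nat_lit 461) (B (M (nat_lit 524) (B (lo113_12_5 (nat_lit 397)) (M (nat_lit 525) (B (lo113_13_5 (nat_lit 556)) (lo113_16_7 (nat_lit 396)))))) (B (M (nat_lit 396) (B (lo113_16_7 (nat_lit 525)) (M (nat_lit 364) (B (lo112_10_4 (nat_lit 332)) (lo113_15_7 (nat_lit 397)))))) (B (M (nat_lit 524) (B (lo113_12_5 (nat_lit 397)) (M (nat_lit 556) (B (lo112_18_6 (nat_lit 588)) (lo113_13_5 (nat_lit 525)))))) (B (M (nat_lit 524) (B (lo113_12_5 (nat_lit 397)) (M (nat_lit 491) (B (M (nat_lit 462) (B (lo110_15_2 (nat_lit 490)) (M (nat_lit 494) (B (lo111_15_2 (nat_lit 463)) (M (nat_lit 523) (B (lo114_15_1 (nat_lit 522)) (lo115_15_1 (nat_lit 495)))))))) (B (M (nat_lit 462) (B (lo110_15_2 (nat_lit 490)) (M (nat_lit 459) (B (M (nat_lit 494) (B (lo114_15_3 (nat_lit 458)) (lo111_15_2 (nat_lit 463)))) (M (nat_lit 427) (B (lo110_13_0 (nat_lit 426)) (lo111_12_4 (nat_lit 395)))))))) (B (K _ _ _ o1_s27988) (B (M (nat_lit 490) (B (lo110_15_2 (nat_lit 462)) (M (nat_lit 489) (B (M (nat_lit 521) (B (lo112_15_1 (nat_lit 520)) (lo113_15_1 (nat_lit 522)))) (M (nat_lit 457) (B (lo112_15_3 (nat_lit 456)) (lo113_15_3 (nat_lit 458)))))))) (K _ _ _ o1_s28006)))))))) (M (nat_lit 491) (B (M (nat_lit 462) (B (lo110_15_2 (nat_lit 490)) (M (nat_lit 463) (B (lo111_15_2 (nat_lit 494)) (lo116_14_1 (nat_lit 464)))))) (B (M (nat_lit 524) (B (M (nat_lit 556) (B (lo112_18_6 (nat_lit 588)) (lo113_13_5 (nat_lit 525)))) (K _ _ _ o1_s27988))) (B (M (nat_lit 490) (B (lo110_15_2 (nat_lit 462)) (M (nat_lit 525) (B (lo113_16_7 (nat_lit 396)) (M (nat_lit 524) (B (lo19_15_0 (nat_lit 489)) (lo113_13_5 (nat_lit 556)))))))) (M (nat_lit 524) (B (M (nat_lit 556) (B (lo112_18_6 (nat_lit 588)) (lo113_13_5 (nat_lit 525)))) (B (M (nat_lit 525) (B (lo113_13_5 (nat_lit 556)) (lo113_16_7 (nat_lit 396)))) (B (M (nat_lit 459) (B (M (nat_lit 427) (B (lo111_12_4 (nat_lit 395)) (M (nat_lit 396) (B (lo111_16_6 (nat_lit 523)) (lo113_16_7 (nat_lit 525)))))) (M (nat_lit 458) (B (lo114_15_3 (nat_lit 494)) (M (nat_lit 457) (B (lo18_14_0 (nat_lit 456)) (lo113_15_3 (nat_lit 490)))))))) (K _ _ _ o1_s28006)))))))))))))) (M (nat_lit 461) (B (M (nat_lit 396) (B (lo113_16_7 (nat_lit 525)) (M (nat_lit 364) (B (lo112_10_4 (nat_lit 332)) (lo113_15_7 (nat_lit 397)))))) (B (M (nat_lit 524) (B (lo113_12_5 (nat_lit 397)) (M (nat_lit 556) (B (lo112_18_6 (nat_lit 588)) (lo113_13_5 (nat_lit 525)))))) (B (K _ _ _ o1_s27793) (M (nat_lit 525) (B (lo113_16_7 (nat_lit 396)) (M (nat_lit 524) (B (lo113_13_5 (nat_lit 556)) (M (nat_lit 526) (B (lo113_13_4 (nat_lit 558)) (M (nat_lit 491) (B (lo110_15_0 (nat_lit 490)) (lo115_16_3 (nat_lit 527))))))))))))))))))))))) (B (M (nat_lit 524) (B (M (nat_lit 460) (B (lo112_16_6 (nat_lit 397)) (M (nat_lit 556) (B (lo112_17_6 (nat_lit 461)) (M (nat_lit 557) (B (lo112_14_4 (nat_lit 589)) (lo112_13_4 (nat_lit 525)))))))) (B (M (nat_lit 460) (B (lo112_16_6 (nat_lit 397)) (M (nat_lit 493) (B (M (nat_lit 523) (B (lo112_13_5 (nat_lit 555)) (M (nat_lit 494) (B (lo115_15_1 (nat_lit 495)) (M (nat_lit 522) (B (lo19_16_2 (nat_lit 521)) (lo114_15_1 (nat_lit 491)))))))) (B (M (nat_lit 523) (B (lo112_13_5 (nat_lit 555)) (M (nat_lit 494) (B (lo115_15_1 (nat_lit 495)) (M (nat_lit 525) (B (lo110_16_2 (nat_lit 522)) (lo112_13_4 (nat_lit 557)))))))) (B (M (nat_lit 523) (B (lo112_13_5 (nat_lit 555)) (K _ _ _ o1_s28057))) (B (M (nat_lit 523) (B (M (nat_lit 525) (B (lo112_13_4 (nat_lit 557)) (M (nat_lit 522) (B (lo19_16_2 (nat_lit 521)) (lo110_16_2 (nat_lit 494)))))) (B (M (nat_lit 494) (B (lo115_15_1 (nat_lit 495)) (M (nat_lit 525) (B (lo110_16_2 (nat_lit 522)) (lo112_13_4 (nat_lit 557)))))) (B (K _ _ _ o1_s28057) (M (nat_lit 494) (B (lo115_15_1 (nat_lit 495)) (M (nat_lit 522) (B (lo19_16_2 (nat_lit 521)) (lo114_15_1 (nat_lit 491)))))))))) (M (nat_lit 461) (B (M (nat_lit 427) (B (lo112_16_7 (nat_lit 395)) (M (nat_lit 462) (B (lo110_13_0 (nat_lit 426)) (lo115_14_3 (nat_lit 463)))))) (M (nat_lit 525) (B (lo112_13_4 (nat_lit 557)) (M (nat_lit 526) (B (lo113_13_4 (nat_lit 558)) (M (nat_lit 491) (B (lo110_15_0 (nat_lit 490)) (lo115_16_3 (nat_lit 527))))))))))))))))) (B (M (nat_lit 493) (B (M (nat_lit 461) (B (lo113_12_5 (nat_lit 397)) (M (nat_lit 556) (B (lo112_18_6 (nat_lit 588)) (lo113_13_5 (nat_lit 525)))))) (B (K _ _ _ o1_s28077) (B (M (nat_lit 491) (B (M (nat_lit 461) (B (lo113_12_5 (nat_lit 397)) (M (nat_lit 490) (B (lo110_15_2 (nat_lit 462)) (M (nat_lit 525) (B (lo19_15_0 (nat_lit 489)) (lo110_15_0 (nat_lit 526)))))))) (B (M (nat_lit 461) (B (lo113_12_5 (nat_lit 397)) (M (nat_lit 462) (B (lo110_15_2 (nat_lit 490)) (M (nat_lit 463) (B (lo111_15_2 (nat_lit 494)) (lo116_14_1 (nat_lit 464)))))))) (B (M (nat_lit 494) (B (M (nat_lit 523) (B (lo114_15_1 (nat_lit 522)) (lo115_15_1 (nat_lit 495)))) (B (M (nat_lit 495) (B (lo115_15_1 (nat_lit 523)) (M (nat_lit 463) (B (lo111_15_2 (nat_lit 462)) (lo112_15_2 (nat_lit 464)))))) (M (nat_lit 461) (B (lo113_12_5 (nat_lit 397)) (M (nat_lit 526) (B (lo111_15_0 (nat_lit 527)) (M (nat_lit 462) (B (lo111_15_2 (nat_lit 463)) (lo114_17_7 (nat_lit 558))))))))))) (M (nat_lit 494) (B (M (nat_lit 523) (B (lo114_15_1 (nat_lit 522)) (lo115_15_1 (nat_lit 495)))) (M (nat_lit 490) (B (M (nat_lit 458) (B (lo113_15_3 (nat_lit 457)) (lo114_15_3 (nat_lit 459)))) (M (nat_lit 526) (B (lo110_15_0 (nat_lit 525)) (lo111_15_0 (nat_lit 527)))))))))))) (B (M (nat_lit 491) (B (M (nat_lit 461) (B (lo113_12_5 (nat_lit 397)) (M (nat_lit 462) (B (lo110_15_2 (nat_lit 490)) (M (nat_lit 463) (B (lo111_15_2 (nat_lit 494)) (lo116_14_1 (nat_lit 464)))))))) (B (M (nat_lit 494) (B (M (nat_lit 523) (B (lo114_15_1 (nat_lit 522)) (lo115_15_1 (nat_lit 495)))) (M (nat_lit 461) (B (lo113_12_5 (nat_lit 397)) (M (nat_lit 526) (B (lo111_15_0 (nat_lit 527)) (M (nat_lit 462) (B (lo111_15_2 (nat_lit 463)) (lo114_17_7 (nat_lit 558)))))))))) (B (M (nat_lit 459) (B (M (nat_lit 458) (B (lo114_15_3 (nat_lit 494)) (M (nat_lit 457) (B (lo18_14_0 (nat_lit 456)) (lo113_15_3 (nat_lit 490)))))) (B (M (nat_lit 494) (B (lo114_15_3 (nat_lit 458)) (M (nat_lit 523) (B (lo114_15_1 (nat_lit 522)) (lo115_15_1 (nat_lit 495)))))) (M (nat_lit 427) (B (lo111_12_4 (nat_lit 395)) (M (nat_lit 556) (B (lo111_13_4 (nat_lit 523)) (lo112_18_7 (nat_lit 588))))))))) (M (nat_lit 490) (B (M (nat_lit 461) (B (lo110_15_2 (nat_lit 462)) (lo113_12_5 (nat_lit 397)))) (M (nat_lit 489) (B (M (nat_lit 521) (B (lo112_15_1 (nat_lit 520)) (lo113_15_1 (nat_lit 522)))) (M (nat_lit 457) (B (lo112_15_3 (nat_lit 456)) (lo113_15_3 (nat_lit 458)))))))))))) (M (nat_lit 494) (B (M (nat_lit 523) (B (lo115_15_1 (nat_lit 495)) (M (nat_lit 522) (B (lo19_16_2 (nat_lit 521)) (lo110_16_2 (nat_lit 525)))))) (B (M (nat_lit 523) (B (lo115_15_1 (nat_lit 495)) (M (nat_lit 522) (B (lo114_15_1 (nat_lit 491)) (lo110_16_2 (nat_lit 525)))))) (B (M (nat_lit 495) (B (lo115_15_1 (nat_lit 523)) (M (nat_lit 496) (B (lo116_15_1 (nat_lit 525)) (M (nat_lit 464) (B (lo112_15_2 (nat_lit 463)) (lo113_15_2 (nat_lit 465)))))))) (B (M (nat_lit 495) (B (M (nat_lit 496) (B (lo116_15_1 (nat_lit 525)) (M (nat_lit 464) (B (lo112_15_2 (nat_lit 463)) (lo113_15_2 (nat_lit 465)))))) (B (M (nat_lit 491) (B (M (nat_lit 527) (B (lo111_15_0 (nat_lit 526)) (lo112_15_0 (nat_lit 528)))) (M (nat_lit 463) (B (lo111_15_2 (nat_lit 462)) (lo112_15_2 (nat_lit 464)))))) (M (nat_lit 491) (B (M (nat_lit 527) (B (lo111_15_0 (nat_lit 526)) (lo112_15_0 (nat_lit 528)))) (M (nat_lit 490) (B (M (nat_lit 525) (B (lo19_15_0 (nat_lit 489)) (lo116_15_1 (nat_lit 496)))) (M (nat_lit 458) (B (lo113_15_3 (nat_lit 457)) (lo114_15_3 (nat_lit 459))))))))))) (B (M (nat_lit 523) (B (lo115_15_1 (nat_lit 495)) (M (nat_lit 522) (B (lo19_16_2 (nat_lit 521)) (lo114_15_1 (nat_lit 491)))))) (M (nat_lit 491) (B (M (nat_lit 522) (B (lo114_15_1 (nat_lit 523)) (M (nat_lit 490) (B (lo113_15_1 (nat_lit 521)) (M (nat_lit 458) (B (lo113_15_3 (nat_lit 457)) (lo114_15_3 (nat_lit 459)))))))) (B (M (nat_lit 490) (B (M (nat_lit 458) (B (lo113_15_3 (nat_lit 457)) (lo114_15_3 (nat_lit 459)))) (M (nat_lit 525) (B (lo19_15_0 (nat_lit 489)) (lo110_15_0 (nat_lit 526)))))) (B (M (nat_lit 490) (B (M (nat_lit 522) (B (lo113_15_1 (nat_lit 521)) (lo114_15_1 (nat_lit 523)))) (M (nat_lit 525) (B (lo19_15_0 (nat_lit 489)) (lo110_15_0 (nat_lit 526)))))) (M (nat_lit 523) (B (lo114_15_1 (nat_lit 522)) (M (nat_lit 459) (B (lo114_15_3 (nat_lit 458)) (M (nat_lit 427) (B (lo111_13_4 (nat_lit 556)) (lo111_12_4 (nat_lit 395))))))))))))))))))))))) (B (M (nat_lit 460) (B (lo112_16_6 (nat_lit 397)) (M (nat_lit 556) (B (lo112_17_6 (nat_lit 461)) (M (nat_lit 555) (B (lo112_14_5 (nat_lit 587)) (lo112_13_5 (nat_lit 523)))))))) (B (K _ _ _ o1_s28175) (M (nat_lit 460) (B (M (nat_lit 556) (B (lo112_17_6 (nat_lit 461)) (M (nat_lit 557) (B (lo112_14_4 (nat_lit 589)) (lo112_13_4 (nat_lit 525)))))) (B (M (nat_lit 493) (B (M (nat_lit 525) (B (lo112_13_4 (nat_lit 557)) (M (nat_lit 523) (B (lo112_13_5 (nat_lit 555)) (M (nat_lit 522) (B (lo19_16_2 (nat_lit 521)) (lo110_16_2 (nat_lit 494)))))))) (B (M (nat_lit 523) (B (lo112_13_5 (nat_lit 555)) (M (nat_lit 494) (B (lo115_15_1 (nat_lit 495)) (M (nat_lit 525) (B (lo110_16_2 (nat_lit 522)) (lo112_13_4 (nat_lit 557)))))))) (B (M (nat_lit 525) (B (lo112_13_4 (nat_lit 557)) (M (nat_lit 461) (B (M (nat_lit 526) (B (lo113_13_4 (nat_lit 558)) (M (nat_lit 491) (B (lo110_15_0 (nat_lit 490)) (lo115_16_3 (nat_lit 527)))))) (M (nat_lit 427) (B (lo112_16_7 (nat_lit 395)) (M (nat_lit 462) (B (lo110_13_0 (nat_lit 426)) (lo115_14_3 (nat_lit 463)))))))))) (M (nat_lit 523) (B (lo112_13_5 (nat_lit 555)) (M (nat_lit 494) (B (lo115_15_1 (nat_lit 495)) (M (nat_lit 522) (B (lo19_16_2 (nat_lit 521)) (lo114_15_1 (nat_lit 491)))))))))))) (B (M (nat_lit 556) (B (lo112_17_6 (nat_lit 461)) (M (nat_lit 427) (B (lo112_17_7 (nat_lit 459)) (lo112_16_7 (nat_lit 395)))))) (M (nat_lit 556) (B (M (nat_lit 555) (B (lo112_14_5 (nat_lit 587)) (lo112_13_5 (nat_lit 523)))) (M (nat_lit 427) (B (lo112_17_7 (nat_lit 459)) (lo112_16_7 (nat_lit 395)))))))))))))))) (B (M (nat_lit 460) (B (M (nat_lit 397) (B (lo112_16_6 (nat_lit 524)) (M (nat_lit 365) (B (lo113_11_5 (nat_lit 461)) (lo113_10_5 (nat_lit 333)))))) (B (M (nat_lit 396) (B (M (nat_lit 364) (B (M (nat_lit 491) (B (lo112_12_5 (nat_lit 523)) (lo112_11_5 (nat_lit 459)))) (M (nat_lit 365) (B (lo112_15_6 (nat_lit 397)) (lo112_14_6 (nat_lit 333)))))) (B (M (nat_lit 364) (B (M (nat_lit 363) (B (lo112_15_7 (nat_lit 395)) (lo112_14_7 (nat_lit 331)))) (M (nat_lit 365) (B (lo112_15_6 (nat_lit 397)) (lo112_14_6 (nat_lit 333)))))) (B (M (nat_lit 395) (B (lo112_15_7 (nat_lit 363)) (M (nat_lit 394) (B (lo19_12_0 (nat_lit 393)) (M (nat_lit 426) (B (M (nat_lit 397) (B (lo113_12_1 (nat_lit 425)) (lo112_15_6 (nat_lit 365)))) (B (M (nat_lit 491) (B (lo112_12_5 (nat_lit 523)) (M (nat_lit 362) (B (M (nat_lit 397) (B (lo113_12_3 (nat_lit 361)) (lo112_15_6 (nat_lit 365)))) (M (nat_lit 459) (B (lo110_11_4 (nat_lit 458)) (lo111_15_7 (nat_lit 427)))))))) (M (nat_lit 459) (B (M (nat_lit 491) (B (lo112_12_5 (nat_lit 523)) (M (nat_lit 458) (B (lo19_14_2 (nat_lit 457)) (lo110_11_4 (nat_lit 362)))))) (B (M (nat_lit 491) (B (lo112_12_5 (nat_lit 523)) (M (nat_lit 362) (B (lo110_11_4 (nat_lit 458)) (lo111_15_7 (nat_lit 427)))))) (B (M (nat_lit 427) (B (M (nat_lit 425) (B (lo18_13_0 (nat_lit 424)) (lo19_13_0 (nat_lit 461)))) (M (nat_lit 491) (B (lo111_16_7 (nat_lit 523)) (lo111_15_7 (nat_lit 362)))))) (M (nat_lit 425) (B (M (nat_lit 424) (B (lo17_13_2 (nat_lit 423)) (lo18_13_0 (nat_lit 427)))) (B (M (nat_lit 427) (B (lo18_13_0 (nat_lit 424)) (lo19_13_0 (nat_lit 461)))) (B (M (nat_lit 461) (B (lo113_14_3 (nat_lit 458)) (lo19_13_0 (nat_lit 427)))) (M (nat_lit 458) (B (lo19_14_2 (nat_lit 457)) (lo113_14_3 (nat_lit 461))))))))))))))))))) (M (nat_lit 491) (B (lo112_12_5 (nat_lit 523)) (M (nat_lit 364) (B (lo112_11_5 (nat_lit 459)) (M (nat_lit 363) (B (lo112_15_7 (nat_lit 395)) (lo112_14_7 (nat_lit 331)))))))))))) (B (M (nat_lit 397) (B (lo112_16_6 (nat_lit 524)) (M (nat_lit 365) (B (lo112_15_6 (nat_lit 396)) (lo113_10_5 (nat_lit 333)))))) (K _ _ _ o1_s28232))))) (B (M (nat_lit 491) (B (M (nat_lit 460) (B (M (nat_lit 397) (B (lo112_16_6 (nat_lit 524)) (M (nat_lit 396) (B (lo112_12_5 (nat_lit 523)) (lo112_15_6 (nat_lit 365)))))) (B (M (nat_lit 397) (B (lo112_16_6 (nat_lit 524)) (M (nat_lit 365) (B (lo112_15_6 (nat_lit 396)) (lo113_10_5 (nat_lit 333)))))) (B (M (nat_lit 523) (B (lo112_12_5 (nat_lit 396)) (M (nat_lit 555) (B (lo111_18_6 (nat_lit 587)) (lo111_17_6 (nat_lit 459)))))) (M (nat_lit 524) (B (lo112_16_6 (nat_lit 397)) (M (nat_lit 556) (B (M (nat_lit 555) (B (lo112_14_5 (nat_lit 587)) (lo112_13_5 (nat_lit 523)))) (M (nat_lit 427) (B (lo112_17_7 (nat_lit 459)) (lo112_16_7 (nat_lit 395)))))))))))) (B (M (nat_lit 460) (B (M (nat_lit 523) (B (lo112_12_5 (nat_lit 396)) (M (nat_lit 524) (B (lo112_13_5 (nat_lit 555)) (lo112_16_6 (nat_lit 397)))))) (B (M (nat_lit 397) (B (lo112_16_6 (nat_lit 524)) (M (nat_lit 396) (B (lo112_12_5 (nat_lit 523)) (lo112_15_6 (nat_lit 365)))))) (B (K _ _ _ o1_s28258) (B (M (nat_lit 396) (B (lo112_12_5 (nat_lit 523)) (M (nat_lit 364) (B (lo112_11_5 (nat_lit 459)) (M (nat_lit 363) (B (lo112_15_7 (nat_lit 395)) (lo112_14_7 (nat_lit 331)))))))) (K _ _ _ o1_s28267)))))) (B (M (nat_lit 460) (B (M (nat_lit 397) (B (lo112_16_6 (nat_lit 524)) (M (nat_lit 396) (B (lo112_12_5 (nat_lit 523)) (lo112_15_6 (nat_lit 365)))))) (B (K _ _ _ o1_s28258) (B (M (nat_lit 396) (B (lo112_12_5 (nat_lit 523)) (M (nat_lit 364) (B (lo112_11_5 (nat_lit 459)) (M (nat_lit 363) (B (lo112_15_7 (nat_lit 395)) (lo112_14_7 (nat_lit 331)))))))) (K _ _ _ o1_s28267))))) (B (M (nat_lit 460) (B (M (nat_lit 397) (B (lo112_16_6 (nat_lit 524)) (M (nat_lit 365) (B (lo112_15_6 (nat_lit 396)) (lo113_10_5 (nat_lit 333)))))) (B (M (nat_lit 493) (B (M (nat_lit 396) (B (lo112_12_4 (nat_lit 525)) (M (nat_lit 364) (B (lo112_11_5 (nat_lit 459)) (M (nat_lit 363) (B (lo112_15_7 (nat_lit 395)) (lo112_14_7 (nat_lit 331)))))))) (B (M (nat_lit 396) (B (lo112_12_4 (nat_lit 525)) (M (nat_lit 364) (B (M (nat_lit 363) (B (lo112_15_7 (nat_lit 395)) (lo112_14_7 (nat_lit 331)))) (M (nat_lit 365) (B (lo112_15_6 (nat_lit 397)) (lo112_14_6 (nat_lit 333)))))))) (B (M (nat_lit 459) (B (M (nat_lit 458) (B (lo19_14_0 (nat_lit 457)) (lo114_15_3 (nat_lit 494)))) (M (nat_lit 396) (B (lo112_11_5 (nat_lit 364)) (lo112_12_4 (nat_lit 525)))))) (B (M (nat_lit 490) (B (M (nat_lit 489) (B (M (nat_lit 521) (B (lo112_15_1 (nat_lit 520)) (lo113_15_1 (nat_lit 522)))) (M (nat_lit 457) (B (lo112_15_3 (nat_lit 456)) (lo113_15_3 (nat_lit 458)))))) (B (M (nat_lit 494) (B (M (nat_lit 458) (B (lo113_15_3 (nat_lit 457)) (lo114_15_3 (nat_lit 459)))) (M (nat_lit 526) (B (lo110_15_0 (nat_lit 525)) (lo111_15_0 (nat_lit 527)))))) (B (M (nat_lit 494) (B (M (nat_lit 526) (B (lo110_15_0 (nat_lit 525)) (lo111_15_0 (nat_lit 527)))) (M (nat_lit 459) (B (lo114_15_3 (nat_lit 458)) (lo115_15_3 (nat_lit 495)))))) (K _ _ _ o1_s28290))))) (M (nat_lit 490) (B (M (nat_lit 489) (B (M (nat_lit 521) (B (lo112_15_1 (nat_lit 520)) (lo113_15_1 (nat_lit 522)))) (M (nat_lit 457) (B (lo112_15_3 (nat_lit 456)) (lo113_15_3 (nat_lit 458)))))) (B (M (nat_lit 459) (B (M (nat_lit 458) (B (lo113_15_3 (nat_lit 457)) (lo114_15_3 (nat_lit 494)))) (M (nat_lit 395) (B (M (nat_lit 522) (B (lo113_15_1 (nat_lit 521)) (lo111_12_5 (nat_lit 427)))) (B (M (nat_lit 427) (B (lo111_12_5 (nat_lit 522)) (lo111_11_4 (nat_lit 363)))) (B (M (nat_lit 363) (B (lo111_11_4 (nat_lit 427)) (lo112_15_7 (nat_lit 396)))) (M (nat_lit 396) (B (lo112_11_5 (nat_lit 364)) (lo112_15_7 (nat_lit 363)))))))))) (B (M (nat_lit 489) (B (M (nat_lit 457) (B (lo112_15_3 (nat_lit 456)) (lo113_15_3 (nat_lit 458)))) (B (M (nat_lit 459) (B (lo18_15_2 (nat_lit 488)) (M (nat_lit 458) (B (lo113_15_3 (nat_lit 457)) (lo114_15_3 (nat_lit 494)))))) (B (M (nat_lit 459) (B (lo18_15_2 (nat_lit 488)) (M (nat_lit 494) (B (lo114_15_3 (nat_lit 458)) (lo115_15_3 (nat_lit 495)))))) (M (nat_lit 488) (B (lo18_15_2 (nat_lit 459)) (M (nat_lit 456) (B (lo111_15_3 (nat_lit 455)) (lo112_15_3 (nat_lit 457)))))))))) (B (M (nat_lit 459) (B (M (nat_lit 494) (B (lo114_15_3 (nat_lit 458)) (lo115_15_3 (nat_lit 495)))) (M (nat_lit 521) (B (lo113_15_1 (nat_lit 522)) (M (nat_lit 489) (B (lo112_15_1 (nat_lit 520)) (lo18_15_2 (nat_lit 488)))))))) (K _ _ _ o1_s28290))))))))))) (B (K _ _ _ o1_s28326) (M (nat_lit 396) (B (M (nat_lit 364) (B (lo112_11_5 (nat_lit 459)) (M (nat_lit 363) (B (lo112_15_7 (nat_lit 395)) (lo112_14_7 (nat_lit 331)))))) (B (M (nat_lit 524) (B (M (nat_lit 395) (B (lo112_16_7 (nat_lit 427)) (lo112_15_7 (nat_lit 363)))) (M (nat_lit 525) (B (lo112_13_4 (nat_lit 557)) (lo112_12_4 (nat_lit 493)))))) (M (nat_lit 459) (B (lo112_11_5 (nat_lit 364)) (M (nat_lit 493) (B (lo112_12_4 (nat_lit 525)) (M (nat_lit 458) (B (lo19_14_0 (nat_lit 457)) (lo114_15_3 (nat_lit 494))))))))))))))) (B (M (nat_lit 460) (B (M (nat_lit 523) (B (lo112_12_5 (nat_lit 396)) (M (nat_lit 524) (B (lo112_13_5 (nat_lit 555)) (lo112_16_6 (nat_lit 397)))))) (B (M (nat_lit 397) (B (lo112_16_6 (nat_lit 524)) (M (nat_lit 396) (B (lo112_12_5 (nat_lit 523)) (lo112_15_6 (nat_lit 365)))))) (B (M (nat_lit 397) (B (lo112_16_6 (nat_lit 524)) (M (nat_lit 365) (B (lo112_15_6 (nat_lit 396)) (lo113_10_5 (nat_lit 333)))))) (B (K _ _ _ o1_s26940) (B (K _ _ _ o1_s28326) (M (nat_lit 523) (B (lo112_12_5 (nat_lit 396)) (M (nat_lit 555) (B (lo111_18_6 (nat_lit 587)) (lo112_13_5 (nat_lit 524)))))))))))) (B (M (nat_lit 460) (B (M (nat_lit 523) (B (lo112_12_5 (nat_lit 396)) (M (nat_lit 524) (B (lo112_13_5 (nat_lit 555)) (lo112_16_6 (nat_lit 397)))))) (B (K _ _ _ o1_s28267) (M (nat_lit 523) (B (lo112_12_5 (nat_lit 396)) (M (nat_lit 555) (B (lo111_18_6 (nat_lit 587)) (lo111_17_6 (nat_lit 459))))))))) (B (M (nat_lit 459) (B (K _ _ _ o1_s27356) (B (K _ _ _ o1_s27399) (B (K _ _ _ o1_s27490) (B (M (nat_lit 427) (B (M (nat_lit 396) (B (lo111_16_6 (nat_lit 523)) (M (nat_lit 364) (B (lo111_15_6 (nat_lit 395)) (lo112_10_5 (nat_lit 332)))))) (B (K _ _ _ o1_s27341) (B (M (nat_lit 523) (B (lo111_16_6 (nat_lit 396)) (M (nat_lit 426) (B (lo111_16_7 (nat_lit 394)) (M (nat_lit 458) (B (lo113_13_1 (nat_lit 457)) (lo111_17_7 (nat_lit 555)))))))) (M (nat_lit 395) (B (M (nat_lit 394) (B (lo111_15_7 (nat_lit 362)) (M (nat_lit 426) (B (lo113_13_3 (nat_lit 393)) (lo111_16_7 (nat_lit 523)))))) (B (M (nat_lit 458) (B (M (nat_lit 457) (B (lo18_14_0 (nat_lit 456)) (lo113_13_1 (nat_lit 426)))) (M (nat_lit 490) (B (lo111_12_5 (nat_lit 522)) (lo111_11_5 (nat_lit 363)))))) (M (nat_lit 363) (B (M (nat_lit 490) (B (lo111_12_5 (nat_lit 522)) (lo111_11_5 (nat_lit 458)))) (M (nat_lit 362) (B (lo111_15_7 (nat_lit 394)) (lo111_14_7 (nat_lit 330))))))))))))) (M (nat_lit 427) (B (M (nat_lit 523) (B (M (nat_lit 426) (B (lo111_16_7 (nat_lit 394)) (M (nat_lit 555) (B (lo111_17_7 (nat_lit 458)) (lo111_17_6 (nat_lit 460)))))) (B (M (nat_lit 554) (B (lo111_13_5 (nat_lit 522)) (M (nat_lit 555) (B (lo111_14_5 (nat_lit 586)) (lo111_17_6 (nat_lit 460)))))) (M (nat_lit 395) (B (M (nat_lit 522) (B (lo111_13_5 (nat_lit 554)) (lo111_12_5 (nat_lit 490)))) (M (nat_lit 394) (B (lo111_16_7 (nat_lit 426)) (lo111_15_7 (nat_lit 362))))))))) (B (M (nat_lit 523) (B (M (nat_lit 426) (B (lo111_16_7 (nat_lit 394)) (M (nat_lit 555) (B (lo111_17_7 (nat_lit 458)) (lo111_17_6 (nat_lit 460)))))) (B (M (nat_lit 395) (B (M (nat_lit 522) (B (lo111_13_5 (nat_lit 554)) (lo111_12_5 (nat_lit 490)))) (M (nat_lit 460) (B (lo111_17_6 (nat_lit 555)) (lo111_11_4 (nat_lit 363)))))) (M (nat_lit 395) (B (M (nat_lit 522) (B (lo111_13_5 (nat_lit 554)) (lo111_12_5 (nat_lit 490)))) (M (nat_lit 394) (B (lo111_16_7 (nat_lit 426)) (lo111_15_7 (nat_lit 362))))))))) (B (M (nat_lit 458) (B (M (nat_lit 457) (B (lo18_14_0 (nat_lit 456)) (lo113_13_1 (nat_lit 426)))) (B (M (nat_lit 457) (B (lo113_13_1 (nat_lit 426)) (lo19_14_2 (nat_lit 460)))) (B (M (nat_lit 523) (B (M (nat_lit 426) (B (lo111_17_7 (nat_lit 555)) (lo111_16_7 (nat_lit 394)))) (B (M (nat_lit 490) (B (M (nat_lit 555) (B (lo111_18_7 (nat_lit 587)) (lo111_17_6 (nat_lit 460)))) (M (nat_lit 395) (B (lo111_12_5 (nat_lit 522)) (lo111_11_5 (nat_lit 363)))))) (M (nat_lit 395) (B (M (nat_lit 490) (B (lo111_12_5 (nat_lit 522)) (lo111_11_5 (nat_lit 363)))) (M (nat_lit 394) (B (lo111_16_7 (nat_lit 426)) (lo111_15_7 (nat_lit 362))))))))) (M (nat_lit 457) (B (lo18_14_0 (nat_lit 456)) (lo19_14_2 (nat_lit 460)))))))) (B (M (nat_lit 458) (B (M (nat_lit 457) (B (lo18_14_0 (nat_lit 456)) (lo113_13_1 (nat_lit 426)))) (B (M (nat_lit 457) (B (lo113_13_1 (nat_lit 426)) (lo19_14_2 (nat_lit 460)))) (B (M (nat_lit 394) (B (M (nat_lit 426) (B (lo113_13_3 (nat_lit 393)) (lo110_11_4 (nat_lit 362)))) (B (M (nat_lit 426) (B (lo110_11_4 (nat_lit 362)) (lo111_16_7 (nat_lit 523)))) (B (M (nat_lit 395) (B (lo111_15_7 (nat_lit 362)) (M (nat_lit 363) (B (lo111_11_5 (nat_lit 490)) (lo111_11_4 (nat_lit 460)))))) (M (nat_lit 426) (B (lo113_13_3 (nat_lit 393)) (lo111_16_7 (nat_lit 523)))))))) (M (nat_lit 457) (B (lo18_14_0 (nat_lit 456)) (lo19_14_2 (nat_lit 460)))))))) (B (M (nat_lit 426) (B (M (nat_lit 394) (B (lo113_13_3 (nat_lit 393)) (lo111_16_7 (nat_lit 523)))) (B (M (nat_lit 394) (B (lo111_16_7 (nat_lit 523)) (M (nat_lit 458) (B (lo113_13_1 (nat_lit 457)) (lo110_11_4 (nat_lit 362)))))) (M (nat_lit 425) (B (M (nat_lit 457) (B (lo112_13_1 (nat_lit 456)) (lo113_13_1 (nat_lit 458)))) (M (nat_lit 424) (B (lo18_13_0 (nat_lit 460)) (M (nat_lit 392) (B (lo111_13_3 (nat_lit 391)) (lo112_13_3 (nat_lit 393))))))))))) (B (M (nat_lit 523) (B (M (nat_lit 554) (B (lo111_13_5 (nat_lit 522)) (M (nat_lit 555) (B (lo111_14_5 (nat_lit 586)) (lo111_17_6 (nat_lit 460)))))) (B (M (nat_lit 395) (B (M (nat_lit 522) (B (lo111_13_5 (nat_lit 554)) (lo111_12_5 (nat_lit 490)))) (M (nat_lit 460) (B (lo111_17_6 (nat_lit 555)) (lo111_11_4 (nat_lit 363)))))) (B (M (nat_lit 395) (B (M (nat_lit 394) (B (lo111_16_7 (nat_lit 426)) (lo111_15_7 (nat_lit 362)))) (M (nat_lit 460) (B (lo111_17_6 (nat_lit 555)) (lo111_11_4 (nat_lit 363)))))) (M (nat_lit 395) (B (M (nat_lit 522) (B (lo111_13_5 (nat_lit 554)) (lo111_12_5 (nat_lit 490)))) (M (nat_lit 394) (B (lo111_16_7 (nat_lit 426)) (lo111_15_7 (nat_lit 362)))))))))) (B (M (nat_lit 490) (B (M (nat_lit 395) (B (lo111_12_5 (nat_lit 522)) (M (nat_lit 363) (B (lo111_11_5 (nat_lit 458)) (lo111_11_4 (nat_lit 460)))))) (B (K _ _ _ o1_s28419) (B (M (nat_lit 395) (B (lo111_12_5 (nat_lit 522)) (M (nat_lit 362) (B (lo111_15_7 (nat_lit 394)) (M (nat_lit 363) (B (lo111_14_7 (nat_lit 330)) (lo111_11_4 (nat_lit 460)))))))) (M (nat_lit 458) (B (M (nat_lit 457) (B (lo18_14_0 (nat_lit 456)) (lo113_15_3 (nat_lit 493)))) (M (nat_lit 395) (B (lo111_12_5 (nat_lit 522)) (lo111_11_5 (nat_lit 363)))))))))) (B (M (nat_lit 458) (B (M (nat_lit 457) (B (lo18_14_0 (nat_lit 456)) (lo113_13_1 (nat_lit 426)))) (B (M (nat_lit 457) (B (lo113_13_1 (nat_lit 426)) (lo19_14_2 (nat_lit 460)))) (B (M (nat_lit 522) (B (M (nat_lit 554) (B (lo110_17_6 (nat_lit 490)) (lo111_13_5 (nat_lit 523)))) (B (M (nat_lit 490) (B (lo111_12_5 (nat_lit 395)) (M (nat_lit 493) (B (lo113_15_1 (nat_lit 521)) (lo114_15_3 (nat_lit 494)))))) (M (nat_lit 523) (B (lo111_13_5 (nat_lit 554)) (M (nat_lit 555) (B (lo111_17_7 (nat_lit 426)) (lo111_17_6 (nat_lit 460))))))))) (M (nat_lit 457) (B (lo18_14_0 (nat_lit 456)) (lo19_14_2 (nat_lit 460)))))))) (M (nat_lit 458) (B (M (nat_lit 457) (B (lo18_14_0 (nat_lit 456)) (lo113_13_1 (nat_lit 426)))) (B (M (nat_lit 457) (B (lo113_13_1 (nat_lit 426)) (M (nat_lit 493) (B (lo113_15_3 (nat_lit 490)) (lo114_15_3 (nat_lit 494)))))) (B (M (nat_lit 490) (B (M (nat_lit 522) (B (lo110_17_6 (nat_lit 554)) (lo111_12_5 (nat_lit 395)))) (B (M (nat_lit 395) (B (lo111_12_5 (nat_lit 522)) (lo111_11_5 (nat_lit 363)))) (B (M (nat_lit 394) (B (M (nat_lit 426) (B (lo113_13_3 (nat_lit 393)) (lo110_12_4 (nat_lit 523)))) (B (M (nat_lit 426) (B (lo110_12_4 (nat_lit 523)) (lo110_11_4 (nat_lit 362)))) (M (nat_lit 395) (B (lo111_11_5 (nat_lit 363)) (lo111_15_7 (nat_lit 362))))))) (M (nat_lit 522) (B (lo110_17_6 (nat_lit 554)) (M (nat_lit 493) (B (lo113_15_1 (nat_lit 521)) (lo114_15_3 (nat_lit 494)))))))))) (M (nat_lit 457) (B (lo18_14_0 (nat_lit 456)) (M (nat_lit 493) (B (lo113_15_3 (nat_lit 490)) (lo114_15_3 (nat_lit 494)))))))))))))))))))))))) (B (M (nat_lit 493) (B (M (nat_lit 494) (B (M (nat_lit 495) (B (M (nat_lit 523) (B (lo114_15_1 (nat_lit 522)) (lo115_15_1 (nat_lit 524)))) (M (nat_lit 463) (B (lo111_15_2 (nat_lit 462)) (lo112_15_2 (nat_lit 464)))))) (B (M (nat_lit 495) (B (M (nat_lit 527) (B (lo111_15_0 (nat_lit 526)) (lo112_15_0 (nat_lit 528)))) (M (nat_lit 463) (B (lo111_15_2 (nat_lit 462)) (lo112_15_2 (nat_lit 464)))))) (B (M (nat_lit 495) (B (M (nat_lit 523) (B (lo114_15_1 (nat_lit 522)) (lo115_15_1 (nat_lit 524)))) (M (nat_lit 527) (B (lo111_15_0 (nat_lit 526)) (lo112_15_0 (nat_lit 528)))))) (M (nat_lit 490) (B (M (nat_lit 522) (B (lo113_15_1 (nat_lit 521)) (lo114_15_1 (nat_lit 523)))) (M (nat_lit 458) (B (lo113_15_3 (nat_lit 457)) (lo114_15_3 (nat_lit 459)))))))))) (B (K _ _ _ o1_s27795) (B (K _ _ _ o1_s27797) (B (K _ _ _ o1_s27816) (B (K _ _ _ o1_s27824) (B (K _ _ _ o1_s27830) (B (K _ _ _ o1_s26949) (B (M (nat_lit 459) (B (M (nat_lit 458) (B (lo114_15_3 (nat_lit 494)) (M (nat_lit 457) (B (lo18_14_0 (nat_lit 456)) (lo113_15_3 (nat_lit 490)))))) (B (K _ _ _ o1_s27840) (B (K _ _ _ o1_s27844) (B (M (nat_lit 427) (B (M (nat_lit 523) (B (lo111_16_6 (nat_lit 396)) (M (nat_lit 524) (B (lo111_13_4 (nat_lit 556)) (lo111_12_4 (nat_lit 395)))))) (B (M (nat_lit 395) (B (lo111_12_4 (nat_lit 524)) (M (nat_lit 396) (B (lo111_15_6 (nat_lit 364)) (M (nat_lit 394) (B (lo19_12_0 (nat_lit 393)) (lo111_15_7 (nat_lit 362)))))))) (B (M (nat_lit 523) (B (lo111_16_6 (nat_lit 396)) (M (nat_lit 522) (B (lo111_13_5 (nat_lit 554)) (lo114_15_1 (nat_lit 494)))))) (M (nat_lit 523) (B (M (nat_lit 522) (B (lo111_13_5 (nat_lit 554)) (lo114_15_1 (nat_lit 494)))) (M (nat_lit 524) (B (lo111_13_4 (nat_lit 556)) (lo111_12_4 (nat_lit 395)))))))))) (K _ _ _ o1_s27865)))))) (M (nat_lit 427) (B (K _ _ _ o1_s27867) (B (M (nat_lit 459) (B (M (nat_lit 523) (B (lo111_16_6 (nat_lit 396)) (M (nat_lit 524) (B (lo111_13_4 (nat_lit 556)) (lo111_12_4 (nat_lit 395)))))) (B (M (nat_lit 395) (B (lo111_12_4 (nat_lit 524)) (M (nat_lit 396) (B (lo111_15_6 (nat_lit 364)) (M (nat_lit 394) (B (lo19_12_0 (nat_lit 393)) (lo111_15_7 (nat_lit 362)))))))) (B (M (nat_lit 523) (B (lo111_16_6 (nat_lit 396)) (M (nat_lit 522) (B (lo111_13_5 (nat_lit 554)) (M (nat_lit 524) (B (lo19_16_2 (nat_lit 521)) (lo111_13_4 (nat_lit 556)))))))) (B (M (nat_lit 522) (B (M (nat_lit 523) (B (lo111_13_5 (nat_lit 554)) (lo111_16_6 (nat_lit 396)))) (M (nat_lit 490) (B (lo113_15_1 (nat_lit 521)) (lo111_12_5 (nat_lit 395)))))) (M (nat_lit 394) (B (M (nat_lit 426) (B (lo113_13_3 (nat_lit 393)) (lo111_16_7 (nat_lit 523)))) (M (nat_lit 395) (B (lo111_15_7 (nat_lit 362)) (lo111_12_4 (nat_lit 524))))))))))) (B (M (nat_lit 459) (B (M (nat_lit 395) (B (lo111_12_4 (nat_lit 524)) (M (nat_lit 396) (B (lo111_16_6 (nat_lit 523)) (lo111_15_6 (nat_lit 364)))))) (B (M (nat_lit 395) (B (lo111_12_4 (nat_lit 524)) (M (nat_lit 396) (B (lo111_15_6 (nat_lit 364)) (M (nat_lit 394) (B (lo19_12_0 (nat_lit 393)) (lo111_15_7 (nat_lit 362)))))))) (B (M (nat_lit 523) (B (lo111_16_6 (nat_lit 396)) (M (nat_lit 426) (B (lo111_16_7 (nat_lit 394)) (M (nat_lit 458) (B (lo113_13_1 (nat_lit 457)) (lo111_17_7 (nat_lit 555)))))))) (M (nat_lit 394) (B (M (nat_lit 426) (B (lo113_13_3 (nat_lit 393)) (lo111_16_7 (nat_lit 523)))) (M (nat_lit 395) (B (lo111_15_7 (nat_lit 362)) (lo111_12_4 (nat_lit 524)))))))))) (B (M (nat_lit 459) (B (M (nat_lit 395) (B (lo111_12_4 (nat_lit 524)) (M (nat_lit 396) (B (lo111_16_6 (nat_lit 523)) (lo111_15_6 (nat_lit 364)))))) (B (M (nat_lit 395) (B (lo111_12_4 (nat_lit 524)) (M (nat_lit 396) (B (lo111_15_6 (nat_lit 364)) (M (nat_lit 394) (B (lo19_12_0 (nat_lit 393)) (lo111_15_7 (nat_lit 362)))))))) (B (M (nat_lit 523) (B (lo111_16_6 (nat_lit 396)) (M (nat_lit 522) (B (lo111_13_5 (nat_lit 554)) (M (nat_lit 524) (B (lo19_16_2 (nat_lit 521)) (lo111_13_4 (nat_lit 556)))))))) (B (M (nat_lit 396) (B (lo111_16_6 (nat_lit 523)) (M (nat_lit 364) (B (lo111_15_6 (nat_lit 395)) (lo112_10_5 (nat_lit 332)))))) (M (nat_lit 524) (B (lo111_12_4 (nat_lit 395)) (M (nat_lit 556) (B (lo111_13_4 (nat_lit 523)) (lo112_18_7 (nat_lit 588))))))))))) (B (K _ _ _ o1_s27895) (B (K _ _ _ o1_s27906) (B (K _ _ _ o1_s27916) (B (K _ _ _ o1_s27923) (M (nat_lit 459) (B (M (nat_lit 396) (B (lo111_16_6 (nat_lit 523)) (M (nat_lit 364) (B (lo111_15_6 (nat_lit 395)) (lo112_10_5 (nat_lit 332)))))) (B (M (nat_lit 395) (B (M (nat_lit 396) (B (lo111_15_6 (nat_lit 364)) (M (nat_lit 394) (B (lo19_12_0 (nat_lit 393)) (lo111_15_7 (nat_lit 362)))))) (M (nat_lit 490) (B (lo111_12_5 (nat_lit 522)) (M (nat_lit 458) (B (lo113_15_3 (nat_lit 457)) (lo111_11_5 (nat_lit 363)))))))) (B (M (nat_lit 523) (B (lo111_16_6 (nat_lit 396)) (M (nat_lit 426) (B (lo111_16_7 (nat_lit 394)) (M (nat_lit 458) (B (lo113_13_1 (nat_lit 457)) (lo111_17_7 (nat_lit 555)))))))) (M (nat_lit 523) (B (M (nat_lit 522) (B (lo111_13_5 (nat_lit 554)) (M (nat_lit 521) (B (lo18_16_2 (nat_lit 520)) (lo113_15_1 (nat_lit 490)))))) (M (nat_lit 426) (B (lo111_16_7 (nat_lit 394)) (M (nat_lit 458) (B (lo113_13_1 (nat_lit 457)) (lo111_17_7 (nat_lit 555)))))))))))))))))))))))))))))) (M (nat_lit 459) (B (M (nat_lit 524) (B (M (nat_lit 460) (B (lo112_16_6 (nat_lit 397)) (M (nat_lit 427) (B (lo111_12_4 (nat_lit 395)) (lo112_17_7 (nat_lit 556)))))) (B (M (nat_lit 460) (B (lo112_16_6 (nat_lit 397)) (M (nat_lit 555) (B (lo111_17_6 (nat_lit 523)) (M (nat_lit 556) (B (lo112_14_5 (nat_lit 587)) (lo112_18_7 (nat_lit 588)))))))) (B (M (nat_lit 523) (B (M (nat_lit 460) (B (lo111_17_6 (nat_lit 555)) (lo112_16_6 (nat_lit 397)))) (M (nat_lit 522) (B (M (nat_lit 521) (B (lo18_16_2 (nat_lit 520)) (lo19_16_2 (nat_lit 493)))) (M (nat_lit 427) (B (lo111_13_5 (nat_lit 554)) (lo111_12_4 (nat_lit 395)))))))) (M (nat_lit 556) (B (lo112_18_7 (nat_lit 588)) (M (nat_lit 427) (B (lo111_13_4 (nat_lit 523)) (lo111_12_4 (nat_lit 395)))))))))) (B (M (nat_lit 524) (B (M (nat_lit 460) (B (lo112_16_6 (nat_lit 397)) (M (nat_lit 427) (B (lo111_12_4 (nat_lit 395)) (lo112_17_7 (nat_lit 556)))))) (B (M (nat_lit 460) (B (lo112_16_6 (nat_lit 397)) (M (nat_lit 555) (B (lo111_17_6 (nat_lit 523)) (M (nat_lit 556) (B (lo112_14_5 (nat_lit 587)) (lo112_18_7 (nat_lit 588)))))))) (B (M (nat_lit 523) (B (M (nat_lit 460) (B (lo111_17_6 (nat_lit 555)) (lo112_16_6 (nat_lit 397)))) (M (nat_lit 522) (B (M (nat_lit 427) (B (lo111_13_5 (nat_lit 554)) (lo111_12_4 (nat_lit 395)))) (M (nat_lit 493) (B (lo19_16_2 (nat_lit 521)) (lo114_15_1 (nat_lit 494)))))))) (M (nat_lit 556) (B (lo112_18_7 (nat_lit 588)) (M (nat_lit 427) (B (lo111_13_4 (nat_lit 523)) (lo111_12_4 (nat_lit 395)))))))))) (B (M (nat_lit 523) (B (M (nat_lit 460) (B (lo111_17_6 (nat_lit 555)) (M (nat_lit 524) (B (lo112_16_6 (nat_lit 397)) (M (nat_lit 427) (B (lo111_13_4 (nat_lit 556)) (lo111_12_4 (nat_lit 395)))))))) (B (K _ _ _ o1_s28504) (B (M (nat_lit 458) (B (M (nat_lit 457) (B (lo18_14_0 (nat_lit 456)) (lo19_14_2 (nat_lit 460)))) (B (M (nat_lit 460) (B (lo19_14_2 (nat_lit 457)) (lo111_17_6 (nat_lit 555)))) (B (M (nat_lit 555) (B (lo111_17_7 (nat_lit 426)) (lo111_17_6 (nat_lit 460)))) (M (nat_lit 457) (B (lo18_14_0 (nat_lit 456)) (M (nat_lit 493) (B (lo113_15_3 (nat_lit 490)) (lo114_15_3 (nat_lit 494)))))))))) (K _ _ _ o1_s27226))))) (B (M (nat_lit 524) (B (M (nat_lit 460) (B (lo112_16_6 (nat_lit 397)) (M (nat_lit 427) (B (lo111_12_4 (nat_lit 395)) (lo112_17_7 (nat_lit 556)))))) (B (M (nat_lit 460) (B (lo112_16_6 (nat_lit 397)) (M (nat_lit 556) (B (lo112_18_7 (nat_lit 588)) (M (nat_lit 557) (B (lo112_14_4 (nat_lit 589)) (lo112_13_4 (nat_lit 525)))))))) (B (M (nat_lit 493) (B (M (nat_lit 494) (B (lo114_15_3 (nat_lit 458)) (M (nat_lit 523) (B (lo114_15_1 (nat_lit 522)) (lo115_15_1 (nat_lit 495)))))) (B (M (nat_lit 494) (B (lo114_15_3 (nat_lit 458)) (M (nat_lit 460) (B (lo115_15_3 (nat_lit 495)) (lo112_16_6 (nat_lit 397)))))) (M (nat_lit 525) (B (M (nat_lit 490) (B (lo19_15_0 (nat_lit 489)) (lo110_15_0 (nat_lit 526)))) (M (nat_lit 460) (B (lo112_13_4 (nat_lit 557)) (lo112_16_6 (nat_lit 397))))))))) (M (nat_lit 556) (B (lo112_18_7 (nat_lit 588)) (M (nat_lit 427) (B (lo111_13_4 (nat_lit 523)) (lo111_12_4 (nat_lit 395)))))))))) (B (M (nat_lit 490) (B (M (nat_lit 460) (B (M (nat_lit 524) (B (lo112_16_6 (nat_lit 397)) (M (nat_lit 489) (B (lo18_15_2 (nat_lit 488)) (lo19_15_0 (nat_lit 525)))))) (B (M (nat_lit 524) (B (lo112_16_6 (nat_lit 397)) (M (nat_lit 427) (B (lo111_12_4 (nat_lit 395)) (lo112_17_7 (nat_lit 556)))))) (M (nat_lit 457) (B (lo19_14_2 (nat_lit 458)) (M (nat_lit 489) (B (lo18_15_2 (nat_lit 488)) (lo112_15_3 (nat_lit 456))))))))) (B (K _ _ _ o1_s27508) (B (M (nat_lit 458) (B (M (nat_lit 457) (B (lo113_15_3 (nat_lit 493)) (lo19_14_2 (nat_lit 460)))) (B (M (nat_lit 522) (B (M (nat_lit 493) (B (lo113_15_1 (nat_lit 521)) (lo114_15_3 (nat_lit 494)))) (M (nat_lit 427) (B (lo110_17_6 (nat_lit 554)) (lo111_12_5 (nat_lit 395)))))) (M (nat_lit 427) (B (M (nat_lit 457) (B (lo113_13_1 (nat_lit 426)) (lo19_14_2 (nat_lit 460)))) (M (nat_lit 395) (B (lo111_11_5 (nat_lit 363)) (lo111_12_4 (nat_lit 524))))))))) (B (M (nat_lit 524) (B (M (nat_lit 525) (B (lo19_15_0 (nat_lit 489)) (M (nat_lit 526) (B (lo110_15_0 (nat_lit 493)) (lo115_16_3 (nat_lit 527)))))) (M (nat_lit 427) (B (lo111_12_4 (nat_lit 395)) (M (nat_lit 460) (B (lo112_17_7 (nat_lit 556)) (lo112_16_6 (nat_lit 397)))))))) (K _ _ _ o1_s28560)))))) (B (M (nat_lit 490) (B (K _ _ _ o1_s28560) (B (M (nat_lit 460) (B (M (nat_lit 524) (B (lo112_16_6 (nat_lit 397)) (M (nat_lit 489) (B (lo18_15_2 (nat_lit 488)) (lo19_15_0 (nat_lit 525)))))) (B (M (nat_lit 524) (B (lo112_16_6 (nat_lit 397)) (M (nat_lit 525) (B (lo19_15_0 (nat_lit 489)) (lo112_13_4 (nat_lit 557)))))) (B (M (nat_lit 524) (B (lo112_16_6 (nat_lit 397)) (M (nat_lit 556) (B (lo112_18_7 (nat_lit 588)) (M (nat_lit 557) (B (lo112_14_4 (nat_lit 589)) (lo112_13_4 (nat_lit 525)))))))) (M (nat_lit 457) (B (lo19_14_2 (nat_lit 458)) (M (nat_lit 489) (B (lo18_15_2 (nat_lit 488)) (lo112_15_3 (nat_lit 456)))))))))) (B (K _ _ _ o1_s27467) (M (nat_lit 489) (B (M (nat_lit 488) (B (lo18_15_2 (nat_lit 460)) (M (nat_lit 524) (B (lo18_15_0 (nat_lit 523)) (lo19_15_0 (nat_lit 525)))))) (B (M (nat_lit 493) (B (M (nat_lit 521) (B (lo112_15_1 (nat_lit 520)) (lo113_15_1 (nat_lit 522)))) (M (nat_lit 525) (B (lo19_15_0 (nat_lit 524)) (lo110_15_0 (nat_lit 526)))))) (M (nat_lit 520) (B (lo112_15_1 (nat_lit 521)) (M (nat_lit 488) (B (lo111_15_1 (nat_lit 519)) (lo18_15_2 (nat_lit 460))))))))))))) (B (M (nat_lit 523) (B (M (nat_lit 524) (B (M (nat_lit 460) (B (lo111_17_6 (nat_lit 555)) (lo112_16_6 (nat_lit 397)))) (M (nat_lit 522) (B (M (nat_lit 521) (B (lo18_16_2 (nat_lit 520)) (lo19_16_2 (nat_lit 493)))) (M (nat_lit 427) (B (lo111_13_5 (nat_lit 554)) (lo111_12_4 (nat_lit 395)))))))) (B (M (nat_lit 524) (B (M (nat_lit 460) (B (lo111_17_6 (nat_lit 555)) (lo112_16_6 (nat_lit 397)))) (M (nat_lit 522) (B (M (nat_lit 427) (B (lo111_13_5 (nat_lit 554)) (lo111_12_4 (nat_lit 395)))) (M (nat_lit 493) (B (lo19_16_2 (nat_lit 521)) (lo114_15_1 (nat_lit 494)))))))) (B (K _ _ _ o1_s27203) (B (M (nat_lit 522) (B (M (nat_lit 493) (B (lo114_15_1 (nat_lit 494)) (M (nat_lit 521) (B (lo18_16_2 (nat_lit 520)) (lo19_16_2 (nat_lit 524)))))) (B (M (nat_lit 493) (B (lo114_15_1 (nat_lit 494)) (M (nat_lit 521) (B (lo113_15_1 (nat_lit 490)) (lo19_16_2 (nat_lit 524)))))) (B (M (nat_lit 427) (B (lo111_13_5 (nat_lit 554)) (M (nat_lit 395) (B (lo111_12_5 (nat_lit 490)) (lo111_12_4 (nat_lit 524)))))) (M (nat_lit 521) (B (lo18_16_2 (nat_lit 520)) (M (nat_lit 493) (B (lo113_15_1 (nat_lit 490)) (lo114_15_1 (nat_lit 494)))))))))) (K _ _ _ o1_s28599)))))) (B (M (nat_lit 490) (B (K _ _ _ o1_s27508) (B (K _ _ _ o1_s27516) (B (K _ _ _ o1_s27539) (B (K _ _ _ o1_s27569) (B (M (nat_lit 489) (B (M (nat_lit 488) (B (lo18_15_2 (nat_lit 460)) (M (nat_lit 456) (B (lo111_15_3 (nat_lit 455)) (lo112_15_3 (nat_lit 457)))))) (B (M (nat_lit 488) (B (lo18_15_2 (nat_lit 460)) (M (nat_lit 520) (B (lo111_15_1 (nat_lit 519)) (lo112_15_1 (nat_lit 521)))))) (B (M (nat_lit 457) (B (lo112_15_3 (nat_lit 456)) (M (nat_lit 458) (B (lo113_15_3 (nat_lit 493)) (lo19_14_2 (nat_lit 460)))))) (M (nat_lit 488) (B (M (nat_lit 520) (B (lo111_15_1 (nat_lit 519)) (lo112_15_1 (nat_lit 521)))) (M (nat_lit 456) (B (lo111_15_3 (nat_lit 455)) (lo112_15_3 (nat_lit 457)))))))))) (K _ _ _ o1_s27573))))))) (B (M (nat_lit 427) (B (M (nat_lit 524) (B (lo111_12_4 (nat_lit 395)) (M (nat_lit 556) (B (lo111_13_4 (nat_lit 523)) (lo112_18_7 (nat_lit 588)))))) (B (M (nat_lit 458) (B (M (nat_lit 457) (B (lo18_14_0 (nat_lit 456)) (lo113_13_1 (nat_lit 426)))) (M (nat_lit 395) (B (lo111_12_4 (nat_lit 524)) (M (nat_lit 490) (B (lo111_12_5 (nat_lit 522)) (lo111_11_5 (nat_lit 363)))))))) (B (M (nat_lit 523) (B (M (nat_lit 426) (B (lo111_16_7 (nat_lit 394)) (M (nat_lit 458) (B (lo113_13_1 (nat_lit 457)) (lo111_17_7 (nat_lit 555)))))) (M (nat_lit 524) (B (lo111_13_4 (nat_lit 556)) (M (nat_lit 522) (B (lo111_13_5 (nat_lit 554)) (M (nat_lit 521) (B (lo18_16_2 (nat_lit 520)) (lo19_16_2 (nat_lit 493)))))))))) (K _ _ _ o1_s27504))))) (M (nat_lit 523) (B (M (nat_lit 460) (B (lo111_17_6 (nat_lit 555)) (M (nat_lit 524) (B (lo112_16_6 (nat_lit 397)) (M (nat_lit 427) (B (lo111_13_4 (nat_lit 556)) (lo111_12_4 (nat_lit 395)))))))) (B (K _ _ _ o1_s28504) (B (K _ _ _ o1_s28599) (M (nat_lit 427) (B (M (nat_lit 524) (B (lo111_13_4 (nat_lit 556)) (lo111_12_4 (nat_lit 395)))) (M (nat_lit 426) (B (lo111_16_7 (nat_lit 394)) (M (nat_lit 458) (B (lo113_13_1 (nat_lit 457)) (lo111_17_7 (nat_lit 555))))))))))))))))))))))))))))))) (M (nat_lit 460) (B (K _ _ _ o1_s26263) (B (M (nat_lit 524) (B (M (nat_lit 556) (B (lo112_17_6 (nat_lit 461)) (M (nat_lit 557) (B (lo112_14_4 (nat_lit 589)) (lo112_13_4 (nat_lit 525)))))) (B (M (nat_lit 396) (B (M (nat_lit 523) (B (lo112_13_5 (nat_lit 555)) (lo112_12_5 (nat_lit 491)))) (M (nat_lit 525) (B (lo112_13_4 (nat_lit 557)) (lo112_12_4 (nat_lit 493)))))) (M (nat_lit 556) (B (lo112_17_6 (nat_lit 461)) (M (nat_lit 427) (B (lo112_17_7 (nat_lit 459)) (lo112_16_7 (nat_lit 395))))))))) (B (K _ _ _ o1_s28627) (B (K _ _ _ o1_s28629) (B (M (nat_lit 491) (B (M (nat_lit 523) (B (lo112_12_5 (nat_lit 396)) (M (nat_lit 555) (B (lo111_18_6 (nat_lit 587)) (lo111_17_6 (nat_lit 459)))))) (B (M (nat_lit 396) (B (lo112_12_5 (nat_lit 523)) (M (nat_lit 364) (B (lo112_11_5 (nat_lit 459)) (M (nat_lit 363) (B (lo112_15_7 (nat_lit 395)) (lo112_14_7 (nat_lit 331)))))))) (B (M (nat_lit 493) (B (M (nat_lit 396) (B (lo112_12_4 (nat_lit 525)) (M (nat_lit 364) (B (lo112_11_5 (nat_lit 459)) (lo112_11_4 (nat_lit 461)))))) (B (M (nat_lit 490) (B (M (nat_lit 525) (B (lo110_15_0 (nat_lit 526)) (lo112_12_4 (nat_lit 396)))) (M (nat_lit 461) (B (lo19_15_2 (nat_lit 489)) (lo110_15_2 (nat_lit 462)))))) (B (M (nat_lit 490) (B (M (nat_lit 461) (B (lo19_15_2 (nat_lit 489)) (lo110_15_2 (nat_lit 462)))) (M (nat_lit 494) (B (M (nat_lit 458) (B (lo113_15_3 (nat_lit 457)) (lo114_15_3 (nat_lit 459)))) (M (nat_lit 526) (B (lo110_15_0 (nat_lit 525)) (lo111_15_0 (nat_lit 527)))))))) (B (K _ _ _ o1_s28637) (M (nat_lit 459) (B (M (nat_lit 458) (B (lo19_14_0 (nat_lit 457)) (lo114_15_3 (nat_lit 494)))) (M (nat_lit 396) (B (lo112_11_5 (nat_lit 364)) (lo112_12_4 (nat_lit 525))))))))))) (B (K _ _ _ o1_s26822) (K _ _ _ o1_s28640)))))) (B (M (nat_lit 491) (B (K _ _ _ o1_s28653) (B (M (nat_lit 523) (B (M (nat_lit 555) (B (lo111_18_6 (nat_lit 587)) (lo111_17_6 (nat_lit 459)))) (B (M (nat_lit 555) (B (lo111_17_6 (nat_lit 459)) (lo112_13_5 (nat_lit 524)))) (B (M (nat_lit 524) (B (M (nat_lit 525) (B (lo112_13_4 (nat_lit 557)) (M (nat_lit 526) (B (lo114_16_3 (nat_lit 490)) (lo115_16_3 (nat_lit 527)))))) (M (nat_lit 427) (B (lo112_16_7 (nat_lit 395)) (M (nat_lit 556) (B (lo111_13_4 (nat_lit 459)) (lo112_17_6 (nat_lit 461)))))))) (M (nat_lit 555) (B (lo111_18_6 (nat_lit 587)) (lo112_13_5 (nat_lit 524)))))))) (B (K _ _ _ o1_s28679) (B (M (nat_lit 524) (B (M (nat_lit 427) (B (lo112_16_7 (nat_lit 395)) (M (nat_lit 556) (B (lo112_17_7 (nat_lit 459)) (lo112_17_6 (nat_lit 461)))))) (B (M (nat_lit 556) (B (lo112_17_6 (nat_lit 461)) (M (nat_lit 557) (B (lo112_14_4 (nat_lit 589)) (lo112_13_4 (nat_lit 525)))))) (M (nat_lit 525) (B (lo112_13_4 (nat_lit 557)) (M (nat_lit 490) (B (lo19_15_0 (nat_lit 489)) (M (nat_lit 523) (B (lo114_16_3 (nat_lit 526)) (lo112_13_5 (nat_lit 555))))))))))) (B (M (nat_lit 524) (B (M (nat_lit 427) (B (lo112_16_7 (nat_lit 395)) (M (nat_lit 556) (B (lo112_17_7 (nat_lit 459)) (lo112_17_6 (nat_lit 461)))))) (B (M (nat_lit 556) (B (lo112_17_6 (nat_lit 461)) (M (nat_lit 557) (B (lo112_14_4 (nat_lit 589)) (lo112_13_4 (nat_lit 525)))))) (M (nat_lit 525) (B (lo112_13_4 (nat_lit 557)) (M (nat_lit 490) (B (lo19_15_0 (nat_lit 489)) (M (nat_lit 526) (B (lo110_15_0 (nat_lit 493)) (lo115_16_3 (nat_lit 527))))))))))) (B (M (nat_lit 524) (B (M (nat_lit 555) (B (lo112_13_5 (nat_lit 523)) (M (nat_lit 556) (B (lo112_14_5 (nat_lit 587)) (lo112_17_6 (nat_lit 461)))))) (B (M (nat_lit 461) (B (lo112_17_6 (nat_lit 556)) (M (nat_lit 427) (B (lo112_16_7 (nat_lit 395)) (M (nat_lit 462) (B (lo110_13_0 (nat_lit 426)) (lo115_14_1 (nat_lit 463)))))))) (M (nat_lit 525) (B (lo112_13_4 (nat_lit 557)) (M (nat_lit 490) (B (lo19_15_0 (nat_lit 489)) (M (nat_lit 526) (B (lo110_15_0 (nat_lit 493)) (lo115_16_3 (nat_lit 527))))))))))) (B (M (nat_lit 524) (B (M (nat_lit 555) (B (lo112_13_5 (nat_lit 523)) (M (nat_lit 556) (B (lo112_14_5 (nat_lit 587)) (lo112_17_6 (nat_lit 461)))))) (B (M (nat_lit 461) (B (lo112_17_6 (nat_lit 556)) (M (nat_lit 490) (B (lo19_15_2 (nat_lit 489)) (M (nat_lit 462) (B (lo110_15_2 (nat_lit 493)) (lo115_14_1 (nat_lit 463)))))))) (M (nat_lit 525) (B (lo112_13_4 (nat_lit 557)) (M (nat_lit 490) (B (lo19_15_0 (nat_lit 489)) (M (nat_lit 523) (B (lo114_16_3 (nat_lit 526)) (lo112_13_5 (nat_lit 555))))))))))) (B (M (nat_lit 490) (B (M (nat_lit 461) (B (lo19_15_2 (nat_lit 489)) (M (nat_lit 462) (B (lo114_14_1 (nat_lit 459)) (lo110_15_2 (nat_lit 493)))))) (B (M (nat_lit 493) (B (M (nat_lit 461) (B (lo110_15_2 (nat_lit 462)) (M (nat_lit 525) (B (lo110_15_0 (nat_lit 526)) (lo113_17_7 (nat_lit 557)))))) (M (nat_lit 523) (B (M (nat_lit 522) (B (lo113_15_1 (nat_lit 521)) (lo114_15_1 (nat_lit 494)))) (M (nat_lit 555) (B (lo111_17_6 (nat_lit 459)) (lo112_13_5 (nat_lit 524)))))))) (B (M (nat_lit 461) (B (lo19_15_2 (nat_lit 489)) (M (nat_lit 462) (B (lo110_15_2 (nat_lit 493)) (lo115_14_1 (nat_lit 463)))))) (B (M (nat_lit 461) (B (lo19_15_2 (nat_lit 489)) (M (nat_lit 462) (B (lo114_14_1 (nat_lit 459)) (lo115_14_1 (nat_lit 463)))))) (M (nat_lit 493) (B (M (nat_lit 525) (B (lo110_15_0 (nat_lit 526)) (M (nat_lit 524) (B (lo19_15_0 (nat_lit 489)) (lo112_13_4 (nat_lit 557)))))) (B (M (nat_lit 523) (B (M (nat_lit 522) (B (lo113_15_1 (nat_lit 521)) (lo114_15_1 (nat_lit 494)))) (M (nat_lit 555) (B (lo111_17_6 (nat_lit 459)) (lo112_13_5 (nat_lit 524)))))) (M (nat_lit 494) (B (M (nat_lit 522) (B (lo113_15_1 (nat_lit 521)) (lo114_15_1 (nat_lit 523)))) (M (nat_lit 526) (B (lo110_15_0 (nat_lit 525)) (lo111_15_0 (nat_lit 527)))))))))))))) (B (K _ _ _ o1_s28640) (K _ _ _ o1_s28729))))))))))) (K _ _ _ o1_s28232)))))))))))))))))))))) _ _ _ (by decide +kernel)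
theorem o1_s29032 : Sem (nat_lit 2079502270590611144721387319431694109223559496080491823815870606243499098785535872824496148979938418668462592195208978120241577984) (nat_lit 192214334528410459247243246955213992065749658161132887703214808909167599735882186064960461034017583925922973508083260656632656758226825021071848065031536115712) (nat_lit 192214334528410459247243246955213992065749658161132887703214808909167599735882186064960461034017583925922973508083260656632656758226825021071848065031536115712) := sem_of_chk (M (nat_lit 365) (B (K _ _ _ o1_s28853) (B (K _ _ _ o1_s28962) (B (K _ _ _ o1_s28901) (B (K _ _ _ o1_s28924) (B (K _ _ _ o1_s28935) (B (M (nat_lit 396) (B (M (nat_lit 333) (B (lo112_14_6 (nat_lit 460)) (M (nat_lit 332) (B (lo112_13_6 (nat_lit 301)) (lo112_10_4 (nat_lit 461)))))) (B (K _ _ _ o1_s29026) (B (K _ _ _ o1_s28941) (M (nat_lit 333) (B (lo112_14_6 (nat_lit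 460)) (M (nat_lit 301) (B (lo112_13_6 (nat_lit 332)) (lo113_8_5 (nat_lit 269)))))))))) (K _ _ _ o1_s28953)))))))) _ _ _ (by decide +kernel)
theorem o1_s33819 : Sem (nat_lit 2079502270590611144683810638107312777577327806531862431377859685460965980854219217279980804578104683573043408221052678871730618368) (nat_lit 2719426531199736977064648600925016876815791694311391948964189379061965682370473014658478949514271221325252402722121772200780543356372330661804732202421477249920129335169665000085949251584) (nat_lit 2719426531199736977064648600925016876815791694311391948964189379061965682370473014658478949514271221325252402722121772200780543356372330661804732202421477249920129335169665000085949251584) := sem_of_chk (M (nat_lit 426) (B (M (nat_lit 427) (B (M (nat_lit 461) (B (lo110_13_0 (nat_lit 462)) (M (nat_lit 425) (B (lo19_13_0 (nat_lit 460)) (M (nat_lit 397) (B (lo110_13_2 (nat_lit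 398)) (lo19_13_2 (nat_lit 396)))))))) (B (M (nat_lit 425) (B (M (nat_lit 397) (B (lo110_13_2 (nat_lit 398)) (lo19_13_2 (nat_lit 396)))) (M (nat_lit 457) (B (lo113_13_1 (nat_lit 458)) (lo112_13_1 (nat_lit 456)))))) (B (M (nat_lit 425) (B (M (nat_lit 461) (B (lo110_13_0 (nat_lit 462)) (lo19_13_0 (nat_lit 460)))) (M (nat_lit 457) (B (lo113_13_1 (nat_lit 458)) (lo112_13_1 (nat_lit 456)))))) (K _ _ _ o1_s31345))))) (B (M (nat_lit 427) (B (M (nat_lit 425) (B (M (nat_lit 397) (B (lo110_13_2 (nat_lit 398)) (lo19_13_2 (nat_lit 396)))) (M (nat_lit 457) (B (lo113_13_1 (nat_lit 458)) (lo112_13_1 (nat_lit 456)))))) (B (M (nat_lit 425) (B (M (nat_lit 457) (B (lo113_13_1 (nat_lit 458)) (lo112_13_1 (nat_lit 456)))) (M (nat_lit 393) (B (lo113_13_3 (nat_lit 394)) (lo112_13_3 (nat_lit 392)))))) (B (M (nat_lit 425) (B (M (nat_lit 397) (B (lo110_13_2 (nat_lit 398)) (lo19_13_2 (nat_lit 396)))) (M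 (nat_lit 393) (B (lo113_13_3 (nat_lit 394)) (lo112_13_3 (nat_lit 392)))))) (K _ _ _ o1_s31345))))) (B (M (nat_lit 427) (B (M (nat_lit 425) (B (M (nat_lit 461) (B (lo110_13_0 (nat_lit 462)) (lo19_13_0 (nat_lit 460)))) (M (nat_lit 457) (B (lo113_13_1 (nat_lit 458)) (lo112_13_1 (nat_lit 456)))))) (B (M (nat_lit 425) (B (M (nat_lit 457) (B (lo113_13_1 (nat_lit 458)) (lo112_13_1 (nat_lit 456)))) (M (nat_lit 393) (B (lo113_13_3 (nat_lit 394)) (lo112_13_3 (nat_lit 392)))))) (B (M (nat_lit 425) (B (M (nat_lit 461) (B (lo110_13_0 (nat_lit 462)) (lo19_13_0 (nat_lit 460)))) (M (nat_lit 393) (B (lo113_13_3 (nat_lit 394)) (lo112_13_3 (nat_lit 392)))))) (K _ _ _ o1_s31345))))) (B (M (nat_lit 427) (B (M (nat_lit 425) (B (M (nat_lit 461) (B (lo110_13_0 (nat_lit 462)) (lo19_13_0 (nat_lit 460)))) (M (nat_lit 457) (B (lo113_13_1 (nat_lit 458)) (lo112_13_1 (nat_lit 456)))))) (B (M (nat_lit 425)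 (B (M (nat_lit 457) (B (lo113_13_1 (nat_lit 458)) (lo112_13_1 (nat_lit 456)))) (M (nat_lit 393) (B (lo113_13_3 (nat_lit 394)) (lo112_13_3 (nat_lit 392)))))) (B (M (nat_lit 425) (B (M (nat_lit 461) (B (lo110_13_0 (nat_lit 462)) (lo19_13_0 (nat_lit 460)))) (M (nat_lit 393) (B (lo113_13_3 (nat_lit 394)) (lo112_13_3 (nat_lit 392)))))) (M (nat_lit 394) (B (lo113_13_3 (nat_lit 393)) (M (nat_lit 458) (B (lo113_13_1 (nat_lit 457)) (M (nat_lit 362) (B (M (nat_lit 459) (B (lo110_11_4 (nat_lit 491)) (lo110_10_4 (nat_lit 330)))) (B (M (nat_lit 331) (B (lo110_14_6 (nat_lit 363)) (M (nat_lit 330) (B (lo110_10_4 (nat_lit 459)) (lo110_13_6 (nat_lit 299)))))) (B (M (nat_lit 330) (B (M (nat_lit 331) (B (lo110_14_6 (nat_lit 363)) (lo110_13_6 (nat_lit 299)))) (M (nat_lit 329) (B (lo110_14_7 (nat_lit 361)) (lo110_13_7 (nat_lit 297)))))) (M (nat_lit 490) (B (M (nat_lit 491) (B (lo110_12_4 (nat_lit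 523)) (lo110_11_4 (nat_lit 459)))) (M (nat_lit 363) (B (lo110_15_6 (nat_lit 395)) (lo110_14_6 (nat_lit 331)))))))))))))))))) (B (M (nat_lit 427) (B (M (nat_lit 425) (B (M (nat_lit 461) (B (lo110_13_0 (nat_lit 462)) (lo19_13_0 (nat_lit 460)))) (M (nat_lit 457) (B (lo113_13_1 (nat_lit 458)) (lo112_13_1 (nat_lit 456)))))) (B (M (nat_lit 425) (B (M (nat_lit 397) (B (lo110_13_2 (nat_lit 398)) (lo19_13_2 (nat_lit 396)))) (M (nat_lit 393) (B (lo113_13_3 (nat_lit 394)) (lo112_13_3 (nat_lit 392)))))) (M (nat_lit 395) (B (M (nat_lit 394) (B (lo113_13_3 (nat_lit 393)) (M (nat_lit 458) (B (lo113_13_1 (nat_lit 457)) (M (nat_lit 363) (B (lo111_10_5 (nat_lit 331)) (lo110_15_6 (nat_lit 490)))))))) (B (M (nat_lit 396) (B (M (nat_lit 397) (B (lo110_13_2 (nat_lit 398)) (M (nat_lit 461) (B (lo110_13_0 (nat_lit 462)) (M (nat_lit 493) (B (lo113_16_7 (nat_lit 525)) (lo113_15_7 (nat_lit 364))))))))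 (B (M (nat_lit 394) (B (lo19_12_0 (nat_lit 393)) (M (nat_lit 362) (B (M (nat_lit 397) (B (lo110_13_2 (nat_lit 398)) (lo113_12_3 (nat_lit 361)))) (M (nat_lit 330) (B (lo110_10_4 (nat_lit 459)) (lo110_9_4 (nat_lit 298)))))))) (M (nat_lit 461) (B (lo110_13_0 (nat_lit 462)) (M (nat_lit 364) (B (lo112_10_4 (nat_lit 332)) (M (nat_lit 493) (B (lo113_16_7 (nat_lit 525)) (lo112_11_4 (nat_lit 460))))))))))) (M (nat_lit 458) (B (lo113_13_1 (nat_lit 457)) (M (nat_lit 363) (B (lo111_10_5 (nat_lit 331)) (M (nat_lit 490) (B (lo111_11_5 (nat_lit 459)) (lo110_16_6 (nat_lit 522)))))))))))))) (B (M (nat_lit 461) (B (M (nat_lit 427) (B (lo110_13_0 (nat_lit 462)) (M (nat_lit 425) (B (lo19_13_0 (nat_lit 460)) (M (nat_lit 457) (B (lo113_13_1 (nat_lit 458)) (lo112_13_1 (nat_lit 456)))))))) (B (M (nat_lit 396) (B (M (nat_lit 493) (B (lo113_16_7 (nat_lit 525)) (M (nat_lit 364) (B (lo113_15_7 (nat_lit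 397)) (lo112_10_4 (nat_lit 332)))))) (B (M (nat_lit 364) (B (lo112_10_4 (nat_lit 332)) (M (nat_lit 493) (B (lo113_15_7 (nat_lit 397)) (lo112_11_4 (nat_lit 460)))))) (B (M (nat_lit 394) (B (M (nat_lit 393) (B (lo19_12_0 (nat_lit 395)) (lo113_13_3 (nat_lit 427)))) (B (M (nat_lit 395) (B (lo19_12_0 (nat_lit 393)) (K _ _ _ o1_s31415))) (B (M (nat_lit 427) (B (lo113_13_3 (nat_lit 393)) (M (nat_lit 397) (B (lo110_13_2 (nat_lit 398)) (lo19_13_2 (nat_lit 425)))))) (M (nat_lit 395) (B (M (nat_lit 425) (B (lo113_12_1 (nat_lit 397)) (M (nat_lit 427) (B (lo19_13_0 (nat_lit 460)) (lo18_13_2 (nat_lit 424)))))) (B (M (nat_lit 427) (B (M (nat_lit 425) (B (lo19_13_0 (nat_lit 460)) (lo18_13_2 (nat_lit 424)))) (M (nat_lit 458) (B (lo113_13_1 (nat_lit 457)) (M (nat_lit 363) (B (lo111_10_5 (nat_lit 331)) (lo110_15_6 (nat_lit 490)))))))) (B (M (nat_lit 397) (B (lo113_12_1 (nat_lit 425)) (M (nat_lit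 398) (B (lo110_13_2 (nat_lit 427)) (M (nat_lit 362) (B (lo114_12_3 (nat_lit 363)) (lo113_12_3 (nat_lit 361)))))))) (B (K _ _ _ o1_s31415) (K _ _ _ o1_s31456)))))))))) (B (M (nat_lit 364) (B (lo112_10_4 (nat_lit 332)) (M (nat_lit 493) (B (lo113_16_7 (nat_lit 525)) (lo112_11_4 (nat_lit 460)))))) (M (nat_lit 395) (B (M (nat_lit 394) (B (lo19_12_0 (nat_lit 393)) (M (nat_lit 425) (B (lo113_12_1 (nat_lit 397)) (M (nat_lit 427) (B (lo19_13_0 (nat_lit 460)) (lo18_13_2 (nat_lit 424)))))))) (B (M (nat_lit 427) (B (M (nat_lit 425) (B (lo19_13_0 (nat_lit 460)) (lo18_13_2 (nat_lit 424)))) (M (nat_lit 394) (B (lo19_12_0 (nat_lit 393)) (M (nat_lit 458) (B (lo113_13_1 (nat_lit 457)) (M (nat_lit 363) (B (lo111_10_5 (nat_lit 331)) (lo110_15_6 (nat_lit 490)))))))))) (B (M (nat_lit 397) (B (M (nat_lit 427) (B (lo110_13_2 (nat_lit 398)) (lo19_13_2 (nat_lit 425)))) (B (M (nat_lit 394) (B (lo19_12_0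 (nat_lit 393)) (lo113_12_1 (nat_lit 425)))) (M (nat_lit 398) (B (lo110_13_2 (nat_lit 427)) (M (nat_lit 493) (B (lo113_15_6 (nat_lit 366)) (lo113_16_7 (nat_lit 525))))))))) (B (M (nat_lit 394) (B (lo19_12_0 (nat_lit 393)) (M (nat_lit 397) (B (lo113_12_1 (nat_lit 425)) (M (nat_lit 398) (B (M (nat_lit 493) (B (lo113_15_6 (nat_lit 366)) (lo113_16_7 (nat_lit 525)))) (M (nat_lit 362) (B (lo114_12_3 (nat_lit 363)) (lo113_12_3 (nat_lit 361)))))))))) (B (M (nat_lit 427) (B (M (nat_lit 397) (B (lo110_13_2 (nat_lit 398)) (lo19_13_2 (nat_lit 425)))) (B (M (nat_lit 425) (B (lo19_13_0 (nat_lit 460)) (lo19_13_2 (nat_lit 397)))) (B (M (nat_lit 460) (B (lo19_13_0 (nat_lit 425)) (M (nat_lit 492) (B (lo112_16_7 (nat_lit 524)) (lo112_15_7 (nat_lit 363)))))) (M (nat_lit 492) (B (M (nat_lit 460) (B (lo112_16_7 (nat_lit 524)) (lo112_15_7 (nat_lit 363)))) (B (M (nat_lit 363) (B (lo112_15_7 (nat_lit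 460)) (M (nat_lit 458) (B (lo113_13_1 (nat_lit 457)) (lo111_10_5 (nat_lit 331)))))) (M (nat_lit 397) (B (lo110_13_2 (nat_lit 398)) (M (nat_lit 493) (B (lo113_16_7 (nat_lit 525)) (lo113_12_5 (nat_lit 524))))))))))))) (M (nat_lit 394) (B (lo19_12_0 (nat_lit 393)) (K _ _ _ o1_s31456)))))))))))))) (B (K _ _ _ o1_s31508) (K _ _ _ o1_s31610))))) (B (M (nat_lit 458) (B (M (nat_lit 460) (B (K _ _ _ o1_s31620) (B (K _ _ _ o1_s31632) (B (M (nat_lit 394) (B (M (nat_lit 457) (B (lo19_14_2 (nat_lit 459)) (M (nat_lit 489) (B (lo110_11_5 (nat_lit 362)) (M (nat_lit 521) (B (lo110_12_5 (nat_lit 490)) (lo19_17_6 (nat_lit 553)))))))) (B (M (nat_lit 490) (B (M (nat_lit 393) (B (lo110_15_7 (nat_lit 361)) (M (nat_lit 395) (B (lo19_12_0 (nat_lit 396)) (lo110_15_6 (nat_lit 363)))))) (M (nat_lit 522) (B (M (nat_lit 523) (B (lo110_13_4 (nat_lit 555)) (lo110_12_4 (nat_lit 491)))) (M (nat_lit 521) (B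 (lo110_13_5 (nat_lit 553)) (lo110_12_5 (nat_lit 489)))))))) (B (M (nat_lit 457) (B (lo19_14_2 (nat_lit 459)) (M (nat_lit 489) (B (lo110_11_5 (nat_lit 362)) (M (nat_lit 521) (B (lo19_17_6 (nat_lit 553)) (lo19_16_6 (nat_lit 425)))))))) (B (M (nat_lit 457) (B (lo19_14_2 (nat_lit 459)) (M (nat_lit 489) (B (lo110_11_5 (nat_lit 362)) (M (nat_lit 521) (B (lo110_12_5 (nat_lit 490)) (lo19_16_6 (nat_lit 425)))))))) (M (nat_lit 459) (B (lo19_14_2 (nat_lit 457)) (M (nat_lit 491) (B (lo110_11_4 (nat_lit 362)) (M (nat_lit 523) (B (lo111_17_6 (nat_lit 555)) (lo110_12_4 (nat_lit 490))))))))))))) (B (K _ _ _ o1_s31676) (B (M (nat_lit 492) (B (M (nat_lit 524) (B (lo112_16_6 (nat_lit 397)) (M (nat_lit 556) (B (lo112_17_6 (nat_lit 461)) (M (nat_lit 557) (B (lo112_14_4 (nat_lit 589)) (lo112_13_4 (nat_lit 525)))))))) (B (M (nat_lit 524) (B (lo112_16_6 (nat_lit 397)) (M (nat_lit 556) (B (lo112_17_6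 (nat_lit 461)) (M (nat_lit 555) (B (lo112_14_5 (nat_lit 587)) (lo112_13_5 (nat_lit 523)))))))) (B (K _ _ _ o1_s31690) (B (K _ _ _ o1_s31698) (B (K _ _ _ o1_s31699) (M (nat_lit 491) (B (M (nat_lit 523) (B (lo112_12_5 (nat_lit 396)) (M (nat_lit 555) (B (lo111_18_6 (nat_lit 587)) (M (nat_lit 490) (B (lo110_13_4 (nat_lit 522)) (lo110_12_4 (nat_lit 394)))))))) (B (M (nat_lit 490) (B (M (nat_lit 493) (B (lo113_15_3 (nat_lit 457)) (M (nat_lit 461) (B (lo110_15_2 (nat_lit 462)) (lo19_15_2 (nat_lit 489)))))) (M (nat_lit 523) (B (lo110_12_4 (nat_lit 394)) (M (nat_lit 555) (B (lo111_18_6 (nat_lit 587)) (lo110_13_4 (nat_lit 522)))))))) (B (K _ _ _ o1_s31725) (M (nat_lit 493) (B (M (nat_lit 490) (B (lo113_15_3 (nat_lit 457)) (M (nat_lit 461) (B (lo110_15_2 (nat_lit 462)) (lo19_15_2 (nat_lit 489)))))) (B (M (nat_lit 525) (B (lo112_12_4 (nat_lit 396)) (M (nat_lit 490) (B (lo110_15_0 (nat_lit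 526)) (lo113_15_3 (nat_lit 457)))))) (M (nat_lit 525) (B (lo112_12_4 (nat_lit 396)) (M (nat_lit 557) (B (lo113_18_7 (nat_lit 589)) (lo113_17_7 (nat_lit 461))))))))))))))))))) (K _ _ _ o1_s31767))))))) (B (M (nat_lit 394) (B (K _ _ _ o1_s31781) (B (K _ _ _ o1_s31792) (B (K _ _ _ o1_s31797) (B (M (nat_lit 490) (B (M (nat_lit 393) (B (lo110_15_7 (nat_lit 361)) (M (nat_lit 395) (B (lo19_12_0 (nat_lit 396)) (lo110_15_6 (nat_lit 363)))))) (B (M (nat_lit 522) (B (M (nat_lit 521) (B (lo110_13_5 (nat_lit 553)) (lo110_12_5 (nat_lit 489)))) (M (nat_lit 393) (B (lo110_16_7 (nat_lit 425)) (lo110_15_7 (nat_lit 361)))))) (M (nat_lit 362) (B (M (nat_lit 363) (B (lo110_15_6 (nat_lit 395)) (lo110_14_6 (nat_lit 331)))) (M (nat_lit 489) (B (lo110_12_5 (nat_lit 521)) (lo110_11_5 (nat_lit 457))))))))) (B (K _ _ _ o1_s31814) (B (M (nat_lit 362) (B (M (nat_lit 457) (B (lo110_11_5 (nat_lit 489)) (M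 (nat_lit 459) (B (lo19_14_2 (nat_lit 460)) (lo110_11_4 (nat_lit 491)))))) (B (M (nat_lit 330) (B (M (nat_lit 457) (B (lo110_11_5 (nat_lit 489)) (lo110_10_5 (nat_lit 425)))) (M (nat_lit 329) (B (lo110_14_7 (nat_lit 361)) (lo110_13_7 (nat_lit 297)))))) (M (nat_lit 490) (B (M (nat_lit 491) (B (lo110_12_4 (nat_lit 523)) (lo110_11_4 (nat_lit 459)))) (M (nat_lit 361) (B (lo110_15_7 (nat_lit 393)) (lo110_14_7 (nat_lit 329))))))))) (B (K _ _ _ o1_s31825) (K _ _ _ o1_s31828))))))))) (B (M (nat_lit 394) (B (K _ _ _ o1_s31781) (B (M (nat_lit 490) (B (M (nat_lit 362) (B (M (nat_lit 363) (B (lo110_15_6 (nat_lit 395)) (lo110_14_6 (nat_lit 331)))) (M (nat_lit 361) (B (lo110_15_7 (nat_lit 393)) (lo110_14_7 (nat_lit 329)))))) (B (M (nat_lit 362) (B (M (nat_lit 491) (B (lo110_12_4 (nat_lit 523)) (lo110_11_4 (nat_lit 459)))) (M (nat_lit 361) (B (lo110_15_7 (nat_lit 393)) (lo110_14_7 (nat_lit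 329)))))) (M (nat_lit 522) (B (M (nat_lit 523) (B (lo110_13_4 (nat_lit 555)) (lo110_12_4 (nat_lit 491)))) (M (nat_lit 521) (B (lo110_13_5 (nat_lit 553)) (lo110_12_5 (nat_lit 489))))))))) (B (K _ _ _ o1_s31834) (B (M (nat_lit 362) (B (M (nat_lit 330) (B (M (nat_lit 331) (B (lo110_14_6 (nat_lit 363)) (lo110_13_6 (nat_lit 299)))) (M (nat_lit 329) (B (lo110_14_7 (nat_lit 361)) (lo110_13_7 (nat_lit 297)))))) (M (nat_lit 490) (B (M (nat_lit 491) (B (lo110_12_4 (nat_lit 523)) (lo110_11_4 (nat_lit 459)))) (M (nat_lit 489) (B (lo110_12_5 (nat_lit 521)) (lo110_11_5 (nat_lit 457)))))))) (B (M (nat_lit 490) (B (M (nat_lit 362) (B (M (nat_lit 489) (B (lo110_12_5 (nat_lit 521)) (lo110_11_5 (nat_lit 457)))) (M (nat_lit 361) (B (lo110_15_7 (nat_lit 393)) (lo110_14_7 (nat_lit 329)))))) (B (M (nat_lit 522) (B (M (nat_lit 523) (B (lo110_13_4 (nat_lit 555)) (lo110_12_4 (nat_lit 491)))) (M (nat_lit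 521) (B (lo110_13_5 (nat_lit 553)) (lo110_12_5 (nat_lit 489)))))) (M (nat_lit 362) (B (M (nat_lit 491) (B (lo110_12_4 (nat_lit 523)) (lo110_11_4 (nat_lit 459)))) (M (nat_lit 361) (B (lo110_15_7 (nat_lit 393)) (lo110_14_7 (nat_lit 329))))))))) (B (M (nat_lit 362) (B (M (nat_lit 457) (B (lo110_11_5 (nat_lit 489)) (M (nat_lit 330) (B (lo110_10_5 (nat_lit 425)) (M (nat_lit 331) (B (lo110_14_6 (nat_lit 363)) (lo110_13_6 (nat_lit 299)))))))) (B (M (nat_lit 330) (B (M (nat_lit 457) (B (lo110_11_5 (nat_lit 489)) (lo110_10_5 (nat_lit 425)))) (M (nat_lit 329) (B (lo110_14_7 (nat_lit 361)) (lo110_13_7 (nat_lit 297)))))) (B (M (nat_lit 396) (B (M (nat_lit 395) (B (lo19_12_0 (nat_lit 393)) (M (nat_lit 397) (B (lo113_12_1 (nat_lit 425)) (lo113_12_3 (nat_lit 361)))))) (B (M (nat_lit 395) (B (lo19_12_0 (nat_lit 393)) (M (nat_lit 361) (B (lo110_14_7 (nat_lit 329)) (M (nat_lit 363) (B (lo18_11_0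 (nat_lit 360)) (lo110_14_6 (nat_lit 331)))))))) (B (M (nat_lit 364) (B (M (nat_lit 461) (B (lo112_10_4 (nat_lit 332)) (M (nat_lit 493) (B (lo113_16_7 (nat_lit 525)) (lo113_15_7 (nat_lit 397)))))) (B (M (nat_lit 332) (B (lo112_10_4 (nat_lit 461)) (M (nat_lit 331) (B (lo112_13_7 (nat_lit 299)) (lo110_14_6 (nat_lit 363)))))) (M (nat_lit 363) (B (lo110_14_6 (nat_lit 331)) (M (nat_lit 361) (B (lo19_11_0 (nat_lit 397)) (lo110_14_7 (nat_lit 329))))))))) (M (nat_lit 395) (B (lo19_12_0 (nat_lit 393)) (M (nat_lit 363) (B (lo110_14_6 (nat_lit 331)) (M (nat_lit 397) (B (lo114_12_3 (nat_lit 398)) (lo113_12_1 (nat_lit 425)))))))))))) (M (nat_lit 330) (B (M (nat_lit 331) (B (lo110_14_6 (nat_lit 363)) (lo110_13_6 (nat_lit 299)))) (M (nat_lit 329) (B (lo110_14_7 (nat_lit 361)) (lo110_13_7 (nat_lit 297)))))))))) (B (K _ _ _ o1_s31825) (B (K _ _ _ o1_s31828) (M (nat_lit 362) (B (M (nat_lit 490)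 (B (M (nat_lit 491) (B (lo110_12_4 (nat_lit 523)) (lo110_11_4 (nat_lit 459)))) (M (nat_lit 489) (B (lo110_12_5 (nat_lit 521)) (lo110_11_5 (nat_lit 457)))))) (B (M (nat_lit 490) (B (M (nat_lit 363) (B (lo110_15_6 (nat_lit 395)) (lo110_14_6 (nat_lit 331)))) (M (nat_lit 489) (B (lo110_12_5 (nat_lit 521)) (lo110_11_5 (nat_lit 457)))))) (B (M (nat_lit 457) (B (lo110_11_5 (nat_lit 489)) (M (nat_lit 330) (B (lo110_10_5 (nat_lit 425)) (M (nat_lit 331) (B (lo110_14_6 (nat_lit 363)) (lo110_13_6 (nat_lit 299)))))))) (M (nat_lit 490) (B (M (nat_lit 491) (B (lo110_12_4 (nat_lit 523)) (lo110_11_4 (nat_lit 459)))) (M (nat_lit 363) (B (lo110_15_6 (nat_lit 395)) (lo110_14_6 (nat_lit 331))))))))))))))))))) (B (M (nat_lit 490) (B (M (nat_lit 394) (B (M (nat_lit 522) (B (M (nat_lit 521) (B (lo110_13_5 (nat_lit 553)) (lo110_12_5 (nat_lit 489)))) (M (nat_lit 393) (B (lo110_16_7 (nat_lit 425)) (lo110_15_7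 (nat_lit 361)))))) (B (M (nat_lit 362) (B (M (nat_lit 491) (B (lo110_12_4 (nat_lit 523)) (lo110_11_4 (nat_lit 459)))) (M (nat_lit 489) (B (lo110_12_5 (nat_lit 521)) (lo110_11_5 (nat_lit 457)))))) (M (nat_lit 522) (B (M (nat_lit 523) (B (lo110_13_4 (nat_lit 555)) (lo110_12_4 (nat_lit 491)))) (M (nat_lit 393) (B (lo110_16_7 (nat_lit 425)) (lo110_15_7 (nat_lit 361))))))))) (B (M (nat_lit 394) (B (M (nat_lit 522) (B (M (nat_lit 521) (B (lo110_13_5 (nat_lit 553)) (lo110_12_5 (nat_lit 489)))) (M (nat_lit 393) (B (lo110_16_7 (nat_lit 425)) (lo110_15_7 (nat_lit 361)))))) (B (M (nat_lit 362) (B (M (nat_lit 491) (B (lo110_12_4 (nat_lit 523)) (lo110_11_4 (nat_lit 459)))) (M (nat_lit 489) (B (lo110_12_5 (nat_lit 521)) (lo110_11_5 (nat_lit 457)))))) (B (M (nat_lit 459) (B (M (nat_lit 491) (B (lo110_12_4 (nat_lit 523)) (lo110_11_4 (nat_lit 362)))) (M (nat_lit 460) (B (lo19_14_2 (nat_lit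 457)) (M (nat_lit 461) (B (lo113_14_1 (nat_lit 489)) (lo113_14_3 (nat_lit 425)))))))) (M (nat_lit 459) (B (M (nat_lit 491) (B (lo110_12_4 (nat_lit 523)) (lo110_11_4 (nat_lit 362)))) (M (nat_lit 425) (B (M (nat_lit 460) (B (lo113_14_3 (nat_lit 461)) (lo19_14_2 (nat_lit 457)))) (M (nat_lit 393) (B (lo110_16_7 (nat_lit 522)) (lo110_15_7 (nat_lit 361)))))))))))) (B (M (nat_lit 394) (B (M (nat_lit 522) (B (M (nat_lit 521) (B (lo110_13_5 (nat_lit 553)) (lo110_12_5 (nat_lit 489)))) (M (nat_lit 393) (B (lo110_16_7 (nat_lit 425)) (lo110_15_7 (nat_lit 361)))))) (B (M (nat_lit 362) (B (M (nat_lit 363) (B (lo110_15_6 (nat_lit 395)) (lo110_14_6 (nat_lit 331)))) (M (nat_lit 489) (B (lo110_12_5 (nat_lit 521)) (lo110_11_5 (nat_lit 457)))))) (M (nat_lit 459) (B (M (nat_lit 363) (B (lo110_15_6 (nat_lit 395)) (M (nat_lit 362) (B (lo110_11_4 (nat_lit 491)) (lo110_14_6 (nat_lit 331)))))) (M (nat_lit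 425) (B (M (nat_lit 460) (B (lo113_14_3 (nat_lit 461)) (lo19_14_2 (nat_lit 457)))) (M (nat_lit 393) (B (lo110_16_7 (nat_lit 522)) (lo110_15_7 (nat_lit 361))))))))))) (B (M (nat_lit 522) (B (M (nat_lit 554) (B (M (nat_lit 555) (B (lo110_14_4 (nat_lit 587)) (lo110_13_4 (nat_lit 523)))) (M (nat_lit 425) (B (lo110_17_7 (nat_lit 457)) (lo110_16_7 (nat_lit 393)))))) (B (M (nat_lit 554) (B (M (nat_lit 553) (B (lo110_14_5 (nat_lit 585)) (lo110_13_5 (nat_lit 521)))) (M (nat_lit 425) (B (lo110_17_7 (nat_lit 457)) (lo110_16_7 (nat_lit 393)))))) (B (M (nat_lit 394) (B (M (nat_lit 521) (B (lo110_13_5 (nat_lit 553)) (lo110_12_5 (nat_lit 489)))) (M (nat_lit 393) (B (lo110_16_7 (nat_lit 425)) (lo110_15_7 (nat_lit 361)))))) (M (nat_lit 554) (B (M (nat_lit 555) (B (lo110_14_4 (nat_lit 587)) (lo110_13_4 (nat_lit 523)))) (M (nat_lit 553) (B (lo110_14_5 (nat_lit 585)) (lo110_13_5 (nat_lit 521))))))))))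 (B (M (nat_lit 489) (B (M (nat_lit 521) (B (lo110_12_5 (nat_lit 394)) (M (nat_lit 553) (B (lo19_18_6 (nat_lit 585)) (lo19_17_6 (nat_lit 457)))))) (B (M (nat_lit 491) (B (M (nat_lit 459) (B (M (nat_lit 460) (B (lo113_14_1 (nat_lit 461)) (lo19_14_2 (nat_lit 457)))) (B (M (nat_lit 460) (B (lo19_14_2 (nat_lit 457)) (lo18_15_2 (nat_lit 488)))) (M (nat_lit 523) (B (lo111_17_7 (nat_lit 555)) (M (nat_lit 488) (B (lo18_15_0 (nat_lit 524)) (lo17_15_2 (nat_lit 487))))))))) (B (M (nat_lit 459) (B (M (nat_lit 460) (B (lo19_14_2 (nat_lit 457)) (lo18_15_2 (nat_lit 488)))) (B (M (nat_lit 523) (B (lo111_17_7 (nat_lit 555)) (M (nat_lit 488) (B (lo18_15_0 (nat_lit 524)) (lo17_15_2 (nat_lit 487)))))) (M (nat_lit 457) (B (lo19_14_2 (nat_lit 460)) (M (nat_lit 492) (B (lo113_15_3 (nat_lit 493)) (lo18_14_0 (nat_lit 456))))))))) (B (M (nat_lit 460) (B (M (nat_lit 461) (B (lo19_15_2 (nat_lit 492)) (lo113_14_1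 (nat_lit 459)))) (B (M (nat_lit 459) (B (lo19_14_2 (nat_lit 457)) (lo18_15_2 (nat_lit 488)))) (M (nat_lit 492) (B (lo19_15_2 (nat_lit 461)) (M (nat_lit 457) (B (lo113_15_3 (nat_lit 493)) (lo112_15_3 (nat_lit 456))))))))) (B (M (nat_lit 492) (B (M (nat_lit 457) (B (lo113_15_3 (nat_lit 493)) (lo112_15_3 (nat_lit 456)))) (M (nat_lit 523) (B (M (nat_lit 524) (B (lo19_15_0 (nat_lit 525)) (lo18_15_0 (nat_lit 488)))) (M (nat_lit 555) (B (lo111_18_7 (nat_lit 587)) (lo111_17_7 (nat_lit 459)))))))) (B (M (nat_lit 492) (B (M (nat_lit 457) (B (lo113_15_3 (nat_lit 493)) (lo112_15_3 (nat_lit 456)))) (M (nat_lit 460) (B (lo19_15_2 (nat_lit 461)) (M (nat_lit 524) (B (lo19_15_0 (nat_lit 525)) (lo112_16_6 (nat_lit 397)))))))) (M (nat_lit 460) (B (M (nat_lit 461) (B (lo19_15_2 (nat_lit 492)) (lo113_14_1 (nat_lit 459)))) (B (M (nat_lit 524) (B (M (nat_lit 492) (B (lo19_15_0 (nat_lit 525)) (lo112_16_6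 (nat_lit 397)))) (M (nat_lit 488) (B (lo18_15_0 (nat_lit 523)) (lo18_15_2 (nat_lit 459)))))) (B (M (nat_lit 459) (B (lo113_14_1 (nat_lit 461)) (lo18_15_2 (nat_lit 488)))) (M (nat_lit 492) (B (lo19_15_2 (nat_lit 461)) (M (nat_lit 524) (B (lo19_15_0 (nat_lit 525)) (lo112_16_6 (nat_lit 397)))))))))))))))) (M (nat_lit 394) (B (lo110_12_5 (nat_lit 521)) (M (nat_lit 362) (B (M (nat_lit 491) (B (lo110_12_4 (nat_lit 523)) (lo110_11_4 (nat_lit 459)))) (M (nat_lit 363) (B (lo110_15_6 (nat_lit 395)) (lo110_14_6 (nat_lit 331))))))))))) (B (M (nat_lit 522) (B (M (nat_lit 554) (B (M (nat_lit 553) (B (lo110_14_5 (nat_lit 585)) (lo110_13_5 (nat_lit 521)))) (M (nat_lit 425) (B (lo110_17_7 (nat_lit 457)) (lo110_16_7 (nat_lit 393)))))) (B (M (nat_lit 523) (B (lo110_13_4 (nat_lit 555)) (M (nat_lit 524) (B (M (nat_lit 489) (B (lo113_16_3 (nat_lit 525)) (M (nat_lit 521) (B (lo112_16_3 (nat_lit 488))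 (lo110_13_5 (nat_lit 553)))))) (B (M (nat_lit 492) (B (M (nat_lit 521) (B (lo19_16_2 (nat_lit 493)) (lo110_13_5 (nat_lit 553)))) (B (M (nat_lit 556) (B (M (nat_lit 521) (B (lo19_16_0 (nat_lit 557)) (lo110_13_5 (nat_lit 553)))) (M (nat_lit 460) (B (lo112_17_6 (nat_lit 461)) (lo112_16_6 (nat_lit 397)))))) (B (M (nat_lit 493) (B (lo19_16_2 (nat_lit 521)) (M (nat_lit 397) (B (lo113_12_5 (nat_lit 461)) (lo112_16_6 (nat_lit 460)))))) (M (nat_lit 493) (B (M (nat_lit 397) (B (lo113_12_5 (nat_lit 461)) (lo112_16_6 (nat_lit 460)))) (M (nat_lit 491) (B (lo114_15_1 (nat_lit 494)) (lo113_15_3 (nat_lit 457)))))))))) (B (M (nat_lit 489) (B (lo113_16_3 (nat_lit 525)) (M (nat_lit 488) (B (lo18_15_0 (nat_lit 491)) (lo112_16_3 (nat_lit 521)))))) (M (nat_lit 489) (B (lo113_16_3 (nat_lit 525)) (M (nat_lit 488) (B (lo18_15_0 (nat_lit 491)) (lo17_15_0 (nat_lit 487)))))))))))) (B (M (nat_lit 554)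 (B (M (nat_lit 555) (B (lo110_14_4 (nat_lit 587)) (lo110_13_4 (nat_lit 523)))) (M (nat_lit 425) (B (lo110_17_7 (nat_lit 457)) (lo110_16_7 (nat_lit 393)))))) (M (nat_lit 554) (B (M (nat_lit 555) (B (lo110_14_4 (nat_lit 587)) (lo110_13_4 (nat_lit 523)))) (M (nat_lit 553) (B (lo110_14_5 (nat_lit 585)) (lo110_13_5 (nat_lit 521)))))))))) (B (M (nat_lit 394) (B (M (nat_lit 362) (B (M (nat_lit 363) (B (lo110_15_6 (nat_lit 395)) (lo110_14_6 (nat_lit 331)))) (M (nat_lit 489) (B (lo110_12_5 (nat_lit 521)) (lo110_11_5 (nat_lit 457)))))) (B (M (nat_lit 362) (B (M (nat_lit 491) (B (lo110_12_4 (nat_lit 523)) (lo110_11_4 (nat_lit 459)))) (M (nat_lit 489) (B (lo110_12_5 (nat_lit 521)) (lo110_11_5 (nat_lit 457)))))) (M (nat_lit 522) (B (M (nat_lit 523) (B (lo110_13_4 (nat_lit 555)) (lo110_12_4 (nat_lit 491)))) (M (nat_lit 393) (B (lo110_16_7 (nat_lit 425)) (lo110_15_7 (nat_lit 361)))))))))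 (B (M (nat_lit 394) (B (M (nat_lit 522) (B (M (nat_lit 523) (B (lo110_13_4 (nat_lit 555)) (lo110_12_4 (nat_lit 491)))) (M (nat_lit 393) (B (lo110_16_7 (nat_lit 425)) (lo110_15_7 (nat_lit 361)))))) (B (M (nat_lit 362) (B (M (nat_lit 491) (B (lo110_12_4 (nat_lit 523)) (lo110_11_4 (nat_lit 459)))) (M (nat_lit 363) (B (lo110_15_6 (nat_lit 395)) (lo110_14_6 (nat_lit 331)))))) (M (nat_lit 362) (B (M (nat_lit 363) (B (lo110_15_6 (nat_lit 395)) (lo110_14_6 (nat_lit 331)))) (M (nat_lit 425) (B (M (nat_lit 393) (B (lo110_16_7 (nat_lit 522)) (lo110_15_7 (nat_lit 361)))) (M (nat_lit 457) (B (lo110_11_5 (nat_lit 489)) (lo110_10_5 (nat_lit 330))))))))))) (B (M (nat_lit 522) (B (M (nat_lit 554) (B (M (nat_lit 553) (B (lo110_14_5 (nat_lit 585)) (lo110_13_5 (nat_lit 521)))) (M (nat_lit 425) (B (lo110_17_7 (nat_lit 457)) (lo110_16_7 (nat_lit 393)))))) (B (M (nat_lit 394) (B (M (nat_lit 523)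 (B (lo110_13_4 (nat_lit 555)) (lo110_12_4 (nat_lit 491)))) (M (nat_lit 393) (B (lo110_16_7 (nat_lit 425)) (lo110_15_7 (nat_lit 361)))))) (M (nat_lit 554) (B (M (nat_lit 555) (B (lo110_14_4 (nat_lit 587)) (lo110_13_4 (nat_lit 523)))) (M (nat_lit 553) (B (lo110_14_5 (nat_lit 585)) (lo110_13_5 (nat_lit 521))))))))) (M (nat_lit 394) (B (M (nat_lit 522) (B (M (nat_lit 521) (B (lo110_13_5 (nat_lit 553)) (lo110_12_5 (nat_lit 489)))) (M (nat_lit 393) (B (lo110_16_7 (nat_lit 425)) (lo110_15_7 (nat_lit 361)))))) (M (nat_lit 362) (B (M (nat_lit 491) (B (lo110_12_4 (nat_lit 523)) (lo110_11_4 (nat_lit 459)))) (M (nat_lit 363) (B (lo110_15_6 (nat_lit 395)) (lo110_14_6 (nat_lit 331)))))))))))))))))) (B (M (nat_lit 394) (B (K _ _ _ o1_s31792) (B (K _ _ _ o1_s31781) (B (K _ _ _ o1_s31797) (B (K _ _ _ o1_s31834) (B (K _ _ _ o1_s32038) (B (K _ _ _ o1_s31814) (B (M (nat_lit 460) (B (K _ _ _ o1_s32046)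 (B (K _ _ _ o1_s32048) (B (M (nat_lit 490) (B (M (nat_lit 393) (B (lo110_15_7 (nat_lit 361)) (M (nat_lit 395) (B (lo19_12_0 (nat_lit 396)) (lo110_15_6 (nat_lit 363)))))) (M (nat_lit 459) (B (lo19_14_2 (nat_lit 457)) (M (nat_lit 491) (B (lo110_12_4 (nat_lit 523)) (M (nat_lit 489) (B (lo18_15_2 (nat_lit 488)) (lo110_12_5 (nat_lit 521)))))))))) (B (K _ _ _ o1_s32061) (K _ _ _ o1_s32097)))))) (K _ _ _ o1_s32099))))))))) (B (M (nat_lit 394) (B (K _ _ _ o1_s31797) (B (K _ _ _ o1_s31834) (B (K _ _ _ o1_s31814) (B (M (nat_lit 396) (B (M (nat_lit 393) (B (lo19_12_0 (nat_lit 395)) (M (nat_lit 361) (B (lo110_15_7 (nat_lit 490)) (M (nat_lit 329) (B (lo110_14_7 (nat_lit 362)) (lo19_10_4 (nat_lit 425)))))))) (B (M (nat_lit 459) (B (M (nat_lit 460) (B (lo19_14_2 (nat_lit 457)) (M (nat_lit 491) (B (lo112_11_5 (nat_lit 364)) (lo110_11_4 (nat_lit 362)))))) (B (M (nat_lit 362) (B (lo110_11_4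 (nat_lit 491)) (M (nat_lit 330) (B (M (nat_lit 457) (B (lo110_11_5 (nat_lit 489)) (lo110_10_5 (nat_lit 425)))) (M (nat_lit 329) (B (lo110_14_7 (nat_lit 361)) (lo110_13_7 (nat_lit 297)))))))) (B (M (nat_lit 460) (B (lo19_14_2 (nat_lit 457)) (M (nat_lit 461) (B (lo113_14_3 (nat_lit 425)) (M (nat_lit 493) (B (lo110_14_0 (nat_lit 494)) (lo112_11_4 (nat_lit 364)))))))) (K _ _ _ o1_s32131))))) (B (M (nat_lit 393) (B (lo19_12_0 (nat_lit 395)) (M (nat_lit 361) (B (lo110_15_7 (nat_lit 490)) (M (nat_lit 329) (B (lo19_10_4 (nat_lit 425)) (lo19_9_4 (nat_lit 297)))))))) (B (M (nat_lit 393) (B (lo19_12_0 (nat_lit 395)) (M (nat_lit 361) (B (lo110_15_7 (nat_lit 490)) (M (nat_lit 329) (B (lo110_14_7 (nat_lit 362)) (lo19_9_4 (nat_lit 297)))))))) (M (nat_lit 459) (B (M (nat_lit 460) (B (lo19_14_2 (nat_lit 457)) (M (nat_lit 491) (B (lo112_11_5 (nat_lit 364)) (lo110_11_4 (nat_lit 362)))))) (B (M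 (nat_lit 362) (B (lo110_11_4 (nat_lit 491)) (M (nat_lit 425) (B (M (nat_lit 395) (B (lo19_12_0 (nat_lit 393)) (lo113_12_1 (nat_lit 397)))) (M (nat_lit 457) (B (lo110_11_5 (nat_lit 489)) (lo110_10_5 (nat_lit 330)))))))) (B (M (nat_lit 425) (B (M (nat_lit 460) (B (lo113_14_3 (nat_lit 461)) (lo19_14_2 (nat_lit 457)))) (M (nat_lit 395) (B (lo19_12_0 (nat_lit 393)) (lo113_12_1 (nat_lit 397)))))) (K _ _ _ o1_s32131)))))))))) (B (M (nat_lit 460) (B (K _ _ _ o1_s32046) (B (M (nat_lit 396) (B (M (nat_lit 395) (B (lo19_12_0 (nat_lit 393)) (M (nat_lit 363) (B (lo112_15_7 (nat_lit 492)) (lo110_15_6 (nat_lit 490)))))) (M (nat_lit 461) (B (M (nat_lit 493) (B (lo113_16_7 (nat_lit 525)) (lo112_11_4 (nat_lit 364)))) (M (nat_lit 459) (B (lo113_14_3 (nat_lit 425)) (lo19_14_2 (nat_lit 457)))))))) (B (K _ _ _ o1_s32048) (B (K _ _ _ o1_s32097) (B (M (nat_lit 459) (B (lo19_14_2 (nat_lit 457)) (M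 (nat_lit 461) (B (lo113_14_3 (nat_lit 425)) (M (nat_lit 462) (B (M (nat_lit 494) (B (lo111_14_0 (nat_lit 495)) (lo110_14_0 (nat_lit 493)))) (M (nat_lit 490) (B (lo114_14_1 (nat_lit 491)) (lo113_14_1 (nat_lit 489)))))))))) (M (nat_lit 396) (B (M (nat_lit 395) (B (lo19_12_0 (nat_lit 393)) (M (nat_lit 363) (B (lo112_15_7 (nat_lit 492)) (lo110_15_6 (nat_lit 490)))))) (M (nat_lit 364) (B (M (nat_lit 461) (B (lo112_11_4 (nat_lit 493)) (lo112_10_4 (nat_lit 332)))) (M (nat_lit 459) (B (lo19_14_2 (nat_lit 457)) (lo112_11_5 (nat_lit 491)))))))))))))) (B (M (nat_lit 362) (B (M (nat_lit 490) (B (M (nat_lit 363) (B (lo110_15_6 (nat_lit 395)) (lo110_14_6 (nat_lit 331)))) (M (nat_lit 361) (B (lo110_15_7 (nat_lit 393)) (lo110_14_7 (nat_lit 329)))))) (B (M (nat_lit 330) (B (M (nat_lit 331) (B (lo110_14_6 (nat_lit 363)) (lo110_13_6 (nat_lit 299)))) (M (nat_lit 329) (B (lo110_14_7 (nat_lit 361))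 (lo110_13_7 (nat_lit 297)))))) (B (M (nat_lit 457) (B (M (nat_lit 459) (B (lo19_14_2 (nat_lit 460)) (lo110_11_4 (nat_lit 491)))) (M (nat_lit 330) (B (lo110_10_5 (nat_lit 425)) (M (nat_lit 329) (B (lo110_14_7 (nat_lit 361)) (lo110_13_7 (nat_lit 297)))))))) (M (nat_lit 457) (B (M (nat_lit 459) (B (lo19_14_2 (nat_lit 460)) (lo110_11_4 (nat_lit 491)))) (M (nat_lit 330) (B (lo110_10_5 (nat_lit 425)) (M (nat_lit 331) (B (lo110_14_6 (nat_lit 363)) (lo110_13_6 (nat_lit 299)))))))))))) (B (K _ _ _ o1_s32220) (M (nat_lit 362) (B (M (nat_lit 457) (B (lo110_11_5 (nat_lit 489)) (M (nat_lit 459) (B (lo19_14_2 (nat_lit 460)) (lo110_11_4 (nat_lit 491)))))) (M (nat_lit 363) (B (lo110_14_6 (nat_lit 331)) (M (nat_lit 395) (B (lo110_15_6 (nat_lit 490)) (M (nat_lit 393) (B (lo19_12_0 (nat_lit 396)) (M (nat_lit 392) (B (lo18_12_2 (nat_lit 364)) (lo17_12_2 (nat_lit 391)))))))))))))))))))) (B (M (nat_lit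 394) (B (K _ _ _ o1_s31834) (B (M (nat_lit 490) (B (M (nat_lit 362) (B (M (nat_lit 363) (B (lo110_15_6 (nat_lit 395)) (lo110_14_6 (nat_lit 331)))) (M (nat_lit 489) (B (lo110_12_5 (nat_lit 521)) (lo110_11_5 (nat_lit 457)))))) (B (M (nat_lit 362) (B (M (nat_lit 489) (B (lo110_12_5 (nat_lit 521)) (lo110_11_5 (nat_lit 457)))) (M (nat_lit 361) (B (lo110_15_7 (nat_lit 393)) (lo110_14_7 (nat_lit 329)))))) (B (M (nat_lit 522) (B (M (nat_lit 521) (B (lo110_13_5 (nat_lit 553)) (lo110_12_5 (nat_lit 489)))) (M (nat_lit 393) (B (lo110_16_7 (nat_lit 425)) (lo110_15_7 (nat_lit 361)))))) (M (nat_lit 362) (B (M (nat_lit 363) (B (lo110_15_6 (nat_lit 395)) (lo110_14_6 (nat_lit 331)))) (M (nat_lit 361) (B (lo110_15_7 (nat_lit 393)) (lo110_14_7 (nat_lit 329)))))))))) (B (M (nat_lit 362) (B (M (nat_lit 457) (B (lo110_11_5 (nat_lit 489)) (M (nat_lit 330) (B (lo110_10_5 (nat_lit 425)) (M (nat_lit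 331) (B (lo110_14_6 (nat_lit 363)) (lo110_13_6 (nat_lit 299)))))))) (B (M (nat_lit 330) (B (M (nat_lit 457) (B (lo110_11_5 (nat_lit 489)) (lo110_10_5 (nat_lit 425)))) (M (nat_lit 329) (B (lo110_14_7 (nat_lit 361)) (lo110_13_7 (nat_lit 297)))))) (B (M (nat_lit 490) (B (M (nat_lit 489) (B (lo110_12_5 (nat_lit 521)) (lo110_11_5 (nat_lit 457)))) (M (nat_lit 361) (B (lo110_15_7 (nat_lit 393)) (lo110_14_7 (nat_lit 329)))))) (M (nat_lit 330) (B (M (nat_lit 331) (B (lo110_14_6 (nat_lit 363)) (lo110_13_6 (nat_lit 299)))) (M (nat_lit 329) (B (lo110_14_7 (nat_lit 361)) (lo110_13_7 (nat_lit 297)))))))))) (B (M (nat_lit 490) (B (M (nat_lit 522) (B (M (nat_lit 521) (B (lo110_13_5 (nat_lit 553)) (lo110_12_5 (nat_lit 489)))) (M (nat_lit 393) (B (lo110_16_7 (nat_lit 425)) (lo110_15_7 (nat_lit 361)))))) (B (M (nat_lit 362) (B (M (nat_lit 489) (B (lo110_12_5 (nat_lit 521)) (lo110_11_5 (nat_lit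 457)))) (M (nat_lit 361) (B (lo110_15_7 (nat_lit 393)) (lo110_14_7 (nat_lit 329)))))) (B (M (nat_lit 362) (B (M (nat_lit 361) (B (lo110_15_7 (nat_lit 393)) (lo110_14_7 (nat_lit 329)))) (B (M (nat_lit 330) (B (M (nat_lit 457) (B (lo110_11_5 (nat_lit 489)) (lo110_10_5 (nat_lit 425)))) (M (nat_lit 329) (B (lo110_14_7 (nat_lit 361)) (lo110_13_7 (nat_lit 297)))))) (M (nat_lit 457) (B (lo110_11_5 (nat_lit 489)) (M (nat_lit 425) (B (lo110_10_5 (nat_lit 330)) (M (nat_lit 522) (B (lo110_17_7 (nat_lit 554)) (lo110_16_7 (nat_lit 393))))))))))) (B (M (nat_lit 522) (B (M (nat_lit 393) (B (lo110_16_7 (nat_lit 425)) (lo110_15_7 (nat_lit 361)))) (M (nat_lit 554) (B (M (nat_lit 555) (B (lo110_14_4 (nat_lit 587)) (lo110_13_4 (nat_lit 523)))) (M (nat_lit 553) (B (lo110_14_5 (nat_lit 585)) (lo110_13_5 (nat_lit 521)))))))) (M (nat_lit 522) (B (M (nat_lit 521) (B (lo110_13_5 (nat_lit 553)) (lo110_12_5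 (nat_lit 489)))) (B (M (nat_lit 489) (B (lo110_12_5 (nat_lit 521)) (M (nat_lit 457) (B (lo110_11_5 (nat_lit 362)) (M (nat_lit 554) (B (lo110_18_7 (nat_lit 586)) (lo110_17_7 (nat_lit 425)))))))) (B (M (nat_lit 554) (B (M (nat_lit 555) (B (lo110_14_4 (nat_lit 587)) (lo110_13_4 (nat_lit 523)))) (M (nat_lit 457) (B (lo110_17_7 (nat_lit 425)) (M (nat_lit 489) (B (lo110_18_7 (nat_lit 586)) (lo110_11_5 (nat_lit 362)))))))) (M (nat_lit 554) (B (M (nat_lit 555) (B (lo110_14_4 (nat_lit 587)) (lo110_13_4 (nat_lit 523)))) (M (nat_lit 553) (B (lo110_14_5 (nat_lit 585)) (lo110_13_5 (nat_lit 521))))))))))))))) (B (K _ _ _ o1_s32277) (B (M (nat_lit 490) (B (M (nat_lit 393) (B (lo110_15_7 (nat_lit 361)) (M (nat_lit 395) (B (lo19_12_0 (nat_lit 396)) (lo110_15_6 (nat_lit 363)))))) (B (M (nat_lit 522) (B (M (nat_lit 521) (B (lo110_13_5 (nat_lit 553)) (lo110_12_5 (nat_lit 489)))) (M (nat_lit 393)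 (B (lo110_16_7 (nat_lit 425)) (lo110_15_7 (nat_lit 361)))))) (M (nat_lit 522) (B (M (nat_lit 521) (B (lo110_13_5 (nat_lit 553)) (lo110_12_5 (nat_lit 489)))) (B (M (nat_lit 489) (B (lo110_12_5 (nat_lit 521)) (M (nat_lit 554) (B (M (nat_lit 555) (B (lo110_14_4 (nat_lit 587)) (lo110_13_4 (nat_lit 523)))) (M (nat_lit 457) (B (lo110_18_7 (nat_lit 586)) (lo110_17_7 (nat_lit 425)))))))) (B (M (nat_lit 554) (B (M (nat_lit 555) (B (lo110_14_4 (nat_lit 587)) (lo110_13_4 (nat_lit 523)))) (M (nat_lit 586) (B (M (nat_lit 585) (B (lo110_15_5 (nat_lit 617)) (lo110_14_5 (nat_lit 553)))) (M (nat_lit 457) (B (lo110_18_7 (nat_lit 489)) (lo110_17_7 (nat_lit 425)))))))) (M (nat_lit 554) (B (M (nat_lit 555) (B (lo110_14_4 (nat_lit 587)) (lo110_13_4 (nat_lit 523)))) (M (nat_lit 553) (B (lo110_14_5 (nat_lit 585)) (lo110_13_5 (nat_lit 521))))))))))))) (B (K _ _ _ o1_s32319) (B (K _ _ _ o1_s32220) (B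 (K _ _ _ o1_s32320) (M (nat_lit 490) (B (M (nat_lit 362) (B (M (nat_lit 363) (B (lo110_15_6 (nat_lit 395)) (lo110_14_6 (nat_lit 331)))) (M (nat_lit 489) (B (lo110_12_5 (nat_lit 521)) (lo110_11_5 (nat_lit 457)))))) (B (M (nat_lit 522) (B (M (nat_lit 521) (B (lo110_13_5 (nat_lit 553)) (lo110_12_5 (nat_lit 489)))) (M (nat_lit 554) (B (M (nat_lit 555) (B (lo110_14_4 (nat_lit 587)) (lo110_13_4 (nat_lit 523)))) (M (nat_lit 425) (B (lo110_17_7 (nat_lit 457)) (lo110_16_7 (nat_lit 393)))))))) (B (M (nat_lit 425) (B (M (nat_lit 393) (B (lo110_16_7 (nat_lit 522)) (M (nat_lit 395) (B (lo19_12_0 (nat_lit 396)) (lo110_15_6 (nat_lit 363)))))) (B (M (nat_lit 457) (B (M (nat_lit 522) (B (lo110_17_7 (nat_lit 554)) (lo110_16_7 (nat_lit 393)))) (M (nat_lit 362) (B (lo110_11_5 (nat_lit 489)) (lo110_10_5 (nat_lit 330)))))) (M (nat_lit 362) (B (M (nat_lit 363) (B (lo110_15_6 (nat_lit 395)) (lo110_14_6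 (nat_lit 331)))) (M (nat_lit 457) (B (lo110_11_5 (nat_lit 489)) (lo110_10_5 (nat_lit 330))))))))) (M (nat_lit 522) (B (M (nat_lit 395) (B (lo110_15_6 (nat_lit 363)) (M (nat_lit 393) (B (lo19_12_0 (nat_lit 396)) (lo110_16_7 (nat_lit 425)))))) (M (nat_lit 554) (B (M (nat_lit 555) (B (lo110_14_4 (nat_lit 587)) (lo110_13_4 (nat_lit 523)))) (M (nat_lit 553) (B (lo110_14_5 (nat_lit 585)) (lo110_13_5 (nat_lit 521)))))))))))))))))))))) (B (M (nat_lit 394) (B (K _ _ _ o1_s31834) (B (M (nat_lit 490) (B (M (nat_lit 362) (B (M (nat_lit 363) (B (lo110_15_6 (nat_lit 395)) (lo110_14_6 (nat_lit 331)))) (M (nat_lit 361) (B (lo110_15_7 (nat_lit 393)) (lo110_14_7 (nat_lit 329)))))) (M (nat_lit 522) (B (M (nat_lit 523) (B (lo110_13_4 (nat_lit 555)) (lo110_12_4 (nat_lit 491)))) (M (nat_lit 521) (B (lo110_13_5 (nat_lit 553)) (lo110_12_5 (nat_lit 489)))))))) (B (M (nat_lit 490) (B (M (nat_lit 522)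 (B (M (nat_lit 523) (B (lo110_13_4 (nat_lit 555)) (lo110_12_4 (nat_lit 491)))) (M (nat_lit 393) (B (lo110_16_7 (nat_lit 425)) (lo110_15_7 (nat_lit 361)))))) (B (M (nat_lit 522) (B (M (nat_lit 521) (B (lo110_13_5 (nat_lit 553)) (lo110_12_5 (nat_lit 489)))) (M (nat_lit 393) (B (lo110_16_7 (nat_lit 425)) (lo110_15_7 (nat_lit 361)))))) (B (M (nat_lit 362) (B (M (nat_lit 489) (B (lo110_12_5 (nat_lit 521)) (lo110_11_5 (nat_lit 457)))) (M (nat_lit 361) (B (lo110_15_7 (nat_lit 393)) (lo110_14_7 (nat_lit 329)))))) (M (nat_lit 522) (B (M (nat_lit 523) (B (lo110_13_4 (nat_lit 555)) (lo110_12_4 (nat_lit 491)))) (M (nat_lit 521) (B (lo110_13_5 (nat_lit 553)) (lo110_12_5 (nat_lit 489)))))))))) (B (K _ _ _ o1_s32277) (B (K _ _ _ o1_s31825) (B (K _ _ _ o1_s32319) (B (K _ _ _ o1_s32320) (M (nat_lit 490) (B (M (nat_lit 522) (B (M (nat_lit 523) (B (lo110_13_4 (nat_lit 555)) (lo110_12_4 (nat_lit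 491)))) (M (nat_lit 521) (B (lo110_13_5 (nat_lit 553)) (lo110_12_5 (nat_lit 489)))))) (B (M (nat_lit 362) (B (M (nat_lit 363) (B (lo110_15_6 (nat_lit 395)) (lo110_14_6 (nat_lit 331)))) (M (nat_lit 489) (B (lo110_12_5 (nat_lit 521)) (lo110_11_5 (nat_lit 457)))))) (M (nat_lit 393) (B (M (nat_lit 395) (B (lo19_12_0 (nat_lit 396)) (lo110_15_6 (nat_lit 363)))) (M (nat_lit 523) (B (lo110_12_4 (nat_lit 491)) (M (nat_lit 522) (B (lo110_13_4 (nat_lit 555)) (lo110_16_7 (nat_lit 425))))))))))))))))))) (B (M (nat_lit 460) (B (K _ _ _ o1_s31620) (B (K _ _ _ o1_s31632) (B (M (nat_lit 492) (B (K _ _ _ o1_s31699) (B (M (nat_lit 491) (B (M (nat_lit 523) (B (lo112_12_5 (nat_lit 396)) (M (nat_lit 524) (B (lo112_16_6 (nat_lit 397)) (lo112_13_5 (nat_lit 555)))))) (B (M (nat_lit 523) (B (lo112_12_5 (nat_lit 396)) (M (nat_lit 555) (B (lo112_13_5 (nat_lit 524)) (lo111_17_6 (nat_lit 459)))))) (B (M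 (nat_lit 523) (B (lo112_12_5 (nat_lit 396)) (M (nat_lit 459) (B (lo19_14_2 (nat_lit 457)) (lo111_17_6 (nat_lit 555)))))) (K _ _ _ o1_s32388))))) (B (K _ _ _ o1_s31690) (B (K _ _ _ o1_s32400) (M (nat_lit 491) (B (M (nat_lit 523) (B (lo112_12_5 (nat_lit 396)) (M (nat_lit 459) (B (lo19_14_2 (nat_lit 457)) (lo111_17_6 (nat_lit 555)))))) (B (K _ _ _ o1_s32388) (M (nat_lit 523) (B (lo112_12_5 (nat_lit 396)) (M (nat_lit 555) (B (lo111_18_6 (nat_lit 587)) (M (nat_lit 490) (B (lo110_13_4 (nat_lit 522)) (lo110_12_4 (nat_lit 394)))))))))))))))) (B (K _ _ _ o1_s31676) (B (M (nat_lit 492) (B (M (nat_lit 524) (B (lo112_16_6 (nat_lit 397)) (M (nat_lit 556) (B (lo112_17_6 (nat_lit 461)) (M (nat_lit 557) (B (lo112_14_4 (nat_lit 589)) (lo112_13_4 (nat_lit 525)))))))) (B (M (nat_lit 524) (B (lo112_16_6 (nat_lit 397)) (M (nat_lit 556) (B (lo112_17_6 (nat_lit 461)) (M (nat_lit 555) (B (lo112_14_5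 (nat_lit 587)) (lo112_13_5 (nat_lit 523)))))))) (B (K _ _ _ o1_s31690) (B (K _ _ _ o1_s31698) (B (K _ _ _ o1_s31699) (M (nat_lit 490) (B (M (nat_lit 491) (B (M (nat_lit 523) (B (lo112_12_5 (nat_lit 396)) (lo110_12_4 (nat_lit 394)))) (M (nat_lit 457) (B (lo113_15_3 (nat_lit 493)) (M (nat_lit 489) (B (lo19_15_2 (nat_lit 461)) (lo112_15_3 (nat_lit 456)))))))) (B (M (nat_lit 491) (B (M (nat_lit 523) (B (lo112_12_5 (nat_lit 396)) (lo110_12_4 (nat_lit 394)))) (B (M (nat_lit 523) (B (lo110_12_4 (nat_lit 394)) (M (nat_lit 555) (B (lo111_18_6 (nat_lit 587)) (lo110_13_4 (nat_lit 522)))))) (B (M (nat_lit 489) (B (lo19_15_2 (nat_lit 461)) (M (nat_lit 521) (B (lo112_15_1 (nat_lit 520)) (lo110_12_5 (nat_lit 394)))))) (M (nat_lit 523) (B (lo112_12_5 (nat_lit 396)) (M (nat_lit 555) (B (lo111_18_6 (nat_lit 587)) (lo110_13_4 (nat_lit 522)))))))))) (B (M (nat_lit 491) (B (M (nat_lit 523) (B (lo112_12_5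 (nat_lit 396)) (lo110_12_4 (nat_lit 394)))) (B (M (nat_lit 523) (B (lo110_12_4 (nat_lit 394)) (M (nat_lit 555) (B (lo111_18_6 (nat_lit 587)) (lo110_13_4 (nat_lit 522)))))) (B (M (nat_lit 521) (B (M (nat_lit 522) (B (lo113_15_1 (nat_lit 493)) (lo110_13_5 (nat_lit 553)))) (M (nat_lit 489) (B (lo112_15_1 (nat_lit 520)) (lo110_12_5 (nat_lit 394)))))) (M (nat_lit 523) (B (lo112_12_5 (nat_lit 396)) (M (nat_lit 555) (B (lo111_18_6 (nat_lit 587)) (lo110_13_4 (nat_lit 522)))))))))) (B (M (nat_lit 491) (B (M (nat_lit 523) (B (lo110_12_4 (nat_lit 394)) (M (nat_lit 555) (B (lo111_18_6 (nat_lit 587)) (lo110_13_4 (nat_lit 522)))))) (M (nat_lit 457) (B (lo113_15_3 (nat_lit 493)) (M (nat_lit 489) (B (lo19_15_2 (nat_lit 461)) (lo112_15_3 (nat_lit 456)))))))) (B (M (nat_lit 493) (B (M (nat_lit 491) (B (lo113_15_3 (nat_lit 457)) (M (nat_lit 461) (B (lo110_15_2 (nat_lit 462)) (lo19_15_2 (nat_lit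 489)))))) (B (M (nat_lit 491) (B (lo113_15_3 (nat_lit 457)) (M (nat_lit 525) (B (lo110_15_0 (nat_lit 526)) (lo112_12_4 (nat_lit 396)))))) (M (nat_lit 525) (B (lo112_12_4 (nat_lit 396)) (M (nat_lit 557) (B (lo113_18_7 (nat_lit 589)) (lo113_17_7 (nat_lit 461))))))))) (B (M (nat_lit 522) (B (M (nat_lit 554) (B (M (nat_lit 555) (B (lo110_14_4 (nat_lit 587)) (lo110_13_4 (nat_lit 523)))) (M (nat_lit 425) (B (lo110_17_7 (nat_lit 457)) (lo110_16_7 (nat_lit 393)))))) (B (M (nat_lit 554) (B (M (nat_lit 553) (B (lo110_14_5 (nat_lit 585)) (lo110_13_5 (nat_lit 521)))) (M (nat_lit 425) (B (lo110_17_7 (nat_lit 457)) (lo110_16_7 (nat_lit 393)))))) (B (M (nat_lit 394) (B (M (nat_lit 521) (B (lo110_13_5 (nat_lit 553)) (lo110_12_5 (nat_lit 489)))) (M (nat_lit 393) (B (lo110_16_7 (nat_lit 425)) (lo110_15_7 (nat_lit 361)))))) (M (nat_lit 554) (B (M (nat_lit 555) (B (lo110_14_4 (nat_lit 587)) (lo110_13_4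 (nat_lit 523)))) (M (nat_lit 553) (B (lo110_14_5 (nat_lit 585)) (lo110_13_5 (nat_lit 521)))))))))) (M (nat_lit 491) (B (M (nat_lit 523) (B (lo112_12_5 (nat_lit 396)) (lo110_12_4 (nat_lit 394)))) (B (M (nat_lit 523) (B (lo110_12_4 (nat_lit 394)) (M (nat_lit 555) (B (lo111_18_6 (nat_lit 587)) (lo110_13_4 (nat_lit 522)))))) (M (nat_lit 493) (B (lo113_15_3 (nat_lit 457)) (M (nat_lit 525) (B (lo110_15_0 (nat_lit 526)) (lo112_12_4 (nat_lit 396)))))))))))))))))))))) (K _ _ _ o1_s31767))))))) (B (M (nat_lit 394) (B (K _ _ _ o1_s31834) (B (K _ _ _ o1_s31814) (B (K _ _ _ o1_s32038) (B (M (nat_lit 460) (B (K _ _ _ o1_s32046) (B (M (nat_lit 490) (B (M (nat_lit 393) (B (lo110_15_7 (nat_lit 361)) (M (nat_lit 395) (B (lo19_12_0 (nat_lit 396)) (lo110_15_6 (nat_lit 363)))))) (M (nat_lit 459) (B (lo19_14_2 (nat_lit 457)) (M (nat_lit 489) (B (lo113_14_1 (nat_lit 461)) (lo110_12_5 (nat_lit 521))))))))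 (B (M (nat_lit 492) (B (M (nat_lit 524) (B (lo112_16_6 (nat_lit 397)) (M (nat_lit 523) (B (lo112_13_5 (nat_lit 555)) (M (nat_lit 491) (B (lo112_12_5 (nat_lit 396)) (lo110_12_4 (nat_lit 490)))))))) (B (M (nat_lit 493) (B (M (nat_lit 459) (B (lo19_14_0 (nat_lit 457)) (M (nat_lit 494) (B (lo115_15_3 (nat_lit 495)) (lo114_15_3 (nat_lit 491)))))) (M (nat_lit 525) (B (lo112_12_4 (nat_lit 396)) (M (nat_lit 557) (B (lo113_18_7 (nat_lit 589)) (lo112_13_4 (nat_lit 524)))))))) (B (M (nat_lit 493) (B (M (nat_lit 459) (B (lo19_14_0 (nat_lit 457)) (M (nat_lit 494) (B (lo115_15_3 (nat_lit 495)) (lo114_15_3 (nat_lit 491)))))) (M (nat_lit 396) (B (lo112_12_4 (nat_lit 525)) (M (nat_lit 395) (B (lo19_12_0 (nat_lit 393)) (lo112_15_7 (nat_lit 363)))))))) (M (nat_lit 524) (B (lo112_16_6 (nat_lit 397)) (M (nat_lit 556) (B (M (nat_lit 557) (B (lo112_14_4 (nat_lit 589)) (lo112_13_4 (nat_lit 525))))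 (M (nat_lit 555) (B (lo112_14_5 (nat_lit 587)) (lo112_13_5 (nat_lit 523)))))))))))) (B (K _ _ _ o1_s32061) (M (nat_lit 492) (B (M (nat_lit 524) (B (lo112_16_6 (nat_lit 397)) (M (nat_lit 523) (B (lo112_13_5 (nat_lit 555)) (M (nat_lit 491) (B (lo112_12_5 (nat_lit 396)) (lo110_12_4 (nat_lit 490)))))))) (B (M (nat_lit 490) (B (M (nat_lit 491) (B (lo110_12_4 (nat_lit 523)) (M (nat_lit 489) (B (lo19_15_2 (nat_lit 461)) (lo110_12_5 (nat_lit 521)))))) (M (nat_lit 395) (B (lo110_15_6 (nat_lit 363)) (M (nat_lit 393) (B (lo19_12_0 (nat_lit 396)) (lo110_15_7 (nat_lit 361)))))))) (M (nat_lit 524) (B (lo112_16_6 (nat_lit 397)) (M (nat_lit 556) (B (lo112_17_6 (nat_lit 461)) (M (nat_lit 557) (B (lo112_14_4 (nat_lit 589)) (lo112_13_4 (nat_lit 525)))))))))))))))) (B (K _ _ _ o1_s32099) (K _ _ _ o1_s31792))))))) (B (M (nat_lit 460) (B (K _ _ _ o1_s31620) (B (M (nat_lit 459) (B (lo19_14_2 (nat_lit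 457)) (M (nat_lit 396) (B (M (nat_lit 491) (B (lo112_11_5 (nat_lit 364)) (M (nat_lit 523) (B (lo112_12_5 (nat_lit 492)) (lo111_17_6 (nat_lit 555)))))) (B (M (nat_lit 461) (B (lo113_14_3 (nat_lit 425)) (M (nat_lit 364) (B (lo112_11_4 (nat_lit 493)) (lo112_11_5 (nat_lit 491)))))) (B (K _ _ _ o1_s32521) (M (nat_lit 461) (B (lo113_14_3 (nat_lit 425)) (M (nat_lit 493) (B (lo113_16_7 (nat_lit 525)) (lo112_11_4 (nat_lit 364)))))))))))) (B (K _ _ _ o1_s32540) (B (M (nat_lit 459) (B (lo19_14_2 (nat_lit 457)) (M (nat_lit 396) (B (M (nat_lit 461) (B (lo113_14_3 (nat_lit 425)) (M (nat_lit 364) (B (lo112_10_4 (nat_lit 332)) (lo112_11_5 (nat_lit 491)))))) (B (M (nat_lit 491) (B (lo112_11_5 (nat_lit 364)) (M (nat_lit 523) (B (lo112_12_5 (nat_lit 492)) (lo111_17_6 (nat_lit 555)))))) (B (K _ _ _ o1_s32521) (M (nat_lit 395) (B (M (nat_lit 363) (B (lo112_15_7 (nat_lit 492)) (M (nat_lit 331) (B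 (lo112_14_7 (nat_lit 364)) (lo111_9_4 (nat_lit 299)))))) (M (nat_lit 394) (B (lo19_12_0 (nat_lit 393)) (M (nat_lit 425) (B (lo113_14_3 (nat_lit 461)) (lo113_12_1 (nat_lit 397)))))))))))))) (B (M (nat_lit 396) (B (M (nat_lit 459) (B (lo19_14_2 (nat_lit 457)) (M (nat_lit 491) (B (lo112_11_5 (nat_lit 364)) (M (nat_lit 523) (B (lo112_12_5 (nat_lit 492)) (lo111_17_6 (nat_lit 555)))))))) (B (M (nat_lit 364) (B (M (nat_lit 459) (B (lo19_14_2 (nat_lit 457)) (lo112_11_5 (nat_lit 491)))) (M (nat_lit 332) (B (M (nat_lit 331) (B (lo112_14_7 (nat_lit 363)) (lo112_13_7 (nat_lit 299)))) (M (nat_lit 301) (B (lo112_13_6 (nat_lit 333)) (M (nat_lit 300) (B (lo112_9_4 (nat_lit 397)) (lo112_12_6 (nat_lit 269)))))))))) (B (M (nat_lit 492) (B (M (nat_lit 524) (B (lo112_16_6 (nat_lit 397)) (M (nat_lit 523) (B (lo112_13_5 (nat_lit 555)) (lo112_12_5 (nat_lit 491)))))) (B (M (nat_lit 524) (B (M (nat_lit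 525) (B (lo112_13_4 (nat_lit 557)) (lo112_12_4 (nat_lit 493)))) (M (nat_lit 523) (B (lo112_13_5 (nat_lit 555)) (lo112_12_5 (nat_lit 491)))))) (B (M (nat_lit 459) (B (lo19_14_2 (nat_lit 457)) (M (nat_lit 491) (B (lo112_12_5 (nat_lit 523)) (M (nat_lit 493) (B (lo114_15_3 (nat_lit 494)) (lo112_12_4 (nat_lit 525)))))))) (M (nat_lit 524) (B (lo112_16_6 (nat_lit 397)) (M (nat_lit 525) (B (lo112_13_4 (nat_lit 557)) (lo112_12_4 (nat_lit 493)))))))))) (B (M (nat_lit 394) (B (M (nat_lit 395) (B (lo19_12_0 (nat_lit 393)) (M (nat_lit 363) (B (lo112_15_7 (nat_lit 492)) (M (nat_lit 331) (B (lo112_14_7 (nat_lit 364)) (lo111_9_4 (nat_lit 299)))))))) (B (M (nat_lit 362) (B (M (nat_lit 457) (B (lo19_14_2 (nat_lit 459)) (lo110_11_5 (nat_lit 489)))) (M (nat_lit 395) (B (lo19_12_0 (nat_lit 393)) (M (nat_lit 397) (B (lo113_12_1 (nat_lit 425)) (lo113_12_3 (nat_lit 361)))))))) (M (nat_lit 362) (B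 (M (nat_lit 457) (B (lo19_14_2 (nat_lit 459)) (lo110_11_5 (nat_lit 489)))) (M (nat_lit 330) (B (M (nat_lit 331) (B (lo110_14_6 (nat_lit 363)) (lo110_13_6 (nat_lit 299)))) (M (nat_lit 329) (B (lo110_14_7 (nat_lit 361)) (lo110_13_7 (nat_lit 297))))))))))) (B (M (nat_lit 395) (B (M (nat_lit 363) (B (lo112_15_7 (nat_lit 492)) (M (nat_lit 331) (B (lo112_14_7 (nat_lit 364)) (lo111_9_4 (nat_lit 299)))))) (M (nat_lit 394) (B (lo19_12_0 (nat_lit 393)) (M (nat_lit 362) (B (M (nat_lit 397) (B (lo113_12_1 (nat_lit 425)) (lo113_12_3 (nat_lit 361)))) (B (M (nat_lit 330) (B (M (nat_lit 457) (B (lo110_11_5 (nat_lit 489)) (lo110_10_5 (nat_lit 425)))) (M (nat_lit 329) (B (lo110_14_7 (nat_lit 361)) (lo110_13_7 (nat_lit 297)))))) (B (M (nat_lit 361) (B (lo113_12_3 (nat_lit 397)) (lo110_14_7 (nat_lit 329)))) (M (nat_lit 457) (B (lo110_11_5 (nat_lit 489)) (M (nat_lit 425) (B (lo113_12_1 (nat_lit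 397)) (lo110_10_5 (nat_lit 330)))))))))))))) (M (nat_lit 492) (B (M (nat_lit 524) (B (lo112_16_6 (nat_lit 397)) (M (nat_lit 525) (B (lo112_13_4 (nat_lit 557)) (lo112_12_4 (nat_lit 493)))))) (M (nat_lit 364) (B (M (nat_lit 491) (B (lo112_12_5 (nat_lit 523)) (lo112_11_5 (nat_lit 459)))) (M (nat_lit 363) (B (lo112_15_7 (nat_lit 395)) (lo112_14_7 (nat_lit 331)))))))))))))) (B (M (nat_lit 492) (B (M (nat_lit 524) (B (lo112_16_6 (nat_lit 397)) (M (nat_lit 556) (B (lo112_17_6 (nat_lit 461)) (M (nat_lit 555) (B (lo112_14_5 (nat_lit 587)) (lo112_13_5 (nat_lit 523)))))))) (B (K _ _ _ o1_s31699) (B (K _ _ _ o1_s31698) (B (M (nat_lit 396) (B (M (nat_lit 493) (B (lo112_12_4 (nat_lit 525)) (M (nat_lit 364) (B (lo112_11_4 (nat_lit 461)) (M (nat_lit 363) (B (lo112_15_7 (nat_lit 395)) (lo112_14_7 (nat_lit 331)))))))) (B (M (nat_lit 364) (B (M (nat_lit 461) (B (lo112_11_4 (nat_lit 493)) (lo112_10_4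 (nat_lit 332)))) (M (nat_lit 363) (B (lo112_15_7 (nat_lit 395)) (lo112_14_7 (nat_lit 331)))))) (B (K _ _ _ o1_s32649) (B (M (nat_lit 395) (B (lo112_15_7 (nat_lit 363)) (M (nat_lit 394) (B (lo19_12_0 (nat_lit 393)) (M (nat_lit 362) (B (M (nat_lit 397) (B (lo113_12_1 (nat_lit 425)) (lo113_12_3 (nat_lit 361)))) (B (M (nat_lit 330) (B (M (nat_lit 457) (B (lo110_11_5 (nat_lit 489)) (lo110_10_5 (nat_lit 425)))) (M (nat_lit 329) (B (lo110_14_7 (nat_lit 361)) (lo110_13_7 (nat_lit 297)))))) (B (M (nat_lit 361) (B (lo113_12_3 (nat_lit 397)) (lo110_14_7 (nat_lit 329)))) (M (nat_lit 457) (B (lo110_11_5 (nat_lit 489)) (M (nat_lit 425) (B (lo113_12_1 (nat_lit 397)) (lo110_10_5 (nat_lit 330)))))))))))))) (M (nat_lit 493) (B (lo112_12_4 (nat_lit 525)) (M (nat_lit 461) (B (lo112_11_4 (nat_lit 364)) (M (nat_lit 494) (B (M (nat_lit 526) (B (lo113_12_4 (nat_lit 397)) (M (nat_lit 558) (B (lo114_18_7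 (nat_lit 590)) (lo114_17_7 (nat_lit 462)))))) (B (M (nat_lit 491) (B (lo112_12_5 (nat_lit 523)) (M (nat_lit 526) (B (lo111_15_0 (nat_lit 527)) (lo113_12_4 (nat_lit 397)))))) (M (nat_lit 463) (B (M (nat_lit 495) (B (lo116_15_3 (nat_lit 496)) (lo112_15_2 (nat_lit 464)))) (B (M (nat_lit 464) (B (lo112_15_2 (nat_lit 495)) (lo116_14_1 (nat_lit 462)))) (M (nat_lit 491) (B (lo111_15_2 (nat_lit 462)) (lo112_12_5 (nat_lit 523))))))))))))))))))) (M (nat_lit 524) (B (lo112_16_6 (nat_lit 397)) (M (nat_lit 556) (B (lo112_17_6 (nat_lit 461)) (M (nat_lit 557) (B (lo112_14_4 (nat_lit 589)) (lo112_13_4 (nat_lit 525))))))))))))) (M (nat_lit 492) (B (M (nat_lit 524) (B (lo112_16_6 (nat_lit 397)) (M (nat_lit 556) (B (lo112_17_6 (nat_lit 461)) (M (nat_lit 557) (B (lo112_14_4 (nat_lit 589)) (lo112_13_4 (nat_lit 525)))))))) (B (M (nat_lit 524) (B (lo112_16_6 (nat_lit 397)) (M (nat_lit 556) (B (lo112_17_6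 (nat_lit 461)) (M (nat_lit 555) (B (lo112_14_5 (nat_lit 587)) (lo112_13_5 (nat_lit 523)))))))) (B (K _ _ _ o1_s31699) (B (K _ _ _ o1_s31698) (M (nat_lit 396) (B (M (nat_lit 493) (B (lo112_12_4 (nat_lit 525)) (M (nat_lit 364) (B (lo112_11_4 (nat_lit 461)) (M (nat_lit 363) (B (lo112_15_7 (nat_lit 395)) (lo112_14_7 (nat_lit 331)))))))) (B (M (nat_lit 364) (B (M (nat_lit 491) (B (lo112_12_5 (nat_lit 523)) (lo112_11_5 (nat_lit 459)))) (M (nat_lit 363) (B (lo112_15_7 (nat_lit 395)) (lo112_14_7 (nat_lit 331)))))) (B (M (nat_lit 493) (B (lo112_12_4 (nat_lit 525)) (M (nat_lit 491) (B (lo112_12_5 (nat_lit 523)) (M (nat_lit 394) (B (M (nat_lit 395) (B (lo19_12_0 (nat_lit 393)) (lo112_15_7 (nat_lit 363)))) (M (nat_lit 459) (B (lo114_15_3 (nat_lit 494)) (lo110_11_4 (nat_lit 362)))))))))) (M (nat_lit 364) (B (M (nat_lit 493) (B (lo112_12_4 (nat_lit 525)) (lo112_11_4 (nat_lit 461)))) (M (nat_lit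 491) (B (lo112_12_5 (nat_lit 523)) (lo112_11_5 (nat_lit 459)))))))))))))))))))))) (B (M (nat_lit 460) (B (K _ _ _ o1_s31620) (B (K _ _ _ o1_s31632) (B (M (nat_lit 492) (B (K _ _ _ o1_s31699) (B (M (nat_lit 491) (B (M (nat_lit 523) (B (lo112_12_5 (nat_lit 396)) (M (nat_lit 524) (B (lo112_16_6 (nat_lit 397)) (lo112_13_5 (nat_lit 555)))))) (B (M (nat_lit 523) (B (lo112_12_5 (nat_lit 396)) (M (nat_lit 555) (B (lo112_13_5 (nat_lit 524)) (lo111_17_6 (nat_lit 459)))))) (B (M (nat_lit 523) (B (lo112_12_5 (nat_lit 396)) (M (nat_lit 459) (B (lo19_14_2 (nat_lit 457)) (lo111_17_6 (nat_lit 555)))))) (M (nat_lit 457) (B (lo19_14_2 (nat_lit 459)) (M (nat_lit 490) (B (lo113_15_3 (nat_lit 493)) (M (nat_lit 456) (B (lo112_15_3 (nat_lit 489)) (lo17_14_0 (nat_lit 455)))))))))))) (B (K _ _ _ o1_s31690) (B (M (nat_lit 491) (B (M (nat_lit 523) (B (lo112_12_5 (nat_lit 396)) (M (nat_lit 459) (B (lo19_14_2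 (nat_lit 457)) (lo111_17_6 (nat_lit 555)))))) (B (M (nat_lit 457) (B (lo19_14_2 (nat_lit 459)) (M (nat_lit 490) (B (lo113_15_3 (nat_lit 493)) (M (nat_lit 456) (B (lo112_15_3 (nat_lit 489)) (lo17_14_0 (nat_lit 455)))))))) (B (K _ _ _ o1_s32723) (M (nat_lit 523) (B (lo112_12_5 (nat_lit 396)) (M (nat_lit 555) (B (lo111_18_6 (nat_lit 587)) (lo111_17_6 (nat_lit 459)))))))))) (B (M (nat_lit 524) (B (lo112_16_6 (nat_lit 397)) (M (nat_lit 459) (B (lo19_14_2 (nat_lit 457)) (M (nat_lit 396) (B (M (nat_lit 525) (B (lo112_13_4 (nat_lit 557)) (lo112_12_4 (nat_lit 493)))) (M (nat_lit 491) (B (lo112_12_5 (nat_lit 523)) (lo112_11_5 (nat_lit 364)))))))))) (M (nat_lit 524) (B (lo112_16_6 (nat_lit 397)) (M (nat_lit 556) (B (M (nat_lit 557) (B (lo112_14_4 (nat_lit 589)) (lo112_13_4 (nat_lit 525)))) (M (nat_lit 588) (B (M (nat_lit 587) (B (lo112_15_5 (nat_lit 619)) (lo112_14_5 (nat_lit 555))))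 (M (nat_lit 459) (B (lo19_14_2 (nat_lit 457)) (lo112_18_7 (nat_lit 491)))))))))))))))) (B (K _ _ _ o1_s31676) (B (M (nat_lit 492) (B (M (nat_lit 524) (B (lo112_16_6 (nat_lit 397)) (M (nat_lit 556) (B (lo112_17_6 (nat_lit 461)) (M (nat_lit 555) (B (lo112_14_5 (nat_lit 587)) (lo112_13_5 (nat_lit 523)))))))) (B (K _ _ _ o1_s31690) (B (K _ _ _ o1_s31698) (B (K _ _ _ o1_s31699) (B (M (nat_lit 491) (B (K _ _ _ o1_s31725) (B (K _ _ _ o1_s32723) (B (M (nat_lit 490) (B (M (nat_lit 523) (B (lo112_12_5 (nat_lit 396)) (M (nat_lit 555) (B (lo111_18_6 (nat_lit 587)) (lo110_13_4 (nat_lit 522)))))) (M (nat_lit 489) (B (lo19_15_2 (nat_lit 461)) (M (nat_lit 457) (B (lo112_15_3 (nat_lit 456)) (M (nat_lit 521) (B (lo112_15_1 (nat_lit 520)) (lo19_17_6 (nat_lit 553)))))))))) (B (M (nat_lit 490) (B (M (nat_lit 493) (B (lo113_15_3 (nat_lit 457)) (M (nat_lit 461) (B (lo110_15_2 (nat_lit 462)) (lo19_15_2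 (nat_lit 489)))))) (B (M (nat_lit 457) (B (lo113_15_3 (nat_lit 493)) (M (nat_lit 489) (B (lo19_15_2 (nat_lit 461)) (lo112_15_3 (nat_lit 456)))))) (B (M (nat_lit 489) (B (lo19_15_2 (nat_lit 461)) (M (nat_lit 457) (B (lo112_15_3 (nat_lit 456)) (M (nat_lit 521) (B (lo112_15_1 (nat_lit 520)) (lo19_17_6 (nat_lit 553)))))))) (B (M (nat_lit 493) (B (lo113_15_3 (nat_lit 457)) (M (nat_lit 522) (B (lo113_15_1 (nat_lit 521)) (M (nat_lit 523) (B (lo114_15_1 (nat_lit 494)) (lo110_13_4 (nat_lit 555)))))))) (M (nat_lit 461) (B (lo19_15_2 (nat_lit 489)) (M (nat_lit 462) (B (lo115_14_1 (nat_lit 463)) (lo110_15_2 (nat_lit 493))))))))))) (M (nat_lit 490) (B (M (nat_lit 461) (B (lo19_15_2 (nat_lit 489)) (M (nat_lit 462) (B (lo115_14_1 (nat_lit 463)) (lo110_15_2 (nat_lit 493)))))) (B (M (nat_lit 493) (B (lo113_15_3 (nat_lit 457)) (M (nat_lit 525) (B (lo110_15_0 (nat_lit 526)) (lo112_12_4 (nat_lit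 396)))))) (M (nat_lit 489) (B (lo19_15_2 (nat_lit 461)) (M (nat_lit 457) (B (lo112_15_3 (nat_lit 456)) (M (nat_lit 521) (B (lo112_15_1 (nat_lit 520)) (lo19_17_6 (nat_lit 553)))))))))))))))) (M (nat_lit 524) (B (lo112_16_6 (nat_lit 397)) (M (nat_lit 556) (B (lo112_17_6 (nat_lit 461)) (M (nat_lit 557) (B (lo112_14_4 (nat_lit 589)) (lo112_13_4 (nat_lit 525)))))))))))))) (M (nat_lit 461) (B (M (nat_lit 459) (B (lo113_14_3 (nat_lit 425)) (M (nat_lit 493) (B (lo110_14_0 (nat_lit 494)) (M (nat_lit 525) (B (lo113_17_7 (nat_lit 557)) (lo113_16_7 (nat_lit 396)))))))) (B (M (nat_lit 459) (B (lo113_14_3 (nat_lit 425)) (M (nat_lit 491) (B (M (nat_lit 490) (B (lo114_14_1 (nat_lit 462)) (lo113_14_1 (nat_lit 489)))) (M (nat_lit 396) (B (lo112_11_5 (nat_lit 364)) (M (nat_lit 523) (B (lo112_12_5 (nat_lit 492)) (lo111_17_6 (nat_lit 555)))))))))) (B (M (nat_lit 459) (B (lo113_14_3 (nat_lit 425))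 (M (nat_lit 462) (B (M (nat_lit 494) (B (lo111_14_0 (nat_lit 495)) (lo110_14_0 (nat_lit 493)))) (M (nat_lit 490) (B (lo114_14_1 (nat_lit 491)) (lo113_14_1 (nat_lit 489)))))))) (K _ _ _ o1_s32795))))))))))) (B (M (nat_lit 460) (B (K _ _ _ o1_s31620) (B (M (nat_lit 492) (B (M (nat_lit 524) (B (lo112_16_6 (nat_lit 397)) (M (nat_lit 556) (B (lo112_17_6 (nat_lit 461)) (M (nat_lit 557) (B (lo112_14_4 (nat_lit 589)) (lo112_13_4 (nat_lit 525)))))))) (B (M (nat_lit 461) (B (M (nat_lit 524) (B (lo112_17_6 (nat_lit 556)) (lo112_16_6 (nat_lit 397)))) (M (nat_lit 459) (B (lo113_14_3 (nat_lit 425)) (lo19_14_2 (nat_lit 457)))))) (B (K _ _ _ o1_s31699) (B (K _ _ _ o1_s31698) (M (nat_lit 396) (B (M (nat_lit 459) (B (lo19_14_2 (nat_lit 457)) (M (nat_lit 491) (B (lo112_12_5 (nat_lit 523)) (lo112_11_5 (nat_lit 364)))))) (B (M (nat_lit 493) (B (lo112_12_4 (nat_lit 525)) (M (nat_lit 457) (B (lo19_14_0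 (nat_lit 459)) (M (nat_lit 491) (B (lo113_15_3 (nat_lit 490)) (lo112_12_5 (nat_lit 523)))))))) (M (nat_lit 493) (B (lo112_12_4 (nat_lit 525)) (M (nat_lit 364) (B (lo112_11_4 (nat_lit 461)) (M (nat_lit 363) (B (lo112_15_7 (nat_lit 395)) (lo112_14_7 (nat_lit 331)))))))))))))))) (B (M (nat_lit 459) (B (lo19_14_2 (nat_lit 457)) (M (nat_lit 461) (B (lo113_14_3 (nat_lit 425)) (M (nat_lit 493) (B (lo110_14_0 (nat_lit 494)) (M (nat_lit 396) (B (lo113_16_7 (nat_lit 525)) (lo112_11_4 (nat_lit 364)))))))))) (B (K _ _ _ o1_s32540) (B (M (nat_lit 459) (B (lo19_14_2 (nat_lit 457)) (M (nat_lit 491) (B (M (nat_lit 523) (B (lo111_17_6 (nat_lit 555)) (M (nat_lit 396) (B (lo112_12_5 (nat_lit 492)) (lo112_11_5 (nat_lit 364)))))) (B (M (nat_lit 523) (B (lo111_17_6 (nat_lit 555)) (M (nat_lit 394) (B (lo110_12_4 (nat_lit 490)) (lo110_11_4 (nat_lit 362)))))) (B (M (nat_lit 523) (B (M (nat_lit 396)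 (B (lo112_12_5 (nat_lit 492)) (lo112_11_5 (nat_lit 364)))) (M (nat_lit 394) (B (lo110_12_4 (nat_lit 490)) (lo110_11_4 (nat_lit 362)))))) (M (nat_lit 461) (B (lo113_14_3 (nat_lit 425)) (M (nat_lit 462) (B (lo114_14_1 (nat_lit 490)) (M (nat_lit 463) (B (lo116_14_3 (nat_lit 464)) (lo115_14_1 (nat_lit 492)))))))))))))) (B (M (nat_lit 492) (B (K _ _ _ o1_s31699) (B (M (nat_lit 459) (B (lo19_14_2 (nat_lit 457)) (M (nat_lit 523) (B (M (nat_lit 524) (B (lo112_16_6 (nat_lit 397)) (lo112_13_5 (nat_lit 555)))) (B (M (nat_lit 555) (B (lo112_13_5 (nat_lit 524)) (lo111_17_6 (nat_lit 491)))) (B (M (nat_lit 491) (B (lo112_12_5 (nat_lit 396)) (lo111_17_6 (nat_lit 555)))) (M (nat_lit 491) (B (lo112_12_5 (nat_lit 396)) (M (nat_lit 394) (B (lo110_12_4 (nat_lit 490)) (lo110_11_4 (nat_lit 362)))))))))))) (B (K _ _ _ o1_s32400) (B (M (nat_lit 459) (B (lo19_14_2 (nat_lit 457)) (M (nat_lit 491) (B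 (M (nat_lit 396) (B (lo112_12_5 (nat_lit 523)) (lo112_11_5 (nat_lit 364)))) (B (M (nat_lit 523) (B (lo111_17_6 (nat_lit 555)) (M (nat_lit 394) (B (lo110_12_4 (nat_lit 490)) (lo110_11_4 (nat_lit 362)))))) (M (nat_lit 493) (B (lo114_15_3 (nat_lit 494)) (M (nat_lit 396) (B (lo112_12_4 (nat_lit 525)) (lo112_11_5 (nat_lit 364))))))))))) (K _ _ _ o1_s31690)))))) (B (M (nat_lit 492) (B (M (nat_lit 524) (B (lo112_16_6 (nat_lit 397)) (M (nat_lit 556) (B (lo112_17_6 (nat_lit 461)) (M (nat_lit 555) (B (lo112_14_5 (nat_lit 587)) (lo112_13_5 (nat_lit 523)))))))) (B (K _ _ _ o1_s31690) (B (K _ _ _ o1_s31698) (B (K _ _ _ o1_s31699) (B (M (nat_lit 396) (B (M (nat_lit 493) (B (lo112_12_4 (nat_lit 525)) (M (nat_lit 364) (B (lo112_11_4 (nat_lit 461)) (M (nat_lit 363) (B (lo112_15_7 (nat_lit 395)) (lo112_14_7 (nat_lit 331)))))))) (B (M (nat_lit 364) (B (M (nat_lit 461) (B (lo112_11_4 (nat_lit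 493)) (lo112_10_4 (nat_lit 332)))) (M (nat_lit 363) (B (lo112_15_7 (nat_lit 395)) (lo112_14_7 (nat_lit 331)))))) (B (K _ _ _ o1_s32649) (B (M (nat_lit 490) (B (M (nat_lit 491) (B (lo112_12_5 (nat_lit 523)) (M (nat_lit 493) (B (lo112_12_4 (nat_lit 525)) (lo113_15_3 (nat_lit 457)))))) (B (M (nat_lit 523) (B (lo112_12_5 (nat_lit 491)) (M (nat_lit 393) (B (M (nat_lit 395) (B (lo19_12_0 (nat_lit 394)) (lo112_15_7 (nat_lit 363)))) (M (nat_lit 522) (B (lo110_13_4 (nat_lit 555)) (lo110_16_7 (nat_lit 425)))))))) (B (M (nat_lit 522) (B (M (nat_lit 395) (B (lo112_15_7 (nat_lit 363)) (M (nat_lit 393) (B (lo19_12_0 (nat_lit 394)) (lo110_16_7 (nat_lit 425)))))) (M (nat_lit 493) (B (lo112_12_4 (nat_lit 525)) (M (nat_lit 521) (B (lo113_15_1 (nat_lit 491)) (lo110_13_5 (nat_lit 553)))))))) (M (nat_lit 522) (B (M (nat_lit 395) (B (lo112_15_7 (nat_lit 363)) (M (nat_lit 393) (B (lo19_12_0 (nat_lit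 394)) (lo110_16_7 (nat_lit 425)))))) (M (nat_lit 554) (B (M (nat_lit 555) (B (lo110_14_4 (nat_lit 587)) (lo110_13_4 (nat_lit 523)))) (M (nat_lit 553) (B (lo110_14_5 (nat_lit 585)) (lo110_13_5 (nat_lit 521)))))))))))) (M (nat_lit 493) (B (lo112_12_4 (nat_lit 525)) (M (nat_lit 491) (B (lo112_12_5 (nat_lit 523)) (M (nat_lit 461) (B (lo112_11_4 (nat_lit 364)) (M (nat_lit 490) (B (lo110_15_2 (nat_lit 462)) (lo113_15_3 (nat_lit 457))))))))))))))) (M (nat_lit 524) (B (lo112_16_6 (nat_lit 397)) (M (nat_lit 556) (B (lo112_17_6 (nat_lit 461)) (M (nat_lit 557) (B (lo112_14_4 (nat_lit 589)) (lo112_13_4 (nat_lit 525)))))))))))))) (M (nat_lit 461) (B (M (nat_lit 459) (B (lo113_14_3 (nat_lit 425)) (M (nat_lit 493) (B (lo110_14_0 (nat_lit 494)) (M (nat_lit 525) (B (lo113_17_7 (nat_lit 557)) (lo113_16_7 (nat_lit 396)))))))) (B (M (nat_lit 459) (B (lo113_14_3 (nat_lit 425)) (M (nat_lit 491)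 (B (M (nat_lit 462) (B (lo114_14_1 (nat_lit 490)) (M (nat_lit 463) (B (lo116_14_3 (nat_lit 464)) (lo115_14_1 (nat_lit 492)))))) (B (M (nat_lit 490) (B (lo114_14_1 (nat_lit 462)) (M (nat_lit 523) (B (lo111_17_6 (nat_lit 555)) (lo110_12_4 (nat_lit 394)))))) (M (nat_lit 396) (B (lo112_11_5 (nat_lit 364)) (M (nat_lit 523) (B (lo112_12_5 (nat_lit 492)) (lo111_17_6 (nat_lit 555))))))))))) (B (M (nat_lit 462) (B (M (nat_lit 459) (B (lo113_14_3 (nat_lit 425)) (M (nat_lit 494) (B (lo111_14_0 (nat_lit 495)) (lo110_14_0 (nat_lit 493)))))) (M (nat_lit 492) (B (M (nat_lit 463) (B (lo116_14_3 (nat_lit 464)) (lo115_14_1 (nat_lit 491)))) (M (nat_lit 524) (B (lo112_17_6 (nat_lit 556)) (lo112_16_6 (nat_lit 397)))))))) (K _ _ _ o1_s32795))))))))))))) (B (M (nat_lit 394) (B (K _ _ _ o1_s31825) (B (M (nat_lit 490) (B (M (nat_lit 522) (B (M (nat_lit 521) (B (lo110_13_5 (nat_lit 553)) (lo110_12_5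 (nat_lit 489)))) (M (nat_lit 393) (B (lo110_16_7 (nat_lit 425)) (lo110_15_7 (nat_lit 361)))))) (B (M (nat_lit 362) (B (M (nat_lit 491) (B (lo110_12_4 (nat_lit 523)) (lo110_11_4 (nat_lit 459)))) (M (nat_lit 361) (B (lo110_15_7 (nat_lit 393)) (lo110_14_7 (nat_lit 329)))))) (M (nat_lit 522) (B (M (nat_lit 523) (B (lo110_13_4 (nat_lit 555)) (lo110_12_4 (nat_lit 491)))) (M (nat_lit 521) (B (lo110_13_5 (nat_lit 553)) (lo110_12_5 (nat_lit 489))))))))) (B (K _ _ _ o1_s32099) (B (M (nat_lit 393) (B (M (nat_lit 361) (B (lo110_15_7 (nat_lit 490)) (M (nat_lit 329) (B (lo19_10_4 (nat_lit 425)) (lo19_9_4 (nat_lit 297)))))) (M (nat_lit 395) (B (lo19_12_0 (nat_lit 396)) (M (nat_lit 392) (B (M (nat_lit 363) (B (lo18_12_2 (nat_lit 364)) (M (nat_lit 331) (B (lo111_9_5 (nat_lit 299)) (lo110_14_6 (nat_lit 362)))))) (M (nat_lit 391) (B (M (nat_lit 423) (B (lo111_12_1 (nat_lit 424)) (lo110_12_1 (nat_lit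 422)))) (M (nat_lit 359) (B (lo111_12_3 (nat_lit 360)) (lo110_12_3 (nat_lit 358)))))))))))) (B (M (nat_lit 362) (B (M (nat_lit 330) (B (M (nat_lit 331) (B (lo110_14_6 (nat_lit 363)) (lo110_13_6 (nat_lit 299)))) (M (nat_lit 329) (B (lo110_14_7 (nat_lit 361)) (lo110_13_7 (nat_lit 297)))))) (B (M (nat_lit 461) (B (K _ _ _ o1_s32934) (B (M (nat_lit 396) (B (M (nat_lit 493) (B (lo113_16_7 (nat_lit 525)) (M (nat_lit 364) (B (lo113_15_7 (nat_lit 397)) (lo112_10_4 (nat_lit 332)))))) (B (M (nat_lit 364) (B (lo112_10_4 (nat_lit 332)) (M (nat_lit 493) (B (lo113_15_7 (nat_lit 397)) (lo112_11_4 (nat_lit 460)))))) (B (M (nat_lit 395) (B (lo19_12_0 (nat_lit 393)) (M (nat_lit 397) (B (lo113_12_1 (nat_lit 425)) (lo113_12_3 (nat_lit 361)))))) (M (nat_lit 493) (B (lo113_16_7 (nat_lit 525)) (M (nat_lit 364) (B (lo112_11_4 (nat_lit 460)) (lo112_10_4 (nat_lit 332)))))))))) (B (M (nat_lit 396) (B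 (M (nat_lit 364) (B (lo112_10_4 (nat_lit 332)) (M (nat_lit 493) (B (lo113_15_7 (nat_lit 397)) (lo112_11_4 (nat_lit 460)))))) (B (M (nat_lit 395) (B (lo19_12_0 (nat_lit 393)) (M (nat_lit 397) (B (lo113_12_1 (nat_lit 425)) (lo113_12_3 (nat_lit 361)))))) (M (nat_lit 460) (B (M (nat_lit 364) (B (lo112_11_4 (nat_lit 493)) (lo112_10_4 (nat_lit 332)))) (M (nat_lit 459) (B (lo113_14_3 (nat_lit 425)) (lo110_11_4 (nat_lit 491))))))))) (B (M (nat_lit 459) (B (lo110_11_4 (nat_lit 491)) (M (nat_lit 330) (B (M (nat_lit 329) (B (lo110_14_7 (nat_lit 361)) (lo110_13_7 (nat_lit 297)))) (M (nat_lit 298) (B (M (nat_lit 299) (B (lo110_13_6 (nat_lit 331)) (lo110_12_6 (nat_lit 267)))) (M (nat_lit 425) (B (lo113_14_3 (nat_lit 460)) (lo110_9_5 (nat_lit 393)))))))))) (B (M (nat_lit 396) (B (M (nat_lit 395) (B (lo19_12_0 (nat_lit 393)) (M (nat_lit 397) (B (lo113_12_1 (nat_lit 425)) (lo113_12_3 (nat_lit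 361)))))) (B (M (nat_lit 330) (B (M (nat_lit 329) (B (lo110_14_7 (nat_lit 361)) (lo110_13_7 (nat_lit 297)))) (M (nat_lit 298) (B (M (nat_lit 299) (B (lo110_13_6 (nat_lit 331)) (lo110_12_6 (nat_lit 267)))) (M (nat_lit 393) (B (lo19_12_0 (nat_lit 395)) (lo110_9_5 (nat_lit 425)))))))) (M (nat_lit 493) (B (lo113_16_7 (nat_lit 525)) (M (nat_lit 364) (B (lo113_15_7 (nat_lit 397)) (lo112_10_4 (nat_lit 332))))))))) (M (nat_lit 396) (B (M (nat_lit 493) (B (lo113_16_7 (nat_lit 525)) (M (nat_lit 364) (B (lo113_15_7 (nat_lit 397)) (lo112_10_4 (nat_lit 332)))))) (B (M (nat_lit 364) (B (lo112_10_4 (nat_lit 332)) (M (nat_lit 493) (B (lo113_15_7 (nat_lit 397)) (lo112_11_4 (nat_lit 460)))))) (B (M (nat_lit 395) (B (lo19_12_0 (nat_lit 393)) (M (nat_lit 361) (B (lo113_12_3 (nat_lit 397)) (lo110_14_7 (nat_lit 329)))))) (M (nat_lit 493) (B (lo113_16_7 (nat_lit 525)) (M (nat_lit 364) (B (lo112_11_4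 (nat_lit 460)) (lo112_10_4 (nat_lit 332)))))))))))))))) (B (M (nat_lit 396) (B (M (nat_lit 395) (B (lo19_12_0 (nat_lit 393)) (M (nat_lit 397) (B (lo113_12_1 (nat_lit 425)) (lo113_12_3 (nat_lit 361)))))) (B (M (nat_lit 395) (B (lo19_12_0 (nat_lit 393)) (M (nat_lit 361) (B (lo110_14_7 (nat_lit 329)) (M (nat_lit 360) (B (lo18_11_0 (nat_lit 363)) (lo17_11_0 (nat_lit 359)))))))) (B (M (nat_lit 364) (B (M (nat_lit 461) (B (lo112_10_4 (nat_lit 332)) (M (nat_lit 493) (B (lo113_16_7 (nat_lit 525)) (lo112_11_4 (nat_lit 460)))))) (B (M (nat_lit 461) (B (lo112_10_4 (nat_lit 332)) (M (nat_lit 493) (B (lo113_15_7 (nat_lit 397)) (lo112_11_4 (nat_lit 460)))))) (B (M (nat_lit 397) (B (M (nat_lit 332) (B (lo112_10_4 (nat_lit 461)) (lo112_9_4 (nat_lit 300)))) (M (nat_lit 361) (B (lo19_11_0 (nat_lit 363)) (lo110_14_7 (nat_lit 329)))))) (B (M (nat_lit 332) (B (M (nat_lit 300) (B (lo112_9_4 (nat_lit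 397)) (M (nat_lit 301) (B (lo112_13_6 (nat_lit 333)) (lo112_12_6 (nat_lit 269)))))) (B (M (nat_lit 333) (B (lo112_13_6 (nat_lit 301)) (M (nat_lit 361) (B (lo19_11_2 (nat_lit 363)) (lo110_14_7 (nat_lit 329)))))) (M (nat_lit 397) (B (lo112_9_4 (nat_lit 300)) (M (nat_lit 361) (B (lo19_11_0 (nat_lit 363)) (lo110_14_7 (nat_lit 329))))))))) (M (nat_lit 460) (B (M (nat_lit 461) (B (lo112_11_4 (nat_lit 493)) (M (nat_lit 459) (B (lo113_14_3 (nat_lit 425)) (lo112_11_5 (nat_lit 491)))))) (B (M (nat_lit 491) (B (lo112_11_5 (nat_lit 459)) (M (nat_lit 397) (B (M (nat_lit 492) (B (lo112_16_6 (nat_lit 524)) (lo112_12_5 (nat_lit 523)))) (M (nat_lit 361) (B (lo19_11_0 (nat_lit 363)) (lo110_14_7 (nat_lit 329)))))))) (M (nat_lit 493) (B (lo112_11_4 (nat_lit 461)) (M (nat_lit 397) (B (M (nat_lit 492) (B (lo112_12_4 (nat_lit 525)) (lo112_16_6 (nat_lit 524)))) (M (nat_lit 361) (B (lo19_11_0 (nat_lit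 363)) (lo110_14_7 (nat_lit 329)))))))))))))))) (M (nat_lit 461) (B (M (nat_lit 493) (B (lo113_16_7 (nat_lit 525)) (M (nat_lit 364) (B (lo112_11_4 (nat_lit 460)) (lo112_10_4 (nat_lit 332)))))) (B (M (nat_lit 364) (B (lo112_10_4 (nat_lit 332)) (M (nat_lit 493) (B (lo113_15_7 (nat_lit 397)) (lo112_11_4 (nat_lit 460)))))) (B (M (nat_lit 425) (B (M (nat_lit 459) (B (lo113_14_3 (nat_lit 460)) (lo110_11_4 (nat_lit 491)))) (M (nat_lit 395) (B (lo19_12_0 (nat_lit 393)) (lo113_12_1 (nat_lit 397)))))) (M (nat_lit 493) (B (lo113_16_7 (nat_lit 525)) (M (nat_lit 364) (B (lo113_15_7 (nat_lit 397)) (lo112_10_4 (nat_lit 332)))))))))))))) (B (M (nat_lit 461) (B (K _ _ _ o1_s32934) (B (M (nat_lit 459) (B (lo110_11_4 (nat_lit 491)) (M (nat_lit 330) (B (M (nat_lit 331) (B (lo110_14_6 (nat_lit 363)) (lo110_13_6 (nat_lit 299)))) (M (nat_lit 298) (B (M (nat_lit 425) (B (lo113_14_3 (nat_lit 460)) (lo110_9_5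 (nat_lit 393)))) (M (nat_lit 297) (B (lo110_13_7 (nat_lit 329)) (lo110_12_7 (nat_lit 265)))))))))) (B (M (nat_lit 396) (B (M (nat_lit 493) (B (lo113_16_7 (nat_lit 525)) (M (nat_lit 364) (B (lo113_15_7 (nat_lit 397)) (lo112_10_4 (nat_lit 332)))))) (B (M (nat_lit 397) (B (M (nat_lit 364) (B (lo113_15_7 (nat_lit 493)) (lo112_10_4 (nat_lit 332)))) (M (nat_lit 395) (B (lo19_12_0 (nat_lit 393)) (lo113_12_1 (nat_lit 425)))))) (M (nat_lit 330) (B (M (nat_lit 331) (B (lo110_14_6 (nat_lit 363)) (lo110_13_6 (nat_lit 299)))) (M (nat_lit 298) (B (M (nat_lit 393) (B (lo19_12_0 (nat_lit 395)) (lo110_9_5 (nat_lit 425)))) (M (nat_lit 297) (B (lo110_13_7 (nat_lit 329)) (lo110_12_7 (nat_lit 265))))))))))) (M (nat_lit 493) (B (M (nat_lit 396) (B (lo113_16_7 (nat_lit 525)) (M (nat_lit 364) (B (lo113_15_7 (nat_lit 397)) (lo112_10_4 (nat_lit 332)))))) (B (M (nat_lit 494) (B (M (nat_lit 459) (B (lo110_14_0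 (nat_lit 460)) (lo110_11_4 (nat_lit 491)))) (M (nat_lit 526) (B (lo113_12_4 (nat_lit 397)) (M (nat_lit 558) (B (lo114_18_7 (nat_lit 590)) (lo114_17_7 (nat_lit 462)))))))) (M (nat_lit 396) (B (lo113_16_7 (nat_lit 525)) (M (nat_lit 364) (B (lo112_11_4 (nat_lit 460)) (lo112_10_4 (nat_lit 332))))))))))))) (M (nat_lit 396) (B (M (nat_lit 395) (B (lo19_12_0 (nat_lit 393)) (M (nat_lit 397) (B (lo113_12_1 (nat_lit 425)) (lo113_12_3 (nat_lit 361)))))) (B (M (nat_lit 460) (B (M (nat_lit 363) (B (lo110_14_6 (nat_lit 331)) (M (nat_lit 395) (B (lo19_12_0 (nat_lit 393)) (lo112_15_7 (nat_lit 492)))))) (M (nat_lit 461) (B (M (nat_lit 493) (B (lo113_16_7 (nat_lit 525)) (lo112_11_4 (nat_lit 364)))) (M (nat_lit 459) (B (lo113_14_3 (nat_lit 425)) (lo110_11_4 (nat_lit 491)))))))) (B (M (nat_lit 364) (B (M (nat_lit 461) (B (lo112_10_4 (nat_lit 332)) (M (nat_lit 493) (B (lo113_15_7 (nat_lit 397))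 (lo112_11_4 (nat_lit 460)))))) (B (M (nat_lit 332) (B (lo112_10_4 (nat_lit 461)) (M (nat_lit 331) (B (lo112_13_7 (nat_lit 299)) (lo110_14_6 (nat_lit 363)))))) (B (M (nat_lit 331) (B (lo110_14_6 (nat_lit 363)) (M (nat_lit 299) (B (lo112_13_7 (nat_lit 332)) (lo110_13_6 (nat_lit 330)))))) (M (nat_lit 460) (B (M (nat_lit 461) (B (lo112_11_4 (nat_lit 493)) (M (nat_lit 459) (B (lo113_14_3 (nat_lit 425)) (lo112_11_5 (nat_lit 491)))))) (B (M (nat_lit 491) (B (lo112_11_5 (nat_lit 459)) (M (nat_lit 397) (B (M (nat_lit 492) (B (lo112_16_6 (nat_lit 524)) (lo112_12_5 (nat_lit 523)))) (M (nat_lit 363) (B (lo19_11_0 (nat_lit 361)) (lo112_14_7 (nat_lit 331)))))))) (M (nat_lit 493) (B (lo112_11_4 (nat_lit 461)) (M (nat_lit 397) (B (M (nat_lit 492) (B (lo112_12_4 (nat_lit 525)) (lo112_16_6 (nat_lit 524)))) (M (nat_lit 363) (B (lo19_11_0 (nat_lit 361)) (lo112_14_7 (nat_lit 331)))))))))))))))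 (M (nat_lit 395) (B (lo19_12_0 (nat_lit 393)) (M (nat_lit 361) (B (lo113_12_3 (nat_lit 397)) (M (nat_lit 363) (B (lo18_11_0 (nat_lit 360)) (lo110_14_6 (nat_lit 331))))))))))))))))) (B (M (nat_lit 396) (B (M (nat_lit 364) (B (M (nat_lit 461) (B (lo112_10_4 (nat_lit 332)) (M (nat_lit 493) (B (lo113_16_7 (nat_lit 525)) (lo113_15_7 (nat_lit 397)))))) (B (M (nat_lit 461) (B (lo112_10_4 (nat_lit 332)) (M (nat_lit 493) (B (lo113_15_7 (nat_lit 397)) (lo112_11_4 (nat_lit 460)))))) (B (M (nat_lit 331) (B (M (nat_lit 332) (B (lo112_10_4 (nat_lit 461)) (lo112_13_7 (nat_lit 299)))) (M (nat_lit 363) (B (lo112_14_7 (nat_lit 460)) (lo110_14_6 (nat_lit 362)))))) (K _ _ _ o1_s33141))))) (B (M (nat_lit 364) (B (M (nat_lit 461) (B (lo112_10_4 (nat_lit 332)) (M (nat_lit 493) (B (lo113_15_7 (nat_lit 397)) (lo112_11_4 (nat_lit 460)))))) (B (M (nat_lit 331) (B (M (nat_lit 332) (B (lo112_10_4 (nat_lit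 461)) (lo112_13_7 (nat_lit 299)))) (M (nat_lit 363) (B (lo112_14_7 (nat_lit 460)) (lo110_14_6 (nat_lit 362)))))) (B (K _ _ _ o1_s33141) (M (nat_lit 332) (B (lo112_10_4 (nat_lit 461)) (M (nat_lit 300) (B (lo112_9_4 (nat_lit 397)) (M (nat_lit 301) (B (lo112_13_6 (nat_lit 333)) (lo112_12_6 (nat_lit 269)))))))))))) (B (M (nat_lit 363) (B (M (nat_lit 395) (B (lo110_15_6 (nat_lit 490)) (M (nat_lit 331) (B (lo111_9_4 (nat_lit 299)) (lo110_14_6 (nat_lit 362)))))) (B (M (nat_lit 331) (B (lo110_14_6 (nat_lit 362)) (M (nat_lit 364) (B (lo112_14_7 (nat_lit 460)) (M (nat_lit 299) (B (lo112_13_7 (nat_lit 332)) (lo111_8_4 (nat_lit 267)))))))) (B (M (nat_lit 395) (B (lo110_15_6 (nat_lit 490)) (M (nat_lit 397) (B (lo113_12_1 (nat_lit 425)) (M (nat_lit 362) (B (lo114_12_3 (nat_lit 398)) (lo113_12_3 (nat_lit 361)))))))) (M (nat_lit 395) (B (lo110_15_6 (nat_lit 490)) (M (nat_lit 331) (B (lo111_9_4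 (nat_lit 299)) (M (nat_lit 460) (B (lo112_15_7 (nat_lit 492)) (lo112_14_7 (nat_lit 364)))))))))))) (B (M (nat_lit 363) (B (M (nat_lit 395) (B (lo110_15_6 (nat_lit 490)) (M (nat_lit 331) (B (lo111_9_4 (nat_lit 299)) (lo110_14_6 (nat_lit 362)))))) (B (M (nat_lit 331) (B (lo110_14_6 (nat_lit 362)) (M (nat_lit 364) (B (lo112_14_7 (nat_lit 460)) (M (nat_lit 299) (B (lo112_13_7 (nat_lit 332)) (lo111_8_4 (nat_lit 267)))))))) (K _ _ _ o1_s33179)))) (B (M (nat_lit 363) (B (M (nat_lit 395) (B (lo110_15_6 (nat_lit 490)) (M (nat_lit 331) (B (lo111_9_4 (nat_lit 299)) (lo110_14_6 (nat_lit 362)))))) (B (M (nat_lit 364) (B (M (nat_lit 331) (B (lo110_14_6 (nat_lit 362)) (M (nat_lit 332) (B (lo112_10_4 (nat_lit 461)) (lo112_13_7 (nat_lit 299)))))) (B (M (nat_lit 362) (B (lo110_14_6 (nat_lit 331)) (M (nat_lit 361) (B (lo19_11_0 (nat_lit 397)) (lo110_14_7 (nat_lit 329)))))) (M (nat_lit 461) (B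 (lo112_10_4 (nat_lit 332)) (M (nat_lit 493) (B (lo113_16_7 (nat_lit 525)) (lo113_15_7 (nat_lit 397))))))))) (K _ _ _ o1_s33179)))) (B (M (nat_lit 362) (B (M (nat_lit 331) (B (lo110_14_6 (nat_lit 363)) (M (nat_lit 330) (B (lo110_13_6 (nat_lit 299)) (M (nat_lit 329) (B (lo110_14_7 (nat_lit 361)) (lo110_13_7 (nat_lit 297)))))))) (B (M (nat_lit 491) (B (lo110_11_4 (nat_lit 459)) (M (nat_lit 492) (B (M (nat_lit 523) (B (lo112_12_5 (nat_lit 460)) (lo110_12_4 (nat_lit 490)))) (B (M (nat_lit 490) (B (lo110_12_4 (nat_lit 523)) (M (nat_lit 521) (B (lo110_12_5 (nat_lit 489)) (M (nat_lit 522) (B (lo113_15_1 (nat_lit 493)) (lo110_13_5 (nat_lit 553)))))))) (B (M (nat_lit 493) (B (M (nat_lit 525) (B (lo113_16_7 (nat_lit 461)) (lo112_12_4 (nat_lit 460)))) (B (M (nat_lit 397) (B (M (nat_lit 524) (B (lo113_12_5 (nat_lit 461)) (lo112_16_6 (nat_lit 460)))) (M (nat_lit 361) (B (lo113_12_3 (nat_lit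 395)) (lo110_14_7 (nat_lit 329)))))) (B (M (nat_lit 490) (B (M (nat_lit 525) (B (lo110_15_0 (nat_lit 526)) (lo112_12_4 (nat_lit 460)))) (M (nat_lit 521) (B (lo113_15_1 (nat_lit 522)) (lo110_12_5 (nat_lit 489)))))) (M (nat_lit 490) (B (M (nat_lit 525) (B (lo110_15_0 (nat_lit 526)) (lo113_16_7 (nat_lit 461)))) (M (nat_lit 521) (B (lo113_15_1 (nat_lit 522)) (lo110_12_5 (nat_lit 489)))))))))) (M (nat_lit 397) (B (M (nat_lit 460) (B (lo112_16_6 (nat_lit 524)) (lo112_12_5 (nat_lit 523)))) (M (nat_lit 395) (B (lo113_12_1 (nat_lit 425)) (lo113_12_3 (nat_lit 361)))))))))))) (M (nat_lit 490) (B (M (nat_lit 491) (B (lo110_12_4 (nat_lit 523)) (lo110_11_4 (nat_lit 459)))) (M (nat_lit 363) (B (lo110_15_6 (nat_lit 395)) (lo110_14_6 (nat_lit 331))))))))) (B (M (nat_lit 493) (B (M (nat_lit 461) (B (lo113_16_7 (nat_lit 525)) (M (nat_lit 364) (B (lo113_15_7 (nat_lit 397)) (lo112_11_4 (nat_lit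 460)))))) (B (M (nat_lit 459) (B (M (nat_lit 491) (B (lo110_11_4 (nat_lit 362)) (M (nat_lit 523) (B (lo111_17_7 (nat_lit 555)) (lo110_12_4 (nat_lit 490)))))) (M (nat_lit 461) (B (M (nat_lit 460) (B (lo110_14_0 (nat_lit 494)) (lo112_11_4 (nat_lit 364)))) (B (M (nat_lit 364) (B (lo113_15_7 (nat_lit 397)) (lo112_11_4 (nat_lit 460)))) (B (M (nat_lit 364) (B (lo113_15_7 (nat_lit 397)) (lo112_10_4 (nat_lit 332)))) (M (nat_lit 460) (B (lo110_14_0 (nat_lit 494)) (lo113_14_3 (nat_lit 425)))))))))) (B (M (nat_lit 491) (B (M (nat_lit 459) (B (lo110_11_4 (nat_lit 362)) (M (nat_lit 523) (B (lo111_17_7 (nat_lit 555)) (lo110_12_4 (nat_lit 490)))))) (B (M (nat_lit 492) (B (M (nat_lit 459) (B (lo114_15_3 (nat_lit 494)) (lo110_11_4 (nat_lit 362)))) (M (nat_lit 460) (B (lo112_12_4 (nat_lit 525)) (lo112_12_5 (nat_lit 523)))))) (B (M (nat_lit 459) (B (lo110_11_4 (nat_lit 362)) (M (nat_lit 460)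 (B (lo112_11_5 (nat_lit 364)) (M (nat_lit 492) (B (lo114_15_3 (nat_lit 494)) (lo112_12_4 (nat_lit 525)))))))) (M (nat_lit 490) (B (lo110_12_4 (nat_lit 523)) (M (nat_lit 521) (B (lo110_12_5 (nat_lit 489)) (M (nat_lit 522) (B (lo113_15_1 (nat_lit 492)) (lo110_13_5 (nat_lit 553)))))))))))) (B (M (nat_lit 461) (B (lo113_16_7 (nat_lit 525)) (M (nat_lit 364) (B (lo113_15_7 (nat_lit 397)) (lo112_10_4 (nat_lit 332)))))) (M (nat_lit 459) (B (M (nat_lit 491) (B (lo110_11_4 (nat_lit 362)) (M (nat_lit 523) (B (lo111_17_7 (nat_lit 555)) (lo110_12_4 (nat_lit 490)))))) (M (nat_lit 461) (B (lo113_16_7 (nat_lit 525)) (M (nat_lit 460) (B (lo110_14_0 (nat_lit 494)) (lo113_14_3 (nat_lit 425))))))))))))) (B (M (nat_lit 364) (B (M (nat_lit 461) (B (lo112_10_4 (nat_lit 332)) (M (nat_lit 493) (B (lo113_16_7 (nat_lit 525)) (lo113_15_7 (nat_lit 397)))))) (B (M (nat_lit 461) (B (lo112_10_4 (nat_lit 332))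 (M (nat_lit 493) (B (lo113_15_7 (nat_lit 397)) (lo112_11_4 (nat_lit 460)))))) (B (M (nat_lit 331) (B (M (nat_lit 332) (B (lo112_10_4 (nat_lit 461)) (lo112_13_7 (nat_lit 299)))) (M (nat_lit 363) (B (lo112_14_7 (nat_lit 460)) (lo110_14_6 (nat_lit 362)))))) (B (M (nat_lit 332) (B (M (nat_lit 301) (B (lo112_13_6 (nat_lit 333)) (M (nat_lit 300) (B (lo112_9_4 (nat_lit 397)) (lo112_12_6 (nat_lit 269)))))) (M (nat_lit 331) (B (lo112_13_7 (nat_lit 299)) (M (nat_lit 363) (B (lo112_14_7 (nat_lit 460)) (lo110_14_6 (nat_lit 362)))))))) (M (nat_lit 460) (B (M (nat_lit 461) (B (lo112_11_4 (nat_lit 493)) (M (nat_lit 459) (B (lo113_14_3 (nat_lit 425)) (lo112_11_5 (nat_lit 491)))))) (B (M (nat_lit 492) (B (M (nat_lit 491) (B (lo112_12_5 (nat_lit 523)) (lo112_11_5 (nat_lit 459)))) (M (nat_lit 363) (B (lo112_15_7 (nat_lit 395)) (lo112_14_7 (nat_lit 331)))))) (M (nat_lit 492) (B (M (nat_lit 493)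 (B (lo112_12_4 (nat_lit 525)) (lo112_11_4 (nat_lit 461)))) (M (nat_lit 363) (B (lo112_15_7 (nat_lit 395)) (lo112_14_7 (nat_lit 331)))))))))))))) (M (nat_lit 364) (B (M (nat_lit 461) (B (lo112_10_4 (nat_lit 332)) (M (nat_lit 493) (B (lo113_15_7 (nat_lit 397)) (lo112_11_4 (nat_lit 460)))))) (B (M (nat_lit 460) (B (M (nat_lit 491) (B (lo112_11_5 (nat_lit 459)) (M (nat_lit 523) (B (lo112_12_5 (nat_lit 492)) (lo110_12_4 (nat_lit 490)))))) (B (M (nat_lit 490) (B (M (nat_lit 491) (B (lo112_11_5 (nat_lit 459)) (lo110_12_4 (nat_lit 523)))) (M (nat_lit 363) (B (lo112_14_7 (nat_lit 331)) (lo110_15_6 (nat_lit 395)))))) (B (M (nat_lit 363) (B (lo112_14_7 (nat_lit 331)) (M (nat_lit 395) (B (lo112_15_7 (nat_lit 492)) (lo110_15_6 (nat_lit 490)))))) (M (nat_lit 492) (B (M (nat_lit 491) (B (lo112_12_5 (nat_lit 523)) (lo112_11_5 (nat_lit 459)))) (M (nat_lit 363) (B (lo112_15_7 (nat_lit 395))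 (lo112_14_7 (nat_lit 331)))))))))) (M (nat_lit 461) (B (lo112_10_4 (nat_lit 332)) (M (nat_lit 493) (B (lo113_16_7 (nat_lit 525)) (lo113_15_7 (nat_lit 397)))))))))))))))))) (M (nat_lit 490) (B (M (nat_lit 522) (B (M (nat_lit 523) (B (lo110_13_4 (nat_lit 555)) (lo110_12_4 (nat_lit 491)))) (M (nat_lit 521) (B (lo110_13_5 (nat_lit 553)) (lo110_12_5 (nat_lit 489)))))) (B (M (nat_lit 362) (B (M (nat_lit 491) (B (lo110_12_4 (nat_lit 523)) (lo110_11_4 (nat_lit 459)))) (M (nat_lit 363) (B (lo110_15_6 (nat_lit 395)) (lo110_14_6 (nat_lit 331)))))) (M (nat_lit 393) (B (M (nat_lit 395) (B (lo19_12_0 (nat_lit 396)) (lo110_15_6 (nat_lit 363)))) (M (nat_lit 522) (B (lo110_16_7 (nat_lit 425)) (M (nat_lit 521) (B (lo110_13_5 (nat_lit 553)) (lo110_12_5 (nat_lit 489)))))))))))))))))) (M (nat_lit 394) (B (K _ _ _ o1_s32099) (B (K _ _ _ o1_s31814) (B (K _ _ _ o1_s31834) (B (K _ _ _ o1_s32038) (B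 (K _ _ _ o1_s31825) (K _ _ _ o1_s31792)))))))))))))))))))))) (B (M (nat_lit 427) (B (M (nat_lit 425) (B (M (nat_lit 461) (B (lo110_13_0 (nat_lit 462)) (lo19_13_0 (nat_lit 460)))) (M (nat_lit 457) (B (lo113_13_1 (nat_lit 458)) (lo112_13_1 (nat_lit 456)))))) (B (M (nat_lit 425) (B (M (nat_lit 397) (B (lo110_13_2 (nat_lit 398)) (lo19_13_2 (nat_lit 396)))) (M (nat_lit 393) (B (lo113_13_3 (nat_lit 394)) (lo112_13_3 (nat_lit 392)))))) (M (nat_lit 461) (B (lo110_13_0 (nat_lit 462)) (K _ _ _ o1_s33375)))))) (B (M (nat_lit 461) (B (M (nat_lit 427) (B (lo110_13_0 (nat_lit 462)) (M (nat_lit 425) (B (lo19_13_0 (nat_lit 460)) (M (nat_lit 397) (B (lo110_13_2 (nat_lit 398)) (lo19_13_2 (nat_lit 396)))))))) (B (M (nat_lit 396) (B (M (nat_lit 364) (B (lo112_10_4 (nat_lit 332)) (M (nat_lit 493) (B (lo113_16_7 (nat_lit 525)) (lo112_11_4 (nat_lit 460)))))) (B (M (nat_lit 364) (B (lo112_10_4 (nat_lit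 332)) (M (nat_lit 493) (B (lo113_15_7 (nat_lit 397)) (lo112_11_4 (nat_lit 460)))))) (B (M (nat_lit 364) (B (lo112_10_4 (nat_lit 332)) (M (nat_lit 397) (B (M (nat_lit 427) (B (lo110_13_2 (nat_lit 398)) (lo19_13_2 (nat_lit 425)))) (B (M (nat_lit 394) (B (M (nat_lit 427) (B (lo113_13_3 (nat_lit 393)) (lo19_13_2 (nat_lit 425)))) (B (M (nat_lit 395) (B (lo19_12_0 (nat_lit 393)) (lo113_12_1 (nat_lit 425)))) (B (M (nat_lit 393) (B (lo19_12_0 (nat_lit 395)) (lo113_13_3 (nat_lit 427)))) (M (nat_lit 425) (B (lo19_13_2 (nat_lit 427)) (lo113_12_1 (nat_lit 395)))))))) (B (M (nat_lit 395) (B (M (nat_lit 394) (B (lo19_12_0 (nat_lit 393)) (lo113_12_1 (nat_lit 425)))) (M (nat_lit 363) (B (M (nat_lit 362) (B (lo114_12_3 (nat_lit 398)) (lo19_11_0 (nat_lit 361)))) (M (nat_lit 331) (B (lo112_14_7 (nat_lit 460)) (lo111_9_4 (nat_lit 299)))))))) (M (nat_lit 398) (B (lo110_13_2 (nat_lit 427)) (M (nat_lit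 399) (B (lo116_12_1 (nat_lit 400)) (lo115_12_3 (nat_lit 363)))))))))))) (B (M (nat_lit 493) (B (lo113_16_7 (nat_lit 525)) (M (nat_lit 364) (B (lo113_15_7 (nat_lit 397)) (lo112_10_4 (nat_lit 332)))))) (M (nat_lit 397) (B (M (nat_lit 427) (B (lo110_13_2 (nat_lit 398)) (lo19_13_2 (nat_lit 425)))) (B (M (nat_lit 394) (B (M (nat_lit 427) (B (lo113_13_3 (nat_lit 393)) (lo19_13_2 (nat_lit 425)))) (B (M (nat_lit 395) (B (lo19_12_0 (nat_lit 393)) (lo113_12_1 (nat_lit 425)))) (B (M (nat_lit 393) (B (lo19_12_0 (nat_lit 395)) (lo113_13_3 (nat_lit 427)))) (M (nat_lit 425) (B (lo19_13_2 (nat_lit 427)) (lo113_12_1 (nat_lit 395)))))))) (B (M (nat_lit 395) (B (M (nat_lit 394) (B (lo19_12_0 (nat_lit 393)) (lo113_12_1 (nat_lit 425)))) (M (nat_lit 398) (B (M (nat_lit 366) (B (lo111_12_2 (nat_lit 367)) (lo113_15_6 (nat_lit 493)))) (B (M (nat_lit 493) (B (lo113_15_6 (nat_lit 366)) (lo113_16_7 (nat_lit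 525)))) (B (M (nat_lit 492) (B (M (nat_lit 493) (B (lo113_16_7 (nat_lit 525)) (lo113_12_5 (nat_lit 524)))) (B (M (nat_lit 524) (B (lo113_12_5 (nat_lit 493)) (lo112_16_6 (nat_lit 460)))) (B (M (nat_lit 460) (B (lo112_16_6 (nat_lit 524)) (lo112_15_7 (nat_lit 363)))) (M (nat_lit 363) (B (lo114_12_3 (nat_lit 362)) (lo112_15_7 (nat_lit 460)))))))) (M (nat_lit 399) (B (lo116_12_1 (nat_lit 400)) (M (nat_lit 367) (B (lo112_12_2 (nat_lit 368)) (lo111_12_2 (nat_lit 366)))))))))))) (M (nat_lit 493) (B (lo113_16_7 (nat_lit 525)) (M (nat_lit 398) (B (lo113_15_6 (nat_lit 366)) (lo110_13_2 (nat_lit 427))))))))))))))) (B (M (nat_lit 427) (B (lo110_13_0 (nat_lit 462)) (M (nat_lit 425) (B (lo19_13_0 (nat_lit 460)) (M (nat_lit 393) (B (lo113_13_3 (nat_lit 394)) (lo112_13_3 (nat_lit 392)))))))) (B (K _ _ _ o1_s31508) (K _ _ _ o1_s31610)))))) (B (M (nat_lit 461) (B (M (nat_lit 427) (B (lo110_13_0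 (nat_lit 462)) (M (nat_lit 425) (B (lo19_13_0 (nat_lit 460)) (M (nat_lit 397) (B (lo110_13_2 (nat_lit 398)) (lo19_13_2 (nat_lit 396)))))))) (B (M (nat_lit 493) (B (M (nat_lit 396) (B (lo113_16_7 (nat_lit 525)) (M (nat_lit 364) (B (lo113_15_7 (nat_lit 397)) (lo112_10_4 (nat_lit 332)))))) (B (M (nat_lit 492) (B (M (nat_lit 524) (B (lo113_12_5 (nat_lit 397)) (M (nat_lit 556) (B (lo112_18_6 (nat_lit 588)) (lo112_17_6 (nat_lit 460)))))) (B (M (nat_lit 460) (B (M (nat_lit 524) (B (lo112_17_6 (nat_lit 556)) (M (nat_lit 427) (B (lo19_13_0 (nat_lit 425)) (lo112_16_7 (nat_lit 395)))))) (B (M (nat_lit 458) (B (M (nat_lit 459) (B (lo110_14_0 (nat_lit 494)) (lo19_14_0 (nat_lit 457)))) (B (M (nat_lit 459) (B (lo19_14_0 (nat_lit 457)) (lo113_14_3 (nat_lit 425)))) (B (M (nat_lit 427) (B (lo19_13_0 (nat_lit 425)) (lo113_13_1 (nat_lit 457)))) (M (nat_lit 425) (B (lo19_13_0 (nat_lit 427)) (lo113_14_3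 (nat_lit 459)))))))) (M (nat_lit 396) (B (lo112_11_4 (nat_lit 364)) (M (nat_lit 524) (B (lo112_17_6 (nat_lit 556)) (M (nat_lit 523) (B (lo112_13_5 (nat_lit 555)) (lo112_12_5 (nat_lit 491))))))))))) (B (M (nat_lit 397) (B (lo113_12_5 (nat_lit 524)) (M (nat_lit 398) (B (lo113_15_6 (nat_lit 366)) (lo110_13_2 (nat_lit 427)))))) (M (nat_lit 427) (B (M (nat_lit 397) (B (lo110_13_2 (nat_lit 398)) (M (nat_lit 425) (B (lo19_13_0 (nat_lit 460)) (lo19_13_2 (nat_lit 396)))))) (B (M (nat_lit 425) (B (lo19_13_0 (nat_lit 460)) (M (nat_lit 457) (B (lo113_13_1 (nat_lit 458)) (lo112_13_1 (nat_lit 456)))))) (B (M (nat_lit 397) (B (lo110_13_2 (nat_lit 398)) (M (nat_lit 396) (B (lo113_15_7 (nat_lit 364)) (lo19_13_2 (nat_lit 425)))))) (M (nat_lit 458) (B (lo113_13_1 (nat_lit 457)) (M (nat_lit 494) (B (M (nat_lit 397) (B (lo113_12_4 (nat_lit 526)) (lo110_13_2 (nat_lit 398)))) (M (nat_lit 459) (B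 (lo110_14_0 (nat_lit 460)) (lo114_15_3 (nat_lit 491)))))))))))))))) (B (M (nat_lit 396) (B (lo113_16_7 (nat_lit 525)) (M (nat_lit 364) (B (lo112_11_4 (nat_lit 460)) (lo112_10_4 (nat_lit 332)))))) (K _ _ _ o1_s31609))))) (B (M (nat_lit 427) (B (lo110_13_0 (nat_lit 462)) (M (nat_lit 425) (B (lo19_13_0 (nat_lit 460)) (M (nat_lit 457) (B (lo113_13_1 (nat_lit 458)) (lo112_13_1 (nat_lit 456)))))))) (B (M (nat_lit 427) (B (lo110_13_0 (nat_lit 462)) (M (nat_lit 425) (B (M (nat_lit 397) (B (lo110_13_2 (nat_lit 398)) (lo19_13_2 (nat_lit 396)))) (M (nat_lit 457) (B (lo113_13_1 (nat_lit 458)) (lo112_13_1 (nat_lit 456)))))))) (K _ _ _ o1_s33528)))))) (M (nat_lit 461) (B (M (nat_lit 493) (B (M (nat_lit 396) (B (lo113_16_7 (nat_lit 525)) (M (nat_lit 364) (B (lo113_15_7 (nat_lit 397)) (lo112_10_4 (nat_lit 332)))))) (B (M (nat_lit 492) (B (M (nat_lit 524) (B (lo113_12_5 (nat_lit 397)) (M (nat_lit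 556) (B (lo112_18_6 (nat_lit 588)) (lo112_17_6 (nat_lit 460)))))) (M (nat_lit 462) (B (lo110_13_0 (nat_lit 427)) (M (nat_lit 463) (B (lo116_14_1 (nat_lit 464)) (M (nat_lit 491) (B (lo111_15_2 (nat_lit 494)) (lo110_15_2 (nat_lit 490)))))))))) (M (nat_lit 396) (B (lo113_16_7 (nat_lit 525)) (M (nat_lit 364) (B (lo112_11_4 (nat_lit 460)) (lo112_10_4 (nat_lit 332))))))))) (B (M (nat_lit 493) (B (M (nat_lit 396) (B (lo113_16_7 (nat_lit 525)) (M (nat_lit 364) (B (lo112_11_4 (nat_lit 460)) (lo112_10_4 (nat_lit 332)))))) (B (M (nat_lit 492) (B (M (nat_lit 524) (B (lo113_12_5 (nat_lit 397)) (M (nat_lit 556) (B (lo112_18_6 (nat_lit 588)) (lo112_17_6 (nat_lit 460)))))) (B (M (nat_lit 462) (B (lo110_13_0 (nat_lit 427)) (M (nat_lit 491) (B (lo110_15_2 (nat_lit 490)) (M (nat_lit 463) (B (lo111_15_2 (nat_lit 494)) (lo115_14_1 (nat_lit 460)))))))) (M (nat_lit 397) (B (lo113_12_5 (nat_lit 524))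 (M (nat_lit 427) (B (lo110_13_0 (nat_lit 462)) (lo110_13_2 (nat_lit 398))))))))) (M (nat_lit 396) (B (lo113_16_7 (nat_lit 525)) (M (nat_lit 364) (B (lo113_15_7 (nat_lit 397)) (lo112_10_4 (nat_lit 332))))))))) (B (M (nat_lit 427) (B (lo110_13_0 (nat_lit 462)) (K _ _ _ o1_s33375))) (B (M (nat_lit 493) (B (M (nat_lit 396) (B (lo113_16_7 (nat_lit 525)) (M (nat_lit 364) (B (lo113_15_7 (nat_lit 397)) (lo112_10_4 (nat_lit 332)))))) (B (M (nat_lit 492) (B (M (nat_lit 397) (B (lo113_12_5 (nat_lit 524)) (M (nat_lit 427) (B (lo110_13_0 (nat_lit 462)) (lo110_13_2 (nat_lit 398)))))) (B (M (nat_lit 397) (B (lo113_12_5 (nat_lit 524)) (M (nat_lit 398) (B (lo113_15_6 (nat_lit 366)) (lo110_13_2 (nat_lit 427)))))) (B (M (nat_lit 462) (B (lo110_13_0 (nat_lit 427)) (M (nat_lit 491) (B (lo110_15_2 (nat_lit 490)) (M (nat_lit 463) (B (lo116_14_1 (nat_lit 464)) (lo115_14_1 (nat_lit 460)))))))) (M (nat_lit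 460) (B (M (nat_lit 524) (B (lo113_12_5 (nat_lit 397)) (lo112_17_6 (nat_lit 556)))) (M (nat_lit 491) (B (M (nat_lit 490) (B (lo110_15_2 (nat_lit 462)) (lo19_15_2 (nat_lit 489)))) (M (nat_lit 396) (B (lo112_11_4 (nat_lit 364)) (lo112_12_5 (nat_lit 523)))))))))))) (B (M (nat_lit 396) (B (lo113_16_7 (nat_lit 525)) (M (nat_lit 364) (B (lo112_11_4 (nat_lit 460)) (lo112_10_4 (nat_lit 332)))))) (M (nat_lit 525) (B (M (nat_lit 557) (B (lo113_17_7 (nat_lit 460)) (M (nat_lit 558) (B (lo113_14_4 (nat_lit 590)) (lo113_13_4 (nat_lit 526)))))) (M (nat_lit 397) (B (M (nat_lit 398) (B (lo113_15_6 (nat_lit 366)) (lo110_13_2 (nat_lit 427)))) (M (nat_lit 524) (B (lo113_13_5 (nat_lit 556)) (lo113_12_5 (nat_lit 492)))))))))))) (B (M (nat_lit 458) (B (M (nat_lit 394) (B (M (nat_lit 427) (B (lo113_13_1 (nat_lit 457)) (lo113_13_3 (nat_lit 393)))) (B (K _ _ _ o1_s33583) (M (nat_lit 393) (B (lo113_13_3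 (nat_lit 427)) (M (nat_lit 490) (B (lo110_15_7 (nat_lit 361)) (M (nat_lit 395) (B (lo19_12_0 (nat_lit 396)) (lo110_15_6 (nat_lit 363))))))))))) (B (M (nat_lit 394) (B (M (nat_lit 427) (B (lo113_13_1 (nat_lit 457)) (lo113_13_3 (nat_lit 393)))) (B (M (nat_lit 490) (B (M (nat_lit 393) (B (lo110_15_7 (nat_lit 361)) (M (nat_lit 395) (B (lo19_12_0 (nat_lit 396)) (lo110_15_6 (nat_lit 363)))))) (M (nat_lit 362) (B (M (nat_lit 491) (B (lo110_12_4 (nat_lit 523)) (lo110_11_4 (nat_lit 459)))) (M (nat_lit 489) (B (lo110_12_5 (nat_lit 521)) (lo110_11_5 (nat_lit 457)))))))) (B (M (nat_lit 393) (B (lo113_13_3 (nat_lit 427)) (M (nat_lit 490) (B (lo110_15_7 (nat_lit 361)) (M (nat_lit 395) (B (lo19_12_0 (nat_lit 396)) (lo110_15_6 (nat_lit 363)))))))) (M (nat_lit 490) (B (M (nat_lit 427) (B (lo113_13_1 (nat_lit 457)) (M (nat_lit 395) (B (lo110_16_6 (nat_lit 522)) (lo110_15_6 (nat_lit 363))))))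 (B (M (nat_lit 362) (B (M (nat_lit 491) (B (lo110_12_4 (nat_lit 523)) (lo110_11_4 (nat_lit 459)))) (M (nat_lit 489) (B (lo110_12_5 (nat_lit 521)) (lo110_11_5 (nat_lit 457)))))) (M (nat_lit 522) (B (M (nat_lit 523) (B (lo110_13_4 (nat_lit 555)) (lo110_12_4 (nat_lit 491)))) (M (nat_lit 395) (B (lo110_16_6 (nat_lit 427)) (lo110_15_6 (nat_lit 363))))))))))))) (B (M (nat_lit 394) (B (M (nat_lit 427) (B (lo113_13_1 (nat_lit 457)) (lo113_13_3 (nat_lit 393)))) (B (K _ _ _ o1_s33583) (M (nat_lit 490) (B (M (nat_lit 393) (B (lo113_13_3 (nat_lit 427)) (lo110_15_7 (nat_lit 361)))) (B (M (nat_lit 362) (B (M (nat_lit 491) (B (lo110_12_4 (nat_lit 523)) (lo110_11_4 (nat_lit 459)))) (M (nat_lit 361) (B (lo110_15_7 (nat_lit 393)) (lo110_14_7 (nat_lit 329)))))) (M (nat_lit 522) (B (M (nat_lit 523) (B (lo110_13_4 (nat_lit 555)) (lo110_12_4 (nat_lit 491)))) (M (nat_lit 395) (B (lo110_16_6 (nat_lit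 427)) (lo110_15_6 (nat_lit 363)))))))))))) (B (M (nat_lit 394) (B (M (nat_lit 427) (B (lo113_13_1 (nat_lit 457)) (lo113_13_3 (nat_lit 393)))) (B (K _ _ _ o1_s33619) (B (M (nat_lit 393) (B (lo113_13_3 (nat_lit 427)) (M (nat_lit 490) (B (lo110_15_7 (nat_lit 361)) (M (nat_lit 395) (B (lo19_12_0 (nat_lit 396)) (lo110_15_6 (nat_lit 363)))))))) (M (nat_lit 457) (B (lo113_13_1 (nat_lit 427)) (M (nat_lit 362) (B (lo110_11_5 (nat_lit 489)) (M (nat_lit 459) (B (lo19_14_2 (nat_lit 460)) (lo110_11_4 (nat_lit 491)))))))))))) (B (M (nat_lit 394) (B (M (nat_lit 427) (B (lo113_13_1 (nat_lit 457)) (lo113_13_3 (nat_lit 393)))) (B (K _ _ _ o1_s33619) (B (M (nat_lit 393) (B (lo113_13_3 (nat_lit 427)) (M (nat_lit 490) (B (lo110_15_7 (nat_lit 361)) (M (nat_lit 395) (B (lo19_12_0 (nat_lit 396)) (lo110_15_6 (nat_lit 363)))))))) (M (nat_lit 457) (B (lo113_13_1 (nat_lit 427)) (M (nat_lit 489) (B (lo110_11_5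 (nat_lit 362)) (M (nat_lit 521) (B (lo110_12_5 (nat_lit 490)) (lo19_17_6 (nat_lit 553)))))))))))) (B (M (nat_lit 460) (B (M (nat_lit 459) (B (lo19_14_2 (nat_lit 457)) (M (nat_lit 493) (B (lo110_14_0 (nat_lit 494)) (M (nat_lit 396) (B (lo113_16_7 (nat_lit 525)) (lo112_11_4 (nat_lit 364)))))))) (B (M (nat_lit 493) (B (M (nat_lit 525) (B (lo113_17_7 (nat_lit 557)) (lo113_16_7 (nat_lit 396)))) (K _ _ _ o1_s33645))) (B (M (nat_lit 492) (B (M (nat_lit 524) (B (lo112_17_6 (nat_lit 556)) (lo112_16_6 (nat_lit 397)))) (M (nat_lit 491) (B (M (nat_lit 459) (B (lo19_14_2 (nat_lit 457)) (M (nat_lit 396) (B (lo112_12_5 (nat_lit 523)) (lo112_11_5 (nat_lit 364)))))) (B (M (nat_lit 490) (B (lo19_15_2 (nat_lit 489)) (M (nat_lit 457) (B (lo113_15_3 (nat_lit 493)) (lo19_14_2 (nat_lit 459)))))) (M (nat_lit 396) (B (lo112_12_5 (nat_lit 523)) (M (nat_lit 364) (B (lo112_11_4 (nat_lit 493)) (lo112_10_4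 (nat_lit 332))))))))))) (B (M (nat_lit 394) (B (M (nat_lit 459) (B (lo19_14_2 (nat_lit 457)) (M (nat_lit 491) (B (lo110_11_4 (nat_lit 362)) (M (nat_lit 490) (B (lo113_14_1 (nat_lit 489)) (lo110_12_4 (nat_lit 523)))))))) (B (M (nat_lit 490) (B (M (nat_lit 489) (B (lo113_14_1 (nat_lit 459)) (lo110_12_5 (nat_lit 521)))) (M (nat_lit 395) (B (lo110_15_6 (nat_lit 363)) (M (nat_lit 393) (B (lo19_12_0 (nat_lit 396)) (lo110_15_7 (nat_lit 361)))))))) (B (M (nat_lit 490) (B (M (nat_lit 395) (B (lo110_15_6 (nat_lit 363)) (M (nat_lit 393) (B (lo19_12_0 (nat_lit 396)) (lo110_15_7 (nat_lit 361)))))) (M (nat_lit 489) (B (lo110_12_5 (nat_lit 521)) (M (nat_lit 491) (B (lo19_15_2 (nat_lit 492)) (lo110_12_4 (nat_lit 523)))))))) (M (nat_lit 396) (B (M (nat_lit 364) (B (lo112_10_4 (nat_lit 332)) (M (nat_lit 459) (B (lo19_14_2 (nat_lit 457)) (lo112_11_5 (nat_lit 491)))))) (M (nat_lit 492) (B (M (nat_lit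 524) (B (lo112_17_6 (nat_lit 556)) (lo112_16_6 (nat_lit 397)))) (M (nat_lit 395) (B (lo19_12_0 (nat_lit 393)) (lo112_15_7 (nat_lit 363)))))))))))) (B (M (nat_lit 493) (B (M (nat_lit 459) (B (lo110_14_0 (nat_lit 494)) (lo19_14_2 (nat_lit 457)))) (B (K _ _ _ o1_s33645) (K _ _ _ o1_s32794)))) (B (M (nat_lit 493) (B (M (nat_lit 525) (B (lo113_17_7 (nat_lit 557)) (lo113_16_7 (nat_lit 396)))) (B (M (nat_lit 396) (B (lo113_16_7 (nat_lit 525)) (lo112_11_4 (nat_lit 364)))) (B (M (nat_lit 492) (B (M (nat_lit 524) (B (lo113_12_5 (nat_lit 397)) (lo112_17_6 (nat_lit 556)))) (M (nat_lit 491) (B (M (nat_lit 490) (B (lo113_15_3 (nat_lit 457)) (lo19_15_2 (nat_lit 489)))) (M (nat_lit 396) (B (lo112_11_4 (nat_lit 364)) (lo112_12_5 (nat_lit 523)))))))) (K _ _ _ o1_s32794))))) (M (nat_lit 490) (B (M (nat_lit 459) (B (lo113_14_1 (nat_lit 489)) (M (nat_lit 493) (B (lo110_14_0 (nat_lit 494)) (M (nat_lit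 525) (B (lo113_17_7 (nat_lit 557)) (lo113_16_7 (nat_lit 396)))))))) (B (M (nat_lit 492) (B (M (nat_lit 489) (B (lo19_15_2 (nat_lit 491)) (lo113_14_1 (nat_lit 459)))) (M (nat_lit 524) (B (lo112_17_6 (nat_lit 556)) (lo112_16_6 (nat_lit 397)))))) (B (M (nat_lit 492) (B (M (nat_lit 524) (B (lo112_17_6 (nat_lit 556)) (lo112_16_6 (nat_lit 397)))) (M (nat_lit 396) (B (M (nat_lit 493) (B (lo113_16_7 (nat_lit 525)) (lo112_11_4 (nat_lit 364)))) (M (nat_lit 491) (B (lo19_15_2 (nat_lit 489)) (lo112_12_5 (nat_lit 523)))))))) (M (nat_lit 394) (B (M (nat_lit 395) (B (lo110_15_6 (nat_lit 363)) (M (nat_lit 393) (B (lo19_12_0 (nat_lit 396)) (lo110_15_7 (nat_lit 361)))))) (B (M (nat_lit 362) (B (M (nat_lit 491) (B (lo110_12_4 (nat_lit 523)) (lo110_11_4 (nat_lit 459)))) (M (nat_lit 361) (B (lo110_15_7 (nat_lit 393)) (lo110_14_7 (nat_lit 329)))))) (M (nat_lit 362) (B (M (nat_lit 491) (B (lo110_12_4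 (nat_lit 523)) (lo110_11_4 (nat_lit 459)))) (M (nat_lit 363) (B (lo110_15_6 (nat_lit 395)) (lo110_14_6 (nat_lit 331)))))))))))))))))))) (B (M (nat_lit 459) (B (M (nat_lit 457) (B (lo19_14_2 (nat_lit 460)) (lo113_13_1 (nat_lit 427)))) (B (M (nat_lit 427) (B (lo113_13_1 (nat_lit 457)) (M (nat_lit 394) (B (lo113_13_3 (nat_lit 393)) (M (nat_lit 491) (B (lo111_16_7 (nat_lit 523)) (lo110_11_4 (nat_lit 362)))))))) (B (M (nat_lit 460) (B (lo19_14_2 (nat_lit 457)) (M (nat_lit 493) (B (lo110_14_0 (nat_lit 494)) (M (nat_lit 396) (B (lo113_16_7 (nat_lit 525)) (lo112_11_4 (nat_lit 364)))))))) (M (nat_lit 493) (B (M (nat_lit 396) (B (lo113_16_7 (nat_lit 525)) (M (nat_lit 364) (B (lo113_15_7 (nat_lit 397)) (lo112_10_4 (nat_lit 332)))))) (B (M (nat_lit 397) (B (M (nat_lit 494) (B (lo113_12_4 (nat_lit 526)) (lo110_14_0 (nat_lit 460)))) (M (nat_lit 398) (B (lo113_15_6 (nat_lit 366)) (lo110_13_2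 (nat_lit 427)))))) (M (nat_lit 460) (B (lo110_14_0 (nat_lit 494)) (M (nat_lit 525) (B (lo113_17_7 (nat_lit 557)) (lo113_16_7 (nat_lit 396))))))))))))) (M (nat_lit 493) (B (M (nat_lit 396) (B (lo113_16_7 (nat_lit 525)) (M (nat_lit 364) (B (lo113_15_7 (nat_lit 397)) (lo112_10_4 (nat_lit 332)))))) (B (M (nat_lit 397) (B (M (nat_lit 398) (B (lo113_15_6 (nat_lit 366)) (lo110_13_2 (nat_lit 427)))) (M (nat_lit 492) (B (lo113_12_5 (nat_lit 524)) (M (nat_lit 494) (B (lo113_12_4 (nat_lit 526)) (M (nat_lit 459) (B (lo110_14_0 (nat_lit 460)) (lo114_15_3 (nat_lit 491)))))))))) (M (nat_lit 396) (B (lo113_16_7 (nat_lit 525)) (M (nat_lit 364) (B (lo112_11_4 (nat_lit 460)) (lo112_10_4 (nat_lit 332))))))))))))))))) (B (M (nat_lit 427) (B (lo110_13_0 (nat_lit 462)) (M (nat_lit 458) (B (lo113_13_1 (nat_lit 457)) (M (nat_lit 394) (B (lo113_13_3 (nat_lit 393)) (M (nat_lit 459) (B (M (nat_lit 491)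 (B (lo111_16_7 (nat_lit 523)) (lo110_11_4 (nat_lit 362)))) (M (nat_lit 490) (B (M (nat_lit 395) (B (lo111_11_5 (nat_lit 363)) (lo110_16_6 (nat_lit 522)))) (M (nat_lit 489) (B (lo113_14_1 (nat_lit 460)) (lo110_12_5 (nat_lit 521)))))))))))))) (B (M (nat_lit 427) (B (lo110_13_0 (nat_lit 462)) (M (nat_lit 394) (B (lo113_13_3 (nat_lit 393)) (M (nat_lit 458) (B (lo113_13_1 (nat_lit 457)) (M (nat_lit 362) (B (M (nat_lit 459) (B (lo110_11_4 (nat_lit 491)) (lo110_10_4 (nat_lit 330)))) (B (M (nat_lit 331) (B (lo110_14_6 (nat_lit 363)) (M (nat_lit 330) (B (lo110_10_4 (nat_lit 459)) (lo110_13_6 (nat_lit 299)))))) (B (M (nat_lit 330) (B (M (nat_lit 331) (B (lo110_14_6 (nat_lit 363)) (lo110_13_6 (nat_lit 299)))) (M (nat_lit 329) (B (lo110_14_7 (nat_lit 361)) (lo110_13_7 (nat_lit 297)))))) (M (nat_lit 490) (B (M (nat_lit 491) (B (lo110_12_4 (nat_lit 523)) (lo110_11_4 (nat_lit 459)))) (M (nat_lit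 363) (B (lo110_15_6 (nat_lit 395)) (lo110_14_6 (nat_lit 331)))))))))))))))) (B (M (nat_lit 427) (B (lo110_13_0 (nat_lit 462)) (M (nat_lit 396) (B (M (nat_lit 397) (B (lo110_13_2 (nat_lit 398)) (M (nat_lit 493) (B (lo113_16_7 (nat_lit 525)) (lo113_15_7 (nat_lit 364)))))) (B (M (nat_lit 364) (B (lo112_10_4 (nat_lit 332)) (M (nat_lit 493) (B (lo113_16_7 (nat_lit 525)) (lo112_11_4 (nat_lit 460)))))) (B (M (nat_lit 364) (B (lo112_10_4 (nat_lit 332)) (M (nat_lit 493) (B (lo113_15_7 (nat_lit 397)) (lo112_11_4 (nat_lit 460)))))) (M (nat_lit 395) (B (M (nat_lit 458) (B (lo113_13_1 (nat_lit 457)) (M (nat_lit 363) (B (lo111_10_5 (nat_lit 331)) (M (nat_lit 490) (B (lo111_11_5 (nat_lit 459)) (lo110_16_6 (nat_lit 522)))))))) (B (M (nat_lit 394) (B (lo19_12_0 (nat_lit 393)) (M (nat_lit 458) (B (lo113_13_1 (nat_lit 457)) (M (nat_lit 363) (B (lo111_10_5 (nat_lit 331)) (lo110_15_6 (nat_lit 490))))))))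 (M (nat_lit 394) (B (lo19_12_0 (nat_lit 393)) (M (nat_lit 362) (B (M (nat_lit 397) (B (lo110_13_2 (nat_lit 398)) (lo113_12_3 (nat_lit 361)))) (M (nat_lit 330) (B (lo110_10_4 (nat_lit 459)) (lo110_9_4 (nat_lit 298))))))))))))))))) (K _ _ _ o1_s33528))))))))))))))))))))) _ _ _ (by decide +kernel)
theorem o1_s34649 : Sem (nat_lit 2079502270590611144796540682080456772516022875177750608691892447808565334648169183913526837783605888859300960143521576617263497216) (nat_lit 137295953247365581551205091885480048602381691353479774031267369915563707213331619714023758348079538076271882718183590888006952430365615771331140308734769627136) (nat_lit 137295953247365581551205091885480048602381691353479774031267369915563707213331619714023758348079538076271882718183590888006952430365615771331140308734769627136) := sem_of_chk (M (nat_lit 396) (B (K _ _ _ o1_s34600) (B (K _ _ _ o1_s34640) (M (nat_lit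 460) (B (lo112_14_6 (nat_lit 333)) (M (nat_lit 491) (B (lo112_11_5 (nat_lit 459)) (M (nat_lit 493) (B (lo112_11_4 (nat_lit 461)) (M (nat_lit 492) (B (lo112_12_5 (nat_lit 523)) (lo112_12_4 (nat_lit 525))))))))))))) _ _ _ (by decide +kernel)
theorem o1_s34735 : Sem (nat_lit 2079502270590611144796540682080456772516022875177750608691892447808565334648169183913526837783605888859300960143521576617263497216) (nat_lit 54918381293831559790880904816534585482934817123245567333692405561571500703735716513457799184265879361976803894732215278675482187357878282920766400667641184256) (nat_lit 54918381293831559790880904816534585482934817123245567333692405561571500703735716513457799184265879361976803894732215278675482187357878282920766400667641184256) := sem_of_chk (M (nat_lit 397) (B (M (nat_lit 460) (B (lo113_10_5 (nat_lit 333)) (M (nat_lit 492) (B (lo112_16_6 (nat_lit 524)) (lo113_11_5 (nat_lit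 461)))))) (B (M (nat_lit 366) (B (M (nat_lit 334) (B (lo113_14_6 (nat_lit 461)) (M (nat_lit 302) (B (lo113_13_6 (nat_lit 333)) (lo114_8_5 (nat_lit 270)))))) (B (M (nat_lit 334) (B (lo113_14_6 (nat_lit 461)) (M (nat_lit 302) (B (lo114_8_5 (nat_lit 270)) (lo114_9_5 (nat_lit 398)))))) (B (M (nat_lit 363) (B (M (nat_lit 398) (B (lo110_11_0 (nat_lit 362)) (lo111_11_0 (nat_lit 399)))) (B (M (nat_lit 398) (B (lo111_11_0 (nat_lit 399)) (M (nat_lit 334) (B (lo111_11_2 (nat_lit 335)) (lo114_9_5 (nat_lit 302)))))) (M (nat_lit 334) (B (lo111_11_2 (nat_lit 335)) (M (nat_lit 333) (B (lo110_11_2 (nat_lit 362)) (lo113_13_6 (nat_lit 302))))))))) (B (M (nat_lit 363) (B (M (nat_lit 334) (B (lo111_11_2 (nat_lit 335)) (lo113_14_6 (nat_lit 461)))) (M (nat_lit 398) (B (lo110_11_0 (nat_lit 362)) (lo111_11_0 (nat_lit 399)))))) (K _ _ _ o1_s34719)))))) (B (M (nat_lit 366) (B (M (nat_lit 334) (B (lo113_14_6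 (nat_lit 461)) (M (nat_lit 302) (B (lo114_8_5 (nat_lit 270)) (lo114_9_5 (nat_lit 398)))))) (B (M (nat_lit 363) (B (M (nat_lit 398) (B (lo110_11_0 (nat_lit 362)) (lo111_11_0 (nat_lit 399)))) (B (M (nat_lit 398) (B (lo111_11_0 (nat_lit 399)) (M (nat_lit 334) (B (lo111_11_2 (nat_lit 335)) (lo114_9_5 (nat_lit 302)))))) (M (nat_lit 362) (B (M (nat_lit 330) (B (lo113_11_3 (nat_lit 329)) (lo114_11_3 (nat_lit 331)))) (M (nat_lit 394) (B (lo113_11_1 (nat_lit 393)) (lo114_11_1 (nat_lit 395))))))))) (B (M (nat_lit 363) (B (M (nat_lit 334) (B (lo111_11_2 (nat_lit 335)) (lo113_14_6 (nat_lit 461)))) (M (nat_lit 398) (B (lo110_11_0 (nat_lit 362)) (lo111_11_0 (nat_lit 399)))))) (B (K _ _ _ o1_s34719) (M (nat_lit 334) (B (lo113_14_6 (nat_lit 461)) (M (nat_lit 335) (B (lo111_11_2 (nat_lit 363)) (M (nat_lit 336) (B (lo112_11_2 (nat_lit 367)) (lo117_10_1 (nat_lit 337))))))))))))) (K _ _ _ o1_s29042)))))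 _ _ _ (by decide +kernel)
theorem o1_s36563 : Sem (nat_lit 2079502270590611144796540682080456772516022875177750608691892447808565334648169183913526837783605888859300960143521576617263497216) (nat_lit 2026130649693226623645563157524200304604734512972713914983191401352241882192751006156956646555611074017607708008940720792927191235585452527731032193803833832210653613750837313536) (nat_lit 2026130649693226623645563157524200304604734512972713914983191401352241882192751006156956646555611074017607708008940720792927191235585452527731032193803833832210653613750837313536) := sem_of_chk (M (nat_lit 396) (B (M (nat_lit 333) (B (lo112_14_6 (nat_lit 460)) (M (nat_lit 332) (B (lo112_13_6 (nat_lit 301)) (lo112_10_4 (nat_lit 461)))))) (B (M (nat_lit 461) (B (lo112_10_4 (nat_lit 332)) (M (nat_lit 493) (B (lo113_16_7 (nat_lit 525)) (lo112_11_4 (nat_lit 460)))))) (B (M (nat_lit 333) (B (lo112_14_6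 (nat_lit 460)) (M (nat_lit 301) (B (lo113_8_5 (nat_lit 269)) (lo112_13_6 (nat_lit 332)))))) (B (K _ _ _ o1_s36560) (K _ _ _ o1_s36562)))))) _ _ _ (by decide +kernel)
theorem o1_s38944 : Sem (nat_lit 2079502270590611144683810638107312777577327806531862431377859685460965980854219217279980804578104683573043408221052678871730618368) (nat_lit 2659296477552826475192798880096697658556051634130903281299030309951973924196310281685289037058794812570220207449825733751641096654617143429148785043502002416043108041569519796224) (nat_lit 2659296477552826475192798880096697658556051634130903281299030309951973924196310281685289037058794812570220207449825733751641096654617143429148785043502002416043108041569519796224) := sem_of_chk (M (nat_lit 426) (B (M (nat_lit 427) (B (M (nat_lit 397) (B (lo110_13_2 (nat_lit 398)) (M (nat_lit 425) (B (lo19_13_2 (nat_lit 396)) (M (nat_lit 461) (B (lo110_13_0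 (nat_lit 462)) (lo19_13_0 (nat_lit 460)))))))) (B (M (nat_lit 425) (B (M (nat_lit 461) (B (lo110_13_0 (nat_lit 462)) (lo19_13_0 (nat_lit 460)))) (M (nat_lit 393) (B (lo113_13_3 (nat_lit 394)) (lo112_13_3 (nat_lit 392)))))) (B (M (nat_lit 425) (B (M (nat_lit 397) (B (lo110_13_2 (nat_lit 398)) (lo19_13_2 (nat_lit 396)))) (M (nat_lit 393) (B (lo113_13_3 (nat_lit 394)) (lo112_13_3 (nat_lit 392)))))) (K _ _ _ o1_s36590))))) (B (M (nat_lit 427) (B (M (nat_lit 425) (B (M (nat_lit 461) (B (lo110_13_0 (nat_lit 462)) (lo19_13_0 (nat_lit 460)))) (M (nat_lit 393) (B (lo113_13_3 (nat_lit 394)) (lo112_13_3 (nat_lit 392)))))) (B (M (nat_lit 425) (B (M (nat_lit 393) (B (lo113_13_3 (nat_lit 394)) (lo112_13_3 (nat_lit 392)))) (M (nat_lit 457) (B (lo113_13_1 (nat_lit 458)) (lo112_13_1 (nat_lit 456)))))) (B (M (nat_lit 425) (B (M (nat_lit 461) (B (lo110_13_0 (nat_lit 462)) (lo19_13_0 (nat_lit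 460)))) (M (nat_lit 457) (B (lo113_13_1 (nat_lit 458)) (lo112_13_1 (nat_lit 456)))))) (K _ _ _ o1_s36590))))) (B (M (nat_lit 427) (B (M (nat_lit 425) (B (M (nat_lit 397) (B (lo110_13_2 (nat_lit 398)) (lo19_13_2 (nat_lit 396)))) (M (nat_lit 393) (B (lo113_13_3 (nat_lit 394)) (lo112_13_3 (nat_lit 392)))))) (B (M (nat_lit 425) (B (M (nat_lit 393) (B (lo113_13_3 (nat_lit 394)) (lo112_13_3 (nat_lit 392)))) (M (nat_lit 457) (B (lo113_13_1 (nat_lit 458)) (lo112_13_1 (nat_lit 456)))))) (B (M (nat_lit 425) (B (M (nat_lit 397) (B (lo110_13_2 (nat_lit 398)) (lo19_13_2 (nat_lit 396)))) (M (nat_lit 457) (B (lo113_13_1 (nat_lit 458)) (lo112_13_1 (nat_lit 456)))))) (K _ _ _ o1_s36590))))) (B (M (nat_lit 427) (B (M (nat_lit 425) (B (M (nat_lit 397) (B (lo110_13_2 (nat_lit 398)) (lo19_13_2 (nat_lit 396)))) (M (nat_lit 393) (B (lo113_13_3 (nat_lit 394)) (lo112_13_3 (nat_lit 392)))))) (B (M (nat_lit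 425) (B (M (nat_lit 393) (B (lo113_13_3 (nat_lit 394)) (lo112_13_3 (nat_lit 392)))) (M (nat_lit 457) (B (lo113_13_1 (nat_lit 458)) (lo112_13_1 (nat_lit 456)))))) (B (M (nat_lit 425) (B (M (nat_lit 397) (B (lo110_13_2 (nat_lit 398)) (lo19_13_2 (nat_lit 396)))) (M (nat_lit 457) (B (lo113_13_1 (nat_lit 458)) (lo112_13_1 (nat_lit 456)))))) (M (nat_lit 458) (B (lo113_13_1 (nat_lit 457)) (M (nat_lit 394) (B (lo113_13_3 (nat_lit 393)) (M (nat_lit 490) (B (M (nat_lit 395) (B (lo110_15_6 (nat_lit 363)) (lo110_16_6 (nat_lit 522)))) (B (M (nat_lit 523) (B (lo110_12_4 (nat_lit 491)) (M (nat_lit 522) (B (lo110_16_6 (nat_lit 395)) (lo110_13_4 (nat_lit 555)))))) (B (M (nat_lit 522) (B (M (nat_lit 523) (B (lo110_12_4 (nat_lit 491)) (lo110_13_4 (nat_lit 555)))) (M (nat_lit 521) (B (lo110_12_5 (nat_lit 489)) (lo110_13_5 (nat_lit 553)))))) (M (nat_lit 362) (B (M (nat_lit 363) (B (lo110_14_6 (nat_lit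 331)) (lo110_15_6 (nat_lit 395)))) (M (nat_lit 491) (B (lo110_11_4 (nat_lit 459)) (lo110_12_4 (nat_lit 523)))))))))))))))))) (B (M (nat_lit 427) (B (M (nat_lit 425) (B (M (nat_lit 397) (B (lo110_13_2 (nat_lit 398)) (lo19_13_2 (nat_lit 396)))) (M (nat_lit 393) (B (lo113_13_3 (nat_lit 394)) (lo112_13_3 (nat_lit 392)))))) (B (M (nat_lit 425) (B (M (nat_lit 461) (B (lo110_13_0 (nat_lit 462)) (lo19_13_0 (nat_lit 460)))) (M (nat_lit 457) (B (lo113_13_1 (nat_lit 458)) (lo112_13_1 (nat_lit 456)))))) (M (nat_lit 459) (B (M (nat_lit 458) (B (lo113_13_1 (nat_lit 457)) (M (nat_lit 394) (B (lo113_13_3 (nat_lit 393)) (M (nat_lit 491) (B (lo111_16_7 (nat_lit 523)) (lo110_11_4 (nat_lit 362)))))))) (B (M (nat_lit 460) (B (M (nat_lit 461) (B (lo110_13_0 (nat_lit 462)) (M (nat_lit 397) (B (lo110_13_2 (nat_lit 398)) (M (nat_lit 365) (B (lo113_10_5 (nat_lit 333)) (lo113_11_5 (nat_lit 492))))))))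 (B (M (nat_lit 458) (B (lo19_14_2 (nat_lit 457)) (M (nat_lit 490) (B (M (nat_lit 461) (B (lo110_13_0 (nat_lit 462)) (lo113_14_1 (nat_lit 489)))) (M (nat_lit 522) (B (lo110_16_6 (nat_lit 395)) (lo110_17_6 (nat_lit 554)))))))) (M (nat_lit 397) (B (lo110_13_2 (nat_lit 398)) (M (nat_lit 492) (B (lo112_16_6 (nat_lit 524)) (M (nat_lit 365) (B (lo113_10_5 (nat_lit 333)) (lo112_15_6 (nat_lit 396))))))))))) (M (nat_lit 394) (B (lo113_13_3 (nat_lit 393)) (M (nat_lit 491) (B (lo111_16_7 (nat_lit 523)) (M (nat_lit 362) (B (lo111_15_7 (nat_lit 395)) (lo110_10_4 (nat_lit 330)))))))))))))) (B (M (nat_lit 397) (B (M (nat_lit 427) (B (lo110_13_2 (nat_lit 398)) (M (nat_lit 425) (B (lo19_13_2 (nat_lit 396)) (M (nat_lit 393) (B (lo113_13_3 (nat_lit 394)) (lo112_13_3 (nat_lit 392)))))))) (B (M (nat_lit 460) (B (M (nat_lit 365) (B (lo113_10_5 (nat_lit 333)) (M (nat_lit 492) (B (lo113_11_5 (nat_lit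 461)) (lo112_16_6 (nat_lit 524)))))) (B (M (nat_lit 492) (B (lo112_16_6 (nat_lit 524)) (M (nat_lit 365) (B (lo113_11_5 (nat_lit 461)) (lo112_15_6 (nat_lit 396)))))) (B (M (nat_lit 458) (B (M (nat_lit 457) (B (lo19_14_2 (nat_lit 459)) (lo113_13_1 (nat_lit 427)))) (B (M (nat_lit 459) (B (lo19_14_2 (nat_lit 457)) (K _ _ _ o1_s36658))) (B (M (nat_lit 427) (B (lo113_13_1 (nat_lit 457)) (M (nat_lit 461) (B (lo110_13_0 (nat_lit 462)) (lo19_13_0 (nat_lit 425)))))) (M (nat_lit 459) (B (M (nat_lit 425) (B (lo113_14_3 (nat_lit 461)) (M (nat_lit 427) (B (lo19_13_2 (nat_lit 396)) (lo18_13_0 (nat_lit 424)))))) (B (M (nat_lit 427) (B (M (nat_lit 425) (B (lo19_13_2 (nat_lit 396)) (lo18_13_0 (nat_lit 424)))) (M (nat_lit 394) (B (lo113_13_3 (nat_lit 393)) (M (nat_lit 491) (B (lo111_16_7 (nat_lit 523)) (lo110_11_4 (nat_lit 362)))))))) (B (M (nat_lit 461) (B (lo113_14_3 (nat_lit 425)) (M (nat_lit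 462) (B (lo110_13_0 (nat_lit 427)) (M (nat_lit 490) (B (lo114_14_1 (nat_lit 491)) (lo113_14_1 (nat_lit 489)))))))) (B (K _ _ _ o1_s36658) (K _ _ _ o1_s36699)))))))))) (B (M (nat_lit 492) (B (lo112_16_6 (nat_lit 524)) (M (nat_lit 365) (B (lo113_10_5 (nat_lit 333)) (lo112_15_6 (nat_lit 396)))))) (M (nat_lit 459) (B (M (nat_lit 458) (B (lo19_14_2 (nat_lit 457)) (M (nat_lit 425) (B (lo113_14_3 (nat_lit 461)) (M (nat_lit 427) (B (lo19_13_2 (nat_lit 396)) (lo18_13_0 (nat_lit 424)))))))) (B (M (nat_lit 427) (B (M (nat_lit 425) (B (lo19_13_2 (nat_lit 396)) (lo18_13_0 (nat_lit 424)))) (M (nat_lit 458) (B (lo19_14_2 (nat_lit 457)) (M (nat_lit 394) (B (lo113_13_3 (nat_lit 393)) (M (nat_lit 491) (B (lo111_16_7 (nat_lit 523)) (lo110_11_4 (nat_lit 362)))))))))) (B (M (nat_lit 461) (B (M (nat_lit 427) (B (lo110_13_0 (nat_lit 462)) (lo19_13_0 (nat_lit 425)))) (B (M (nat_lit 458) (B (lo19_14_2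 (nat_lit 457)) (lo113_14_3 (nat_lit 425)))) (M (nat_lit 462) (B (lo110_13_0 (nat_lit 427)) (M (nat_lit 365) (B (lo113_11_4 (nat_lit 494)) (lo113_10_5 (nat_lit 333))))))))) (B (M (nat_lit 458) (B (lo19_14_2 (nat_lit 457)) (M (nat_lit 461) (B (lo113_14_3 (nat_lit 425)) (M (nat_lit 462) (B (M (nat_lit 365) (B (lo113_11_4 (nat_lit 494)) (lo113_10_5 (nat_lit 333)))) (M (nat_lit 490) (B (lo114_14_1 (nat_lit 491)) (lo113_14_1 (nat_lit 489)))))))))) (B (M (nat_lit 427) (B (M (nat_lit 461) (B (lo110_13_0 (nat_lit 462)) (lo19_13_0 (nat_lit 425)))) (B (M (nat_lit 425) (B (lo19_13_2 (nat_lit 396)) (lo19_13_0 (nat_lit 461)))) (B (M (nat_lit 396) (B (lo19_13_2 (nat_lit 425)) (M (nat_lit 364) (B (lo112_10_5 (nat_lit 332)) (lo112_11_5 (nat_lit 491)))))) (M (nat_lit 364) (B (M (nat_lit 396) (B (lo112_10_5 (nat_lit 332)) (lo112_11_5 (nat_lit 491)))) (B (M (nat_lit 491) (B (lo112_11_5 (nat_lit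 396)) (M (nat_lit 394) (B (lo113_13_3 (nat_lit 393)) (lo111_16_7 (nat_lit 523)))))) (M (nat_lit 461) (B (lo110_13_0 (nat_lit 462)) (M (nat_lit 365) (B (lo113_10_5 (nat_lit 333)) (lo113_14_7 (nat_lit 332))))))))))))) (M (nat_lit 458) (B (lo19_14_2 (nat_lit 457)) (K _ _ _ o1_s36699)))))))))))))) (B (K _ _ _ o1_s36757) (K _ _ _ o1_s36859))))) (B (M (nat_lit 394) (B (M (nat_lit 396) (B (K _ _ _ o1_s36869) (B (K _ _ _ o1_s36881) (B (M (nat_lit 458) (B (M (nat_lit 393) (B (lo19_12_0 (nat_lit 395)) (M (nat_lit 361) (B (lo110_15_7 (nat_lit 490)) (M (nat_lit 329) (B (lo110_14_7 (nat_lit 362)) (lo19_9_4 (nat_lit 297)))))))) (B (M (nat_lit 362) (B (M (nat_lit 457) (B (lo110_11_5 (nat_lit 489)) (M (nat_lit 459) (B (lo19_14_2 (nat_lit 460)) (lo110_11_4 (nat_lit 491)))))) (M (nat_lit 330) (B (M (nat_lit 331) (B (lo110_13_6 (nat_lit 299)) (lo110_14_6 (nat_lit 363)))) (M (nat_lit 329) (B (lo110_13_7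 (nat_lit 297)) (lo110_14_7 (nat_lit 361)))))))) (B (M (nat_lit 393) (B (lo19_12_0 (nat_lit 395)) (M (nat_lit 361) (B (lo110_15_7 (nat_lit 490)) (M (nat_lit 329) (B (lo19_9_4 (nat_lit 297)) (lo19_10_4 (nat_lit 425)))))))) (B (M (nat_lit 393) (B (lo19_12_0 (nat_lit 395)) (M (nat_lit 361) (B (lo110_15_7 (nat_lit 490)) (M (nat_lit 329) (B (lo110_14_7 (nat_lit 362)) (lo19_10_4 (nat_lit 425)))))))) (M (nat_lit 395) (B (lo19_12_0 (nat_lit 393)) (M (nat_lit 363) (B (lo110_15_6 (nat_lit 490)) (M (nat_lit 331) (B (lo111_9_4 (nat_lit 299)) (lo110_14_6 (nat_lit 362))))))))))))) (B (K _ _ _ o1_s36908) (B (M (nat_lit 364) (B (M (nat_lit 332) (B (lo112_10_4 (nat_lit 461)) (M (nat_lit 300) (B (lo112_9_4 (nat_lit 397)) (M (nat_lit 301) (B (lo112_12_6 (nat_lit 269)) (lo112_13_6 (nat_lit 333)))))))) (B (M (nat_lit 332) (B (lo112_10_4 (nat_lit 461)) (M (nat_lit 300) (B (lo112_9_4 (nat_lit 397))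 (M (nat_lit 299) (B (lo112_12_7 (nat_lit 267)) (lo112_13_7 (nat_lit 331)))))))) (B (K _ _ _ o1_s36922) (B (K _ _ _ o1_s36930) (B (K _ _ _ o1_s36931) (M (nat_lit 363) (B (M (nat_lit 331) (B (lo112_14_7 (nat_lit 460)) (M (nat_lit 299) (B (lo111_8_4 (nat_lit 267)) (M (nat_lit 362) (B (lo110_13_6 (nat_lit 330)) (lo110_14_6 (nat_lit 458)))))))) (B (M (nat_lit 362) (B (M (nat_lit 365) (B (lo113_11_1 (nat_lit 393)) (M (nat_lit 397) (B (lo110_11_0 (nat_lit 398)) (lo19_11_0 (nat_lit 361)))))) (M (nat_lit 331) (B (lo110_14_6 (nat_lit 458)) (M (nat_lit 299) (B (lo111_8_4 (nat_lit 267)) (lo110_13_6 (nat_lit 330)))))))) (B (K _ _ _ o1_s36957) (M (nat_lit 365) (B (M (nat_lit 362) (B (lo113_11_1 (nat_lit 393)) (M (nat_lit 397) (B (lo110_11_0 (nat_lit 398)) (lo19_11_0 (nat_lit 361)))))) (B (M (nat_lit 333) (B (lo112_14_6 (nat_lit 460)) (M (nat_lit 362) (B (lo110_11_2 (nat_lit 334)) (lo113_11_1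 (nat_lit 393)))))) (M (nat_lit 333) (B (lo112_14_6 (nat_lit 460)) (M (nat_lit 301) (B (lo113_8_5 (nat_lit 269)) (lo113_9_5 (nat_lit 397))))))))))))))))))) (K _ _ _ o1_s36999))))))) (B (M (nat_lit 458) (B (K _ _ _ o1_s37004) (B (K _ _ _ o1_s37008) (B (K _ _ _ o1_s37011) (B (M (nat_lit 362) (B (M (nat_lit 457) (B (lo110_11_5 (nat_lit 489)) (M (nat_lit 459) (B (lo19_14_2 (nat_lit 460)) (lo110_11_4 (nat_lit 491)))))) (B (M (nat_lit 330) (B (M (nat_lit 329) (B (lo110_13_7 (nat_lit 297)) (lo110_14_7 (nat_lit 361)))) (M (nat_lit 457) (B (lo110_10_5 (nat_lit 425)) (lo110_11_5 (nat_lit 489)))))) (M (nat_lit 490) (B (M (nat_lit 491) (B (lo110_11_4 (nat_lit 459)) (lo110_12_4 (nat_lit 523)))) (M (nat_lit 361) (B (lo110_14_7 (nat_lit 329)) (lo110_15_7 (nat_lit 393))))))))) (B (K _ _ _ o1_s37020) (B (M (nat_lit 490) (B (M (nat_lit 393) (B (lo110_15_7 (nat_lit 361)) (M (nat_lit 395) (B (lo19_12_0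 (nat_lit 396)) (lo110_15_6 (nat_lit 363)))))) (B (M (nat_lit 522) (B (M (nat_lit 393) (B (lo110_15_7 (nat_lit 361)) (lo110_16_7 (nat_lit 425)))) (M (nat_lit 521) (B (lo110_12_5 (nat_lit 489)) (lo110_13_5 (nat_lit 553)))))) (M (nat_lit 362) (B (M (nat_lit 363) (B (lo110_14_6 (nat_lit 331)) (lo110_15_6 (nat_lit 395)))) (M (nat_lit 489) (B (lo110_11_5 (nat_lit 457)) (lo110_12_5 (nat_lit 521))))))))) (B (K _ _ _ o1_s37027) (K _ _ _ o1_s37030))))))))) (B (M (nat_lit 458) (B (K _ _ _ o1_s37004) (B (M (nat_lit 362) (B (M (nat_lit 490) (B (M (nat_lit 491) (B (lo110_11_4 (nat_lit 459)) (lo110_12_4 (nat_lit 523)))) (M (nat_lit 489) (B (lo110_11_5 (nat_lit 457)) (lo110_12_5 (nat_lit 521)))))) (B (M (nat_lit 490) (B (M (nat_lit 363) (B (lo110_14_6 (nat_lit 331)) (lo110_15_6 (nat_lit 395)))) (M (nat_lit 489) (B (lo110_11_5 (nat_lit 457)) (lo110_12_5 (nat_lit 521)))))) (M (nat_lit 330) (B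 (M (nat_lit 331) (B (lo110_13_6 (nat_lit 299)) (lo110_14_6 (nat_lit 363)))) (M (nat_lit 329) (B (lo110_13_7 (nat_lit 297)) (lo110_14_7 (nat_lit 361))))))))) (B (K _ _ _ o1_s37036) (B (M (nat_lit 490) (B (M (nat_lit 522) (B (M (nat_lit 523) (B (lo110_12_4 (nat_lit 491)) (lo110_13_4 (nat_lit 555)))) (M (nat_lit 521) (B (lo110_12_5 (nat_lit 489)) (lo110_13_5 (nat_lit 553)))))) (M (nat_lit 362) (B (M (nat_lit 363) (B (lo110_14_6 (nat_lit 331)) (lo110_15_6 (nat_lit 395)))) (M (nat_lit 361) (B (lo110_14_7 (nat_lit 329)) (lo110_15_7 (nat_lit 393)))))))) (B (M (nat_lit 362) (B (M (nat_lit 490) (B (M (nat_lit 361) (B (lo110_14_7 (nat_lit 329)) (lo110_15_7 (nat_lit 393)))) (M (nat_lit 489) (B (lo110_11_5 (nat_lit 457)) (lo110_12_5 (nat_lit 521)))))) (B (M (nat_lit 330) (B (M (nat_lit 331) (B (lo110_13_6 (nat_lit 299)) (lo110_14_6 (nat_lit 363)))) (M (nat_lit 329) (B (lo110_13_7 (nat_lit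 297)) (lo110_14_7 (nat_lit 361)))))) (M (nat_lit 490) (B (M (nat_lit 363) (B (lo110_14_6 (nat_lit 331)) (lo110_15_6 (nat_lit 395)))) (M (nat_lit 489) (B (lo110_11_5 (nat_lit 457)) (lo110_12_5 (nat_lit 521))))))))) (B (M (nat_lit 490) (B (M (nat_lit 393) (B (lo110_15_7 (nat_lit 361)) (M (nat_lit 522) (B (lo110_16_7 (nat_lit 425)) (M (nat_lit 523) (B (lo110_12_4 (nat_lit 491)) (lo110_13_4 (nat_lit 555)))))))) (B (M (nat_lit 522) (B (M (nat_lit 393) (B (lo110_15_7 (nat_lit 361)) (lo110_16_7 (nat_lit 425)))) (M (nat_lit 521) (B (lo110_12_5 (nat_lit 489)) (lo110_13_5 (nat_lit 553)))))) (B (M (nat_lit 460) (B (M (nat_lit 459) (B (lo19_14_2 (nat_lit 457)) (M (nat_lit 461) (B (lo113_14_3 (nat_lit 425)) (lo113_14_1 (nat_lit 489)))))) (B (M (nat_lit 459) (B (lo19_14_2 (nat_lit 457)) (M (nat_lit 489) (B (lo110_12_5 (nat_lit 521)) (M (nat_lit 491) (B (lo18_15_2 (nat_lit 488)) (lo110_12_4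 (nat_lit 523)))))))) (B (M (nat_lit 492) (B (M (nat_lit 397) (B (lo112_16_6 (nat_lit 524)) (M (nat_lit 365) (B (lo113_10_5 (nat_lit 333)) (lo113_11_5 (nat_lit 461)))))) (B (M (nat_lit 524) (B (lo112_16_6 (nat_lit 397)) (M (nat_lit 523) (B (lo112_13_5 (nat_lit 555)) (lo110_12_4 (nat_lit 491)))))) (M (nat_lit 491) (B (lo110_12_4 (nat_lit 523)) (M (nat_lit 489) (B (lo19_15_2 (nat_lit 461)) (lo110_12_5 (nat_lit 521))))))))) (M (nat_lit 459) (B (lo19_14_2 (nat_lit 457)) (M (nat_lit 491) (B (lo110_12_4 (nat_lit 523)) (M (nat_lit 461) (B (lo114_14_1 (nat_lit 462)) (lo113_14_3 (nat_lit 425)))))))))))) (M (nat_lit 522) (B (M (nat_lit 523) (B (lo110_12_4 (nat_lit 491)) (lo110_13_4 (nat_lit 555)))) (M (nat_lit 521) (B (lo110_12_5 (nat_lit 489)) (lo110_13_5 (nat_lit 553)))))))))) (B (K _ _ _ o1_s37027) (B (K _ _ _ o1_s37030) (M (nat_lit 490) (B (M (nat_lit 362) (B (M (nat_lit 363) (B (lo110_14_6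 (nat_lit 331)) (lo110_15_6 (nat_lit 395)))) (M (nat_lit 361) (B (lo110_14_7 (nat_lit 329)) (lo110_15_7 (nat_lit 393)))))) (B (M (nat_lit 362) (B (M (nat_lit 491) (B (lo110_11_4 (nat_lit 459)) (lo110_12_4 (nat_lit 523)))) (M (nat_lit 361) (B (lo110_14_7 (nat_lit 329)) (lo110_15_7 (nat_lit 393)))))) (B (M (nat_lit 393) (B (lo110_15_7 (nat_lit 361)) (M (nat_lit 522) (B (lo110_16_7 (nat_lit 425)) (M (nat_lit 523) (B (lo110_12_4 (nat_lit 491)) (lo110_13_4 (nat_lit 555)))))))) (M (nat_lit 362) (B (M (nat_lit 363) (B (lo110_14_6 (nat_lit 331)) (lo110_15_6 (nat_lit 395)))) (M (nat_lit 491) (B (lo110_11_4 (nat_lit 459)) (lo110_12_4 (nat_lit 523))))))))))))))))))) (B (M (nat_lit 362) (B (M (nat_lit 458) (B (M (nat_lit 330) (B (M (nat_lit 329) (B (lo110_13_7 (nat_lit 297)) (lo110_14_7 (nat_lit 361)))) (M (nat_lit 457) (B (lo110_10_5 (nat_lit 425)) (lo110_11_5 (nat_lit 489)))))) (B (M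 (nat_lit 490) (B (M (nat_lit 363) (B (lo110_14_6 (nat_lit 331)) (lo110_15_6 (nat_lit 395)))) (M (nat_lit 361) (B (lo110_14_7 (nat_lit 329)) (lo110_15_7 (nat_lit 393)))))) (M (nat_lit 330) (B (M (nat_lit 331) (B (lo110_13_6 (nat_lit 299)) (lo110_14_6 (nat_lit 363)))) (M (nat_lit 457) (B (lo110_10_5 (nat_lit 425)) (lo110_11_5 (nat_lit 489))))))))) (B (M (nat_lit 458) (B (M (nat_lit 330) (B (M (nat_lit 329) (B (lo110_13_7 (nat_lit 297)) (lo110_14_7 (nat_lit 361)))) (M (nat_lit 457) (B (lo110_10_5 (nat_lit 425)) (lo110_11_5 (nat_lit 489)))))) (B (M (nat_lit 490) (B (M (nat_lit 363) (B (lo110_14_6 (nat_lit 331)) (lo110_15_6 (nat_lit 395)))) (M (nat_lit 361) (B (lo110_14_7 (nat_lit 329)) (lo110_15_7 (nat_lit 393)))))) (B (M (nat_lit 395) (B (M (nat_lit 363) (B (lo110_14_6 (nat_lit 331)) (lo110_15_6 (nat_lit 490)))) (M (nat_lit 396) (B (lo19_12_0 (nat_lit 393)) (M (nat_lit 397) (B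 (lo113_12_3 (nat_lit 361)) (lo113_12_1 (nat_lit 425)))))))) (M (nat_lit 395) (B (M (nat_lit 363) (B (lo110_14_6 (nat_lit 331)) (lo110_15_6 (nat_lit 490)))) (M (nat_lit 425) (B (M (nat_lit 396) (B (lo113_12_1 (nat_lit 397)) (lo19_12_0 (nat_lit 393)))) (M (nat_lit 457) (B (lo110_10_5 (nat_lit 330)) (lo110_11_5 (nat_lit 489)))))))))))) (B (M (nat_lit 458) (B (M (nat_lit 330) (B (M (nat_lit 329) (B (lo110_13_7 (nat_lit 297)) (lo110_14_7 (nat_lit 361)))) (M (nat_lit 457) (B (lo110_10_5 (nat_lit 425)) (lo110_11_5 (nat_lit 489)))))) (B (M (nat_lit 490) (B (M (nat_lit 491) (B (lo110_11_4 (nat_lit 459)) (lo110_12_4 (nat_lit 523)))) (M (nat_lit 361) (B (lo110_14_7 (nat_lit 329)) (lo110_15_7 (nat_lit 393)))))) (M (nat_lit 395) (B (M (nat_lit 491) (B (lo110_11_4 (nat_lit 459)) (M (nat_lit 490) (B (lo110_15_6 (nat_lit 363)) (lo110_12_4 (nat_lit 523)))))) (M (nat_lit 425) (B (M (nat_lit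 396) (B (lo113_12_1 (nat_lit 397)) (lo19_12_0 (nat_lit 393)))) (M (nat_lit 457) (B (lo110_10_5 (nat_lit 330)) (lo110_11_5 (nat_lit 489))))))))))) (B (M (nat_lit 330) (B (M (nat_lit 298) (B (M (nat_lit 299) (B (lo110_12_6 (nat_lit 267)) (lo110_13_6 (nat_lit 331)))) (M (nat_lit 425) (B (lo110_9_5 (nat_lit 393)) (lo110_10_5 (nat_lit 457)))))) (B (M (nat_lit 298) (B (M (nat_lit 297) (B (lo110_12_7 (nat_lit 265)) (lo110_13_7 (nat_lit 329)))) (M (nat_lit 425) (B (lo110_9_5 (nat_lit 393)) (lo110_10_5 (nat_lit 457)))))) (B (M (nat_lit 458) (B (M (nat_lit 329) (B (lo110_13_7 (nat_lit 297)) (lo110_14_7 (nat_lit 361)))) (M (nat_lit 457) (B (lo110_10_5 (nat_lit 425)) (lo110_11_5 (nat_lit 489)))))) (M (nat_lit 298) (B (M (nat_lit 299) (B (lo110_12_6 (nat_lit 267)) (lo110_13_6 (nat_lit 331)))) (M (nat_lit 297) (B (lo110_12_7 (nat_lit 265)) (lo110_13_7 (nat_lit 329)))))))))) (B (M (nat_lit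 361) (B (M (nat_lit 329) (B (lo110_14_7 (nat_lit 458)) (M (nat_lit 297) (B (lo19_8_4 (nat_lit 265)) (lo19_9_4 (nat_lit 393)))))) (B (M (nat_lit 363) (B (M (nat_lit 395) (B (M (nat_lit 396) (B (lo113_12_3 (nat_lit 397)) (lo19_12_0 (nat_lit 393)))) (B (M (nat_lit 396) (B (lo19_12_0 (nat_lit 393)) (lo18_11_0 (nat_lit 360)))) (M (nat_lit 331) (B (lo111_9_5 (nat_lit 299)) (M (nat_lit 360) (B (lo18_11_2 (nat_lit 332)) (lo17_11_0 (nat_lit 359))))))))) (B (M (nat_lit 395) (B (M (nat_lit 396) (B (lo19_12_0 (nat_lit 393)) (lo18_11_0 (nat_lit 360)))) (B (M (nat_lit 331) (B (lo111_9_5 (nat_lit 299)) (M (nat_lit 360) (B (lo18_11_2 (nat_lit 332)) (lo17_11_0 (nat_lit 359)))))) (M (nat_lit 393) (B (lo19_12_0 (nat_lit 396)) (M (nat_lit 364) (B (lo113_11_1 (nat_lit 365)) (lo18_12_2 (nat_lit 392))))))))) (B (M (nat_lit 396) (B (M (nat_lit 397) (B (lo19_11_0 (nat_lit 364)) (lo113_12_3 (nat_lit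 395)))) (B (M (nat_lit 395) (B (lo19_12_0 (nat_lit 393)) (lo18_11_0 (nat_lit 360)))) (M (nat_lit 364) (B (lo19_11_0 (nat_lit 397)) (M (nat_lit 393) (B (lo113_11_1 (nat_lit 365)) (lo112_11_1 (nat_lit 392))))))))) (B (M (nat_lit 364) (B (M (nat_lit 393) (B (lo113_11_1 (nat_lit 365)) (lo112_11_1 (nat_lit 392)))) (M (nat_lit 331) (B (M (nat_lit 332) (B (lo19_11_2 (nat_lit 333)) (lo18_11_2 (nat_lit 360)))) (M (nat_lit 299) (B (lo111_8_5 (nat_lit 267)) (lo111_9_5 (nat_lit 395)))))))) (B (M (nat_lit 364) (B (M (nat_lit 393) (B (lo113_11_1 (nat_lit 365)) (lo112_11_1 (nat_lit 392)))) (M (nat_lit 396) (B (lo19_11_0 (nat_lit 397)) (M (nat_lit 332) (B (lo19_11_2 (nat_lit 333)) (lo112_10_4 (nat_lit 461)))))))) (M (nat_lit 396) (B (M (nat_lit 397) (B (lo19_11_0 (nat_lit 364)) (lo113_12_3 (nat_lit 395)))) (B (M (nat_lit 332) (B (M (nat_lit 364) (B (lo19_11_2 (nat_lit 333)) (lo112_10_4 (nat_lit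 461)))) (M (nat_lit 360) (B (lo18_11_2 (nat_lit 331)) (lo18_11_0 (nat_lit 395)))))) (B (M (nat_lit 395) (B (lo113_12_3 (nat_lit 397)) (lo18_11_0 (nat_lit 360)))) (M (nat_lit 364) (B (lo19_11_0 (nat_lit 397)) (M (nat_lit 332) (B (lo19_11_2 (nat_lit 333)) (lo112_10_4 (nat_lit 461)))))))))))))))) (M (nat_lit 458) (B (lo110_14_7 (nat_lit 329)) (M (nat_lit 490) (B (M (nat_lit 363) (B (lo110_14_6 (nat_lit 331)) (lo110_15_6 (nat_lit 395)))) (M (nat_lit 491) (B (lo110_11_4 (nat_lit 459)) (lo110_12_4 (nat_lit 523))))))))))) (B (M (nat_lit 330) (B (M (nat_lit 298) (B (M (nat_lit 297) (B (lo110_12_7 (nat_lit 265)) (lo110_13_7 (nat_lit 329)))) (M (nat_lit 425) (B (lo110_9_5 (nat_lit 393)) (lo110_10_5 (nat_lit 457)))))) (B (M (nat_lit 331) (B (lo110_13_6 (nat_lit 299)) (M (nat_lit 332) (B (M (nat_lit 361) (B (lo113_10_1 (nat_lit 333)) (M (nat_lit 329) (B (lo112_10_1 (nat_lit 360)) (lo110_13_7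 (nat_lit 297)))))) (B (M (nat_lit 364) (B (M (nat_lit 329) (B (lo19_10_0 (nat_lit 365)) (lo110_13_7 (nat_lit 297)))) (B (M (nat_lit 300) (B (M (nat_lit 329) (B (lo19_10_2 (nat_lit 301)) (lo110_13_7 (nat_lit 297)))) (M (nat_lit 396) (B (lo112_9_4 (nat_lit 397)) (lo112_10_4 (nat_lit 461)))))) (B (M (nat_lit 365) (B (lo19_10_0 (nat_lit 329)) (M (nat_lit 461) (B (lo113_14_7 (nat_lit 397)) (lo112_10_4 (nat_lit 396)))))) (M (nat_lit 365) (B (M (nat_lit 461) (B (lo113_14_7 (nat_lit 397)) (lo112_10_4 (nat_lit 396)))) (M (nat_lit 363) (B (lo114_11_3 (nat_lit 366)) (lo113_11_1 (nat_lit 393)))))))))) (B (M (nat_lit 361) (B (lo113_10_1 (nat_lit 333)) (M (nat_lit 360) (B (lo18_11_2 (nat_lit 363)) (lo112_10_1 (nat_lit 329)))))) (M (nat_lit 361) (B (lo113_10_1 (nat_lit 333)) (M (nat_lit 360) (B (lo18_11_2 (nat_lit 363)) (lo17_11_2 (nat_lit 359)))))))))))) (B (M (nat_lit 298) (B (M (nat_lit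 299) (B (lo110_12_6 (nat_lit 267)) (lo110_13_6 (nat_lit 331)))) (M (nat_lit 425) (B (lo110_9_5 (nat_lit 393)) (lo110_10_5 (nat_lit 457)))))) (M (nat_lit 298) (B (M (nat_lit 299) (B (lo110_12_6 (nat_lit 267)) (lo110_13_6 (nat_lit 331)))) (M (nat_lit 297) (B (lo110_12_7 (nat_lit 265)) (lo110_13_7 (nat_lit 329)))))))))) (B (M (nat_lit 458) (B (M (nat_lit 490) (B (M (nat_lit 491) (B (lo110_11_4 (nat_lit 459)) (lo110_12_4 (nat_lit 523)))) (M (nat_lit 361) (B (lo110_14_7 (nat_lit 329)) (lo110_15_7 (nat_lit 393)))))) (B (M (nat_lit 490) (B (M (nat_lit 363) (B (lo110_14_6 (nat_lit 331)) (lo110_15_6 (nat_lit 395)))) (M (nat_lit 361) (B (lo110_14_7 (nat_lit 329)) (lo110_15_7 (nat_lit 393)))))) (M (nat_lit 330) (B (M (nat_lit 331) (B (lo110_13_6 (nat_lit 299)) (lo110_14_6 (nat_lit 363)))) (M (nat_lit 457) (B (lo110_10_5 (nat_lit 425)) (lo110_11_5 (nat_lit 489))))))))) (B (M (nat_lit 458)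 (B (M (nat_lit 330) (B (M (nat_lit 331) (B (lo110_13_6 (nat_lit 299)) (lo110_14_6 (nat_lit 363)))) (M (nat_lit 457) (B (lo110_10_5 (nat_lit 425)) (lo110_11_5 (nat_lit 489)))))) (B (M (nat_lit 490) (B (M (nat_lit 363) (B (lo110_14_6 (nat_lit 331)) (lo110_15_6 (nat_lit 395)))) (M (nat_lit 491) (B (lo110_11_4 (nat_lit 459)) (lo110_12_4 (nat_lit 523)))))) (M (nat_lit 490) (B (M (nat_lit 491) (B (lo110_11_4 (nat_lit 459)) (lo110_12_4 (nat_lit 523)))) (M (nat_lit 425) (B (M (nat_lit 457) (B (lo110_10_5 (nat_lit 330)) (lo110_11_5 (nat_lit 489)))) (M (nat_lit 393) (B (lo110_15_7 (nat_lit 361)) (lo110_16_7 (nat_lit 522))))))))))) (B (M (nat_lit 330) (B (M (nat_lit 298) (B (M (nat_lit 297) (B (lo110_12_7 (nat_lit 265)) (lo110_13_7 (nat_lit 329)))) (M (nat_lit 425) (B (lo110_9_5 (nat_lit 393)) (lo110_10_5 (nat_lit 457)))))) (B (M (nat_lit 458) (B (M (nat_lit 331) (B (lo110_13_6 (nat_lit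 299)) (lo110_14_6 (nat_lit 363)))) (M (nat_lit 457) (B (lo110_10_5 (nat_lit 425)) (lo110_11_5 (nat_lit 489)))))) (M (nat_lit 298) (B (M (nat_lit 299) (B (lo110_12_6 (nat_lit 267)) (lo110_13_6 (nat_lit 331)))) (M (nat_lit 297) (B (lo110_12_7 (nat_lit 265)) (lo110_13_7 (nat_lit 329))))))))) (M (nat_lit 458) (B (M (nat_lit 330) (B (M (nat_lit 329) (B (lo110_13_7 (nat_lit 297)) (lo110_14_7 (nat_lit 361)))) (M (nat_lit 457) (B (lo110_10_5 (nat_lit 425)) (lo110_11_5 (nat_lit 489)))))) (M (nat_lit 490) (B (M (nat_lit 363) (B (lo110_14_6 (nat_lit 331)) (lo110_15_6 (nat_lit 395)))) (M (nat_lit 491) (B (lo110_11_4 (nat_lit 459)) (lo110_12_4 (nat_lit 523)))))))))))))))))) (B (M (nat_lit 458) (B (K _ _ _ o1_s37008) (B (K _ _ _ o1_s37004) (B (K _ _ _ o1_s37011) (B (K _ _ _ o1_s37036) (B (K _ _ _ o1_s37219) (B (K _ _ _ o1_s37020) (B (M (nat_lit 396) (B (K _ _ _ o1_s37227) (B (K _ _ _ o1_s37229)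 (B (M (nat_lit 362) (B (M (nat_lit 457) (B (lo110_11_5 (nat_lit 489)) (M (nat_lit 459) (B (lo19_14_2 (nat_lit 460)) (lo110_11_4 (nat_lit 491)))))) (M (nat_lit 395) (B (lo19_12_0 (nat_lit 393)) (M (nat_lit 363) (B (lo110_14_6 (nat_lit 331)) (M (nat_lit 361) (B (lo18_11_0 (nat_lit 360)) (lo110_14_7 (nat_lit 329)))))))))) (B (K _ _ _ o1_s37239) (K _ _ _ o1_s37265)))))) (K _ _ _ o1_s37267))))))))) (B (M (nat_lit 458) (B (K _ _ _ o1_s37011) (B (K _ _ _ o1_s37036) (B (K _ _ _ o1_s37020) (B (M (nat_lit 460) (B (M (nat_lit 457) (B (lo19_14_2 (nat_lit 459)) (M (nat_lit 489) (B (lo110_11_5 (nat_lit 362)) (M (nat_lit 521) (B (lo110_12_5 (nat_lit 490)) (lo19_16_6 (nat_lit 425)))))))) (B (M (nat_lit 395) (B (M (nat_lit 396) (B (lo19_12_0 (nat_lit 393)) (M (nat_lit 363) (B (lo112_15_7 (nat_lit 492)) (lo110_15_6 (nat_lit 490)))))) (B (M (nat_lit 490) (B (lo110_15_6 (nat_lit 363)) (M (nat_lit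 522) (B (M (nat_lit 393) (B (lo110_15_7 (nat_lit 361)) (lo110_16_7 (nat_lit 425)))) (M (nat_lit 521) (B (lo110_12_5 (nat_lit 489)) (lo110_13_5 (nat_lit 553)))))))) (B (M (nat_lit 396) (B (lo19_12_0 (nat_lit 393)) (M (nat_lit 397) (B (lo113_12_1 (nat_lit 425)) (M (nat_lit 365) (B (lo110_12_2 (nat_lit 366)) (lo112_15_6 (nat_lit 492)))))))) (K _ _ _ o1_s37283))))) (B (M (nat_lit 457) (B (lo19_14_2 (nat_lit 459)) (M (nat_lit 489) (B (lo110_11_5 (nat_lit 362)) (M (nat_lit 521) (B (lo19_16_6 (nat_lit 425)) (lo19_17_6 (nat_lit 553)))))))) (B (M (nat_lit 457) (B (lo19_14_2 (nat_lit 459)) (M (nat_lit 489) (B (lo110_11_5 (nat_lit 362)) (M (nat_lit 521) (B (lo110_12_5 (nat_lit 490)) (lo19_17_6 (nat_lit 553)))))))) (M (nat_lit 395) (B (M (nat_lit 396) (B (lo19_12_0 (nat_lit 393)) (M (nat_lit 363) (B (lo112_15_7 (nat_lit 492)) (lo110_15_6 (nat_lit 490)))))) (B (M (nat_lit 490) (B (lo110_15_6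 (nat_lit 363)) (M (nat_lit 425) (B (M (nat_lit 459) (B (lo19_14_2 (nat_lit 457)) (lo113_14_3 (nat_lit 461)))) (M (nat_lit 393) (B (lo110_15_7 (nat_lit 361)) (lo110_16_7 (nat_lit 522)))))))) (B (M (nat_lit 425) (B (M (nat_lit 396) (B (lo113_12_1 (nat_lit 397)) (lo19_12_0 (nat_lit 393)))) (M (nat_lit 459) (B (lo19_14_2 (nat_lit 457)) (lo113_14_3 (nat_lit 461)))))) (K _ _ _ o1_s37283)))))))))) (B (M (nat_lit 396) (B (K _ _ _ o1_s37227) (B (M (nat_lit 460) (B (M (nat_lit 459) (B (lo19_14_2 (nat_lit 457)) (M (nat_lit 491) (B (lo112_11_5 (nat_lit 364)) (lo110_11_4 (nat_lit 362)))))) (M (nat_lit 397) (B (M (nat_lit 365) (B (lo113_10_5 (nat_lit 333)) (lo112_15_6 (nat_lit 492)))) (M (nat_lit 395) (B (lo113_12_1 (nat_lit 425)) (lo19_12_0 (nat_lit 393)))))))) (B (K _ _ _ o1_s37229) (B (K _ _ _ o1_s37265) (B (M (nat_lit 395) (B (lo19_12_0 (nat_lit 393)) (M (nat_lit 397) (B (lo113_12_1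 (nat_lit 425)) (M (nat_lit 398) (B (M (nat_lit 366) (B (lo111_12_2 (nat_lit 367)) (lo110_12_2 (nat_lit 365)))) (M (nat_lit 362) (B (lo114_12_3 (nat_lit 363)) (lo113_12_3 (nat_lit 361)))))))))) (M (nat_lit 460) (B (M (nat_lit 459) (B (lo19_14_2 (nat_lit 457)) (M (nat_lit 491) (B (lo112_11_5 (nat_lit 364)) (lo110_11_4 (nat_lit 362)))))) (M (nat_lit 492) (B (M (nat_lit 397) (B (lo112_15_6 (nat_lit 365)) (lo112_16_6 (nat_lit 524)))) (M (nat_lit 395) (B (lo19_12_0 (nat_lit 393)) (lo112_15_7 (nat_lit 363)))))))))))))) (B (M (nat_lit 490) (B (M (nat_lit 362) (B (M (nat_lit 491) (B (lo110_11_4 (nat_lit 459)) (lo110_12_4 (nat_lit 523)))) (M (nat_lit 489) (B (lo110_11_5 (nat_lit 457)) (lo110_12_5 (nat_lit 521)))))) (B (M (nat_lit 522) (B (M (nat_lit 523) (B (lo110_12_4 (nat_lit 491)) (lo110_13_4 (nat_lit 555)))) (M (nat_lit 521) (B (lo110_12_5 (nat_lit 489)) (lo110_13_5 (nat_lit 553))))))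 (B (M (nat_lit 393) (B (M (nat_lit 395) (B (lo19_12_0 (nat_lit 396)) (lo110_15_6 (nat_lit 363)))) (M (nat_lit 522) (B (lo110_16_7 (nat_lit 425)) (M (nat_lit 521) (B (lo110_12_5 (nat_lit 489)) (lo110_13_5 (nat_lit 553)))))))) (M (nat_lit 393) (B (M (nat_lit 395) (B (lo19_12_0 (nat_lit 396)) (lo110_15_6 (nat_lit 363)))) (M (nat_lit 522) (B (lo110_16_7 (nat_lit 425)) (M (nat_lit 523) (B (lo110_12_4 (nat_lit 491)) (lo110_13_4 (nat_lit 555)))))))))))) (B (K _ _ _ o1_s37362) (M (nat_lit 490) (B (M (nat_lit 393) (B (lo110_15_7 (nat_lit 361)) (M (nat_lit 395) (B (lo19_12_0 (nat_lit 396)) (lo110_15_6 (nat_lit 363)))))) (M (nat_lit 491) (B (lo110_12_4 (nat_lit 523)) (M (nat_lit 459) (B (lo110_11_4 (nat_lit 362)) (M (nat_lit 457) (B (lo19_14_2 (nat_lit 460)) (M (nat_lit 456) (B (lo18_14_0 (nat_lit 492)) (lo17_14_0 (nat_lit 455)))))))))))))))))))) (B (M (nat_lit 458) (B (K _ _ _ o1_s37036)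 (B (M (nat_lit 362) (B (M (nat_lit 490) (B (M (nat_lit 491) (B (lo110_11_4 (nat_lit 459)) (lo110_12_4 (nat_lit 523)))) (M (nat_lit 361) (B (lo110_14_7 (nat_lit 329)) (lo110_15_7 (nat_lit 393)))))) (B (M (nat_lit 490) (B (M (nat_lit 361) (B (lo110_14_7 (nat_lit 329)) (lo110_15_7 (nat_lit 393)))) (M (nat_lit 489) (B (lo110_11_5 (nat_lit 457)) (lo110_12_5 (nat_lit 521)))))) (B (M (nat_lit 330) (B (M (nat_lit 329) (B (lo110_13_7 (nat_lit 297)) (lo110_14_7 (nat_lit 361)))) (M (nat_lit 457) (B (lo110_10_5 (nat_lit 425)) (lo110_11_5 (nat_lit 489)))))) (M (nat_lit 490) (B (M (nat_lit 491) (B (lo110_11_4 (nat_lit 459)) (lo110_12_4 (nat_lit 523)))) (M (nat_lit 489) (B (lo110_11_5 (nat_lit 457)) (lo110_12_5 (nat_lit 521)))))))))) (B (M (nat_lit 490) (B (M (nat_lit 393) (B (lo110_15_7 (nat_lit 361)) (M (nat_lit 522) (B (lo110_16_7 (nat_lit 425)) (M (nat_lit 523) (B (lo110_12_4 (nat_lit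 491)) (lo110_13_4 (nat_lit 555)))))))) (B (M (nat_lit 522) (B (M (nat_lit 393) (B (lo110_15_7 (nat_lit 361)) (lo110_16_7 (nat_lit 425)))) (M (nat_lit 521) (B (lo110_12_5 (nat_lit 489)) (lo110_13_5 (nat_lit 553)))))) (B (M (nat_lit 362) (B (M (nat_lit 361) (B (lo110_14_7 (nat_lit 329)) (lo110_15_7 (nat_lit 393)))) (M (nat_lit 489) (B (lo110_11_5 (nat_lit 457)) (lo110_12_5 (nat_lit 521)))))) (M (nat_lit 522) (B (M (nat_lit 523) (B (lo110_12_4 (nat_lit 491)) (lo110_13_4 (nat_lit 555)))) (M (nat_lit 521) (B (lo110_12_5 (nat_lit 489)) (lo110_13_5 (nat_lit 553)))))))))) (B (M (nat_lit 362) (B (M (nat_lit 330) (B (M (nat_lit 329) (B (lo110_13_7 (nat_lit 297)) (lo110_14_7 (nat_lit 361)))) (M (nat_lit 457) (B (lo110_10_5 (nat_lit 425)) (lo110_11_5 (nat_lit 489)))))) (B (M (nat_lit 490) (B (M (nat_lit 361) (B (lo110_14_7 (nat_lit 329)) (lo110_15_7 (nat_lit 393)))) (M (nat_lit 489) (B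 (lo110_11_5 (nat_lit 457)) (lo110_12_5 (nat_lit 521)))))) (B (M (nat_lit 490) (B (M (nat_lit 489) (B (lo110_11_5 (nat_lit 457)) (lo110_12_5 (nat_lit 521)))) (B (M (nat_lit 522) (B (M (nat_lit 393) (B (lo110_15_7 (nat_lit 361)) (lo110_16_7 (nat_lit 425)))) (M (nat_lit 521) (B (lo110_12_5 (nat_lit 489)) (lo110_13_5 (nat_lit 553)))))) (M (nat_lit 393) (B (lo110_15_7 (nat_lit 361)) (M (nat_lit 425) (B (lo110_16_7 (nat_lit 522)) (M (nat_lit 330) (B (lo110_9_5 (nat_lit 298)) (lo110_10_5 (nat_lit 457))))))))))) (B (M (nat_lit 330) (B (M (nat_lit 457) (B (lo110_10_5 (nat_lit 425)) (lo110_11_5 (nat_lit 489)))) (M (nat_lit 298) (B (M (nat_lit 299) (B (lo110_12_6 (nat_lit 267)) (lo110_13_6 (nat_lit 331)))) (M (nat_lit 297) (B (lo110_12_7 (nat_lit 265)) (lo110_13_7 (nat_lit 329)))))))) (M (nat_lit 330) (B (M (nat_lit 329) (B (lo110_13_7 (nat_lit 297)) (lo110_14_7 (nat_lit 361)))) (B (M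 (nat_lit 361) (B (lo110_14_7 (nat_lit 329)) (M (nat_lit 393) (B (lo110_15_7 (nat_lit 490)) (M (nat_lit 298) (B (lo110_8_5 (nat_lit 266)) (lo110_9_5 (nat_lit 425)))))))) (B (M (nat_lit 298) (B (M (nat_lit 299) (B (lo110_12_6 (nat_lit 267)) (lo110_13_6 (nat_lit 331)))) (M (nat_lit 393) (B (lo110_9_5 (nat_lit 425)) (M (nat_lit 361) (B (lo110_8_5 (nat_lit 266)) (lo110_15_7 (nat_lit 490)))))))) (M (nat_lit 298) (B (M (nat_lit 299) (B (lo110_12_6 (nat_lit 267)) (lo110_13_6 (nat_lit 331)))) (M (nat_lit 297) (B (lo110_12_7 (nat_lit 265)) (lo110_13_7 (nat_lit 329))))))))))))))) (B (K _ _ _ o1_s37418) (B (M (nat_lit 362) (B (M (nat_lit 457) (B (lo110_11_5 (nat_lit 489)) (M (nat_lit 459) (B (lo19_14_2 (nat_lit 460)) (lo110_11_4 (nat_lit 491)))))) (B (M (nat_lit 330) (B (M (nat_lit 329) (B (lo110_13_7 (nat_lit 297)) (lo110_14_7 (nat_lit 361)))) (M (nat_lit 457) (B (lo110_10_5 (nat_lit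 425)) (lo110_11_5 (nat_lit 489)))))) (M (nat_lit 330) (B (M (nat_lit 329) (B (lo110_13_7 (nat_lit 297)) (lo110_14_7 (nat_lit 361)))) (B (M (nat_lit 361) (B (lo110_14_7 (nat_lit 329)) (M (nat_lit 298) (B (M (nat_lit 299) (B (lo110_12_6 (nat_lit 267)) (lo110_13_6 (nat_lit 331)))) (M (nat_lit 393) (B (lo110_8_5 (nat_lit 266)) (lo110_9_5 (nat_lit 425)))))))) (B (M (nat_lit 298) (B (M (nat_lit 299) (B (lo110_12_6 (nat_lit 267)) (lo110_13_6 (nat_lit 331)))) (M (nat_lit 266) (B (M (nat_lit 265) (B (lo110_11_7 (nat_lit 233)) (lo110_12_7 (nat_lit 297)))) (M (nat_lit 393) (B (lo110_8_5 (nat_lit 361)) (lo110_9_5 (nat_lit 425)))))))) (M (nat_lit 298) (B (M (nat_lit 299) (B (lo110_12_6 (nat_lit 267)) (lo110_13_6 (nat_lit 331)))) (M (nat_lit 297) (B (lo110_12_7 (nat_lit 265)) (lo110_13_7 (nat_lit 329))))))))))))) (B (K _ _ _ o1_s37460) (B (K _ _ _ o1_s37362) (B (K _ _ _ o1_s37461) (M (nat_lit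 362) (B (M (nat_lit 490) (B (M (nat_lit 491) (B (lo110_11_4 (nat_lit 459)) (lo110_12_4 (nat_lit 523)))) (M (nat_lit 361) (B (lo110_14_7 (nat_lit 329)) (lo110_15_7 (nat_lit 393)))))) (B (M (nat_lit 330) (B (M (nat_lit 329) (B (lo110_13_7 (nat_lit 297)) (lo110_14_7 (nat_lit 361)))) (M (nat_lit 298) (B (M (nat_lit 299) (B (lo110_12_6 (nat_lit 267)) (lo110_13_6 (nat_lit 331)))) (M (nat_lit 425) (B (lo110_9_5 (nat_lit 393)) (lo110_10_5 (nat_lit 457)))))))) (B (M (nat_lit 425) (B (M (nat_lit 457) (B (lo110_10_5 (nat_lit 330)) (M (nat_lit 459) (B (lo19_14_2 (nat_lit 460)) (lo110_11_4 (nat_lit 491)))))) (B (M (nat_lit 393) (B (M (nat_lit 330) (B (lo110_9_5 (nat_lit 298)) (lo110_10_5 (nat_lit 457)))) (M (nat_lit 490) (B (lo110_15_7 (nat_lit 361)) (lo110_16_7 (nat_lit 522)))))) (M (nat_lit 490) (B (M (nat_lit 491) (B (lo110_11_4 (nat_lit 459)) (lo110_12_4 (nat_lit 523)))) (M (nat_lit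 393) (B (lo110_15_7 (nat_lit 361)) (lo110_16_7 (nat_lit 522))))))))) (M (nat_lit 330) (B (M (nat_lit 459) (B (lo110_11_4 (nat_lit 491)) (M (nat_lit 457) (B (lo19_14_2 (nat_lit 460)) (lo110_10_5 (nat_lit 425)))))) (M (nat_lit 298) (B (M (nat_lit 299) (B (lo110_12_6 (nat_lit 267)) (lo110_13_6 (nat_lit 331)))) (M (nat_lit 297) (B (lo110_12_7 (nat_lit 265)) (lo110_13_7 (nat_lit 329)))))))))))))))))))))) (B (M (nat_lit 458) (B (K _ _ _ o1_s37036) (B (M (nat_lit 362) (B (M (nat_lit 490) (B (M (nat_lit 491) (B (lo110_11_4 (nat_lit 459)) (lo110_12_4 (nat_lit 523)))) (M (nat_lit 489) (B (lo110_11_5 (nat_lit 457)) (lo110_12_5 (nat_lit 521)))))) (M (nat_lit 330) (B (M (nat_lit 331) (B (lo110_13_6 (nat_lit 299)) (lo110_14_6 (nat_lit 363)))) (M (nat_lit 329) (B (lo110_13_7 (nat_lit 297)) (lo110_14_7 (nat_lit 361)))))))) (B (M (nat_lit 362) (B (M (nat_lit 330) (B (M (nat_lit 331) (B (lo110_13_6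 (nat_lit 299)) (lo110_14_6 (nat_lit 363)))) (M (nat_lit 457) (B (lo110_10_5 (nat_lit 425)) (lo110_11_5 (nat_lit 489)))))) (B (M (nat_lit 330) (B (M (nat_lit 329) (B (lo110_13_7 (nat_lit 297)) (lo110_14_7 (nat_lit 361)))) (M (nat_lit 457) (B (lo110_10_5 (nat_lit 425)) (lo110_11_5 (nat_lit 489)))))) (B (M (nat_lit 490) (B (M (nat_lit 361) (B (lo110_14_7 (nat_lit 329)) (lo110_15_7 (nat_lit 393)))) (M (nat_lit 489) (B (lo110_11_5 (nat_lit 457)) (lo110_12_5 (nat_lit 521)))))) (M (nat_lit 330) (B (M (nat_lit 331) (B (lo110_13_6 (nat_lit 299)) (lo110_14_6 (nat_lit 363)))) (M (nat_lit 329) (B (lo110_13_7 (nat_lit 297)) (lo110_14_7 (nat_lit 361)))))))))) (B (K _ _ _ o1_s37418) (B (K _ _ _ o1_s37027) (B (K _ _ _ o1_s37460) (B (K _ _ _ o1_s37461) (M (nat_lit 362) (B (M (nat_lit 330) (B (M (nat_lit 331) (B (lo110_13_6 (nat_lit 299)) (lo110_14_6 (nat_lit 363)))) (M (nat_lit 329) (B (lo110_13_7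 (nat_lit 297)) (lo110_14_7 (nat_lit 361)))))) (B (M (nat_lit 490) (B (M (nat_lit 491) (B (lo110_11_4 (nat_lit 459)) (lo110_12_4 (nat_lit 523)))) (M (nat_lit 361) (B (lo110_14_7 (nat_lit 329)) (lo110_15_7 (nat_lit 393)))))) (M (nat_lit 457) (B (M (nat_lit 459) (B (lo19_14_2 (nat_lit 460)) (lo110_11_4 (nat_lit 491)))) (M (nat_lit 331) (B (lo110_14_6 (nat_lit 363)) (M (nat_lit 330) (B (lo110_13_6 (nat_lit 299)) (lo110_10_5 (nat_lit 425))))))))))))))))))) (B (M (nat_lit 396) (B (K _ _ _ o1_s36869) (B (K _ _ _ o1_s36881) (B (M (nat_lit 364) (B (K _ _ _ o1_s36931) (B (M (nat_lit 363) (B (M (nat_lit 331) (B (lo112_14_7 (nat_lit 460)) (M (nat_lit 332) (B (lo112_10_4 (nat_lit 461)) (lo112_13_7 (nat_lit 299)))))) (B (M (nat_lit 331) (B (lo112_14_7 (nat_lit 460)) (M (nat_lit 299) (B (lo112_13_7 (nat_lit 332)) (lo111_9_4 (nat_lit 395)))))) (B (M (nat_lit 331) (B (lo112_14_7 (nat_lit 460))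 (M (nat_lit 395) (B (lo19_12_0 (nat_lit 393)) (lo111_9_4 (nat_lit 299)))))) (K _ _ _ o1_s37528))))) (B (K _ _ _ o1_s36922) (B (K _ _ _ o1_s37540) (M (nat_lit 363) (B (M (nat_lit 331) (B (lo112_14_7 (nat_lit 460)) (M (nat_lit 395) (B (lo19_12_0 (nat_lit 393)) (lo111_9_4 (nat_lit 299)))))) (B (K _ _ _ o1_s37528) (M (nat_lit 331) (B (lo112_14_7 (nat_lit 460)) (M (nat_lit 299) (B (lo111_8_4 (nat_lit 267)) (M (nat_lit 362) (B (lo110_13_6 (nat_lit 330)) (lo110_14_6 (nat_lit 458)))))))))))))))) (B (K _ _ _ o1_s36908) (B (M (nat_lit 364) (B (M (nat_lit 332) (B (lo112_10_4 (nat_lit 461)) (M (nat_lit 300) (B (lo112_9_4 (nat_lit 397)) (M (nat_lit 301) (B (lo112_12_6 (nat_lit 269)) (lo112_13_6 (nat_lit 333)))))))) (B (M (nat_lit 332) (B (lo112_10_4 (nat_lit 461)) (M (nat_lit 300) (B (lo112_9_4 (nat_lit 397)) (M (nat_lit 299) (B (lo112_12_7 (nat_lit 267)) (lo112_13_7 (nat_lit 331))))))))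 (B (K _ _ _ o1_s36922) (B (K _ _ _ o1_s36930) (B (K _ _ _ o1_s36931) (M (nat_lit 362) (B (M (nat_lit 363) (B (M (nat_lit 331) (B (lo112_14_7 (nat_lit 460)) (lo110_14_6 (nat_lit 458)))) (M (nat_lit 393) (B (lo113_11_1 (nat_lit 365)) (M (nat_lit 361) (B (lo19_11_0 (nat_lit 397)) (lo112_11_1 (nat_lit 392)))))))) (B (M (nat_lit 363) (B (M (nat_lit 331) (B (lo112_14_7 (nat_lit 460)) (lo110_14_6 (nat_lit 458)))) (B (M (nat_lit 331) (B (lo110_14_6 (nat_lit 458)) (M (nat_lit 299) (B (lo111_8_4 (nat_lit 267)) (lo110_13_6 (nat_lit 330)))))) (B (M (nat_lit 361) (B (lo19_11_0 (nat_lit 397)) (M (nat_lit 329) (B (lo112_11_3 (nat_lit 328)) (lo110_14_7 (nat_lit 458)))))) (M (nat_lit 331) (B (lo112_14_7 (nat_lit 460)) (M (nat_lit 299) (B (lo111_8_4 (nat_lit 267)) (lo110_13_6 (nat_lit 330)))))))))) (B (M (nat_lit 363) (B (M (nat_lit 331) (B (lo112_14_7 (nat_lit 460)) (lo110_14_6 (nat_lit 458))))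 (B (M (nat_lit 331) (B (lo110_14_6 (nat_lit 458)) (M (nat_lit 299) (B (lo111_8_4 (nat_lit 267)) (lo110_13_6 (nat_lit 330)))))) (B (M (nat_lit 329) (B (M (nat_lit 330) (B (lo113_11_3 (nat_lit 365)) (lo110_13_7 (nat_lit 297)))) (M (nat_lit 361) (B (lo112_11_3 (nat_lit 328)) (lo110_14_7 (nat_lit 458)))))) (M (nat_lit 331) (B (lo112_14_7 (nat_lit 460)) (M (nat_lit 299) (B (lo111_8_4 (nat_lit 267)) (lo110_13_6 (nat_lit 330)))))))))) (B (M (nat_lit 363) (B (M (nat_lit 331) (B (lo110_14_6 (nat_lit 458)) (M (nat_lit 299) (B (lo111_8_4 (nat_lit 267)) (lo110_13_6 (nat_lit 330)))))) (M (nat_lit 393) (B (lo113_11_1 (nat_lit 365)) (M (nat_lit 361) (B (lo19_11_0 (nat_lit 397)) (lo112_11_1 (nat_lit 392)))))))) (B (M (nat_lit 365) (B (M (nat_lit 363) (B (lo113_11_1 (nat_lit 393)) (M (nat_lit 397) (B (lo110_11_0 (nat_lit 398)) (lo19_11_0 (nat_lit 361)))))) (B (M (nat_lit 363) (B (lo113_11_1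 (nat_lit 393)) (M (nat_lit 333) (B (lo110_11_2 (nat_lit 334)) (lo112_14_6 (nat_lit 460)))))) (M (nat_lit 333) (B (lo112_14_6 (nat_lit 460)) (M (nat_lit 301) (B (lo113_8_5 (nat_lit 269)) (lo113_9_5 (nat_lit 397))))))))) (B (M (nat_lit 330) (B (M (nat_lit 298) (B (M (nat_lit 299) (B (lo110_12_6 (nat_lit 267)) (lo110_13_6 (nat_lit 331)))) (M (nat_lit 425) (B (lo110_9_5 (nat_lit 393)) (lo110_10_5 (nat_lit 457)))))) (B (M (nat_lit 298) (B (M (nat_lit 297) (B (lo110_12_7 (nat_lit 265)) (lo110_13_7 (nat_lit 329)))) (M (nat_lit 425) (B (lo110_9_5 (nat_lit 393)) (lo110_10_5 (nat_lit 457)))))) (B (M (nat_lit 458) (B (M (nat_lit 329) (B (lo110_13_7 (nat_lit 297)) (lo110_14_7 (nat_lit 361)))) (M (nat_lit 457) (B (lo110_10_5 (nat_lit 425)) (lo110_11_5 (nat_lit 489)))))) (M (nat_lit 298) (B (M (nat_lit 299) (B (lo110_12_6 (nat_lit 267)) (lo110_13_6 (nat_lit 331)))) (M (nat_lit 297) (B (lo110_12_7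 (nat_lit 265)) (lo110_13_7 (nat_lit 329)))))))))) (M (nat_lit 363) (B (M (nat_lit 331) (B (lo112_14_7 (nat_lit 460)) (lo110_14_6 (nat_lit 458)))) (B (M (nat_lit 331) (B (lo110_14_6 (nat_lit 458)) (M (nat_lit 299) (B (lo111_8_4 (nat_lit 267)) (lo110_13_6 (nat_lit 330)))))) (M (nat_lit 365) (B (lo113_11_1 (nat_lit 393)) (M (nat_lit 333) (B (lo110_11_2 (nat_lit 334)) (lo112_14_6 (nat_lit 460)))))))))))))))))))))) (K _ _ _ o1_s36999))))))) (B (M (nat_lit 458) (B (K _ _ _ o1_s37036) (B (K _ _ _ o1_s37020) (B (K _ _ _ o1_s37219) (B (M (nat_lit 396) (B (K _ _ _ o1_s37227) (B (M (nat_lit 362) (B (M (nat_lit 457) (B (lo110_11_5 (nat_lit 489)) (M (nat_lit 459) (B (lo19_14_2 (nat_lit 460)) (lo110_11_4 (nat_lit 491)))))) (M (nat_lit 395) (B (lo19_12_0 (nat_lit 393)) (M (nat_lit 361) (B (lo113_12_3 (nat_lit 397)) (lo110_14_7 (nat_lit 329)))))))) (B (M (nat_lit 364) (B (M (nat_lit 332) (B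 (lo112_10_4 (nat_lit 461)) (M (nat_lit 331) (B (lo112_13_7 (nat_lit 299)) (M (nat_lit 363) (B (lo112_14_7 (nat_lit 460)) (lo110_14_6 (nat_lit 362)))))))) (B (M (nat_lit 365) (B (M (nat_lit 395) (B (lo19_12_2 (nat_lit 393)) (M (nat_lit 366) (B (lo115_11_1 (nat_lit 367)) (lo114_11_1 (nat_lit 363)))))) (M (nat_lit 333) (B (lo112_14_6 (nat_lit 460)) (M (nat_lit 301) (B (lo113_8_5 (nat_lit 269)) (lo112_13_6 (nat_lit 332)))))))) (B (M (nat_lit 365) (B (M (nat_lit 395) (B (lo19_12_2 (nat_lit 393)) (M (nat_lit 366) (B (lo115_11_1 (nat_lit 367)) (lo114_11_1 (nat_lit 363)))))) (M (nat_lit 460) (B (lo112_14_6 (nat_lit 333)) (M (nat_lit 459) (B (lo19_14_2 (nat_lit 457)) (lo112_11_5 (nat_lit 491)))))))) (M (nat_lit 332) (B (lo112_10_4 (nat_lit 461)) (M (nat_lit 300) (B (M (nat_lit 301) (B (lo112_12_6 (nat_lit 269)) (lo112_13_6 (nat_lit 333)))) (M (nat_lit 299) (B (lo112_12_7 (nat_lit 267))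 (lo112_13_7 (nat_lit 331)))))))))))) (B (K _ _ _ o1_s37239) (M (nat_lit 364) (B (M (nat_lit 332) (B (lo112_10_4 (nat_lit 461)) (M (nat_lit 331) (B (lo112_13_7 (nat_lit 299)) (M (nat_lit 363) (B (lo112_14_7 (nat_lit 460)) (lo110_14_6 (nat_lit 362)))))))) (B (M (nat_lit 362) (B (M (nat_lit 363) (B (lo110_14_6 (nat_lit 331)) (M (nat_lit 361) (B (lo19_11_0 (nat_lit 397)) (lo110_14_7 (nat_lit 329)))))) (M (nat_lit 459) (B (lo110_11_4 (nat_lit 491)) (M (nat_lit 457) (B (lo19_14_2 (nat_lit 460)) (lo110_11_5 (nat_lit 489)))))))) (M (nat_lit 332) (B (lo112_10_4 (nat_lit 461)) (M (nat_lit 300) (B (lo112_9_4 (nat_lit 397)) (M (nat_lit 301) (B (lo112_12_6 (nat_lit 269)) (lo112_13_6 (nat_lit 333)))))))))))))))) (B (K _ _ _ o1_s37267) (K _ _ _ o1_s37008))))))) (B (M (nat_lit 396) (B (K _ _ _ o1_s36869) (B (M (nat_lit 395) (B (lo19_12_0 (nat_lit 393)) (M (nat_lit 460) (B (M (nat_lit 363)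 (B (lo112_15_7 (nat_lit 492)) (M (nat_lit 331) (B (lo112_14_7 (nat_lit 364)) (lo111_9_4 (nat_lit 299)))))) (B (M (nat_lit 397) (B (lo113_12_1 (nat_lit 425)) (M (nat_lit 492) (B (lo112_15_6 (nat_lit 365)) (lo112_15_7 (nat_lit 363)))))) (B (K _ _ _ o1_s37640) (M (nat_lit 397) (B (lo113_12_1 (nat_lit 425)) (M (nat_lit 365) (B (lo113_10_5 (nat_lit 333)) (lo112_15_6 (nat_lit 492)))))))))))) (B (K _ _ _ o1_s37659) (B (M (nat_lit 395) (B (lo19_12_0 (nat_lit 393)) (M (nat_lit 460) (B (M (nat_lit 397) (B (lo113_12_1 (nat_lit 425)) (M (nat_lit 492) (B (lo112_16_6 (nat_lit 524)) (lo112_15_7 (nat_lit 363)))))) (B (M (nat_lit 363) (B (lo112_15_7 (nat_lit 492)) (M (nat_lit 331) (B (lo112_14_7 (nat_lit 364)) (lo111_9_4 (nat_lit 299)))))) (B (K _ _ _ o1_s37640) (M (nat_lit 459) (B (M (nat_lit 491) (B (lo112_11_5 (nat_lit 364)) (M (nat_lit 523) (B (lo112_12_5 (nat_lit 492)) (lo111_17_6 (nat_lit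 555)))))) (M (nat_lit 458) (B (lo19_14_2 (nat_lit 457)) (M (nat_lit 425) (B (lo113_12_1 (nat_lit 397)) (lo113_14_3 (nat_lit 461)))))))))))))) (B (M (nat_lit 460) (B (M (nat_lit 395) (B (lo19_12_0 (nat_lit 393)) (M (nat_lit 363) (B (lo112_15_7 (nat_lit 492)) (M (nat_lit 331) (B (lo112_14_7 (nat_lit 364)) (lo111_9_4 (nat_lit 299)))))))) (B (M (nat_lit 492) (B (M (nat_lit 395) (B (lo19_12_0 (nat_lit 393)) (lo112_15_7 (nat_lit 363)))) (M (nat_lit 524) (B (M (nat_lit 523) (B (lo112_12_5 (nat_lit 491)) (lo112_13_5 (nat_lit 555)))) (M (nat_lit 557) (B (lo112_13_4 (nat_lit 525)) (M (nat_lit 556) (B (lo112_17_6 (nat_lit 461)) (lo112_14_4 (nat_lit 589)))))))))) (B (M (nat_lit 364) (B (M (nat_lit 332) (B (lo112_10_4 (nat_lit 461)) (M (nat_lit 331) (B (lo112_13_7 (nat_lit 299)) (lo112_14_7 (nat_lit 363)))))) (B (M (nat_lit 332) (B (M (nat_lit 333) (B (lo112_13_6 (nat_lit 301)) (lo112_14_6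 (nat_lit 365)))) (M (nat_lit 331) (B (lo112_13_7 (nat_lit 299)) (lo112_14_7 (nat_lit 363)))))) (B (M (nat_lit 395) (B (lo19_12_0 (nat_lit 393)) (M (nat_lit 363) (B (lo112_14_7 (nat_lit 331)) (M (nat_lit 365) (B (lo114_11_1 (nat_lit 366)) (lo112_14_6 (nat_lit 333)))))))) (M (nat_lit 332) (B (lo112_10_4 (nat_lit 461)) (M (nat_lit 333) (B (lo112_13_6 (nat_lit 301)) (lo112_14_6 (nat_lit 365)))))))))) (B (M (nat_lit 458) (B (M (nat_lit 459) (B (lo19_14_2 (nat_lit 457)) (M (nat_lit 491) (B (lo112_11_5 (nat_lit 364)) (M (nat_lit 523) (B (lo112_12_5 (nat_lit 492)) (lo111_17_6 (nat_lit 555)))))))) (B (M (nat_lit 490) (B (M (nat_lit 393) (B (lo19_12_0 (nat_lit 395)) (lo110_15_7 (nat_lit 361)))) (M (nat_lit 459) (B (lo19_14_2 (nat_lit 457)) (M (nat_lit 461) (B (lo113_14_3 (nat_lit 425)) (lo113_14_1 (nat_lit 489)))))))) (M (nat_lit 490) (B (M (nat_lit 393) (B (lo19_12_0 (nat_lit 395))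 (lo110_15_7 (nat_lit 361)))) (M (nat_lit 522) (B (M (nat_lit 523) (B (lo110_12_4 (nat_lit 491)) (lo110_13_4 (nat_lit 555)))) (M (nat_lit 521) (B (lo110_12_5 (nat_lit 489)) (lo110_13_5 (nat_lit 553))))))))))) (B (M (nat_lit 459) (B (M (nat_lit 491) (B (lo112_11_5 (nat_lit 364)) (M (nat_lit 523) (B (lo112_12_5 (nat_lit 492)) (lo111_17_6 (nat_lit 555)))))) (M (nat_lit 458) (B (lo19_14_2 (nat_lit 457)) (M (nat_lit 490) (B (M (nat_lit 461) (B (lo113_14_3 (nat_lit 425)) (lo113_14_1 (nat_lit 489)))) (B (M (nat_lit 522) (B (M (nat_lit 393) (B (lo110_15_7 (nat_lit 361)) (lo110_16_7 (nat_lit 425)))) (M (nat_lit 521) (B (lo110_12_5 (nat_lit 489)) (lo110_13_5 (nat_lit 553)))))) (B (M (nat_lit 489) (B (lo113_14_1 (nat_lit 461)) (lo110_12_5 (nat_lit 521)))) (M (nat_lit 393) (B (lo110_15_7 (nat_lit 361)) (M (nat_lit 425) (B (lo113_14_3 (nat_lit 461)) (lo110_16_7 (nat_lit 522))))))))))))))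 (M (nat_lit 364) (B (M (nat_lit 332) (B (lo112_10_4 (nat_lit 461)) (M (nat_lit 333) (B (lo112_13_6 (nat_lit 301)) (lo112_14_6 (nat_lit 365)))))) (M (nat_lit 492) (B (M (nat_lit 363) (B (lo112_14_7 (nat_lit 331)) (lo112_15_7 (nat_lit 395)))) (M (nat_lit 491) (B (lo112_11_5 (nat_lit 459)) (lo112_12_5 (nat_lit 523)))))))))))))) (B (M (nat_lit 364) (B (M (nat_lit 332) (B (lo112_10_4 (nat_lit 461)) (M (nat_lit 300) (B (lo112_9_4 (nat_lit 397)) (M (nat_lit 299) (B (lo112_12_7 (nat_lit 267)) (lo112_13_7 (nat_lit 331)))))))) (B (K _ _ _ o1_s36931) (B (K _ _ _ o1_s36930) (B (M (nat_lit 460) (B (M (nat_lit 365) (B (lo112_14_6 (nat_lit 333)) (M (nat_lit 492) (B (lo112_15_6 (nat_lit 397)) (M (nat_lit 491) (B (lo112_11_5 (nat_lit 459)) (lo112_12_5 (nat_lit 523)))))))) (B (M (nat_lit 492) (B (M (nat_lit 397) (B (lo112_15_6 (nat_lit 365)) (lo112_16_6 (nat_lit 524)))) (M (nat_lit 491) (B (lo112_11_5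 (nat_lit 459)) (lo112_12_5 (nat_lit 523)))))) (B (K _ _ _ o1_s37768) (B (M (nat_lit 459) (B (lo112_11_5 (nat_lit 491)) (M (nat_lit 458) (B (lo19_14_2 (nat_lit 457)) (M (nat_lit 490) (B (M (nat_lit 461) (B (lo113_14_3 (nat_lit 425)) (lo113_14_1 (nat_lit 489)))) (B (M (nat_lit 522) (B (M (nat_lit 393) (B (lo110_15_7 (nat_lit 361)) (lo110_16_7 (nat_lit 425)))) (M (nat_lit 521) (B (lo110_12_5 (nat_lit 489)) (lo110_13_5 (nat_lit 553)))))) (B (M (nat_lit 489) (B (lo113_14_1 (nat_lit 461)) (lo110_12_5 (nat_lit 521)))) (M (nat_lit 393) (B (lo110_15_7 (nat_lit 361)) (M (nat_lit 425) (B (lo113_14_3 (nat_lit 461)) (lo110_16_7 (nat_lit 522)))))))))))))) (M (nat_lit 365) (B (lo112_14_6 (nat_lit 333)) (M (nat_lit 397) (B (lo112_15_6 (nat_lit 492)) (M (nat_lit 366) (B (M (nat_lit 334) (B (lo113_14_6 (nat_lit 461)) (M (nat_lit 302) (B (lo114_8_5 (nat_lit 270)) (lo114_9_5 (nat_lit 398))))))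 (B (M (nat_lit 363) (B (lo112_14_7 (nat_lit 331)) (M (nat_lit 334) (B (lo111_11_2 (nat_lit 335)) (lo113_14_6 (nat_lit 461)))))) (M (nat_lit 399) (B (M (nat_lit 367) (B (lo116_11_1 (nat_lit 368)) (lo112_11_0 (nat_lit 400)))) (B (M (nat_lit 400) (B (lo112_11_0 (nat_lit 367)) (lo116_12_3 (nat_lit 398)))) (M (nat_lit 363) (B (lo111_11_0 (nat_lit 398)) (lo112_14_7 (nat_lit 331))))))))))))))))))) (M (nat_lit 332) (B (lo112_10_4 (nat_lit 461)) (M (nat_lit 300) (B (lo112_9_4 (nat_lit 397)) (M (nat_lit 301) (B (lo112_12_6 (nat_lit 269)) (lo112_13_6 (nat_lit 333))))))))))))) (M (nat_lit 364) (B (M (nat_lit 332) (B (lo112_10_4 (nat_lit 461)) (M (nat_lit 300) (B (lo112_9_4 (nat_lit 397)) (M (nat_lit 301) (B (lo112_12_6 (nat_lit 269)) (lo112_13_6 (nat_lit 333)))))))) (B (M (nat_lit 332) (B (lo112_10_4 (nat_lit 461)) (M (nat_lit 300) (B (lo112_9_4 (nat_lit 397)) (M (nat_lit 299) (B (lo112_12_7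 (nat_lit 267)) (lo112_13_7 (nat_lit 331)))))))) (B (K _ _ _ o1_s36931) (B (K _ _ _ o1_s36930) (M (nat_lit 460) (B (M (nat_lit 365) (B (lo112_14_6 (nat_lit 333)) (M (nat_lit 492) (B (lo112_15_6 (nat_lit 397)) (M (nat_lit 491) (B (lo112_11_5 (nat_lit 459)) (lo112_12_5 (nat_lit 523)))))))) (B (M (nat_lit 492) (B (M (nat_lit 363) (B (lo112_14_7 (nat_lit 331)) (lo112_15_7 (nat_lit 395)))) (M (nat_lit 491) (B (lo112_11_5 (nat_lit 459)) (lo112_12_5 (nat_lit 523)))))) (B (M (nat_lit 365) (B (lo112_14_6 (nat_lit 333)) (M (nat_lit 363) (B (lo112_14_7 (nat_lit 331)) (M (nat_lit 458) (B (M (nat_lit 459) (B (lo19_14_2 (nat_lit 457)) (lo112_11_5 (nat_lit 491)))) (M (nat_lit 395) (B (lo114_11_1 (nat_lit 366)) (lo110_15_6 (nat_lit 490)))))))))) (M (nat_lit 492) (B (M (nat_lit 365) (B (lo112_14_6 (nat_lit 333)) (lo112_15_6 (nat_lit 397)))) (M (nat_lit 363) (B (lo112_14_7 (nat_lit 331)) (lo112_15_7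 (nat_lit 395)))))))))))))))))))))) (B (M (nat_lit 396) (B (K _ _ _ o1_s36869) (B (K _ _ _ o1_s36881) (B (M (nat_lit 364) (B (K _ _ _ o1_s36931) (B (M (nat_lit 363) (B (M (nat_lit 331) (B (lo112_14_7 (nat_lit 460)) (M (nat_lit 332) (B (lo112_10_4 (nat_lit 461)) (lo112_13_7 (nat_lit 299)))))) (B (M (nat_lit 331) (B (lo112_14_7 (nat_lit 460)) (M (nat_lit 299) (B (lo112_13_7 (nat_lit 332)) (lo111_9_4 (nat_lit 395)))))) (B (M (nat_lit 331) (B (lo112_14_7 (nat_lit 460)) (M (nat_lit 395) (B (lo19_12_0 (nat_lit 393)) (lo111_9_4 (nat_lit 299)))))) (M (nat_lit 393) (B (lo19_12_0 (nat_lit 395)) (M (nat_lit 362) (B (lo113_11_1 (nat_lit 365)) (M (nat_lit 392) (B (lo112_11_1 (nat_lit 361)) (lo17_12_2 (nat_lit 391)))))))))))) (B (K _ _ _ o1_s36922) (B (M (nat_lit 363) (B (M (nat_lit 331) (B (lo112_14_7 (nat_lit 460)) (M (nat_lit 395) (B (lo19_12_0 (nat_lit 393)) (lo111_9_4 (nat_lit 299))))))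 (B (M (nat_lit 393) (B (lo19_12_0 (nat_lit 395)) (M (nat_lit 362) (B (lo113_11_1 (nat_lit 365)) (M (nat_lit 392) (B (lo112_11_1 (nat_lit 361)) (lo17_12_2 (nat_lit 391)))))))) (B (K _ _ _ o1_s37841) (M (nat_lit 331) (B (lo112_14_7 (nat_lit 460)) (M (nat_lit 299) (B (lo111_8_4 (nat_lit 267)) (lo111_9_4 (nat_lit 395)))))))))) (B (M (nat_lit 332) (B (lo112_10_4 (nat_lit 461)) (M (nat_lit 395) (B (lo19_12_0 (nat_lit 393)) (M (nat_lit 460) (B (M (nat_lit 333) (B (lo112_13_6 (nat_lit 301)) (lo112_14_6 (nat_lit 365)))) (M (nat_lit 363) (B (lo112_14_7 (nat_lit 331)) (lo112_15_7 (nat_lit 492)))))))))) (M (nat_lit 332) (B (lo112_10_4 (nat_lit 461)) (M (nat_lit 300) (B (M (nat_lit 301) (B (lo112_12_6 (nat_lit 269)) (lo112_13_6 (nat_lit 333)))) (M (nat_lit 268) (B (M (nat_lit 267) (B (lo112_11_7 (nat_lit 235)) (lo112_12_7 (nat_lit 299)))) (M (nat_lit 395) (B (lo19_12_0 (nat_lit 393)) (lo112_8_5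 (nat_lit 363)))))))))))))))) (B (K _ _ _ o1_s36908) (B (M (nat_lit 364) (B (M (nat_lit 332) (B (lo112_10_4 (nat_lit 461)) (M (nat_lit 300) (B (lo112_9_4 (nat_lit 397)) (M (nat_lit 299) (B (lo112_12_7 (nat_lit 267)) (lo112_13_7 (nat_lit 331)))))))) (B (K _ _ _ o1_s36922) (B (K _ _ _ o1_s36930) (B (K _ _ _ o1_s36931) (B (M (nat_lit 363) (B (K _ _ _ o1_s36957) (B (K _ _ _ o1_s37841) (B (M (nat_lit 362) (B (M (nat_lit 331) (B (lo112_14_7 (nat_lit 460)) (M (nat_lit 299) (B (lo111_8_4 (nat_lit 267)) (lo110_13_6 (nat_lit 330)))))) (M (nat_lit 361) (B (lo19_11_0 (nat_lit 397)) (M (nat_lit 393) (B (lo112_11_1 (nat_lit 392)) (M (nat_lit 329) (B (lo112_11_3 (nat_lit 328)) (lo19_9_4 (nat_lit 297)))))))))) (B (M (nat_lit 362) (B (M (nat_lit 365) (B (lo113_11_1 (nat_lit 393)) (M (nat_lit 397) (B (lo110_11_0 (nat_lit 398)) (lo19_11_0 (nat_lit 361)))))) (B (M (nat_lit 393) (B (lo113_11_1 (nat_lit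 365)) (M (nat_lit 361) (B (lo19_11_0 (nat_lit 397)) (lo112_11_1 (nat_lit 392)))))) (B (M (nat_lit 361) (B (lo19_11_0 (nat_lit 397)) (M (nat_lit 393) (B (lo112_11_1 (nat_lit 392)) (M (nat_lit 329) (B (lo112_11_3 (nat_lit 328)) (lo19_9_4 (nat_lit 297)))))))) (B (M (nat_lit 365) (B (lo113_11_1 (nat_lit 393)) (M (nat_lit 330) (B (lo113_11_3 (nat_lit 329)) (M (nat_lit 331) (B (lo114_11_3 (nat_lit 366)) (lo110_13_6 (nat_lit 299)))))))) (M (nat_lit 397) (B (lo19_11_0 (nat_lit 361)) (M (nat_lit 398) (B (lo115_12_3 (nat_lit 399)) (lo110_11_0 (nat_lit 365))))))))))) (M (nat_lit 362) (B (M (nat_lit 397) (B (lo19_11_0 (nat_lit 361)) (M (nat_lit 398) (B (lo115_12_3 (nat_lit 399)) (lo110_11_0 (nat_lit 365)))))) (B (M (nat_lit 365) (B (lo113_11_1 (nat_lit 393)) (M (nat_lit 333) (B (lo110_11_2 (nat_lit 334)) (lo112_14_6 (nat_lit 460)))))) (M (nat_lit 361) (B (lo19_11_0 (nat_lit 397)) (M (nat_lit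 393) (B (lo112_11_1 (nat_lit 392)) (M (nat_lit 329) (B (lo112_11_3 (nat_lit 328)) (lo19_9_4 (nat_lit 297)))))))))))))))) (M (nat_lit 332) (B (lo112_10_4 (nat_lit 461)) (M (nat_lit 300) (B (lo112_9_4 (nat_lit 397)) (M (nat_lit 301) (B (lo112_12_6 (nat_lit 269)) (lo112_13_6 (nat_lit 333)))))))))))))) (M (nat_lit 397) (B (M (nat_lit 395) (B (lo113_12_1 (nat_lit 425)) (M (nat_lit 365) (B (lo110_12_2 (nat_lit 366)) (M (nat_lit 333) (B (lo113_9_5 (nat_lit 301)) (lo113_10_5 (nat_lit 460)))))))) (B (M (nat_lit 395) (B (lo113_12_1 (nat_lit 425)) (M (nat_lit 363) (B (M (nat_lit 362) (B (lo114_12_3 (nat_lit 398)) (lo113_12_3 (nat_lit 361)))) (M (nat_lit 460) (B (lo112_15_7 (nat_lit 492)) (M (nat_lit 331) (B (lo112_14_7 (nat_lit 364)) (lo111_9_4 (nat_lit 299)))))))))) (B (M (nat_lit 395) (B (lo113_12_1 (nat_lit 425)) (M (nat_lit 398) (B (M (nat_lit 366) (B (lo111_12_2 (nat_lit 367)) (lo110_12_2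 (nat_lit 365)))) (M (nat_lit 362) (B (lo114_12_3 (nat_lit 363)) (lo113_12_3 (nat_lit 361)))))))) (K _ _ _ o1_s37912))))))))))) (B (M (nat_lit 396) (B (K _ _ _ o1_s36869) (B (M (nat_lit 364) (B (M (nat_lit 332) (B (lo112_10_4 (nat_lit 461)) (M (nat_lit 300) (B (lo112_9_4 (nat_lit 397)) (M (nat_lit 301) (B (lo112_12_6 (nat_lit 269)) (lo112_13_6 (nat_lit 333)))))))) (B (M (nat_lit 397) (B (M (nat_lit 332) (B (lo112_9_4 (nat_lit 300)) (lo112_10_4 (nat_lit 461)))) (M (nat_lit 395) (B (lo113_12_1 (nat_lit 425)) (lo19_12_0 (nat_lit 393)))))) (B (K _ _ _ o1_s36931) (B (K _ _ _ o1_s36930) (M (nat_lit 460) (B (M (nat_lit 395) (B (lo19_12_0 (nat_lit 393)) (M (nat_lit 363) (B (lo112_14_7 (nat_lit 331)) (lo112_15_7 (nat_lit 492)))))) (B (M (nat_lit 365) (B (lo112_14_6 (nat_lit 333)) (M (nat_lit 393) (B (lo19_12_2 (nat_lit 395)) (M (nat_lit 363) (B (lo113_11_1 (nat_lit 362)) (lo112_14_7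 (nat_lit 331)))))))) (M (nat_lit 365) (B (lo112_14_6 (nat_lit 333)) (M (nat_lit 492) (B (lo112_15_6 (nat_lit 397)) (M (nat_lit 491) (B (lo112_11_5 (nat_lit 459)) (lo112_12_5 (nat_lit 523)))))))))))))))) (B (M (nat_lit 395) (B (lo19_12_0 (nat_lit 393)) (M (nat_lit 397) (B (lo113_12_1 (nat_lit 425)) (M (nat_lit 365) (B (lo110_12_2 (nat_lit 366)) (M (nat_lit 460) (B (lo113_10_5 (nat_lit 333)) (lo112_15_6 (nat_lit 492)))))))))) (B (K _ _ _ o1_s37659) (B (M (nat_lit 395) (B (lo19_12_0 (nat_lit 393)) (M (nat_lit 363) (B (M (nat_lit 331) (B (lo111_9_4 (nat_lit 299)) (M (nat_lit 460) (B (lo112_14_7 (nat_lit 364)) (lo112_15_7 (nat_lit 492)))))) (B (M (nat_lit 331) (B (lo111_9_4 (nat_lit 299)) (M (nat_lit 458) (B (lo110_14_6 (nat_lit 362)) (lo110_15_6 (nat_lit 490)))))) (B (M (nat_lit 331) (B (M (nat_lit 460) (B (lo112_14_7 (nat_lit 364)) (lo112_15_7 (nat_lit 492)))) (M (nat_lit 458)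 (B (lo110_14_6 (nat_lit 362)) (lo110_15_6 (nat_lit 490)))))) (M (nat_lit 397) (B (lo113_12_1 (nat_lit 425)) (M (nat_lit 398) (B (lo114_12_3 (nat_lit 362)) (M (nat_lit 399) (B (lo116_12_1 (nat_lit 400)) (lo115_12_3 (nat_lit 364)))))))))))))) (B (M (nat_lit 364) (B (K _ _ _ o1_s36931) (B (M (nat_lit 395) (B (lo19_12_0 (nat_lit 393)) (M (nat_lit 331) (B (M (nat_lit 332) (B (lo112_10_4 (nat_lit 461)) (lo112_13_7 (nat_lit 299)))) (B (M (nat_lit 299) (B (lo112_13_7 (nat_lit 332)) (lo111_9_4 (nat_lit 363)))) (B (M (nat_lit 363) (B (lo112_14_7 (nat_lit 460)) (lo111_9_4 (nat_lit 299)))) (M (nat_lit 363) (B (lo112_14_7 (nat_lit 460)) (M (nat_lit 458) (B (lo110_14_6 (nat_lit 362)) (lo110_15_6 (nat_lit 490)))))))))))) (B (K _ _ _ o1_s37540) (B (M (nat_lit 395) (B (lo19_12_0 (nat_lit 393)) (M (nat_lit 363) (B (M (nat_lit 460) (B (lo112_14_7 (nat_lit 331)) (lo112_15_7 (nat_lit 492)))) (B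 (M (nat_lit 331) (B (lo111_9_4 (nat_lit 299)) (M (nat_lit 458) (B (lo110_14_6 (nat_lit 362)) (lo110_15_6 (nat_lit 490)))))) (M (nat_lit 365) (B (lo114_11_1 (nat_lit 366)) (M (nat_lit 460) (B (lo112_14_6 (nat_lit 333)) (lo112_15_7 (nat_lit 492))))))))))) (K _ _ _ o1_s36922)))))) (B (M (nat_lit 364) (B (M (nat_lit 332) (B (lo112_10_4 (nat_lit 461)) (M (nat_lit 300) (B (lo112_9_4 (nat_lit 397)) (M (nat_lit 299) (B (lo112_12_7 (nat_lit 267)) (lo112_13_7 (nat_lit 331)))))))) (B (K _ _ _ o1_s36922) (B (K _ _ _ o1_s36930) (B (K _ _ _ o1_s36931) (B (M (nat_lit 460) (B (M (nat_lit 365) (B (lo112_14_6 (nat_lit 333)) (M (nat_lit 492) (B (lo112_15_6 (nat_lit 397)) (M (nat_lit 491) (B (lo112_11_5 (nat_lit 459)) (lo112_12_5 (nat_lit 523)))))))) (B (M (nat_lit 492) (B (M (nat_lit 397) (B (lo112_15_6 (nat_lit 365)) (lo112_16_6 (nat_lit 524)))) (M (nat_lit 491) (B (lo112_11_5 (nat_lit 459))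 (lo112_12_5 (nat_lit 523)))))) (B (K _ _ _ o1_s37768) (B (M (nat_lit 362) (B (M (nat_lit 363) (B (lo112_14_7 (nat_lit 331)) (M (nat_lit 365) (B (lo112_14_6 (nat_lit 333)) (lo113_11_1 (nat_lit 393)))))) (B (M (nat_lit 331) (B (lo112_14_7 (nat_lit 363)) (M (nat_lit 457) (B (M (nat_lit 459) (B (lo19_14_2 (nat_lit 458)) (lo112_11_5 (nat_lit 491)))) (M (nat_lit 330) (B (lo110_13_6 (nat_lit 299)) (lo110_10_5 (nat_lit 425)))))))) (B (M (nat_lit 330) (B (M (nat_lit 459) (B (lo112_11_5 (nat_lit 491)) (M (nat_lit 457) (B (lo19_14_2 (nat_lit 458)) (lo110_10_5 (nat_lit 425)))))) (M (nat_lit 365) (B (lo112_14_6 (nat_lit 333)) (M (nat_lit 329) (B (lo113_11_3 (nat_lit 363)) (lo110_13_7 (nat_lit 297)))))))) (M (nat_lit 330) (B (M (nat_lit 459) (B (lo112_11_5 (nat_lit 491)) (M (nat_lit 457) (B (lo19_14_2 (nat_lit 458)) (lo110_10_5 (nat_lit 425)))))) (M (nat_lit 298) (B (M (nat_lit 299) (B (lo110_12_6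 (nat_lit 267)) (lo110_13_6 (nat_lit 331)))) (M (nat_lit 297) (B (lo110_12_7 (nat_lit 265)) (lo110_13_7 (nat_lit 329)))))))))))) (M (nat_lit 365) (B (lo112_14_6 (nat_lit 333)) (M (nat_lit 363) (B (lo112_14_7 (nat_lit 331)) (M (nat_lit 397) (B (lo112_15_6 (nat_lit 492)) (M (nat_lit 362) (B (lo110_11_0 (nat_lit 398)) (lo113_11_1 (nat_lit 393))))))))))))))) (M (nat_lit 332) (B (lo112_10_4 (nat_lit 461)) (M (nat_lit 300) (B (lo112_9_4 (nat_lit 397)) (M (nat_lit 301) (B (lo112_12_6 (nat_lit 269)) (lo112_13_6 (nat_lit 333)))))))))))))) (M (nat_lit 397) (B (M (nat_lit 395) (B (lo113_12_1 (nat_lit 425)) (M (nat_lit 365) (B (lo110_12_2 (nat_lit 366)) (M (nat_lit 333) (B (lo113_9_5 (nat_lit 301)) (lo113_10_5 (nat_lit 460)))))))) (B (M (nat_lit 395) (B (lo113_12_1 (nat_lit 425)) (M (nat_lit 363) (B (M (nat_lit 398) (B (lo114_12_3 (nat_lit 362)) (M (nat_lit 399) (B (lo116_12_1 (nat_lit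 400)) (lo115_12_3 (nat_lit 364)))))) (B (M (nat_lit 362) (B (lo114_12_3 (nat_lit 398)) (M (nat_lit 331) (B (lo111_9_4 (nat_lit 299)) (lo110_14_6 (nat_lit 458)))))) (M (nat_lit 460) (B (lo112_15_7 (nat_lit 492)) (M (nat_lit 331) (B (lo112_14_7 (nat_lit 364)) (lo111_9_4 (nat_lit 299))))))))))) (B (M (nat_lit 398) (B (M (nat_lit 395) (B (lo113_12_1 (nat_lit 425)) (M (nat_lit 366) (B (lo111_12_2 (nat_lit 367)) (lo110_12_2 (nat_lit 365)))))) (M (nat_lit 364) (B (M (nat_lit 399) (B (lo116_12_1 (nat_lit 400)) (lo115_12_3 (nat_lit 363)))) (M (nat_lit 332) (B (lo112_9_4 (nat_lit 300)) (lo112_10_4 (nat_lit 461)))))))) (K _ _ _ o1_s37912))))))))))))) (B (M (nat_lit 458) (B (K _ _ _ o1_s37027) (B (M (nat_lit 362) (B (M (nat_lit 330) (B (M (nat_lit 329) (B (lo110_13_7 (nat_lit 297)) (lo110_14_7 (nat_lit 361)))) (M (nat_lit 457) (B (lo110_10_5 (nat_lit 425)) (lo110_11_5 (nat_lit 489))))))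 (B (M (nat_lit 490) (B (M (nat_lit 363) (B (lo110_14_6 (nat_lit 331)) (lo110_15_6 (nat_lit 395)))) (M (nat_lit 489) (B (lo110_11_5 (nat_lit 457)) (lo110_12_5 (nat_lit 521)))))) (M (nat_lit 330) (B (M (nat_lit 331) (B (lo110_13_6 (nat_lit 299)) (lo110_14_6 (nat_lit 363)))) (M (nat_lit 329) (B (lo110_13_7 (nat_lit 297)) (lo110_14_7 (nat_lit 361))))))))) (B (K _ _ _ o1_s37267) (B (M (nat_lit 457) (B (M (nat_lit 489) (B (lo110_11_5 (nat_lit 362)) (M (nat_lit 521) (B (lo19_16_6 (nat_lit 425)) (lo19_17_6 (nat_lit 553)))))) (M (nat_lit 459) (B (lo19_14_2 (nat_lit 460)) (M (nat_lit 456) (B (M (nat_lit 491) (B (lo18_14_0 (nat_lit 492)) (M (nat_lit 523) (B (lo111_17_7 (nat_lit 555)) (lo110_12_4 (nat_lit 490)))))) (M (nat_lit 455) (B (M (nat_lit 423) (B (lo111_14_3 (nat_lit 424)) (lo110_14_3 (nat_lit 422)))) (M (nat_lit 487) (B (lo111_14_1 (nat_lit 488)) (lo110_14_1 (nat_lit 486))))))))))))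 (B (M (nat_lit 490) (B (M (nat_lit 522) (B (M (nat_lit 523) (B (lo110_12_4 (nat_lit 491)) (lo110_13_4 (nat_lit 555)))) (M (nat_lit 521) (B (lo110_12_5 (nat_lit 489)) (lo110_13_5 (nat_lit 553)))))) (B (M (nat_lit 397) (B (K _ _ _ o1_s38050) (B (M (nat_lit 460) (B (M (nat_lit 365) (B (lo113_10_5 (nat_lit 333)) (M (nat_lit 492) (B (lo113_11_5 (nat_lit 461)) (lo112_16_6 (nat_lit 524)))))) (B (M (nat_lit 492) (B (lo112_16_6 (nat_lit 524)) (M (nat_lit 365) (B (lo113_11_5 (nat_lit 461)) (lo112_15_6 (nat_lit 396)))))) (B (M (nat_lit 459) (B (lo19_14_2 (nat_lit 457)) (M (nat_lit 461) (B (lo113_14_3 (nat_lit 425)) (lo113_14_1 (nat_lit 489)))))) (M (nat_lit 365) (B (lo113_10_5 (nat_lit 333)) (M (nat_lit 492) (B (lo112_15_6 (nat_lit 396)) (lo112_16_6 (nat_lit 524)))))))))) (B (M (nat_lit 460) (B (M (nat_lit 492) (B (lo112_16_6 (nat_lit 524)) (M (nat_lit 365) (B (lo113_11_5 (nat_lit 461))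 (lo112_15_6 (nat_lit 396)))))) (B (M (nat_lit 459) (B (lo19_14_2 (nat_lit 457)) (M (nat_lit 461) (B (lo113_14_3 (nat_lit 425)) (lo113_14_1 (nat_lit 489)))))) (M (nat_lit 396) (B (M (nat_lit 492) (B (lo112_15_6 (nat_lit 365)) (lo112_16_6 (nat_lit 524)))) (M (nat_lit 395) (B (lo113_12_1 (nat_lit 425)) (lo110_15_6 (nat_lit 363))))))))) (B (M (nat_lit 395) (B (lo110_15_6 (nat_lit 363)) (M (nat_lit 522) (B (M (nat_lit 521) (B (lo110_12_5 (nat_lit 489)) (lo110_13_5 (nat_lit 553)))) (M (nat_lit 554) (B (M (nat_lit 555) (B (lo110_13_4 (nat_lit 523)) (lo110_14_4 (nat_lit 587)))) (M (nat_lit 425) (B (lo113_12_1 (nat_lit 396)) (lo110_17_7 (nat_lit 457)))))))))) (B (M (nat_lit 460) (B (M (nat_lit 459) (B (lo19_14_2 (nat_lit 457)) (M (nat_lit 461) (B (lo113_14_3 (nat_lit 425)) (lo113_14_1 (nat_lit 489)))))) (B (M (nat_lit 522) (B (M (nat_lit 521) (B (lo110_12_5 (nat_lit 489)) (lo110_13_5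 (nat_lit 553)))) (M (nat_lit 554) (B (M (nat_lit 555) (B (lo110_13_4 (nat_lit 523)) (lo110_14_4 (nat_lit 587)))) (M (nat_lit 457) (B (lo19_14_2 (nat_lit 459)) (lo110_17_7 (nat_lit 425)))))))) (M (nat_lit 365) (B (lo113_10_5 (nat_lit 333)) (M (nat_lit 492) (B (lo113_11_5 (nat_lit 461)) (lo112_16_6 (nat_lit 524))))))))) (M (nat_lit 460) (B (M (nat_lit 365) (B (lo113_10_5 (nat_lit 333)) (M (nat_lit 492) (B (lo113_11_5 (nat_lit 461)) (lo112_16_6 (nat_lit 524)))))) (B (M (nat_lit 492) (B (lo112_16_6 (nat_lit 524)) (M (nat_lit 365) (B (lo113_11_5 (nat_lit 461)) (lo112_15_6 (nat_lit 396)))))) (B (M (nat_lit 459) (B (lo19_14_2 (nat_lit 457)) (M (nat_lit 489) (B (lo113_14_1 (nat_lit 461)) (lo110_12_5 (nat_lit 521)))))) (M (nat_lit 365) (B (lo113_10_5 (nat_lit 333)) (M (nat_lit 492) (B (lo112_15_6 (nat_lit 396)) (lo112_16_6 (nat_lit 524)))))))))))))))) (B (M (nat_lit 460) (B (M (nat_lit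 459) (B (lo19_14_2 (nat_lit 457)) (M (nat_lit 461) (B (lo113_14_3 (nat_lit 425)) (lo113_14_1 (nat_lit 489)))))) (B (M (nat_lit 459) (B (lo19_14_2 (nat_lit 457)) (M (nat_lit 489) (B (lo110_12_5 (nat_lit 521)) (M (nat_lit 488) (B (lo18_15_2 (nat_lit 491)) (lo17_15_2 (nat_lit 487)))))))) (B (M (nat_lit 492) (B (M (nat_lit 397) (B (lo112_16_6 (nat_lit 524)) (M (nat_lit 365) (B (lo113_10_5 (nat_lit 333)) (lo112_15_6 (nat_lit 396)))))) (B (M (nat_lit 397) (B (lo112_16_6 (nat_lit 524)) (M (nat_lit 365) (B (lo113_11_5 (nat_lit 461)) (lo112_15_6 (nat_lit 396)))))) (B (M (nat_lit 461) (B (M (nat_lit 524) (B (lo112_16_6 (nat_lit 397)) (lo112_17_6 (nat_lit 556)))) (M (nat_lit 489) (B (lo19_15_2 (nat_lit 491)) (lo110_12_5 (nat_lit 521)))))) (B (M (nat_lit 524) (B (M (nat_lit 556) (B (lo112_17_6 (nat_lit 461)) (M (nat_lit 557) (B (lo112_13_4 (nat_lit 525)) (lo112_14_4 (nat_lit 589))))))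 (B (M (nat_lit 525) (B (lo112_13_4 (nat_lit 557)) (M (nat_lit 489) (B (lo19_15_0 (nat_lit 491)) (lo110_12_5 (nat_lit 521)))))) (M (nat_lit 461) (B (lo112_17_6 (nat_lit 556)) (M (nat_lit 489) (B (lo19_15_2 (nat_lit 491)) (lo110_12_5 (nat_lit 521))))))))) (M (nat_lit 396) (B (M (nat_lit 397) (B (lo112_15_6 (nat_lit 365)) (M (nat_lit 395) (B (lo113_12_1 (nat_lit 425)) (lo112_15_7 (nat_lit 363)))))) (B (M (nat_lit 363) (B (lo112_15_7 (nat_lit 395)) (M (nat_lit 461) (B (M (nat_lit 364) (B (lo112_10_4 (nat_lit 332)) (lo112_14_7 (nat_lit 331)))) (M (nat_lit 489) (B (lo19_15_2 (nat_lit 491)) (lo110_12_5 (nat_lit 521)))))))) (M (nat_lit 365) (B (lo112_15_6 (nat_lit 397)) (M (nat_lit 461) (B (M (nat_lit 364) (B (lo112_14_6 (nat_lit 333)) (lo112_10_4 (nat_lit 332)))) (M (nat_lit 489) (B (lo19_15_2 (nat_lit 491)) (lo110_12_5 (nat_lit 521)))))))))))))))) (M (nat_lit 397) (B (M (nat_lit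 365) (B (lo113_10_5 (nat_lit 333)) (M (nat_lit 492) (B (lo112_15_6 (nat_lit 396)) (lo112_16_6 (nat_lit 524)))))) (B (M (nat_lit 492) (B (lo112_16_6 (nat_lit 524)) (M (nat_lit 365) (B (lo113_11_5 (nat_lit 461)) (lo112_15_6 (nat_lit 396)))))) (B (M (nat_lit 425) (B (M (nat_lit 395) (B (lo113_12_1 (nat_lit 396)) (lo110_15_6 (nat_lit 363)))) (M (nat_lit 459) (B (lo19_14_2 (nat_lit 457)) (lo113_14_3 (nat_lit 461)))))) (M (nat_lit 365) (B (lo113_10_5 (nat_lit 333)) (M (nat_lit 492) (B (lo113_11_5 (nat_lit 461)) (lo112_16_6 (nat_lit 524)))))))))))))) (B (M (nat_lit 397) (B (K _ _ _ o1_s38050) (B (M (nat_lit 395) (B (lo110_15_6 (nat_lit 363)) (M (nat_lit 522) (B (M (nat_lit 523) (B (lo110_12_4 (nat_lit 491)) (lo110_13_4 (nat_lit 555)))) (M (nat_lit 554) (B (M (nat_lit 425) (B (lo113_12_1 (nat_lit 396)) (lo110_17_7 (nat_lit 457)))) (M (nat_lit 553) (B (lo110_13_5 (nat_lit 521)) (lo110_14_5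 (nat_lit 585)))))))))) (B (M (nat_lit 460) (B (M (nat_lit 365) (B (lo113_10_5 (nat_lit 333)) (M (nat_lit 492) (B (lo113_11_5 (nat_lit 461)) (lo112_16_6 (nat_lit 524)))))) (B (M (nat_lit 461) (B (M (nat_lit 492) (B (lo113_11_5 (nat_lit 365)) (lo112_16_6 (nat_lit 524)))) (M (nat_lit 459) (B (lo19_14_2 (nat_lit 457)) (lo113_14_3 (nat_lit 425)))))) (M (nat_lit 522) (B (M (nat_lit 523) (B (lo110_12_4 (nat_lit 491)) (lo110_13_4 (nat_lit 555)))) (M (nat_lit 554) (B (M (nat_lit 457) (B (lo19_14_2 (nat_lit 459)) (lo110_17_7 (nat_lit 425)))) (M (nat_lit 553) (B (lo110_13_5 (nat_lit 521)) (lo110_14_5 (nat_lit 585))))))))))) (M (nat_lit 365) (B (M (nat_lit 460) (B (lo113_10_5 (nat_lit 333)) (M (nat_lit 492) (B (lo113_11_5 (nat_lit 461)) (lo112_16_6 (nat_lit 524)))))) (B (M (nat_lit 366) (B (M (nat_lit 395) (B (lo110_12_2 (nat_lit 396)) (lo110_15_6 (nat_lit 363)))) (M (nat_lit 334) (B (lo113_14_6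 (nat_lit 461)) (M (nat_lit 302) (B (lo114_8_5 (nat_lit 270)) (lo114_9_5 (nat_lit 398)))))))) (M (nat_lit 460) (B (lo113_10_5 (nat_lit 333)) (M (nat_lit 492) (B (lo112_15_6 (nat_lit 396)) (lo112_16_6 (nat_lit 524))))))))))))) (M (nat_lit 460) (B (M (nat_lit 459) (B (lo19_14_2 (nat_lit 457)) (M (nat_lit 461) (B (lo113_14_3 (nat_lit 425)) (lo113_14_1 (nat_lit 489)))))) (B (M (nat_lit 396) (B (M (nat_lit 491) (B (lo110_12_4 (nat_lit 523)) (M (nat_lit 459) (B (lo19_14_2 (nat_lit 457)) (lo112_11_5 (nat_lit 364)))))) (M (nat_lit 397) (B (M (nat_lit 365) (B (lo113_10_5 (nat_lit 333)) (lo112_15_6 (nat_lit 492)))) (M (nat_lit 395) (B (lo113_12_1 (nat_lit 425)) (lo110_15_6 (nat_lit 363)))))))) (B (M (nat_lit 492) (B (M (nat_lit 397) (B (lo112_16_6 (nat_lit 524)) (M (nat_lit 365) (B (lo113_11_5 (nat_lit 461)) (lo112_15_6 (nat_lit 396)))))) (B (M (nat_lit 524) (B (lo112_16_6 (nat_lit 397))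 (M (nat_lit 523) (B (lo112_13_5 (nat_lit 555)) (lo110_12_4 (nat_lit 491)))))) (B (M (nat_lit 523) (B (lo110_12_4 (nat_lit 491)) (M (nat_lit 555) (B (lo112_13_5 (nat_lit 524)) (lo110_13_4 (nat_lit 522)))))) (M (nat_lit 396) (B (M (nat_lit 397) (B (lo112_15_6 (nat_lit 365)) (M (nat_lit 395) (B (lo113_12_1 (nat_lit 425)) (lo112_15_7 (nat_lit 363)))))) (B (M (nat_lit 363) (B (lo112_15_7 (nat_lit 395)) (M (nat_lit 461) (B (M (nat_lit 364) (B (lo112_10_4 (nat_lit 332)) (lo112_14_7 (nat_lit 331)))) (M (nat_lit 491) (B (lo19_15_2 (nat_lit 489)) (lo112_12_5 (nat_lit 523)))))))) (M (nat_lit 365) (B (lo112_15_6 (nat_lit 397)) (M (nat_lit 461) (B (M (nat_lit 364) (B (lo112_14_6 (nat_lit 333)) (lo112_10_4 (nat_lit 332)))) (M (nat_lit 491) (B (lo19_15_2 (nat_lit 489)) (lo112_12_5 (nat_lit 523))))))))))))))) (M (nat_lit 459) (B (lo19_14_2 (nat_lit 457)) (M (nat_lit 489) (B (lo113_14_1 (nat_lit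 461)) (M (nat_lit 491) (B (lo18_15_2 (nat_lit 488)) (lo110_12_4 (nat_lit 523))))))))))))))))) (B (M (nat_lit 460) (B (M (nat_lit 492) (B (M (nat_lit 397) (B (lo112_16_6 (nat_lit 524)) (M (nat_lit 365) (B (lo113_10_5 (nat_lit 333)) (lo113_11_5 (nat_lit 461)))))) (B (M (nat_lit 397) (B (lo112_16_6 (nat_lit 524)) (M (nat_lit 365) (B (lo113_11_5 (nat_lit 461)) (lo112_15_6 (nat_lit 396)))))) (B (M (nat_lit 523) (B (M (nat_lit 524) (B (lo112_16_6 (nat_lit 397)) (lo112_13_5 (nat_lit 555)))) (M (nat_lit 491) (B (lo112_12_5 (nat_lit 396)) (lo110_12_4 (nat_lit 490)))))) (K _ _ _ o1_s38255))))) (B (M (nat_lit 492) (B (M (nat_lit 397) (B (lo112_16_6 (nat_lit 524)) (M (nat_lit 365) (B (lo113_11_5 (nat_lit 461)) (lo112_15_6 (nat_lit 396)))))) (B (M (nat_lit 523) (B (M (nat_lit 524) (B (lo112_16_6 (nat_lit 397)) (lo112_13_5 (nat_lit 555)))) (M (nat_lit 491) (B (lo112_12_5 (nat_lit 396)) (lo110_12_4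 (nat_lit 490)))))) (B (K _ _ _ o1_s38255) (M (nat_lit 524) (B (lo112_16_6 (nat_lit 397)) (M (nat_lit 556) (B (lo112_17_6 (nat_lit 461)) (M (nat_lit 557) (B (lo112_13_4 (nat_lit 525)) (lo112_14_4 (nat_lit 589)))))))))))) (B (M (nat_lit 491) (B (M (nat_lit 459) (B (lo110_11_4 (nat_lit 362)) (M (nat_lit 523) (B (lo111_17_6 (nat_lit 555)) (lo110_12_4 (nat_lit 490)))))) (B (M (nat_lit 523) (B (lo110_12_4 (nat_lit 490)) (M (nat_lit 492) (B (lo112_12_5 (nat_lit 396)) (M (nat_lit 555) (B (lo112_13_5 (nat_lit 524)) (lo111_18_6 (nat_lit 587)))))))) (B (M (nat_lit 459) (B (lo110_11_4 (nat_lit 362)) (M (nat_lit 461) (B (lo113_14_3 (nat_lit 425)) (M (nat_lit 490) (B (lo114_14_1 (nat_lit 462)) (lo113_14_1 (nat_lit 489)))))))) (M (nat_lit 459) (B (lo110_11_4 (nat_lit 362)) (M (nat_lit 523) (B (lo111_17_6 (nat_lit 555)) (M (nat_lit 396) (B (lo112_11_5 (nat_lit 364)) (lo112_12_5 (nat_lit 492))))))))))))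 (B (M (nat_lit 491) (B (M (nat_lit 459) (B (lo110_11_4 (nat_lit 362)) (M (nat_lit 523) (B (lo111_17_6 (nat_lit 555)) (lo110_12_4 (nat_lit 490)))))) (B (M (nat_lit 523) (B (lo110_12_4 (nat_lit 490)) (M (nat_lit 492) (B (lo112_12_5 (nat_lit 396)) (M (nat_lit 555) (B (lo112_13_5 (nat_lit 524)) (lo111_18_6 (nat_lit 587)))))))) (K _ _ _ o1_s38284)))) (B (M (nat_lit 491) (B (M (nat_lit 459) (B (lo110_11_4 (nat_lit 362)) (M (nat_lit 523) (B (lo111_17_6 (nat_lit 555)) (lo110_12_4 (nat_lit 490)))))) (B (M (nat_lit 492) (B (M (nat_lit 523) (B (lo110_12_4 (nat_lit 490)) (M (nat_lit 524) (B (lo112_16_6 (nat_lit 397)) (lo112_13_5 (nat_lit 555)))))) (B (M (nat_lit 490) (B (lo110_12_4 (nat_lit 523)) (M (nat_lit 489) (B (lo19_15_2 (nat_lit 461)) (lo110_12_5 (nat_lit 521)))))) (M (nat_lit 397) (B (lo112_16_6 (nat_lit 524)) (M (nat_lit 365) (B (lo113_10_5 (nat_lit 333)) (lo113_11_5 (nat_lit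 461))))))))) (K _ _ _ o1_s38284)))) (B (M (nat_lit 490) (B (M (nat_lit 523) (B (lo110_12_4 (nat_lit 491)) (M (nat_lit 522) (B (lo110_13_4 (nat_lit 555)) (M (nat_lit 521) (B (lo110_12_5 (nat_lit 489)) (lo110_13_5 (nat_lit 553)))))))) (B (M (nat_lit 363) (B (lo110_15_6 (nat_lit 395)) (M (nat_lit 364) (B (M (nat_lit 331) (B (lo112_14_7 (nat_lit 396)) (lo110_14_6 (nat_lit 362)))) (B (M (nat_lit 362) (B (lo110_14_6 (nat_lit 331)) (M (nat_lit 329) (B (lo110_14_7 (nat_lit 361)) (M (nat_lit 330) (B (lo113_11_3 (nat_lit 365)) (lo110_13_7 (nat_lit 297)))))))) (B (M (nat_lit 365) (B (M (nat_lit 333) (B (lo113_10_5 (nat_lit 397)) (lo112_14_6 (nat_lit 396)))) (B (M (nat_lit 461) (B (M (nat_lit 332) (B (lo113_14_7 (nat_lit 397)) (lo112_10_4 (nat_lit 396)))) (M (nat_lit 489) (B (lo113_14_1 (nat_lit 459)) (lo110_12_5 (nat_lit 521)))))) (B (M (nat_lit 362) (B (M (nat_lit 333) (B (lo110_11_2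 (nat_lit 334)) (lo112_14_6 (nat_lit 396)))) (M (nat_lit 329) (B (lo113_11_3 (nat_lit 330)) (lo110_14_7 (nat_lit 361)))))) (M (nat_lit 362) (B (M (nat_lit 333) (B (lo110_11_2 (nat_lit 334)) (lo113_10_5 (nat_lit 397)))) (M (nat_lit 329) (B (lo113_11_3 (nat_lit 330)) (lo110_14_7 (nat_lit 361)))))))))) (M (nat_lit 461) (B (M (nat_lit 396) (B (lo112_10_4 (nat_lit 332)) (lo112_14_7 (nat_lit 331)))) (M (nat_lit 459) (B (lo113_14_3 (nat_lit 425)) (lo113_14_1 (nat_lit 489)))))))))))) (M (nat_lit 362) (B (M (nat_lit 363) (B (lo110_14_6 (nat_lit 331)) (lo110_15_6 (nat_lit 395)))) (M (nat_lit 491) (B (lo110_11_4 (nat_lit 459)) (lo110_12_4 (nat_lit 523))))))))) (B (M (nat_lit 365) (B (M (nat_lit 397) (B (lo113_10_5 (nat_lit 333)) (M (nat_lit 492) (B (lo113_11_5 (nat_lit 461)) (lo112_15_6 (nat_lit 396)))))) (B (M (nat_lit 395) (B (M (nat_lit 363) (B (lo110_15_6 (nat_lit 490)) (M (nat_lit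 331) (B (lo111_9_5 (nat_lit 299)) (lo110_14_6 (nat_lit 362)))))) (M (nat_lit 397) (B (M (nat_lit 396) (B (lo110_12_2 (nat_lit 366)) (lo112_15_6 (nat_lit 492)))) (B (M (nat_lit 492) (B (lo113_11_5 (nat_lit 461)) (lo112_15_6 (nat_lit 396)))) (B (M (nat_lit 492) (B (lo113_11_5 (nat_lit 461)) (lo112_16_6 (nat_lit 524)))) (M (nat_lit 396) (B (lo110_12_2 (nat_lit 366)) (lo113_12_1 (nat_lit 425)))))))))) (B (M (nat_lit 363) (B (M (nat_lit 395) (B (lo110_15_6 (nat_lit 490)) (M (nat_lit 331) (B (lo111_9_5 (nat_lit 299)) (lo110_14_6 (nat_lit 362)))))) (B (M (nat_lit 364) (B (M (nat_lit 395) (B (lo114_11_1 (nat_lit 366)) (lo110_15_6 (nat_lit 490)))) (M (nat_lit 396) (B (lo112_14_6 (nat_lit 333)) (lo112_14_7 (nat_lit 331)))))) (B (M (nat_lit 395) (B (lo110_15_6 (nat_lit 490)) (M (nat_lit 396) (B (lo112_15_7 (nat_lit 492)) (M (nat_lit 364) (B (lo114_11_1 (nat_lit 366)) (lo112_14_6 (nat_lit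 333)))))))) (M (nat_lit 362) (B (lo110_14_6 (nat_lit 331)) (M (nat_lit 329) (B (lo110_14_7 (nat_lit 361)) (M (nat_lit 330) (B (lo113_11_3 (nat_lit 364)) (lo110_13_7 (nat_lit 297)))))))))))) (B (M (nat_lit 397) (B (lo113_10_5 (nat_lit 333)) (M (nat_lit 492) (B (lo113_11_5 (nat_lit 461)) (lo112_16_6 (nat_lit 524)))))) (M (nat_lit 395) (B (M (nat_lit 363) (B (lo110_15_6 (nat_lit 490)) (M (nat_lit 331) (B (lo111_9_5 (nat_lit 299)) (lo110_14_6 (nat_lit 362)))))) (M (nat_lit 397) (B (lo113_10_5 (nat_lit 333)) (M (nat_lit 396) (B (lo110_12_2 (nat_lit 366)) (lo113_12_1 (nat_lit 425))))))))))))) (B (M (nat_lit 492) (B (M (nat_lit 397) (B (lo112_16_6 (nat_lit 524)) (M (nat_lit 365) (B (lo113_10_5 (nat_lit 333)) (lo113_11_5 (nat_lit 461)))))) (B (M (nat_lit 397) (B (lo112_16_6 (nat_lit 524)) (M (nat_lit 365) (B (lo113_11_5 (nat_lit 461)) (lo112_15_6 (nat_lit 396)))))) (B (M (nat_lit 523)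 (B (M (nat_lit 524) (B (lo112_16_6 (nat_lit 397)) (lo112_13_5 (nat_lit 555)))) (M (nat_lit 491) (B (lo112_12_5 (nat_lit 396)) (lo110_12_4 (nat_lit 490)))))) (B (M (nat_lit 524) (B (M (nat_lit 557) (B (lo112_13_4 (nat_lit 525)) (M (nat_lit 556) (B (lo112_17_6 (nat_lit 461)) (lo112_14_4 (nat_lit 589)))))) (M (nat_lit 523) (B (lo112_13_5 (nat_lit 555)) (M (nat_lit 491) (B (lo112_12_5 (nat_lit 396)) (lo110_12_4 (nat_lit 490)))))))) (M (nat_lit 396) (B (M (nat_lit 397) (B (lo112_15_6 (nat_lit 365)) (M (nat_lit 395) (B (lo113_12_1 (nat_lit 425)) (lo112_15_7 (nat_lit 363)))))) (B (M (nat_lit 364) (B (M (nat_lit 363) (B (lo112_14_7 (nat_lit 331)) (lo112_15_7 (nat_lit 395)))) (M (nat_lit 491) (B (lo112_11_5 (nat_lit 459)) (lo112_12_5 (nat_lit 523)))))) (M (nat_lit 364) (B (M (nat_lit 365) (B (lo112_14_6 (nat_lit 333)) (lo112_15_6 (nat_lit 397)))) (M (nat_lit 491) (B (lo112_11_5 (nat_lit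 459)) (lo112_12_5 (nat_lit 523)))))))))))))) (M (nat_lit 492) (B (M (nat_lit 397) (B (lo112_16_6 (nat_lit 524)) (M (nat_lit 365) (B (lo113_11_5 (nat_lit 461)) (lo112_15_6 (nat_lit 396)))))) (B (M (nat_lit 396) (B (M (nat_lit 363) (B (lo112_15_7 (nat_lit 395)) (M (nat_lit 331) (B (lo112_14_7 (nat_lit 364)) (lo110_14_6 (nat_lit 362)))))) (B (M (nat_lit 362) (B (M (nat_lit 363) (B (lo112_15_7 (nat_lit 395)) (lo110_14_6 (nat_lit 331)))) (M (nat_lit 491) (B (lo112_12_5 (nat_lit 523)) (lo110_11_4 (nat_lit 459)))))) (B (M (nat_lit 491) (B (lo112_12_5 (nat_lit 523)) (M (nat_lit 459) (B (lo112_11_5 (nat_lit 364)) (lo110_11_4 (nat_lit 362)))))) (M (nat_lit 364) (B (M (nat_lit 363) (B (lo112_14_7 (nat_lit 331)) (lo112_15_7 (nat_lit 395)))) (M (nat_lit 491) (B (lo112_11_5 (nat_lit 459)) (lo112_12_5 (nat_lit 523)))))))))) (M (nat_lit 397) (B (lo112_16_6 (nat_lit 524)) (M (nat_lit 365) (B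 (lo113_10_5 (nat_lit 333)) (lo113_11_5 (nat_lit 461)))))))))))))))))) (M (nat_lit 362) (B (M (nat_lit 330) (B (M (nat_lit 331) (B (lo110_13_6 (nat_lit 299)) (lo110_14_6 (nat_lit 363)))) (M (nat_lit 329) (B (lo110_13_7 (nat_lit 297)) (lo110_14_7 (nat_lit 361)))))) (B (M (nat_lit 490) (B (M (nat_lit 363) (B (lo110_14_6 (nat_lit 331)) (lo110_15_6 (nat_lit 395)))) (M (nat_lit 491) (B (lo110_11_4 (nat_lit 459)) (lo110_12_4 (nat_lit 523)))))) (M (nat_lit 457) (B (M (nat_lit 459) (B (lo19_14_2 (nat_lit 460)) (lo110_11_4 (nat_lit 491)))) (M (nat_lit 330) (B (lo110_10_5 (nat_lit 425)) (M (nat_lit 329) (B (lo110_13_7 (nat_lit 297)) (lo110_14_7 (nat_lit 361)))))))))))))))))) (M (nat_lit 458) (B (K _ _ _ o1_s37267) (B (K _ _ _ o1_s37020) (B (K _ _ _ o1_s37036) (B (K _ _ _ o1_s37219) (B (K _ _ _ o1_s37027) (K _ _ _ o1_s37008)))))))))))))))))))))) (B (M (nat_lit 427) (B (M (nat_lit 425)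 (B (M (nat_lit 397) (B (lo110_13_2 (nat_lit 398)) (lo19_13_2 (nat_lit 396)))) (M (nat_lit 393) (B (lo113_13_3 (nat_lit 394)) (lo112_13_3 (nat_lit 392)))))) (B (M (nat_lit 425) (B (M (nat_lit 461) (B (lo110_13_0 (nat_lit 462)) (lo19_13_0 (nat_lit 460)))) (M (nat_lit 457) (B (lo113_13_1 (nat_lit 458)) (lo112_13_1 (nat_lit 456)))))) (M (nat_lit 397) (B (lo110_13_2 (nat_lit 398)) (K _ _ _ o1_s38469)))))) (B (M (nat_lit 397) (B (M (nat_lit 427) (B (lo110_13_2 (nat_lit 398)) (M (nat_lit 425) (B (lo19_13_2 (nat_lit 396)) (M (nat_lit 461) (B (lo110_13_0 (nat_lit 462)) (lo19_13_0 (nat_lit 460)))))))) (B (M (nat_lit 460) (B (M (nat_lit 492) (B (lo112_16_6 (nat_lit 524)) (M (nat_lit 365) (B (lo113_10_5 (nat_lit 333)) (lo112_15_6 (nat_lit 396)))))) (B (M (nat_lit 492) (B (lo112_16_6 (nat_lit 524)) (M (nat_lit 365) (B (lo113_11_5 (nat_lit 461)) (lo112_15_6 (nat_lit 396)))))) (B (M (nat_lit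 492) (B (lo112_16_6 (nat_lit 524)) (M (nat_lit 461) (B (M (nat_lit 427) (B (lo110_13_0 (nat_lit 462)) (lo19_13_0 (nat_lit 425)))) (B (M (nat_lit 458) (B (M (nat_lit 427) (B (lo113_13_1 (nat_lit 457)) (lo19_13_0 (nat_lit 425)))) (B (M (nat_lit 459) (B (lo19_14_2 (nat_lit 457)) (lo113_14_3 (nat_lit 425)))) (B (M (nat_lit 457) (B (lo19_14_2 (nat_lit 459)) (lo113_13_1 (nat_lit 427)))) (M (nat_lit 425) (B (lo19_13_0 (nat_lit 427)) (lo113_14_3 (nat_lit 459)))))))) (B (M (nat_lit 459) (B (M (nat_lit 458) (B (lo19_14_2 (nat_lit 457)) (lo113_14_3 (nat_lit 425)))) (M (nat_lit 491) (B (M (nat_lit 490) (B (lo114_14_1 (nat_lit 462)) (lo19_15_2 (nat_lit 489)))) (M (nat_lit 523) (B (lo112_12_5 (nat_lit 396)) (lo111_17_6 (nat_lit 555)))))))) (M (nat_lit 462) (B (lo110_13_0 (nat_lit 427)) (M (nat_lit 463) (B (lo116_14_3 (nat_lit 464)) (lo115_14_1 (nat_lit 491)))))))))))) (B (M (nat_lit 365)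 (B (lo113_10_5 (nat_lit 333)) (M (nat_lit 492) (B (lo113_11_5 (nat_lit 461)) (lo112_16_6 (nat_lit 524)))))) (M (nat_lit 461) (B (M (nat_lit 427) (B (lo110_13_0 (nat_lit 462)) (lo19_13_0 (nat_lit 425)))) (B (M (nat_lit 458) (B (M (nat_lit 427) (B (lo113_13_1 (nat_lit 457)) (lo19_13_0 (nat_lit 425)))) (B (M (nat_lit 459) (B (lo19_14_2 (nat_lit 457)) (lo113_14_3 (nat_lit 425)))) (B (M (nat_lit 457) (B (lo19_14_2 (nat_lit 459)) (lo113_13_1 (nat_lit 427)))) (M (nat_lit 425) (B (lo19_13_0 (nat_lit 427)) (lo113_14_3 (nat_lit 459)))))))) (B (M (nat_lit 459) (B (M (nat_lit 458) (B (lo19_14_2 (nat_lit 457)) (lo113_14_3 (nat_lit 425)))) (M (nat_lit 462) (B (M (nat_lit 494) (B (lo111_14_0 (nat_lit 495)) (lo113_11_4 (nat_lit 365)))) (B (M (nat_lit 365) (B (lo113_11_4 (nat_lit 494)) (lo113_10_5 (nat_lit 333)))) (B (M (nat_lit 364) (B (M (nat_lit 365) (B (lo113_10_5 (nat_lit 333)) (lo113_14_7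 (nat_lit 332)))) (B (M (nat_lit 332) (B (lo113_14_7 (nat_lit 365)) (lo112_10_4 (nat_lit 396)))) (B (M (nat_lit 396) (B (lo112_10_4 (nat_lit 332)) (lo112_11_5 (nat_lit 491)))) (M (nat_lit 491) (B (lo114_14_1 (nat_lit 490)) (lo112_11_5 (nat_lit 396)))))))) (M (nat_lit 463) (B (lo116_14_3 (nat_lit 464)) (M (nat_lit 495) (B (lo112_14_0 (nat_lit 496)) (lo111_14_0 (nat_lit 494)))))))))))) (M (nat_lit 365) (B (lo113_10_5 (nat_lit 333)) (M (nat_lit 462) (B (lo113_11_4 (nat_lit 494)) (lo110_13_0 (nat_lit 427))))))))))))))) (B (M (nat_lit 427) (B (lo110_13_2 (nat_lit 398)) (M (nat_lit 425) (B (lo19_13_2 (nat_lit 396)) (M (nat_lit 457) (B (lo113_13_1 (nat_lit 458)) (lo112_13_1 (nat_lit 456)))))))) (B (K _ _ _ o1_s36757) (K _ _ _ o1_s36859)))))) (B (M (nat_lit 397) (B (M (nat_lit 427) (B (lo110_13_2 (nat_lit 398)) (M (nat_lit 425) (B (lo19_13_2 (nat_lit 396)) (M (nat_lit 461) (B (lo110_13_0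 (nat_lit 462)) (lo19_13_0 (nat_lit 460)))))))) (B (M (nat_lit 365) (B (M (nat_lit 460) (B (lo113_10_5 (nat_lit 333)) (M (nat_lit 492) (B (lo113_11_5 (nat_lit 461)) (lo112_16_6 (nat_lit 524)))))) (B (M (nat_lit 364) (B (M (nat_lit 332) (B (lo113_14_7 (nat_lit 461)) (M (nat_lit 300) (B (lo112_8_4 (nat_lit 268)) (lo112_9_4 (nat_lit 396)))))) (B (M (nat_lit 396) (B (M (nat_lit 332) (B (lo112_9_4 (nat_lit 300)) (M (nat_lit 427) (B (lo19_13_2 (nat_lit 425)) (lo112_10_5 (nat_lit 459)))))) (B (M (nat_lit 394) (B (M (nat_lit 395) (B (lo110_12_2 (nat_lit 366)) (lo19_12_2 (nat_lit 393)))) (B (M (nat_lit 395) (B (lo19_12_2 (nat_lit 393)) (lo113_12_1 (nat_lit 425)))) (B (M (nat_lit 427) (B (lo19_13_2 (nat_lit 425)) (lo113_13_3 (nat_lit 393)))) (M (nat_lit 425) (B (lo19_13_2 (nat_lit 427)) (lo113_12_1 (nat_lit 395)))))))) (M (nat_lit 460) (B (lo112_15_6 (nat_lit 492)) (M (nat_lit 332) (B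 (lo112_9_4 (nat_lit 300)) (M (nat_lit 331) (B (lo112_13_7 (nat_lit 299)) (lo112_14_7 (nat_lit 363))))))))))) (B (M (nat_lit 461) (B (lo113_14_7 (nat_lit 332)) (M (nat_lit 462) (B (lo113_11_4 (nat_lit 494)) (lo110_13_0 (nat_lit 427)))))) (M (nat_lit 427) (B (M (nat_lit 461) (B (lo110_13_0 (nat_lit 462)) (M (nat_lit 425) (B (lo19_13_2 (nat_lit 396)) (lo19_13_0 (nat_lit 460)))))) (B (M (nat_lit 425) (B (lo19_13_2 (nat_lit 396)) (M (nat_lit 393) (B (lo113_13_3 (nat_lit 394)) (lo112_13_3 (nat_lit 392)))))) (B (M (nat_lit 461) (B (lo110_13_0 (nat_lit 462)) (M (nat_lit 460) (B (lo113_11_5 (nat_lit 492)) (lo19_13_0 (nat_lit 425)))))) (M (nat_lit 394) (B (lo113_13_3 (nat_lit 393)) (M (nat_lit 366) (B (M (nat_lit 461) (B (lo113_14_6 (nat_lit 334)) (lo110_13_0 (nat_lit 462)))) (M (nat_lit 395) (B (lo110_12_2 (nat_lit 396)) (lo114_11_1 (nat_lit 363)))))))))))))))) (B (M (nat_lit 460) (B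 (lo113_10_5 (nat_lit 333)) (M (nat_lit 492) (B (lo112_15_6 (nat_lit 396)) (lo112_16_6 (nat_lit 524)))))) (K _ _ _ o1_s36858))))) (B (M (nat_lit 427) (B (lo110_13_2 (nat_lit 398)) (M (nat_lit 425) (B (lo19_13_2 (nat_lit 396)) (M (nat_lit 393) (B (lo113_13_3 (nat_lit 394)) (lo112_13_3 (nat_lit 392)))))))) (B (M (nat_lit 427) (B (lo110_13_2 (nat_lit 398)) (M (nat_lit 425) (B (M (nat_lit 461) (B (lo110_13_0 (nat_lit 462)) (lo19_13_0 (nat_lit 460)))) (M (nat_lit 393) (B (lo113_13_3 (nat_lit 394)) (lo112_13_3 (nat_lit 392)))))))) (K _ _ _ o1_s38623)))))) (M (nat_lit 397) (B (M (nat_lit 365) (B (M (nat_lit 460) (B (lo113_10_5 (nat_lit 333)) (M (nat_lit 492) (B (lo113_11_5 (nat_lit 461)) (lo112_16_6 (nat_lit 524)))))) (B (M (nat_lit 364) (B (M (nat_lit 332) (B (lo113_14_7 (nat_lit 461)) (M (nat_lit 300) (B (lo112_8_4 (nat_lit 268)) (lo112_9_4 (nat_lit 396)))))) (M (nat_lit 398) (B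 (lo110_13_2 (nat_lit 427)) (M (nat_lit 399) (B (lo116_12_3 (nat_lit 400)) (M (nat_lit 363) (B (lo111_11_0 (nat_lit 366)) (lo110_11_0 (nat_lit 362)))))))))) (M (nat_lit 460) (B (lo113_10_5 (nat_lit 333)) (M (nat_lit 492) (B (lo112_15_6 (nat_lit 396)) (lo112_16_6 (nat_lit 524))))))))) (B (M (nat_lit 365) (B (M (nat_lit 460) (B (lo113_10_5 (nat_lit 333)) (M (nat_lit 492) (B (lo112_15_6 (nat_lit 396)) (lo112_16_6 (nat_lit 524)))))) (B (M (nat_lit 364) (B (M (nat_lit 332) (B (lo113_14_7 (nat_lit 461)) (M (nat_lit 300) (B (lo112_8_4 (nat_lit 268)) (lo112_9_4 (nat_lit 396)))))) (B (M (nat_lit 398) (B (lo110_13_2 (nat_lit 427)) (M (nat_lit 363) (B (lo110_11_0 (nat_lit 362)) (M (nat_lit 399) (B (lo111_11_0 (nat_lit 366)) (lo115_12_3 (nat_lit 396)))))))) (M (nat_lit 461) (B (lo113_14_7 (nat_lit 332)) (M (nat_lit 427) (B (lo110_13_2 (nat_lit 398)) (lo110_13_0 (nat_lit 462))))))))) (M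 (nat_lit 460) (B (lo113_10_5 (nat_lit 333)) (M (nat_lit 492) (B (lo113_11_5 (nat_lit 461)) (lo112_16_6 (nat_lit 524))))))))) (B (M (nat_lit 427) (B (lo110_13_2 (nat_lit 398)) (K _ _ _ o1_s38469))) (B (M (nat_lit 365) (B (M (nat_lit 460) (B (lo113_10_5 (nat_lit 333)) (M (nat_lit 492) (B (lo113_11_5 (nat_lit 461)) (lo112_16_6 (nat_lit 524)))))) (B (M (nat_lit 364) (B (M (nat_lit 461) (B (lo113_14_7 (nat_lit 332)) (M (nat_lit 427) (B (lo110_13_2 (nat_lit 398)) (lo110_13_0 (nat_lit 462)))))) (B (M (nat_lit 461) (B (lo113_14_7 (nat_lit 332)) (M (nat_lit 462) (B (lo113_11_4 (nat_lit 494)) (lo110_13_0 (nat_lit 427)))))) (B (M (nat_lit 398) (B (lo110_13_2 (nat_lit 427)) (M (nat_lit 363) (B (lo110_11_0 (nat_lit 362)) (M (nat_lit 399) (B (lo116_12_3 (nat_lit 400)) (lo115_12_3 (nat_lit 396)))))))) (M (nat_lit 396) (B (M (nat_lit 332) (B (lo113_14_7 (nat_lit 461)) (lo112_9_4 (nat_lit 300))))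 (M (nat_lit 363) (B (M (nat_lit 362) (B (lo110_11_0 (nat_lit 398)) (lo19_11_0 (nat_lit 361)))) (M (nat_lit 460) (B (lo112_15_6 (nat_lit 492)) (lo112_14_7 (nat_lit 331)))))))))))) (B (M (nat_lit 460) (B (lo113_10_5 (nat_lit 333)) (M (nat_lit 492) (B (lo112_15_6 (nat_lit 396)) (lo112_16_6 (nat_lit 524)))))) (M (nat_lit 333) (B (M (nat_lit 301) (B (lo113_9_5 (nat_lit 396)) (M (nat_lit 302) (B (lo113_12_6 (nat_lit 270)) (lo113_13_6 (nat_lit 334)))))) (M (nat_lit 461) (B (M (nat_lit 462) (B (lo113_11_4 (nat_lit 494)) (lo110_13_0 (nat_lit 427)))) (M (nat_lit 332) (B (lo113_13_7 (nat_lit 300)) (lo113_14_7 (nat_lit 364)))))))))))) (B (M (nat_lit 394) (B (M (nat_lit 458) (B (M (nat_lit 427) (B (lo113_13_3 (nat_lit 393)) (lo113_13_1 (nat_lit 457)))) (B (K _ _ _ o1_s38679) (M (nat_lit 457) (B (lo113_13_1 (nat_lit 427)) (M (nat_lit 362) (B (lo110_11_5 (nat_lit 489)) (M (nat_lit 459) (B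 (lo19_14_2 (nat_lit 460)) (lo110_11_4 (nat_lit 491))))))))))) (B (M (nat_lit 458) (B (M (nat_lit 427) (B (lo113_13_3 (nat_lit 393)) (lo113_13_1 (nat_lit 457)))) (B (M (nat_lit 362) (B (M (nat_lit 457) (B (lo110_11_5 (nat_lit 489)) (M (nat_lit 459) (B (lo19_14_2 (nat_lit 460)) (lo110_11_4 (nat_lit 491)))))) (M (nat_lit 490) (B (M (nat_lit 363) (B (lo110_14_6 (nat_lit 331)) (lo110_15_6 (nat_lit 395)))) (M (nat_lit 361) (B (lo110_14_7 (nat_lit 329)) (lo110_15_7 (nat_lit 393)))))))) (B (M (nat_lit 457) (B (lo113_13_1 (nat_lit 427)) (M (nat_lit 362) (B (lo110_11_5 (nat_lit 489)) (M (nat_lit 459) (B (lo19_14_2 (nat_lit 460)) (lo110_11_4 (nat_lit 491)))))))) (M (nat_lit 362) (B (M (nat_lit 427) (B (lo113_13_3 (nat_lit 393)) (M (nat_lit 459) (B (lo110_10_4 (nat_lit 330)) (lo110_11_4 (nat_lit 491)))))) (B (M (nat_lit 490) (B (M (nat_lit 363) (B (lo110_14_6 (nat_lit 331)) (lo110_15_6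 (nat_lit 395)))) (M (nat_lit 361) (B (lo110_14_7 (nat_lit 329)) (lo110_15_7 (nat_lit 393)))))) (M (nat_lit 330) (B (M (nat_lit 331) (B (lo110_13_6 (nat_lit 299)) (lo110_14_6 (nat_lit 363)))) (M (nat_lit 459) (B (lo110_10_4 (nat_lit 427)) (lo110_11_4 (nat_lit 491))))))))))))) (B (M (nat_lit 458) (B (M (nat_lit 427) (B (lo113_13_3 (nat_lit 393)) (lo113_13_1 (nat_lit 457)))) (B (K _ _ _ o1_s38679) (M (nat_lit 362) (B (M (nat_lit 457) (B (lo113_13_1 (nat_lit 427)) (lo110_11_5 (nat_lit 489)))) (B (M (nat_lit 490) (B (M (nat_lit 363) (B (lo110_14_6 (nat_lit 331)) (lo110_15_6 (nat_lit 395)))) (M (nat_lit 489) (B (lo110_11_5 (nat_lit 457)) (lo110_12_5 (nat_lit 521)))))) (M (nat_lit 330) (B (M (nat_lit 331) (B (lo110_13_6 (nat_lit 299)) (lo110_14_6 (nat_lit 363)))) (M (nat_lit 459) (B (lo110_10_4 (nat_lit 427)) (lo110_11_4 (nat_lit 491)))))))))))) (B (M (nat_lit 458) (B (M (nat_lit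 427) (B (lo113_13_3 (nat_lit 393)) (lo113_13_1 (nat_lit 457)))) (B (K _ _ _ o1_s38715) (B (M (nat_lit 457) (B (lo113_13_1 (nat_lit 427)) (M (nat_lit 362) (B (lo110_11_5 (nat_lit 489)) (M (nat_lit 459) (B (lo19_14_2 (nat_lit 460)) (lo110_11_4 (nat_lit 491)))))))) (M (nat_lit 393) (B (lo113_13_3 (nat_lit 427)) (M (nat_lit 490) (B (lo110_15_7 (nat_lit 361)) (M (nat_lit 395) (B (lo19_12_0 (nat_lit 396)) (lo110_15_6 (nat_lit 363)))))))))))) (B (M (nat_lit 458) (B (M (nat_lit 427) (B (lo113_13_3 (nat_lit 393)) (lo113_13_1 (nat_lit 457)))) (B (K _ _ _ o1_s38715) (B (M (nat_lit 457) (B (lo113_13_1 (nat_lit 427)) (M (nat_lit 362) (B (lo110_11_5 (nat_lit 489)) (M (nat_lit 459) (B (lo19_14_2 (nat_lit 460)) (lo110_11_4 (nat_lit 491)))))))) (M (nat_lit 393) (B (lo113_13_3 (nat_lit 427)) (M (nat_lit 361) (B (lo110_15_7 (nat_lit 490)) (M (nat_lit 329) (B (lo110_14_7 (nat_lit 362)) (lo19_9_4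 (nat_lit 297)))))))))))) (B (M (nat_lit 396) (B (M (nat_lit 395) (B (lo19_12_0 (nat_lit 393)) (M (nat_lit 365) (B (lo110_12_2 (nat_lit 366)) (M (nat_lit 460) (B (lo113_10_5 (nat_lit 333)) (lo112_15_6 (nat_lit 492)))))))) (B (M (nat_lit 365) (B (M (nat_lit 333) (B (lo113_9_5 (nat_lit 301)) (lo113_10_5 (nat_lit 460)))) (K _ _ _ o1_s38741))) (B (M (nat_lit 364) (B (M (nat_lit 332) (B (lo112_9_4 (nat_lit 300)) (lo112_10_4 (nat_lit 461)))) (M (nat_lit 363) (B (M (nat_lit 395) (B (lo19_12_0 (nat_lit 393)) (M (nat_lit 460) (B (lo112_14_7 (nat_lit 331)) (lo112_15_7 (nat_lit 492)))))) (B (M (nat_lit 362) (B (lo19_11_0 (nat_lit 361)) (M (nat_lit 393) (B (lo113_11_1 (nat_lit 365)) (lo19_12_0 (nat_lit 395)))))) (M (nat_lit 460) (B (lo112_14_7 (nat_lit 331)) (M (nat_lit 492) (B (lo112_15_6 (nat_lit 365)) (lo112_16_6 (nat_lit 524))))))))))) (B (M (nat_lit 458) (B (M (nat_lit 395) (B (lo19_12_0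 (nat_lit 393)) (M (nat_lit 363) (B (lo110_15_6 (nat_lit 490)) (M (nat_lit 362) (B (lo113_12_3 (nat_lit 361)) (lo110_14_6 (nat_lit 331)))))))) (B (M (nat_lit 362) (B (M (nat_lit 361) (B (lo113_12_3 (nat_lit 395)) (lo110_14_7 (nat_lit 329)))) (M (nat_lit 459) (B (lo110_11_4 (nat_lit 491)) (M (nat_lit 457) (B (lo19_14_2 (nat_lit 460)) (lo110_11_5 (nat_lit 489)))))))) (B (M (nat_lit 362) (B (M (nat_lit 459) (B (lo110_11_4 (nat_lit 491)) (M (nat_lit 457) (B (lo19_14_2 (nat_lit 460)) (lo110_11_5 (nat_lit 489)))))) (M (nat_lit 361) (B (lo110_14_7 (nat_lit 329)) (M (nat_lit 363) (B (lo19_11_0 (nat_lit 364)) (lo110_14_6 (nat_lit 331)))))))) (M (nat_lit 460) (B (M (nat_lit 492) (B (lo112_16_6 (nat_lit 524)) (M (nat_lit 395) (B (lo19_12_0 (nat_lit 393)) (lo112_15_7 (nat_lit 363)))))) (M (nat_lit 364) (B (M (nat_lit 332) (B (lo112_9_4 (nat_lit 300)) (lo112_10_4 (nat_lit 461)))) (M (nat_lit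 459) (B (lo19_14_2 (nat_lit 457)) (lo112_11_5 (nat_lit 491)))))))))))) (B (M (nat_lit 365) (B (M (nat_lit 395) (B (lo110_12_2 (nat_lit 366)) (lo19_12_0 (nat_lit 393)))) (B (K _ _ _ o1_s38741) (K _ _ _ o1_s37911)))) (B (M (nat_lit 365) (B (M (nat_lit 333) (B (lo113_9_5 (nat_lit 301)) (lo113_10_5 (nat_lit 460)))) (B (M (nat_lit 460) (B (lo113_10_5 (nat_lit 333)) (lo112_15_6 (nat_lit 492)))) (B (M (nat_lit 364) (B (M (nat_lit 332) (B (lo113_14_7 (nat_lit 461)) (lo112_9_4 (nat_lit 300)))) (M (nat_lit 363) (B (M (nat_lit 362) (B (lo113_11_1 (nat_lit 393)) (lo19_11_0 (nat_lit 361)))) (M (nat_lit 460) (B (lo112_15_6 (nat_lit 492)) (lo112_14_7 (nat_lit 331)))))))) (K _ _ _ o1_s37911))))) (M (nat_lit 362) (B (M (nat_lit 395) (B (lo113_12_3 (nat_lit 361)) (M (nat_lit 365) (B (lo110_12_2 (nat_lit 366)) (M (nat_lit 333) (B (lo113_9_5 (nat_lit 301)) (lo113_10_5 (nat_lit 460)))))))) (B (M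 (nat_lit 364) (B (M (nat_lit 361) (B (lo19_11_0 (nat_lit 363)) (lo113_12_3 (nat_lit 395)))) (M (nat_lit 332) (B (lo112_9_4 (nat_lit 300)) (lo112_10_4 (nat_lit 461)))))) (B (M (nat_lit 364) (B (M (nat_lit 332) (B (lo112_9_4 (nat_lit 300)) (lo112_10_4 (nat_lit 461)))) (M (nat_lit 460) (B (M (nat_lit 365) (B (lo113_10_5 (nat_lit 333)) (lo112_15_6 (nat_lit 492)))) (M (nat_lit 363) (B (lo19_11_0 (nat_lit 361)) (lo112_14_7 (nat_lit 331)))))))) (M (nat_lit 458) (B (M (nat_lit 459) (B (lo110_11_4 (nat_lit 491)) (M (nat_lit 457) (B (lo19_14_2 (nat_lit 460)) (lo110_11_5 (nat_lit 489)))))) (B (M (nat_lit 490) (B (M (nat_lit 363) (B (lo110_14_6 (nat_lit 331)) (lo110_15_6 (nat_lit 395)))) (M (nat_lit 489) (B (lo110_11_5 (nat_lit 457)) (lo110_12_5 (nat_lit 521)))))) (M (nat_lit 490) (B (M (nat_lit 363) (B (lo110_14_6 (nat_lit 331)) (lo110_15_6 (nat_lit 395)))) (M (nat_lit 491) (B (lo110_11_4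 (nat_lit 459)) (lo110_12_4 (nat_lit 523)))))))))))))))))))) (B (M (nat_lit 395) (B (M (nat_lit 393) (B (lo19_12_0 (nat_lit 396)) (lo113_13_3 (nat_lit 427)))) (B (M (nat_lit 427) (B (lo113_13_3 (nat_lit 393)) (M (nat_lit 458) (B (lo113_13_1 (nat_lit 457)) (M (nat_lit 363) (B (lo111_10_5 (nat_lit 331)) (lo110_15_6 (nat_lit 490)))))))) (B (M (nat_lit 396) (B (lo19_12_0 (nat_lit 393)) (M (nat_lit 365) (B (lo110_12_2 (nat_lit 366)) (M (nat_lit 460) (B (lo113_10_5 (nat_lit 333)) (lo112_15_6 (nat_lit 492)))))))) (M (nat_lit 365) (B (M (nat_lit 460) (B (lo113_10_5 (nat_lit 333)) (M (nat_lit 492) (B (lo113_11_5 (nat_lit 461)) (lo112_16_6 (nat_lit 524)))))) (B (M (nat_lit 461) (B (M (nat_lit 366) (B (lo113_14_6 (nat_lit 334)) (lo110_12_2 (nat_lit 396)))) (M (nat_lit 462) (B (lo113_11_4 (nat_lit 494)) (lo110_13_0 (nat_lit 427)))))) (M (nat_lit 396) (B (lo110_12_2 (nat_lit 366)) (M (nat_lit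 333) (B (lo113_9_5 (nat_lit 301)) (lo113_10_5 (nat_lit 460))))))))))))) (M (nat_lit 365) (B (M (nat_lit 460) (B (lo113_10_5 (nat_lit 333)) (M (nat_lit 492) (B (lo113_11_5 (nat_lit 461)) (lo112_16_6 (nat_lit 524)))))) (B (M (nat_lit 461) (B (M (nat_lit 462) (B (lo113_11_4 (nat_lit 494)) (lo110_13_0 (nat_lit 427)))) (M (nat_lit 364) (B (lo113_14_7 (nat_lit 332)) (M (nat_lit 366) (B (lo113_14_6 (nat_lit 334)) (M (nat_lit 395) (B (lo110_12_2 (nat_lit 396)) (lo114_11_1 (nat_lit 363)))))))))) (M (nat_lit 460) (B (lo113_10_5 (nat_lit 333)) (M (nat_lit 492) (B (lo112_15_6 (nat_lit 396)) (lo112_16_6 (nat_lit 524))))))))))))))))) (B (M (nat_lit 427) (B (lo110_13_2 (nat_lit 398)) (M (nat_lit 394) (B (lo113_13_3 (nat_lit 393)) (M (nat_lit 458) (B (lo113_13_1 (nat_lit 457)) (M (nat_lit 395) (B (M (nat_lit 363) (B (lo111_10_5 (nat_lit 331)) (lo110_15_6 (nat_lit 490)))) (M (nat_lit 362) (B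 (M (nat_lit 459) (B (lo111_15_7 (nat_lit 491)) (lo110_10_4 (nat_lit 330)))) (M (nat_lit 361) (B (lo113_12_3 (nat_lit 396)) (lo110_14_7 (nat_lit 329)))))))))))))) (B (M (nat_lit 427) (B (lo110_13_2 (nat_lit 398)) (M (nat_lit 458) (B (lo113_13_1 (nat_lit 457)) (M (nat_lit 394) (B (lo113_13_3 (nat_lit 393)) (M (nat_lit 490) (B (M (nat_lit 395) (B (lo110_15_6 (nat_lit 363)) (lo110_16_6 (nat_lit 522)))) (B (M (nat_lit 523) (B (lo110_12_4 (nat_lit 491)) (M (nat_lit 522) (B (lo110_16_6 (nat_lit 395)) (lo110_13_4 (nat_lit 555)))))) (B (M (nat_lit 522) (B (M (nat_lit 523) (B (lo110_12_4 (nat_lit 491)) (lo110_13_4 (nat_lit 555)))) (M (nat_lit 521) (B (lo110_12_5 (nat_lit 489)) (lo110_13_5 (nat_lit 553)))))) (M (nat_lit 362) (B (M (nat_lit 363) (B (lo110_14_6 (nat_lit 331)) (lo110_15_6 (nat_lit 395)))) (M (nat_lit 491) (B (lo110_11_4 (nat_lit 459)) (lo110_12_4 (nat_lit 523))))))))))))))))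 (B (M (nat_lit 427) (B (lo110_13_2 (nat_lit 398)) (M (nat_lit 460) (B (M (nat_lit 461) (B (lo110_13_0 (nat_lit 462)) (M (nat_lit 365) (B (lo113_10_5 (nat_lit 333)) (lo113_11_5 (nat_lit 492)))))) (B (M (nat_lit 492) (B (lo112_16_6 (nat_lit 524)) (M (nat_lit 365) (B (lo113_10_5 (nat_lit 333)) (lo112_15_6 (nat_lit 396)))))) (B (M (nat_lit 492) (B (lo112_16_6 (nat_lit 524)) (M (nat_lit 365) (B (lo113_11_5 (nat_lit 461)) (lo112_15_6 (nat_lit 396)))))) (M (nat_lit 459) (B (M (nat_lit 394) (B (lo113_13_3 (nat_lit 393)) (M (nat_lit 491) (B (lo111_16_7 (nat_lit 523)) (M (nat_lit 362) (B (lo111_15_7 (nat_lit 395)) (lo110_10_4 (nat_lit 330)))))))) (B (M (nat_lit 458) (B (lo19_14_2 (nat_lit 457)) (M (nat_lit 394) (B (lo113_13_3 (nat_lit 393)) (M (nat_lit 491) (B (lo111_16_7 (nat_lit 523)) (lo110_11_4 (nat_lit 362)))))))) (M (nat_lit 458) (B (lo19_14_2 (nat_lit 457)) (M (nat_lit 490) (B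 (M (nat_lit 461) (B (lo110_13_0 (nat_lit 462)) (lo113_14_1 (nat_lit 489)))) (M (nat_lit 522) (B (lo110_16_6 (nat_lit 395)) (lo110_17_6 (nat_lit 554))))))))))))))))) (K _ _ _ o1_s38623))))))))))))))))))))) _ _ _ (by decide +kernel)
theorem o1_s40934 : Sem (nat_lit 2079502270590611144683810638107312777577327806531862431377859685460965980854219217279980804578104683573043408221052678871730618368) (nat_lit 543885308569997656305619107715943007557126650721409253290900846878082084293788035043491669055193955963548421539662607433460242296622971968293277729686052883729016060121101170498288484352) (nat_lit 543885308569997656305619107715943007557126650721409253290900846878082084293788035043491669055193955963548421539662607433460242296622971968293277729686052883729016060121101170498288484352) := sem_of_chk (M (nat_lit 460) (B (M (nat_lit 492) (B (M (nat_lit 397) (B (lo112_16_6 (nat_lit 524))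 (M (nat_lit 365) (B (lo112_15_6 (nat_lit 396)) (lo113_10_5 (nat_lit 333)))))) (B (M (nat_lit 493) (B (M (nat_lit 525) (B (lo112_12_4 (nat_lit 396)) (M (nat_lit 557) (B (lo113_18_7 (nat_lit 589)) (lo113_17_7 (nat_lit 461)))))) (B (M (nat_lit 494) (B (M (nat_lit 459) (B (lo115_15_3 (nat_lit 495)) (M (nat_lit 458) (B (lo19_14_0 (nat_lit 457)) (lo110_14_0 (nat_lit 461)))))) (B (M (nat_lit 459) (B (lo115_15_3 (nat_lit 495)) (M (nat_lit 458) (B (lo114_15_3 (nat_lit 491)) (lo110_14_0 (nat_lit 461)))))) (B (M (nat_lit 461) (B (M (nat_lit 495) (B (lo115_15_3 (nat_lit 459)) (lo116_15_3 (nat_lit 496)))) (M (nat_lit 397) (B (lo113_11_5 (nat_lit 365)) (lo113_12_4 (nat_lit 526)))))) (B (K _ _ _ o1_s26529) (B (M (nat_lit 459) (B (lo115_15_3 (nat_lit 495)) (M (nat_lit 458) (B (lo19_14_0 (nat_lit 457)) (lo114_15_3 (nat_lit 491)))))) (M (nat_lit 491) (B (M (nat_lit 459) (B (lo114_15_3 (nat_lit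 458)) (M (nat_lit 523) (B (lo114_15_1 (nat_lit 522)) (lo111_17_6 (nat_lit 555)))))) (M (nat_lit 461) (B (M (nat_lit 490) (B (lo19_15_2 (nat_lit 489)) (lo110_15_2 (nat_lit 462)))) (M (nat_lit 526) (B (lo111_15_0 (nat_lit 527)) (lo113_12_4 (nat_lit 397)))))))))))))) (K _ _ _ o1_s38963)))) (B (M (nat_lit 397) (B (lo112_16_6 (nat_lit 524)) (M (nat_lit 365) (B (lo113_11_5 (nat_lit 461)) (lo113_10_5 (nat_lit 333)))))) (K _ _ _ o1_s26263))))) (B (M (nat_lit 461) (B (M (nat_lit 492) (B (M (nat_lit 524) (B (lo112_17_6 (nat_lit 556)) (lo112_16_6 (nat_lit 397)))) (B (M (nat_lit 397) (B (lo112_16_6 (nat_lit 524)) (lo113_11_5 (nat_lit 365)))) (B (K _ _ _ o1_s38979) (M (nat_lit 427) (B (M (nat_lit 426) (B (lo19_13_0 (nat_lit 425)) (lo110_13_0 (nat_lit 462)))) (M (nat_lit 524) (B (lo112_16_7 (nat_lit 395)) (lo112_17_6 (nat_lit 556)))))))))) (B (M (nat_lit 492) (B (M (nat_lit 524) (B (lo112_17_6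 (nat_lit 556)) (lo112_16_6 (nat_lit 397)))) (B (M (nat_lit 397) (B (lo112_16_6 (nat_lit 524)) (lo113_11_5 (nat_lit 365)))) (B (K _ _ _ o1_s38979) (M (nat_lit 427) (B (M (nat_lit 524) (B (lo112_16_7 (nat_lit 395)) (lo112_17_6 (nat_lit 556)))) (M (nat_lit 462) (B (lo110_13_0 (nat_lit 426)) (lo115_14_3 (nat_lit 463)))))))))) (B (M (nat_lit 492) (B (M (nat_lit 524) (B (lo112_17_6 (nat_lit 556)) (lo112_16_6 (nat_lit 397)))) (B (M (nat_lit 397) (B (lo112_16_6 (nat_lit 524)) (lo113_11_5 (nat_lit 365)))) (K _ _ _ o1_s38990)))) (B (K _ _ _ o1_s39019) (B (M (nat_lit 462) (B (M (nat_lit 463) (B (lo115_14_3 (nat_lit 427)) (lo116_14_3 (nat_lit 464)))) (M (nat_lit 493) (B (M (nat_lit 525) (B (lo113_17_7 (nat_lit 557)) (lo113_16_7 (nat_lit 396)))) (M (nat_lit 494) (B (M (nat_lit 459) (B (lo110_14_0 (nat_lit 458)) (lo111_14_0 (nat_lit 495)))) (M (nat_lit 397) (B (lo113_12_4 (nat_lit 526))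 (lo113_11_4 (nat_lit 365)))))))))) (B (K _ _ _ o1_s39057) (B (M (nat_lit 462) (B (M (nat_lit 427) (B (lo110_13_0 (nat_lit 426)) (lo115_14_3 (nat_lit 463)))) (B (M (nat_lit 463) (B (lo115_14_3 (nat_lit 427)) (lo116_14_3 (nat_lit 464)))) (B (M (nat_lit 492) (B (M (nat_lit 463) (B (lo115_14_1 (nat_lit 491)) (lo116_14_3 (nat_lit 464)))) (M (nat_lit 397) (B (lo112_16_6 (nat_lit 524)) (lo113_11_5 (nat_lit 365)))))) (M (nat_lit 492) (B (M (nat_lit 524) (B (lo112_17_6 (nat_lit 556)) (lo112_16_6 (nat_lit 397)))) (B (M (nat_lit 397) (B (lo112_16_6 (nat_lit 524)) (lo113_11_5 (nat_lit 365)))) (K _ _ _ o1_s39071)))))))) (B (M (nat_lit 492) (B (M (nat_lit 427) (B (M (nat_lit 426) (B (lo19_13_0 (nat_lit 425)) (lo110_13_0 (nat_lit 462)))) (M (nat_lit 524) (B (lo112_16_7 (nat_lit 395)) (lo112_17_6 (nat_lit 556)))))) (B (M (nat_lit 427) (B (M (nat_lit 524) (B (lo112_16_7 (nat_lit 395)) (lo112_17_6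 (nat_lit 556)))) (M (nat_lit 462) (B (lo110_13_0 (nat_lit 426)) (lo115_14_3 (nat_lit 463)))))) (B (K _ _ _ o1_s39081) (K _ _ _ o1_s38990))))) (M (nat_lit 492) (B (M (nat_lit 524) (B (lo112_17_6 (nat_lit 556)) (lo112_16_6 (nat_lit 397)))) (B (M (nat_lit 397) (B (lo112_16_6 (nat_lit 524)) (lo113_11_5 (nat_lit 365)))) (B (K _ _ _ o1_s38979) (K _ _ _ o1_s39081)))))))))))))) (B (M (nat_lit 492) (B (M (nat_lit 397) (B (lo112_16_6 (nat_lit 524)) (M (nat_lit 365) (B (lo113_11_5 (nat_lit 461)) (lo113_10_5 (nat_lit 333)))))) (B (M (nat_lit 493) (B (M (nat_lit 525) (B (lo112_12_4 (nat_lit 396)) (M (nat_lit 557) (B (lo113_18_7 (nat_lit 589)) (lo113_17_7 (nat_lit 461)))))) (B (M (nat_lit 494) (B (M (nat_lit 459) (B (lo115_15_3 (nat_lit 495)) (M (nat_lit 458) (B (lo19_14_0 (nat_lit 457)) (lo114_15_3 (nat_lit 491)))))) (B (M (nat_lit 459) (B (lo115_15_3 (nat_lit 495)) (M (nat_lit 458) (B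 (lo114_15_3 (nat_lit 491)) (lo110_14_0 (nat_lit 461)))))) (B (M (nat_lit 461) (B (M (nat_lit 495) (B (lo115_15_3 (nat_lit 459)) (lo116_15_3 (nat_lit 496)))) (M (nat_lit 397) (B (lo113_11_5 (nat_lit 365)) (lo113_12_4 (nat_lit 526)))))) (B (K _ _ _ o1_s26529) (K _ _ _ o1_s39088)))))) (K _ _ _ o1_s38963)))) (B (M (nat_lit 397) (B (lo112_16_6 (nat_lit 524)) (M (nat_lit 365) (B (lo112_15_6 (nat_lit 396)) (lo113_10_5 (nat_lit 333)))))) (K _ _ _ o1_s26263))))) (B (M (nat_lit 492) (B (M (nat_lit 397) (B (lo112_16_6 (nat_lit 524)) (M (nat_lit 365) (B (lo112_15_6 (nat_lit 396)) (lo113_10_5 (nat_lit 333)))))) (B (M (nat_lit 493) (B (M (nat_lit 525) (B (lo112_12_4 (nat_lit 396)) (M (nat_lit 557) (B (lo113_18_7 (nat_lit 589)) (lo113_17_7 (nat_lit 461)))))) (B (M (nat_lit 494) (B (M (nat_lit 459) (B (lo115_15_3 (nat_lit 495)) (M (nat_lit 458) (B (lo114_15_3 (nat_lit 491)) (lo110_14_0 (nat_lit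 461)))))) (B (M (nat_lit 461) (B (M (nat_lit 495) (B (lo115_15_3 (nat_lit 459)) (lo116_15_3 (nat_lit 496)))) (M (nat_lit 397) (B (lo113_11_5 (nat_lit 365)) (lo113_12_4 (nat_lit 526)))))) (B (K _ _ _ o1_s26529) (B (M (nat_lit 459) (B (lo115_15_3 (nat_lit 495)) (M (nat_lit 491) (B (lo114_15_3 (nat_lit 458)) (M (nat_lit 523) (B (lo114_15_1 (nat_lit 522)) (lo111_17_6 (nat_lit 555)))))))) (K _ _ _ o1_s39088)))))) (K _ _ _ o1_s38963)))) (B (M (nat_lit 397) (B (lo112_16_6 (nat_lit 524)) (M (nat_lit 365) (B (lo113_11_5 (nat_lit 461)) (lo113_10_5 (nat_lit 333)))))) (K _ _ _ o1_s26263))))) (B (M (nat_lit 459) (B (M (nat_lit 492) (B (M (nat_lit 524) (B (lo112_16_6 (nat_lit 397)) (M (nat_lit 427) (B (lo112_17_7 (nat_lit 556)) (lo112_16_7 (nat_lit 395)))))) (B (M (nat_lit 524) (B (lo112_16_6 (nat_lit 397)) (M (nat_lit 556) (B (lo112_17_6 (nat_lit 461)) (M (nat_lit 557) (B (lo112_14_4 (nat_lit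 589)) (lo112_13_4 (nat_lit 525)))))))) (K _ _ _ o1_s39115)))) (B (M (nat_lit 492) (B (M (nat_lit 524) (B (lo112_16_6 (nat_lit 397)) (M (nat_lit 427) (B (lo112_17_7 (nat_lit 556)) (lo112_16_7 (nat_lit 395)))))) (B (M (nat_lit 524) (B (lo112_16_6 (nat_lit 397)) (M (nat_lit 556) (B (lo112_17_6 (nat_lit 461)) (M (nat_lit 557) (B (lo112_14_4 (nat_lit 589)) (lo112_13_4 (nat_lit 525)))))))) (B (M (nat_lit 524) (B (lo112_16_6 (nat_lit 397)) (M (nat_lit 396) (B (M (nat_lit 523) (B (lo112_13_5 (nat_lit 555)) (lo112_12_5 (nat_lit 491)))) (M (nat_lit 525) (B (lo112_13_4 (nat_lit 557)) (lo112_12_4 (nat_lit 493)))))))) (M (nat_lit 493) (B (M (nat_lit 525) (B (lo112_12_4 (nat_lit 396)) (M (nat_lit 557) (B (lo113_18_7 (nat_lit 589)) (lo113_17_7 (nat_lit 461)))))) (B (M (nat_lit 494) (B (lo115_15_3 (nat_lit 495)) (M (nat_lit 458) (B (lo114_15_3 (nat_lit 491)) (lo110_14_0 (nat_lit 461))))))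 (M (nat_lit 491) (B (M (nat_lit 494) (B (lo114_15_3 (nat_lit 458)) (lo115_15_3 (nat_lit 495)))) (M (nat_lit 523) (B (lo111_17_6 (nat_lit 555)) (lo112_12_5 (nat_lit 396))))))))))))) (B (M (nat_lit 427) (B (M (nat_lit 426) (B (M (nat_lit 425) (B (lo18_13_0 (nat_lit 424)) (lo19_13_0 (nat_lit 461)))) (B (M (nat_lit 461) (B (lo19_13_0 (nat_lit 425)) (lo114_14_3 (nat_lit 462)))) (B (M (nat_lit 461) (B (lo114_14_3 (nat_lit 462)) (M (nat_lit 397) (B (lo110_13_2 (nat_lit 398)) (M (nat_lit 492) (B (lo112_16_6 (nat_lit 524)) (lo113_11_5 (nat_lit 365)))))))) (M (nat_lit 425) (B (lo18_13_0 (nat_lit 424)) (M (nat_lit 397) (B (lo19_13_2 (nat_lit 396)) (lo110_13_2 (nat_lit 398)))))))))) (B (M (nat_lit 426) (B (M (nat_lit 461) (B (lo19_13_0 (nat_lit 425)) (lo114_14_3 (nat_lit 462)))) (B (M (nat_lit 461) (B (lo114_14_3 (nat_lit 462)) (M (nat_lit 397) (B (lo110_13_2 (nat_lit 398)) (M (nat_lit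 492) (B (lo112_16_6 (nat_lit 524)) (lo113_11_5 (nat_lit 365)))))))) (M (nat_lit 425) (B (M (nat_lit 393) (B (lo112_13_3 (nat_lit 392)) (lo113_13_3 (nat_lit 394)))) (M (nat_lit 397) (B (lo19_13_2 (nat_lit 396)) (lo110_13_2 (nat_lit 398))))))))) (B (M (nat_lit 492) (B (M (nat_lit 395) (B (lo111_11_4 (nat_lit 363)) (lo112_16_7 (nat_lit 524)))) (B (M (nat_lit 524) (B (lo112_17_7 (nat_lit 556)) (lo112_16_6 (nat_lit 397)))) (M (nat_lit 394) (B (M (nat_lit 395) (B (lo111_11_4 (nat_lit 363)) (M (nat_lit 393) (B (lo18_12_0 (nat_lit 392)) (lo113_13_3 (nat_lit 426)))))) (B (M (nat_lit 395) (B (lo111_11_4 (nat_lit 363)) (M (nat_lit 393) (B (lo113_13_3 (nat_lit 426)) (lo19_12_0 (nat_lit 396)))))) (B (M (nat_lit 491) (B (M (nat_lit 395) (B (lo111_15_7 (nat_lit 362)) (lo111_11_4 (nat_lit 363)))) (M (nat_lit 523) (B (lo111_16_7 (nat_lit 426)) (lo111_16_6 (nat_lit 396)))))) (B (M (nat_lit 395)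 (B (lo111_11_4 (nat_lit 363)) (M (nat_lit 393) (B (lo18_12_0 (nat_lit 392)) (lo19_12_0 (nat_lit 396)))))) (M (nat_lit 397) (B (M (nat_lit 426) (B (lo113_13_3 (nat_lit 393)) (lo110_13_2 (nat_lit 398)))) (M (nat_lit 365) (B (lo112_15_6 (nat_lit 396)) (lo113_11_5 (nat_lit 461)))))))))))))) (B (K _ _ _ o1_s39196) (M (nat_lit 426) (B (M (nat_lit 425) (B (lo18_13_0 (nat_lit 424)) (lo19_13_0 (nat_lit 461)))) (M (nat_lit 394) (B (lo113_13_3 (nat_lit 393)) (M (nat_lit 362) (B (lo110_10_4 (nat_lit 330)) (M (nat_lit 491) (B (lo111_16_7 (nat_lit 523)) (lo111_15_7 (nat_lit 395))))))))))))))) (B (M (nat_lit 461) (B (M (nat_lit 458) (B (lo19_14_2 (nat_lit 457)) (M (nat_lit 493) (B (lo110_14_0 (nat_lit 494)) (M (nat_lit 525) (B (lo113_17_7 (nat_lit 557)) (lo113_16_7 (nat_lit 396)))))))) (B (M (nat_lit 492) (B (M (nat_lit 524) (B (lo112_17_6 (nat_lit 556)) (lo112_16_6 (nat_lit 397)))) (M (nat_lit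 493) (B (M (nat_lit 494) (B (lo110_14_0 (nat_lit 458)) (lo115_15_3 (nat_lit 495)))) (M (nat_lit 525) (B (lo112_12_4 (nat_lit 396)) (lo113_17_7 (nat_lit 557)))))))) (B (M (nat_lit 492) (B (M (nat_lit 524) (B (lo112_17_6 (nat_lit 556)) (lo112_16_6 (nat_lit 397)))) (B (M (nat_lit 397) (B (lo112_16_6 (nat_lit 524)) (lo113_11_5 (nat_lit 365)))) (B (M (nat_lit 493) (B (M (nat_lit 525) (B (lo112_12_4 (nat_lit 396)) (lo113_17_7 (nat_lit 557)))) (M (nat_lit 397) (B (lo113_11_5 (nat_lit 365)) (M (nat_lit 494) (B (lo115_15_3 (nat_lit 495)) (lo113_12_4 (nat_lit 526)))))))) (M (nat_lit 427) (B (M (nat_lit 426) (B (lo19_13_0 (nat_lit 425)) (lo114_14_3 (nat_lit 462)))) (M (nat_lit 524) (B (lo112_17_7 (nat_lit 556)) (lo112_16_7 (nat_lit 395)))))))))) (K _ _ _ o1_s39248))))) (B (M (nat_lit 492) (B (M (nat_lit 397) (B (lo112_16_6 (nat_lit 524)) (M (nat_lit 365) (B (lo112_15_6 (nat_lit 396))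 (lo113_11_5 (nat_lit 461)))))) (B (K _ _ _ o1_s39115) (B (M (nat_lit 397) (B (lo112_16_6 (nat_lit 524)) (M (nat_lit 365) (B (lo113_11_5 (nat_lit 461)) (lo113_10_5 (nat_lit 333)))))) (M (nat_lit 397) (B (lo112_16_6 (nat_lit 524)) (M (nat_lit 365) (B (lo112_15_6 (nat_lit 396)) (lo113_10_5 (nat_lit 333)))))))))) (B (M (nat_lit 461) (B (M (nat_lit 458) (B (lo19_14_2 (nat_lit 457)) (M (nat_lit 493) (B (lo110_14_0 (nat_lit 494)) (M (nat_lit 525) (B (lo113_17_7 (nat_lit 557)) (lo113_16_7 (nat_lit 396)))))))) (B (M (nat_lit 462) (B (M (nat_lit 427) (B (lo114_14_3 (nat_lit 426)) (lo115_14_3 (nat_lit 463)))) (B (M (nat_lit 463) (B (lo115_14_3 (nat_lit 427)) (lo116_14_3 (nat_lit 464)))) (B (M (nat_lit 495) (B (lo111_14_0 (nat_lit 494)) (M (nat_lit 463) (B (lo112_14_0 (nat_lit 496)) (lo116_14_3 (nat_lit 464)))))) (M (nat_lit 493) (B (M (nat_lit 494) (B (lo110_14_0 (nat_lit 458)) (lo111_14_0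 (nat_lit 495)))) (M (nat_lit 525) (B (lo113_17_7 (nat_lit 557)) (lo113_16_7 (nat_lit 396)))))))))) (B (M (nat_lit 462) (B (M (nat_lit 427) (B (lo114_14_3 (nat_lit 426)) (lo115_14_3 (nat_lit 463)))) (B (M (nat_lit 463) (B (lo115_14_3 (nat_lit 427)) (lo116_14_3 (nat_lit 464)))) (B (M (nat_lit 495) (B (lo111_14_0 (nat_lit 494)) (M (nat_lit 463) (B (lo112_14_0 (nat_lit 496)) (lo116_14_3 (nat_lit 464)))))) (M (nat_lit 494) (B (lo111_14_0 (nat_lit 495)) (M (nat_lit 397) (B (lo113_11_4 (nat_lit 365)) (M (nat_lit 526) (B (lo113_12_4 (nat_lit 493)) (lo114_17_7 (nat_lit 558)))))))))))) (B (M (nat_lit 462) (B (M (nat_lit 427) (B (lo114_14_3 (nat_lit 426)) (lo115_14_3 (nat_lit 463)))) (B (M (nat_lit 463) (B (lo115_14_3 (nat_lit 427)) (lo116_14_3 (nat_lit 464)))) (B (M (nat_lit 495) (B (lo111_14_0 (nat_lit 494)) (M (nat_lit 463) (B (lo112_14_0 (nat_lit 496)) (lo116_14_3 (nat_lit 464))))))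 (M (nat_lit 426) (B (lo114_14_3 (nat_lit 427)) (M (nat_lit 458) (B (lo19_14_2 (nat_lit 457)) (lo113_14_3 (nat_lit 425)))))))))) (K _ _ _ o1_s39248)))))) (B (M (nat_lit 426) (B (M (nat_lit 458) (B (lo19_14_2 (nat_lit 457)) (M (nat_lit 425) (B (lo113_14_3 (nat_lit 461)) (M (nat_lit 424) (B (lo17_13_0 (nat_lit 423)) (lo18_13_0 (nat_lit 427)))))))) (B (M (nat_lit 461) (B (M (nat_lit 458) (B (lo19_14_2 (nat_lit 457)) (lo113_14_3 (nat_lit 425)))) (B (M (nat_lit 425) (B (lo113_14_3 (nat_lit 458)) (lo19_13_0 (nat_lit 427)))) (B (M (nat_lit 493) (B (M (nat_lit 458) (B (lo19_14_2 (nat_lit 457)) (lo110_14_0 (nat_lit 494)))) (M (nat_lit 525) (B (lo113_17_7 (nat_lit 557)) (lo113_16_7 (nat_lit 396)))))) (M (nat_lit 427) (B (lo19_13_0 (nat_lit 425)) (lo114_14_3 (nat_lit 462)))))))) (B (M (nat_lit 427) (B (M (nat_lit 425) (B (lo18_13_0 (nat_lit 424)) (lo19_13_0 (nat_lit 461)))) (M (nat_lit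 394) (B (lo113_13_3 (nat_lit 393)) (M (nat_lit 362) (B (lo110_10_4 (nat_lit 330)) (M (nat_lit 491) (B (lo111_16_7 (nat_lit 523)) (lo111_15_7 (nat_lit 395)))))))))) (B (M (nat_lit 427) (B (M (nat_lit 394) (B (lo113_13_3 (nat_lit 393)) (M (nat_lit 362) (B (lo110_10_4 (nat_lit 330)) (M (nat_lit 491) (B (lo111_16_7 (nat_lit 523)) (lo111_15_7 (nat_lit 395)))))))) (M (nat_lit 461) (B (lo114_14_3 (nat_lit 462)) (M (nat_lit 493) (B (M (nat_lit 458) (B (lo113_13_1 (nat_lit 457)) (lo110_14_0 (nat_lit 494)))) (M (nat_lit 525) (B (lo113_17_7 (nat_lit 557)) (lo113_16_7 (nat_lit 396)))))))))) (B (M (nat_lit 458) (B (lo19_14_2 (nat_lit 457)) (M (nat_lit 461) (B (lo113_14_3 (nat_lit 425)) (M (nat_lit 493) (B (lo110_14_0 (nat_lit 494)) (M (nat_lit 525) (B (lo113_17_7 (nat_lit 557)) (lo113_16_7 (nat_lit 396)))))))))) (M (nat_lit 458) (B (lo19_14_2 (nat_lit 457)) (M (nat_lit 427) (B (M (nat_lit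 394) (B (lo113_13_3 (nat_lit 393)) (M (nat_lit 362) (B (lo110_11_4 (nat_lit 491)) (lo110_10_4 (nat_lit 330)))))) (M (nat_lit 425) (B (lo18_13_0 (nat_lit 424)) (M (nat_lit 397) (B (lo19_13_2 (nat_lit 396)) (lo110_13_2 (nat_lit 398)))))))))))))))) (B (M (nat_lit 461) (B (M (nat_lit 458) (B (lo19_14_2 (nat_lit 457)) (M (nat_lit 426) (B (lo113_14_3 (nat_lit 425)) (M (nat_lit 462) (B (lo114_14_3 (nat_lit 427)) (M (nat_lit 494) (B (lo110_14_0 (nat_lit 493)) (lo111_14_0 (nat_lit 495)))))))))) (B (M (nat_lit 462) (B (M (nat_lit 427) (B (lo114_14_3 (nat_lit 426)) (lo115_14_3 (nat_lit 463)))) (B (M (nat_lit 463) (B (lo115_14_3 (nat_lit 427)) (lo116_14_3 (nat_lit 464)))) (B (M (nat_lit 492) (B (M (nat_lit 463) (B (lo115_14_1 (nat_lit 491)) (lo116_14_3 (nat_lit 464)))) (M (nat_lit 397) (B (lo112_16_6 (nat_lit 524)) (lo113_11_5 (nat_lit 365)))))) (M (nat_lit 458) (B (M (nat_lit 426) (B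 (lo113_14_3 (nat_lit 425)) (lo114_14_3 (nat_lit 427)))) (M (nat_lit 494) (B (lo110_14_0 (nat_lit 493)) (lo111_14_0 (nat_lit 495)))))))))) (B (M (nat_lit 458) (B (lo19_14_2 (nat_lit 457)) (M (nat_lit 462) (B (M (nat_lit 494) (B (lo110_14_0 (nat_lit 493)) (lo111_14_0 (nat_lit 495)))) (M (nat_lit 427) (B (lo114_14_3 (nat_lit 426)) (lo115_14_3 (nat_lit 463)))))))) (B (M (nat_lit 462) (B (M (nat_lit 427) (B (lo114_14_3 (nat_lit 426)) (lo115_14_3 (nat_lit 463)))) (B (M (nat_lit 463) (B (lo115_14_3 (nat_lit 427)) (lo116_14_3 (nat_lit 464)))) (B (M (nat_lit 492) (B (M (nat_lit 463) (B (lo115_14_1 (nat_lit 491)) (lo116_14_3 (nat_lit 464)))) (M (nat_lit 397) (B (lo112_16_6 (nat_lit 524)) (lo113_11_5 (nat_lit 365)))))) (M (nat_lit 494) (B (lo111_14_0 (nat_lit 495)) (M (nat_lit 397) (B (lo113_11_4 (nat_lit 365)) (M (nat_lit 526) (B (lo113_12_4 (nat_lit 493)) (lo114_17_7 (nat_lit 558))))))))))))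 (B (M (nat_lit 458) (B (lo19_14_2 (nat_lit 457)) (M (nat_lit 462) (B (M (nat_lit 494) (B (lo110_14_0 (nat_lit 493)) (lo111_14_0 (nat_lit 495)))) (M (nat_lit 463) (B (lo115_14_3 (nat_lit 427)) (lo116_14_3 (nat_lit 464)))))))) (B (M (nat_lit 458) (B (lo19_14_2 (nat_lit 457)) (M (nat_lit 492) (B (M (nat_lit 524) (B (lo112_17_6 (nat_lit 556)) (lo112_16_6 (nat_lit 397)))) (M (nat_lit 462) (B (M (nat_lit 494) (B (lo110_14_0 (nat_lit 493)) (lo111_14_0 (nat_lit 495)))) (M (nat_lit 463) (B (lo115_14_1 (nat_lit 491)) (lo116_14_3 (nat_lit 464)))))))))) (B (M (nat_lit 462) (B (M (nat_lit 427) (B (lo114_14_3 (nat_lit 426)) (lo115_14_3 (nat_lit 463)))) (B (M (nat_lit 463) (B (lo115_14_3 (nat_lit 427)) (lo116_14_3 (nat_lit 464)))) (B (M (nat_lit 492) (B (M (nat_lit 463) (B (lo115_14_1 (nat_lit 491)) (lo116_14_3 (nat_lit 464)))) (M (nat_lit 397) (B (lo112_16_6 (nat_lit 524)) (lo113_11_5 (nat_lit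 365)))))) (M (nat_lit 426) (B (lo114_14_3 (nat_lit 427)) (M (nat_lit 458) (B (lo19_14_2 (nat_lit 457)) (lo113_14_3 (nat_lit 425)))))))))) (M (nat_lit 493) (B (M (nat_lit 458) (B (lo19_14_2 (nat_lit 457)) (lo110_14_0 (nat_lit 494)))) (B (M (nat_lit 397) (B (M (nat_lit 492) (B (lo112_16_6 (nat_lit 524)) (lo113_11_5 (nat_lit 365)))) (M (nat_lit 494) (B (lo110_14_0 (nat_lit 458)) (lo113_12_4 (nat_lit 526)))))) (B (M (nat_lit 525) (B (lo113_17_7 (nat_lit 557)) (M (nat_lit 397) (B (M (nat_lit 524) (B (lo113_13_5 (nat_lit 556)) (lo112_16_6 (nat_lit 492)))) (M (nat_lit 526) (B (lo113_13_4 (nat_lit 558)) (lo113_12_4 (nat_lit 494)))))))) (M (nat_lit 397) (B (M (nat_lit 492) (B (lo112_16_6 (nat_lit 524)) (lo113_11_5 (nat_lit 365)))) (M (nat_lit 426) (B (M (nat_lit 458) (B (lo19_14_2 (nat_lit 457)) (lo113_14_3 (nat_lit 425)))) (B (M (nat_lit 425) (B (lo113_14_3 (nat_lit 458)) (lo19_13_0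 (nat_lit 427)))) (M (nat_lit 398) (B (lo110_13_2 (nat_lit 427)) (lo113_15_6 (nat_lit 366))))))))))))))))))))) (B (M (nat_lit 427) (B (M (nat_lit 458) (B (lo19_14_2 (nat_lit 457)) (M (nat_lit 426) (B (M (nat_lit 425) (B (lo18_13_0 (nat_lit 424)) (M (nat_lit 397) (B (lo19_13_2 (nat_lit 396)) (lo110_13_2 (nat_lit 398)))))) (M (nat_lit 394) (B (lo113_13_3 (nat_lit 393)) (M (nat_lit 362) (B (lo110_11_4 (nat_lit 491)) (lo110_10_4 (nat_lit 330)))))))))) (B (M (nat_lit 426) (B (M (nat_lit 457) (B (lo113_13_1 (nat_lit 458)) (M (nat_lit 425) (B (lo112_13_1 (nat_lit 456)) (M (nat_lit 393) (B (lo112_13_3 (nat_lit 392)) (lo113_13_3 (nat_lit 394)))))))) (B (M (nat_lit 425) (B (M (nat_lit 393) (B (lo112_13_3 (nat_lit 392)) (lo113_13_3 (nat_lit 394)))) (M (nat_lit 397) (B (lo19_13_2 (nat_lit 396)) (lo110_13_2 (nat_lit 398)))))) (B (M (nat_lit 425) (B (M (nat_lit 457) (B (lo112_13_1 (nat_lit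 456)) (lo113_13_1 (nat_lit 458)))) (M (nat_lit 397) (B (lo19_13_2 (nat_lit 396)) (lo110_13_2 (nat_lit 398)))))) (M (nat_lit 458) (B (lo113_13_1 (nat_lit 457)) (M (nat_lit 394) (B (lo113_13_3 (nat_lit 393)) (M (nat_lit 362) (B (lo110_11_4 (nat_lit 491)) (lo110_10_4 (nat_lit 330)))))))))))) (B (M (nat_lit 395) (B (M (nat_lit 363) (B (lo111_11_4 (nat_lit 492)) (lo111_10_4 (nat_lit 331)))) (M (nat_lit 426) (B (M (nat_lit 394) (B (lo113_13_3 (nat_lit 393)) (M (nat_lit 491) (B (lo111_16_7 (nat_lit 523)) (lo111_15_7 (nat_lit 362)))))) (M (nat_lit 425) (B (lo18_13_0 (nat_lit 424)) (M (nat_lit 397) (B (lo19_13_2 (nat_lit 396)) (lo110_13_2 (nat_lit 398)))))))))) (B (K _ _ _ o1_s39196) (B (M (nat_lit 492) (B (M (nat_lit 524) (B (lo112_17_7 (nat_lit 556)) (lo112_16_7 (nat_lit 395)))) (B (M (nat_lit 524) (B (lo112_17_7 (nat_lit 556)) (lo112_16_6 (nat_lit 397)))) (B (M (nat_lit 524) (B (lo112_16_7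 (nat_lit 395)) (lo112_16_6 (nat_lit 397)))) (M (nat_lit 426) (B (M (nat_lit 397) (B (lo110_13_2 (nat_lit 398)) (M (nat_lit 396) (B (lo19_13_2 (nat_lit 425)) (lo112_15_6 (nat_lit 365)))))) (B (M (nat_lit 397) (B (lo110_13_2 (nat_lit 398)) (M (nat_lit 365) (B (lo112_15_6 (nat_lit 396)) (lo113_10_5 (nat_lit 333)))))) (M (nat_lit 457) (B (lo113_13_1 (nat_lit 458)) (M (nat_lit 425) (B (lo112_13_1 (nat_lit 456)) (lo18_13_0 (nat_lit 424))))))))))))) (M (nat_lit 426) (B (M (nat_lit 425) (B (lo18_13_0 (nat_lit 424)) (M (nat_lit 457) (B (lo112_13_1 (nat_lit 456)) (lo113_13_1 (nat_lit 458)))))) (B (M (nat_lit 425) (B (lo18_13_0 (nat_lit 424)) (M (nat_lit 393) (B (lo112_13_3 (nat_lit 392)) (lo113_13_3 (nat_lit 394)))))) (B (M (nat_lit 457) (B (lo113_13_1 (nat_lit 458)) (M (nat_lit 425) (B (lo112_13_1 (nat_lit 456)) (M (nat_lit 393) (B (lo112_13_3 (nat_lit 392)) (lo113_13_3 (nat_lit 394))))))))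 (M (nat_lit 458) (B (lo113_13_1 (nat_lit 457)) (M (nat_lit 394) (B (lo113_13_3 (nat_lit 393)) (M (nat_lit 362) (B (lo110_11_4 (nat_lit 491)) (lo110_10_4 (nat_lit 330)))))))))))))))))) (M (nat_lit 458) (B (lo19_14_2 (nat_lit 457)) (M (nat_lit 493) (B (M (nat_lit 461) (B (lo110_14_0 (nat_lit 494)) (M (nat_lit 525) (B (lo113_17_7 (nat_lit 557)) (lo113_16_7 (nat_lit 396)))))) (B (M (nat_lit 494) (B (lo110_14_0 (nat_lit 461)) (M (nat_lit 492) (B (lo114_15_3 (nat_lit 491)) (lo115_15_3 (nat_lit 495)))))) (B (M (nat_lit 492) (B (M (nat_lit 494) (B (lo114_15_3 (nat_lit 491)) (lo115_15_3 (nat_lit 495)))) (M (nat_lit 525) (B (lo112_12_4 (nat_lit 396)) (M (nat_lit 557) (B (lo112_13_4 (nat_lit 524)) (lo113_18_7 (nat_lit 589)))))))) (M (nat_lit 525) (B (M (nat_lit 396) (B (lo112_12_4 (nat_lit 492)) (lo113_16_7 (nat_lit 461)))) (B (M (nat_lit 461) (B (lo113_17_7 (nat_lit 557)) (lo113_16_7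 (nat_lit 396)))) (B (M (nat_lit 557) (B (lo113_17_7 (nat_lit 461)) (M (nat_lit 492) (B (lo112_13_4 (nat_lit 524)) (lo113_18_7 (nat_lit 589)))))) (M (nat_lit 492) (B (lo112_12_4 (nat_lit 396)) (M (nat_lit 557) (B (lo112_13_4 (nat_lit 524)) (lo113_18_7 (nat_lit 589)))))))))))))))))))))))))) (B (M (nat_lit 492) (B (M (nat_lit 397) (B (lo112_16_6 (nat_lit 524)) (M (nat_lit 365) (B (lo113_11_5 (nat_lit 461)) (lo113_10_5 (nat_lit 333)))))) (B (M (nat_lit 493) (B (M (nat_lit 525) (B (lo112_12_4 (nat_lit 396)) (M (nat_lit 557) (B (lo113_18_7 (nat_lit 589)) (lo113_17_7 (nat_lit 461)))))) (B (M (nat_lit 494) (B (M (nat_lit 495) (B (lo115_15_3 (nat_lit 459)) (M (nat_lit 496) (B (lo116_15_3 (nat_lit 461)) (M (nat_lit 464) (B (lo112_15_2 (nat_lit 463)) (lo113_15_2 (nat_lit 465)))))))) (B (K _ _ _ o1_s26529) (B (M (nat_lit 491) (B (M (nat_lit 523) (B (lo114_15_1 (nat_lit 522)) (M (nat_lit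 555) (B (lo111_18_6 (nat_lit 587)) (lo111_17_6 (nat_lit 459)))))) (B (M (nat_lit 527) (B (lo111_15_0 (nat_lit 526)) (M (nat_lit 495) (B (lo115_15_3 (nat_lit 459)) (lo112_15_0 (nat_lit 528)))))) (M (nat_lit 490) (B (M (nat_lit 522) (B (lo113_15_1 (nat_lit 521)) (lo114_15_1 (nat_lit 523)))) (M (nat_lit 526) (B (lo110_15_0 (nat_lit 525)) (lo111_15_0 (nat_lit 527))))))))) (M (nat_lit 491) (B (M (nat_lit 523) (B (lo114_15_1 (nat_lit 522)) (M (nat_lit 555) (B (lo111_18_6 (nat_lit 587)) (lo111_17_6 (nat_lit 459)))))) (M (nat_lit 461) (B (M (nat_lit 490) (B (lo19_15_2 (nat_lit 489)) (lo110_15_2 (nat_lit 462)))) (M (nat_lit 526) (B (lo111_15_0 (nat_lit 527)) (lo113_12_4 (nat_lit 397)))))))))))) (B (M (nat_lit 461) (B (M (nat_lit 397) (B (lo113_11_5 (nat_lit 365)) (M (nat_lit 494) (B (lo113_12_4 (nat_lit 526)) (M (nat_lit 495) (B (lo115_15_3 (nat_lit 459)) (lo116_15_3 (nat_lit 496))))))))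 (B (M (nat_lit 491) (B (M (nat_lit 462) (B (lo110_15_2 (nat_lit 490)) (lo115_14_1 (nat_lit 463)))) (M (nat_lit 494) (B (M (nat_lit 523) (B (lo114_15_1 (nat_lit 522)) (lo112_12_5 (nat_lit 396)))) (M (nat_lit 397) (B (lo113_11_5 (nat_lit 365)) (lo113_12_4 (nat_lit 526)))))))) (M (nat_lit 491) (B (M (nat_lit 462) (B (lo110_15_2 (nat_lit 490)) (lo115_14_1 (nat_lit 463)))) (M (nat_lit 523) (B (lo112_12_5 (nat_lit 396)) (M (nat_lit 555) (B (lo111_18_6 (nat_lit 587)) (lo111_17_6 (nat_lit 459))))))))))) (M (nat_lit 491) (B (M (nat_lit 396) (B (lo112_12_5 (nat_lit 523)) (lo112_12_4 (nat_lit 525)))) (B (M (nat_lit 525) (B (lo112_12_4 (nat_lit 396)) (M (nat_lit 526) (B (lo110_15_0 (nat_lit 490)) (M (nat_lit 527) (B (lo111_15_0 (nat_lit 494)) (lo116_16_3 (nat_lit 528)))))))) (B (M (nat_lit 494) (B (M (nat_lit 523) (B (lo114_15_1 (nat_lit 522)) (M (nat_lit 555) (B (lo111_18_6 (nat_lit 587))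 (lo111_17_6 (nat_lit 459)))))) (B (M (nat_lit 527) (B (lo111_15_0 (nat_lit 526)) (M (nat_lit 495) (B (lo115_15_3 (nat_lit 459)) (lo112_15_0 (nat_lit 528)))))) (M (nat_lit 490) (B (M (nat_lit 522) (B (lo113_15_1 (nat_lit 521)) (lo114_15_1 (nat_lit 523)))) (M (nat_lit 526) (B (lo110_15_0 (nat_lit 525)) (lo111_15_0 (nat_lit 527))))))))) (M (nat_lit 523) (B (lo112_12_5 (nat_lit 396)) (M (nat_lit 555) (B (lo111_18_6 (nat_lit 587)) (lo111_17_6 (nat_lit 459)))))))))))))) (B (M (nat_lit 397) (B (lo112_16_6 (nat_lit 524)) (M (nat_lit 365) (B (lo112_15_6 (nat_lit 396)) (lo113_10_5 (nat_lit 333)))))) (K _ _ _ o1_s26263))))) (B (M (nat_lit 492) (B (M (nat_lit 397) (B (lo112_16_6 (nat_lit 524)) (M (nat_lit 365) (B (lo112_15_6 (nat_lit 396)) (lo113_10_5 (nat_lit 333)))))) (B (M (nat_lit 397) (B (M (nat_lit 365) (B (lo112_15_6 (nat_lit 396)) (lo113_11_5 (nat_lit 461)))) (B (M (nat_lit 365)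 (B (lo113_11_5 (nat_lit 461)) (lo113_10_5 (nat_lit 333)))) (B (M (nat_lit 365) (B (lo112_15_6 (nat_lit 396)) (lo113_10_5 (nat_lit 333)))) (M (nat_lit 493) (B (M (nat_lit 525) (B (lo112_12_4 (nat_lit 396)) (M (nat_lit 557) (B (lo113_18_7 (nat_lit 589)) (lo113_17_7 (nat_lit 461)))))) (B (M (nat_lit 494) (B (M (nat_lit 459) (B (lo115_15_3 (nat_lit 495)) (M (nat_lit 458) (B (lo19_14_0 (nat_lit 457)) (lo114_15_3 (nat_lit 491)))))) (B (M (nat_lit 461) (B (lo113_12_4 (nat_lit 526)) (M (nat_lit 495) (B (lo115_15_3 (nat_lit 459)) (lo116_15_3 (nat_lit 496)))))) (B (M (nat_lit 461) (B (lo113_12_4 (nat_lit 526)) (M (nat_lit 463) (B (M (nat_lit 462) (B (lo115_14_1 (nat_lit 491)) (lo115_14_3 (nat_lit 427)))) (M (nat_lit 495) (B (lo112_15_2 (nat_lit 464)) (lo116_15_3 (nat_lit 496)))))))) (M (nat_lit 491) (B (M (nat_lit 526) (B (lo111_15_0 (nat_lit 527)) (lo113_12_4 (nat_lit 461)))) (M (nat_lit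 490) (B (M (nat_lit 522) (B (lo113_15_1 (nat_lit 521)) (lo114_15_1 (nat_lit 523)))) (M (nat_lit 458) (B (lo113_15_3 (nat_lit 457)) (lo114_15_3 (nat_lit 459)))))))))))) (M (nat_lit 491) (B (M (nat_lit 396) (B (lo112_12_5 (nat_lit 523)) (lo112_12_4 (nat_lit 525)))) (B (M (nat_lit 525) (B (lo112_12_4 (nat_lit 396)) (M (nat_lit 526) (B (lo110_15_0 (nat_lit 490)) (M (nat_lit 527) (B (lo111_15_0 (nat_lit 494)) (lo116_16_3 (nat_lit 528)))))))) (B (M (nat_lit 494) (B (M (nat_lit 459) (B (lo114_15_3 (nat_lit 458)) (lo115_15_3 (nat_lit 495)))) (M (nat_lit 490) (B (M (nat_lit 522) (B (lo113_15_1 (nat_lit 521)) (lo114_15_1 (nat_lit 523)))) (M (nat_lit 526) (B (lo110_15_0 (nat_lit 525)) (lo111_15_0 (nat_lit 527)))))))) (M (nat_lit 494) (B (M (nat_lit 523) (B (lo114_15_1 (nat_lit 522)) (lo112_12_5 (nat_lit 396)))) (M (nat_lit 459) (B (lo114_15_3 (nat_lit 458)) (lo115_15_3 (nat_lit 495)))))))))))))))))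 (B (M (nat_lit 397) (B (lo112_16_6 (nat_lit 524)) (M (nat_lit 365) (B (lo113_11_5 (nat_lit 461)) (lo113_10_5 (nat_lit 333)))))) (K _ _ _ o1_s28627))))) (B (M (nat_lit 461) (B (M (nat_lit 462) (B (M (nat_lit 463) (B (lo115_14_3 (nat_lit 427)) (lo116_14_3 (nat_lit 464)))) (K _ _ _ o1_s39562))) (B (M (nat_lit 492) (B (M (nat_lit 524) (B (lo112_17_6 (nat_lit 556)) (lo112_16_6 (nat_lit 397)))) (B (M (nat_lit 397) (B (lo112_16_6 (nat_lit 524)) (lo113_11_5 (nat_lit 365)))) (B (M (nat_lit 493) (B (M (nat_lit 525) (B (lo112_12_4 (nat_lit 396)) (lo113_17_7 (nat_lit 557)))) (B (M (nat_lit 397) (B (lo113_11_5 (nat_lit 365)) (M (nat_lit 525) (B (lo113_17_7 (nat_lit 557)) (M (nat_lit 526) (B (lo113_13_4 (nat_lit 558)) (lo113_12_4 (nat_lit 494)))))))) (B (M (nat_lit 397) (B (lo113_11_5 (nat_lit 365)) (M (nat_lit 525) (B (lo112_12_4 (nat_lit 396)) (M (nat_lit 526) (B (lo113_13_4 (nat_lit 558))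 (lo113_12_4 (nat_lit 494)))))))) (K _ _ _ o1_s39583))))) (M (nat_lit 427) (B (M (nat_lit 524) (B (lo112_16_7 (nat_lit 395)) (lo112_17_6 (nat_lit 556)))) (M (nat_lit 462) (B (lo110_13_0 (nat_lit 426)) (lo115_14_3 (nat_lit 463)))))))))) (B (M (nat_lit 462) (B (M (nat_lit 463) (B (lo116_14_3 (nat_lit 464)) (M (nat_lit 492) (B (lo115_14_1 (nat_lit 491)) (M (nat_lit 524) (B (lo112_17_6 (nat_lit 556)) (lo112_16_6 (nat_lit 397)))))))) (B (K _ _ _ o1_s39562) (K _ _ _ o1_s39597)))) (B (M (nat_lit 462) (B (M (nat_lit 427) (B (lo110_13_0 (nat_lit 426)) (lo115_14_3 (nat_lit 463)))) (B (M (nat_lit 463) (B (lo115_14_3 (nat_lit 427)) (lo116_14_3 (nat_lit 464)))) (B (M (nat_lit 492) (B (M (nat_lit 463) (B (lo115_14_1 (nat_lit 491)) (lo116_14_3 (nat_lit 464)))) (M (nat_lit 397) (B (lo112_16_6 (nat_lit 524)) (lo113_11_5 (nat_lit 365)))))) (K _ _ _ o1_s39610))))) (B (M (nat_lit 462) (B (M (nat_lit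 427) (B (lo110_13_0 (nat_lit 426)) (lo115_14_3 (nat_lit 463)))) (B (M (nat_lit 463) (B (lo115_14_3 (nat_lit 427)) (lo116_14_3 (nat_lit 464)))) (B (M (nat_lit 492) (B (M (nat_lit 463) (B (lo115_14_1 (nat_lit 491)) (lo116_14_3 (nat_lit 464)))) (M (nat_lit 397) (B (lo112_16_6 (nat_lit 524)) (lo113_11_5 (nat_lit 365)))))) (M (nat_lit 459) (B (M (nat_lit 426) (B (lo114_14_3 (nat_lit 427)) (M (nat_lit 458) (B (lo19_14_2 (nat_lit 457)) (lo113_14_3 (nat_lit 425)))))) (B (M (nat_lit 458) (B (M (nat_lit 490) (B (lo113_14_1 (nat_lit 489)) (lo114_14_1 (nat_lit 491)))) (M (nat_lit 426) (B (lo113_14_3 (nat_lit 425)) (lo114_14_3 (nat_lit 427)))))) (B (M (nat_lit 490) (B (lo114_14_1 (nat_lit 491)) (M (nat_lit 458) (B (lo113_14_1 (nat_lit 489)) (lo19_14_2 (nat_lit 457)))))) (K _ _ _ o1_s39624))))))))) (B (M (nat_lit 462) (B (M (nat_lit 427) (B (lo110_13_0 (nat_lit 426)) (lo115_14_3 (nat_lit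 463)))) (B (M (nat_lit 463) (B (lo115_14_3 (nat_lit 427)) (lo116_14_3 (nat_lit 464)))) (B (K _ _ _ o1_s39597) (M (nat_lit 459) (B (M (nat_lit 490) (B (lo114_14_1 (nat_lit 491)) (M (nat_lit 458) (B (lo113_14_1 (nat_lit 489)) (lo19_14_2 (nat_lit 457)))))) (B (M (nat_lit 494) (B (lo111_14_0 (nat_lit 495)) (M (nat_lit 458) (B (lo19_14_2 (nat_lit 457)) (lo110_14_0 (nat_lit 493)))))) (B (M (nat_lit 458) (B (M (nat_lit 490) (B (lo113_14_1 (nat_lit 489)) (lo114_14_1 (nat_lit 491)))) (M (nat_lit 494) (B (lo110_14_0 (nat_lit 493)) (lo111_14_0 (nat_lit 495)))))) (K _ _ _ o1_s39624))))))))) (K _ _ _ o1_s39631)))))))) (B (M (nat_lit 461) (B (M (nat_lit 462) (B (M (nat_lit 463) (B (lo115_14_3 (nat_lit 427)) (lo116_14_3 (nat_lit 464)))) (K _ _ _ o1_s39562))) (B (K _ _ _ o1_s39019) (B (M (nat_lit 493) (B (M (nat_lit 525) (B (lo113_17_7 (nat_lit 557)) (lo113_16_7 (nat_lit 396)))) (M (nat_lit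 494) (B (M (nat_lit 459) (B (lo110_14_0 (nat_lit 458)) (M (nat_lit 495) (B (lo115_15_3 (nat_lit 492)) (lo116_15_3 (nat_lit 496)))))) (B (M (nat_lit 397) (B (lo113_12_4 (nat_lit 526)) (M (nat_lit 492) (B (lo112_16_6 (nat_lit 524)) (lo113_11_5 (nat_lit 365)))))) (M (nat_lit 459) (B (lo110_14_0 (nat_lit 458)) (M (nat_lit 495) (B (lo111_14_0 (nat_lit 462)) (lo116_15_3 (nat_lit 496))))))))))) (B (M (nat_lit 462) (B (M (nat_lit 427) (B (lo110_13_0 (nat_lit 426)) (lo115_14_3 (nat_lit 463)))) (B (M (nat_lit 463) (B (lo115_14_3 (nat_lit 427)) (lo116_14_3 (nat_lit 464)))) (B (M (nat_lit 494) (B (M (nat_lit 397) (B (lo113_11_4 (nat_lit 365)) (M (nat_lit 526) (B (lo113_12_4 (nat_lit 493)) (lo114_17_7 (nat_lit 558)))))) (M (nat_lit 495) (B (lo111_14_0 (nat_lit 459)) (M (nat_lit 463) (B (lo112_14_0 (nat_lit 496)) (lo116_14_3 (nat_lit 464)))))))) (M (nat_lit 397) (B (M (nat_lit 492) (B (lo112_16_6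 (nat_lit 524)) (lo113_11_5 (nat_lit 365)))) (B (M (nat_lit 365) (B (lo113_11_5 (nat_lit 492)) (lo113_11_4 (nat_lit 494)))) (B (M (nat_lit 494) (B (lo113_11_4 (nat_lit 365)) (M (nat_lit 526) (B (lo113_12_4 (nat_lit 493)) (lo114_17_7 (nat_lit 558)))))) (K _ _ _ o1_s39055))))))))) (B (M (nat_lit 427) (B (M (nat_lit 426) (B (lo19_13_0 (nat_lit 425)) (lo110_13_0 (nat_lit 462)))) (B (M (nat_lit 462) (B (lo110_13_0 (nat_lit 426)) (lo115_14_3 (nat_lit 463)))) (B (M (nat_lit 397) (B (M (nat_lit 492) (B (lo112_16_6 (nat_lit 524)) (lo113_11_5 (nat_lit 365)))) (B (M (nat_lit 365) (B (lo113_11_5 (nat_lit 492)) (lo113_10_5 (nat_lit 333)))) (B (M (nat_lit 365) (B (lo113_10_5 (nat_lit 333)) (M (nat_lit 462) (B (lo115_14_3 (nat_lit 463)) (lo113_11_4 (nat_lit 494)))))) (M (nat_lit 493) (B (M (nat_lit 525) (B (lo113_16_7 (nat_lit 396)) (M (nat_lit 526) (B (lo113_13_4 (nat_lit 558)) (lo113_12_4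 (nat_lit 494)))))) (B (M (nat_lit 525) (B (M (nat_lit 524) (B (lo113_13_5 (nat_lit 556)) (lo112_16_6 (nat_lit 492)))) (M (nat_lit 526) (B (lo113_13_4 (nat_lit 558)) (lo113_12_4 (nat_lit 494)))))) (M (nat_lit 398) (B (lo113_15_6 (nat_lit 366)) (M (nat_lit 399) (B (lo115_12_1 (nat_lit 396)) (lo116_12_1 (nat_lit 400))))))))))))) (M (nat_lit 397) (B (M (nat_lit 426) (B (lo19_13_0 (nat_lit 425)) (lo110_13_2 (nat_lit 398)))) (M (nat_lit 365) (B (lo113_11_5 (nat_lit 492)) (lo113_10_5 (nat_lit 333)))))))))) (B (M (nat_lit 397) (B (M (nat_lit 492) (B (lo112_16_6 (nat_lit 524)) (lo113_11_5 (nat_lit 365)))) (B (M (nat_lit 365) (B (lo113_11_5 (nat_lit 492)) (lo113_10_5 (nat_lit 333)))) (B (M (nat_lit 462) (B (M (nat_lit 463) (B (lo115_14_3 (nat_lit 427)) (lo116_14_3 (nat_lit 464)))) (M (nat_lit 365) (B (lo113_10_5 (nat_lit 333)) (lo113_11_4 (nat_lit 494)))))) (M (nat_lit 462) (B (M (nat_lit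 427) (B (lo110_13_0 (nat_lit 426)) (lo115_14_3 (nat_lit 463)))) (B (M (nat_lit 463) (B (lo115_14_3 (nat_lit 427)) (lo116_14_3 (nat_lit 464)))) (B (M (nat_lit 494) (B (M (nat_lit 526) (B (lo113_12_4 (nat_lit 493)) (lo114_17_7 (nat_lit 558)))) (M (nat_lit 495) (B (lo111_14_0 (nat_lit 459)) (M (nat_lit 463) (B (lo112_14_0 (nat_lit 496)) (lo116_14_3 (nat_lit 464)))))))) (M (nat_lit 459) (B (M (nat_lit 426) (B (lo114_14_3 (nat_lit 427)) (M (nat_lit 458) (B (lo19_14_2 (nat_lit 457)) (lo113_14_3 (nat_lit 425)))))) (B (M (nat_lit 494) (B (lo111_14_0 (nat_lit 495)) (M (nat_lit 493) (B (lo110_14_0 (nat_lit 458)) (lo113_12_4 (nat_lit 526)))))) (M (nat_lit 494) (B (lo111_14_0 (nat_lit 495)) (M (nat_lit 526) (B (lo113_12_4 (nat_lit 493)) (lo114_17_7 (nat_lit 558))))))))))))))))) (B (M (nat_lit 426) (B (M (nat_lit 427) (B (lo19_13_0 (nat_lit 425)) (lo110_13_0 (nat_lit 462)))) (B (M (nat_lit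 397) (B (M (nat_lit 427) (B (lo110_13_0 (nat_lit 462)) (lo110_13_2 (nat_lit 398)))) (M (nat_lit 492) (B (lo112_16_6 (nat_lit 524)) (lo113_11_5 (nat_lit 365)))))) (M (nat_lit 458) (B (M (nat_lit 459) (B (lo19_14_2 (nat_lit 457)) (lo113_14_3 (nat_lit 425)))) (B (M (nat_lit 490) (B (M (nat_lit 459) (B (lo113_14_1 (nat_lit 489)) (lo113_14_3 (nat_lit 425)))) (B (M (nat_lit 522) (B (M (nat_lit 425) (B (lo110_16_7 (nat_lit 393)) (lo113_14_3 (nat_lit 459)))) (M (nat_lit 554) (B (M (nat_lit 553) (B (lo110_14_5 (nat_lit 585)) (lo110_13_5 (nat_lit 521)))) (M (nat_lit 555) (B (lo110_14_4 (nat_lit 587)) (lo110_13_4 (nat_lit 523)))))))) (B (M (nat_lit 489) (B (lo113_14_1 (nat_lit 459)) (M (nat_lit 521) (B (lo110_12_5 (nat_lit 394)) (M (nat_lit 553) (B (lo19_18_6 (nat_lit 585)) (lo110_13_5 (nat_lit 522)))))))) (K _ _ _ o1_s39747))))) (B (M (nat_lit 394) (B (M (nat_lit 457) (B (lo19_14_2 (nat_lit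 459)) (M (nat_lit 489) (B (lo110_11_5 (nat_lit 362)) (M (nat_lit 521) (B (lo19_17_6 (nat_lit 553)) (lo110_12_5 (nat_lit 490)))))))) (B (M (nat_lit 490) (B (M (nat_lit 489) (B (lo110_12_5 (nat_lit 521)) (lo113_14_1 (nat_lit 459)))) (M (nat_lit 393) (B (lo110_15_7 (nat_lit 361)) (M (nat_lit 395) (B (lo19_12_0 (nat_lit 396)) (lo110_15_6 (nat_lit 363)))))))) (B (M (nat_lit 362) (B (M (nat_lit 457) (B (lo110_11_5 (nat_lit 489)) (lo19_14_2 (nat_lit 459)))) (M (nat_lit 330) (B (M (nat_lit 329) (B (lo110_14_7 (nat_lit 361)) (lo110_13_7 (nat_lit 297)))) (M (nat_lit 331) (B (lo110_14_6 (nat_lit 363)) (lo110_13_6 (nat_lit 299)))))))) (M (nat_lit 395) (B (M (nat_lit 363) (B (lo110_15_6 (nat_lit 490)) (M (nat_lit 331) (B (lo110_14_6 (nat_lit 362)) (lo111_9_5 (nat_lit 299)))))) (B (M (nat_lit 363) (B (M (nat_lit 331) (B (lo110_14_6 (nat_lit 362)) (lo111_9_5 (nat_lit 299)))) (M (nat_lit 396)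 (B (lo19_12_0 (nat_lit 393)) (lo112_15_7 (nat_lit 492)))))) (B (M (nat_lit 363) (B (lo110_15_6 (nat_lit 490)) (M (nat_lit 396) (B (lo19_12_0 (nat_lit 393)) (lo112_15_7 (nat_lit 492)))))) (M (nat_lit 393) (B (lo19_12_0 (nat_lit 396)) (M (nat_lit 361) (B (lo110_15_7 (nat_lit 490)) (M (nat_lit 329) (B (lo19_9_4 (nat_lit 297)) (lo110_14_7 (nat_lit 362)))))))))))))))) (M (nat_lit 490) (B (K _ _ _ o1_s39797) (B (M (nat_lit 394) (B (M (nat_lit 393) (B (lo110_15_7 (nat_lit 361)) (M (nat_lit 395) (B (lo19_12_0 (nat_lit 396)) (lo110_15_6 (nat_lit 363)))))) (B (M (nat_lit 362) (B (M (nat_lit 363) (B (lo110_15_6 (nat_lit 395)) (lo110_14_6 (nat_lit 331)))) (M (nat_lit 330) (B (M (nat_lit 457) (B (lo110_11_5 (nat_lit 489)) (lo110_10_5 (nat_lit 425)))) (M (nat_lit 329) (B (lo110_14_7 (nat_lit 361)) (lo110_13_7 (nat_lit 297)))))))) (B (M (nat_lit 489) (B (M (nat_lit 362) (B (lo110_11_5 (nat_lit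 457)) (M (nat_lit 363) (B (lo110_15_6 (nat_lit 395)) (lo110_14_6 (nat_lit 331)))))) (B (M (nat_lit 522) (B (M (nat_lit 393) (B (lo110_16_7 (nat_lit 425)) (M (nat_lit 395) (B (lo19_12_0 (nat_lit 396)) (lo110_15_6 (nat_lit 363)))))) (M (nat_lit 524) (B (M (nat_lit 523) (B (lo113_16_3 (nat_lit 525)) (lo110_13_4 (nat_lit 555)))) (M (nat_lit 492) (B (lo112_17_6 (nat_lit 556)) (lo112_16_6 (nat_lit 397)))))))) (M (nat_lit 522) (B (M (nat_lit 457) (B (lo110_11_5 (nat_lit 362)) (M (nat_lit 425) (B (lo19_12_4 (nat_lit 393)) (lo110_17_7 (nat_lit 554)))))) (M (nat_lit 524) (B (M (nat_lit 523) (B (lo113_16_3 (nat_lit 525)) (lo110_13_4 (nat_lit 555)))) (M (nat_lit 492) (B (lo112_17_6 (nat_lit 556)) (lo112_16_6 (nat_lit 397))))))))))) (M (nat_lit 489) (B (M (nat_lit 362) (B (lo110_11_5 (nat_lit 457)) (M (nat_lit 361) (B (lo110_15_7 (nat_lit 393)) (lo110_14_7 (nat_lit 329)))))) (B (M (nat_lit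 522) (B (M (nat_lit 393) (B (lo110_16_7 (nat_lit 425)) (lo110_15_7 (nat_lit 361)))) (M (nat_lit 524) (B (M (nat_lit 523) (B (lo113_16_3 (nat_lit 525)) (lo110_13_4 (nat_lit 555)))) (M (nat_lit 492) (B (lo112_17_6 (nat_lit 556)) (lo112_16_6 (nat_lit 397)))))))) (M (nat_lit 522) (B (M (nat_lit 457) (B (lo110_11_5 (nat_lit 362)) (M (nat_lit 554) (B (lo110_18_7 (nat_lit 586)) (lo110_17_7 (nat_lit 425)))))) (M (nat_lit 524) (B (M (nat_lit 523) (B (lo113_16_3 (nat_lit 525)) (lo110_13_4 (nat_lit 555)))) (M (nat_lit 492) (B (lo112_17_6 (nat_lit 556)) (lo112_16_6 (nat_lit 397))))))))))))))) (B (M (nat_lit 522) (B (M (nat_lit 425) (B (lo110_16_7 (nat_lit 393)) (M (nat_lit 554) (B (lo110_17_7 (nat_lit 457)) (M (nat_lit 555) (B (lo110_14_4 (nat_lit 587)) (lo110_13_4 (nat_lit 523)))))))) (B (M (nat_lit 554) (B (M (nat_lit 553) (B (lo110_14_5 (nat_lit 585)) (lo110_13_5 (nat_lit 521)))) (M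 (nat_lit 555) (B (lo110_14_4 (nat_lit 587)) (lo110_13_4 (nat_lit 523)))))) (M (nat_lit 393) (B (lo110_16_7 (nat_lit 425)) (M (nat_lit 394) (B (lo110_15_7 (nat_lit 361)) (M (nat_lit 395) (B (lo19_12_0 (nat_lit 396)) (lo110_15_6 (nat_lit 363))))))))))) (B (K _ _ _ o1_s39747) (B (M (nat_lit 522) (B (M (nat_lit 554) (B (M (nat_lit 553) (B (lo110_14_5 (nat_lit 585)) (lo110_13_5 (nat_lit 521)))) (M (nat_lit 555) (B (lo110_14_4 (nat_lit 587)) (lo110_13_4 (nat_lit 523)))))) (B (M (nat_lit 524) (B (M (nat_lit 492) (B (lo112_17_6 (nat_lit 556)) (lo112_16_6 (nat_lit 397)))) (M (nat_lit 489) (B (M (nat_lit 521) (B (lo110_13_5 (nat_lit 553)) (lo110_12_5 (nat_lit 394)))) (M (nat_lit 523) (B (lo113_16_3 (nat_lit 525)) (lo110_13_4 (nat_lit 555)))))))) (B (M (nat_lit 524) (B (M (nat_lit 492) (B (lo112_17_6 (nat_lit 556)) (lo112_16_6 (nat_lit 397)))) (M (nat_lit 523) (B (lo110_13_4 (nat_lit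 555)) (M (nat_lit 489) (B (lo113_16_3 (nat_lit 525)) (M (nat_lit 521) (B (lo112_16_3 (nat_lit 488)) (lo110_12_5 (nat_lit 394)))))))))) (B (M (nat_lit 554) (B (M (nat_lit 555) (B (lo110_14_4 (nat_lit 587)) (lo110_13_4 (nat_lit 523)))) (M (nat_lit 586) (B (M (nat_lit 585) (B (lo110_15_5 (nat_lit 617)) (lo110_14_5 (nat_lit 553)))) (M (nat_lit 457) (B (lo110_18_7 (nat_lit 489)) (lo110_17_7 (nat_lit 425)))))))) (M (nat_lit 425) (B (M (nat_lit 554) (B (lo110_17_7 (nat_lit 457)) (M (nat_lit 553) (B (lo110_14_5 (nat_lit 585)) (lo110_13_5 (nat_lit 521)))))) (B (M (nat_lit 394) (B (M (nat_lit 457) (B (lo110_17_7 (nat_lit 554)) (M (nat_lit 362) (B (lo110_11_5 (nat_lit 489)) (lo110_10_5 (nat_lit 330)))))) (M (nat_lit 397) (B (M (nat_lit 395) (B (lo113_12_1 (nat_lit 396)) (lo110_15_6 (nat_lit 363)))) (M (nat_lit 492) (B (lo112_16_6 (nat_lit 524)) (lo113_11_5 (nat_lit 365)))))))) (M (nat_lit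 397) (B (M (nat_lit 492) (B (lo112_16_6 (nat_lit 524)) (lo113_11_5 (nat_lit 365)))) (M (nat_lit 394) (B (M (nat_lit 521) (B (lo110_13_5 (nat_lit 553)) (lo110_12_5 (nat_lit 489)))) (M (nat_lit 395) (B (lo113_12_1 (nat_lit 396)) (lo110_15_6 (nat_lit 363)))))))))))))))) (M (nat_lit 522) (B (M (nat_lit 554) (B (M (nat_lit 553) (B (lo110_14_5 (nat_lit 585)) (lo110_13_5 (nat_lit 521)))) (M (nat_lit 555) (B (lo110_14_4 (nat_lit 587)) (lo110_13_4 (nat_lit 523)))))) (B (M (nat_lit 425) (B (lo110_16_7 (nat_lit 393)) (M (nat_lit 554) (B (lo110_17_7 (nat_lit 457)) (M (nat_lit 555) (B (lo110_14_4 (nat_lit 587)) (lo110_13_4 (nat_lit 523)))))))) (B (M (nat_lit 523) (B (lo110_13_4 (nat_lit 555)) (M (nat_lit 521) (B (lo110_13_5 (nat_lit 553)) (M (nat_lit 524) (B (M (nat_lit 489) (B (lo112_16_3 (nat_lit 488)) (lo113_16_3 (nat_lit 525)))) (M (nat_lit 556) (B (lo19_16_0 (nat_lit 557)) (lo112_17_6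 (nat_lit 492)))))))))) (M (nat_lit 554) (B (M (nat_lit 553) (B (lo110_14_5 (nat_lit 585)) (lo110_13_5 (nat_lit 521)))) (M (nat_lit 425) (B (lo110_17_7 (nat_lit 457)) (lo110_16_7 (nat_lit 393))))))))))))))))))))))) (B (M (nat_lit 427) (B (M (nat_lit 426) (B (lo19_13_0 (nat_lit 425)) (lo110_13_0 (nat_lit 462)))) (B (M (nat_lit 462) (B (lo110_13_0 (nat_lit 426)) (lo115_14_3 (nat_lit 463)))) (B (K _ _ _ o1_s21729) (M (nat_lit 426) (B (lo19_13_0 (nat_lit 425)) (M (nat_lit 458) (B (lo113_13_1 (nat_lit 457)) (M (nat_lit 490) (B (M (nat_lit 394) (B (lo113_13_3 (nat_lit 393)) (M (nat_lit 395) (B (lo110_16_6 (nat_lit 522)) (lo110_15_6 (nat_lit 363)))))) (B (M (nat_lit 395) (B (lo110_16_6 (nat_lit 522)) (M (nat_lit 459) (B (lo113_14_1 (nat_lit 489)) (lo111_11_5 (nat_lit 363)))))) (M (nat_lit 394) (B (lo113_13_3 (nat_lit 393)) (M (nat_lit 489) (B (lo110_12_5 (nat_lit 521)) (lo113_14_1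 (nat_lit 459))))))))))))))))) (K _ _ _ o1_s39631)))))))))) (B (M (nat_lit 492) (B (M (nat_lit 397) (B (lo112_16_6 (nat_lit 524)) (M (nat_lit 365) (B (lo113_11_5 (nat_lit 461)) (lo113_10_5 (nat_lit 333)))))) (B (M (nat_lit 397) (B (M (nat_lit 365) (B (lo112_15_6 (nat_lit 396)) (lo113_11_5 (nat_lit 461)))) (B (M (nat_lit 365) (B (lo113_11_5 (nat_lit 461)) (lo113_10_5 (nat_lit 333)))) (B (M (nat_lit 365) (B (lo112_15_6 (nat_lit 396)) (lo113_10_5 (nat_lit 333)))) (M (nat_lit 491) (B (M (nat_lit 493) (B (M (nat_lit 396) (B (lo112_12_5 (nat_lit 523)) (lo112_12_4 (nat_lit 525)))) (B (M (nat_lit 461) (B (M (nat_lit 490) (B (lo19_15_2 (nat_lit 489)) (lo110_15_2 (nat_lit 462)))) (M (nat_lit 525) (B (lo112_12_4 (nat_lit 396)) (lo113_17_7 (nat_lit 557)))))) (B (K _ _ _ o1_s39951) (M (nat_lit 523) (B (lo112_12_5 (nat_lit 396)) (M (nat_lit 522) (B (lo114_15_1 (nat_lit 494)) (M (nat_lit 521)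 (B (lo18_16_2 (nat_lit 520)) (lo113_15_1 (nat_lit 490)))))))))))) (B (M (nat_lit 493) (B (M (nat_lit 396) (B (lo112_12_5 (nat_lit 523)) (lo112_12_4 (nat_lit 525)))) (B (M (nat_lit 461) (B (M (nat_lit 490) (B (lo19_15_2 (nat_lit 489)) (lo110_15_2 (nat_lit 462)))) (M (nat_lit 525) (B (lo112_12_4 (nat_lit 396)) (lo113_17_7 (nat_lit 557)))))) (B (K _ _ _ o1_s39951) (M (nat_lit 523) (B (lo112_12_5 (nat_lit 396)) (M (nat_lit 461) (B (M (nat_lit 490) (B (lo19_15_2 (nat_lit 489)) (lo110_15_2 (nat_lit 462)))) (M (nat_lit 494) (B (lo114_15_1 (nat_lit 522)) (lo113_12_4 (nat_lit 526)))))))))))) (B (M (nat_lit 493) (B (M (nat_lit 396) (B (lo112_12_5 (nat_lit 523)) (lo112_12_4 (nat_lit 525)))) (B (M (nat_lit 461) (B (M (nat_lit 462) (B (lo110_15_2 (nat_lit 490)) (lo115_14_1 (nat_lit 463)))) (M (nat_lit 525) (B (lo112_12_4 (nat_lit 396)) (lo113_17_7 (nat_lit 557)))))) (B (M (nat_lit 461)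 (B (M (nat_lit 462) (B (lo110_15_2 (nat_lit 490)) (lo115_14_1 (nat_lit 463)))) (M (nat_lit 525) (B (lo113_17_7 (nat_lit 557)) (M (nat_lit 526) (B (lo113_13_4 (nat_lit 558)) (lo113_12_4 (nat_lit 494)))))))) (M (nat_lit 523) (B (lo112_12_5 (nat_lit 396)) (M (nat_lit 522) (B (lo114_15_1 (nat_lit 494)) (M (nat_lit 521) (B (lo18_16_2 (nat_lit 520)) (lo113_15_1 (nat_lit 490)))))))))))) (B (M (nat_lit 426) (B (M (nat_lit 427) (B (lo110_13_2 (nat_lit 398)) (M (nat_lit 461) (B (lo19_13_0 (nat_lit 425)) (lo110_13_0 (nat_lit 462)))))) (B (M (nat_lit 461) (B (M (nat_lit 427) (B (lo110_13_0 (nat_lit 462)) (lo110_13_2 (nat_lit 398)))) (B (M (nat_lit 462) (B (lo115_14_1 (nat_lit 463)) (M (nat_lit 490) (B (lo19_15_2 (nat_lit 489)) (lo110_15_2 (nat_lit 493)))))) (M (nat_lit 493) (B (M (nat_lit 396) (B (lo112_12_5 (nat_lit 523)) (lo112_12_4 (nat_lit 525)))) (M (nat_lit 398) (B (lo110_13_2 (nat_lit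 427)) (lo113_15_6 (nat_lit 366))))))))) (M (nat_lit 396) (B (lo112_12_5 (nat_lit 523)) (M (nat_lit 395) (B (lo112_15_7 (nat_lit 363)) (M (nat_lit 394) (B (lo113_12_1 (nat_lit 425)) (lo19_12_0 (nat_lit 393))))))))))) (B (K _ _ _ o1_s40021) (B (M (nat_lit 493) (B (M (nat_lit 525) (B (lo112_12_4 (nat_lit 396)) (M (nat_lit 461) (B (lo113_17_7 (nat_lit 557)) (M (nat_lit 490) (B (lo19_15_2 (nat_lit 489)) (lo110_15_0 (nat_lit 526)))))))) (B (M (nat_lit 461) (B (M (nat_lit 462) (B (lo110_15_2 (nat_lit 490)) (lo115_14_1 (nat_lit 463)))) (M (nat_lit 525) (B (lo112_12_4 (nat_lit 396)) (lo113_17_7 (nat_lit 557)))))) (B (M (nat_lit 525) (B (lo112_12_4 (nat_lit 396)) (M (nat_lit 461) (B (lo113_17_7 (nat_lit 557)) (M (nat_lit 526) (B (lo113_13_4 (nat_lit 558)) (lo113_12_4 (nat_lit 494)))))))) (B (K _ _ _ o1_s39951) (B (M (nat_lit 490) (B (M (nat_lit 525) (B (lo110_15_0 (nat_lit 526)) (lo112_12_4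 (nat_lit 396)))) (M (nat_lit 461) (B (lo19_15_2 (nat_lit 489)) (lo110_15_2 (nat_lit 462)))))) (B (M (nat_lit 398) (B (M (nat_lit 461) (B (lo113_15_6 (nat_lit 366)) (M (nat_lit 490) (B (lo19_15_2 (nat_lit 489)) (lo110_15_2 (nat_lit 462)))))) (M (nat_lit 427) (B (lo110_13_2 (nat_lit 426)) (M (nat_lit 399) (B (lo115_12_1 (nat_lit 396)) (lo116_12_1 (nat_lit 400)))))))) (M (nat_lit 490) (B (M (nat_lit 525) (B (lo110_15_0 (nat_lit 526)) (lo112_12_4 (nat_lit 396)))) (M (nat_lit 489) (B (M (nat_lit 521) (B (lo112_15_1 (nat_lit 520)) (lo113_15_1 (nat_lit 522)))) (M (nat_lit 457) (B (lo112_15_3 (nat_lit 456)) (lo113_15_3 (nat_lit 458))))))))))))))) (M (nat_lit 490) (B (M (nat_lit 461) (B (lo19_15_2 (nat_lit 489)) (M (nat_lit 462) (B (lo110_15_2 (nat_lit 493)) (lo115_14_1 (nat_lit 463)))))) (B (M (nat_lit 493) (B (M (nat_lit 525) (B (lo110_15_0 (nat_lit 526)) (M (nat_lit 461) (B (lo110_15_2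 (nat_lit 462)) (lo113_17_7 (nat_lit 557)))))) (B (M (nat_lit 461) (B (lo110_15_2 (nat_lit 462)) (M (nat_lit 526) (B (lo110_15_0 (nat_lit 525)) (lo113_12_4 (nat_lit 494)))))) (B (M (nat_lit 494) (B (M (nat_lit 522) (B (lo113_15_1 (nat_lit 521)) (lo114_15_1 (nat_lit 523)))) (M (nat_lit 461) (B (lo110_15_2 (nat_lit 462)) (lo113_12_4 (nat_lit 526)))))) (B (M (nat_lit 494) (B (M (nat_lit 522) (B (lo113_15_1 (nat_lit 521)) (lo114_15_1 (nat_lit 523)))) (M (nat_lit 526) (B (lo110_15_0 (nat_lit 525)) (lo111_15_0 (nat_lit 527)))))) (M (nat_lit 494) (B (M (nat_lit 522) (B (lo113_15_1 (nat_lit 521)) (lo114_15_1 (nat_lit 523)))) (M (nat_lit 462) (B (lo110_15_2 (nat_lit 461)) (lo111_15_2 (nat_lit 463))))))))))) (B (K _ _ _ o1_s40082) (M (nat_lit 458) (B (M (nat_lit 457) (B (lo113_15_3 (nat_lit 493)) (M (nat_lit 456) (B (lo17_14_0 (nat_lit 455)) (lo112_15_3 (nat_lit 489)))))) (B (M (nat_lit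 426) (B (M (nat_lit 427) (B (lo113_13_1 (nat_lit 457)) (lo110_13_2 (nat_lit 398)))) (M (nat_lit 523) (B (lo110_12_4 (nat_lit 394)) (M (nat_lit 555) (B (lo110_13_4 (nat_lit 522)) (lo111_18_7 (nat_lit 587)))))))) (K _ _ _ o1_s40108))))))))))))))))))) (B (M (nat_lit 397) (B (lo112_16_6 (nat_lit 524)) (M (nat_lit 365) (B (lo112_15_6 (nat_lit 396)) (lo113_10_5 (nat_lit 333)))))) (K _ _ _ o1_s40113))))) (B (M (nat_lit 492) (B (M (nat_lit 397) (B (lo112_16_6 (nat_lit 524)) (M (nat_lit 365) (B (lo112_15_6 (nat_lit 396)) (lo113_10_5 (nat_lit 333)))))) (B (K _ _ _ o1_s40146) (B (M (nat_lit 397) (B (lo112_16_6 (nat_lit 524)) (M (nat_lit 365) (B (lo113_11_5 (nat_lit 461)) (lo113_10_5 (nat_lit 333)))))) (K _ _ _ o1_s26263))))) (B (M (nat_lit 492) (B (M (nat_lit 397) (B (lo112_16_6 (nat_lit 524)) (M (nat_lit 365) (B (lo113_11_5 (nat_lit 461)) (lo113_10_5 (nat_lit 333)))))) (B (K _ _ _ o1_s40146)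 (B (M (nat_lit 397) (B (lo112_16_6 (nat_lit 524)) (M (nat_lit 365) (B (lo112_15_6 (nat_lit 396)) (lo113_10_5 (nat_lit 333)))))) (K _ _ _ o1_s40168))))) (B (M (nat_lit 461) (B (M (nat_lit 462) (B (M (nat_lit 463) (B (lo115_14_3 (nat_lit 427)) (lo116_14_3 (nat_lit 464)))) (K _ _ _ o1_s39562))) (B (M (nat_lit 493) (B (M (nat_lit 525) (B (lo113_17_7 (nat_lit 557)) (lo113_16_7 (nat_lit 396)))) (B (K _ _ _ o1_s40174) (B (K _ _ _ o1_s40175) (M (nat_lit 397) (B (M (nat_lit 365) (B (lo113_11_5 (nat_lit 492)) (lo113_10_5 (nat_lit 333)))) (M (nat_lit 398) (B (lo113_15_6 (nat_lit 366)) (M (nat_lit 427) (B (lo110_13_2 (nat_lit 426)) (M (nat_lit 399) (B (lo115_12_1 (nat_lit 396)) (lo116_12_1 (nat_lit 400)))))))))))))) (B (M (nat_lit 493) (B (M (nat_lit 525) (B (lo113_17_7 (nat_lit 557)) (lo113_16_7 (nat_lit 396)))) (M (nat_lit 494) (B (M (nat_lit 397) (B (lo113_12_4 (nat_lit 526)) (M (nat_lit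 365) (B (lo113_11_5 (nat_lit 492)) (lo113_10_5 (nat_lit 333)))))) (B (M (nat_lit 397) (B (lo113_12_4 (nat_lit 526)) (M (nat_lit 365) (B (lo113_10_5 (nat_lit 333)) (lo113_11_4 (nat_lit 462)))))) (M (nat_lit 459) (B (lo110_14_0 (nat_lit 458)) (M (nat_lit 495) (B (lo115_15_3 (nat_lit 492)) (lo116_15_3 (nat_lit 496))))))))))) (B (M (nat_lit 462) (B (M (nat_lit 427) (B (lo110_13_0 (nat_lit 426)) (lo115_14_3 (nat_lit 463)))) (B (M (nat_lit 463) (B (lo115_14_3 (nat_lit 427)) (lo116_14_3 (nat_lit 464)))) (B (K _ _ _ o1_s39597) (K _ _ _ o1_s40190))))) (B (M (nat_lit 462) (B (M (nat_lit 427) (B (lo110_13_0 (nat_lit 426)) (lo115_14_3 (nat_lit 463)))) (B (M (nat_lit 463) (B (lo115_14_3 (nat_lit 427)) (lo116_14_3 (nat_lit 464)))) (B (K _ _ _ o1_s39597) (K _ _ _ o1_s40197))))) (M (nat_lit 459) (B (K _ _ _ o1_s40202) (B (M (nat_lit 427) (B (M (nat_lit 426) (B (lo19_13_0 (nat_lit 425)) (lo114_14_3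 (nat_lit 462)))) (B (M (nat_lit 462) (B (lo114_14_3 (nat_lit 426)) (lo115_14_3 (nat_lit 463)))) (B (M (nat_lit 491) (B (M (nat_lit 462) (B (lo114_14_1 (nat_lit 490)) (lo115_14_3 (nat_lit 463)))) (M (nat_lit 523) (B (lo111_17_6 (nat_lit 555)) (lo111_16_6 (nat_lit 396)))))) (M (nat_lit 397) (B (M (nat_lit 426) (B (lo19_13_0 (nat_lit 425)) (lo110_13_2 (nat_lit 398)))) (M (nat_lit 365) (B (lo113_11_5 (nat_lit 492)) (lo113_10_5 (nat_lit 333)))))))))) (B (K _ _ _ o1_s40214) (B (K _ _ _ o1_s39248) (B (M (nat_lit 458) (B (lo19_14_2 (nat_lit 457)) (K _ _ _ o1_s40220))) (M (nat_lit 426) (B (M (nat_lit 458) (B (lo19_14_2 (nat_lit 457)) (lo113_14_3 (nat_lit 425)))) (B (M (nat_lit 425) (B (lo113_14_3 (nat_lit 458)) (lo19_13_0 (nat_lit 427)))) (M (nat_lit 397) (B (M (nat_lit 365) (B (lo113_11_5 (nat_lit 492)) (lo113_10_5 (nat_lit 333)))) (M (nat_lit 493) (B (M (nat_lit 525) (B (lo113_17_7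 (nat_lit 557)) (lo113_16_7 (nat_lit 396)))) (M (nat_lit 398) (B (lo110_13_2 (nat_lit 427)) (lo113_15_6 (nat_lit 366))))))))))))))))))))))) (B (M (nat_lit 461) (B (M (nat_lit 493) (B (M (nat_lit 525) (B (lo113_17_7 (nat_lit 557)) (lo113_16_7 (nat_lit 396)))) (M (nat_lit 462) (B (M (nat_lit 427) (B (lo110_13_0 (nat_lit 426)) (lo115_14_3 (nat_lit 463)))) (M (nat_lit 494) (B (M (nat_lit 495) (B (lo111_14_0 (nat_lit 459)) (lo116_15_3 (nat_lit 496)))) (M (nat_lit 397) (B (lo113_12_4 (nat_lit 526)) (lo113_11_4 (nat_lit 365)))))))))) (B (M (nat_lit 462) (B (M (nat_lit 463) (B (lo115_14_3 (nat_lit 427)) (lo116_14_3 (nat_lit 464)))) (K _ _ _ o1_s39562))) (B (M (nat_lit 493) (B (M (nat_lit 525) (B (lo113_17_7 (nat_lit 557)) (lo113_16_7 (nat_lit 396)))) (B (K _ _ _ o1_s40239) (B (M (nat_lit 397) (B (M (nat_lit 365) (B (lo113_10_5 (nat_lit 333)) (M (nat_lit 366) (B (lo113_15_6 (nat_lit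 398)) (lo113_14_6 (nat_lit 334)))))) (M (nat_lit 525) (B (lo113_16_7 (nat_lit 396)) (M (nat_lit 526) (B (lo113_13_4 (nat_lit 558)) (lo113_12_4 (nat_lit 494)))))))) (M (nat_lit 397) (B (M (nat_lit 365) (B (lo113_10_5 (nat_lit 333)) (M (nat_lit 494) (B (lo113_12_4 (nat_lit 526)) (lo113_11_4 (nat_lit 462)))))) (M (nat_lit 398) (B (lo113_15_6 (nat_lit 366)) (M (nat_lit 427) (B (lo110_13_2 (nat_lit 426)) (M (nat_lit 399) (B (lo115_12_1 (nat_lit 396)) (lo116_12_1 (nat_lit 400)))))))))))))) (B (M (nat_lit 493) (B (M (nat_lit 525) (B (lo113_17_7 (nat_lit 557)) (lo113_16_7 (nat_lit 396)))) (M (nat_lit 397) (B (M (nat_lit 365) (B (lo113_10_5 (nat_lit 333)) (M (nat_lit 494) (B (lo113_12_4 (nat_lit 526)) (lo113_11_4 (nat_lit 462)))))) (B (M (nat_lit 494) (B (lo113_12_4 (nat_lit 526)) (M (nat_lit 459) (B (lo110_14_0 (nat_lit 458)) (M (nat_lit 495) (B (lo111_14_0 (nat_lit 462)) (lo116_15_3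 (nat_lit 496)))))))) (M (nat_lit 365) (B (lo113_10_5 (nat_lit 333)) (M (nat_lit 366) (B (lo113_15_6 (nat_lit 398)) (lo113_14_6 (nat_lit 334))))))))))) (B (M (nat_lit 462) (B (M (nat_lit 463) (B (lo115_14_3 (nat_lit 427)) (lo116_14_3 (nat_lit 464)))) (K _ _ _ o1_s39610))) (B (M (nat_lit 462) (B (M (nat_lit 427) (B (lo110_13_0 (nat_lit 426)) (lo115_14_3 (nat_lit 463)))) (B (M (nat_lit 463) (B (lo115_14_3 (nat_lit 427)) (lo116_14_3 (nat_lit 464)))) (B (M (nat_lit 459) (B (M (nat_lit 490) (B (lo114_14_1 (nat_lit 491)) (M (nat_lit 458) (B (lo113_14_1 (nat_lit 489)) (lo19_14_2 (nat_lit 457)))))) (M (nat_lit 495) (B (lo111_14_0 (nat_lit 494)) (M (nat_lit 463) (B (lo112_14_0 (nat_lit 496)) (lo116_14_3 (nat_lit 464)))))))) (K _ _ _ o1_s40197))))) (B (M (nat_lit 459) (B (K _ _ _ o1_s40202) (B (M (nat_lit 458) (B (lo19_14_2 (nat_lit 457)) (K _ _ _ o1_s40263))) (B (M (nat_lit 458) (B (M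 (nat_lit 426) (B (lo113_14_3 (nat_lit 425)) (M (nat_lit 462) (B (lo114_14_3 (nat_lit 427)) (M (nat_lit 490) (B (lo113_14_1 (nat_lit 489)) (lo114_14_1 (nat_lit 491)))))))) (B (K _ _ _ o1_s40263) (B (M (nat_lit 462) (B (M (nat_lit 490) (B (lo113_14_1 (nat_lit 489)) (lo114_14_1 (nat_lit 491)))) (M (nat_lit 463) (B (lo115_14_3 (nat_lit 427)) (lo116_14_3 (nat_lit 464)))))) (B (K _ _ _ o1_s40266) (B (K _ _ _ o1_s40220) (K _ _ _ o1_s40273))))))) (B (K _ _ _ o1_s40214) (B (M (nat_lit 427) (B (M (nat_lit 426) (B (lo19_13_0 (nat_lit 425)) (lo114_14_3 (nat_lit 462)))) (B (M (nat_lit 462) (B (lo114_14_3 (nat_lit 426)) (lo115_14_3 (nat_lit 463)))) (B (M (nat_lit 491) (B (M (nat_lit 462) (B (lo114_14_1 (nat_lit 490)) (lo115_14_3 (nat_lit 463)))) (M (nat_lit 523) (B (lo111_17_6 (nat_lit 555)) (lo111_16_6 (nat_lit 396)))))) (K _ _ _ o1_s40282))))) (B (M (nat_lit 458) (B (lo19_14_2 (nat_lit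 457)) (K _ _ _ o1_s40266))) (B (M (nat_lit 458) (B (lo19_14_2 (nat_lit 457)) (K _ _ _ o1_s40220))) (M (nat_lit 458) (B (lo19_14_2 (nat_lit 457)) (K _ _ _ o1_s40273))))))))))) (M (nat_lit 458) (B (M (nat_lit 426) (B (M (nat_lit 457) (B (lo113_13_1 (nat_lit 427)) (lo19_14_2 (nat_lit 459)))) (B (M (nat_lit 425) (B (lo113_14_3 (nat_lit 459)) (lo19_13_0 (nat_lit 427)))) (B (M (nat_lit 427) (B (lo113_13_1 (nat_lit 457)) (lo19_13_0 (nat_lit 425)))) (M (nat_lit 459) (B (lo19_14_2 (nat_lit 457)) (lo113_14_3 (nat_lit 425)))))))) (B (M (nat_lit 493) (B (M (nat_lit 525) (B (lo113_17_7 (nat_lit 557)) (lo113_16_7 (nat_lit 396)))) (M (nat_lit 397) (B (M (nat_lit 494) (B (lo110_14_0 (nat_lit 459)) (lo113_12_4 (nat_lit 526)))) (M (nat_lit 365) (B (lo113_10_5 (nat_lit 333)) (M (nat_lit 366) (B (lo113_15_6 (nat_lit 398)) (lo113_14_6 (nat_lit 334)))))))))) (M (nat_lit 426) (B (M (nat_lit 427)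 (B (lo113_13_1 (nat_lit 457)) (lo19_13_0 (nat_lit 425)))) (B (M (nat_lit 490) (B (M (nat_lit 427) (B (lo19_13_0 (nat_lit 425)) (M (nat_lit 394) (B (lo113_13_3 (nat_lit 393)) (M (nat_lit 395) (B (lo110_16_6 (nat_lit 522)) (lo110_15_6 (nat_lit 363)))))))) (B (M (nat_lit 394) (B (M (nat_lit 393) (B (lo110_15_7 (nat_lit 361)) (lo113_13_3 (nat_lit 427)))) (M (nat_lit 522) (B (M (nat_lit 521) (B (lo110_13_5 (nat_lit 553)) (lo110_12_5 (nat_lit 489)))) (M (nat_lit 523) (B (lo110_13_4 (nat_lit 555)) (lo110_12_4 (nat_lit 491)))))))) (B (M (nat_lit 427) (B (lo19_13_0 (nat_lit 425)) (M (nat_lit 395) (B (lo110_16_6 (nat_lit 522)) (M (nat_lit 363) (B (lo110_15_6 (nat_lit 394)) (lo111_10_5 (nat_lit 331)))))))) (B (M (nat_lit 397) (B (M (nat_lit 427) (B (lo19_13_0 (nat_lit 425)) (lo110_13_2 (nat_lit 398)))) (B (M (nat_lit 493) (B (M (nat_lit 525) (B (lo113_17_7 (nat_lit 557)) (lo113_16_7 (nat_lit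 396)))) (M (nat_lit 398) (B (lo110_13_2 (nat_lit 427)) (lo113_15_6 (nat_lit 366)))))) (B (M (nat_lit 493) (B (M (nat_lit 525) (B (lo113_17_7 (nat_lit 557)) (lo113_16_7 (nat_lit 396)))) (M (nat_lit 365) (B (lo113_10_5 (nat_lit 333)) (M (nat_lit 366) (B (lo113_15_6 (nat_lit 398)) (lo113_14_6 (nat_lit 334)))))))) (M (nat_lit 394) (B (M (nat_lit 393) (B (lo110_15_7 (nat_lit 361)) (lo113_13_3 (nat_lit 427)))) (B (M (nat_lit 425) (B (lo19_13_0 (nat_lit 427)) (M (nat_lit 395) (B (lo113_12_1 (nat_lit 396)) (lo110_15_6 (nat_lit 363)))))) (M (nat_lit 395) (B (lo110_15_6 (nat_lit 363)) (M (nat_lit 393) (B (lo110_15_7 (nat_lit 361)) (lo19_12_0 (nat_lit 396))))))))))))) (B (M (nat_lit 522) (B (M (nat_lit 425) (B (lo110_16_7 (nat_lit 393)) (lo19_13_0 (nat_lit 427)))) (M (nat_lit 554) (B (M (nat_lit 553) (B (lo110_14_5 (nat_lit 585)) (lo110_13_5 (nat_lit 521)))) (M (nat_lit 555) (B (lo110_14_4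 (nat_lit 587)) (lo110_13_4 (nat_lit 523)))))))) (K _ _ _ o1_s40359))))))) (B (M (nat_lit 394) (B (M (nat_lit 427) (B (lo113_13_1 (nat_lit 457)) (lo113_13_3 (nat_lit 393)))) (B (M (nat_lit 393) (B (lo113_13_3 (nat_lit 427)) (M (nat_lit 490) (B (lo110_15_7 (nat_lit 361)) (M (nat_lit 395) (B (lo19_12_0 (nat_lit 396)) (lo110_15_6 (nat_lit 363)))))))) (B (M (nat_lit 457) (B (lo113_13_1 (nat_lit 427)) (M (nat_lit 489) (B (lo110_11_5 (nat_lit 362)) (M (nat_lit 521) (B (lo19_17_6 (nat_lit 553)) (lo110_12_5 (nat_lit 490)))))))) (M (nat_lit 490) (B (M (nat_lit 393) (B (lo110_15_7 (nat_lit 361)) (M (nat_lit 395) (B (lo19_12_0 (nat_lit 396)) (lo110_15_6 (nat_lit 363)))))) (M (nat_lit 522) (B (M (nat_lit 521) (B (lo110_13_5 (nat_lit 553)) (lo110_12_5 (nat_lit 489)))) (M (nat_lit 523) (B (lo110_13_4 (nat_lit 555)) (lo110_12_4 (nat_lit 491)))))))))))) (M (nat_lit 490) (B (K _ _ _ o1_s40359)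 (B (K _ _ _ o1_s39797) (B (M (nat_lit 393) (B (M (nat_lit 394) (B (lo110_15_7 (nat_lit 361)) (M (nat_lit 395) (B (lo19_12_0 (nat_lit 396)) (lo110_15_6 (nat_lit 363)))))) (B (M (nat_lit 394) (B (M (nat_lit 395) (B (lo19_12_0 (nat_lit 396)) (lo110_15_6 (nat_lit 363)))) (M (nat_lit 522) (B (lo110_16_7 (nat_lit 425)) (M (nat_lit 523) (B (lo110_13_4 (nat_lit 555)) (lo110_12_4 (nat_lit 491)))))))) (M (nat_lit 425) (B (lo110_16_7 (nat_lit 522)) (M (nat_lit 361) (B (lo19_11_4 (nat_lit 457)) (lo19_10_4 (nat_lit 329))))))))) (B (M (nat_lit 523) (B (M (nat_lit 555) (B (lo110_13_4 (nat_lit 522)) (M (nat_lit 491) (B (lo110_12_4 (nat_lit 394)) (lo111_18_7 (nat_lit 587)))))) (B (M (nat_lit 394) (B (lo110_12_4 (nat_lit 491)) (M (nat_lit 362) (B (M (nat_lit 489) (B (lo110_12_5 (nat_lit 521)) (lo110_11_5 (nat_lit 457)))) (M (nat_lit 363) (B (lo110_15_6 (nat_lit 395)) (lo110_14_6 (nat_lit 331))))))))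 (M (nat_lit 522) (B (lo110_13_4 (nat_lit 555)) (M (nat_lit 525) (B (M (nat_lit 493) (B (lo113_17_7 (nat_lit 557)) (lo113_16_7 (nat_lit 396)))) (M (nat_lit 524) (B (lo113_16_3 (nat_lit 489)) (M (nat_lit 553) (B (lo110_13_5 (nat_lit 521)) (lo113_16_1 (nat_lit 554))))))))))))) (B (M (nat_lit 522) (B (M (nat_lit 554) (B (M (nat_lit 553) (B (lo110_14_5 (nat_lit 585)) (lo110_13_5 (nat_lit 521)))) (M (nat_lit 555) (B (lo110_14_4 (nat_lit 587)) (lo110_13_4 (nat_lit 523)))))) (B (M (nat_lit 425) (B (lo110_16_7 (nat_lit 393)) (M (nat_lit 554) (B (lo110_17_7 (nat_lit 457)) (M (nat_lit 555) (B (lo110_14_4 (nat_lit 587)) (lo110_13_4 (nat_lit 523)))))))) (B (M (nat_lit 521) (B (lo110_13_5 (nat_lit 553)) (M (nat_lit 523) (B (lo110_13_4 (nat_lit 555)) (M (nat_lit 525) (B (M (nat_lit 493) (B (lo113_17_7 (nat_lit 557)) (lo113_16_7 (nat_lit 396)))) (B (M (nat_lit 493) (B (lo113_17_7 (nat_lit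 557)) (M (nat_lit 524) (B (lo113_16_3 (nat_lit 489)) (lo113_13_5 (nat_lit 556)))))) (B (M (nat_lit 493) (B (lo113_16_7 (nat_lit 396)) (M (nat_lit 524) (B (lo113_16_3 (nat_lit 489)) (lo113_13_5 (nat_lit 556)))))) (M (nat_lit 524) (B (lo113_16_3 (nat_lit 489)) (M (nat_lit 557) (B (lo19_16_0 (nat_lit 556)) (lo110_16_0 (nat_lit 558)))))))))))))) (M (nat_lit 554) (B (M (nat_lit 553) (B (lo110_14_5 (nat_lit 585)) (lo110_13_5 (nat_lit 521)))) (M (nat_lit 425) (B (lo110_17_7 (nat_lit 457)) (lo110_16_7 (nat_lit 393)))))))))) (M (nat_lit 394) (B (M (nat_lit 522) (B (M (nat_lit 393) (B (lo110_16_7 (nat_lit 425)) (lo110_15_7 (nat_lit 361)))) (M (nat_lit 523) (B (lo110_13_4 (nat_lit 555)) (lo110_12_4 (nat_lit 491)))))) (B (M (nat_lit 522) (B (M (nat_lit 521) (B (lo110_13_5 (nat_lit 553)) (lo110_12_5 (nat_lit 489)))) (M (nat_lit 523) (B (lo110_13_4 (nat_lit 555)) (lo110_12_4 (nat_lit 491))))))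 (M (nat_lit 362) (B (M (nat_lit 489) (B (lo110_12_5 (nat_lit 521)) (lo110_11_5 (nat_lit 457)))) (M (nat_lit 363) (B (lo110_15_6 (nat_lit 395)) (lo110_14_6 (nat_lit 331)))))))))))))))))))))))))))))) (B (M (nat_lit 461) (B (M (nat_lit 462) (B (M (nat_lit 463) (B (lo115_14_3 (nat_lit 427)) (lo116_14_3 (nat_lit 464)))) (K _ _ _ o1_s39610))) (B (M (nat_lit 462) (B (M (nat_lit 427) (B (lo110_13_0 (nat_lit 426)) (lo115_14_3 (nat_lit 463)))) (B (M (nat_lit 463) (B (lo115_14_3 (nat_lit 427)) (lo116_14_3 (nat_lit 464)))) (B (M (nat_lit 492) (B (M (nat_lit 463) (B (lo115_14_1 (nat_lit 491)) (lo116_14_3 (nat_lit 464)))) (M (nat_lit 397) (B (lo112_16_6 (nat_lit 524)) (lo113_11_5 (nat_lit 365)))))) (K _ _ _ o1_s40190))))) (B (K _ _ _ o1_s39057) (B (M (nat_lit 462) (B (M (nat_lit 427) (B (lo110_13_0 (nat_lit 426)) (lo115_14_3 (nat_lit 463)))) (B (M (nat_lit 463) (B (lo115_14_3 (nat_lit 427))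 (lo116_14_3 (nat_lit 464)))) (B (M (nat_lit 492) (B (M (nat_lit 463) (B (lo115_14_1 (nat_lit 491)) (lo116_14_3 (nat_lit 464)))) (M (nat_lit 397) (B (lo112_16_6 (nat_lit 524)) (lo113_11_5 (nat_lit 365)))))) (M (nat_lit 397) (B (M (nat_lit 492) (B (lo112_16_6 (nat_lit 524)) (lo113_11_5 (nat_lit 365)))) (B (M (nat_lit 365) (B (lo113_11_5 (nat_lit 492)) (lo113_11_4 (nat_lit 494)))) (B (M (nat_lit 365) (B (lo113_10_5 (nat_lit 333)) (lo113_11_4 (nat_lit 494)))) (M (nat_lit 493) (B (M (nat_lit 525) (B (lo113_17_7 (nat_lit 557)) (M (nat_lit 524) (B (lo113_13_5 (nat_lit 556)) (lo112_16_6 (nat_lit 492)))))) (M (nat_lit 494) (B (lo113_12_4 (nat_lit 526)) (M (nat_lit 495) (B (lo111_14_0 (nat_lit 459)) (lo116_15_3 (nat_lit 496)))))))))))))))) (B (M (nat_lit 397) (B (M (nat_lit 492) (B (lo112_16_6 (nat_lit 524)) (lo113_11_5 (nat_lit 365)))) (B (M (nat_lit 365) (B (lo113_11_5 (nat_lit 492))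 (lo113_10_5 (nat_lit 333)))) (B (M (nat_lit 462) (B (M (nat_lit 463) (B (lo115_14_3 (nat_lit 427)) (lo116_14_3 (nat_lit 464)))) (M (nat_lit 365) (B (lo113_10_5 (nat_lit 333)) (lo113_11_4 (nat_lit 494)))))) (M (nat_lit 493) (B (M (nat_lit 525) (B (lo113_17_7 (nat_lit 557)) (M (nat_lit 524) (B (lo113_13_5 (nat_lit 556)) (lo112_16_6 (nat_lit 492)))))) (B (M (nat_lit 525) (B (lo113_17_7 (nat_lit 557)) (M (nat_lit 526) (B (lo113_13_4 (nat_lit 558)) (lo113_12_4 (nat_lit 494)))))) (B (M (nat_lit 525) (B (M (nat_lit 524) (B (lo113_13_5 (nat_lit 556)) (lo112_16_6 (nat_lit 492)))) (M (nat_lit 526) (B (lo113_13_4 (nat_lit 558)) (lo113_12_4 (nat_lit 494)))))) (M (nat_lit 492) (B (lo112_16_6 (nat_lit 524)) (M (nat_lit 494) (B (lo113_12_4 (nat_lit 526)) (M (nat_lit 459) (B (lo110_14_0 (nat_lit 458)) (lo115_15_3 (nat_lit 495)))))))))))))))) (B (M (nat_lit 493) (B (M (nat_lit 525) (B (lo113_17_7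 (nat_lit 557)) (M (nat_lit 397) (B (M (nat_lit 524) (B (lo113_13_5 (nat_lit 556)) (lo112_16_6 (nat_lit 492)))) (M (nat_lit 526) (B (lo113_13_4 (nat_lit 558)) (lo113_12_4 (nat_lit 494)))))))) (B (K _ _ _ o1_s40174) (B (K _ _ _ o1_s40239) (B (K _ _ _ o1_s40464) (B (M (nat_lit 525) (B (lo113_17_7 (nat_lit 557)) (M (nat_lit 524) (B (lo113_13_5 (nat_lit 556)) (M (nat_lit 492) (B (M (nat_lit 523) (B (lo112_13_5 (nat_lit 555)) (M (nat_lit 522) (B (lo19_16_2 (nat_lit 521)) (lo110_16_2 (nat_lit 494)))))) (M (nat_lit 526) (B (lo113_13_4 (nat_lit 558)) (M (nat_lit 491) (B (lo110_15_0 (nat_lit 490)) (lo115_16_3 (nat_lit 527)))))))))))) (M (nat_lit 397) (B (M (nat_lit 492) (B (lo112_16_6 (nat_lit 524)) (lo113_11_5 (nat_lit 365)))) (B (M (nat_lit 365) (B (lo113_11_5 (nat_lit 492)) (lo113_10_5 (nat_lit 333)))) (B (M (nat_lit 365) (B (lo113_10_5 (nat_lit 333)) (M (nat_lit 366) (B (lo113_15_6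 (nat_lit 398)) (lo113_14_6 (nat_lit 334)))))) (M (nat_lit 525) (B (lo113_17_7 (nat_lit 557)) (M (nat_lit 524) (B (lo113_13_5 (nat_lit 556)) (lo112_16_6 (nat_lit 492)))))))))))))))) (B (M (nat_lit 397) (B (M (nat_lit 492) (B (lo112_16_6 (nat_lit 524)) (lo113_11_5 (nat_lit 365)))) (B (M (nat_lit 365) (B (lo113_11_5 (nat_lit 492)) (lo113_10_5 (nat_lit 333)))) (B (K _ _ _ o1_s40478) (K _ _ _ o1_s40480))))) (B (M (nat_lit 462) (B (M (nat_lit 427) (B (lo110_13_0 (nat_lit 426)) (lo115_14_3 (nat_lit 463)))) (B (M (nat_lit 463) (B (lo115_14_3 (nat_lit 427)) (lo116_14_3 (nat_lit 464)))) (B (M (nat_lit 492) (B (M (nat_lit 463) (B (lo115_14_1 (nat_lit 491)) (lo116_14_3 (nat_lit 464)))) (M (nat_lit 397) (B (lo112_16_6 (nat_lit 524)) (lo113_11_5 (nat_lit 365)))))) (M (nat_lit 459) (B (M (nat_lit 426) (B (lo114_14_3 (nat_lit 427)) (M (nat_lit 458) (B (lo19_14_2 (nat_lit 457)) (lo113_14_3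 (nat_lit 425)))))) (B (M (nat_lit 458) (B (M (nat_lit 490) (B (lo113_14_1 (nat_lit 489)) (lo114_14_1 (nat_lit 491)))) (M (nat_lit 426) (B (lo113_14_3 (nat_lit 425)) (lo114_14_3 (nat_lit 427)))))) (B (M (nat_lit 490) (B (lo114_14_1 (nat_lit 491)) (M (nat_lit 458) (B (lo113_14_1 (nat_lit 489)) (lo19_14_2 (nat_lit 457)))))) (M (nat_lit 427) (B (lo114_14_3 (nat_lit 426)) (M (nat_lit 524) (B (M (nat_lit 492) (B (lo112_17_7 (nat_lit 556)) (lo112_16_7 (nat_lit 395)))) (B (M (nat_lit 492) (B (lo112_17_7 (nat_lit 556)) (lo112_16_6 (nat_lit 397)))) (B (M (nat_lit 492) (B (lo112_16_7 (nat_lit 395)) (lo112_16_6 (nat_lit 397)))) (M (nat_lit 491) (B (lo114_14_1 (nat_lit 490)) (M (nat_lit 523) (B (lo111_17_6 (nat_lit 555)) (lo111_13_4 (nat_lit 556)))))))))))))))))))) (B (M (nat_lit 427) (B (M (nat_lit 426) (B (lo19_13_0 (nat_lit 425)) (lo110_13_0 (nat_lit 462)))) (B (M (nat_lit 462) (B (lo110_13_0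 (nat_lit 426)) (lo115_14_3 (nat_lit 463)))) (B (M (nat_lit 459) (B (M (nat_lit 458) (B (lo19_14_2 (nat_lit 457)) (M (nat_lit 490) (B (lo113_14_1 (nat_lit 489)) (M (nat_lit 462) (B (lo114_14_1 (nat_lit 491)) (lo115_14_3 (nat_lit 463)))))))) (B (M (nat_lit 458) (B (lo19_14_2 (nat_lit 457)) (M (nat_lit 462) (B (lo115_14_3 (nat_lit 463)) (M (nat_lit 494) (B (lo110_14_0 (nat_lit 493)) (lo111_14_0 (nat_lit 495)))))))) (B (K _ _ _ o1_s40503) (B (M (nat_lit 491) (B (M (nat_lit 462) (B (lo114_14_1 (nat_lit 490)) (lo115_14_3 (nat_lit 463)))) (M (nat_lit 395) (B (M (nat_lit 492) (B (lo111_12_4 (nat_lit 524)) (lo111_11_4 (nat_lit 363)))) (B (M (nat_lit 523) (B (lo111_17_6 (nat_lit 555)) (M (nat_lit 524) (B (lo111_13_4 (nat_lit 556)) (lo111_12_4 (nat_lit 492)))))) (B (M (nat_lit 363) (B (lo111_11_4 (nat_lit 492)) (lo111_10_4 (nat_lit 331)))) (M (nat_lit 362) (B (lo111_15_7 (nat_lit 394))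 (M (nat_lit 363) (B (lo111_14_7 (nat_lit 330)) (lo111_10_4 (nat_lit 331)))))))))))) (K _ _ _ o1_s40524)))))) (M (nat_lit 459) (B (K _ _ _ o1_s40282) (B (K _ _ _ o1_s40524) (B (K _ _ _ o1_s40528) (K _ _ _ o1_s40530))))))))) (M (nat_lit 397) (B (M (nat_lit 492) (B (lo112_16_6 (nat_lit 524)) (lo113_11_5 (nat_lit 365)))) (B (M (nat_lit 365) (B (lo113_11_5 (nat_lit 492)) (lo113_10_5 (nat_lit 333)))) (B (M (nat_lit 493) (B (M (nat_lit 525) (B (lo113_17_7 (nat_lit 557)) (M (nat_lit 526) (B (lo113_13_4 (nat_lit 558)) (lo113_12_4 (nat_lit 494)))))) (M (nat_lit 365) (B (lo113_10_5 (nat_lit 333)) (M (nat_lit 366) (B (lo113_15_6 (nat_lit 398)) (lo113_14_6 (nat_lit 334)))))))) (K _ _ _ o1_s40480))))))))))))))) (B (M (nat_lit 461) (B (M (nat_lit 462) (B (M (nat_lit 463) (B (lo115_14_3 (nat_lit 427)) (lo116_14_3 (nat_lit 464)))) (K _ _ _ o1_s39610))) (B (M (nat_lit 493) (B (K _ _ _ o1_s40541)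 (B (K _ _ _ o1_s40175) (B (M (nat_lit 462) (B (M (nat_lit 427) (B (lo110_13_0 (nat_lit 426)) (lo115_14_3 (nat_lit 463)))) (M (nat_lit 494) (B (M (nat_lit 459) (B (lo110_14_0 (nat_lit 458)) (lo111_14_0 (nat_lit 495)))) (M (nat_lit 397) (B (lo113_12_4 (nat_lit 526)) (lo113_11_4 (nat_lit 365)))))))) (M (nat_lit 492) (B (M (nat_lit 427) (B (M (nat_lit 426) (B (lo19_13_0 (nat_lit 425)) (lo110_13_0 (nat_lit 462)))) (M (nat_lit 524) (B (lo112_16_7 (nat_lit 395)) (lo112_17_6 (nat_lit 556)))))) (B (M (nat_lit 524) (B (lo112_17_6 (nat_lit 556)) (M (nat_lit 396) (B (lo112_12_4 (nat_lit 525)) (M (nat_lit 523) (B (lo112_13_5 (nat_lit 555)) (lo112_12_5 (nat_lit 491)))))))) (M (nat_lit 396) (B (lo112_12_4 (nat_lit 525)) (M (nat_lit 491) (B (lo112_12_5 (nat_lit 523)) (M (nat_lit 462) (B (lo110_15_2 (nat_lit 490)) (lo115_14_1 (nat_lit 463))))))))))))))) (B (M (nat_lit 397) (B (M (nat_lit 492)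 (B (lo112_16_6 (nat_lit 524)) (lo113_11_5 (nat_lit 365)))) (B (M (nat_lit 365) (B (lo113_11_5 (nat_lit 492)) (lo113_10_5 (nat_lit 333)))) (B (M (nat_lit 462) (B (M (nat_lit 463) (B (lo115_14_3 (nat_lit 427)) (lo116_14_3 (nat_lit 464)))) (M (nat_lit 365) (B (lo113_10_5 (nat_lit 333)) (lo113_11_4 (nat_lit 494)))))) (K _ _ _ o1_s40556))))) (B (M (nat_lit 493) (B (K _ _ _ o1_s40541) (B (K _ _ _ o1_s40175) (B (M (nat_lit 397) (B (M (nat_lit 525) (B (lo113_16_7 (nat_lit 396)) (M (nat_lit 526) (B (lo113_13_4 (nat_lit 558)) (lo113_12_4 (nat_lit 494)))))) (B (M (nat_lit 365) (B (lo113_10_5 (nat_lit 333)) (M (nat_lit 494) (B (lo113_12_4 (nat_lit 526)) (lo113_11_4 (nat_lit 462)))))) (M (nat_lit 365) (B (lo113_10_5 (nat_lit 333)) (M (nat_lit 366) (B (lo113_15_6 (nat_lit 398)) (lo113_14_6 (nat_lit 334))))))))) (B (K _ _ _ o1_s40464) (M (nat_lit 492) (B (M (nat_lit 427) (B (M (nat_lit 426)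 (B (lo19_13_0 (nat_lit 425)) (lo110_13_0 (nat_lit 462)))) (M (nat_lit 524) (B (lo112_16_7 (nat_lit 395)) (lo112_17_6 (nat_lit 556)))))) (B (M (nat_lit 491) (B (M (nat_lit 490) (B (lo19_15_2 (nat_lit 489)) (lo110_15_2 (nat_lit 462)))) (M (nat_lit 396) (B (lo112_12_5 (nat_lit 523)) (lo112_12_4 (nat_lit 525)))))) (M (nat_lit 524) (B (lo112_17_6 (nat_lit 556)) (M (nat_lit 396) (B (lo112_12_4 (nat_lit 525)) (M (nat_lit 523) (B (lo112_13_5 (nat_lit 555)) (lo112_12_5 (nat_lit 491)))))))))))))))) (B (M (nat_lit 492) (B (M (nat_lit 524) (B (lo112_17_6 (nat_lit 556)) (lo112_16_6 (nat_lit 397)))) (B (M (nat_lit 397) (B (lo112_16_6 (nat_lit 524)) (lo113_11_5 (nat_lit 365)))) (B (M (nat_lit 493) (B (M (nat_lit 494) (B (M (nat_lit 459) (B (lo110_14_0 (nat_lit 458)) (lo115_15_3 (nat_lit 495)))) (M (nat_lit 397) (B (lo113_11_5 (nat_lit 365)) (lo113_12_4 (nat_lit 526)))))) (M (nat_lit 491)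 (B (M (nat_lit 490) (B (lo19_15_2 (nat_lit 489)) (lo110_15_2 (nat_lit 462)))) (M (nat_lit 396) (B (lo112_12_5 (nat_lit 523)) (lo112_12_4 (nat_lit 525)))))))) (M (nat_lit 491) (B (M (nat_lit 462) (B (lo115_14_1 (nat_lit 463)) (M (nat_lit 490) (B (lo19_15_2 (nat_lit 489)) (lo114_14_1 (nat_lit 459)))))) (M (nat_lit 523) (B (lo112_12_5 (nat_lit 396)) (M (nat_lit 524) (B (lo112_13_5 (nat_lit 555)) (lo112_17_6 (nat_lit 556)))))))))))) (B (M (nat_lit 462) (B (M (nat_lit 427) (B (lo110_13_0 (nat_lit 426)) (lo115_14_3 (nat_lit 463)))) (B (M (nat_lit 463) (B (lo115_14_3 (nat_lit 427)) (lo116_14_3 (nat_lit 464)))) (B (M (nat_lit 492) (B (M (nat_lit 463) (B (lo115_14_1 (nat_lit 491)) (lo116_14_3 (nat_lit 464)))) (M (nat_lit 397) (B (lo112_16_6 (nat_lit 524)) (lo113_11_5 (nat_lit 365)))))) (K _ _ _ o1_s40197))))) (B (M (nat_lit 462) (B (M (nat_lit 427) (B (lo110_13_0 (nat_lit 426)) (lo115_14_3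 (nat_lit 463)))) (B (M (nat_lit 463) (B (lo115_14_3 (nat_lit 427)) (lo116_14_3 (nat_lit 464)))) (B (K _ _ _ o1_s39597) (K _ _ _ o1_s40197))))) (M (nat_lit 397) (B (M (nat_lit 492) (B (lo112_16_6 (nat_lit 524)) (lo113_11_5 (nat_lit 365)))) (B (M (nat_lit 365) (B (lo113_11_5 (nat_lit 492)) (lo113_10_5 (nat_lit 333)))) (B (M (nat_lit 493) (B (M (nat_lit 525) (B (lo113_16_7 (nat_lit 396)) (M (nat_lit 526) (B (lo113_13_4 (nat_lit 558)) (lo113_12_4 (nat_lit 494)))))) (M (nat_lit 365) (B (lo113_10_5 (nat_lit 333)) (M (nat_lit 366) (B (lo113_15_6 (nat_lit 398)) (lo113_14_6 (nat_lit 334)))))))) (K _ _ _ o1_s40556))))))))))))) (B (M (nat_lit 492) (B (M (nat_lit 397) (B (lo112_16_6 (nat_lit 524)) (M (nat_lit 365) (B (lo113_11_5 (nat_lit 461)) (lo113_10_5 (nat_lit 333)))))) (B (M (nat_lit 397) (B (M (nat_lit 365) (B (lo112_15_6 (nat_lit 396)) (lo113_11_5 (nat_lit 461)))) (B (M (nat_lit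 365) (B (lo113_11_5 (nat_lit 461)) (lo113_10_5 (nat_lit 333)))) (B (M (nat_lit 365) (B (lo112_15_6 (nat_lit 396)) (lo113_10_5 (nat_lit 333)))) (M (nat_lit 461) (B (M (nat_lit 491) (B (M (nat_lit 462) (B (lo115_14_1 (nat_lit 463)) (M (nat_lit 490) (B (lo19_15_2 (nat_lit 489)) (lo114_14_1 (nat_lit 459)))))) (B (M (nat_lit 462) (B (lo115_14_1 (nat_lit 463)) (M (nat_lit 490) (B (lo114_14_1 (nat_lit 459)) (lo110_15_2 (nat_lit 493)))))) (B (M (nat_lit 523) (B (lo112_12_5 (nat_lit 396)) (M (nat_lit 555) (B (lo111_18_6 (nat_lit 587)) (lo111_17_6 (nat_lit 459)))))) (M (nat_lit 490) (B (lo19_15_2 (nat_lit 489)) (M (nat_lit 462) (B (lo110_15_2 (nat_lit 493)) (lo115_14_1 (nat_lit 463)))))))))) (B (M (nat_lit 493) (B (M (nat_lit 494) (B (lo113_12_4 (nat_lit 526)) (M (nat_lit 495) (B (lo115_15_3 (nat_lit 459)) (lo116_15_3 (nat_lit 496)))))) (M (nat_lit 398) (B (lo113_15_6 (nat_lit 366))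 (M (nat_lit 427) (B (lo110_13_2 (nat_lit 426)) (M (nat_lit 399) (B (lo115_12_1 (nat_lit 396)) (lo116_12_1 (nat_lit 400)))))))))) (B (M (nat_lit 493) (B (M (nat_lit 398) (B (lo113_15_6 (nat_lit 366)) (M (nat_lit 427) (B (lo110_13_2 (nat_lit 426)) (M (nat_lit 399) (B (lo115_12_1 (nat_lit 396)) (lo116_12_1 (nat_lit 400)))))))) (B (K _ _ _ o1_s40603) (M (nat_lit 491) (B (M (nat_lit 490) (B (lo19_15_2 (nat_lit 489)) (lo110_15_2 (nat_lit 462)))) (M (nat_lit 523) (B (lo112_12_5 (nat_lit 396)) (M (nat_lit 494) (B (lo114_15_1 (nat_lit 522)) (lo113_12_4 (nat_lit 526))))))))))) (B (K _ _ _ o1_s40631) (M (nat_lit 462) (B (M (nat_lit 427) (B (lo110_13_0 (nat_lit 426)) (lo115_14_3 (nat_lit 463)))) (B (M (nat_lit 463) (B (lo115_14_1 (nat_lit 491)) (lo116_14_3 (nat_lit 464)))) (M (nat_lit 459) (B (M (nat_lit 426) (B (lo114_14_3 (nat_lit 427)) (M (nat_lit 458) (B (lo19_14_2 (nat_lit 457)) (lo113_14_3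 (nat_lit 425)))))) (M (nat_lit 491) (B (lo114_14_1 (nat_lit 490)) (M (nat_lit 523) (B (lo111_17_6 (nat_lit 555)) (lo112_12_5 (nat_lit 396)))))))))))))))))))) (B (M (nat_lit 397) (B (lo112_16_6 (nat_lit 524)) (M (nat_lit 365) (B (lo112_15_6 (nat_lit 396)) (lo113_10_5 (nat_lit 333)))))) (K _ _ _ o1_s40641))))) (B (M (nat_lit 492) (B (M (nat_lit 397) (B (lo112_16_6 (nat_lit 524)) (M (nat_lit 365) (B (lo112_15_6 (nat_lit 396)) (lo113_10_5 (nat_lit 333)))))) (B (M (nat_lit 397) (B (M (nat_lit 365) (B (lo112_15_6 (nat_lit 396)) (lo113_11_5 (nat_lit 461)))) (B (M (nat_lit 365) (B (lo113_11_5 (nat_lit 461)) (lo113_10_5 (nat_lit 333)))) (B (M (nat_lit 365) (B (lo112_15_6 (nat_lit 396)) (lo113_10_5 (nat_lit 333)))) (M (nat_lit 491) (B (M (nat_lit 523) (B (lo112_12_5 (nat_lit 396)) (M (nat_lit 555) (B (lo111_18_6 (nat_lit 587)) (lo111_17_6 (nat_lit 459)))))) (B (M (nat_lit 427) (B (M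 (nat_lit 426) (B (lo110_13_2 (nat_lit 398)) (M (nat_lit 461) (B (lo19_13_0 (nat_lit 425)) (lo110_13_0 (nat_lit 462)))))) (B (M (nat_lit 396) (B (lo112_12_5 (nat_lit 523)) (M (nat_lit 398) (B (lo110_13_2 (nat_lit 426)) (lo115_12_1 (nat_lit 399)))))) (M (nat_lit 459) (B (M (nat_lit 523) (B (lo111_17_6 (nat_lit 555)) (lo111_16_6 (nat_lit 396)))) (M (nat_lit 490) (B (M (nat_lit 489) (B (lo18_15_2 (nat_lit 488)) (lo19_15_2 (nat_lit 461)))) (M (nat_lit 395) (B (lo111_12_5 (nat_lit 522)) (lo111_11_4 (nat_lit 363))))))))))) (B (M (nat_lit 426) (B (M (nat_lit 427) (B (lo110_13_2 (nat_lit 398)) (M (nat_lit 461) (B (lo19_13_0 (nat_lit 425)) (lo110_13_0 (nat_lit 462)))))) (B (M (nat_lit 427) (B (lo110_13_2 (nat_lit 398)) (M (nat_lit 523) (B (lo112_12_5 (nat_lit 396)) (M (nat_lit 394) (B (lo113_13_3 (nat_lit 393)) (lo111_16_7 (nat_lit 459)))))))) (M (nat_lit 396) (B (lo112_12_5 (nat_lit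 523)) (M (nat_lit 395) (B (lo112_15_7 (nat_lit 363)) (M (nat_lit 394) (B (lo113_12_1 (nat_lit 425)) (lo19_12_0 (nat_lit 393))))))))))) (B (M (nat_lit 427) (B (M (nat_lit 426) (B (lo110_13_2 (nat_lit 398)) (M (nat_lit 461) (B (lo19_13_0 (nat_lit 425)) (lo110_13_0 (nat_lit 462)))))) (B (M (nat_lit 395) (B (M (nat_lit 363) (B (lo111_11_4 (nat_lit 459)) (lo111_10_4 (nat_lit 331)))) (B (M (nat_lit 363) (B (lo111_10_4 (nat_lit 331)) (lo112_15_7 (nat_lit 396)))) (M (nat_lit 459) (B (M (nat_lit 490) (B (lo111_12_5 (nat_lit 522)) (M (nat_lit 489) (B (lo18_15_2 (nat_lit 488)) (lo19_15_2 (nat_lit 461)))))) (M (nat_lit 394) (B (lo111_15_7 (nat_lit 362)) (M (nat_lit 393) (B (lo18_12_0 (nat_lit 392)) (lo19_12_0 (nat_lit 396))))))))))) (M (nat_lit 426) (B (lo110_13_2 (nat_lit 398)) (M (nat_lit 425) (B (lo19_13_2 (nat_lit 396)) (M (nat_lit 393) (B (lo112_13_3 (nat_lit 392)) (lo113_13_3 (nat_lit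 394))))))))))) (B (K _ _ _ o1_s40021) (M (nat_lit 490) (B (M (nat_lit 461) (B (lo19_15_2 (nat_lit 489)) (M (nat_lit 462) (B (lo114_14_1 (nat_lit 459)) (lo115_14_1 (nat_lit 463)))))) (B (M (nat_lit 426) (B (M (nat_lit 427) (B (lo110_13_2 (nat_lit 398)) (M (nat_lit 461) (B (lo19_13_0 (nat_lit 425)) (lo110_13_0 (nat_lit 462)))))) (B (M (nat_lit 427) (B (lo110_13_2 (nat_lit 398)) (M (nat_lit 458) (B (lo113_13_1 (nat_lit 457)) (M (nat_lit 394) (B (lo113_13_3 (nat_lit 393)) (lo110_12_4 (nat_lit 523)))))))) (M (nat_lit 458) (B (M (nat_lit 459) (B (lo19_14_2 (nat_lit 457)) (M (nat_lit 523) (B (lo110_12_4 (nat_lit 394)) (lo111_17_7 (nat_lit 555)))))) (B (M (nat_lit 523) (B (lo110_12_4 (nat_lit 394)) (M (nat_lit 555) (B (lo110_13_4 (nat_lit 522)) (lo111_18_7 (nat_lit 587)))))) (M (nat_lit 459) (B (lo19_14_2 (nat_lit 457)) (M (nat_lit 461) (B (lo113_14_3 (nat_lit 425)) (lo114_14_1 (nat_lit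 462)))))))))))) (B (K _ _ _ o1_s40082) (M (nat_lit 459) (B (M (nat_lit 489) (B (lo18_15_2 (nat_lit 488)) (M (nat_lit 457) (B (lo112_15_3 (nat_lit 456)) (lo19_14_2 (nat_lit 458)))))) (M (nat_lit 427) (B (M (nat_lit 395) (B (lo111_12_5 (nat_lit 522)) (lo111_11_4 (nat_lit 363)))) (M (nat_lit 426) (B (lo110_13_2 (nat_lit 398)) (M (nat_lit 523) (B (lo111_16_7 (nat_lit 394)) (lo111_17_6 (nat_lit 555)))))))))))))))))))))))) (B (M (nat_lit 397) (B (lo112_16_6 (nat_lit 524)) (M (nat_lit 365) (B (lo113_11_5 (nat_lit 461)) (lo113_10_5 (nat_lit 333)))))) (K _ _ _ o1_s40641))))) (B (M (nat_lit 492) (B (M (nat_lit 397) (B (lo112_16_6 (nat_lit 524)) (M (nat_lit 365) (B (lo112_15_6 (nat_lit 396)) (lo113_10_5 (nat_lit 333)))))) (B (M (nat_lit 396) (B (M (nat_lit 397) (B (lo112_15_6 (nat_lit 365)) (M (nat_lit 395) (B (lo112_15_7 (nat_lit 363)) (K _ _ _ o1_s40748))))) (B (M (nat_lit 491) (B (lo112_12_5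 (nat_lit 523)) (M (nat_lit 459) (B (M (nat_lit 458) (B (lo19_14_2 (nat_lit 457)) (M (nat_lit 493) (B (lo114_15_3 (nat_lit 494)) (lo112_12_4 (nat_lit 525)))))) (M (nat_lit 427) (B (M (nat_lit 395) (B (lo111_11_4 (nat_lit 363)) (M (nat_lit 394) (B (lo19_12_0 (nat_lit 393)) (lo111_15_7 (nat_lit 362)))))) (M (nat_lit 397) (B (lo112_15_6 (nat_lit 365)) (M (nat_lit 398) (B (lo110_13_2 (nat_lit 426)) (lo115_12_1 (nat_lit 399)))))))))))) (B (M (nat_lit 491) (B (lo112_12_5 (nat_lit 523)) (M (nat_lit 493) (B (lo112_12_4 (nat_lit 525)) (M (nat_lit 490) (B (M (nat_lit 457) (B (lo113_15_3 (nat_lit 458)) (M (nat_lit 489) (B (lo112_15_3 (nat_lit 456)) (M (nat_lit 521) (B (lo112_15_1 (nat_lit 520)) (lo113_15_1 (nat_lit 522)))))))) (B (M (nat_lit 459) (B (M (nat_lit 458) (B (lo113_15_3 (nat_lit 457)) (lo114_15_3 (nat_lit 494)))) (B (M (nat_lit 494) (B (lo114_15_3 (nat_lit 458)) (lo115_15_3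 (nat_lit 495)))) (M (nat_lit 395) (B (lo112_15_7 (nat_lit 363)) (M (nat_lit 522) (B (lo113_15_1 (nat_lit 521)) (lo111_12_5 (nat_lit 427))))))))) (B (M (nat_lit 489) (B (M (nat_lit 457) (B (lo112_15_3 (nat_lit 456)) (lo113_15_3 (nat_lit 458)))) (B (M (nat_lit 459) (B (lo18_15_2 (nat_lit 488)) (M (nat_lit 458) (B (lo113_15_3 (nat_lit 457)) (lo114_15_3 (nat_lit 494)))))) (B (M (nat_lit 459) (B (lo18_15_2 (nat_lit 488)) (M (nat_lit 494) (B (lo114_15_3 (nat_lit 458)) (lo115_15_3 (nat_lit 495)))))) (M (nat_lit 488) (B (lo18_15_2 (nat_lit 459)) (M (nat_lit 456) (B (lo111_15_3 (nat_lit 455)) (lo112_15_3 (nat_lit 457)))))))))) (B (M (nat_lit 459) (B (M (nat_lit 494) (B (lo114_15_3 (nat_lit 458)) (lo115_15_3 (nat_lit 495)))) (M (nat_lit 395) (B (lo112_15_7 (nat_lit 363)) (M (nat_lit 522) (B (lo113_15_1 (nat_lit 521)) (lo111_12_5 (nat_lit 427)))))))) (M (nat_lit 489) (B (M (nat_lit 521)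 (B (lo112_15_1 (nat_lit 520)) (lo113_15_1 (nat_lit 522)))) (M (nat_lit 488) (B (lo18_15_2 (nat_lit 459)) (M (nat_lit 456) (B (lo111_15_3 (nat_lit 455)) (lo112_15_3 (nat_lit 457))))))))))))))))) (B (M (nat_lit 493) (B (lo112_12_4 (nat_lit 525)) (M (nat_lit 491) (B (lo112_12_5 (nat_lit 523)) (M (nat_lit 458) (B (M (nat_lit 457) (B (lo113_15_3 (nat_lit 490)) (lo19_14_0 (nat_lit 459)))) (B (K _ _ _ o1_s40818) (M (nat_lit 490) (B (lo113_15_3 (nat_lit 457)) (M (nat_lit 521) (B (lo113_15_1 (nat_lit 522)) (M (nat_lit 394) (B (M (nat_lit 489) (B (lo112_15_1 (nat_lit 520)) (lo110_12_5 (nat_lit 426)))) (M (nat_lit 395) (B (lo19_12_0 (nat_lit 393)) (lo112_15_7 (nat_lit 363))))))))))))))))) (M (nat_lit 491) (B (lo112_12_5 (nat_lit 523)) (M (nat_lit 493) (B (lo112_12_4 (nat_lit 525)) (M (nat_lit 458) (B (M (nat_lit 457) (B (lo113_15_3 (nat_lit 490)) (lo19_14_0 (nat_lit 459)))) (B (K _ _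 _ o1_s40818) (M (nat_lit 490) (B (lo113_15_3 (nat_lit 457)) (M (nat_lit 426) (B (M (nat_lit 521) (B (lo113_15_1 (nat_lit 522)) (M (nat_lit 489) (B (lo112_15_1 (nat_lit 520)) (lo110_12_5 (nat_lit 394)))))) (M (nat_lit 397) (B (lo112_15_6 (nat_lit 365)) (M (nat_lit 427) (B (lo19_13_2 (nat_lit 425)) (lo110_13_2 (nat_lit 398)))))))))))))))))))))) (B (K _ _ _ o1_s40850) (M (nat_lit 524) (B (M (nat_lit 396) (B (M (nat_lit 523) (B (lo112_13_5 (nat_lit 555)) (lo112_12_5 (nat_lit 491)))) (M (nat_lit 525) (B (lo112_13_4 (nat_lit 557)) (lo112_12_4 (nat_lit 493)))))) (B (M (nat_lit 556) (B (M (nat_lit 427) (B (lo112_17_7 (nat_lit 459)) (lo112_16_7 (nat_lit 395)))) (M (nat_lit 557) (B (lo112_14_4 (nat_lit 589)) (lo112_13_4 (nat_lit 525)))))) (M (nat_lit 556) (B (M (nat_lit 555) (B (lo112_14_5 (nat_lit 587)) (lo112_13_5 (nat_lit 523)))) (M (nat_lit 427) (B (lo112_17_7 (nat_lit 459)) (lo112_16_7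 (nat_lit 395))))))))))))) (B (M (nat_lit 492) (B (K _ _ _ o1_s40854) (B (K _ _ _ o1_s28627) (B (K _ _ _ o1_s40113) (B (K _ _ _ o1_s26263) (B (K _ _ _ o1_s40168) (B (M (nat_lit 491) (B (M (nat_lit 523) (B (lo112_12_5 (nat_lit 396)) (M (nat_lit 555) (B (lo111_18_6 (nat_lit 587)) (lo111_17_6 (nat_lit 459)))))) (B (M (nat_lit 493) (B (M (nat_lit 396) (B (lo112_12_5 (nat_lit 523)) (lo112_12_4 (nat_lit 525)))) (K _ _ _ o1_s28637))) (B (M (nat_lit 493) (B (M (nat_lit 525) (B (lo112_12_4 (nat_lit 396)) (M (nat_lit 557) (B (lo113_18_7 (nat_lit 589)) (lo113_17_7 (nat_lit 461)))))) (B (K _ _ _ o1_s28637) (M (nat_lit 458) (B (M (nat_lit 457) (B (lo113_15_3 (nat_lit 490)) (lo19_14_0 (nat_lit 459)))) (B (M (nat_lit 526) (B (M (nat_lit 525) (B (lo110_15_0 (nat_lit 490)) (lo112_12_4 (nat_lit 396)))) (M (nat_lit 494) (B (lo114_15_3 (nat_lit 459)) (lo111_15_0 (nat_lit 527)))))) (B (M (nat_lit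 459) (B (lo19_14_0 (nat_lit 457)) (lo114_15_3 (nat_lit 494)))) (M (nat_lit 490) (B (lo113_15_3 (nat_lit 457)) (M (nat_lit 525) (B (lo110_15_0 (nat_lit 526)) (lo112_12_4 (nat_lit 396))))))))))))) (B (M (nat_lit 493) (B (M (nat_lit 396) (B (lo112_12_5 (nat_lit 523)) (lo112_12_4 (nat_lit 525)))) (B (M (nat_lit 490) (B (M (nat_lit 525) (B (lo110_15_0 (nat_lit 526)) (lo112_12_4 (nat_lit 396)))) (M (nat_lit 461) (B (lo19_15_2 (nat_lit 489)) (lo110_15_2 (nat_lit 462)))))) (B (K _ _ _ o1_s40878) (M (nat_lit 523) (B (lo112_12_5 (nat_lit 396)) (M (nat_lit 522) (B (lo114_15_1 (nat_lit 494)) (M (nat_lit 521) (B (lo18_16_2 (nat_lit 520)) (lo113_15_1 (nat_lit 490)))))))))))) (K _ _ _ o1_s28640)))))) (B (M (nat_lit 491) (B (M (nat_lit 523) (B (M (nat_lit 555) (B (lo111_18_6 (nat_lit 587)) (lo111_17_6 (nat_lit 459)))) (B (M (nat_lit 555) (B (lo111_17_6 (nat_lit 459)) (lo112_13_5 (nat_lit 524))))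 (B (M (nat_lit 524) (B (M (nat_lit 525) (B (lo112_13_4 (nat_lit 557)) (M (nat_lit 490) (B (lo19_15_0 (nat_lit 489)) (lo114_16_3 (nat_lit 526)))))) (M (nat_lit 427) (B (lo112_16_7 (nat_lit 395)) (M (nat_lit 556) (B (lo111_13_4 (nat_lit 459)) (lo112_17_6 (nat_lit 461)))))))) (M (nat_lit 555) (B (lo111_18_6 (nat_lit 587)) (lo112_13_5 (nat_lit 524)))))))) (B (M (nat_lit 523) (B (M (nat_lit 555) (B (lo111_18_6 (nat_lit 587)) (lo111_17_6 (nat_lit 459)))) (B (M (nat_lit 555) (B (lo111_17_6 (nat_lit 459)) (lo112_13_5 (nat_lit 524)))) (B (M (nat_lit 524) (B (M (nat_lit 427) (B (lo112_16_7 (nat_lit 395)) (M (nat_lit 556) (B (lo111_13_4 (nat_lit 459)) (lo112_17_6 (nat_lit 461)))))) (M (nat_lit 525) (B (lo112_13_4 (nat_lit 557)) (M (nat_lit 526) (B (lo114_16_3 (nat_lit 490)) (lo115_16_3 (nat_lit 527)))))))) (M (nat_lit 555) (B (lo111_18_6 (nat_lit 587)) (lo112_13_5 (nat_lit 524))))))))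 (B (K _ _ _ o1_s28679) (B (M (nat_lit 524) (B (M (nat_lit 556) (B (lo112_17_6 (nat_lit 461)) (M (nat_lit 557) (B (lo112_14_4 (nat_lit 589)) (lo112_13_4 (nat_lit 525)))))) (B (M (nat_lit 523) (B (lo112_13_5 (nat_lit 555)) (M (nat_lit 525) (B (lo112_13_4 (nat_lit 557)) (M (nat_lit 490) (B (lo19_15_0 (nat_lit 489)) (lo114_16_3 (nat_lit 526)))))))) (M (nat_lit 556) (B (lo112_17_6 (nat_lit 461)) (M (nat_lit 459) (B (lo112_18_7 (nat_lit 588)) (lo112_17_7 (nat_lit 427))))))))) (B (M (nat_lit 524) (B (M (nat_lit 556) (B (lo112_17_6 (nat_lit 461)) (M (nat_lit 459) (B (lo112_18_7 (nat_lit 588)) (lo112_17_7 (nat_lit 427)))))) (B (M (nat_lit 556) (B (lo112_17_6 (nat_lit 461)) (M (nat_lit 557) (B (lo112_14_4 (nat_lit 589)) (lo112_13_4 (nat_lit 525)))))) (M (nat_lit 525) (B (lo112_13_4 (nat_lit 557)) (M (nat_lit 490) (B (lo19_15_0 (nat_lit 489)) (M (nat_lit 526) (B (lo110_15_0 (nat_lit 493))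 (lo115_16_3 (nat_lit 527))))))))))) (B (K _ _ _ o1_s40890) (B (M (nat_lit 490) (B (M (nat_lit 461) (B (lo19_15_2 (nat_lit 489)) (M (nat_lit 462) (B (lo110_15_2 (nat_lit 493)) (lo115_14_1 (nat_lit 463)))))) (B (K _ _ _ o1_s26611) (B (M (nat_lit 461) (B (lo19_15_2 (nat_lit 489)) (M (nat_lit 462) (B (lo114_14_1 (nat_lit 459)) (lo115_14_1 (nat_lit 463)))))) (M (nat_lit 493) (B (M (nat_lit 525) (B (lo110_15_0 (nat_lit 526)) (M (nat_lit 524) (B (lo19_15_0 (nat_lit 489)) (lo112_13_4 (nat_lit 557)))))) (B (M (nat_lit 494) (B (M (nat_lit 522) (B (lo113_15_1 (nat_lit 521)) (lo114_15_1 (nat_lit 523)))) (M (nat_lit 526) (B (lo110_15_0 (nat_lit 525)) (lo111_15_0 (nat_lit 527)))))) (M (nat_lit 489) (B (M (nat_lit 521) (B (lo112_15_1 (nat_lit 520)) (lo113_15_1 (nat_lit 522)))) (M (nat_lit 457) (B (lo112_15_3 (nat_lit 456)) (lo113_15_3 (nat_lit 458))))))))))))) (B (K _ _ _ o1_s28640) (M (nat_lit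 524) (B (M (nat_lit 525) (B (lo112_13_4 (nat_lit 557)) (M (nat_lit 490) (B (lo19_15_0 (nat_lit 489)) (M (nat_lit 526) (B (lo110_15_0 (nat_lit 493)) (lo115_16_3 (nat_lit 527)))))))) (M (nat_lit 556) (B (M (nat_lit 555) (B (lo112_14_5 (nat_lit 587)) (lo112_13_5 (nat_lit 523)))) (M (nat_lit 427) (B (lo112_17_7 (nat_lit 459)) (lo112_16_7 (nat_lit 395))))))))))))))))) (B (K _ _ _ o1_s40641) (M (nat_lit 524) (B (M (nat_lit 556) (B (M (nat_lit 555) (B (lo112_14_5 (nat_lit 587)) (lo112_13_5 (nat_lit 523)))) (M (nat_lit 557) (B (lo112_14_4 (nat_lit 589)) (lo112_13_4 (nat_lit 525)))))) (B (M (nat_lit 556) (B (M (nat_lit 427) (B (lo112_17_7 (nat_lit 459)) (lo112_16_7 (nat_lit 395)))) (M (nat_lit 557) (B (lo112_14_4 (nat_lit 589)) (lo112_13_4 (nat_lit 525)))))) (M (nat_lit 396) (B (M (nat_lit 523) (B (lo112_13_5 (nat_lit 555)) (lo112_12_5 (nat_lit 491)))) (M (nat_lit 395) (B (lo112_16_7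 (nat_lit 427)) (lo112_15_7 (nat_lit 363)))))))))))))))))) (M (nat_lit 492) (B (M (nat_lit 397) (B (lo112_16_6 (nat_lit 524)) (M (nat_lit 365) (B (lo112_15_6 (nat_lit 396)) (lo113_10_5 (nat_lit 333)))))) (B (M (nat_lit 493) (B (M (nat_lit 525) (B (lo112_12_4 (nat_lit 396)) (M (nat_lit 557) (B (lo113_18_7 (nat_lit 589)) (lo113_17_7 (nat_lit 461)))))) (B (M (nat_lit 494) (B (M (nat_lit 459) (B (lo115_15_3 (nat_lit 495)) (M (nat_lit 458) (B (lo19_14_0 (nat_lit 457)) (lo114_15_3 (nat_lit 491)))))) (B (M (nat_lit 459) (B (lo115_15_3 (nat_lit 495)) (M (nat_lit 458) (B (lo114_15_3 (nat_lit 491)) (lo110_14_0 (nat_lit 461)))))) (B (M (nat_lit 526) (B (M (nat_lit 527) (B (lo111_15_0 (nat_lit 491)) (M (nat_lit 528) (B (lo116_16_3 (nat_lit 525)) (lo112_15_0 (nat_lit 495)))))) (B (M (nat_lit 461) (B (lo113_12_4 (nat_lit 397)) (M (nat_lit 525) (B (lo113_17_7 (nat_lit 557)) (lo113_13_4 (nat_lit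 558)))))) (M (nat_lit 495) (B (M (nat_lit 527) (B (lo111_15_0 (nat_lit 491)) (lo112_15_0 (nat_lit 528)))) (M (nat_lit 461) (B (lo116_15_3 (nat_lit 496)) (lo113_12_4 (nat_lit 397))))))))) (B (M (nat_lit 459) (B (lo115_15_3 (nat_lit 495)) (M (nat_lit 458) (B (lo19_14_0 (nat_lit 457)) (lo110_14_0 (nat_lit 461)))))) (K _ _ _ o1_s26548)))))) (B (M (nat_lit 525) (B (lo112_12_4 (nat_lit 396)) (M (nat_lit 494) (B (M (nat_lit 459) (B (lo115_15_3 (nat_lit 495)) (M (nat_lit 458) (B (lo19_14_0 (nat_lit 457)) (lo114_15_3 (nat_lit 491)))))) (B (M (nat_lit 459) (B (lo115_15_3 (nat_lit 495)) (M (nat_lit 458) (B (lo114_15_3 (nat_lit 491)) (lo110_14_0 (nat_lit 461)))))) (B (M (nat_lit 526) (B (M (nat_lit 491) (B (lo110_15_0 (nat_lit 490)) (lo111_15_0 (nat_lit 527)))) (M (nat_lit 461) (B (lo113_13_4 (nat_lit 558)) (lo113_12_4 (nat_lit 397)))))) (M (nat_lit 459) (B (lo115_15_3 (nat_lit 495)) (M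 (nat_lit 458) (B (lo19_14_0 (nat_lit 457)) (lo110_14_0 (nat_lit 461)))))))))))) (B (M (nat_lit 491) (B (M (nat_lit 523) (B (lo112_12_5 (nat_lit 396)) (M (nat_lit 555) (B (lo111_18_6 (nat_lit 587)) (lo111_17_6 (nat_lit 459)))))) (B (M (nat_lit 459) (B (M (nat_lit 458) (B (lo19_14_0 (nat_lit 457)) (lo114_15_3 (nat_lit 494)))) (M (nat_lit 523) (B (lo111_17_6 (nat_lit 555)) (lo112_12_5 (nat_lit 396)))))) (B (M (nat_lit 494) (B (M (nat_lit 523) (B (lo114_15_1 (nat_lit 522)) (lo112_12_5 (nat_lit 396)))) (M (nat_lit 459) (B (lo114_15_3 (nat_lit 458)) (lo115_15_3 (nat_lit 495)))))) (B (M (nat_lit 494) (B (M (nat_lit 459) (B (lo114_15_3 (nat_lit 458)) (lo115_15_3 (nat_lit 495)))) (K _ _ _ o1_s26858))) (B (M (nat_lit 523) (B (lo112_12_5 (nat_lit 396)) (M (nat_lit 522) (B (lo114_15_1 (nat_lit 494)) (M (nat_lit 521) (B (lo18_16_2 (nat_lit 520)) (lo113_15_1 (nat_lit 490)))))))) (M (nat_lit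 490) (B (M (nat_lit 457) (B (lo113_15_3 (nat_lit 458)) (M (nat_lit 489) (B (lo112_15_3 (nat_lit 456)) (lo19_15_2 (nat_lit 461)))))) (B (M (nat_lit 521) (B (lo113_15_1 (nat_lit 522)) (M (nat_lit 489) (B (lo112_15_1 (nat_lit 520)) (lo19_15_2 (nat_lit 461)))))) (M (nat_lit 494) (B (M (nat_lit 522) (B (lo113_15_1 (nat_lit 521)) (lo114_15_1 (nat_lit 523)))) (M (nat_lit 458) (B (lo113_15_3 (nat_lit 457)) (lo114_15_3 (nat_lit 459))))))))))))))) (M (nat_lit 491) (B (M (nat_lit 396) (B (lo112_12_5 (nat_lit 523)) (lo112_12_4 (nat_lit 525)))) (B (M (nat_lit 525) (B (lo112_12_4 (nat_lit 396)) (M (nat_lit 526) (B (lo110_15_0 (nat_lit 490)) (M (nat_lit 527) (B (lo111_15_0 (nat_lit 494)) (lo116_16_3 (nat_lit 528)))))))) (B (K _ _ _ o1_s38961) (M (nat_lit 523) (B (lo112_12_5 (nat_lit 396)) (M (nat_lit 555) (B (lo111_18_6 (nat_lit 587)) (lo111_17_6 (nat_lit 459))))))))))))))) (B (M (nat_lit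 397) (B (lo112_16_6 (nat_lit 524)) (M (nat_lit 365) (B (lo113_11_5 (nat_lit 461)) (lo113_10_5 (nat_lit 333)))))) (K _ _ _ o1_s40641)))))))))))))))))))))))))) _ _ _ (by decide +kernel)
theorem o1_s42111 : Sem (nat_lit 2079502270590611144683810638107312777577327806531862431377859685460965980854219217279980804578104683573043408221052678871730618368) (nat_lit 2532663312942087561502070201534355464349841748564898197045793343588764759340949100383297099898032712540644445414827677458184607845951980933655277305492325760243359356648073199616) (nat_lit 2532663312942087561502070201534355464349841748564898197045793343588764759340949100383297099898032712540644445414827677458184607845951980933655277305492325760243359356648073199616) := sem_of_chk (M (nat_lit 460) (B (M (nat_lit 492) (B (M (nat_lit 397) (B (lo112_16_6 (nat_lit 524)) (M (nat_lit 365) (B (lo112_15_6 (nat_lit 396)) (lo113_10_5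 (nat_lit 333)))))) (B (K _ _ _ o1_s26201) (B (M (nat_lit 397) (B (lo112_16_6 (nat_lit 524)) (M (nat_lit 365) (B (lo113_11_5 (nat_lit 461)) (lo113_10_5 (nat_lit 333)))))) (K _ _ _ o1_s26263))))) (B (M (nat_lit 492) (B (M (nat_lit 397) (B (lo112_16_6 (nat_lit 524)) (M (nat_lit 365) (B (lo113_11_5 (nat_lit 461)) (lo113_10_5 (nat_lit 333)))))) (B (M (nat_lit 396) (B (M (nat_lit 364) (B (M (nat_lit 493) (B (lo112_12_4 (nat_lit 525)) (lo112_11_4 (nat_lit 461)))) (M (nat_lit 365) (B (lo112_15_6 (nat_lit 397)) (lo112_14_6 (nat_lit 333)))))) (B (K _ _ _ o1_s26239) (B (M (nat_lit 364) (B (M (nat_lit 491) (B (lo112_12_5 (nat_lit 523)) (lo112_11_5 (nat_lit 459)))) (M (nat_lit 365) (B (lo112_15_6 (nat_lit 397)) (lo112_14_6 (nat_lit 333)))))) (M (nat_lit 493) (B (lo112_12_4 (nat_lit 525)) (M (nat_lit 364) (B (lo112_11_4 (nat_lit 461)) (M (nat_lit 491) (B (lo112_12_5 (nat_lit 523)) (lo112_11_5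 (nat_lit 459)))))))))))) (B (M (nat_lit 397) (B (lo112_16_6 (nat_lit 524)) (M (nat_lit 365) (B (lo112_15_6 (nat_lit 396)) (lo113_10_5 (nat_lit 333)))))) (K _ _ _ o1_s26263))))) (B (M (nat_lit 397) (B (M (nat_lit 365) (B (lo113_10_5 (nat_lit 333)) (M (nat_lit 492) (B (lo112_16_6 (nat_lit 524)) (lo112_15_6 (nat_lit 396)))))) (B (M (nat_lit 365) (B (lo113_10_5 (nat_lit 333)) (M (nat_lit 492) (B (lo112_15_6 (nat_lit 396)) (lo113_11_5 (nat_lit 461)))))) (B (K _ _ _ o1_s40981) (B (M (nat_lit 365) (B (lo113_10_5 (nat_lit 333)) (M (nat_lit 492) (B (lo112_16_6 (nat_lit 524)) (lo113_11_5 (nat_lit 461)))))) (M (nat_lit 461) (B (K _ _ _ o1_s40986) (B (M (nat_lit 396) (B (M (nat_lit 364) (B (lo112_11_4 (nat_lit 493)) (lo112_10_4 (nat_lit 332)))) (K _ _ _ o1_s41000))) (B (K _ _ _ o1_s41002) (B (K _ _ _ o1_s41006) (M (nat_lit 396) (B (M (nat_lit 364) (B (lo112_10_4 (nat_lit 332)) (M (nat_lit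 492) (B (lo112_16_6 (nat_lit 524)) (M (nat_lit 491) (B (lo112_12_5 (nat_lit 523)) (lo112_11_5 (nat_lit 459)))))))) (B (K _ _ _ o1_s41019) (K _ _ _ o1_s41000)))))))))))))) (B (M (nat_lit 492) (B (M (nat_lit 397) (B (lo112_16_6 (nat_lit 524)) (M (nat_lit 365) (B (lo112_15_6 (nat_lit 396)) (lo113_10_5 (nat_lit 333)))))) (B (M (nat_lit 396) (B (M (nat_lit 493) (B (lo112_12_4 (nat_lit 525)) (M (nat_lit 364) (B (lo112_11_4 (nat_lit 461)) (M (nat_lit 363) (B (lo112_15_7 (nat_lit 395)) (lo112_14_7 (nat_lit 331)))))))) (B (M (nat_lit 364) (B (M (nat_lit 491) (B (lo112_12_5 (nat_lit 523)) (lo112_11_5 (nat_lit 459)))) (M (nat_lit 365) (B (lo112_15_6 (nat_lit 397)) (lo112_14_6 (nat_lit 333)))))) (M (nat_lit 461) (B (M (nat_lit 493) (B (lo112_12_4 (nat_lit 525)) (M (nat_lit 491) (B (lo112_12_5 (nat_lit 523)) (M (nat_lit 490) (B (lo19_15_2 (nat_lit 489)) (lo110_15_2 (nat_lit 462))))))))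 (B (M (nat_lit 493) (B (lo112_12_4 (nat_lit 525)) (M (nat_lit 491) (B (lo112_12_5 (nat_lit 523)) (M (nat_lit 462) (B (lo110_15_2 (nat_lit 490)) (lo115_14_1 (nat_lit 463)))))))) (B (M (nat_lit 493) (B (lo112_12_4 (nat_lit 525)) (M (nat_lit 494) (B (M (nat_lit 495) (B (lo115_15_3 (nat_lit 459)) (lo116_15_3 (nat_lit 496)))) (M (nat_lit 397) (B (lo112_15_6 (nat_lit 365)) (lo113_12_4 (nat_lit 526)))))))) (M (nat_lit 491) (B (lo112_12_5 (nat_lit 523)) (M (nat_lit 462) (B (lo115_14_1 (nat_lit 463)) (M (nat_lit 490) (B (lo19_15_2 (nat_lit 489)) (lo114_14_1 (nat_lit 459))))))))))))))) (B (M (nat_lit 397) (B (lo112_16_6 (nat_lit 524)) (M (nat_lit 365) (B (lo113_11_5 (nat_lit 461)) (lo113_10_5 (nat_lit 333)))))) (K _ _ _ o1_s26263))))) (B (M (nat_lit 397) (B (M (nat_lit 365) (B (lo113_10_5 (nat_lit 333)) (M (nat_lit 492) (B (lo112_16_6 (nat_lit 524)) (lo113_11_5 (nat_lit 461)))))) (B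 (M (nat_lit 365) (B (lo113_10_5 (nat_lit 333)) (M (nat_lit 492) (B (lo112_15_6 (nat_lit 396)) (lo113_11_5 (nat_lit 461)))))) (B (K _ _ _ o1_s40981) (B (M (nat_lit 365) (B (lo113_10_5 (nat_lit 333)) (M (nat_lit 492) (B (lo112_16_6 (nat_lit 524)) (lo112_15_6 (nat_lit 396)))))) (M (nat_lit 461) (B (K _ _ _ o1_s40986) (B (M (nat_lit 396) (B (M (nat_lit 364) (B (lo112_11_4 (nat_lit 493)) (lo112_10_4 (nat_lit 332)))) (K _ _ _ o1_s41000))) (B (K _ _ _ o1_s41002) (B (K _ _ _ o1_s41006) (M (nat_lit 396) (B (M (nat_lit 364) (B (lo112_10_4 (nat_lit 332)) (M (nat_lit 492) (B (lo112_16_6 (nat_lit 524)) (M (nat_lit 363) (B (lo112_15_7 (nat_lit 395)) (lo112_14_7 (nat_lit 331)))))))) (B (K _ _ _ o1_s41019) (K _ _ _ o1_s41000)))))))))))))) (B (M (nat_lit 492) (B (M (nat_lit 397) (B (lo112_16_6 (nat_lit 524)) (M (nat_lit 365) (B (lo112_15_6 (nat_lit 396)) (lo113_10_5 (nat_lit 333)))))) (B (M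 (nat_lit 397) (B (M (nat_lit 365) (B (lo112_15_6 (nat_lit 396)) (lo113_11_5 (nat_lit 461)))) (B (M (nat_lit 365) (B (lo113_11_5 (nat_lit 461)) (lo113_10_5 (nat_lit 333)))) (B (M (nat_lit 365) (B (lo112_15_6 (nat_lit 396)) (lo113_10_5 (nat_lit 333)))) (M (nat_lit 396) (B (M (nat_lit 493) (B (lo112_12_4 (nat_lit 525)) (M (nat_lit 364) (B (lo112_11_4 (nat_lit 461)) (M (nat_lit 363) (B (lo112_15_7 (nat_lit 395)) (lo112_14_7 (nat_lit 331)))))))) (B (M (nat_lit 364) (B (M (nat_lit 493) (B (lo112_12_4 (nat_lit 525)) (lo112_11_4 (nat_lit 461)))) (B (M (nat_lit 461) (B (lo112_11_4 (nat_lit 493)) (lo112_10_4 (nat_lit 332)))) (B (M (nat_lit 332) (B (lo112_10_4 (nat_lit 461)) (lo112_9_4 (nat_lit 300)))) (M (nat_lit 332) (B (lo112_9_4 (nat_lit 300)) (M (nat_lit 331) (B (lo112_14_7 (nat_lit 363)) (lo112_13_7 (nat_lit 299)))))))))) (B (M (nat_lit 364) (B (M (nat_lit 493) (B (lo112_12_4 (nat_lit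 525)) (lo112_11_4 (nat_lit 461)))) (B (M (nat_lit 461) (B (lo112_11_4 (nat_lit 493)) (lo112_10_4 (nat_lit 332)))) (B (M (nat_lit 332) (B (lo112_10_4 (nat_lit 461)) (lo112_9_4 (nat_lit 300)))) (M (nat_lit 427) (B (M (nat_lit 426) (B (lo19_13_2 (nat_lit 425)) (lo110_13_2 (nat_lit 398)))) (M (nat_lit 332) (B (lo112_10_5 (nat_lit 459)) (lo112_9_4 (nat_lit 300)))))))))) (B (M (nat_lit 461) (B (M (nat_lit 493) (B (lo112_12_4 (nat_lit 525)) (M (nat_lit 494) (B (lo113_12_4 (nat_lit 526)) (M (nat_lit 459) (B (lo110_14_0 (nat_lit 458)) (lo115_15_3 (nat_lit 495)))))))) (K _ _ _ o1_s41081))) (B (M (nat_lit 364) (B (M (nat_lit 363) (B (lo112_15_7 (nat_lit 395)) (lo112_14_7 (nat_lit 331)))) (M (nat_lit 332) (B (lo112_10_4 (nat_lit 461)) (lo112_9_4 (nat_lit 300)))))) (M (nat_lit 427) (B (M (nat_lit 426) (B (lo19_13_2 (nat_lit 425)) (lo110_13_2 (nat_lit 398)))) (M (nat_lit 364) (B (M (nat_lit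 363) (B (lo112_15_7 (nat_lit 395)) (lo112_14_7 (nat_lit 331)))) (M (nat_lit 332) (B (lo112_10_5 (nat_lit 459)) (lo112_9_4 (nat_lit 300)))))))))))))))))) (B (M (nat_lit 397) (B (lo112_16_6 (nat_lit 524)) (M (nat_lit 365) (B (lo113_11_5 (nat_lit 461)) (lo113_10_5 (nat_lit 333)))))) (K _ _ _ o1_s28627))))) (B (M (nat_lit 492) (B (M (nat_lit 397) (B (lo112_16_6 (nat_lit 524)) (M (nat_lit 365) (B (lo113_11_5 (nat_lit 461)) (lo113_10_5 (nat_lit 333)))))) (B (M (nat_lit 397) (B (M (nat_lit 365) (B (lo112_15_6 (nat_lit 396)) (lo113_11_5 (nat_lit 461)))) (B (M (nat_lit 365) (B (lo113_11_5 (nat_lit 461)) (lo113_10_5 (nat_lit 333)))) (B (M (nat_lit 365) (B (lo112_15_6 (nat_lit 396)) (lo113_10_5 (nat_lit 333)))) (M (nat_lit 491) (B (M (nat_lit 396) (B (lo112_12_5 (nat_lit 523)) (M (nat_lit 493) (B (lo112_12_4 (nat_lit 525)) (M (nat_lit 461) (B (lo112_11_4 (nat_lit 364)) (M (nat_lit 490)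 (B (lo19_15_2 (nat_lit 489)) (lo110_15_2 (nat_lit 462)))))))))) (B (M (nat_lit 396) (B (lo112_12_5 (nat_lit 523)) (M (nat_lit 364) (B (M (nat_lit 363) (B (lo112_15_7 (nat_lit 395)) (lo112_14_7 (nat_lit 331)))) (M (nat_lit 493) (B (lo112_12_4 (nat_lit 525)) (lo112_11_4 (nat_lit 461)))))))) (B (M (nat_lit 493) (B (M (nat_lit 396) (B (lo112_12_4 (nat_lit 525)) (M (nat_lit 461) (B (lo112_11_4 (nat_lit 364)) (M (nat_lit 490) (B (lo19_15_2 (nat_lit 489)) (lo110_15_2 (nat_lit 462)))))))) (B (M (nat_lit 461) (B (M (nat_lit 462) (B (lo110_15_2 (nat_lit 490)) (lo115_14_1 (nat_lit 463)))) (M (nat_lit 396) (B (lo112_12_4 (nat_lit 525)) (lo112_11_4 (nat_lit 364)))))) (B (M (nat_lit 396) (B (lo112_12_4 (nat_lit 525)) (M (nat_lit 364) (B (lo112_11_4 (nat_lit 461)) (M (nat_lit 363) (B (lo112_15_7 (nat_lit 395)) (lo112_14_7 (nat_lit 331)))))))) (B (M (nat_lit 461) (B (M (nat_lit 490) (B (lo19_15_2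 (nat_lit 489)) (lo110_15_2 (nat_lit 462)))) (B (M (nat_lit 462) (B (lo110_15_2 (nat_lit 490)) (lo115_14_1 (nat_lit 463)))) (M (nat_lit 525) (B (lo113_17_7 (nat_lit 557)) (M (nat_lit 526) (B (lo113_13_4 (nat_lit 558)) (lo113_12_4 (nat_lit 494))))))))) (B (M (nat_lit 494) (B (M (nat_lit 526) (B (lo111_15_0 (nat_lit 527)) (lo113_12_4 (nat_lit 461)))) (B (M (nat_lit 495) (B (M (nat_lit 527) (B (lo111_15_0 (nat_lit 526)) (lo112_15_0 (nat_lit 528)))) (M (nat_lit 463) (B (lo111_15_2 (nat_lit 462)) (lo112_15_2 (nat_lit 464)))))) (M (nat_lit 490) (B (M (nat_lit 461) (B (lo19_15_2 (nat_lit 489)) (lo110_15_2 (nat_lit 462)))) (B (M (nat_lit 462) (B (lo110_15_2 (nat_lit 461)) (lo111_15_2 (nat_lit 463)))) (M (nat_lit 489) (B (M (nat_lit 521) (B (lo112_15_1 (nat_lit 520)) (lo113_15_1 (nat_lit 522)))) (M (nat_lit 457) (B (lo112_15_3 (nat_lit 456)) (lo113_15_3 (nat_lit 458)))))))))))) (M (nat_lit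 525) (B (lo112_12_4 (nat_lit 396)) (M (nat_lit 526) (B (lo110_15_0 (nat_lit 490)) (M (nat_lit 527) (B (lo111_15_0 (nat_lit 494)) (lo116_16_3 (nat_lit 528)))))))))))))) (B (M (nat_lit 490) (B (M (nat_lit 461) (B (lo19_15_2 (nat_lit 489)) (M (nat_lit 462) (B (lo110_15_2 (nat_lit 493)) (lo115_14_1 (nat_lit 463)))))) (B (M (nat_lit 493) (B (M (nat_lit 461) (B (lo110_15_2 (nat_lit 462)) (M (nat_lit 526) (B (lo110_15_0 (nat_lit 525)) (lo113_12_4 (nat_lit 494)))))) (B (M (nat_lit 494) (B (M (nat_lit 522) (B (lo113_15_1 (nat_lit 521)) (lo114_15_1 (nat_lit 523)))) (M (nat_lit 461) (B (lo110_15_2 (nat_lit 462)) (lo113_12_4 (nat_lit 526)))))) (B (M (nat_lit 494) (B (M (nat_lit 522) (B (lo113_15_1 (nat_lit 521)) (lo114_15_1 (nat_lit 523)))) (M (nat_lit 526) (B (lo110_15_0 (nat_lit 525)) (lo111_15_0 (nat_lit 527)))))) (B (M (nat_lit 494) (B (M (nat_lit 522) (B (lo113_15_1 (nat_lit 521))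 (lo114_15_1 (nat_lit 523)))) (M (nat_lit 462) (B (lo110_15_2 (nat_lit 461)) (lo111_15_2 (nat_lit 463)))))) (M (nat_lit 461) (B (lo110_15_2 (nat_lit 462)) (M (nat_lit 525) (B (lo110_15_0 (nat_lit 526)) (lo113_17_7 (nat_lit 557))))))))))) (B (K _ _ _ o1_s40082) (M (nat_lit 458) (B (M (nat_lit 457) (B (lo113_15_3 (nat_lit 493)) (M (nat_lit 456) (B (lo17_14_0 (nat_lit 455)) (lo112_15_3 (nat_lit 489)))))) (B (M (nat_lit 426) (B (M (nat_lit 427) (B (lo113_13_1 (nat_lit 457)) (lo110_13_2 (nat_lit 398)))) (B (M (nat_lit 427) (B (lo110_13_2 (nat_lit 398)) (M (nat_lit 394) (B (lo113_13_3 (nat_lit 393)) (lo110_12_4 (nat_lit 523)))))) (M (nat_lit 523) (B (lo110_12_4 (nat_lit 394)) (M (nat_lit 555) (B (lo110_13_4 (nat_lit 522)) (lo111_18_7 (nat_lit 587))))))))) (K _ _ _ o1_s40108)))))))) (B (M (nat_lit 396) (B (lo112_12_5 (nat_lit 523)) (M (nat_lit 364) (B (M (nat_lit 363) (B (lo112_15_7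 (nat_lit 395)) (lo112_14_7 (nat_lit 331)))) (M (nat_lit 332) (B (lo112_10_4 (nat_lit 461)) (lo112_9_4 (nat_lit 300)))))))) (M (nat_lit 396) (B (lo112_12_5 (nat_lit 523)) (M (nat_lit 426) (B (M (nat_lit 427) (B (lo19_13_2 (nat_lit 425)) (lo110_13_2 (nat_lit 398)))) (B (M (nat_lit 398) (B (lo110_13_2 (nat_lit 427)) (M (nat_lit 363) (B (lo112_15_7 (nat_lit 395)) (M (nat_lit 364) (B (lo112_14_7 (nat_lit 331)) (lo115_12_3 (nat_lit 399)))))))) (M (nat_lit 395) (B (lo112_15_7 (nat_lit 363)) (M (nat_lit 394) (B (lo113_12_1 (nat_lit 425)) (lo19_12_0 (nat_lit 393))))))))))))))))))))) (B (M (nat_lit 397) (B (lo112_16_6 (nat_lit 524)) (M (nat_lit 365) (B (lo112_15_6 (nat_lit 396)) (lo113_10_5 (nat_lit 333)))))) (K _ _ _ o1_s40113))))) (B (M (nat_lit 492) (B (M (nat_lit 397) (B (lo112_16_6 (nat_lit 524)) (M (nat_lit 365) (B (lo112_15_6 (nat_lit 396)) (lo113_10_5 (nat_lit 333)))))) (B (K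 _ _ _ o1_s26201) (B (M (nat_lit 397) (B (lo112_16_6 (nat_lit 524)) (M (nat_lit 365) (B (lo113_11_5 (nat_lit 461)) (lo113_10_5 (nat_lit 333)))))) (K _ _ _ o1_s41164))))) (B (M (nat_lit 459) (B (K _ _ _ o1_s41171) (B (M (nat_lit 461) (B (M (nat_lit 493) (B (M (nat_lit 458) (B (lo19_14_2 (nat_lit 457)) (lo110_14_0 (nat_lit 494)))) (M (nat_lit 396) (B (lo112_11_4 (nat_lit 364)) (lo113_16_7 (nat_lit 525)))))) (B (K _ _ _ o1_s41180) (M (nat_lit 462) (B (M (nat_lit 427) (B (lo114_14_3 (nat_lit 426)) (lo115_14_3 (nat_lit 463)))) (M (nat_lit 458) (B (lo19_14_2 (nat_lit 457)) (M (nat_lit 494) (B (lo110_14_0 (nat_lit 493)) (lo111_14_0 (nat_lit 495))))))))))) (B (M (nat_lit 461) (B (K _ _ _ o1_s41186) (B (M (nat_lit 462) (B (M (nat_lit 427) (B (lo114_14_3 (nat_lit 426)) (lo115_14_3 (nat_lit 463)))) (B (M (nat_lit 463) (B (lo115_14_3 (nat_lit 427)) (lo116_14_3 (nat_lit 464)))) (B (M (nat_lit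 463) (B (lo116_14_3 (nat_lit 464)) (M (nat_lit 495) (B (lo111_14_0 (nat_lit 494)) (lo112_14_0 (nat_lit 496)))))) (M (nat_lit 493) (B (M (nat_lit 494) (B (lo110_14_0 (nat_lit 458)) (lo111_14_0 (nat_lit 495)))) (M (nat_lit 396) (B (lo112_11_4 (nat_lit 364)) (lo113_16_7 (nat_lit 525)))))))))) (B (K _ _ _ o1_s41180) (B (K _ _ _ o1_s41192) (K _ _ _ o1_s41194)))))) (B (M (nat_lit 396) (B (M (nat_lit 364) (B (lo112_11_5 (nat_lit 491)) (M (nat_lit 332) (B (lo112_10_5 (nat_lit 427)) (lo112_10_4 (nat_lit 461)))))) (B (M (nat_lit 364) (B (M (nat_lit 332) (B (lo112_10_5 (nat_lit 427)) (lo112_10_4 (nat_lit 461)))) (B (M (nat_lit 461) (B (lo112_11_4 (nat_lit 493)) (lo112_10_4 (nat_lit 332)))) (M (nat_lit 492) (B (M (nat_lit 363) (B (lo112_15_7 (nat_lit 395)) (lo112_14_7 (nat_lit 331)))) (M (nat_lit 365) (B (lo112_15_6 (nat_lit 397)) (lo112_14_6 (nat_lit 333))))))))) (B (M (nat_lit 364) (B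 (lo112_11_5 (nat_lit 491)) (M (nat_lit 461) (B (lo112_11_4 (nat_lit 493)) (lo112_10_4 (nat_lit 332)))))) (B (M (nat_lit 458) (B (lo19_14_2 (nat_lit 457)) (M (nat_lit 491) (B (M (nat_lit 523) (B (lo111_17_6 (nat_lit 555)) (lo111_16_6 (nat_lit 427)))) (B (M (nat_lit 523) (B (lo111_16_6 (nat_lit 427)) (lo112_12_5 (nat_lit 492)))) (M (nat_lit 493) (B (M (nat_lit 494) (B (lo114_15_3 (nat_lit 492)) (lo110_14_0 (nat_lit 461)))) (B (M (nat_lit 461) (B (lo110_14_0 (nat_lit 494)) (lo113_16_7 (nat_lit 525)))) (B (M (nat_lit 492) (B (lo114_15_3 (nat_lit 494)) (lo112_12_4 (nat_lit 525)))) (M (nat_lit 525) (B (lo112_12_4 (nat_lit 492)) (lo113_16_7 (nat_lit 461))))))))))))) (M (nat_lit 491) (B (lo112_11_5 (nat_lit 364)) (M (nat_lit 523) (B (lo111_17_6 (nat_lit 555)) (lo112_12_5 (nat_lit 492))))))))))) (B (M (nat_lit 427) (B (K _ _ _ o1_s41242) (B (K _ _ _ o1_s41258) (B (M (nat_lit 397) (B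 (M (nat_lit 426) (B (lo110_13_2 (nat_lit 398)) (M (nat_lit 425) (B (lo18_13_0 (nat_lit 424)) (lo19_13_0 (nat_lit 461)))))) (B (M (nat_lit 426) (B (lo110_13_2 (nat_lit 398)) (M (nat_lit 425) (B (lo19_13_0 (nat_lit 461)) (lo19_13_2 (nat_lit 396)))))) (B (M (nat_lit 365) (B (lo113_10_5 (nat_lit 333)) (M (nat_lit 492) (B (lo112_15_6 (nat_lit 396)) (lo113_11_5 (nat_lit 461)))))) (M (nat_lit 426) (B (lo110_13_2 (nat_lit 398)) (M (nat_lit 425) (B (lo18_13_0 (nat_lit 424)) (lo19_13_2 (nat_lit 396)))))))))) (K _ _ _ o1_s41271))))) (B (M (nat_lit 461) (B (M (nat_lit 493) (B (M (nat_lit 458) (B (lo19_14_2 (nat_lit 457)) (lo110_14_0 (nat_lit 494)))) (M (nat_lit 396) (B (lo112_11_4 (nat_lit 364)) (lo113_16_7 (nat_lit 525)))))) (B (K _ _ _ o1_s41194) (B (K _ _ _ o1_s41277) (B (K _ _ _ o1_s41278) (K _ _ _ o1_s39248)))))) (B (M (nat_lit 461) (B (M (nat_lit 493) (B (M (nat_lit 458) (B (lo19_14_2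 (nat_lit 457)) (lo110_14_0 (nat_lit 494)))) (M (nat_lit 396) (B (lo112_11_4 (nat_lit 364)) (lo113_16_7 (nat_lit 525)))))) (B (K _ _ _ o1_s41194) (B (M (nat_lit 396) (B (M (nat_lit 364) (B (lo112_11_5 (nat_lit 491)) (lo112_11_4 (nat_lit 493)))) (B (M (nat_lit 493) (B (lo112_11_4 (nat_lit 364)) (lo113_16_7 (nat_lit 525)))) (M (nat_lit 462) (B (M (nat_lit 463) (B (lo116_14_3 (nat_lit 464)) (M (nat_lit 495) (B (lo111_14_0 (nat_lit 494)) (lo112_14_0 (nat_lit 496)))))) (M (nat_lit 491) (B (lo114_14_1 (nat_lit 490)) (M (nat_lit 523) (B (lo111_17_6 (nat_lit 555)) (lo112_12_5 (nat_lit 492))))))))))) (B (K _ _ _ o1_s41295) (M (nat_lit 491) (B (M (nat_lit 462) (B (lo114_14_1 (nat_lit 490)) (M (nat_lit 463) (B (lo115_14_1 (nat_lit 492)) (lo116_14_3 (nat_lit 464)))))) (B (M (nat_lit 523) (B (lo111_17_6 (nat_lit 555)) (M (nat_lit 396) (B (lo112_12_5 (nat_lit 492)) (lo112_11_5 (nat_lit 364))))))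 (M (nat_lit 490) (B (lo114_14_1 (nat_lit 462)) (M (nat_lit 458) (B (lo113_14_1 (nat_lit 489)) (lo19_14_2 (nat_lit 457)))))))))))))) (B (M (nat_lit 426) (B (M (nat_lit 458) (B (lo19_14_2 (nat_lit 457)) (M (nat_lit 425) (B (lo113_14_3 (nat_lit 461)) (M (nat_lit 424) (B (lo17_13_0 (nat_lit 423)) (lo18_13_0 (nat_lit 427)))))))) (B (K _ _ _ o1_s41318) (B (K _ _ _ o1_s41319) (B (K _ _ _ o1_s41327) (B (K _ _ _ o1_s41330) (M (nat_lit 427) (B (M (nat_lit 425) (B (lo18_13_0 (nat_lit 424)) (M (nat_lit 393) (B (lo112_13_3 (nat_lit 392)) (lo113_13_3 (nat_lit 394)))))) (B (M (nat_lit 425) (B (M (nat_lit 457) (B (lo112_13_1 (nat_lit 456)) (lo113_13_1 (nat_lit 458)))) (M (nat_lit 393) (B (lo112_13_3 (nat_lit 392)) (lo113_13_3 (nat_lit 394)))))) (B (M (nat_lit 457) (B (lo113_13_1 (nat_lit 458)) (M (nat_lit 425) (B (lo112_13_1 (nat_lit 456)) (lo18_13_0 (nat_lit 424)))))) (M (nat_lit 458) (B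 (lo113_13_1 (nat_lit 457)) (M (nat_lit 394) (B (lo113_13_3 (nat_lit 393)) (M (nat_lit 491) (B (lo110_11_4 (nat_lit 362)) (lo111_16_7 (nat_lit 523)))))))))))))))))) (M (nat_lit 427) (B (K _ _ _ o1_s41242) (B (K _ _ _ o1_s41258) (B (M (nat_lit 363) (B (M (nat_lit 395) (B (lo111_11_4 (nat_lit 492)) (lo111_10_4 (nat_lit 331)))) (B (M (nat_lit 396) (B (M (nat_lit 364) (B (lo112_10_5 (nat_lit 332)) (lo112_14_7 (nat_lit 331)))) (M (nat_lit 397) (B (M (nat_lit 426) (B (lo19_13_2 (nat_lit 425)) (lo110_13_2 (nat_lit 398)))) (M (nat_lit 365) (B (lo112_15_6 (nat_lit 492)) (lo113_10_5 (nat_lit 333)))))))) (B (M (nat_lit 395) (B (lo111_11_4 (nat_lit 492)) (M (nat_lit 458) (B (lo19_14_2 (nat_lit 457)) (lo111_11_5 (nat_lit 490)))))) (M (nat_lit 395) (B (lo111_10_4 (nat_lit 331)) (M (nat_lit 458) (B (lo19_14_2 (nat_lit 457)) (lo111_11_5 (nat_lit 490)))))))))) (M (nat_lit 426) (B (M (nat_lit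 457) (B (lo113_13_1 (nat_lit 458)) (M (nat_lit 425) (B (lo112_13_1 (nat_lit 456)) (lo18_13_0 (nat_lit 424)))))) (B (M (nat_lit 425) (B (lo18_13_0 (nat_lit 424)) (M (nat_lit 393) (B (lo112_13_3 (nat_lit 392)) (lo113_13_3 (nat_lit 394)))))) (B (M (nat_lit 425) (B (M (nat_lit 457) (B (lo112_13_1 (nat_lit 456)) (lo113_13_1 (nat_lit 458)))) (M (nat_lit 393) (B (lo112_13_3 (nat_lit 392)) (lo113_13_3 (nat_lit 394)))))) (M (nat_lit 458) (B (lo113_13_1 (nat_lit 457)) (M (nat_lit 394) (B (lo113_13_3 (nat_lit 393)) (M (nat_lit 491) (B (lo110_11_4 (nat_lit 362)) (lo111_16_7 (nat_lit 523))))))))))))))))))))))))) (B (M (nat_lit 459) (B (K _ _ _ o1_s41171) (B (M (nat_lit 461) (B (M (nat_lit 493) (B (M (nat_lit 458) (B (lo19_14_2 (nat_lit 457)) (lo110_14_0 (nat_lit 494)))) (M (nat_lit 396) (B (lo112_11_4 (nat_lit 364)) (lo113_16_7 (nat_lit 525)))))) (B (M (nat_lit 493) (B (M (nat_lit 396)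 (B (lo112_11_4 (nat_lit 364)) (lo113_16_7 (nat_lit 525)))) (M (nat_lit 462) (B (M (nat_lit 494) (B (lo110_14_0 (nat_lit 458)) (lo111_14_0 (nat_lit 495)))) (M (nat_lit 427) (B (lo114_14_3 (nat_lit 426)) (lo115_14_3 (nat_lit 463)))))))) (B (K _ _ _ o1_s41361) (B (M (nat_lit 462) (B (M (nat_lit 463) (B (lo115_14_3 (nat_lit 427)) (lo116_14_3 (nat_lit 464)))) (M (nat_lit 458) (B (lo19_14_2 (nat_lit 457)) (M (nat_lit 494) (B (lo110_14_0 (nat_lit 493)) (lo111_14_0 (nat_lit 495)))))))) (K _ _ _ o1_s41375)))))) (B (M (nat_lit 461) (B (K _ _ _ o1_s41377) (B (K _ _ _ o1_s41361) (B (K _ _ _ o1_s41379) (B (K _ _ _ o1_s41186) (B (K _ _ _ o1_s41375) (M (nat_lit 493) (B (M (nat_lit 396) (B (lo112_11_4 (nat_lit 364)) (lo113_16_7 (nat_lit 525)))) (B (M (nat_lit 526) (B (M (nat_lit 525) (B (lo113_17_7 (nat_lit 557)) (lo113_13_4 (nat_lit 558)))) (M (nat_lit 494) (B (lo110_14_0 (nat_lit 458)) (lo113_12_4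 (nat_lit 397)))))) (M (nat_lit 364) (B (lo112_11_4 (nat_lit 396)) (M (nat_lit 397) (B (M (nat_lit 365) (B (lo113_10_5 (nat_lit 333)) (lo113_14_7 (nat_lit 332)))) (M (nat_lit 494) (B (lo110_14_0 (nat_lit 458)) (lo113_12_4 (nat_lit 526))))))))))))))))) (B (M (nat_lit 461) (B (M (nat_lit 493) (B (M (nat_lit 458) (B (lo19_14_2 (nat_lit 457)) (lo110_14_0 (nat_lit 494)))) (M (nat_lit 396) (B (lo112_11_4 (nat_lit 364)) (lo113_16_7 (nat_lit 525)))))) (B (K _ _ _ o1_s41192) (B (K _ _ _ o1_s41277) (B (K _ _ _ o1_s41278) (M (nat_lit 426) (B (M (nat_lit 458) (B (lo19_14_2 (nat_lit 457)) (lo113_14_3 (nat_lit 425)))) (B (M (nat_lit 425) (B (lo113_14_3 (nat_lit 458)) (lo19_13_0 (nat_lit 427)))) (M (nat_lit 364) (B (M (nat_lit 396) (B (lo112_11_5 (nat_lit 491)) (lo112_11_4 (nat_lit 493)))) (B (M (nat_lit 396) (B (lo112_11_4 (nat_lit 493)) (lo112_10_4 (nat_lit 332)))) (M (nat_lit 397) (B (M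 (nat_lit 427) (B (lo114_14_3 (nat_lit 462)) (lo110_13_2 (nat_lit 398)))) (M (nat_lit 365) (B (lo113_10_5 (nat_lit 333)) (lo113_14_7 (nat_lit 332))))))))))))))))) (B (M (nat_lit 427) (B (K _ _ _ o1_s41271) (B (M (nat_lit 461) (B (M (nat_lit 426) (B (lo19_13_0 (nat_lit 425)) (lo114_14_3 (nat_lit 462)))) (B (M (nat_lit 462) (B (lo114_14_3 (nat_lit 426)) (lo115_14_3 (nat_lit 463)))) (B (M (nat_lit 491) (B (M (nat_lit 462) (B (lo114_14_1 (nat_lit 490)) (lo115_14_3 (nat_lit 463)))) (M (nat_lit 396) (B (lo111_16_6 (nat_lit 523)) (lo112_11_5 (nat_lit 364)))))) (K _ _ _ o1_s41374))))) (B (M (nat_lit 491) (B (M (nat_lit 523) (B (lo111_17_6 (nat_lit 555)) (lo111_16_6 (nat_lit 396)))) (B (M (nat_lit 396) (B (lo111_16_6 (nat_lit 523)) (lo112_11_5 (nat_lit 364)))) (B (M (nat_lit 395) (B (M (nat_lit 396) (B (lo111_15_6 (nat_lit 364)) (M (nat_lit 394) (B (lo19_12_0 (nat_lit 393)) (lo111_15_7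 (nat_lit 362)))))) (B (M (nat_lit 364) (B (lo111_15_6 (nat_lit 396)) (M (nat_lit 363) (B (lo111_14_6 (nat_lit 332)) (lo111_10_4 (nat_lit 331)))))) (M (nat_lit 394) (B (lo111_15_7 (nat_lit 362)) (M (nat_lit 393) (B (lo18_12_0 (nat_lit 392)) (lo113_13_3 (nat_lit 426))))))))) (M (nat_lit 523) (B (lo111_17_6 (nat_lit 555)) (M (nat_lit 395) (B (M (nat_lit 522) (B (lo111_13_5 (nat_lit 554)) (lo111_12_5 (nat_lit 490)))) (M (nat_lit 394) (B (lo111_16_7 (nat_lit 426)) (lo111_15_7 (nat_lit 362)))))))))))) (B (M (nat_lit 491) (B (M (nat_lit 523) (B (lo111_17_6 (nat_lit 555)) (lo111_16_6 (nat_lit 396)))) (B (M (nat_lit 396) (B (lo111_16_6 (nat_lit 523)) (lo112_11_5 (nat_lit 364)))) (B (M (nat_lit 395) (B (M (nat_lit 363) (B (lo111_10_4 (nat_lit 331)) (M (nat_lit 362) (B (lo111_15_7 (nat_lit 394)) (lo111_14_7 (nat_lit 330)))))) (B (M (nat_lit 364) (B (lo111_15_6 (nat_lit 396)) (M (nat_lit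 363) (B (lo111_14_6 (nat_lit 332)) (lo111_10_4 (nat_lit 331)))))) (M (nat_lit 396) (B (lo111_15_6 (nat_lit 364)) (M (nat_lit 394) (B (lo19_12_0 (nat_lit 393)) (lo111_15_7 (nat_lit 362))))))))) (M (nat_lit 395) (B (M (nat_lit 363) (B (lo111_10_4 (nat_lit 331)) (M (nat_lit 362) (B (lo111_15_7 (nat_lit 394)) (lo111_14_7 (nat_lit 330)))))) (M (nat_lit 522) (B (lo111_12_5 (nat_lit 490)) (M (nat_lit 523) (B (lo111_13_5 (nat_lit 554)) (lo111_17_6 (nat_lit 555)))))))))))) (B (M (nat_lit 461) (B (M (nat_lit 426) (B (lo19_13_0 (nat_lit 425)) (lo114_14_3 (nat_lit 462)))) (B (M (nat_lit 462) (B (lo114_14_3 (nat_lit 426)) (lo115_14_3 (nat_lit 463)))) (B (M (nat_lit 462) (B (lo115_14_3 (nat_lit 463)) (M (nat_lit 493) (B (M (nat_lit 396) (B (lo112_11_4 (nat_lit 364)) (lo113_16_7 (nat_lit 525)))) (M (nat_lit 494) (B (lo111_14_0 (nat_lit 495)) (M (nat_lit 397) (B (lo113_12_4 (nat_lit 526))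 (lo113_11_4 (nat_lit 365)))))))))) (K _ _ _ o1_s41374))))) (M (nat_lit 461) (B (M (nat_lit 426) (B (lo19_13_0 (nat_lit 425)) (lo114_14_3 (nat_lit 462)))) (B (M (nat_lit 462) (B (lo114_14_3 (nat_lit 426)) (lo115_14_3 (nat_lit 463)))) (B (M (nat_lit 462) (B (lo115_14_3 (nat_lit 463)) (M (nat_lit 494) (B (lo111_14_0 (nat_lit 495)) (M (nat_lit 397) (B (lo113_11_4 (nat_lit 365)) (M (nat_lit 526) (B (lo113_12_4 (nat_lit 493)) (lo114_17_7 (nat_lit 558)))))))))) (M (nat_lit 493) (B (M (nat_lit 396) (B (lo112_11_4 (nat_lit 364)) (lo113_16_7 (nat_lit 525)))) (B (M (nat_lit 397) (B (M (nat_lit 426) (B (lo19_13_0 (nat_lit 425)) (lo110_13_2 (nat_lit 398)))) (M (nat_lit 525) (B (lo113_17_7 (nat_lit 557)) (M (nat_lit 526) (B (lo113_13_4 (nat_lit 558)) (lo113_12_4 (nat_lit 494)))))))) (M (nat_lit 364) (B (lo112_11_4 (nat_lit 396)) (M (nat_lit 397) (B (M (nat_lit 426) (B (lo19_13_0 (nat_lit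 425)) (lo110_13_2 (nat_lit 398)))) (M (nat_lit 365) (B (lo113_10_5 (nat_lit 333)) (lo113_14_7 (nat_lit 332))))))))))))))))))))) (B (M (nat_lit 461) (B (M (nat_lit 493) (B (M (nat_lit 458) (B (lo19_14_2 (nat_lit 457)) (lo110_14_0 (nat_lit 494)))) (M (nat_lit 396) (B (lo112_11_4 (nat_lit 364)) (lo113_16_7 (nat_lit 525)))))) (B (K _ _ _ o1_s41377) (B (M (nat_lit 462) (B (M (nat_lit 463) (B (lo115_14_3 (nat_lit 427)) (lo116_14_3 (nat_lit 464)))) (K _ _ _ o1_s41276))) (B (K _ _ _ o1_s41278) (M (nat_lit 458) (B (lo19_14_2 (nat_lit 457)) (K _ _ _ o1_s40266)))))))) (B (M (nat_lit 461) (B (M (nat_lit 493) (B (M (nat_lit 458) (B (lo19_14_2 (nat_lit 457)) (lo110_14_0 (nat_lit 494)))) (M (nat_lit 396) (B (lo112_11_4 (nat_lit 364)) (lo113_16_7 (nat_lit 525)))))) (B (K _ _ _ o1_s41379) (B (M (nat_lit 493) (B (M (nat_lit 396) (B (lo112_11_4 (nat_lit 364)) (lo113_16_7 (nat_lit 525)))) (B (M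 (nat_lit 494) (B (M (nat_lit 495) (B (lo111_14_0 (nat_lit 462)) (lo116_15_3 (nat_lit 496)))) (M (nat_lit 525) (B (lo113_17_7 (nat_lit 557)) (M (nat_lit 526) (B (lo113_13_4 (nat_lit 558)) (lo113_12_4 (nat_lit 397)))))))) (M (nat_lit 397) (B (M (nat_lit 364) (B (lo112_11_4 (nat_lit 396)) (M (nat_lit 365) (B (lo113_10_5 (nat_lit 333)) (lo113_14_7 (nat_lit 332)))))) (M (nat_lit 494) (B (lo113_12_4 (nat_lit 526)) (M (nat_lit 495) (B (lo111_14_0 (nat_lit 462)) (lo116_15_3 (nat_lit 496))))))))))) (B (K _ _ _ o1_s41295) (B (M (nat_lit 462) (B (M (nat_lit 463) (B (lo116_14_3 (nat_lit 464)) (M (nat_lit 495) (B (lo111_14_0 (nat_lit 494)) (lo112_14_0 (nat_lit 496)))))) (M (nat_lit 490) (B (lo114_14_1 (nat_lit 491)) (M (nat_lit 458) (B (lo113_14_1 (nat_lit 489)) (lo19_14_2 (nat_lit 457)))))))) (M (nat_lit 458) (B (lo19_14_2 (nat_lit 457)) (M (nat_lit 490) (B (lo113_14_1 (nat_lit 489)) (M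 (nat_lit 491) (B (lo114_14_1 (nat_lit 462)) (M (nat_lit 426) (B (lo113_14_3 (nat_lit 425)) (M (nat_lit 394) (B (lo110_12_4 (nat_lit 523)) (lo110_11_4 (nat_lit 362)))))))))))))))))) (B (M (nat_lit 426) (B (M (nat_lit 458) (B (lo19_14_2 (nat_lit 457)) (M (nat_lit 425) (B (lo113_14_3 (nat_lit 461)) (M (nat_lit 427) (B (lo18_13_0 (nat_lit 424)) (M (nat_lit 393) (B (lo112_13_3 (nat_lit 392)) (lo113_13_3 (nat_lit 394)))))))))) (B (K _ _ _ o1_s41318) (B (K _ _ _ o1_s41319) (B (K _ _ _ o1_s41327) (B (K _ _ _ o1_s41330) (M (nat_lit 427) (B (M (nat_lit 425) (B (lo18_13_0 (nat_lit 424)) (M (nat_lit 393) (B (lo112_13_3 (nat_lit 392)) (lo113_13_3 (nat_lit 394)))))) (B (M (nat_lit 425) (B (M (nat_lit 457) (B (lo112_13_1 (nat_lit 456)) (lo113_13_1 (nat_lit 458)))) (M (nat_lit 393) (B (lo112_13_3 (nat_lit 392)) (lo113_13_3 (nat_lit 394)))))) (B (M (nat_lit 457) (B (lo113_13_1 (nat_lit 458))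 (M (nat_lit 425) (B (lo112_13_1 (nat_lit 456)) (lo18_13_0 (nat_lit 424)))))) (M (nat_lit 458) (B (lo113_13_1 (nat_lit 457)) (M (nat_lit 394) (B (lo113_13_3 (nat_lit 393)) (M (nat_lit 362) (B (lo110_11_4 (nat_lit 491)) (lo110_10_4 (nat_lit 330)))))))))))))))))) (B (M (nat_lit 427) (B (M (nat_lit 426) (B (M (nat_lit 425) (B (lo18_13_0 (nat_lit 424)) (lo19_13_0 (nat_lit 461)))) (B (M (nat_lit 461) (B (lo19_13_0 (nat_lit 425)) (lo114_14_3 (nat_lit 462)))) (M (nat_lit 458) (B (lo113_13_1 (nat_lit 457)) (M (nat_lit 394) (B (lo113_13_3 (nat_lit 393)) (M (nat_lit 362) (B (lo110_11_4 (nat_lit 491)) (lo110_10_4 (nat_lit 330))))))))))) (B (M (nat_lit 426) (B (M (nat_lit 461) (B (lo19_13_0 (nat_lit 425)) (lo114_14_3 (nat_lit 462)))) (M (nat_lit 458) (B (lo113_13_1 (nat_lit 457)) (M (nat_lit 394) (B (lo113_13_3 (nat_lit 393)) (M (nat_lit 362) (B (lo110_11_4 (nat_lit 491)) (lo110_10_4 (nat_lit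 330)))))))))) (B (K _ _ _ o1_s41271) (B (M (nat_lit 458) (B (lo19_14_2 (nat_lit 457)) (M (nat_lit 491) (B (M (nat_lit 396) (B (lo111_16_6 (nat_lit 523)) (lo112_11_5 (nat_lit 364)))) (M (nat_lit 490) (B (M (nat_lit 522) (B (lo110_17_6 (nat_lit 554)) (lo111_12_5 (nat_lit 395)))) (M (nat_lit 461) (B (lo113_14_1 (nat_lit 489)) (lo114_14_1 (nat_lit 462)))))))))) (B (M (nat_lit 426) (B (M (nat_lit 425) (B (lo18_13_0 (nat_lit 424)) (lo19_13_0 (nat_lit 461)))) (B (M (nat_lit 461) (B (lo19_13_0 (nat_lit 425)) (lo114_14_3 (nat_lit 462)))) (B (K _ _ _ o1_s41527) (M (nat_lit 425) (B (lo18_13_0 (nat_lit 424)) (M (nat_lit 393) (B (lo112_13_3 (nat_lit 392)) (lo113_13_3 (nat_lit 394)))))))))) (M (nat_lit 458) (B (lo19_14_2 (nat_lit 457)) (M (nat_lit 394) (B (M (nat_lit 426) (B (lo113_13_3 (nat_lit 393)) (M (nat_lit 362) (B (lo110_11_4 (nat_lit 491)) (lo110_10_4 (nat_lit 330)))))) (B (K _ _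 _ o1_s41537) (M (nat_lit 395) (B (M (nat_lit 393) (B (lo18_12_0 (nat_lit 392)) (lo19_12_0 (nat_lit 396)))) (M (nat_lit 363) (B (lo111_11_5 (nat_lit 490)) (lo111_10_4 (nat_lit 331))))))))))))))))) (M (nat_lit 458) (B (lo19_14_2 (nat_lit 457)) (M (nat_lit 394) (B (M (nat_lit 427) (B (M (nat_lit 426) (B (lo113_13_3 (nat_lit 393)) (M (nat_lit 362) (B (lo110_11_4 (nat_lit 491)) (lo110_10_4 (nat_lit 330)))))) (B (K _ _ _ o1_s41537) (M (nat_lit 395) (B (M (nat_lit 393) (B (lo18_12_0 (nat_lit 392)) (lo19_12_0 (nat_lit 396)))) (M (nat_lit 363) (B (lo111_11_5 (nat_lit 490)) (lo111_10_4 (nat_lit 331))))))))) (B (M (nat_lit 491) (B (M (nat_lit 426) (B (lo110_11_4 (nat_lit 362)) (M (nat_lit 523) (B (lo110_12_4 (nat_lit 490)) (lo111_17_7 (nat_lit 555)))))) (B (M (nat_lit 426) (B (lo110_11_4 (nat_lit 362)) (M (nat_lit 523) (B (lo111_17_7 (nat_lit 555)) (lo111_16_7 (nat_lit 427)))))) (B (M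 (nat_lit 396) (B (lo112_11_5 (nat_lit 364)) (M (nat_lit 523) (B (lo111_17_6 (nat_lit 555)) (lo111_16_6 (nat_lit 427)))))) (B (M (nat_lit 426) (B (lo110_11_4 (nat_lit 362)) (M (nat_lit 523) (B (lo110_12_4 (nat_lit 490)) (lo111_16_7 (nat_lit 427)))))) (M (nat_lit 393) (B (M (nat_lit 426) (B (lo113_13_3 (nat_lit 427)) (lo110_11_4 (nat_lit 362)))) (M (nat_lit 396) (B (lo19_12_0 (nat_lit 395)) (lo112_11_5 (nat_lit 364))))))))))) (B (M (nat_lit 491) (B (M (nat_lit 426) (B (lo110_11_4 (nat_lit 362)) (M (nat_lit 523) (B (lo110_12_4 (nat_lit 490)) (lo111_16_7 (nat_lit 427)))))) (B (M (nat_lit 426) (B (lo110_11_4 (nat_lit 362)) (M (nat_lit 523) (B (lo111_17_7 (nat_lit 555)) (lo111_16_7 (nat_lit 427)))))) (B (M (nat_lit 396) (B (lo112_11_5 (nat_lit 364)) (M (nat_lit 523) (B (lo111_17_6 (nat_lit 555)) (lo111_16_6 (nat_lit 427)))))) (B (M (nat_lit 426) (B (lo110_11_4 (nat_lit 362)) (M (nat_lit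 427) (B (M (nat_lit 396) (B (lo112_11_5 (nat_lit 364)) (M (nat_lit 425) (B (lo18_13_0 (nat_lit 424)) (lo19_13_2 (nat_lit 397)))))) (M (nat_lit 490) (B (M (nat_lit 489) (B (lo18_15_2 (nat_lit 488)) (lo110_12_5 (nat_lit 521)))) (M (nat_lit 522) (B (lo110_17_6 (nat_lit 554)) (lo110_16_6 (nat_lit 395)))))))))) (M (nat_lit 426) (B (lo110_11_4 (nat_lit 362)) (M (nat_lit 523) (B (lo110_12_4 (nat_lit 490)) (lo111_17_7 (nat_lit 555))))))))))) (B (M (nat_lit 426) (B (M (nat_lit 491) (B (lo110_11_4 (nat_lit 362)) (M (nat_lit 523) (B (lo111_17_7 (nat_lit 555)) (lo111_16_7 (nat_lit 427)))))) (B (M (nat_lit 427) (B (lo113_13_3 (nat_lit 393)) (M (nat_lit 397) (B (lo110_13_2 (nat_lit 398)) (M (nat_lit 425) (B (lo18_13_0 (nat_lit 424)) (lo19_13_2 (nat_lit 396)))))))) (K _ _ _ o1_s41600)))) (B (M (nat_lit 396) (B (M (nat_lit 491) (B (lo112_11_5 (nat_lit 364)) (M (nat_lit 523) (B (lo111_17_6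 (nat_lit 555)) (lo111_16_6 (nat_lit 427)))))) (B (M (nat_lit 491) (B (lo112_11_5 (nat_lit 364)) (M (nat_lit 427) (B (lo111_16_6 (nat_lit 523)) (M (nat_lit 395) (B (lo19_12_0 (nat_lit 393)) (lo111_15_7 (nat_lit 362)))))))) (B (M (nat_lit 364) (B (lo112_11_5 (nat_lit 491)) (M (nat_lit 332) (B (lo112_10_5 (nat_lit 427)) (M (nat_lit 331) (B (lo112_14_7 (nat_lit 363)) (lo112_13_7 (nat_lit 299)))))))) (B (M (nat_lit 395) (B (lo19_12_0 (nat_lit 393)) (M (nat_lit 363) (B (M (nat_lit 427) (B (lo111_11_5 (nat_lit 490)) (lo111_10_4 (nat_lit 331)))) (B (M (nat_lit 331) (B (lo111_10_4 (nat_lit 427)) (lo111_9_4 (nat_lit 299)))) (B (M (nat_lit 331) (B (lo111_9_4 (nat_lit 299)) (lo112_14_7 (nat_lit 364)))) (M (nat_lit 362) (B (M (nat_lit 427) (B (lo111_11_5 (nat_lit 490)) (lo111_14_7 (nat_lit 330)))) (M (nat_lit 397) (B (lo113_12_3 (nat_lit 361)) (lo114_12_3 (nat_lit 398)))))))))))) (B (K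 _ _ _ o1_s41640) (M (nat_lit 395) (B (lo19_12_0 (nat_lit 393)) (M (nat_lit 427) (B (M (nat_lit 491) (B (lo111_15_7 (nat_lit 362)) (lo111_16_6 (nat_lit 523)))) (M (nat_lit 363) (B (lo111_11_5 (nat_lit 490)) (lo111_10_4 (nat_lit 331)))))))))))))) (B (M (nat_lit 426) (B (M (nat_lit 427) (B (lo113_13_3 (nat_lit 393)) (M (nat_lit 397) (B (lo110_13_2 (nat_lit 398)) (M (nat_lit 425) (B (lo18_13_0 (nat_lit 424)) (lo19_13_2 (nat_lit 396)))))))) (B (M (nat_lit 393) (B (lo113_13_3 (nat_lit 427)) (M (nat_lit 490) (B (lo110_15_7 (nat_lit 361)) (M (nat_lit 395) (B (lo19_12_0 (nat_lit 396)) (lo110_15_6 (nat_lit 363)))))))) (B (M (nat_lit 490) (B (M (nat_lit 491) (B (lo110_12_4 (nat_lit 523)) (M (nat_lit 489) (B (lo18_15_2 (nat_lit 488)) (lo110_12_5 (nat_lit 521)))))) (B (M (nat_lit 522) (B (M (nat_lit 523) (B (lo110_13_4 (nat_lit 555)) (lo110_12_4 (nat_lit 491)))) (M (nat_lit 395) (B (lo110_16_6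 (nat_lit 427)) (lo110_15_6 (nat_lit 363)))))) (M (nat_lit 522) (B (M (nat_lit 521) (B (lo110_13_5 (nat_lit 553)) (lo110_12_5 (nat_lit 489)))) (M (nat_lit 395) (B (lo110_16_6 (nat_lit 427)) (lo110_15_6 (nat_lit 363))))))))) (M (nat_lit 490) (B (M (nat_lit 491) (B (lo110_12_4 (nat_lit 523)) (M (nat_lit 489) (B (lo18_15_2 (nat_lit 488)) (lo110_12_5 (nat_lit 521)))))) (M (nat_lit 393) (B (lo110_15_7 (nat_lit 361)) (M (nat_lit 395) (B (lo19_12_0 (nat_lit 396)) (lo110_15_6 (nat_lit 363)))))))))))) (B (M (nat_lit 426) (B (M (nat_lit 362) (B (lo110_11_4 (nat_lit 491)) (M (nat_lit 427) (B (lo113_13_3 (nat_lit 393)) (lo110_10_4 (nat_lit 330)))))) (B (M (nat_lit 362) (B (lo110_11_4 (nat_lit 491)) (M (nat_lit 330) (B (lo110_10_4 (nat_lit 427)) (M (nat_lit 329) (B (lo110_14_7 (nat_lit 361)) (lo110_13_7 (nat_lit 297)))))))) (B (M (nat_lit 393) (B (lo113_13_3 (nat_lit 427)) (M (nat_lit 490)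 (B (lo110_15_7 (nat_lit 361)) (M (nat_lit 395) (B (lo19_12_0 (nat_lit 396)) (lo110_15_6 (nat_lit 363)))))))) (K _ _ _ o1_s41600))))) (B (M (nat_lit 427) (B (M (nat_lit 393) (B (lo113_13_3 (nat_lit 426)) (M (nat_lit 395) (B (lo18_12_0 (nat_lit 392)) (lo19_12_0 (nat_lit 396)))))) (B (M (nat_lit 395) (B (M (nat_lit 393) (B (lo113_13_3 (nat_lit 426)) (lo19_12_0 (nat_lit 396)))) (M (nat_lit 363) (B (lo111_11_5 (nat_lit 490)) (lo111_10_4 (nat_lit 331)))))) (B (M (nat_lit 426) (B (M (nat_lit 397) (B (lo110_13_2 (nat_lit 398)) (M (nat_lit 425) (B (lo18_13_0 (nat_lit 424)) (lo19_13_2 (nat_lit 396)))))) (M (nat_lit 490) (B (M (nat_lit 522) (B (lo110_17_6 (nat_lit 554)) (lo110_16_6 (nat_lit 395)))) (B (M (nat_lit 395) (B (lo110_16_6 (nat_lit 522)) (lo110_15_6 (nat_lit 363)))) (B (M (nat_lit 363) (B (lo110_15_6 (nat_lit 395)) (M (nat_lit 362) (B (lo110_14_6 (nat_lit 331)) (lo110_10_4 (nat_lit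 330)))))) (M (nat_lit 521) (B (lo110_12_5 (nat_lit 489)) (M (nat_lit 522) (B (lo110_13_5 (nat_lit 553)) (lo110_17_6 (nat_lit 554)))))))))))) (B (M (nat_lit 395) (B (M (nat_lit 393) (B (lo18_12_0 (nat_lit 392)) (lo19_12_0 (nat_lit 396)))) (M (nat_lit 363) (B (lo111_11_5 (nat_lit 490)) (lo111_10_4 (nat_lit 331)))))) (B (M (nat_lit 426) (B (lo113_13_3 (nat_lit 393)) (M (nat_lit 397) (B (lo110_13_2 (nat_lit 398)) (M (nat_lit 425) (B (lo18_13_0 (nat_lit 424)) (lo19_13_2 (nat_lit 396)))))))) (M (nat_lit 395) (B (M (nat_lit 393) (B (lo18_12_0 (nat_lit 392)) (lo113_13_3 (nat_lit 426)))) (M (nat_lit 363) (B (lo111_11_5 (nat_lit 490)) (lo111_10_4 (nat_lit 331)))))))))))) (B (M (nat_lit 396) (B (M (nat_lit 491) (B (lo112_11_5 (nat_lit 364)) (M (nat_lit 523) (B (lo111_17_6 (nat_lit 555)) (M (nat_lit 426) (B (lo110_12_4 (nat_lit 490)) (lo110_11_4 (nat_lit 362)))))))) (B (K _ _ _ o1_s41640)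 (B (M (nat_lit 364) (B (lo112_11_5 (nat_lit 491)) (M (nat_lit 333) (B (lo112_14_6 (nat_lit 365)) (M (nat_lit 331) (B (lo112_14_7 (nat_lit 363)) (M (nat_lit 332) (B (lo112_13_7 (nat_lit 299)) (lo112_13_6 (nat_lit 301)))))))))) (B (M (nat_lit 395) (B (lo19_12_0 (nat_lit 393)) (M (nat_lit 363) (B (M (nat_lit 331) (B (lo111_9_4 (nat_lit 299)) (lo112_14_7 (nat_lit 364)))) (M (nat_lit 397) (B (M (nat_lit 426) (B (lo113_12_1 (nat_lit 425)) (lo110_15_6 (nat_lit 490)))) (M (nat_lit 362) (B (lo113_12_3 (nat_lit 361)) (lo114_12_3 (nat_lit 398)))))))))) (M (nat_lit 426) (B (M (nat_lit 491) (B (lo110_11_4 (nat_lit 362)) (M (nat_lit 523) (B (lo110_12_4 (nat_lit 490)) (lo111_17_7 (nat_lit 555)))))) (B (M (nat_lit 362) (B (lo110_11_4 (nat_lit 491)) (M (nat_lit 330) (B (M (nat_lit 329) (B (lo110_14_7 (nat_lit 361)) (lo110_13_7 (nat_lit 297)))) (M (nat_lit 331) (B (lo110_14_6 (nat_lit 363))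 (lo110_13_6 (nat_lit 299)))))))) (M (nat_lit 393) (B (lo19_12_0 (nat_lit 395)) (M (nat_lit 361) (B (lo110_15_7 (nat_lit 490)) (M (nat_lit 329) (B (lo19_10_4 (nat_lit 425)) (lo19_9_4 (nat_lit 297)))))))))))))))) (M (nat_lit 426) (B (M (nat_lit 491) (B (lo110_11_4 (nat_lit 362)) (M (nat_lit 523) (B (lo110_12_4 (nat_lit 490)) (lo111_17_7 (nat_lit 555)))))) (B (M (nat_lit 491) (B (lo110_11_4 (nat_lit 362)) (M (nat_lit 523) (B (lo111_17_7 (nat_lit 555)) (lo111_16_7 (nat_lit 427)))))) (M (nat_lit 490) (B (M (nat_lit 393) (B (lo110_15_7 (nat_lit 361)) (lo113_13_3 (nat_lit 427)))) (B (M (nat_lit 522) (B (M (nat_lit 521) (B (lo110_13_5 (nat_lit 553)) (lo110_12_5 (nat_lit 489)))) (M (nat_lit 395) (B (lo110_16_6 (nat_lit 427)) (lo110_15_6 (nat_lit 363)))))) (M (nat_lit 522) (B (M (nat_lit 521) (B (lo110_13_5 (nat_lit 553)) (lo110_12_5 (nat_lit 489)))) (M (nat_lit 393) (B (lo110_16_7 (nat_lit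 425)) (lo110_15_7 (nat_lit 361)))))))))))))))))))))))))))))))))) (B (M (nat_lit 461) (B (M (nat_lit 462) (B (M (nat_lit 427) (B (lo110_13_0 (nat_lit 426)) (lo115_14_3 (nat_lit 463)))) (B (M (nat_lit 463) (B (lo115_14_3 (nat_lit 427)) (lo116_14_3 (nat_lit 464)))) (B (M (nat_lit 492) (B (M (nat_lit 463) (B (lo115_14_1 (nat_lit 491)) (lo116_14_3 (nat_lit 464)))) (M (nat_lit 397) (B (lo112_16_6 (nat_lit 524)) (lo113_11_5 (nat_lit 365)))))) (K _ _ _ o1_s41756))))) (B (M (nat_lit 462) (B (M (nat_lit 427) (B (lo110_13_0 (nat_lit 426)) (lo115_14_3 (nat_lit 463)))) (B (M (nat_lit 463) (B (lo115_14_3 (nat_lit 427)) (lo116_14_3 (nat_lit 464)))) (B (M (nat_lit 492) (B (M (nat_lit 463) (B (lo115_14_1 (nat_lit 491)) (lo116_14_3 (nat_lit 464)))) (M (nat_lit 397) (B (lo112_16_6 (nat_lit 524)) (lo113_11_5 (nat_lit 365)))))) (M (nat_lit 426) (B (lo110_13_0 (nat_lit 427)) (M (nat_lit 494) (B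 (M (nat_lit 459) (B (lo111_14_0 (nat_lit 495)) (M (nat_lit 458) (B (lo19_14_2 (nat_lit 457)) (lo113_14_3 (nat_lit 425)))))) (B (M (nat_lit 459) (B (lo111_14_0 (nat_lit 495)) (M (nat_lit 458) (B (lo113_14_3 (nat_lit 425)) (lo110_14_0 (nat_lit 493)))))) (B (M (nat_lit 459) (B (lo111_14_0 (nat_lit 495)) (M (nat_lit 458) (B (lo19_14_2 (nat_lit 457)) (lo110_14_0 (nat_lit 493)))))) (M (nat_lit 397) (B (lo113_11_4 (nat_lit 365)) (M (nat_lit 526) (B (lo113_12_4 (nat_lit 493)) (lo114_17_7 (nat_lit 558)))))))))))))))) (B (M (nat_lit 462) (B (M (nat_lit 427) (B (lo110_13_0 (nat_lit 426)) (lo115_14_3 (nat_lit 463)))) (B (M (nat_lit 463) (B (lo115_14_3 (nat_lit 427)) (lo116_14_3 (nat_lit 464)))) (B (M (nat_lit 492) (B (M (nat_lit 463) (B (lo115_14_1 (nat_lit 491)) (lo116_14_3 (nat_lit 464)))) (M (nat_lit 397) (B (lo112_16_6 (nat_lit 524)) (lo113_11_5 (nat_lit 365)))))) (M (nat_lit 459)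 (B (M (nat_lit 426) (B (lo114_14_3 (nat_lit 427)) (M (nat_lit 458) (B (lo113_14_3 (nat_lit 425)) (M (nat_lit 494) (B (lo110_14_0 (nat_lit 493)) (lo111_14_0 (nat_lit 495)))))))) (B (M (nat_lit 458) (B (M (nat_lit 490) (B (lo113_14_1 (nat_lit 489)) (lo114_14_1 (nat_lit 491)))) (M (nat_lit 494) (B (lo110_14_0 (nat_lit 493)) (lo111_14_0 (nat_lit 495)))))) (B (M (nat_lit 494) (B (lo111_14_0 (nat_lit 495)) (M (nat_lit 397) (B (lo113_11_4 (nat_lit 365)) (M (nat_lit 526) (B (lo113_12_4 (nat_lit 493)) (lo114_17_7 (nat_lit 558)))))))) (M (nat_lit 458) (B (M (nat_lit 490) (B (lo113_14_1 (nat_lit 489)) (lo114_14_1 (nat_lit 491)))) (M (nat_lit 426) (B (lo113_14_3 (nat_lit 425)) (lo114_14_3 (nat_lit 427)))))))))))))) (B (M (nat_lit 462) (B (M (nat_lit 427) (B (lo110_13_0 (nat_lit 426)) (lo115_14_3 (nat_lit 463)))) (B (M (nat_lit 463) (B (lo115_14_3 (nat_lit 427)) (lo116_14_3 (nat_lit 464))))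 (B (M (nat_lit 492) (B (M (nat_lit 463) (B (lo115_14_1 (nat_lit 491)) (lo116_14_3 (nat_lit 464)))) (M (nat_lit 397) (B (lo112_16_6 (nat_lit 524)) (lo113_11_5 (nat_lit 365)))))) (M (nat_lit 459) (B (M (nat_lit 458) (B (lo19_14_2 (nat_lit 457)) (M (nat_lit 494) (B (lo110_14_0 (nat_lit 493)) (lo111_14_0 (nat_lit 495)))))) (B (M (nat_lit 494) (B (lo111_14_0 (nat_lit 495)) (M (nat_lit 397) (B (lo113_11_4 (nat_lit 365)) (M (nat_lit 526) (B (lo113_12_4 (nat_lit 493)) (lo114_17_7 (nat_lit 558)))))))) (M (nat_lit 490) (B (lo114_14_1 (nat_lit 491)) (M (nat_lit 458) (B (lo113_14_1 (nat_lit 489)) (lo19_14_2 (nat_lit 457))))))))))))) (B (M (nat_lit 462) (B (M (nat_lit 463) (B (lo115_14_3 (nat_lit 427)) (lo116_14_3 (nat_lit 464)))) (M (nat_lit 397) (B (M (nat_lit 492) (B (lo112_16_6 (nat_lit 524)) (lo113_11_5 (nat_lit 365)))) (B (M (nat_lit 365) (B (lo113_11_5 (nat_lit 492)) (lo113_10_5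 (nat_lit 333)))) (B (M (nat_lit 365) (B (lo113_10_5 (nat_lit 333)) (lo113_11_4 (nat_lit 494)))) (M (nat_lit 493) (B (M (nat_lit 524) (B (lo112_16_6 (nat_lit 492)) (M (nat_lit 525) (B (lo113_13_5 (nat_lit 556)) (lo113_17_7 (nat_lit 557)))))) (M (nat_lit 494) (B (lo113_12_4 (nat_lit 526)) (M (nat_lit 495) (B (lo111_14_0 (nat_lit 459)) (lo116_15_3 (nat_lit 496)))))))))))))) (B (M (nat_lit 397) (B (M (nat_lit 492) (B (lo112_16_6 (nat_lit 524)) (lo113_11_5 (nat_lit 365)))) (B (M (nat_lit 365) (B (lo113_11_5 (nat_lit 492)) (lo113_10_5 (nat_lit 333)))) (B (M (nat_lit 365) (B (lo113_10_5 (nat_lit 333)) (M (nat_lit 462) (B (lo113_11_4 (nat_lit 494)) (M (nat_lit 463) (B (lo115_14_3 (nat_lit 427)) (lo116_14_3 (nat_lit 464)))))))) (M (nat_lit 493) (B (M (nat_lit 524) (B (lo112_16_6 (nat_lit 492)) (M (nat_lit 525) (B (lo113_13_5 (nat_lit 556)) (lo113_17_7 (nat_lit 557)))))) (B (M (nat_lit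 525) (B (lo113_17_7 (nat_lit 557)) (M (nat_lit 526) (B (lo113_13_4 (nat_lit 558)) (lo113_12_4 (nat_lit 494)))))) (B (M (nat_lit 525) (B (M (nat_lit 524) (B (lo113_13_5 (nat_lit 556)) (lo112_16_6 (nat_lit 492)))) (M (nat_lit 526) (B (lo113_13_4 (nat_lit 558)) (lo113_12_4 (nat_lit 494)))))) (M (nat_lit 492) (B (lo112_16_6 (nat_lit 524)) (K _ _ _ o1_s40603))))))))))) (B (M (nat_lit 462) (B (M (nat_lit 492) (B (M (nat_lit 463) (B (lo115_14_1 (nat_lit 491)) (lo116_14_3 (nat_lit 464)))) (M (nat_lit 397) (B (lo112_16_6 (nat_lit 524)) (lo113_11_5 (nat_lit 365)))))) (B (M (nat_lit 397) (B (M (nat_lit 492) (B (lo112_16_6 (nat_lit 524)) (lo113_11_5 (nat_lit 365)))) (B (M (nat_lit 365) (B (lo113_11_5 (nat_lit 492)) (lo113_11_4 (nat_lit 494)))) (B (M (nat_lit 365) (B (lo113_10_5 (nat_lit 333)) (lo113_11_4 (nat_lit 494)))) (M (nat_lit 493) (B (M (nat_lit 524) (B (lo112_16_6 (nat_lit 492))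 (M (nat_lit 525) (B (lo113_13_5 (nat_lit 556)) (lo113_17_7 (nat_lit 557)))))) (M (nat_lit 494) (B (lo113_12_4 (nat_lit 526)) (M (nat_lit 459) (B (lo110_14_0 (nat_lit 458)) (lo111_14_0 (nat_lit 495)))))))))))) (B (K _ _ _ o1_s39597) (K _ _ _ o1_s41795))))) (B (M (nat_lit 462) (B (M (nat_lit 427) (B (lo110_13_0 (nat_lit 426)) (lo115_14_3 (nat_lit 463)))) (B (M (nat_lit 463) (B (lo115_14_3 (nat_lit 427)) (lo116_14_3 (nat_lit 464)))) (B (K _ _ _ o1_s39597) (M (nat_lit 459) (B (M (nat_lit 426) (B (lo114_14_3 (nat_lit 427)) (M (nat_lit 458) (B (lo19_14_2 (nat_lit 457)) (lo113_14_3 (nat_lit 425)))))) (B (M (nat_lit 426) (B (lo114_14_3 (nat_lit 427)) (M (nat_lit 458) (B (lo113_14_3 (nat_lit 425)) (M (nat_lit 494) (B (lo110_14_0 (nat_lit 493)) (lo111_14_0 (nat_lit 495)))))))) (B (M (nat_lit 458) (B (lo19_14_2 (nat_lit 457)) (M (nat_lit 494) (B (lo110_14_0 (nat_lit 493)) (lo111_14_0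 (nat_lit 495)))))) (M (nat_lit 494) (B (lo111_14_0 (nat_lit 495)) (M (nat_lit 397) (B (lo113_11_4 (nat_lit 365)) (M (nat_lit 526) (B (lo113_12_4 (nat_lit 493)) (lo114_17_7 (nat_lit 558)))))))))))))))) (B (M (nat_lit 462) (B (M (nat_lit 427) (B (lo110_13_0 (nat_lit 426)) (lo115_14_3 (nat_lit 463)))) (B (M (nat_lit 463) (B (lo115_14_3 (nat_lit 427)) (lo116_14_3 (nat_lit 464)))) (B (K _ _ _ o1_s41795) (K _ _ _ o1_s41756))))) (B (M (nat_lit 462) (B (M (nat_lit 427) (B (lo110_13_0 (nat_lit 426)) (lo115_14_3 (nat_lit 463)))) (B (M (nat_lit 463) (B (lo115_14_3 (nat_lit 427)) (lo116_14_3 (nat_lit 464)))) (B (M (nat_lit 492) (B (M (nat_lit 463) (B (lo115_14_1 (nat_lit 491)) (lo116_14_3 (nat_lit 464)))) (M (nat_lit 397) (B (lo112_16_6 (nat_lit 524)) (lo113_11_5 (nat_lit 365)))))) (M (nat_lit 459) (B (M (nat_lit 426) (B (lo114_14_3 (nat_lit 427)) (M (nat_lit 458) (B (lo19_14_2 (nat_lit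 457)) (lo113_14_3 (nat_lit 425)))))) (B (M (nat_lit 458) (B (M (nat_lit 490) (B (lo113_14_1 (nat_lit 489)) (lo114_14_1 (nat_lit 491)))) (M (nat_lit 426) (B (lo113_14_3 (nat_lit 425)) (lo114_14_3 (nat_lit 427)))))) (B (M (nat_lit 490) (B (lo114_14_1 (nat_lit 491)) (M (nat_lit 458) (B (lo113_14_1 (nat_lit 489)) (lo19_14_2 (nat_lit 457)))))) (M (nat_lit 427) (B (lo114_14_3 (nat_lit 426)) (M (nat_lit 491) (B (lo114_14_1 (nat_lit 490)) (M (nat_lit 524) (B (M (nat_lit 523) (B (lo111_17_6 (nat_lit 555)) (lo111_13_4 (nat_lit 556)))) (M (nat_lit 492) (B (lo111_12_4 (nat_lit 395)) (lo112_16_6 (nat_lit 397)))))))))))))))))) (B (M (nat_lit 427) (B (M (nat_lit 426) (B (lo19_13_0 (nat_lit 425)) (lo110_13_0 (nat_lit 462)))) (B (M (nat_lit 462) (B (lo110_13_0 (nat_lit 426)) (lo115_14_3 (nat_lit 463)))) (B (M (nat_lit 459) (B (M (nat_lit 458) (B (lo19_14_2 (nat_lit 457)) (M (nat_lit 462) (B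 (lo115_14_3 (nat_lit 463)) (M (nat_lit 494) (B (lo110_14_0 (nat_lit 493)) (lo111_14_0 (nat_lit 495)))))))) (B (K _ _ _ o1_s40503) (B (M (nat_lit 491) (B (M (nat_lit 462) (B (lo114_14_1 (nat_lit 490)) (lo115_14_3 (nat_lit 463)))) (M (nat_lit 395) (B (M (nat_lit 492) (B (lo111_12_4 (nat_lit 524)) (lo111_11_4 (nat_lit 363)))) (B (M (nat_lit 524) (B (lo111_12_4 (nat_lit 492)) (M (nat_lit 523) (B (lo111_17_6 (nat_lit 555)) (lo111_13_4 (nat_lit 556)))))) (B (M (nat_lit 363) (B (lo111_11_4 (nat_lit 492)) (lo111_10_4 (nat_lit 331)))) (M (nat_lit 362) (B (lo111_15_7 (nat_lit 394)) (M (nat_lit 363) (B (lo111_14_7 (nat_lit 330)) (lo111_10_4 (nat_lit 331)))))))))))) (K _ _ _ o1_s40524))))) (M (nat_lit 459) (B (K _ _ _ o1_s40528) (B (K _ _ _ o1_s40530) (B (M (nat_lit 426) (B (lo19_13_0 (nat_lit 425)) (M (nat_lit 394) (B (lo113_13_3 (nat_lit 393)) (M (nat_lit 362) (B (lo110_10_4 (nat_lit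 330)) (M (nat_lit 491) (B (lo110_11_4 (nat_lit 458)) (lo111_15_7 (nat_lit 395)))))))))) (B (K _ _ _ o1_s40524) (M (nat_lit 426) (B (lo19_13_0 (nat_lit 425)) (M (nat_lit 394) (B (lo113_13_3 (nat_lit 393)) (M (nat_lit 395) (B (M (nat_lit 362) (B (lo110_10_4 (nat_lit 330)) (lo111_15_7 (nat_lit 491)))) (M (nat_lit 363) (B (lo111_11_4 (nat_lit 492)) (lo111_10_4 (nat_lit 331))))))))))))))))))) (M (nat_lit 493) (B (M (nat_lit 525) (B (lo113_17_7 (nat_lit 557)) (M (nat_lit 526) (B (lo113_13_4 (nat_lit 558)) (M (nat_lit 397) (B (lo113_12_4 (nat_lit 494)) (M (nat_lit 524) (B (lo113_13_5 (nat_lit 556)) (lo112_16_6 (nat_lit 492)))))))))) (B (M (nat_lit 525) (B (lo113_17_7 (nat_lit 557)) (M (nat_lit 397) (B (M (nat_lit 492) (B (lo112_16_6 (nat_lit 524)) (lo113_11_5 (nat_lit 365)))) (M (nat_lit 526) (B (lo113_13_4 (nat_lit 558)) (lo113_12_4 (nat_lit 494)))))))) (B (K _ _ _ o1_s40174) (B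 (M (nat_lit 525) (B (lo113_17_7 (nat_lit 557)) (M (nat_lit 524) (B (lo113_13_5 (nat_lit 556)) (M (nat_lit 526) (B (lo113_13_4 (nat_lit 558)) (M (nat_lit 494) (B (lo113_12_4 (nat_lit 397)) (M (nat_lit 523) (B (lo110_16_2 (nat_lit 522)) (lo111_16_2 (nat_lit 495)))))))))))) (B (M (nat_lit 492) (B (M (nat_lit 524) (B (lo112_17_6 (nat_lit 556)) (lo112_16_6 (nat_lit 397)))) (B (M (nat_lit 397) (B (lo112_16_6 (nat_lit 524)) (lo113_11_5 (nat_lit 365)))) (B (M (nat_lit 494) (B (M (nat_lit 459) (B (lo110_14_0 (nat_lit 458)) (lo115_15_3 (nat_lit 495)))) (M (nat_lit 397) (B (lo113_11_5 (nat_lit 365)) (lo113_12_4 (nat_lit 526)))))) (K _ _ _ o1_s41855))))) (B (M (nat_lit 492) (B (K _ _ _ o1_s41855) (B (M (nat_lit 525) (B (lo113_17_7 (nat_lit 557)) (M (nat_lit 524) (B (lo112_17_6 (nat_lit 556)) (M (nat_lit 526) (B (lo113_13_4 (nat_lit 558)) (M (nat_lit 491) (B (lo110_15_0 (nat_lit 490)) (lo115_16_3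 (nat_lit 527)))))))))) (B (M (nat_lit 524) (B (lo112_17_6 (nat_lit 556)) (M (nat_lit 525) (B (lo112_13_4 (nat_lit 557)) (M (nat_lit 523) (B (lo112_13_5 (nat_lit 555)) (M (nat_lit 522) (B (lo19_16_2 (nat_lit 521)) (lo110_16_2 (nat_lit 494)))))))))) (M (nat_lit 459) (B (M (nat_lit 458) (B (lo19_14_0 (nat_lit 457)) (lo110_14_0 (nat_lit 494)))) (B (M (nat_lit 494) (B (lo110_14_0 (nat_lit 458)) (lo115_15_3 (nat_lit 495)))) (B (M (nat_lit 491) (B (M (nat_lit 494) (B (lo115_15_3 (nat_lit 495)) (M (nat_lit 523) (B (lo114_15_1 (nat_lit 522)) (lo111_17_6 (nat_lit 555)))))) (M (nat_lit 490) (B (lo19_15_2 (nat_lit 489)) (M (nat_lit 525) (B (lo110_15_0 (nat_lit 526)) (lo113_17_7 (nat_lit 557)))))))) (M (nat_lit 525) (B (lo113_17_7 (nat_lit 557)) (M (nat_lit 490) (B (M (nat_lit 458) (B (lo113_14_1 (nat_lit 489)) (lo19_14_0 (nat_lit 457)))) (M (nat_lit 526) (B (lo110_15_0 (nat_lit 491)) (lo113_13_4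 (nat_lit 558)))))))))))))))) (B (M (nat_lit 525) (B (lo113_17_7 (nat_lit 557)) (M (nat_lit 524) (B (lo113_13_5 (nat_lit 556)) (M (nat_lit 492) (B (lo112_16_6 (nat_lit 397)) (M (nat_lit 523) (B (lo112_13_5 (nat_lit 555)) (M (nat_lit 522) (B (lo19_16_2 (nat_lit 521)) (lo110_16_2 (nat_lit 494)))))))))))) (M (nat_lit 525) (B (lo113_17_7 (nat_lit 557)) (M (nat_lit 524) (B (lo113_13_5 (nat_lit 556)) (M (nat_lit 492) (B (lo112_16_6 (nat_lit 397)) (M (nat_lit 526) (B (lo113_13_4 (nat_lit 558)) (M (nat_lit 491) (B (lo110_15_0 (nat_lit 490)) (lo115_16_3 (nat_lit 527)))))))))))))))))))))))))))))))) (B (M (nat_lit 397) (B (M (nat_lit 365) (B (lo113_10_5 (nat_lit 333)) (M (nat_lit 492) (B (lo112_16_6 (nat_lit 524)) (lo113_11_5 (nat_lit 461)))))) (B (M (nat_lit 365) (B (lo113_10_5 (nat_lit 333)) (M (nat_lit 492) (B (lo112_15_6 (nat_lit 396)) (lo113_11_5 (nat_lit 461)))))) (B (M (nat_lit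 364) (B (M (nat_lit 365) (B (lo113_10_5 (nat_lit 333)) (M (nat_lit 461) (B (lo113_14_7 (nat_lit 332)) (M (nat_lit 462) (B (lo113_11_4 (nat_lit 494)) (M (nat_lit 463) (B (lo115_14_3 (nat_lit 427)) (lo116_14_3 (nat_lit 464)))))))))) (B (M (nat_lit 396) (B (M (nat_lit 332) (B (lo112_10_4 (nat_lit 461)) (lo112_9_4 (nat_lit 300)))) (M (nat_lit 363) (B (lo112_14_7 (nat_lit 331)) (M (nat_lit 362) (B (lo19_11_0 (nat_lit 361)) (M (nat_lit 398) (B (lo114_12_3 (nat_lit 395)) (lo115_12_3 (nat_lit 399)))))))))) (B (M (nat_lit 396) (B (M (nat_lit 363) (B (lo112_14_7 (nat_lit 331)) (M (nat_lit 362) (B (lo19_11_0 (nat_lit 361)) (M (nat_lit 398) (B (lo114_12_3 (nat_lit 395)) (lo115_12_3 (nat_lit 399)))))))) (B (M (nat_lit 365) (B (lo112_14_6 (nat_lit 333)) (M (nat_lit 363) (B (lo112_14_7 (nat_lit 331)) (M (nat_lit 398) (B (lo110_11_0 (nat_lit 362)) (lo115_12_3 (nat_lit 399)))))))) (M (nat_lit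 461) (B (lo112_11_4 (nat_lit 493)) (M (nat_lit 462) (B (M (nat_lit 463) (B (lo115_14_3 (nat_lit 427)) (lo116_14_3 (nat_lit 464)))) (M (nat_lit 365) (B (lo112_14_6 (nat_lit 333)) (lo113_11_4 (nat_lit 494))))))))))) (M (nat_lit 365) (B (lo113_10_5 (nat_lit 333)) (M (nat_lit 396) (B (M (nat_lit 363) (B (lo112_14_7 (nat_lit 331)) (M (nat_lit 362) (B (lo19_11_0 (nat_lit 361)) (lo110_11_0 (nat_lit 398)))))) (M (nat_lit 459) (B (lo112_11_5 (nat_lit 491)) (M (nat_lit 332) (B (lo112_10_5 (nat_lit 427)) (lo112_9_4 (nat_lit 300)))))))))))))) (B (M (nat_lit 365) (B (lo113_10_5 (nat_lit 333)) (M (nat_lit 492) (B (lo112_16_6 (nat_lit 524)) (lo112_15_6 (nat_lit 396)))))) (M (nat_lit 396) (B (M (nat_lit 492) (B (lo112_16_6 (nat_lit 524)) (M (nat_lit 363) (B (lo112_15_7 (nat_lit 395)) (M (nat_lit 364) (B (lo112_14_7 (nat_lit 331)) (M (nat_lit 491) (B (lo112_12_5 (nat_lit 523)) (lo112_11_5 (nat_lit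 459)))))))))) (B (M (nat_lit 364) (B (M (nat_lit 332) (B (lo112_10_4 (nat_lit 461)) (lo112_9_4 (nat_lit 300)))) (M (nat_lit 363) (B (lo112_14_7 (nat_lit 331)) (M (nat_lit 492) (B (lo112_15_7 (nat_lit 395)) (lo112_16_6 (nat_lit 524)))))))) (B (M (nat_lit 364) (B (M (nat_lit 332) (B (lo112_10_4 (nat_lit 461)) (lo112_9_4 (nat_lit 300)))) (M (nat_lit 491) (B (lo112_11_5 (nat_lit 459)) (M (nat_lit 492) (B (lo112_12_5 (nat_lit 523)) (lo112_16_6 (nat_lit 524)))))))) (B (M (nat_lit 363) (B (M (nat_lit 364) (B (lo112_14_7 (nat_lit 331)) (M (nat_lit 461) (B (lo112_11_4 (nat_lit 493)) (lo112_10_4 (nat_lit 332)))))) (M (nat_lit 398) (B (M (nat_lit 395) (B (lo114_12_3 (nat_lit 362)) (lo112_15_7 (nat_lit 492)))) (M (nat_lit 427) (B (lo110_13_2 (nat_lit 426)) (lo115_12_1 (nat_lit 399)))))))) (B (M (nat_lit 364) (B (M (nat_lit 332) (B (lo112_10_4 (nat_lit 461)) (lo112_9_4 (nat_lit 300))))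 (M (nat_lit 363) (B (lo112_14_7 (nat_lit 331)) (M (nat_lit 362) (B (lo19_11_0 (nat_lit 361)) (M (nat_lit 398) (B (lo114_12_3 (nat_lit 395)) (lo115_12_3 (nat_lit 399)))))))))) (M (nat_lit 395) (B (M (nat_lit 492) (B (lo112_15_7 (nat_lit 363)) (lo112_16_6 (nat_lit 524)))) (B (M (nat_lit 394) (B (lo19_12_0 (nat_lit 393)) (M (nat_lit 427) (B (M (nat_lit 426) (B (lo113_12_1 (nat_lit 425)) (lo114_12_1 (nat_lit 398)))) (M (nat_lit 491) (B (M (nat_lit 362) (B (lo113_12_3 (nat_lit 361)) (lo111_15_7 (nat_lit 459)))) (B (M (nat_lit 459) (B (lo111_15_7 (nat_lit 362)) (lo111_16_6 (nat_lit 523)))) (B (M (nat_lit 523) (B (lo111_16_6 (nat_lit 459)) (lo112_12_5 (nat_lit 492)))) (M (nat_lit 492) (B (lo112_12_5 (nat_lit 523)) (lo112_16_7 (nat_lit 524)))))))))))) (B (M (nat_lit 394) (B (lo19_12_0 (nat_lit 393)) (M (nat_lit 362) (B (lo113_12_3 (nat_lit 361)) (M (nat_lit 363) (B (lo114_12_3 (nat_lit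 398)) (lo112_15_7 (nat_lit 492)))))))) (M (nat_lit 394) (B (lo19_12_0 (nat_lit 393)) (M (nat_lit 398) (B (M (nat_lit 426) (B (lo113_12_1 (nat_lit 425)) (lo114_12_1 (nat_lit 427)))) (M (nat_lit 362) (B (lo113_12_3 (nat_lit 361)) (lo114_12_3 (nat_lit 363))))))))))))))))))))))) (B (M (nat_lit 427) (B (M (nat_lit 397) (B (M (nat_lit 398) (B (lo110_13_2 (nat_lit 426)) (M (nat_lit 399) (B (lo115_12_1 (nat_lit 396)) (lo116_12_1 (nat_lit 400)))))) (B (M (nat_lit 492) (B (lo112_16_6 (nat_lit 524)) (M (nat_lit 365) (B (lo112_15_6 (nat_lit 396)) (lo113_10_5 (nat_lit 333)))))) (M (nat_lit 492) (B (lo112_16_6 (nat_lit 524)) (M (nat_lit 365) (B (lo113_11_5 (nat_lit 461)) (lo113_10_5 (nat_lit 333))))))))) (B (M (nat_lit 395) (B (M (nat_lit 363) (B (lo111_10_4 (nat_lit 331)) (M (nat_lit 492) (B (lo111_11_4 (nat_lit 459)) (lo112_16_7 (nat_lit 524)))))) (B (M (nat_lit 492) (B (lo112_16_7 (nat_lit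 524)) (M (nat_lit 363) (B (lo111_10_4 (nat_lit 331)) (lo112_15_7 (nat_lit 396)))))) (B (M (nat_lit 492) (B (lo112_16_7 (nat_lit 524)) (M (nat_lit 396) (B (M (nat_lit 491) (B (lo112_12_5 (nat_lit 523)) (M (nat_lit 459) (B (lo111_15_6 (nat_lit 364)) (M (nat_lit 394) (B (lo19_12_0 (nat_lit 393)) (lo111_15_7 (nat_lit 362)))))))) (B (M (nat_lit 364) (B (M (nat_lit 491) (B (lo112_12_5 (nat_lit 523)) (lo111_15_6 (nat_lit 459)))) (M (nat_lit 365) (B (lo112_15_6 (nat_lit 397)) (lo112_14_6 (nat_lit 333)))))) (B (M (nat_lit 364) (B (M (nat_lit 459) (B (lo111_15_6 (nat_lit 491)) (lo112_10_5 (nat_lit 332)))) (M (nat_lit 365) (B (lo112_15_6 (nat_lit 397)) (lo112_14_6 (nat_lit 333)))))) (B (M (nat_lit 364) (B (M (nat_lit 332) (B (lo112_10_5 (nat_lit 459)) (lo112_9_5 (nat_lit 300)))) (M (nat_lit 365) (B (lo112_15_6 (nat_lit 397)) (lo112_14_6 (nat_lit 333)))))) (B (M (nat_lit 364) (B (M (nat_lit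 365) (B (lo112_15_6 (nat_lit 397)) (lo112_14_6 (nat_lit 333)))) (M (nat_lit 332) (B (lo112_9_5 (nat_lit 300)) (lo112_10_4 (nat_lit 461)))))) (M (nat_lit 394) (B (lo19_12_0 (nat_lit 393)) (M (nat_lit 362) (B (M (nat_lit 397) (B (lo113_12_3 (nat_lit 361)) (lo112_15_6 (nat_lit 365)))) (M (nat_lit 491) (B (lo111_15_7 (nat_lit 459)) (lo112_12_5 (nat_lit 523)))))))))))))))) (B (M (nat_lit 363) (B (lo111_10_4 (nat_lit 331)) (M (nat_lit 492) (B (lo111_11_4 (nat_lit 459)) (lo112_15_7 (nat_lit 396)))))) (M (nat_lit 363) (B (lo111_10_4 (nat_lit 331)) (M (nat_lit 459) (B (M (nat_lit 458) (B (lo19_14_2 (nat_lit 457)) (lo111_11_5 (nat_lit 490)))) (M (nat_lit 491) (B (M (nat_lit 362) (B (lo111_15_7 (nat_lit 394)) (lo111_14_7 (nat_lit 330)))) (M (nat_lit 364) (B (lo111_15_6 (nat_lit 396)) (lo111_14_6 (nat_lit 332))))))))))))))) (B (M (nat_lit 397) (B (M (nat_lit 398) (B (lo110_13_2 (nat_lit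 426)) (M (nat_lit 399) (B (lo115_12_1 (nat_lit 396)) (lo116_12_1 (nat_lit 400)))))) (B (M (nat_lit 365) (B (lo113_10_5 (nat_lit 333)) (M (nat_lit 492) (B (lo112_15_6 (nat_lit 396)) (lo113_11_5 (nat_lit 461)))))) (M (nat_lit 426) (B (lo110_13_2 (nat_lit 398)) (M (nat_lit 461) (B (lo19_13_0 (nat_lit 425)) (lo110_13_0 (nat_lit 462))))))))) (B (M (nat_lit 426) (B (M (nat_lit 461) (B (lo19_13_0 (nat_lit 425)) (lo110_13_0 (nat_lit 462)))) (B (M (nat_lit 459) (B (M (nat_lit 458) (B (lo113_13_1 (nat_lit 457)) (M (nat_lit 394) (B (lo113_13_3 (nat_lit 393)) (M (nat_lit 362) (B (lo110_11_4 (nat_lit 491)) (lo110_10_4 (nat_lit 330)))))))) (B (M (nat_lit 394) (B (lo113_13_3 (nat_lit 393)) (M (nat_lit 491) (B (lo111_16_7 (nat_lit 523)) (M (nat_lit 362) (B (lo110_11_4 (nat_lit 458)) (lo110_10_4 (nat_lit 330)))))))) (B (K _ _ _ o1_s41527) (M (nat_lit 394) (B (lo113_13_3 (nat_lit 393)) (M (nat_lit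 362) (B (lo110_10_4 (nat_lit 330)) (M (nat_lit 491) (B (lo111_16_7 (nat_lit 523)) (lo111_15_7 (nat_lit 395)))))))))))) (M (nat_lit 425) (B (M (nat_lit 457) (B (lo112_13_1 (nat_lit 456)) (lo113_13_1 (nat_lit 458)))) (M (nat_lit 393) (B (lo112_13_3 (nat_lit 392)) (lo113_13_3 (nat_lit 394))))))))) (M (nat_lit 426) (B (M (nat_lit 397) (B (lo110_13_2 (nat_lit 398)) (M (nat_lit 492) (B (lo112_16_6 (nat_lit 524)) (M (nat_lit 365) (B (lo112_15_6 (nat_lit 396)) (lo113_10_5 (nat_lit 333)))))))) (M (nat_lit 425) (B (M (nat_lit 457) (B (lo112_13_1 (nat_lit 456)) (lo113_13_1 (nat_lit 458)))) (M (nat_lit 393) (B (lo112_13_3 (nat_lit 392)) (lo113_13_3 (nat_lit 394))))))))))))) (B (M (nat_lit 492) (B (M (nat_lit 397) (B (lo112_16_6 (nat_lit 524)) (M (nat_lit 365) (B (lo112_15_6 (nat_lit 396)) (lo113_10_5 (nat_lit 333)))))) (B (M (nat_lit 396) (B (M (nat_lit 364) (B (M (nat_lit 491) (B (lo112_12_5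 (nat_lit 523)) (lo112_11_5 (nat_lit 459)))) (M (nat_lit 363) (B (lo112_15_7 (nat_lit 395)) (lo112_14_7 (nat_lit 331)))))) (B (M (nat_lit 364) (B (M (nat_lit 363) (B (lo112_15_7 (nat_lit 395)) (lo112_14_7 (nat_lit 331)))) (M (nat_lit 365) (B (lo112_15_6 (nat_lit 397)) (lo112_14_6 (nat_lit 333)))))) (B (M (nat_lit 364) (B (M (nat_lit 491) (B (lo112_12_5 (nat_lit 523)) (lo112_11_5 (nat_lit 459)))) (M (nat_lit 365) (B (lo112_15_6 (nat_lit 397)) (lo112_14_6 (nat_lit 333)))))) (M (nat_lit 427) (B (M (nat_lit 397) (B (lo112_15_6 (nat_lit 365)) (M (nat_lit 426) (B (lo19_13_2 (nat_lit 425)) (lo110_13_2 (nat_lit 398)))))) (M (nat_lit 491) (B (lo112_12_5 (nat_lit 523)) (K _ _ _ o1_s42084))))))))) (B (M (nat_lit 524) (B (lo112_16_6 (nat_lit 397)) (M (nat_lit 556) (B (M (nat_lit 555) (B (lo112_14_5 (nat_lit 587)) (lo112_13_5 (nat_lit 523)))) (M (nat_lit 427) (B (lo112_17_7 (nat_lit 459))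 (lo112_16_7 (nat_lit 395)))))))) (K _ _ _ o1_s28629))))) (M (nat_lit 492) (B (M (nat_lit 524) (B (M (nat_lit 556) (B (lo112_17_6 (nat_lit 461)) (M (nat_lit 555) (B (lo112_14_5 (nat_lit 587)) (lo112_13_5 (nat_lit 523)))))) (B (M (nat_lit 556) (B (lo112_17_6 (nat_lit 461)) (M (nat_lit 427) (B (lo112_17_7 (nat_lit 459)) (lo112_16_7 (nat_lit 395)))))) (M (nat_lit 396) (B (M (nat_lit 523) (B (lo112_13_5 (nat_lit 555)) (lo112_12_5 (nat_lit 491)))) (M (nat_lit 525) (B (lo112_13_4 (nat_lit 557)) (lo112_12_4 (nat_lit 493))))))))) (B (K _ _ _ o1_s40854) (B (K _ _ _ o1_s28627) (B (K _ _ _ o1_s40113) (B (K _ _ _ o1_s26263) (B (K _ _ _ o1_s41164) (B (M (nat_lit 491) (B (M (nat_lit 523) (B (lo112_12_5 (nat_lit 396)) (M (nat_lit 555) (B (lo111_18_6 (nat_lit 587)) (lo111_17_6 (nat_lit 459)))))) (B (M (nat_lit 396) (B (lo112_12_5 (nat_lit 523)) (M (nat_lit 364) (B (lo112_11_5 (nat_lit 459))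 (M (nat_lit 363) (B (lo112_15_7 (nat_lit 395)) (lo112_14_7 (nat_lit 331)))))))) (B (M (nat_lit 490) (B (M (nat_lit 461) (B (lo19_15_2 (nat_lit 489)) (M (nat_lit 462) (B (lo114_14_1 (nat_lit 459)) (lo115_14_1 (nat_lit 463)))))) (B (M (nat_lit 493) (B (M (nat_lit 525) (B (lo110_15_0 (nat_lit 526)) (lo112_12_4 (nat_lit 396)))) (B (M (nat_lit 461) (B (lo110_15_2 (nat_lit 462)) (M (nat_lit 525) (B (lo110_15_0 (nat_lit 526)) (lo113_17_7 (nat_lit 557)))))) (M (nat_lit 494) (B (M (nat_lit 458) (B (lo113_15_3 (nat_lit 457)) (lo114_15_3 (nat_lit 459)))) (M (nat_lit 462) (B (lo110_15_2 (nat_lit 461)) (lo111_15_2 (nat_lit 463))))))))) (B (M (nat_lit 461) (B (lo19_15_2 (nat_lit 489)) (M (nat_lit 462) (B (lo110_15_2 (nat_lit 493)) (lo115_14_1 (nat_lit 463)))))) (K _ _ _ o1_s26760))))) (B (K _ _ _ o1_s26822) (M (nat_lit 490) (B (M (nat_lit 461) (B (lo19_15_2 (nat_lit 489)) (M (nat_lit 462)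 (B (lo110_15_2 (nat_lit 493)) (lo115_14_1 (nat_lit 463)))))) (B (M (nat_lit 493) (B (M (nat_lit 461) (B (lo110_15_2 (nat_lit 462)) (M (nat_lit 525) (B (lo110_15_0 (nat_lit 526)) (lo113_17_7 (nat_lit 557)))))) (M (nat_lit 523) (B (M (nat_lit 522) (B (lo113_15_1 (nat_lit 521)) (lo114_15_1 (nat_lit 494)))) (M (nat_lit 555) (B (lo111_18_6 (nat_lit 587)) (lo111_17_6 (nat_lit 459)))))))) (B (M (nat_lit 461) (B (lo19_15_2 (nat_lit 489)) (M (nat_lit 462) (B (lo114_14_1 (nat_lit 459)) (lo115_14_1 (nat_lit 463)))))) (K _ _ _ o1_s26760)))))))))) (B (M (nat_lit 491) (B (K _ _ _ o1_s28653) (B (K _ _ _ o1_s28679) (B (M (nat_lit 490) (B (M (nat_lit 461) (B (lo19_15_2 (nat_lit 489)) (M (nat_lit 462) (B (lo114_14_1 (nat_lit 459)) (lo115_14_1 (nat_lit 463)))))) (B (M (nat_lit 493) (B (M (nat_lit 461) (B (lo110_15_2 (nat_lit 462)) (M (nat_lit 525) (B (lo110_15_0 (nat_lit 526)) (lo113_17_7 (nat_lit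 557)))))) (B (M (nat_lit 494) (B (M (nat_lit 522) (B (lo113_15_1 (nat_lit 521)) (lo114_15_1 (nat_lit 523)))) (M (nat_lit 462) (B (lo110_15_2 (nat_lit 461)) (lo111_15_2 (nat_lit 463)))))) (M (nat_lit 525) (B (lo110_15_0 (nat_lit 526)) (M (nat_lit 557) (B (lo112_13_4 (nat_lit 524)) (lo113_18_7 (nat_lit 589))))))))) (K _ _ _ o1_s26760)))) (B (M (nat_lit 490) (B (M (nat_lit 461) (B (lo19_15_2 (nat_lit 489)) (M (nat_lit 462) (B (lo114_14_1 (nat_lit 459)) (lo115_14_1 (nat_lit 463)))))) (B (M (nat_lit 493) (B (M (nat_lit 525) (B (lo110_15_0 (nat_lit 526)) (M (nat_lit 557) (B (lo112_13_4 (nat_lit 524)) (lo113_18_7 (nat_lit 589)))))) (B (M (nat_lit 461) (B (lo110_15_2 (nat_lit 462)) (M (nat_lit 525) (B (lo110_15_0 (nat_lit 526)) (lo113_17_7 (nat_lit 557)))))) (M (nat_lit 494) (B (M (nat_lit 458) (B (lo113_15_3 (nat_lit 457)) (lo114_15_3 (nat_lit 459)))) (M (nat_lit 462) (B (lo110_15_2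 (nat_lit 461)) (lo111_15_2 (nat_lit 463))))))))) (B (M (nat_lit 461) (B (lo19_15_2 (nat_lit 489)) (M (nat_lit 462) (B (lo110_15_2 (nat_lit 493)) (lo115_14_1 (nat_lit 463)))))) (K _ _ _ o1_s26760))))) (B (M (nat_lit 524) (B (M (nat_lit 556) (B (lo112_17_6 (nat_lit 461)) (M (nat_lit 557) (B (lo112_14_4 (nat_lit 589)) (lo112_13_4 (nat_lit 525)))))) (B (M (nat_lit 523) (B (lo112_13_5 (nat_lit 555)) (M (nat_lit 525) (B (lo112_13_4 (nat_lit 557)) (M (nat_lit 490) (B (lo19_15_0 (nat_lit 489)) (lo114_16_3 (nat_lit 526)))))))) (M (nat_lit 461) (B (lo112_17_6 (nat_lit 556)) (M (nat_lit 427) (B (lo112_16_7 (nat_lit 395)) (M (nat_lit 462) (B (lo110_13_0 (nat_lit 426)) (lo115_14_1 (nat_lit 463))))))))))) (B (M (nat_lit 490) (B (M (nat_lit 461) (B (lo19_15_2 (nat_lit 489)) (M (nat_lit 462) (B (lo110_15_2 (nat_lit 493)) (lo115_14_1 (nat_lit 463)))))) (B (K _ _ _ o1_s26888) (B (M (nat_lit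 461) (B (lo19_15_2 (nat_lit 489)) (M (nat_lit 462) (B (lo114_14_1 (nat_lit 459)) (lo115_14_1 (nat_lit 463)))))) (K _ _ _ o1_s26760))))) (K _ _ _ o1_s28729)))))))) (B (K _ _ _ o1_s28232) (K _ _ _ o1_s28629)))))))))))))))))))))))))) _ _ _ (by decide +kernel)

end Vale.Agent.Lib.P062.Data
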