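import Vale.Agent.Lib.P062.Data.o1_lines
import Vale.Agent.Lib.P062.Data.o1_0_0
import Vale.Agent.Lib.P062.Data.o1_0_1
import Vale.Agent.Lib.P062.Data.o1_1_0

namespace Vale.Agent.Lib.P062.Data

theorem o1_s43549 : Sem (nat_lit 2079502270590611144683810638107312777577327806531862431377859685460965980854219217279980804578104683573043408221052678871730618368) (nat_lit 18687756803501400511356404726630193922542209380231345204835320912813310216854730440451952364387152615893848249239174718121997347923702179962562174435700424595183832468604947421833594589063067729920) (nat_lit 18687756803501400511356404726630193922542209380231345204835320912813310216854730440451952364387152615893848249239174718121997347923702179962562174435700424595183832468604947421833594589063067729920) := sem_of_chk (M (nat_lit 493) (B (M (nat_lit 461) (B (M (nat_lit 396) (B (lo113_16_7 (nat_lit 525)) (M (nat_lit 364)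 (B (lo113_15_7 (nat_lit 397)) (lo112_11_4 (nat_lit 460)))))) (B (M (nat_lit 396) (B (M (nat_lit 364) (B (lo113_15_7 (nat_lit 397)) (lo112_11_4 (nat_lit 460)))) (B (M (nat_lit 364) (B (lo112_11_4 (nat_lit 460)) (lo112_10_4 (nat_lit 332)))) (B (M (nat_lit 364) (B (lo113_15_7 (nat_lit 397)) (lo112_10_4 (nat_lit 332)))) (M (nat_lit 397) (B (M (nat_lit 398) (B (lo113_15_6 (nat_lit 366)) (M (nat_lit 399) (B (lo116_12_1 (nat_lit 400)) (lo115_12_1 (nat_lit 427)))))) (M (nat_lit 365) (B (M (nat_lit 494) (B (lo113_12_4 (nat_lit 526)) (lo113_11_4 (nat_lit 462)))) (M (nat_lit 492) (B (lo113_12_5 (nat_lit 524)) (lo113_11_5 (nat_lit 460)))))))))))) (B (M (nat_lit 396) (B (lo113_16_7 (nat_lit 525)) (M (nat_lit 364) (B (lo112_11_4 (nat_lit 460)) (lo112_10_4 (nat_lit 332)))))) (B (M (nat_lit 396) (B (lo113_16_7 (nat_lit 525)) (M (nat_lit 364) (B (lo113_15_7 (nat_lit 397)) (lo112_10_4 (nat_lit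 332)))))) (K _ _ _ o1_s42150)))))) (B (M (nat_lit 492) (B (K _ _ _ o1_s42160) (B (M (nat_lit 523) (B (M (nat_lit 460) (B (M (nat_lit 524) (B (lo112_16_6 (nat_lit 397)) (lo112_13_5 (nat_lit 555)))) (M (nat_lit 396) (B (lo112_12_4 (nat_lit 525)) (lo112_12_5 (nat_lit 491)))))) (B (M (nat_lit 460) (B (M (nat_lit 524) (B (lo112_16_6 (nat_lit 397)) (lo112_13_5 (nat_lit 555)))) (B (M (nat_lit 491) (B (lo112_12_5 (nat_lit 396)) (M (nat_lit 555) (B (lo112_13_5 (nat_lit 524)) (lo111_18_6 (nat_lit 587)))))) (B (M (nat_lit 491) (B (lo112_12_5 (nat_lit 396)) (M (nat_lit 555) (B (lo111_18_6 (nat_lit 587)) (lo111_17_6 (nat_lit 459)))))) (M (nat_lit 494) (B (M (nat_lit 524) (B (lo115_15_1 (nat_lit 495)) (lo112_16_6 (nat_lit 397)))) (M (nat_lit 491) (B (lo114_15_1 (nat_lit 522)) (lo112_12_5 (nat_lit 396)))))))))) (B (M (nat_lit 491) (B (M (nat_lit 522) (B (lo114_15_1 (nat_lit 494)) (M (nat_lit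 521) (B (lo19_16_2 (nat_lit 524)) (lo113_15_1 (nat_lit 490)))))) (B (M (nat_lit 460) (B (lo112_12_5 (nat_lit 396)) (M (nat_lit 555) (B (lo112_13_5 (nat_lit 524)) (lo111_17_6 (nat_lit 459)))))) (M (nat_lit 522) (B (lo114_15_1 (nat_lit 494)) (M (nat_lit 521) (B (lo113_15_1 (nat_lit 490)) (lo18_16_2 (nat_lit 520))))))))) (B (M (nat_lit 491) (B (M (nat_lit 522) (B (lo114_15_1 (nat_lit 494)) (M (nat_lit 521) (B (lo113_15_1 (nat_lit 490)) (lo18_16_2 (nat_lit 520)))))) (M (nat_lit 460) (B (lo112_12_5 (nat_lit 396)) (M (nat_lit 555) (B (lo111_18_6 (nat_lit 587)) (lo111_17_6 (nat_lit 459)))))))) (B (M (nat_lit 522) (B (M (nat_lit 494) (B (lo114_15_1 (nat_lit 491)) (M (nat_lit 524) (B (lo110_16_2 (nat_lit 525)) (lo19_16_2 (nat_lit 521)))))) (B (M (nat_lit 521) (B (lo19_16_2 (nat_lit 524)) (M (nat_lit 491) (B (lo113_15_1 (nat_lit 490)) (lo18_16_2 (nat_lit 520)))))) (B (M (nat_lit 491) (B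 (lo114_15_1 (nat_lit 494)) (M (nat_lit 521) (B (lo113_15_1 (nat_lit 490)) (lo18_16_2 (nat_lit 520)))))) (B (M (nat_lit 524) (B (lo19_16_2 (nat_lit 521)) (M (nat_lit 494) (B (lo115_15_1 (nat_lit 495)) (lo110_16_2 (nat_lit 525)))))) (M (nat_lit 494) (B (lo114_15_1 (nat_lit 491)) (M (nat_lit 524) (B (lo115_15_1 (nat_lit 495)) (lo110_16_2 (nat_lit 525))))))))))) (M (nat_lit 524) (B (M (nat_lit 460) (B (lo112_16_6 (nat_lit 397)) (lo112_13_5 (nat_lit 555)))) (M (nat_lit 494) (B (lo115_15_1 (nat_lit 495)) (M (nat_lit 522) (B (lo110_16_2 (nat_lit 525)) (lo19_16_2 (nat_lit 521)))))))))))))) (B (M (nat_lit 460) (B (M (nat_lit 397) (B (lo112_16_6 (nat_lit 524)) (M (nat_lit 365) (B (lo113_10_5 (nat_lit 333)) (lo112_15_6 (nat_lit 396)))))) (B (M (nat_lit 491) (B (M (nat_lit 523) (B (lo112_12_5 (nat_lit 396)) (M (nat_lit 555) (B (lo112_13_5 (nat_lit 524)) (lo111_18_6 (nat_lit 587)))))) (B (M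 (nat_lit 523) (B (lo112_12_5 (nat_lit 396)) (M (nat_lit 555) (B (lo111_18_6 (nat_lit 587)) (lo111_17_6 (nat_lit 459)))))) (B (K _ _ _ o1_s42207) (B (M (nat_lit 494) (B (M (nat_lit 523) (B (lo114_15_1 (nat_lit 522)) (lo112_12_5 (nat_lit 396)))) (M (nat_lit 459) (B (lo115_15_3 (nat_lit 495)) (lo114_15_3 (nat_lit 458)))))) (K _ _ _ o1_s42231)))))) (B (M (nat_lit 491) (B (M (nat_lit 523) (B (lo112_12_5 (nat_lit 396)) (M (nat_lit 555) (B (lo111_18_6 (nat_lit 587)) (lo111_17_6 (nat_lit 459)))))) (B (K _ _ _ o1_s42236) (B (M (nat_lit 494) (B (M (nat_lit 523) (B (lo114_15_1 (nat_lit 522)) (lo112_12_5 (nat_lit 396)))) (M (nat_lit 459) (B (lo115_15_3 (nat_lit 495)) (lo114_15_3 (nat_lit 458)))))) (B (K _ _ _ o1_s42231) (M (nat_lit 523) (B (lo112_12_5 (nat_lit 396)) (M (nat_lit 522) (B (lo114_15_1 (nat_lit 494)) (M (nat_lit 521) (B (lo113_15_1 (nat_lit 490)) (lo18_16_2 (nat_lit 520)))))))))))))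 (K _ _ _ o1_s42244))))) (B (K _ _ _ o1_s42290) (B (M (nat_lit 460) (B (K _ _ _ o1_s42157) (B (M (nat_lit 491) (B (M (nat_lit 396) (B (lo112_12_5 (nat_lit 523)) (M (nat_lit 364) (B (lo112_11_5 (nat_lit 459)) (M (nat_lit 365) (B (lo112_15_6 (nat_lit 397)) (lo112_14_6 (nat_lit 333)))))))) (B (M (nat_lit 459) (B (M (nat_lit 494) (B (lo115_15_3 (nat_lit 495)) (lo114_15_3 (nat_lit 458)))) (M (nat_lit 523) (B (lo112_12_5 (nat_lit 396)) (lo111_17_6 (nat_lit 555)))))) (B (K _ _ _ o1_s42236) (B (M (nat_lit 396) (B (M (nat_lit 364) (B (lo112_11_5 (nat_lit 459)) (M (nat_lit 365) (B (lo112_15_6 (nat_lit 397)) (lo112_14_6 (nat_lit 333)))))) (B (M (nat_lit 459) (B (lo112_11_5 (nat_lit 364)) (M (nat_lit 494) (B (lo115_15_3 (nat_lit 495)) (lo114_15_3 (nat_lit 458)))))) (B (M (nat_lit 458) (B (M (nat_lit 459) (B (lo114_15_3 (nat_lit 494)) (lo19_14_0 (nat_lit 457)))) (B (M (nat_lit 457) (B (lo19_14_0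 (nat_lit 459)) (lo113_15_3 (nat_lit 490)))) (B (M (nat_lit 490) (B (lo113_15_3 (nat_lit 457)) (M (nat_lit 426) (B (M (nat_lit 397) (B (lo112_15_6 (nat_lit 365)) (M (nat_lit 427) (B (lo110_13_2 (nat_lit 398)) (lo19_13_2 (nat_lit 425)))))) (M (nat_lit 521) (B (lo113_15_1 (nat_lit 522)) (M (nat_lit 489) (B (lo112_15_1 (nat_lit 520)) (lo110_12_5 (nat_lit 394)))))))))) (M (nat_lit 494) (B (lo114_15_3 (nat_lit 459)) (M (nat_lit 495) (B (M (nat_lit 527) (B (lo112_15_0 (nat_lit 528)) (lo111_15_0 (nat_lit 526)))) (M (nat_lit 463) (B (lo112_15_2 (nat_lit 464)) (lo111_15_2 (nat_lit 462)))))))))))) (M (nat_lit 364) (B (M (nat_lit 365) (B (lo112_15_6 (nat_lit 397)) (lo112_14_6 (nat_lit 333)))) (B (M (nat_lit 332) (B (M (nat_lit 333) (B (lo112_14_6 (nat_lit 365)) (lo112_13_6 (nat_lit 301)))) (M (nat_lit 331) (B (lo112_14_7 (nat_lit 363)) (lo112_13_7 (nat_lit 299)))))) (B (M (nat_lit 332) (B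 (M (nat_lit 331) (B (lo112_14_7 (nat_lit 363)) (lo112_13_7 (nat_lit 299)))) (M (nat_lit 301) (B (lo112_13_6 (nat_lit 333)) (M (nat_lit 300) (B (lo112_9_4 (nat_lit 397)) (lo112_12_6 (nat_lit 269)))))))) (M (nat_lit 332) (B (M (nat_lit 397) (B (lo112_9_4 (nat_lit 300)) (lo112_15_6 (nat_lit 365)))) (M (nat_lit 331) (B (lo112_14_7 (nat_lit 363)) (lo112_13_7 (nat_lit 299)))))))))))))) (M (nat_lit 523) (B (lo112_12_5 (nat_lit 396)) (M (nat_lit 522) (B (lo114_15_1 (nat_lit 494)) (M (nat_lit 521) (B (lo113_15_1 (nat_lit 490)) (lo18_16_2 (nat_lit 520))))))))))))) (B (K _ _ _ o1_s42332) (B (M (nat_lit 494) (B (M (nat_lit 459) (B (lo115_15_3 (nat_lit 495)) (M (nat_lit 458) (B (lo114_15_3 (nat_lit 491)) (lo19_14_0 (nat_lit 457)))))) (B (M (nat_lit 491) (B (M (nat_lit 459) (B (lo114_15_3 (nat_lit 458)) (M (nat_lit 523) (B (lo114_15_1 (nat_lit 522)) (lo111_17_6 (nat_lit 555)))))) (B (M (nat_lit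 490) (B (M (nat_lit 526) (B (lo111_15_0 (nat_lit 527)) (lo110_15_0 (nat_lit 525)))) (M (nat_lit 458) (B (lo114_15_3 (nat_lit 459)) (lo113_15_3 (nat_lit 457)))))) (M (nat_lit 490) (B (M (nat_lit 526) (B (lo111_15_0 (nat_lit 527)) (lo110_15_0 (nat_lit 525)))) (M (nat_lit 522) (B (lo114_15_1 (nat_lit 523)) (lo113_15_1 (nat_lit 521))))))))) (B (M (nat_lit 495) (B (lo115_15_3 (nat_lit 459)) (M (nat_lit 496) (B (M (nat_lit 528) (B (lo113_15_0 (nat_lit 529)) (lo112_15_0 (nat_lit 527)))) (M (nat_lit 464) (B (lo113_15_2 (nat_lit 465)) (lo112_15_2 (nat_lit 463)))))))) (M (nat_lit 463) (B (M (nat_lit 464) (B (lo112_15_2 (nat_lit 495)) (M (nat_lit 462) (B (lo117_14_1 (nat_lit 465)) (lo111_15_2 (nat_lit 491)))))) (B (M (nat_lit 527) (B (M (nat_lit 495) (B (lo112_15_0 (nat_lit 528)) (lo112_15_2 (nat_lit 464)))) (M (nat_lit 491) (B (lo111_15_0 (nat_lit 526)) (lo111_15_2 (nat_lit 462)))))) (B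 (M (nat_lit 491) (B (lo111_15_2 (nat_lit 462)) (M (nat_lit 490) (B (M (nat_lit 526) (B (lo111_15_0 (nat_lit 527)) (lo110_15_0 (nat_lit 525)))) (M (nat_lit 522) (B (lo114_15_1 (nat_lit 523)) (lo113_15_1 (nat_lit 521)))))))) (B (M (nat_lit 495) (B (lo112_15_2 (nat_lit 464)) (M (nat_lit 527) (B (lo112_15_0 (nat_lit 528)) (M (nat_lit 526) (B (lo111_15_0 (nat_lit 491)) (M (nat_lit 558) (B (lo115_13_5 (nat_lit 431)) (lo114_18_6 (nat_lit 590)))))))))) (M (nat_lit 495) (B (lo112_15_2 (nat_lit 464)) (M (nat_lit 526) (B (M (nat_lit 527) (B (lo112_15_0 (nat_lit 528)) (M (nat_lit 431) (B (lo115_13_5 (nat_lit 558)) (lo115_12_5 (nat_lit 399)))))) (B (M (nat_lit 431) (B (lo115_12_5 (nat_lit 399)) (M (nat_lit 558) (B (lo115_13_5 (nat_lit 527)) (lo114_18_6 (nat_lit 590)))))) (B (M (nat_lit 431) (B (lo115_12_5 (nat_lit 399)) (M (nat_lit 558) (B (lo114_18_6 (nat_lit 590)) (lo114_17_6 (nat_lit 462))))))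 (M (nat_lit 496) (B (M (nat_lit 528) (B (lo113_15_0 (nat_lit 529)) (lo112_15_0 (nat_lit 527)))) (B (M (nat_lit 497) (B (lo117_15_1 (nat_lit 525)) (M (nat_lit 498) (B (lo118_15_1 (nat_lit 527)) (lo118_15_3 (nat_lit 462)))))) (M (nat_lit 497) (B (lo117_15_1 (nat_lit 525)) (M (nat_lit 529) (B (lo114_15_0 (nat_lit 530)) (lo113_15_0 (nat_lit 528)))))))))))))))))))))))) (B (K _ _ _ o1_s42413) (K _ _ _ o1_s42429))))))) (B (M (nat_lit 491) (B (M (nat_lit 494) (B (M (nat_lit 495) (B (M (nat_lit 463) (B (lo112_15_2 (nat_lit 464)) (lo111_15_2 (nat_lit 462)))) (M (nat_lit 523) (B (lo115_15_1 (nat_lit 524)) (lo114_15_1 (nat_lit 522)))))) (M (nat_lit 490) (B (M (nat_lit 526) (B (lo111_15_0 (nat_lit 527)) (lo110_15_0 (nat_lit 525)))) (M (nat_lit 458) (B (lo114_15_3 (nat_lit 459)) (lo113_15_3 (nat_lit 457)))))))) (B (M (nat_lit 494) (B (M (nat_lit 490) (B (M (nat_lit 522) (B (lo114_15_1 (nat_lit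 523)) (lo113_15_1 (nat_lit 521)))) (M (nat_lit 458) (B (lo114_15_3 (nat_lit 459)) (lo113_15_3 (nat_lit 457)))))) (B (M (nat_lit 490) (B (M (nat_lit 526) (B (lo111_15_0 (nat_lit 527)) (lo110_15_0 (nat_lit 525)))) (M (nat_lit 458) (B (lo114_15_3 (nat_lit 459)) (lo113_15_3 (nat_lit 457)))))) (B (M (nat_lit 490) (B (M (nat_lit 526) (B (lo111_15_0 (nat_lit 527)) (lo110_15_0 (nat_lit 525)))) (M (nat_lit 522) (B (lo114_15_1 (nat_lit 523)) (lo113_15_1 (nat_lit 521)))))) (M (nat_lit 495) (B (M (nat_lit 527) (B (lo112_15_0 (nat_lit 528)) (lo111_15_0 (nat_lit 526)))) (M (nat_lit 523) (B (lo115_15_1 (nat_lit 524)) (lo114_15_1 (nat_lit 522)))))))))) (B (M (nat_lit 490) (B (M (nat_lit 489) (B (M (nat_lit 525) (B (lo110_15_0 (nat_lit 526)) (lo19_15_0 (nat_lit 524)))) (M (nat_lit 521) (B (lo113_15_1 (nat_lit 522)) (lo112_15_1 (nat_lit 520)))))) (B (M (nat_lit 489) (B (M (nat_lit 521) (B (lo113_15_1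 (nat_lit 522)) (lo112_15_1 (nat_lit 520)))) (M (nat_lit 457) (B (lo113_15_3 (nat_lit 458)) (lo112_15_3 (nat_lit 456)))))) (B (M (nat_lit 489) (B (M (nat_lit 525) (B (lo110_15_0 (nat_lit 526)) (lo19_15_0 (nat_lit 524)))) (M (nat_lit 457) (B (lo113_15_3 (nat_lit 458)) (lo112_15_3 (nat_lit 456)))))) (M (nat_lit 494) (B (M (nat_lit 522) (B (lo114_15_1 (nat_lit 523)) (lo113_15_1 (nat_lit 521)))) (M (nat_lit 458) (B (lo114_15_3 (nat_lit 459)) (lo113_15_3 (nat_lit 457)))))))))) (B (M (nat_lit 523) (B (M (nat_lit 522) (B (lo114_15_1 (nat_lit 494)) (M (nat_lit 521) (B (lo19_16_2 (nat_lit 524)) (lo113_15_1 (nat_lit 490)))))) (B (M (nat_lit 490) (B (M (nat_lit 458) (B (lo113_15_3 (nat_lit 457)) (M (nat_lit 555) (B (lo111_18_7 (nat_lit 587)) (M (nat_lit 426) (B (lo111_17_7 (nat_lit 459)) (lo110_12_4 (nat_lit 394)))))))) (M (nat_lit 489) (B (M (nat_lit 524) (B (lo19_15_0 (nat_lit 525)) (lo18_15_0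 (nat_lit 488)))) (M (nat_lit 521) (B (lo113_15_1 (nat_lit 522)) (lo112_15_1 (nat_lit 520)))))))) (B (M (nat_lit 522) (B (lo114_15_1 (nat_lit 494)) (M (nat_lit 521) (B (lo113_15_1 (nat_lit 490)) (lo18_16_2 (nat_lit 520)))))) (B (M (nat_lit 427) (B (M (nat_lit 459) (B (lo111_16_6 (nat_lit 396)) (M (nat_lit 524) (B (lo111_13_4 (nat_lit 556)) (M (nat_lit 494) (B (lo115_15_1 (nat_lit 495)) (lo114_15_3 (nat_lit 458)))))))) (B (M (nat_lit 458) (B (M (nat_lit 459) (B (lo114_15_3 (nat_lit 494)) (lo111_16_6 (nat_lit 396)))) (M (nat_lit 457) (B (lo113_15_3 (nat_lit 490)) (lo113_13_1 (nat_lit 426)))))) (B (M (nat_lit 459) (B (lo111_16_6 (nat_lit 396)) (M (nat_lit 426) (B (lo111_16_7 (nat_lit 394)) (M (nat_lit 458) (B (lo113_13_1 (nat_lit 457)) (lo111_17_7 (nat_lit 555)))))))) (B (M (nat_lit 426) (B (M (nat_lit 394) (B (lo113_13_3 (nat_lit 393)) (lo111_16_7 (nat_lit 459)))) (B (M (nat_lit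 458) (B (lo113_13_1 (nat_lit 457)) (M (nat_lit 394) (B (lo113_13_3 (nat_lit 393)) (lo110_12_4 (nat_lit 490)))))) (M (nat_lit 458) (B (lo113_13_1 (nat_lit 457)) (M (nat_lit 459) (B (lo114_15_3 (nat_lit 494)) (lo111_17_7 (nat_lit 555))))))))) (B (M (nat_lit 426) (B (M (nat_lit 458) (B (lo113_13_1 (nat_lit 457)) (M (nat_lit 394) (B (lo113_13_3 (nat_lit 393)) (lo110_12_4 (nat_lit 490)))))) (B (M (nat_lit 425) (B (M (nat_lit 397) (B (lo110_13_2 (nat_lit 398)) (lo19_13_2 (nat_lit 396)))) (M (nat_lit 393) (B (lo113_13_3 (nat_lit 394)) (lo112_13_3 (nat_lit 392)))))) (M (nat_lit 425) (B (M (nat_lit 397) (B (lo110_13_2 (nat_lit 398)) (lo19_13_2 (nat_lit 396)))) (M (nat_lit 457) (B (lo113_13_1 (nat_lit 458)) (lo112_13_1 (nat_lit 456))))))))) (M (nat_lit 426) (B (M (nat_lit 459) (B (lo111_16_6 (nat_lit 396)) (lo111_16_7 (nat_lit 394)))) (B (M (nat_lit 394) (B (lo113_13_3 (nat_lit 393)) (lo111_16_7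 (nat_lit 459)))) (B (M (nat_lit 425) (B (M (nat_lit 397) (B (lo110_13_2 (nat_lit 398)) (lo19_13_2 (nat_lit 396)))) (M (nat_lit 393) (B (lo113_13_3 (nat_lit 394)) (lo112_13_3 (nat_lit 392)))))) (M (nat_lit 397) (B (lo110_13_2 (nat_lit 398)) (M (nat_lit 396) (B (lo19_13_2 (nat_lit 425)) (lo111_16_6 (nat_lit 459)))))))))))))))) (M (nat_lit 522) (B (lo114_15_1 (nat_lit 494)) (M (nat_lit 521) (B (lo19_16_2 (nat_lit 524)) (lo18_16_2 (nat_lit 520))))))))))) (B (M (nat_lit 490) (B (M (nat_lit 489) (B (M (nat_lit 525) (B (lo110_15_0 (nat_lit 526)) (lo19_15_0 (nat_lit 524)))) (M (nat_lit 521) (B (lo113_15_1 (nat_lit 522)) (lo112_15_1 (nat_lit 520)))))) (B (M (nat_lit 489) (B (M (nat_lit 521) (B (lo113_15_1 (nat_lit 522)) (lo112_15_1 (nat_lit 520)))) (M (nat_lit 457) (B (lo113_15_3 (nat_lit 458)) (lo112_15_3 (nat_lit 456)))))) (B (M (nat_lit 489) (B (M (nat_lit 525) (B (lo110_15_0 (nat_lit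 526)) (lo19_15_0 (nat_lit 524)))) (M (nat_lit 457) (B (lo113_15_3 (nat_lit 458)) (lo112_15_3 (nat_lit 456)))))) (M (nat_lit 458) (B (lo113_15_3 (nat_lit 457)) (M (nat_lit 522) (B (lo113_15_1 (nat_lit 521)) (M (nat_lit 426) (B (M (nat_lit 523) (B (lo110_13_4 (nat_lit 555)) (lo110_12_4 (nat_lit 394)))) (B (M (nat_lit 394) (B (lo110_12_4 (nat_lit 523)) (M (nat_lit 393) (B (lo113_13_3 (nat_lit 427)) (lo110_16_7 (nat_lit 425)))))) (B (M (nat_lit 393) (B (lo110_16_7 (nat_lit 425)) (M (nat_lit 394) (B (lo113_13_3 (nat_lit 427)) (lo110_15_7 (nat_lit 361)))))) (M (nat_lit 554) (B (M (nat_lit 555) (B (lo110_14_4 (nat_lit 587)) (lo110_13_4 (nat_lit 523)))) (M (nat_lit 459) (B (lo110_18_6 (nat_lit 586)) (lo110_17_6 (nat_lit 427)))))))))))))))))) (B (K _ _ _ o1_s42528) (B (M (nat_lit 490) (B (M (nat_lit 489) (B (M (nat_lit 521) (B (lo113_15_1 (nat_lit 522)) (lo112_15_1 (nat_lit 520)))) (M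 (nat_lit 457) (B (lo113_15_3 (nat_lit 458)) (lo112_15_3 (nat_lit 456)))))) (B (M (nat_lit 489) (B (M (nat_lit 525) (B (lo110_15_0 (nat_lit 526)) (lo19_15_0 (nat_lit 524)))) (M (nat_lit 457) (B (lo113_15_3 (nat_lit 458)) (lo112_15_3 (nat_lit 456)))))) (B (M (nat_lit 489) (B (M (nat_lit 525) (B (lo110_15_0 (nat_lit 526)) (lo19_15_0 (nat_lit 524)))) (M (nat_lit 521) (B (lo113_15_1 (nat_lit 522)) (lo112_15_1 (nat_lit 520)))))) (M (nat_lit 494) (B (M (nat_lit 526) (B (lo111_15_0 (nat_lit 527)) (lo110_15_0 (nat_lit 525)))) (M (nat_lit 458) (B (lo114_15_3 (nat_lit 459)) (lo113_15_3 (nat_lit 457)))))))))) (B (K _ _ _ o1_s42532) (B (M (nat_lit 494) (B (M (nat_lit 490) (B (M (nat_lit 526) (B (lo111_15_0 (nat_lit 527)) (lo110_15_0 (nat_lit 525)))) (M (nat_lit 458) (B (lo114_15_3 (nat_lit 459)) (lo113_15_3 (nat_lit 457)))))) (B (M (nat_lit 495) (B (M (nat_lit 463) (B (lo112_15_2 (nat_lit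 464)) (lo111_15_2 (nat_lit 462)))) (M (nat_lit 524) (B (lo115_15_1 (nat_lit 523)) (M (nat_lit 490) (B (M (nat_lit 525) (B (lo116_15_1 (nat_lit 496)) (lo19_15_0 (nat_lit 489)))) (M (nat_lit 458) (B (lo114_15_3 (nat_lit 459)) (lo113_15_3 (nat_lit 457)))))))))) (M (nat_lit 495) (B (M (nat_lit 527) (B (lo112_15_0 (nat_lit 528)) (lo111_15_0 (nat_lit 526)))) (M (nat_lit 463) (B (lo112_15_2 (nat_lit 464)) (lo111_15_2 (nat_lit 462))))))))) (B (M (nat_lit 459) (B (M (nat_lit 494) (B (lo114_15_3 (nat_lit 458)) (M (nat_lit 527) (B (lo111_15_0 (nat_lit 526)) (M (nat_lit 495) (B (lo112_15_0 (nat_lit 528)) (M (nat_lit 463) (B (lo112_15_2 (nat_lit 464)) (lo111_15_2 (nat_lit 462)))))))))) (B (M (nat_lit 494) (B (lo114_15_3 (nat_lit 458)) (M (nat_lit 495) (B (M (nat_lit 463) (B (lo112_15_2 (nat_lit 464)) (lo111_15_2 (nat_lit 462)))) (M (nat_lit 523) (B (lo115_15_1 (nat_lit 524)) (lo114_15_1 (nat_lit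 522)))))))) (B (M (nat_lit 494) (B (lo114_15_3 (nat_lit 458)) (M (nat_lit 495) (B (M (nat_lit 527) (B (lo112_15_0 (nat_lit 528)) (lo111_15_0 (nat_lit 526)))) (M (nat_lit 523) (B (lo115_15_1 (nat_lit 524)) (lo114_15_1 (nat_lit 522)))))))) (B (M (nat_lit 523) (B (M (nat_lit 494) (B (lo114_15_1 (nat_lit 522)) (lo114_15_3 (nat_lit 458)))) (B (M (nat_lit 427) (B (lo111_16_6 (nat_lit 396)) (M (nat_lit 426) (B (lo111_16_7 (nat_lit 394)) (M (nat_lit 458) (B (lo113_13_1 (nat_lit 457)) (lo111_17_7 (nat_lit 555)))))))) (M (nat_lit 427) (B (lo111_16_6 (nat_lit 396)) (M (nat_lit 522) (B (lo114_15_1 (nat_lit 494)) (lo111_13_5 (nat_lit 554))))))))) (B (M (nat_lit 427) (B (M (nat_lit 523) (B (lo111_16_6 (nat_lit 396)) (M (nat_lit 426) (B (lo111_16_7 (nat_lit 394)) (M (nat_lit 458) (B (lo113_13_1 (nat_lit 457)) (lo111_17_7 (nat_lit 555)))))))) (B (M (nat_lit 523) (B (M (nat_lit 524) (B (lo111_13_4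 (nat_lit 556)) (M (nat_lit 522) (B (lo19_16_2 (nat_lit 521)) (lo111_13_5 (nat_lit 554)))))) (M (nat_lit 426) (B (lo111_16_7 (nat_lit 394)) (M (nat_lit 458) (B (lo113_13_1 (nat_lit 457)) (lo111_17_7 (nat_lit 555)))))))) (B (M (nat_lit 523) (B (lo111_16_6 (nat_lit 396)) (M (nat_lit 524) (B (lo111_13_4 (nat_lit 556)) (M (nat_lit 522) (B (lo19_16_2 (nat_lit 521)) (lo111_13_5 (nat_lit 554)))))))) (M (nat_lit 426) (B (M (nat_lit 458) (B (lo113_13_1 (nat_lit 457)) (M (nat_lit 394) (B (lo113_13_3 (nat_lit 393)) (lo110_11_4 (nat_lit 362)))))) (B (M (nat_lit 425) (B (M (nat_lit 397) (B (lo110_13_2 (nat_lit 398)) (lo19_13_2 (nat_lit 396)))) (M (nat_lit 393) (B (lo113_13_3 (nat_lit 394)) (lo112_13_3 (nat_lit 392)))))) (M (nat_lit 425) (B (M (nat_lit 397) (B (lo110_13_2 (nat_lit 398)) (lo19_13_2 (nat_lit 396)))) (M (nat_lit 457) (B (lo113_13_1 (nat_lit 458)) (lo112_13_1 (nat_lit 456)))))))))))))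 (M (nat_lit 523) (B (M (nat_lit 427) (B (lo111_16_6 (nat_lit 396)) (M (nat_lit 522) (B (lo114_15_1 (nat_lit 494)) (lo111_13_5 (nat_lit 554)))))) (B (M (nat_lit 427) (B (lo111_16_6 (nat_lit 396)) (M (nat_lit 524) (B (lo111_13_4 (nat_lit 556)) (M (nat_lit 522) (B (lo19_16_2 (nat_lit 521)) (lo111_13_5 (nat_lit 554)))))))) (B (M (nat_lit 524) (B (M (nat_lit 494) (B (lo115_15_1 (nat_lit 495)) (lo114_15_1 (nat_lit 522)))) (M (nat_lit 556) (B (lo112_18_7 (nat_lit 588)) (lo111_13_4 (nat_lit 427)))))) (B (M (nat_lit 494) (B (lo114_15_1 (nat_lit 522)) (M (nat_lit 495) (B (lo115_15_1 (nat_lit 524)) (M (nat_lit 463) (B (lo112_15_2 (nat_lit 464)) (lo111_15_2 (nat_lit 462)))))))) (M (nat_lit 555) (B (M (nat_lit 556) (B (lo111_14_4 (nat_lit 588)) (M (nat_lit 427) (B (lo111_13_4 (nat_lit 524)) (lo111_16_6 (nat_lit 396)))))) (B (M (nat_lit 427) (B (lo111_16_6 (nat_lit 396)) (M (nat_lit 587) (B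 (M (nat_lit 524) (B (lo111_13_4 (nat_lit 556)) (lo111_19_6 (nat_lit 619)))) (M (nat_lit 586) (B (lo111_15_5 (nat_lit 618)) (lo111_14_5 (nat_lit 554)))))))) (B (M (nat_lit 587) (B (M (nat_lit 586) (B (lo111_15_5 (nat_lit 618)) (lo111_14_5 (nat_lit 554)))) (M (nat_lit 620) (B (lo111_15_4 (nat_lit 588)) (M (nat_lit 619) (B (lo111_16_4 (nat_lit 652)) (lo111_19_6 (nat_lit 524)))))))) (M (nat_lit 587) (B (M (nat_lit 588) (B (lo111_15_4 (nat_lit 620)) (lo111_14_4 (nat_lit 556)))) (M (nat_lit 586) (B (lo111_15_5 (nat_lit 618)) (lo111_14_5 (nat_lit 554))))))))))))))))))))) (M (nat_lit 494) (B (M (nat_lit 495) (B (M (nat_lit 463) (B (lo112_15_2 (nat_lit 464)) (lo111_15_2 (nat_lit 462)))) (M (nat_lit 523) (B (lo115_15_1 (nat_lit 524)) (lo114_15_1 (nat_lit 522)))))) (B (M (nat_lit 495) (B (M (nat_lit 527) (B (lo112_15_0 (nat_lit 528)) (lo111_15_0 (nat_lit 526)))) (M (nat_lit 523) (B (lo115_15_1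 (nat_lit 524)) (lo114_15_1 (nat_lit 522)))))) (B (M (nat_lit 490) (B (M (nat_lit 526) (B (lo111_15_0 (nat_lit 527)) (lo110_15_0 (nat_lit 525)))) (M (nat_lit 522) (B (lo114_15_1 (nat_lit 523)) (lo113_15_1 (nat_lit 521)))))) (M (nat_lit 495) (B (M (nat_lit 527) (B (lo112_15_0 (nat_lit 528)) (lo111_15_0 (nat_lit 526)))) (M (nat_lit 463) (B (lo112_15_2 (nat_lit 464)) (lo111_15_2 (nat_lit 462))))))))))))))))))))) (B (M (nat_lit 524) (B (M (nat_lit 460) (B (lo112_16_6 (nat_lit 397)) (M (nat_lit 525) (B (lo112_13_4 (nat_lit 557)) (M (nat_lit 523) (B (lo112_13_5 (nat_lit 555)) (M (nat_lit 494) (B (lo115_15_1 (nat_lit 495)) (lo110_16_2 (nat_lit 522)))))))))) (B (K _ _ _ o1_s42629) (B (M (nat_lit 523) (B (M (nat_lit 460) (B (lo112_16_6 (nat_lit 397)) (lo112_13_5 (nat_lit 555)))) (M (nat_lit 494) (B (lo115_15_1 (nat_lit 495)) (M (nat_lit 522) (B (lo114_15_1 (nat_lit 491)) (lo19_16_2 (nat_lit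 521)))))))) (B (M (nat_lit 460) (B (M (nat_lit 523) (B (lo112_13_5 (nat_lit 555)) (M (nat_lit 494) (B (lo115_15_1 (nat_lit 495)) (M (nat_lit 522) (B (lo114_15_1 (nat_lit 491)) (lo19_16_2 (nat_lit 521)))))))) (B (M (nat_lit 556) (B (M (nat_lit 557) (B (lo112_14_4 (nat_lit 589)) (lo112_13_4 (nat_lit 525)))) (M (nat_lit 555) (B (lo112_14_5 (nat_lit 587)) (lo112_13_5 (nat_lit 523)))))) (K _ _ _ o1_s42643)))) (B (M (nat_lit 494) (B (M (nat_lit 523) (B (lo115_15_1 (nat_lit 495)) (M (nat_lit 522) (B (lo110_16_2 (nat_lit 525)) (lo114_15_1 (nat_lit 491)))))) (B (M (nat_lit 491) (B (M (nat_lit 526) (B (lo111_15_0 (nat_lit 527)) (M (nat_lit 490) (B (lo110_15_0 (nat_lit 525)) (M (nat_lit 458) (B (lo114_15_3 (nat_lit 459)) (lo113_15_3 (nat_lit 457)))))))) (B (M (nat_lit 490) (B (M (nat_lit 522) (B (lo114_15_1 (nat_lit 523)) (lo113_15_1 (nat_lit 521)))) (M (nat_lit 458) (B (lo114_15_3 (nat_lit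 459)) (lo113_15_3 (nat_lit 457)))))) (B (M (nat_lit 490) (B (M (nat_lit 526) (B (lo111_15_0 (nat_lit 527)) (lo110_15_0 (nat_lit 525)))) (M (nat_lit 522) (B (lo114_15_1 (nat_lit 523)) (lo113_15_1 (nat_lit 521)))))) (M (nat_lit 523) (B (lo114_15_1 (nat_lit 522)) (M (nat_lit 459) (B (lo114_15_3 (nat_lit 458)) (M (nat_lit 556) (B (lo112_18_7 (nat_lit 588)) (lo111_13_4 (nat_lit 427)))))))))))) (B (M (nat_lit 523) (B (lo115_15_1 (nat_lit 495)) (M (nat_lit 522) (B (lo114_15_1 (nat_lit 491)) (lo19_16_2 (nat_lit 521)))))) (B (M (nat_lit 491) (B (M (nat_lit 527) (B (lo111_15_0 (nat_lit 526)) (M (nat_lit 495) (B (lo112_15_0 (nat_lit 528)) (M (nat_lit 463) (B (lo112_15_2 (nat_lit 464)) (lo111_15_2 (nat_lit 462)))))))) (B (M (nat_lit 526) (B (lo111_15_0 (nat_lit 527)) (M (nat_lit 490) (B (lo110_15_0 (nat_lit 525)) (M (nat_lit 458) (B (lo114_15_3 (nat_lit 459)) (lo113_15_3 (nat_lit 457))))))))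 (B (M (nat_lit 490) (B (M (nat_lit 525) (B (lo110_15_0 (nat_lit 526)) (lo19_15_0 (nat_lit 489)))) (M (nat_lit 458) (B (lo114_15_3 (nat_lit 459)) (lo113_15_3 (nat_lit 457)))))) (M (nat_lit 490) (B (M (nat_lit 458) (B (lo114_15_3 (nat_lit 459)) (lo113_15_3 (nat_lit 457)))) (M (nat_lit 495) (B (M (nat_lit 525) (B (lo116_15_1 (nat_lit 496)) (lo19_15_0 (nat_lit 489)))) (M (nat_lit 463) (B (lo112_15_2 (nat_lit 464)) (lo111_15_2 (nat_lit 462)))))))))))) (M (nat_lit 523) (B (lo115_15_1 (nat_lit 495)) (M (nat_lit 522) (B (lo110_16_2 (nat_lit 525)) (lo19_16_2 (nat_lit 521))))))))))) (M (nat_lit 460) (B (lo112_16_6 (nat_lit 397)) (K _ _ _ o1_s42643))))))))) (B (M (nat_lit 460) (B (M (nat_lit 525) (B (lo112_12_4 (nat_lit 396)) (M (nat_lit 524) (B (lo112_13_4 (nat_lit 557)) (lo112_16_6 (nat_lit 397)))))) (B (M (nat_lit 397) (B (lo112_16_6 (nat_lit 524)) (M (nat_lit 365) (B (lo113_10_5 (nat_lit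 333)) (lo112_15_6 (nat_lit 396)))))) (B (M (nat_lit 525) (B (lo112_12_4 (nat_lit 396)) (M (nat_lit 557) (B (lo113_18_7 (nat_lit 589)) (lo112_13_4 (nat_lit 524)))))) (B (K _ _ _ o1_s42157) (M (nat_lit 524) (B (lo112_16_6 (nat_lit 397)) (K _ _ _ o1_s42643)))))))) (B (M (nat_lit 460) (B (M (nat_lit 525) (B (lo112_12_4 (nat_lit 396)) (M (nat_lit 524) (B (lo112_13_4 (nat_lit 557)) (lo112_16_6 (nat_lit 397)))))) (B (M (nat_lit 397) (B (lo112_16_6 (nat_lit 524)) (M (nat_lit 365) (B (lo113_10_5 (nat_lit 333)) (lo112_15_6 (nat_lit 396)))))) (B (M (nat_lit 525) (B (lo112_12_4 (nat_lit 396)) (M (nat_lit 557) (B (lo113_18_7 (nat_lit 589)) (lo112_13_4 (nat_lit 524)))))) (B (K _ _ _ o1_s42413) (M (nat_lit 524) (B (lo112_16_6 (nat_lit 397)) (K _ _ _ o1_s42643)))))))) (M (nat_lit 460) (B (M (nat_lit 525) (B (lo112_12_4 (nat_lit 396)) (M (nat_lit 524) (B (lo112_13_4 (nat_lit 557)) (lo112_16_6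 (nat_lit 397)))))) (B (M (nat_lit 397) (B (lo112_16_6 (nat_lit 524)) (M (nat_lit 365) (B (lo113_10_5 (nat_lit 333)) (lo112_15_6 (nat_lit 396)))))) (B (M (nat_lit 525) (B (lo112_12_4 (nat_lit 396)) (M (nat_lit 557) (B (lo113_18_7 (nat_lit 589)) (lo112_13_4 (nat_lit 524)))))) (B (K _ _ _ o1_s42429) (K _ _ _ o1_s42159)))))))))))))))) (B (M (nat_lit 461) (B (M (nat_lit 396) (B (lo113_16_7 (nat_lit 525)) (M (nat_lit 364) (B (lo113_15_7 (nat_lit 397)) (lo112_10_4 (nat_lit 332)))))) (B (K _ _ _ o1_s42693) (B (M (nat_lit 396) (B (lo113_16_7 (nat_lit 525)) (M (nat_lit 364) (B (lo112_11_4 (nat_lit 460)) (lo112_10_4 (nat_lit 332)))))) (B (K _ _ _ o1_s42719) (M (nat_lit 525) (B (lo113_16_7 (nat_lit 396)) (M (nat_lit 557) (B (lo113_17_7 (nat_lit 460)) (M (nat_lit 556) (B (lo113_14_5 (nat_lit 588)) (lo113_13_5 (nat_lit 524))))))))))))) (B (M (nat_lit 492) (B (K _ _ _ o1_s42731) (B (M (nat_lit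 397) (B (M (nat_lit 524) (B (lo113_12_5 (nat_lit 461)) (lo112_16_6 (nat_lit 460)))) (B (M (nat_lit 460) (B (lo112_16_6 (nat_lit 524)) (M (nat_lit 365) (B (lo113_10_5 (nat_lit 333)) (lo112_15_6 (nat_lit 396)))))) (B (M (nat_lit 365) (B (M (nat_lit 460) (B (lo113_11_5 (nat_lit 461)) (lo113_10_5 (nat_lit 333)))) (B (M (nat_lit 460) (B (lo113_10_5 (nat_lit 333)) (lo112_15_6 (nat_lit 396)))) (B (M (nat_lit 460) (B (lo113_11_5 (nat_lit 461)) (lo112_15_6 (nat_lit 396)))) (M (nat_lit 461) (B (M (nat_lit 366) (B (lo113_15_6 (nat_lit 398)) (lo113_14_6 (nat_lit 334)))) (M (nat_lit 364) (B (lo113_15_7 (nat_lit 396)) (lo113_14_7 (nat_lit 332)))))))))) (M (nat_lit 461) (B (lo113_12_5 (nat_lit 524)) (M (nat_lit 365) (B (M (nat_lit 366) (B (lo113_15_6 (nat_lit 398)) (lo113_14_6 (nat_lit 334)))) (M (nat_lit 364) (B (lo113_15_7 (nat_lit 396)) (lo113_14_7 (nat_lit 332)))))))))))) (B (M (nat_lit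 460) (B (M (nat_lit 397) (B (lo112_16_6 (nat_lit 524)) (M (nat_lit 365) (B (lo113_10_5 (nat_lit 333)) (lo112_15_6 (nat_lit 396)))))) (B (M (nat_lit 491) (B (M (nat_lit 523) (B (lo112_12_5 (nat_lit 396)) (M (nat_lit 555) (B (lo112_13_5 (nat_lit 524)) (lo111_17_6 (nat_lit 459)))))) (B (M (nat_lit 494) (B (M (nat_lit 523) (B (lo114_15_1 (nat_lit 522)) (lo112_12_5 (nat_lit 396)))) (M (nat_lit 459) (B (lo115_15_3 (nat_lit 495)) (lo114_15_3 (nat_lit 458)))))) (B (K _ _ _ o1_s42207) (B (K _ _ _ o1_s42231) (M (nat_lit 523) (B (lo112_12_5 (nat_lit 396)) (M (nat_lit 494) (B (lo114_15_1 (nat_lit 522)) (M (nat_lit 524) (B (lo115_15_1 (nat_lit 495)) (lo112_13_5 (nat_lit 555))))))))))))) (B (M (nat_lit 491) (B (M (nat_lit 396) (B (lo112_12_5 (nat_lit 523)) (M (nat_lit 364) (B (lo112_11_5 (nat_lit 459)) (M (nat_lit 365) (B (lo112_15_6 (nat_lit 397)) (lo112_14_6 (nat_lit 333)))))))) (B (M (nat_lit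 459) (B (M (nat_lit 494) (B (lo115_15_3 (nat_lit 495)) (lo114_15_3 (nat_lit 458)))) (M (nat_lit 523) (B (lo112_12_5 (nat_lit 396)) (lo111_17_6 (nat_lit 555)))))) (B (K _ _ _ o1_s42236) (B (K _ _ _ o1_s42231) (M (nat_lit 523) (B (lo112_12_5 (nat_lit 396)) (M (nat_lit 522) (B (lo114_15_1 (nat_lit 494)) (M (nat_lit 521) (B (lo113_15_1 (nat_lit 490)) (lo18_16_2 (nat_lit 520))))))))))))) (K _ _ _ o1_s42244))))) (B (M (nat_lit 491) (B (K _ _ _ o1_s42746) (B (M (nat_lit 490) (B (M (nat_lit 461) (B (lo110_15_2 (nat_lit 462)) (M (nat_lit 489) (B (lo19_15_2 (nat_lit 460)) (M (nat_lit 521) (B (lo113_15_1 (nat_lit 522)) (lo112_15_1 (nat_lit 520)))))))) (B (M (nat_lit 489) (B (M (nat_lit 521) (B (lo113_15_1 (nat_lit 522)) (lo112_15_1 (nat_lit 520)))) (M (nat_lit 457) (B (lo113_15_3 (nat_lit 458)) (lo112_15_3 (nat_lit 456)))))) (B (M (nat_lit 489) (B (M (nat_lit 461) (B (lo110_15_2 (nat_lit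 462)) (lo19_15_2 (nat_lit 460)))) (M (nat_lit 457) (B (lo113_15_3 (nat_lit 458)) (lo112_15_3 (nat_lit 456)))))) (M (nat_lit 458) (B (lo113_15_3 (nat_lit 457)) (M (nat_lit 522) (B (lo113_15_1 (nat_lit 521)) (M (nat_lit 459) (B (M (nat_lit 554) (B (lo110_18_6 (nat_lit 586)) (lo110_17_6 (nat_lit 427)))) (B (M (nat_lit 555) (B (M (nat_lit 523) (B (lo111_17_6 (nat_lit 460)) (lo111_18_7 (nat_lit 587)))) (B (M (nat_lit 523) (B (lo111_18_7 (nat_lit 587)) (lo111_17_7 (nat_lit 426)))) (B (M (nat_lit 523) (B (lo111_17_6 (nat_lit 460)) (lo111_17_7 (nat_lit 426)))) (M (nat_lit 554) (B (lo110_14_4 (nat_lit 587)) (lo110_18_6 (nat_lit 586)))))))) (B (M (nat_lit 555) (B (M (nat_lit 523) (B (lo111_17_6 (nat_lit 460)) (lo111_18_7 (nat_lit 587)))) (B (M (nat_lit 523) (B (lo111_18_7 (nat_lit 587)) (lo111_17_7 (nat_lit 426)))) (B (M (nat_lit 523) (B (lo111_17_6 (nat_lit 460)) (lo111_17_7 (nat_lit 426))))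 (M (nat_lit 554) (B (lo110_14_4 (nat_lit 587)) (lo110_17_6 (nat_lit 427)))))))) (M (nat_lit 523) (B (M (nat_lit 460) (B (lo112_12_5 (nat_lit 396)) (lo111_17_6 (nat_lit 555)))) (B (M (nat_lit 555) (B (lo111_18_7 (nat_lit 587)) (lo111_17_7 (nat_lit 426)))) (M (nat_lit 396) (B (lo112_12_5 (nat_lit 460)) (lo111_16_6 (nat_lit 427))))))))))))))))))) (B (M (nat_lit 494) (B (M (nat_lit 495) (B (M (nat_lit 527) (B (lo112_15_0 (nat_lit 528)) (lo111_15_0 (nat_lit 526)))) (M (nat_lit 523) (B (lo115_15_1 (nat_lit 524)) (lo114_15_1 (nat_lit 522)))))) (B (M (nat_lit 495) (B (M (nat_lit 463) (B (lo112_15_2 (nat_lit 464)) (lo111_15_2 (nat_lit 462)))) (M (nat_lit 523) (B (lo115_15_1 (nat_lit 524)) (lo114_15_1 (nat_lit 522)))))) (M (nat_lit 490) (B (M (nat_lit 462) (B (lo111_15_2 (nat_lit 463)) (lo110_15_2 (nat_lit 461)))) (M (nat_lit 458) (B (lo114_15_3 (nat_lit 459)) (lo113_15_3 (nat_lit 457)))))))))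 (B (M (nat_lit 490) (B (M (nat_lit 461) (B (lo110_15_2 (nat_lit 462)) (M (nat_lit 489) (B (lo19_15_2 (nat_lit 460)) (M (nat_lit 521) (B (lo113_15_1 (nat_lit 522)) (lo112_15_1 (nat_lit 520)))))))) (B (M (nat_lit 489) (B (M (nat_lit 521) (B (lo113_15_1 (nat_lit 522)) (lo112_15_1 (nat_lit 520)))) (M (nat_lit 457) (B (lo113_15_3 (nat_lit 458)) (lo112_15_3 (nat_lit 456)))))) (B (M (nat_lit 489) (B (M (nat_lit 461) (B (lo110_15_2 (nat_lit 462)) (lo19_15_2 (nat_lit 460)))) (M (nat_lit 457) (B (lo113_15_3 (nat_lit 458)) (lo112_15_3 (nat_lit 456)))))) (M (nat_lit 494) (B (M (nat_lit 462) (B (lo111_15_2 (nat_lit 463)) (lo110_15_2 (nat_lit 461)))) (M (nat_lit 458) (B (lo114_15_3 (nat_lit 459)) (lo113_15_3 (nat_lit 457)))))))))) (B (K _ _ _ o1_s42785) (B (K _ _ _ o1_s42789) (K _ _ _ o1_s42289)))))))) (B (M (nat_lit 461) (B (M (nat_lit 396) (B (M (nat_lit 364) (B (lo113_15_7 (nat_lit 397))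 (lo112_11_4 (nat_lit 460)))) (B (M (nat_lit 460) (B (lo112_11_4 (nat_lit 364)) (M (nat_lit 491) (B (lo112_12_5 (nat_lit 523)) (M (nat_lit 462) (B (lo115_14_1 (nat_lit 463)) (lo110_15_2 (nat_lit 490)))))))) (B (M (nat_lit 397) (B (lo113_15_7 (nat_lit 364)) (M (nat_lit 398) (B (lo113_15_6 (nat_lit 366)) (M (nat_lit 399) (B (lo116_12_1 (nat_lit 400)) (lo115_12_1 (nat_lit 427)))))))) (M (nat_lit 397) (B (M (nat_lit 365) (B (lo113_11_5 (nat_lit 460)) (M (nat_lit 494) (B (lo113_12_4 (nat_lit 526)) (lo113_11_4 (nat_lit 462)))))) (M (nat_lit 398) (B (lo113_15_6 (nat_lit 366)) (M (nat_lit 399) (B (lo116_12_1 (nat_lit 400)) (lo115_12_1 (nat_lit 427)))))))))))) (B (M (nat_lit 460) (B (M (nat_lit 491) (B (M (nat_lit 462) (B (lo115_14_1 (nat_lit 463)) (lo110_15_2 (nat_lit 490)))) (M (nat_lit 396) (B (lo112_11_4 (nat_lit 364)) (lo112_12_5 (nat_lit 523)))))) (M (nat_lit 494) (B (M (nat_lit 495)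 (B (lo116_15_3 (nat_lit 496)) (lo115_15_3 (nat_lit 459)))) (M (nat_lit 397) (B (lo113_12_4 (nat_lit 526)) (lo113_11_5 (nat_lit 365)))))))) (B (M (nat_lit 460) (B (M (nat_lit 491) (B (M (nat_lit 490) (B (lo110_15_2 (nat_lit 462)) (lo19_15_2 (nat_lit 489)))) (M (nat_lit 396) (B (lo112_11_4 (nat_lit 364)) (lo112_12_5 (nat_lit 523)))))) (M (nat_lit 494) (B (M (nat_lit 495) (B (lo116_15_3 (nat_lit 496)) (lo115_15_3 (nat_lit 459)))) (M (nat_lit 397) (B (lo113_12_4 (nat_lit 526)) (lo113_11_5 (nat_lit 365)))))))) (B (M (nat_lit 397) (B (M (nat_lit 365) (B (lo113_11_5 (nat_lit 460)) (M (nat_lit 366) (B (lo113_15_6 (nat_lit 398)) (lo113_14_6 (nat_lit 334)))))) (B (M (nat_lit 460) (B (lo113_11_5 (nat_lit 365)) (M (nat_lit 491) (B (M (nat_lit 462) (B (lo115_14_1 (nat_lit 463)) (lo110_15_2 (nat_lit 490)))) (M (nat_lit 396) (B (lo113_15_7 (nat_lit 364)) (lo112_12_5 (nat_lit 523)))))))) (M (nat_lit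 396) (B (lo113_15_7 (nat_lit 364)) (M (nat_lit 398) (B (lo113_15_6 (nat_lit 366)) (M (nat_lit 399) (B (lo116_12_1 (nat_lit 400)) (lo115_12_1 (nat_lit 427))))))))))) (B (M (nat_lit 397) (B (M (nat_lit 365) (B (lo113_11_5 (nat_lit 460)) (M (nat_lit 366) (B (lo113_15_6 (nat_lit 398)) (lo113_14_6 (nat_lit 334)))))) (B (M (nat_lit 460) (B (lo113_11_5 (nat_lit 365)) (M (nat_lit 494) (B (lo113_12_4 (nat_lit 526)) (M (nat_lit 495) (B (lo116_15_3 (nat_lit 496)) (lo115_15_3 (nat_lit 459)))))))) (M (nat_lit 396) (B (lo113_15_7 (nat_lit 364)) (M (nat_lit 398) (B (lo113_15_6 (nat_lit 366)) (M (nat_lit 399) (B (lo116_12_1 (nat_lit 400)) (lo115_12_1 (nat_lit 427))))))))))) (B (K _ _ _ o1_s42855) (B (M (nat_lit 397) (B (M (nat_lit 396) (B (lo113_15_7 (nat_lit 364)) (M (nat_lit 398) (B (lo113_15_6 (nat_lit 366)) (M (nat_lit 399) (B (lo116_12_1 (nat_lit 400)) (lo115_12_1 (nat_lit 427)))))))) (M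 (nat_lit 494) (B (lo113_12_4 (nat_lit 526)) (M (nat_lit 462) (B (lo113_11_4 (nat_lit 365)) (M (nat_lit 463) (B (lo116_14_1 (nat_lit 464)) (lo111_15_2 (nat_lit 491)))))))))) (K _ _ _ o1_s42884))))))))) (B (M (nat_lit 491) (B (M (nat_lit 461) (B (M (nat_lit 462) (B (lo110_15_2 (nat_lit 490)) (M (nat_lit 463) (B (lo116_14_1 (nat_lit 464)) (lo111_15_2 (nat_lit 494)))))) (B (M (nat_lit 462) (B (lo110_15_2 (nat_lit 490)) (M (nat_lit 397) (B (lo113_12_5 (nat_lit 524)) (M (nat_lit 494) (B (lo111_15_2 (nat_lit 463)) (lo113_11_4 (nat_lit 365)))))))) (K _ _ _ o1_s42899)))) (B (M (nat_lit 494) (B (M (nat_lit 495) (B (M (nat_lit 527) (B (lo112_15_0 (nat_lit 528)) (lo111_15_0 (nat_lit 526)))) (M (nat_lit 523) (B (lo115_15_1 (nat_lit 524)) (lo114_15_1 (nat_lit 522)))))) (M (nat_lit 490) (B (M (nat_lit 462) (B (lo111_15_2 (nat_lit 463)) (lo110_15_2 (nat_lit 461)))) (M (nat_lit 458) (B (lo114_15_3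 (nat_lit 459)) (lo113_15_3 (nat_lit 457)))))))) (B (M (nat_lit 461) (B (M (nat_lit 397) (B (lo113_12_5 (nat_lit 524)) (M (nat_lit 494) (B (lo113_12_4 (nat_lit 526)) (M (nat_lit 462) (B (lo113_11_4 (nat_lit 365)) (lo110_15_2 (nat_lit 490)))))))) (B (M (nat_lit 397) (B (lo113_12_5 (nat_lit 524)) (M (nat_lit 365) (B (M (nat_lit 462) (B (lo113_11_4 (nat_lit 494)) (lo110_15_2 (nat_lit 490)))) (M (nat_lit 366) (B (lo113_15_6 (nat_lit 398)) (lo113_14_6 (nat_lit 334)))))))) (B (K _ _ _ o1_s42899) (M (nat_lit 490) (B (lo110_15_2 (nat_lit 462)) (M (nat_lit 494) (B (M (nat_lit 522) (B (lo114_15_1 (nat_lit 523)) (lo113_15_1 (nat_lit 521)))) (M (nat_lit 458) (B (lo114_15_3 (nat_lit 459)) (lo113_15_3 (nat_lit 457)))))))))))) (B (M (nat_lit 461) (B (K _ _ _ o1_s42899) (M (nat_lit 490) (B (lo110_15_2 (nat_lit 462)) (M (nat_lit 489) (B (M (nat_lit 521) (B (lo113_15_1 (nat_lit 522)) (lo112_15_1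 (nat_lit 520)))) (M (nat_lit 457) (B (lo113_15_3 (nat_lit 458)) (lo112_15_3 (nat_lit 456)))))))))) (B (M (nat_lit 523) (B (M (nat_lit 522) (B (lo114_15_1 (nat_lit 494)) (M (nat_lit 521) (B (lo19_16_2 (nat_lit 524)) (lo113_15_1 (nat_lit 490)))))) (B (M (nat_lit 459) (B (M (nat_lit 427) (B (lo111_16_6 (nat_lit 396)) (M (nat_lit 524) (B (lo111_13_4 (nat_lit 556)) (M (nat_lit 522) (B (lo19_16_2 (nat_lit 521)) (lo111_13_5 (nat_lit 554)))))))) (B (M (nat_lit 522) (B (M (nat_lit 521) (B (lo19_16_2 (nat_lit 524)) (lo113_15_1 (nat_lit 490)))) (M (nat_lit 427) (B (lo111_16_6 (nat_lit 396)) (lo111_13_5 (nat_lit 554)))))) (B (M (nat_lit 555) (B (M (nat_lit 427) (B (lo111_16_6 (nat_lit 396)) (M (nat_lit 554) (B (lo111_14_5 (nat_lit 586)) (lo111_13_5 (nat_lit 522)))))) (M (nat_lit 458) (B (lo111_17_7 (nat_lit 426)) (M (nat_lit 490) (B (lo113_15_3 (nat_lit 457)) (lo111_18_7 (nat_lit 587))))))))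 (B (M (nat_lit 522) (B (M (nat_lit 521) (B (lo19_16_2 (nat_lit 524)) (lo113_15_1 (nat_lit 490)))) (M (nat_lit 554) (B (lo111_13_5 (nat_lit 427)) (M (nat_lit 586) (B (lo111_14_5 (nat_lit 555)) (lo110_19_6 (nat_lit 618)))))))) (B (M (nat_lit 555) (B (M (nat_lit 458) (B (lo111_17_7 (nat_lit 426)) (M (nat_lit 490) (B (lo113_15_3 (nat_lit 457)) (lo111_18_7 (nat_lit 587)))))) (B (M (nat_lit 458) (B (lo111_17_7 (nat_lit 426)) (M (nat_lit 457) (B (lo113_15_3 (nat_lit 490)) (lo18_14_0 (nat_lit 456)))))) (M (nat_lit 587) (B (M (nat_lit 588) (B (lo111_15_4 (nat_lit 620)) (lo111_14_4 (nat_lit 556)))) (M (nat_lit 586) (B (lo111_15_5 (nat_lit 618)) (lo111_14_5 (nat_lit 554))))))))) (M (nat_lit 555) (B (M (nat_lit 556) (B (lo111_14_4 (nat_lit 588)) (M (nat_lit 427) (B (lo111_13_4 (nat_lit 524)) (lo111_16_6 (nat_lit 396)))))) (M (nat_lit 458) (B (lo111_17_7 (nat_lit 426)) (M (nat_lit 490) (B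 (lo113_15_3 (nat_lit 457)) (lo111_18_7 (nat_lit 587)))))))))))))) (B (M (nat_lit 522) (B (lo114_15_1 (nat_lit 494)) (M (nat_lit 521) (B (lo113_15_1 (nat_lit 490)) (lo18_16_2 (nat_lit 520)))))) (B (M (nat_lit 459) (B (M (nat_lit 458) (B (lo114_15_3 (nat_lit 494)) (M (nat_lit 457) (B (lo113_15_3 (nat_lit 490)) (lo18_14_0 (nat_lit 456)))))) (M (nat_lit 427) (B (lo111_16_6 (nat_lit 396)) (M (nat_lit 397) (B (M (nat_lit 426) (B (lo110_13_2 (nat_lit 398)) (lo111_16_7 (nat_lit 394)))) (M (nat_lit 524) (B (lo113_12_5 (nat_lit 461)) (lo111_13_4 (nat_lit 556)))))))))) (M (nat_lit 522) (B (lo114_15_1 (nat_lit 494)) (M (nat_lit 521) (B (lo19_16_2 (nat_lit 524)) (lo18_16_2 (nat_lit 520))))))))))) (B (K _ _ _ o1_s42528) (M (nat_lit 494) (B (M (nat_lit 495) (B (M (nat_lit 527) (B (lo112_15_0 (nat_lit 528)) (lo111_15_0 (nat_lit 526)))) (M (nat_lit 523) (B (lo115_15_1 (nat_lit 524)) (lo114_15_1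 (nat_lit 522)))))) (B (M (nat_lit 495) (B (M (nat_lit 463) (B (lo112_15_2 (nat_lit 464)) (lo111_15_2 (nat_lit 462)))) (M (nat_lit 523) (B (lo115_15_1 (nat_lit 524)) (lo114_15_1 (nat_lit 522)))))) (M (nat_lit 462) (B (lo111_15_2 (nat_lit 463)) (M (nat_lit 526) (B (lo111_15_0 (nat_lit 527)) (M (nat_lit 461) (B (lo114_17_7 (nat_lit 558)) (lo113_12_4 (nat_lit 397)))))))))))))))))) (M (nat_lit 460) (B (M (nat_lit 397) (B (lo112_16_6 (nat_lit 524)) (M (nat_lit 365) (B (lo113_11_5 (nat_lit 461)) (lo113_10_5 (nat_lit 333)))))) (B (M (nat_lit 524) (B (lo112_16_6 (nat_lit 397)) (M (nat_lit 556) (B (M (nat_lit 555) (B (lo112_14_5 (nat_lit 587)) (lo112_13_5 (nat_lit 523)))) (M (nat_lit 588) (B (M (nat_lit 589) (B (lo112_15_4 (nat_lit 621)) (lo112_14_4 (nat_lit 557)))) (M (nat_lit 459) (B (lo112_18_7 (nat_lit 491)) (lo112_17_7 (nat_lit 427)))))))))) (B (M (nat_lit 494) (B (M (nat_lit 459)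 (B (lo115_15_3 (nat_lit 495)) (M (nat_lit 458) (B (lo110_14_0 (nat_lit 461)) (lo114_15_3 (nat_lit 491)))))) (B (M (nat_lit 491) (B (M (nat_lit 523) (B (lo114_15_1 (nat_lit 522)) (M (nat_lit 555) (B (lo112_13_5 (nat_lit 524)) (lo111_18_6 (nat_lit 587)))))) (B (M (nat_lit 523) (B (lo114_15_1 (nat_lit 522)) (M (nat_lit 555) (B (lo111_18_6 (nat_lit 587)) (lo111_17_6 (nat_lit 459)))))) (B (M (nat_lit 523) (B (lo114_15_1 (nat_lit 522)) (M (nat_lit 555) (B (lo112_13_5 (nat_lit 524)) (lo111_17_6 (nat_lit 459)))))) (M (nat_lit 490) (B (M (nat_lit 462) (B (lo111_15_2 (nat_lit 463)) (lo110_15_2 (nat_lit 461)))) (M (nat_lit 458) (B (lo114_15_3 (nat_lit 459)) (lo113_15_3 (nat_lit 457)))))))))) (B (M (nat_lit 459) (B (lo115_15_3 (nat_lit 495)) (M (nat_lit 458) (B (lo114_15_3 (nat_lit 491)) (lo19_14_0 (nat_lit 457)))))) (B (M (nat_lit 459) (B (lo115_15_3 (nat_lit 495)) (M (nat_lit 458) (B (lo110_14_0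 (nat_lit 461)) (lo19_14_0 (nat_lit 457)))))) (M (nat_lit 491) (B (M (nat_lit 523) (B (lo114_15_1 (nat_lit 522)) (M (nat_lit 524) (B (lo115_15_1 (nat_lit 495)) (lo112_13_5 (nat_lit 555)))))) (B (M (nat_lit 523) (B (lo114_15_1 (nat_lit 522)) (M (nat_lit 555) (B (lo112_13_5 (nat_lit 524)) (lo111_18_6 (nat_lit 587)))))) (M (nat_lit 495) (B (M (nat_lit 527) (B (lo112_15_0 (nat_lit 528)) (lo111_15_0 (nat_lit 526)))) (M (nat_lit 463) (B (lo112_15_2 (nat_lit 464)) (lo111_15_2 (nat_lit 462)))))))))))))) (M (nat_lit 494) (B (M (nat_lit 459) (B (lo115_15_3 (nat_lit 495)) (M (nat_lit 458) (B (lo110_14_0 (nat_lit 461)) (lo114_15_3 (nat_lit 491)))))) (B (M (nat_lit 491) (B (M (nat_lit 523) (B (lo114_15_1 (nat_lit 522)) (M (nat_lit 555) (B (lo111_18_6 (nat_lit 587)) (lo111_17_6 (nat_lit 459)))))) (M (nat_lit 461) (B (M (nat_lit 526) (B (lo111_15_0 (nat_lit 527)) (lo113_12_4 (nat_lit 397))))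 (M (nat_lit 462) (B (lo111_15_2 (nat_lit 463)) (lo110_15_2 (nat_lit 490)))))))) (B (M (nat_lit 459) (B (lo115_15_3 (nat_lit 495)) (M (nat_lit 458) (B (lo114_15_3 (nat_lit 491)) (lo19_14_0 (nat_lit 457)))))) (B (M (nat_lit 459) (B (lo115_15_3 (nat_lit 495)) (M (nat_lit 458) (B (lo110_14_0 (nat_lit 461)) (lo19_14_0 (nat_lit 457)))))) (K _ _ _ o1_s42996))))))))))))))))) (B (M (nat_lit 461) (B (M (nat_lit 396) (B (lo113_16_7 (nat_lit 525)) (M (nat_lit 364) (B (lo113_15_7 (nat_lit 397)) (lo112_10_4 (nat_lit 332)))))) (B (M (nat_lit 397) (B (M (nat_lit 494) (B (lo113_12_4 (nat_lit 526)) (M (nat_lit 365) (B (lo113_11_4 (nat_lit 462)) (M (nat_lit 366) (B (lo113_15_6 (nat_lit 398)) (lo113_14_6 (nat_lit 334)))))))) (B (M (nat_lit 365) (B (M (nat_lit 366) (B (lo113_15_6 (nat_lit 398)) (lo113_14_6 (nat_lit 334)))) (M (nat_lit 364) (B (lo113_15_7 (nat_lit 396)) (lo113_14_7 (nat_lit 332))))))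 (B (M (nat_lit 365) (B (M (nat_lit 494) (B (lo113_12_4 (nat_lit 526)) (lo113_11_4 (nat_lit 462)))) (M (nat_lit 364) (B (lo113_15_7 (nat_lit 396)) (lo113_14_7 (nat_lit 332)))))) (M (nat_lit 398) (B (lo113_15_6 (nat_lit 366)) (M (nat_lit 427) (B (lo110_13_2 (nat_lit 426)) (M (nat_lit 399) (B (lo116_12_1 (nat_lit 400)) (lo115_12_1 (nat_lit 396)))))))))))) (B (K _ _ _ o1_s43012) (K _ _ _ o1_s43056))))) (B (M (nat_lit 492) (B (K _ _ _ o1_s43066) (B (M (nat_lit 491) (B (M (nat_lit 461) (B (M (nat_lit 462) (B (lo110_15_2 (nat_lit 490)) (M (nat_lit 463) (B (lo116_14_1 (nat_lit 464)) (lo115_14_1 (nat_lit 460)))))) (B (M (nat_lit 462) (B (lo110_15_2 (nat_lit 490)) (M (nat_lit 463) (B (lo111_15_2 (nat_lit 494)) (lo115_14_1 (nat_lit 460)))))) (B (M (nat_lit 396) (B (lo113_16_7 (nat_lit 525)) (M (nat_lit 460) (B (lo112_11_4 (nat_lit 364)) (lo112_12_5 (nat_lit 523)))))) (M (nat_lit 462) (B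 (lo110_15_2 (nat_lit 490)) (M (nat_lit 463) (B (lo116_14_1 (nat_lit 464)) (lo111_15_2 (nat_lit 494)))))))))) (B (K _ _ _ o1_s42746) (B (M (nat_lit 461) (B (M (nat_lit 490) (B (lo110_15_2 (nat_lit 462)) (M (nat_lit 525) (B (lo110_15_0 (nat_lit 526)) (lo113_16_7 (nat_lit 396)))))) (B (M (nat_lit 462) (B (lo110_15_2 (nat_lit 490)) (M (nat_lit 463) (B (lo116_14_1 (nat_lit 464)) (lo115_14_1 (nat_lit 460)))))) (M (nat_lit 396) (B (lo113_16_7 (nat_lit 525)) (M (nat_lit 460) (B (lo112_11_4 (nat_lit 364)) (lo112_12_5 (nat_lit 523))))))))) (B (K _ _ _ o1_s43073) (B (M (nat_lit 494) (B (M (nat_lit 490) (B (M (nat_lit 462) (B (lo111_15_2 (nat_lit 463)) (lo110_15_2 (nat_lit 461)))) (M (nat_lit 458) (B (lo114_15_3 (nat_lit 459)) (lo113_15_3 (nat_lit 457)))))) (B (M (nat_lit 490) (B (M (nat_lit 526) (B (lo111_15_0 (nat_lit 527)) (lo110_15_0 (nat_lit 525)))) (M (nat_lit 458) (B (lo114_15_3 (nat_lit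 459)) (lo113_15_3 (nat_lit 457)))))) (B (M (nat_lit 490) (B (M (nat_lit 526) (B (lo111_15_0 (nat_lit 527)) (lo110_15_0 (nat_lit 525)))) (M (nat_lit 462) (B (lo111_15_2 (nat_lit 463)) (lo110_15_2 (nat_lit 461)))))) (M (nat_lit 495) (B (M (nat_lit 527) (B (lo112_15_0 (nat_lit 528)) (lo111_15_0 (nat_lit 526)))) (M (nat_lit 463) (B (lo112_15_2 (nat_lit 464)) (lo111_15_2 (nat_lit 462)))))))))) (K _ _ _ o1_s42289))))))) (B (M (nat_lit 460) (B (M (nat_lit 525) (B (lo112_12_4 (nat_lit 396)) (M (nat_lit 557) (B (lo113_18_7 (nat_lit 589)) (lo112_13_4 (nat_lit 524)))))) (B (M (nat_lit 525) (B (lo112_12_4 (nat_lit 396)) (M (nat_lit 557) (B (lo113_17_7 (nat_lit 461)) (lo112_13_4 (nat_lit 524)))))) (B (M (nat_lit 396) (B (lo112_12_4 (nat_lit 525)) (M (nat_lit 491) (B (lo112_12_5 (nat_lit 523)) (M (nat_lit 364) (B (lo112_11_4 (nat_lit 461)) (lo112_11_5 (nat_lit 459)))))))) (B (M (nat_lit 524)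 (B (M (nat_lit 556) (B (lo112_17_6 (nat_lit 461)) (M (nat_lit 555) (B (lo112_14_5 (nat_lit 587)) (lo112_13_5 (nat_lit 523)))))) (B (M (nat_lit 523) (B (lo112_13_5 (nat_lit 555)) (M (nat_lit 494) (B (lo115_15_1 (nat_lit 495)) (M (nat_lit 491) (B (lo114_15_1 (nat_lit 522)) (lo112_12_5 (nat_lit 396)))))))) (M (nat_lit 459) (B (M (nat_lit 556) (B (lo112_17_6 (nat_lit 461)) (lo112_17_7 (nat_lit 427)))) (M (nat_lit 458) (B (lo19_14_0 (nat_lit 457)) (M (nat_lit 494) (B (lo115_15_3 (nat_lit 495)) (lo114_15_3 (nat_lit 491))))))))))) (M (nat_lit 524) (B (M (nat_lit 557) (B (lo112_13_4 (nat_lit 525)) (M (nat_lit 556) (B (lo112_14_4 (nat_lit 589)) (lo112_17_6 (nat_lit 461)))))) (B (M (nat_lit 525) (B (lo112_13_4 (nat_lit 557)) (M (nat_lit 523) (B (lo112_13_5 (nat_lit 555)) (M (nat_lit 494) (B (lo115_15_1 (nat_lit 495)) (lo110_16_2 (nat_lit 522)))))))) (B (M (nat_lit 523) (B (lo112_13_5 (nat_lit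 555)) (M (nat_lit 494) (B (lo115_15_1 (nat_lit 495)) (M (nat_lit 522) (B (lo110_16_2 (nat_lit 525)) (lo19_16_2 (nat_lit 521)))))))) (M (nat_lit 523) (B (lo112_13_5 (nat_lit 555)) (M (nat_lit 494) (B (lo115_15_1 (nat_lit 495)) (M (nat_lit 522) (B (lo114_15_1 (nat_lit 491)) (lo19_16_2 (nat_lit 521))))))))))))))))) (B (M (nat_lit 491) (B (K _ _ _ o1_s42746) (B (M (nat_lit 523) (B (M (nat_lit 460) (B (lo112_12_5 (nat_lit 396)) (M (nat_lit 555) (B (lo112_13_5 (nat_lit 524)) (lo111_18_6 (nat_lit 587)))))) (B (M (nat_lit 460) (B (lo112_12_5 (nat_lit 396)) (M (nat_lit 555) (B (lo111_18_6 (nat_lit 587)) (lo111_17_6 (nat_lit 459)))))) (B (M (nat_lit 522) (B (M (nat_lit 521) (B (lo19_16_2 (nat_lit 524)) (lo113_15_1 (nat_lit 490)))) (B (M (nat_lit 521) (B (lo113_15_1 (nat_lit 490)) (lo18_16_2 (nat_lit 520)))) (B (M (nat_lit 521) (B (lo19_16_2 (nat_lit 524)) (lo18_16_2 (nat_lit 520)))) (M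 (nat_lit 459) (B (M (nat_lit 427) (B (lo111_16_6 (nat_lit 396)) (lo111_13_5 (nat_lit 554)))) (B (M (nat_lit 554) (B (lo111_13_5 (nat_lit 427)) (M (nat_lit 586) (B (lo111_14_5 (nat_lit 555)) (lo110_19_6 (nat_lit 618)))))) (B (M (nat_lit 555) (B (M (nat_lit 458) (B (lo111_17_7 (nat_lit 426)) (M (nat_lit 490) (B (lo113_15_3 (nat_lit 457)) (lo111_18_7 (nat_lit 587)))))) (B (M (nat_lit 458) (B (lo111_17_7 (nat_lit 426)) (M (nat_lit 457) (B (lo113_15_3 (nat_lit 490)) (lo18_14_0 (nat_lit 456)))))) (M (nat_lit 587) (B (M (nat_lit 588) (B (lo111_15_4 (nat_lit 620)) (lo111_14_4 (nat_lit 556)))) (M (nat_lit 586) (B (lo111_15_5 (nat_lit 618)) (lo111_14_5 (nat_lit 554))))))))) (M (nat_lit 555) (B (M (nat_lit 556) (B (lo111_14_4 (nat_lit 588)) (M (nat_lit 427) (B (lo111_13_4 (nat_lit 524)) (lo111_16_6 (nat_lit 396)))))) (M (nat_lit 458) (B (lo111_17_7 (nat_lit 426)) (M (nat_lit 490) (B (lo113_15_3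 (nat_lit 457)) (lo111_18_7 (nat_lit 587)))))))))))))))) (B (M (nat_lit 490) (B (M (nat_lit 522) (B (lo113_15_1 (nat_lit 521)) (M (nat_lit 458) (B (lo113_15_3 (nat_lit 457)) (M (nat_lit 555) (B (lo111_18_7 (nat_lit 587)) (lo110_13_4 (nat_lit 426)))))))) (B (M (nat_lit 460) (B (M (nat_lit 461) (B (lo110_15_2 (nat_lit 462)) (lo19_15_2 (nat_lit 489)))) (M (nat_lit 555) (B (lo112_13_5 (nat_lit 524)) (lo111_17_6 (nat_lit 459)))))) (M (nat_lit 457) (B (lo113_15_3 (nat_lit 458)) (M (nat_lit 461) (B (lo110_15_2 (nat_lit 462)) (M (nat_lit 489) (B (lo19_15_2 (nat_lit 460)) (lo112_15_3 (nat_lit 456))))))))))) (B (M (nat_lit 460) (B (lo112_12_5 (nat_lit 396)) (M (nat_lit 555) (B (lo112_13_5 (nat_lit 524)) (lo111_17_6 (nat_lit 459)))))) (M (nat_lit 427) (B (M (nat_lit 396) (B (lo112_12_5 (nat_lit 460)) (lo111_16_6 (nat_lit 459)))) (B (M (nat_lit 522) (B (M (nat_lit 521) (B (lo19_16_2 (nat_lit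 524)) (lo113_15_1 (nat_lit 490)))) (M (nat_lit 459) (B (lo111_16_6 (nat_lit 396)) (lo111_13_5 (nat_lit 554)))))) (B (M (nat_lit 426) (B (M (nat_lit 394) (B (lo113_13_3 (nat_lit 393)) (lo111_16_7 (nat_lit 459)))) (B (M (nat_lit 458) (B (lo113_13_1 (nat_lit 457)) (M (nat_lit 394) (B (lo113_13_3 (nat_lit 393)) (lo110_12_4 (nat_lit 490)))))) (M (nat_lit 457) (B (lo113_13_1 (nat_lit 458)) (M (nat_lit 425) (B (lo112_13_1 (nat_lit 456)) (M (nat_lit 461) (B (lo110_13_0 (nat_lit 462)) (lo19_13_0 (nat_lit 460))))))))))) (M (nat_lit 426) (B (M (nat_lit 461) (B (lo110_13_0 (nat_lit 462)) (M (nat_lit 460) (B (lo19_13_0 (nat_lit 425)) (lo112_12_5 (nat_lit 396)))))) (M (nat_lit 458) (B (lo113_13_1 (nat_lit 457)) (M (nat_lit 394) (B (lo113_13_3 (nat_lit 393)) (lo110_12_4 (nat_lit 490)))))))))))))))))) (B (K _ _ _ o1_s42789) (B (M (nat_lit 494) (B (M (nat_lit 490) (B (M (nat_lit 522) (B (lo114_15_1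 (nat_lit 523)) (lo113_15_1 (nat_lit 521)))) (M (nat_lit 458) (B (lo114_15_3 (nat_lit 459)) (lo113_15_3 (nat_lit 457)))))) (B (M (nat_lit 490) (B (M (nat_lit 462) (B (lo111_15_2 (nat_lit 463)) (lo110_15_2 (nat_lit 461)))) (M (nat_lit 458) (B (lo114_15_3 (nat_lit 459)) (lo113_15_3 (nat_lit 457)))))) (B (M (nat_lit 490) (B (M (nat_lit 462) (B (lo111_15_2 (nat_lit 463)) (lo110_15_2 (nat_lit 461)))) (M (nat_lit 522) (B (lo114_15_1 (nat_lit 523)) (lo113_15_1 (nat_lit 521)))))) (M (nat_lit 495) (B (M (nat_lit 527) (B (lo112_15_0 (nat_lit 528)) (lo111_15_0 (nat_lit 526)))) (M (nat_lit 463) (B (lo112_15_2 (nat_lit 464)) (lo111_15_2 (nat_lit 462)))))))))) (B (K _ _ _ o1_s42785) (K _ _ _ o1_s42289))))))) (B (K _ _ _ o1_s42290) (B (M (nat_lit 461) (B (M (nat_lit 396) (B (lo113_16_7 (nat_lit 525)) (M (nat_lit 364) (B (lo112_11_4 (nat_lit 460)) (lo112_10_4 (nat_lit 332)))))) (B (K _ _ _ o1_s42855)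 (B (M (nat_lit 525) (B (lo113_16_7 (nat_lit 396)) (M (nat_lit 526) (B (lo113_13_4 (nat_lit 558)) (M (nat_lit 491) (B (lo110_15_0 (nat_lit 490)) (M (nat_lit 527) (B (lo116_16_3 (nat_lit 528)) (lo111_15_0 (nat_lit 494)))))))))) (M (nat_lit 491) (B (M (nat_lit 462) (B (lo110_15_2 (nat_lit 490)) (M (nat_lit 463) (B (lo116_14_1 (nat_lit 464)) (lo115_14_1 (nat_lit 460)))))) (B (M (nat_lit 462) (B (lo110_15_2 (nat_lit 490)) (M (nat_lit 463) (B (lo111_15_2 (nat_lit 494)) (lo115_14_1 (nat_lit 460)))))) (B (M (nat_lit 494) (B (M (nat_lit 490) (B (lo110_15_2 (nat_lit 462)) (M (nat_lit 526) (B (lo111_15_0 (nat_lit 527)) (lo110_15_0 (nat_lit 525)))))) (B (M (nat_lit 490) (B (lo110_15_2 (nat_lit 462)) (M (nat_lit 522) (B (lo114_15_1 (nat_lit 523)) (lo113_15_1 (nat_lit 521)))))) (M (nat_lit 526) (B (lo111_15_0 (nat_lit 527)) (M (nat_lit 558) (B (lo114_18_7 (nat_lit 590)) (lo113_13_4 (nat_lit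 525))))))))) (B (M (nat_lit 494) (B (M (nat_lit 526) (B (lo111_15_0 (nat_lit 527)) (M (nat_lit 558) (B (lo114_18_7 (nat_lit 590)) (lo113_13_4 (nat_lit 525)))))) (M (nat_lit 490) (B (M (nat_lit 522) (B (lo114_15_1 (nat_lit 523)) (lo113_15_1 (nat_lit 521)))) (M (nat_lit 458) (B (lo114_15_3 (nat_lit 459)) (lo113_15_3 (nat_lit 457)))))))) (M (nat_lit 494) (B (M (nat_lit 462) (B (lo111_15_2 (nat_lit 463)) (M (nat_lit 526) (B (lo111_15_0 (nat_lit 527)) (lo114_17_7 (nat_lit 558)))))) (B (M (nat_lit 495) (B (M (nat_lit 463) (B (lo112_15_2 (nat_lit 464)) (lo111_15_2 (nat_lit 462)))) (M (nat_lit 459) (B (lo115_15_3 (nat_lit 460)) (lo114_15_3 (nat_lit 458)))))) (B (M (nat_lit 526) (B (lo111_15_0 (nat_lit 527)) (M (nat_lit 558) (B (lo114_18_7 (nat_lit 590)) (lo114_17_7 (nat_lit 462)))))) (M (nat_lit 526) (B (lo111_15_0 (nat_lit 527)) (M (nat_lit 558) (B (lo114_18_7 (nat_lit 590)) (lo113_13_4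 (nat_lit 525))))))))))))))))))) (B (M (nat_lit 491) (B (K _ _ _ o1_s43073) (B (M (nat_lit 490) (B (M (nat_lit 461) (B (lo110_15_2 (nat_lit 462)) (M (nat_lit 525) (B (lo110_15_0 (nat_lit 526)) (lo113_16_7 (nat_lit 396)))))) (M (nat_lit 494) (B (M (nat_lit 522) (B (lo114_15_1 (nat_lit 523)) (lo113_15_1 (nat_lit 521)))) (M (nat_lit 458) (B (lo114_15_3 (nat_lit 459)) (lo113_15_3 (nat_lit 457)))))))) (B (M (nat_lit 490) (B (M (nat_lit 494) (B (M (nat_lit 462) (B (lo111_15_2 (nat_lit 463)) (lo110_15_2 (nat_lit 461)))) (M (nat_lit 458) (B (lo114_15_3 (nat_lit 459)) (lo113_15_3 (nat_lit 457)))))) (B (M (nat_lit 494) (B (M (nat_lit 522) (B (lo114_15_1 (nat_lit 523)) (lo113_15_1 (nat_lit 521)))) (M (nat_lit 458) (B (lo114_15_3 (nat_lit 459)) (lo113_15_3 (nat_lit 457)))))) (B (M (nat_lit 489) (B (M (nat_lit 521) (B (lo113_15_1 (nat_lit 522)) (lo112_15_1 (nat_lit 520)))) (M (nat_lit 457)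 (B (lo113_15_3 (nat_lit 458)) (lo112_15_3 (nat_lit 456)))))) (M (nat_lit 494) (B (M (nat_lit 462) (B (lo111_15_2 (nat_lit 463)) (lo110_15_2 (nat_lit 461)))) (M (nat_lit 522) (B (lo114_15_1 (nat_lit 523)) (lo113_15_1 (nat_lit 521)))))))))) (B (M (nat_lit 490) (B (M (nat_lit 461) (B (lo110_15_2 (nat_lit 462)) (M (nat_lit 525) (B (lo110_15_0 (nat_lit 526)) (lo113_16_7 (nat_lit 396)))))) (M (nat_lit 489) (B (M (nat_lit 521) (B (lo113_15_1 (nat_lit 522)) (lo112_15_1 (nat_lit 520)))) (M (nat_lit 457) (B (lo113_15_3 (nat_lit 458)) (lo112_15_3 (nat_lit 456)))))))) (B (K _ _ _ o1_s42532) (B (M (nat_lit 490) (B (M (nat_lit 461) (B (lo110_15_2 (nat_lit 462)) (M (nat_lit 525) (B (lo110_15_0 (nat_lit 526)) (lo113_16_7 (nat_lit 396)))))) (B (M (nat_lit 494) (B (M (nat_lit 462) (B (lo111_15_2 (nat_lit 463)) (lo110_15_2 (nat_lit 461)))) (M (nat_lit 458) (B (lo114_15_3 (nat_lit 459)) (lo113_15_3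 (nat_lit 457)))))) (M (nat_lit 489) (B (M (nat_lit 525) (B (lo110_15_0 (nat_lit 526)) (lo19_15_0 (nat_lit 524)))) (M (nat_lit 457) (B (lo113_15_3 (nat_lit 458)) (lo112_15_3 (nat_lit 456))))))))) (M (nat_lit 494) (B (M (nat_lit 495) (B (M (nat_lit 463) (B (lo112_15_2 (nat_lit 464)) (lo111_15_2 (nat_lit 462)))) (M (nat_lit 523) (B (lo115_15_1 (nat_lit 524)) (lo114_15_1 (nat_lit 522)))))) (B (M (nat_lit 495) (B (M (nat_lit 527) (B (lo112_15_0 (nat_lit 528)) (lo111_15_0 (nat_lit 526)))) (M (nat_lit 523) (B (lo115_15_1 (nat_lit 524)) (lo114_15_1 (nat_lit 522)))))) (B (M (nat_lit 461) (B (M (nat_lit 526) (B (lo111_15_0 (nat_lit 527)) (M (nat_lit 558) (B (lo114_18_7 (nat_lit 590)) (lo114_17_7 (nat_lit 462)))))) (M (nat_lit 396) (B (lo113_16_7 (nat_lit 525)) (M (nat_lit 523) (B (lo114_15_1 (nat_lit 522)) (M (nat_lit 459) (B (lo114_15_3 (nat_lit 458)) (lo111_16_6 (nat_lit 427))))))))))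 (M (nat_lit 495) (B (M (nat_lit 527) (B (lo112_15_0 (nat_lit 528)) (lo111_15_0 (nat_lit 526)))) (M (nat_lit 463) (B (lo112_15_2 (nat_lit 464)) (lo111_15_2 (nat_lit 462))))))))))))))))) (M (nat_lit 491) (B (M (nat_lit 494) (B (M (nat_lit 495) (B (M (nat_lit 463) (B (lo112_15_2 (nat_lit 464)) (lo111_15_2 (nat_lit 462)))) (M (nat_lit 523) (B (lo115_15_1 (nat_lit 524)) (lo114_15_1 (nat_lit 522)))))) (B (M (nat_lit 490) (B (M (nat_lit 526) (B (lo111_15_0 (nat_lit 527)) (lo110_15_0 (nat_lit 525)))) (M (nat_lit 522) (B (lo114_15_1 (nat_lit 523)) (lo113_15_1 (nat_lit 521)))))) (M (nat_lit 490) (B (M (nat_lit 526) (B (lo111_15_0 (nat_lit 527)) (lo110_15_0 (nat_lit 525)))) (M (nat_lit 462) (B (lo111_15_2 (nat_lit 463)) (lo110_15_2 (nat_lit 461))))))))) (B (M (nat_lit 490) (B (M (nat_lit 489) (B (M (nat_lit 525) (B (lo110_15_0 (nat_lit 526)) (lo19_15_0 (nat_lit 524)))) (M (nat_lit 457) (B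 (lo113_15_3 (nat_lit 458)) (lo112_15_3 (nat_lit 456)))))) (B (M (nat_lit 461) (B (lo110_15_2 (nat_lit 462)) (M (nat_lit 489) (B (lo19_15_2 (nat_lit 460)) (M (nat_lit 521) (B (lo113_15_1 (nat_lit 522)) (lo112_15_1 (nat_lit 520)))))))) (M (nat_lit 494) (B (M (nat_lit 526) (B (lo111_15_0 (nat_lit 527)) (lo110_15_0 (nat_lit 525)))) (M (nat_lit 522) (B (lo114_15_1 (nat_lit 523)) (lo113_15_1 (nat_lit 521))))))))) (B (M (nat_lit 490) (B (M (nat_lit 489) (B (M (nat_lit 525) (B (lo110_15_0 (nat_lit 526)) (lo19_15_0 (nat_lit 524)))) (M (nat_lit 457) (B (lo113_15_3 (nat_lit 458)) (lo112_15_3 (nat_lit 456)))))) (B (M (nat_lit 461) (B (lo110_15_2 (nat_lit 462)) (M (nat_lit 489) (B (lo19_15_2 (nat_lit 460)) (M (nat_lit 521) (B (lo113_15_1 (nat_lit 522)) (lo112_15_1 (nat_lit 520)))))))) (M (nat_lit 494) (B (M (nat_lit 462) (B (lo111_15_2 (nat_lit 463)) (lo110_15_2 (nat_lit 461)))) (M (nat_lit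 522) (B (lo114_15_1 (nat_lit 523)) (lo113_15_1 (nat_lit 521))))))))) (B (M (nat_lit 490) (B (M (nat_lit 489) (B (M (nat_lit 461) (B (lo110_15_2 (nat_lit 462)) (lo19_15_2 (nat_lit 460)))) (M (nat_lit 457) (B (lo113_15_3 (nat_lit 458)) (lo112_15_3 (nat_lit 456)))))) (B (M (nat_lit 489) (B (M (nat_lit 521) (B (lo113_15_1 (nat_lit 522)) (lo112_15_1 (nat_lit 520)))) (M (nat_lit 457) (B (lo113_15_3 (nat_lit 458)) (lo112_15_3 (nat_lit 456)))))) (B (M (nat_lit 461) (B (lo110_15_2 (nat_lit 462)) (M (nat_lit 489) (B (lo19_15_2 (nat_lit 460)) (M (nat_lit 521) (B (lo113_15_1 (nat_lit 522)) (lo112_15_1 (nat_lit 520)))))))) (M (nat_lit 494) (B (M (nat_lit 462) (B (lo111_15_2 (nat_lit 463)) (lo110_15_2 (nat_lit 461)))) (M (nat_lit 522) (B (lo114_15_1 (nat_lit 523)) (lo113_15_1 (nat_lit 521)))))))))) (B (M (nat_lit 461) (B (M (nat_lit 462) (B (lo110_15_2 (nat_lit 490)) (M (nat_lit 463) (B (lo116_14_1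 (nat_lit 464)) (lo115_14_1 (nat_lit 460)))))) (B (M (nat_lit 490) (B (lo110_15_2 (nat_lit 462)) (M (nat_lit 525) (B (lo110_15_0 (nat_lit 526)) (M (nat_lit 489) (B (lo19_15_0 (nat_lit 524)) (lo19_15_2 (nat_lit 460)))))))) (B (M (nat_lit 525) (B (M (nat_lit 526) (B (lo113_13_4 (nat_lit 558)) (lo110_15_0 (nat_lit 490)))) (M (nat_lit 557) (B (lo113_17_7 (nat_lit 460)) (M (nat_lit 556) (B (lo113_14_5 (nat_lit 588)) (lo113_13_5 (nat_lit 524)))))))) (B (M (nat_lit 490) (B (lo110_15_2 (nat_lit 462)) (M (nat_lit 525) (B (lo110_15_0 (nat_lit 526)) (M (nat_lit 524) (B (lo113_13_5 (nat_lit 556)) (lo19_15_0 (nat_lit 489)))))))) (M (nat_lit 525) (B (M (nat_lit 557) (B (lo113_17_7 (nat_lit 460)) (M (nat_lit 556) (B (lo113_14_5 (nat_lit 588)) (lo113_13_5 (nat_lit 524)))))) (B (M (nat_lit 524) (B (lo113_13_5 (nat_lit 556)) (M (nat_lit 526) (B (lo115_16_3 (nat_lit 527)) (lo113_13_4 (nat_lit 558))))))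 (M (nat_lit 557) (B (lo113_17_7 (nat_lit 460)) (M (nat_lit 558) (B (lo113_14_4 (nat_lit 590)) (lo113_13_4 (nat_lit 526)))))))))))))) (B (K _ _ _ o1_s42532) (M (nat_lit 524) (B (M (nat_lit 556) (B (M (nat_lit 461) (B (lo113_13_5 (nat_lit 525)) (lo112_18_6 (nat_lit 588)))) (B (M (nat_lit 461) (B (lo112_18_6 (nat_lit 588)) (lo112_17_6 (nat_lit 460)))) (B (M (nat_lit 588) (B (lo112_18_7 (nat_lit 459)) (M (nat_lit 620) (B (lo112_19_6 (nat_lit 525)) (lo112_19_7 (nat_lit 523)))))) (M (nat_lit 461) (B (lo113_13_5 (nat_lit 525)) (lo112_17_6 (nat_lit 460)))))))) (B (M (nat_lit 556) (B (M (nat_lit 461) (B (lo112_18_6 (nat_lit 588)) (lo112_17_6 (nat_lit 460)))) (B (M (nat_lit 459) (B (lo112_18_7 (nat_lit 588)) (M (nat_lit 427) (B (lo112_17_7 (nat_lit 460)) (lo111_13_4 (nat_lit 523)))))) (B (M (nat_lit 460) (B (lo112_17_6 (nat_lit 461)) (M (nat_lit 555) (B (lo112_14_5 (nat_lit 587)) (lo112_13_5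 (nat_lit 523)))))) (M (nat_lit 588) (B (lo112_18_6 (nat_lit 461)) (lo112_18_7 (nat_lit 459)))))))) (B (M (nat_lit 556) (B (M (nat_lit 588) (B (lo112_18_7 (nat_lit 459)) (M (nat_lit 620) (B (lo112_19_6 (nat_lit 525)) (lo112_19_7 (nat_lit 523)))))) (B (M (nat_lit 459) (B (lo112_18_7 (nat_lit 588)) (M (nat_lit 427) (B (lo112_17_7 (nat_lit 460)) (lo111_13_4 (nat_lit 523)))))) (B (M (nat_lit 460) (B (M (nat_lit 557) (B (lo112_14_4 (nat_lit 589)) (lo112_13_4 (nat_lit 525)))) (M (nat_lit 555) (B (lo112_14_5 (nat_lit 587)) (lo112_13_5 (nat_lit 523)))))) (M (nat_lit 460) (B (M (nat_lit 557) (B (lo112_14_4 (nat_lit 589)) (lo112_13_4 (nat_lit 525)))) (M (nat_lit 459) (B (lo112_18_7 (nat_lit 588)) (lo112_17_7 (nat_lit 427)))))))))) (B (M (nat_lit 460) (B (M (nat_lit 523) (B (lo112_13_5 (nat_lit 555)) (M (nat_lit 494) (B (lo115_15_1 (nat_lit 495)) (lo114_15_1 (nat_lit 522)))))) (M (nat_lit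 557) (B (lo112_13_4 (nat_lit 525)) (M (nat_lit 556) (B (lo112_14_4 (nat_lit 589)) (lo112_17_6 (nat_lit 461)))))))) (B (M (nat_lit 525) (B (M (nat_lit 460) (B (lo112_13_4 (nat_lit 557)) (M (nat_lit 523) (B (lo112_13_5 (nat_lit 555)) (M (nat_lit 494) (B (lo115_15_1 (nat_lit 495)) (lo110_16_2 (nat_lit 522)))))))) (B (M (nat_lit 526) (B (lo115_16_3 (nat_lit 527)) (M (nat_lit 523) (B (M (nat_lit 558) (B (lo111_16_0 (nat_lit 559)) (lo113_13_4 (nat_lit 461)))) (M (nat_lit 460) (B (lo112_13_4 (nat_lit 557)) (lo112_13_5 (nat_lit 555)))))))) (B (M (nat_lit 526) (B (lo115_16_3 (nat_lit 527)) (M (nat_lit 523) (B (M (nat_lit 558) (B (lo111_16_0 (nat_lit 559)) (lo113_13_4 (nat_lit 461)))) (M (nat_lit 494) (B (lo111_16_2 (nat_lit 495)) (lo110_16_2 (nat_lit 522)))))))) (M (nat_lit 494) (B (M (nat_lit 527) (B (lo111_15_0 (nat_lit 526)) (M (nat_lit 495) (B (lo112_15_0 (nat_lit 528)) (lo116_15_1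 (nat_lit 496)))))) (M (nat_lit 557) (B (lo112_13_4 (nat_lit 460)) (M (nat_lit 462) (B (lo111_15_2 (nat_lit 463)) (lo113_18_6 (nat_lit 589)))))))))))) (B (M (nat_lit 494) (B (M (nat_lit 523) (B (lo115_15_1 (nat_lit 495)) (lo114_15_1 (nat_lit 522)))) (M (nat_lit 526) (B (lo111_15_0 (nat_lit 527)) (M (nat_lit 461) (B (M (nat_lit 558) (B (lo114_18_7 (nat_lit 590)) (lo114_17_7 (nat_lit 462)))) (B (M (nat_lit 558) (B (lo114_17_7 (nat_lit 462)) (lo113_13_4 (nat_lit 525)))) (M (nat_lit 556) (B (lo113_13_5 (nat_lit 525)) (lo112_18_6 (nat_lit 588))))))))))) (M (nat_lit 556) (B (M (nat_lit 461) (B (lo113_13_5 (nat_lit 525)) (lo112_18_6 (nat_lit 588)))) (B (M (nat_lit 588) (B (lo112_18_6 (nat_lit 461)) (lo112_18_7 (nat_lit 459)))) (B (M (nat_lit 460) (B (M (nat_lit 557) (B (lo112_14_4 (nat_lit 589)) (lo112_13_4 (nat_lit 525)))) (M (nat_lit 459) (B (lo112_18_7 (nat_lit 588)) (lo112_17_7 (nat_lit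 427)))))) (M (nat_lit 461) (B (lo113_13_5 (nat_lit 525)) (lo112_17_6 (nat_lit 460)))))))))))))))))))))))))))))) (B (M (nat_lit 461) (B (M (nat_lit 396) (B (lo113_16_7 (nat_lit 525)) (M (nat_lit 364) (B (lo112_11_4 (nat_lit 460)) (lo112_10_4 (nat_lit 332)))))) (B (K _ _ _ o1_s42693) (B (M (nat_lit 396) (B (lo113_16_7 (nat_lit 525)) (M (nat_lit 364) (B (lo113_15_7 (nat_lit 397)) (lo112_10_4 (nat_lit 332)))))) (K _ _ _ o1_s43334))))) (B (M (nat_lit 461) (B (M (nat_lit 396) (B (lo113_16_7 (nat_lit 525)) (M (nat_lit 364) (B (lo113_15_7 (nat_lit 397)) (lo112_10_4 (nat_lit 332)))))) (B (M (nat_lit 397) (B (M (nat_lit 396) (B (lo113_15_7 (nat_lit 364)) (M (nat_lit 398) (B (lo113_15_6 (nat_lit 366)) (M (nat_lit 399) (B (lo116_12_1 (nat_lit 400)) (lo115_12_1 (nat_lit 427)))))))) (B (M (nat_lit 365) (B (M (nat_lit 366) (B (lo113_15_6 (nat_lit 398)) (lo113_14_6 (nat_lit 334)))) (M (nat_lit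 364) (B (lo113_15_7 (nat_lit 396)) (lo113_14_7 (nat_lit 332)))))) (B (M (nat_lit 365) (B (M (nat_lit 492) (B (lo113_12_5 (nat_lit 524)) (lo113_11_5 (nat_lit 460)))) (M (nat_lit 364) (B (lo113_15_7 (nat_lit 396)) (lo113_14_7 (nat_lit 332)))))) (M (nat_lit 365) (B (M (nat_lit 366) (B (lo113_15_6 (nat_lit 398)) (lo113_14_6 (nat_lit 334)))) (M (nat_lit 492) (B (lo113_12_5 (nat_lit 524)) (lo113_11_5 (nat_lit 460)))))))))) (B (M (nat_lit 396) (B (lo113_16_7 (nat_lit 525)) (M (nat_lit 364) (B (lo112_11_4 (nat_lit 460)) (lo112_10_4 (nat_lit 332)))))) (K _ _ _ o1_s43348))))) (B (M (nat_lit 461) (B (K _ _ _ o1_s42150) (B (M (nat_lit 397) (B (M (nat_lit 365) (B (M (nat_lit 366) (B (lo113_15_6 (nat_lit 398)) (lo113_14_6 (nat_lit 334)))) (M (nat_lit 492) (B (lo113_12_5 (nat_lit 524)) (lo113_11_5 (nat_lit 460)))))) (B (M (nat_lit 365) (B (M (nat_lit 494) (B (lo113_12_4 (nat_lit 526)) (lo113_11_4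 (nat_lit 462)))) (M (nat_lit 492) (B (lo113_12_5 (nat_lit 524)) (lo113_11_5 (nat_lit 460)))))) (B (M (nat_lit 525) (B (M (nat_lit 526) (B (lo113_13_4 (nat_lit 558)) (lo113_12_4 (nat_lit 494)))) (M (nat_lit 524) (B (lo113_13_5 (nat_lit 556)) (lo113_12_5 (nat_lit 492)))))) (M (nat_lit 494) (B (lo113_12_4 (nat_lit 526)) (M (nat_lit 365) (B (lo113_11_4 (nat_lit 462)) (M (nat_lit 366) (B (lo113_15_6 (nat_lit 398)) (lo113_14_6 (nat_lit 334)))))))))))) (B (M (nat_lit 397) (B (M (nat_lit 365) (B (M (nat_lit 494) (B (lo113_12_4 (nat_lit 526)) (lo113_11_4 (nat_lit 462)))) (M (nat_lit 492) (B (lo113_12_5 (nat_lit 524)) (lo113_11_5 (nat_lit 460)))))) (B (M (nat_lit 365) (B (M (nat_lit 366) (B (lo113_15_6 (nat_lit 398)) (lo113_14_6 (nat_lit 334)))) (M (nat_lit 492) (B (lo113_12_5 (nat_lit 524)) (lo113_11_5 (nat_lit 460)))))) (B (M (nat_lit 460) (B (M (nat_lit 524) (B (lo113_12_5 (nat_lit 492))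 (M (nat_lit 525) (B (lo113_17_7 (nat_lit 557)) (lo113_13_5 (nat_lit 556)))))) (B (M (nat_lit 492) (B (lo113_12_5 (nat_lit 524)) (M (nat_lit 494) (B (lo113_12_4 (nat_lit 526)) (M (nat_lit 495) (B (lo116_15_3 (nat_lit 496)) (lo115_15_3 (nat_lit 459)))))))) (B (M (nat_lit 494) (B (lo113_12_4 (nat_lit 526)) (M (nat_lit 495) (B (lo116_15_3 (nat_lit 496)) (M (nat_lit 459) (B (lo111_14_0 (nat_lit 462)) (lo115_15_3 (nat_lit 492)))))))) (M (nat_lit 494) (B (lo113_12_4 (nat_lit 526)) (M (nat_lit 462) (B (M (nat_lit 495) (B (lo116_15_3 (nat_lit 496)) (lo111_14_0 (nat_lit 459)))) (M (nat_lit 463) (B (lo116_14_3 (nat_lit 464)) (lo115_14_3 (nat_lit 427)))))))))))) (M (nat_lit 494) (B (lo113_12_4 (nat_lit 526)) (M (nat_lit 365) (B (lo113_11_4 (nat_lit 462)) (M (nat_lit 366) (B (lo113_15_6 (nat_lit 398)) (lo113_14_6 (nat_lit 334)))))))))))) (B (K _ _ _ o1_s43412) (B (K _ _ _ o1_s43348) (B (M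 (nat_lit 492) (B (M (nat_lit 397) (B (lo113_12_5 (nat_lit 524)) (M (nat_lit 365) (B (lo113_11_5 (nat_lit 460)) (M (nat_lit 366) (B (lo113_15_6 (nat_lit 398)) (lo113_14_6 (nat_lit 334)))))))) (B (M (nat_lit 397) (B (lo113_12_5 (nat_lit 524)) (M (nat_lit 365) (B (lo113_11_5 (nat_lit 460)) (M (nat_lit 494) (B (lo113_12_4 (nat_lit 526)) (lo113_11_4 (nat_lit 462)))))))) (B (M (nat_lit 494) (B (M (nat_lit 495) (B (M (nat_lit 460) (B (lo116_15_3 (nat_lit 496)) (lo115_15_3 (nat_lit 459)))) (M (nat_lit 491) (B (M (nat_lit 527) (B (lo112_15_0 (nat_lit 528)) (lo111_15_0 (nat_lit 526)))) (M (nat_lit 523) (B (lo115_15_1 (nat_lit 524)) (lo114_15_1 (nat_lit 522)))))))) (B (M (nat_lit 495) (B (M (nat_lit 460) (B (lo116_15_3 (nat_lit 496)) (lo115_15_3 (nat_lit 459)))) (M (nat_lit 491) (B (M (nat_lit 463) (B (lo112_15_2 (nat_lit 464)) (lo111_15_2 (nat_lit 462)))) (M (nat_lit 523) (B (lo115_15_1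 (nat_lit 524)) (lo114_15_1 (nat_lit 522)))))))) (B (M (nat_lit 495) (B (M (nat_lit 460) (B (lo115_15_3 (nat_lit 459)) (M (nat_lit 524) (B (lo115_15_1 (nat_lit 523)) (lo112_17_6 (nat_lit 556)))))) (B (M (nat_lit 491) (B (M (nat_lit 527) (B (lo112_15_0 (nat_lit 528)) (lo111_15_0 (nat_lit 526)))) (M (nat_lit 523) (B (lo115_15_1 (nat_lit 524)) (lo114_15_1 (nat_lit 522)))))) (M (nat_lit 491) (B (M (nat_lit 527) (B (lo112_15_0 (nat_lit 528)) (lo111_15_0 (nat_lit 526)))) (M (nat_lit 463) (B (lo112_15_2 (nat_lit 464)) (lo111_15_2 (nat_lit 462))))))))) (B (M (nat_lit 462) (B (M (nat_lit 463) (B (lo116_14_1 (nat_lit 464)) (lo111_15_2 (nat_lit 491)))) (B (M (nat_lit 491) (B (lo111_15_2 (nat_lit 463)) (lo110_15_2 (nat_lit 490)))) (B (M (nat_lit 491) (B (lo110_15_2 (nat_lit 490)) (M (nat_lit 526) (B (lo111_15_0 (nat_lit 527)) (lo114_17_7 (nat_lit 558)))))) (M (nat_lit 463) (B (lo116_14_1 (nat_lit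 464)) (M (nat_lit 427) (B (lo115_14_3 (nat_lit 460)) (lo110_13_0 (nat_lit 426)))))))))) (B (M (nat_lit 491) (B (M (nat_lit 462) (B (lo111_15_2 (nat_lit 463)) (lo110_15_2 (nat_lit 490)))) (M (nat_lit 495) (B (M (nat_lit 527) (B (lo112_15_0 (nat_lit 528)) (lo111_15_0 (nat_lit 526)))) (M (nat_lit 523) (B (lo115_15_1 (nat_lit 524)) (lo114_15_1 (nat_lit 522)))))))) (M (nat_lit 495) (B (M (nat_lit 460) (B (lo116_15_3 (nat_lit 496)) (lo115_15_3 (nat_lit 459)))) (B (M (nat_lit 460) (B (lo115_15_3 (nat_lit 459)) (M (nat_lit 524) (B (lo115_15_1 (nat_lit 523)) (lo112_17_6 (nat_lit 556)))))) (M (nat_lit 496) (B (M (nat_lit 528) (B (lo113_15_0 (nat_lit 529)) (lo112_15_0 (nat_lit 527)))) (M (nat_lit 464) (B (lo113_15_2 (nat_lit 465)) (lo112_15_2 (nat_lit 463))))))))))))))) (B (K _ _ _ o1_s42884) (K _ _ _ o1_s43447)))))) (B (M (nat_lit 525) (B (M (nat_lit 557) (B (lo113_17_7 (nat_lit 460)) (M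 (nat_lit 556) (B (lo113_14_5 (nat_lit 588)) (lo113_13_5 (nat_lit 524)))))) (B (M (nat_lit 524) (B (lo113_13_5 (nat_lit 556)) (M (nat_lit 526) (B (lo113_13_4 (nat_lit 558)) (M (nat_lit 492) (B (M (nat_lit 491) (B (lo115_16_3 (nat_lit 527)) (lo110_15_0 (nat_lit 490)))) (M (nat_lit 523) (B (M (nat_lit 494) (B (lo111_16_2 (nat_lit 495)) (lo110_16_2 (nat_lit 522)))) (M (nat_lit 555) (B (lo114_16_1 (nat_lit 554)) (lo112_13_5 (nat_lit 460)))))))))))) (B (M (nat_lit 557) (B (lo113_17_7 (nat_lit 460)) (M (nat_lit 558) (B (lo113_14_4 (nat_lit 590)) (lo113_13_4 (nat_lit 526)))))) (M (nat_lit 557) (B (M (nat_lit 558) (B (lo113_14_4 (nat_lit 590)) (lo113_13_4 (nat_lit 526)))) (M (nat_lit 556) (B (lo113_14_5 (nat_lit 588)) (lo113_13_5 (nat_lit 524)))))))))) (B (M (nat_lit 492) (B (M (nat_lit 397) (B (lo113_12_5 (nat_lit 524)) (M (nat_lit 365) (B (lo113_11_5 (nat_lit 460)) (M (nat_lit 366) (B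 (lo113_15_6 (nat_lit 398)) (lo113_14_6 (nat_lit 334)))))))) (B (M (nat_lit 397) (B (lo113_12_5 (nat_lit 524)) (M (nat_lit 365) (B (lo113_11_5 (nat_lit 460)) (M (nat_lit 494) (B (lo113_12_4 (nat_lit 526)) (lo113_11_4 (nat_lit 462)))))))) (B (K _ _ _ o1_s43465) (B (M (nat_lit 494) (B (M (nat_lit 526) (B (lo113_12_4 (nat_lit 397)) (M (nat_lit 558) (B (lo114_18_7 (nat_lit 590)) (lo113_13_4 (nat_lit 525)))))) (B (M (nat_lit 526) (B (lo113_12_4 (nat_lit 397)) (M (nat_lit 558) (B (lo114_17_7 (nat_lit 462)) (lo113_13_4 (nat_lit 525)))))) (B (M (nat_lit 491) (B (M (nat_lit 462) (B (lo111_15_2 (nat_lit 463)) (lo110_15_2 (nat_lit 490)))) (B (M (nat_lit 490) (B (lo110_15_2 (nat_lit 462)) (M (nat_lit 526) (B (lo113_12_4 (nat_lit 397)) (lo110_15_0 (nat_lit 525)))))) (B (M (nat_lit 490) (B (M (nat_lit 526) (B (lo113_12_4 (nat_lit 397)) (lo110_15_0 (nat_lit 525)))) (M (nat_lit 458) (B (lo114_15_3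 (nat_lit 459)) (lo113_15_3 (nat_lit 457)))))) (M (nat_lit 495) (B (M (nat_lit 463) (B (lo112_15_2 (nat_lit 464)) (lo111_15_2 (nat_lit 462)))) (M (nat_lit 459) (B (lo115_15_3 (nat_lit 460)) (lo114_15_3 (nat_lit 458)))))))))) (M (nat_lit 491) (B (M (nat_lit 462) (B (lo111_15_2 (nat_lit 463)) (lo110_15_2 (nat_lit 490)))) (B (M (nat_lit 490) (B (lo110_15_2 (nat_lit 462)) (M (nat_lit 522) (B (lo114_15_1 (nat_lit 523)) (lo113_15_1 (nat_lit 521)))))) (B (M (nat_lit 490) (B (M (nat_lit 522) (B (lo114_15_1 (nat_lit 523)) (lo113_15_1 (nat_lit 521)))) (M (nat_lit 458) (B (lo114_15_3 (nat_lit 459)) (lo113_15_3 (nat_lit 457)))))) (M (nat_lit 495) (B (M (nat_lit 463) (B (lo112_15_2 (nat_lit 464)) (lo111_15_2 (nat_lit 462)))) (M (nat_lit 459) (B (lo115_15_3 (nat_lit 460)) (lo114_15_3 (nat_lit 458)))))))))))))) (K _ _ _ o1_s43447)))))) (B (K _ _ _ o1_s43334) (B (K _ _ _ o1_s42719) (K _ _ _ o1_s43056))))))))))))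 (B (M (nat_lit 461) (B (M (nat_lit 396) (B (lo113_16_7 (nat_lit 525)) (M (nat_lit 364) (B (lo112_11_4 (nat_lit 460)) (lo112_10_4 (nat_lit 332)))))) (B (M (nat_lit 397) (B (M (nat_lit 365) (B (M (nat_lit 366) (B (lo113_15_6 (nat_lit 398)) (lo113_14_6 (nat_lit 334)))) (M (nat_lit 492) (B (lo113_12_5 (nat_lit 524)) (lo113_11_5 (nat_lit 460)))))) (B (M (nat_lit 365) (B (M (nat_lit 492) (B (lo113_12_5 (nat_lit 524)) (lo113_11_5 (nat_lit 460)))) (M (nat_lit 364) (B (lo113_15_7 (nat_lit 396)) (lo113_14_7 (nat_lit 332)))))) (M (nat_lit 398) (B (lo113_15_6 (nat_lit 366)) (M (nat_lit 427) (B (lo110_13_2 (nat_lit 426)) (M (nat_lit 399) (B (lo116_12_1 (nat_lit 400)) (lo115_12_1 (nat_lit 396))))))))))) (B (M (nat_lit 396) (B (lo113_16_7 (nat_lit 525)) (M (nat_lit 364) (B (lo113_15_7 (nat_lit 397)) (lo112_10_4 (nat_lit 332)))))) (K _ _ _ o1_s43412))))) (B (M (nat_lit 461) (B (M (nat_lit 525)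 (B (lo113_16_7 (nat_lit 396)) (M (nat_lit 557) (B (lo113_17_7 (nat_lit 460)) (M (nat_lit 556) (B (lo113_14_5 (nat_lit 588)) (lo113_13_5 (nat_lit 524)))))))) (B (M (nat_lit 397) (B (M (nat_lit 524) (B (lo113_12_5 (nat_lit 492)) (M (nat_lit 525) (B (lo113_13_5 (nat_lit 556)) (lo113_16_7 (nat_lit 396)))))) (B (M (nat_lit 365) (B (M (nat_lit 494) (B (lo113_12_4 (nat_lit 526)) (lo113_11_4 (nat_lit 462)))) (M (nat_lit 492) (B (lo113_12_5 (nat_lit 524)) (lo113_11_5 (nat_lit 460)))))) (M (nat_lit 494) (B (lo113_12_4 (nat_lit 526)) (M (nat_lit 365) (B (lo113_11_4 (nat_lit 462)) (M (nat_lit 366) (B (lo113_15_6 (nat_lit 398)) (lo113_14_6 (nat_lit 334))))))))))) (B (M (nat_lit 397) (B (M (nat_lit 365) (B (M (nat_lit 366) (B (lo113_15_6 (nat_lit 398)) (lo113_14_6 (nat_lit 334)))) (M (nat_lit 492) (B (lo113_12_5 (nat_lit 524)) (lo113_11_5 (nat_lit 460)))))) (B (M (nat_lit 365) (B (M (nat_lit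 494) (B (lo113_12_4 (nat_lit 526)) (lo113_11_4 (nat_lit 462)))) (M (nat_lit 492) (B (lo113_12_5 (nat_lit 524)) (lo113_11_5 (nat_lit 460)))))) (M (nat_lit 398) (B (lo113_15_6 (nat_lit 366)) (M (nat_lit 427) (B (lo110_13_2 (nat_lit 426)) (M (nat_lit 399) (B (lo116_12_1 (nat_lit 400)) (lo115_12_1 (nat_lit 396))))))))))) (B (M (nat_lit 525) (B (lo113_16_7 (nat_lit 396)) (M (nat_lit 557) (B (lo113_17_7 (nat_lit 460)) (M (nat_lit 558) (B (lo113_14_4 (nat_lit 590)) (lo113_13_4 (nat_lit 526)))))))) (B (K _ _ _ o1_s43012) (K _ _ _ o1_s42150))))))) (B (M (nat_lit 461) (B (M (nat_lit 396) (B (lo113_16_7 (nat_lit 525)) (M (nat_lit 364) (B (lo113_15_7 (nat_lit 397)) (lo112_10_4 (nat_lit 332)))))) (B (K _ _ _ o1_s42693) (B (M (nat_lit 396) (B (lo113_16_7 (nat_lit 525)) (M (nat_lit 364) (B (lo112_11_4 (nat_lit 460)) (lo112_10_4 (nat_lit 332)))))) (M (nat_lit 397) (B (M (nat_lit 525) (B (M (nat_lit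 526) (B (lo113_13_4 (nat_lit 558)) (lo113_12_4 (nat_lit 494)))) (M (nat_lit 524) (B (lo113_13_5 (nat_lit 556)) (lo113_12_5 (nat_lit 492)))))) (B (M (nat_lit 365) (B (M (nat_lit 494) (B (lo113_12_4 (nat_lit 526)) (lo113_11_4 (nat_lit 462)))) (M (nat_lit 492) (B (lo113_12_5 (nat_lit 524)) (lo113_11_5 (nat_lit 460)))))) (B (M (nat_lit 365) (B (M (nat_lit 366) (B (lo113_15_6 (nat_lit 398)) (lo113_14_6 (nat_lit 334)))) (M (nat_lit 492) (B (lo113_12_5 (nat_lit 524)) (lo113_11_5 (nat_lit 460)))))) (B (M (nat_lit 365) (B (M (nat_lit 494) (B (lo113_12_4 (nat_lit 526)) (lo113_11_4 (nat_lit 462)))) (M (nat_lit 460) (B (lo113_11_5 (nat_lit 492)) (lo113_10_5 (nat_lit 333)))))) (M (nat_lit 494) (B (lo113_12_4 (nat_lit 526)) (M (nat_lit 365) (B (lo113_11_4 (nat_lit 462)) (M (nat_lit 366) (B (lo113_15_6 (nat_lit 398)) (lo113_14_6 (nat_lit 334))))))))))))))))) (B (M (nat_lit 461) (B (M (nat_lit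 396) (B (lo113_16_7 (nat_lit 525)) (M (nat_lit 364) (B (lo112_11_4 (nat_lit 460)) (lo112_10_4 (nat_lit 332)))))) (B (K _ _ _ o1_s42693) (B (M (nat_lit 396) (B (lo113_16_7 (nat_lit 525)) (M (nat_lit 364) (B (lo113_15_7 (nat_lit 397)) (lo112_10_4 (nat_lit 332)))))) (M (nat_lit 397) (B (M (nat_lit 365) (B (M (nat_lit 366) (B (lo113_15_6 (nat_lit 398)) (lo113_14_6 (nat_lit 334)))) (M (nat_lit 492) (B (lo113_12_5 (nat_lit 524)) (lo113_11_5 (nat_lit 460)))))) (B (M (nat_lit 365) (B (M (nat_lit 494) (B (lo113_12_4 (nat_lit 526)) (lo113_11_4 (nat_lit 462)))) (M (nat_lit 492) (B (lo113_12_5 (nat_lit 524)) (lo113_11_5 (nat_lit 460)))))) (B (M (nat_lit 460) (B (M (nat_lit 524) (B (lo113_12_5 (nat_lit 492)) (M (nat_lit 525) (B (lo113_17_7 (nat_lit 557)) (lo113_13_5 (nat_lit 556)))))) (B (M (nat_lit 492) (B (lo113_12_5 (nat_lit 524)) (M (nat_lit 494) (B (lo113_12_4 (nat_lit 526)) (M (nat_lit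 495) (B (lo116_15_3 (nat_lit 496)) (lo115_15_3 (nat_lit 459)))))))) (B (M (nat_lit 494) (B (lo113_12_4 (nat_lit 526)) (M (nat_lit 495) (B (lo116_15_3 (nat_lit 496)) (M (nat_lit 459) (B (lo111_14_0 (nat_lit 462)) (lo115_15_3 (nat_lit 492)))))))) (M (nat_lit 494) (B (lo113_12_4 (nat_lit 526)) (M (nat_lit 462) (B (M (nat_lit 495) (B (lo116_15_3 (nat_lit 496)) (lo111_14_0 (nat_lit 459)))) (M (nat_lit 427) (B (lo115_14_3 (nat_lit 463)) (lo110_13_0 (nat_lit 426)))))))))))) (B (M (nat_lit 365) (B (M (nat_lit 494) (B (lo113_12_4 (nat_lit 526)) (lo113_11_4 (nat_lit 462)))) (M (nat_lit 460) (B (lo113_11_5 (nat_lit 492)) (lo113_10_5 (nat_lit 333)))))) (M (nat_lit 494) (B (lo113_12_4 (nat_lit 526)) (M (nat_lit 365) (B (lo113_11_4 (nat_lit 462)) (M (nat_lit 366) (B (lo113_15_6 (nat_lit 398)) (lo113_14_6 (nat_lit 334))))))))))))))))) (B (M (nat_lit 461) (B (M (nat_lit 396) (B (lo113_16_7 (nat_lit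 525)) (M (nat_lit 364) (B (lo113_15_7 (nat_lit 397)) (lo112_10_4 (nat_lit 332)))))) (B (K _ _ _ o1_s42693) (B (M (nat_lit 396) (B (lo113_16_7 (nat_lit 525)) (M (nat_lit 364) (B (lo112_11_4 (nat_lit 460)) (lo112_10_4 (nat_lit 332)))))) (M (nat_lit 492) (B (M (nat_lit 397) (B (lo113_12_5 (nat_lit 524)) (M (nat_lit 365) (B (lo113_11_5 (nat_lit 460)) (M (nat_lit 366) (B (lo113_15_6 (nat_lit 398)) (lo113_14_6 (nat_lit 334)))))))) (B (M (nat_lit 397) (B (lo113_12_5 (nat_lit 524)) (M (nat_lit 365) (B (lo113_11_5 (nat_lit 460)) (M (nat_lit 494) (B (lo113_12_4 (nat_lit 526)) (lo113_11_4 (nat_lit 462)))))))) (B (K _ _ _ o1_s43465) (B (M (nat_lit 494) (B (M (nat_lit 526) (B (lo113_12_4 (nat_lit 397)) (M (nat_lit 558) (B (lo114_18_7 (nat_lit 590)) (lo113_13_4 (nat_lit 525)))))) (B (M (nat_lit 526) (B (lo113_12_4 (nat_lit 397)) (M (nat_lit 558) (B (lo114_17_7 (nat_lit 462)) (lo113_13_4 (nat_lit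 525)))))) (M (nat_lit 463) (B (M (nat_lit 464) (B (lo112_15_2 (nat_lit 495)) (lo116_14_1 (nat_lit 462)))) (B (M (nat_lit 460) (B (M (nat_lit 495) (B (lo116_15_3 (nat_lit 496)) (lo115_15_3 (nat_lit 459)))) (M (nat_lit 462) (B (lo111_15_2 (nat_lit 491)) (lo115_14_3 (nat_lit 427)))))) (B (M (nat_lit 462) (B (lo116_14_1 (nat_lit 464)) (lo111_15_2 (nat_lit 491)))) (M (nat_lit 495) (B (lo112_15_2 (nat_lit 464)) (M (nat_lit 460) (B (lo116_15_3 (nat_lit 496)) (lo115_15_3 (nat_lit 459))))))))))))) (K _ _ _ o1_s43447)))))))))) (M (nat_lit 492) (B (M (nat_lit 460) (B (M (nat_lit 525) (B (lo112_12_4 (nat_lit 396)) (M (nat_lit 524) (B (lo112_13_4 (nat_lit 557)) (lo112_16_6 (nat_lit 397)))))) (B (M (nat_lit 397) (B (lo112_16_6 (nat_lit 524)) (M (nat_lit 365) (B (lo113_10_5 (nat_lit 333)) (lo112_15_6 (nat_lit 396)))))) (B (M (nat_lit 525) (B (lo112_12_4 (nat_lit 396)) (M (nat_lit 557) (B (lo113_18_7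 (nat_lit 589)) (lo112_13_4 (nat_lit 524)))))) (B (M (nat_lit 525) (B (lo112_12_4 (nat_lit 396)) (M (nat_lit 557) (B (lo113_18_7 (nat_lit 589)) (lo113_17_7 (nat_lit 461)))))) (M (nat_lit 397) (B (lo112_16_6 (nat_lit 524)) (M (nat_lit 365) (B (lo113_11_5 (nat_lit 461)) (lo113_10_5 (nat_lit 333))))))))))) (B (M (nat_lit 461) (B (M (nat_lit 396) (B (lo113_16_7 (nat_lit 525)) (M (nat_lit 397) (B (lo113_12_5 (nat_lit 524)) (lo113_15_7 (nat_lit 364)))))) (B (M (nat_lit 524) (B (lo113_12_5 (nat_lit 397)) (M (nat_lit 556) (B (lo112_18_6 (nat_lit 588)) (lo112_17_6 (nat_lit 460)))))) (M (nat_lit 396) (B (lo113_16_7 (nat_lit 525)) (M (nat_lit 364) (B (lo112_11_4 (nat_lit 460)) (lo112_10_4 (nat_lit 332))))))))) (B (K _ _ _ o1_s42731) (B (K _ _ _ o1_s42160) (B (K _ _ _ o1_s43066) (B (M (nat_lit 396) (B (M (nat_lit 525) (B (lo113_16_7 (nat_lit 461)) (lo112_12_4 (nat_lit 460)))) (B (M (nat_lit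 364) (B (M (nat_lit 461) (B (lo113_15_7 (nat_lit 397)) (lo112_11_4 (nat_lit 460)))) (B (M (nat_lit 460) (B (M (nat_lit 365) (B (lo112_15_6 (nat_lit 397)) (lo112_14_6 (nat_lit 333)))) (M (nat_lit 491) (B (lo112_12_5 (nat_lit 523)) (lo112_11_5 (nat_lit 459)))))) (B (M (nat_lit 461) (B (lo112_11_4 (nat_lit 460)) (lo112_10_4 (nat_lit 332)))) (M (nat_lit 461) (B (lo113_15_7 (nat_lit 397)) (lo112_10_4 (nat_lit 332)))))))) (B (M (nat_lit 460) (B (lo112_12_4 (nat_lit 525)) (M (nat_lit 364) (B (M (nat_lit 365) (B (lo112_15_6 (nat_lit 397)) (lo112_14_6 (nat_lit 333)))) (M (nat_lit 491) (B (lo112_12_5 (nat_lit 523)) (lo112_11_5 (nat_lit 459)))))))) (M (nat_lit 461) (B (lo113_16_7 (nat_lit 525)) (M (nat_lit 364) (B (lo113_15_7 (nat_lit 397)) (lo112_10_4 (nat_lit 332)))))))))) (B (M (nat_lit 526) (B (M (nat_lit 461) (B (M (nat_lit 525) (B (lo113_13_4 (nat_lit 558)) (lo113_16_7 (nat_lit 396))))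 (M (nat_lit 397) (B (lo113_12_4 (nat_lit 494)) (lo113_12_5 (nat_lit 524)))))) (B (M (nat_lit 527) (B (M (nat_lit 491) (B (lo111_15_0 (nat_lit 494)) (M (nat_lit 525) (B (lo116_16_3 (nat_lit 528)) (lo115_16_3 (nat_lit 524)))))) (B (M (nat_lit 491) (B (lo111_15_0 (nat_lit 494)) (M (nat_lit 525) (B (lo115_16_3 (nat_lit 524)) (lo110_15_0 (nat_lit 490)))))) (B (M (nat_lit 525) (B (lo116_16_3 (nat_lit 528)) (M (nat_lit 491) (B (lo115_16_3 (nat_lit 524)) (lo110_15_0 (nat_lit 490)))))) (B (M (nat_lit 494) (B (lo111_15_0 (nat_lit 491)) (M (nat_lit 528) (B (lo117_16_3 (nat_lit 529)) (lo112_15_0 (nat_lit 495)))))) (M (nat_lit 528) (B (lo116_16_3 (nat_lit 525)) (M (nat_lit 494) (B (lo117_16_3 (nat_lit 529)) (lo112_15_0 (nat_lit 495))))))))))) (B (M (nat_lit 525) (B (M (nat_lit 461) (B (lo113_13_4 (nat_lit 558)) (lo113_16_7 (nat_lit 396)))) (M (nat_lit 527) (B (lo116_16_3 (nat_lit 528)) (M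 (nat_lit 491) (B (lo115_16_3 (nat_lit 524)) (lo110_15_0 (nat_lit 490)))))))) (M (nat_lit 494) (B (M (nat_lit 527) (B (lo111_15_0 (nat_lit 491)) (M (nat_lit 528) (B (lo117_16_3 (nat_lit 529)) (lo112_15_0 (nat_lit 495)))))) (M (nat_lit 461) (B (lo113_12_4 (nat_lit 397)) (M (nat_lit 558) (B (lo114_18_7 (nat_lit 590)) (lo114_17_7 (nat_lit 462)))))))))))) (M (nat_lit 524) (B (M (nat_lit 397) (B (lo113_12_5 (nat_lit 461)) (lo112_16_6 (nat_lit 460)))) (B (K _ _ _ o1_s42629) (B (M (nat_lit 556) (B (M (nat_lit 461) (B (lo113_13_5 (nat_lit 525)) (lo112_18_6 (nat_lit 588)))) (B (M (nat_lit 461) (B (lo112_18_6 (nat_lit 588)) (lo112_17_6 (nat_lit 460)))) (M (nat_lit 460) (B (M (nat_lit 557) (B (lo112_14_4 (nat_lit 589)) (lo112_13_4 (nat_lit 525)))) (M (nat_lit 555) (B (lo112_14_5 (nat_lit 587)) (lo112_13_5 (nat_lit 523))))))))) (M (nat_lit 461) (B (lo113_12_5 (nat_lit 397)) (M (nat_lit 556)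 (B (lo113_13_5 (nat_lit 525)) (lo112_18_6 (nat_lit 588))))))))))))))))))))))))))))))))) _ _ _ (by decide +kernel)
theorem o1_s43644 : Sem (nat_lit 2079502270590611144796540682080456772516022875177750608691892447808565334648169183913526837783605888859300960143521576617263497216) (nat_lit 109836762587663119572830415388924753458683349195419165680322187537772404633621046132438337984867739484766768627471818002293717861123349036207075168684244729856) (nat_lit 109836762587663119572830415388924753458683349195419165680322187537772404633621046132438337984867739484766768627471818002293717861123349036207075168684244729856) := sem_of_chk (M (nat_lit 396) (B (M (nat_lit 461) (B (lo112_10_4 (nat_lit 332)) (M (nat_lit 493) (B (lo113_16_7 (nat_lit 525)) (lo112_11_4 (nat_lit 460)))))) (B (M (nat_lit 363) (B (M (nat_lit 331) (B (lo112_14_7 (nat_lit 460)) (M (nat_lit 299) (B (lo112_13_7 (nat_lit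 332)) (lo111_8_4 (nat_lit 267)))))) (B (M (nat_lit 331) (B (lo112_14_7 (nat_lit 460)) (M (nat_lit 299) (B (lo111_8_4 (nat_lit 267)) (lo111_9_4 (nat_lit 395)))))) (B (K _ _ _ o1_s43626) (B (M (nat_lit 366) (B (M (nat_lit 331) (B (lo114_11_3 (nat_lit 330)) (lo112_14_7 (nat_lit 460)))) (M (nat_lit 395) (B (lo115_11_1 (nat_lit 367)) (lo114_11_1 (nat_lit 394)))))) (K _ _ _ o1_s43630)))))) (B (M (nat_lit 363) (B (M (nat_lit 331) (B (lo112_14_7 (nat_lit 460)) (M (nat_lit 299) (B (lo111_8_4 (nat_lit 267)) (lo111_9_4 (nat_lit 395)))))) (B (K _ _ _ o1_s43635) (B (M (nat_lit 366) (B (M (nat_lit 331) (B (lo114_11_3 (nat_lit 330)) (lo112_14_7 (nat_lit 460)))) (M (nat_lit 395) (B (lo115_11_1 (nat_lit 367)) (lo114_11_1 (nat_lit 394)))))) (B (K _ _ _ o1_s43630) (M (nat_lit 331) (B (lo112_14_7 (nat_lit 460)) (M (nat_lit 330) (B (lo114_11_3 (nat_lit 366)) (M (nat_lit 329) (B (lo113_11_3 (nat_lit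 362)) (lo18_10_0 (nat_lit 328))))))))))))) (K _ _ _ o1_s43643))))) _ _ _ (by decide +kernel)
theorem o1_s46802 : Sem (nat_lit 2079502270590611144683810638107312777577327806531862431377859685460965980854219217279980804578104683573043408221052678871730618368) (nat_lit 147420407597155330773908068906102573608486791136868313590956474912993028094570737929611023736698573871905859620189812451933368783164909025488357543041933956963528343552) (nat_lit 147420407597155330773908068906102573608486791136868313590956474912993028094570737929611023736698573871905859620189812451933368783164909025488357543041933956963528343552) := sem_of_chk (M (nat_lit 396) (B (M (nat_lit 364) (B (M (nat_lit 461) (B (lo112_10_4 (nat_lit 332)) (M (nat_lit 493) (B (lo112_11_4 (nat_lit 460)) (lo113_16_7 (nat_lit 525)))))) (B (M (nat_lit 365) (B (M (nat_lit 333) (B (lo112_14_6 (nat_lit 460)) (M (nat_lit 301) (B (lo113_8_5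 (nat_lit 269)) (lo113_9_5 (nat_lit 397)))))) (B (M (nat_lit 366) (B (M (nat_lit 395) (B (lo115_11_1 (nat_lit 367)) (M (nat_lit 394) (B (lo19_12_2 (nat_lit 393)) (lo110_12_2 (nat_lit 397)))))) (B (M (nat_lit 395) (B (lo115_11_1 (nat_lit 367)) (M (nat_lit 394) (B (lo114_11_1 (nat_lit 363)) (lo110_12_2 (nat_lit 397)))))) (B (M (nat_lit 397) (B (M (nat_lit 367) (B (lo115_11_1 (nat_lit 395)) (lo116_11_1 (nat_lit 368)))) (M (nat_lit 461) (B (lo113_15_7 (nat_lit 493)) (lo113_14_6 (nat_lit 334)))))) (B (K _ _ _ o1_s29103) (B (M (nat_lit 395) (B (lo115_11_1 (nat_lit 367)) (M (nat_lit 394) (B (lo19_12_2 (nat_lit 393)) (lo114_11_1 (nat_lit 363)))))) (M (nat_lit 363) (B (M (nat_lit 395) (B (lo114_11_1 (nat_lit 394)) (M (nat_lit 331) (B (lo114_11_3 (nat_lit 330)) (lo111_9_4 (nat_lit 299)))))) (M (nat_lit 397) (B (M (nat_lit 362) (B (lo19_11_0 (nat_lit 361)) (lo110_11_0 (nat_lit 398)))) (M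 (nat_lit 334) (B (lo111_11_2 (nat_lit 335)) (lo113_14_6 (nat_lit 461)))))))))))))) (K _ _ _ o1_s44801)))) (B (M (nat_lit 461) (B (lo112_10_4 (nat_lit 332)) (M (nat_lit 493) (B (lo113_15_7 (nat_lit 397)) (lo113_16_7 (nat_lit 525)))))) (K _ _ _ o1_s28837))))) (B (M (nat_lit 397) (B (M (nat_lit 364) (B (M (nat_lit 332) (B (lo112_9_4 (nat_lit 300)) (lo112_10_4 (nat_lit 461)))) (B (M (nat_lit 461) (B (lo112_10_4 (nat_lit 332)) (lo113_15_7 (nat_lit 493)))) (B (K _ _ _ o1_s44817) (M (nat_lit 427) (B (M (nat_lit 426) (B (lo19_13_2 (nat_lit 425)) (lo110_13_2 (nat_lit 398)))) (M (nat_lit 332) (B (lo112_10_5 (nat_lit 459)) (lo112_9_4 (nat_lit 300)))))))))) (B (M (nat_lit 364) (B (M (nat_lit 332) (B (lo112_9_4 (nat_lit 300)) (lo112_10_4 (nat_lit 461)))) (B (M (nat_lit 461) (B (lo112_10_4 (nat_lit 332)) (lo113_15_7 (nat_lit 493)))) (B (K _ _ _ o1_s44817) (M (nat_lit 427) (B (M (nat_lit 332)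 (B (lo112_10_5 (nat_lit 459)) (lo112_9_4 (nat_lit 300)))) (M (nat_lit 398) (B (lo110_13_2 (nat_lit 426)) (lo115_12_1 (nat_lit 399)))))))))) (B (M (nat_lit 364) (B (M (nat_lit 332) (B (lo112_9_4 (nat_lit 300)) (lo112_10_4 (nat_lit 461)))) (B (M (nat_lit 461) (B (lo112_10_4 (nat_lit 332)) (lo113_15_7 (nat_lit 493)))) (K _ _ _ o1_s44828)))) (B (K _ _ _ o1_s44855) (B (M (nat_lit 398) (B (M (nat_lit 399) (B (lo115_12_1 (nat_lit 427)) (lo116_12_1 (nat_lit 400)))) (M (nat_lit 365) (B (M (nat_lit 333) (B (lo113_9_5 (nat_lit 301)) (lo113_10_5 (nat_lit 460)))) (M (nat_lit 366) (B (M (nat_lit 395) (B (lo110_12_2 (nat_lit 394)) (lo111_12_2 (nat_lit 367)))) (M (nat_lit 461) (B (lo113_14_6 (nat_lit 334)) (lo113_15_6 (nat_lit 493)))))))))) (B (K _ _ _ o1_s44893) (B (M (nat_lit 398) (B (M (nat_lit 427) (B (lo110_13_2 (nat_lit 426)) (lo115_12_1 (nat_lit 399)))) (B (M (nat_lit 399) (B (lo115_12_1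 (nat_lit 427)) (lo116_12_1 (nat_lit 400)))) (B (M (nat_lit 364) (B (M (nat_lit 399) (B (lo115_12_3 (nat_lit 363)) (lo116_12_1 (nat_lit 400)))) (M (nat_lit 461) (B (lo112_10_4 (nat_lit 332)) (lo113_15_7 (nat_lit 493)))))) (M (nat_lit 364) (B (M (nat_lit 332) (B (lo112_9_4 (nat_lit 300)) (lo112_10_4 (nat_lit 461)))) (B (M (nat_lit 461) (B (lo112_10_4 (nat_lit 332)) (lo113_15_7 (nat_lit 493)))) (K _ _ _ o1_s44907)))))))) (B (M (nat_lit 364) (B (M (nat_lit 427) (B (M (nat_lit 426) (B (lo19_13_2 (nat_lit 425)) (lo110_13_2 (nat_lit 398)))) (M (nat_lit 332) (B (lo112_10_5 (nat_lit 459)) (lo112_9_4 (nat_lit 300)))))) (B (M (nat_lit 427) (B (M (nat_lit 332) (B (lo112_10_5 (nat_lit 459)) (lo112_9_4 (nat_lit 300)))) (M (nat_lit 398) (B (lo110_13_2 (nat_lit 426)) (lo115_12_1 (nat_lit 399)))))) (B (K _ _ _ o1_s44917) (K _ _ _ o1_s44828))))) (M (nat_lit 364) (B (M (nat_lit 332) (B (lo112_9_4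 (nat_lit 300)) (lo112_10_4 (nat_lit 461)))) (B (M (nat_lit 461) (B (lo112_10_4 (nat_lit 332)) (lo113_15_7 (nat_lit 493)))) (B (K _ _ _ o1_s44817) (K _ _ _ o1_s44917)))))))))))))) (B (M (nat_lit 364) (B (M (nat_lit 461) (B (lo112_10_4 (nat_lit 332)) (M (nat_lit 493) (B (lo113_15_7 (nat_lit 397)) (lo113_16_7 (nat_lit 525)))))) (B (M (nat_lit 365) (B (M (nat_lit 333) (B (lo112_14_6 (nat_lit 460)) (M (nat_lit 301) (B (lo113_8_5 (nat_lit 269)) (lo113_9_5 (nat_lit 397)))))) (B (M (nat_lit 366) (B (M (nat_lit 395) (B (lo115_11_1 (nat_lit 367)) (M (nat_lit 394) (B (lo19_12_2 (nat_lit 393)) (lo114_11_1 (nat_lit 363)))))) (B (M (nat_lit 395) (B (lo115_11_1 (nat_lit 367)) (M (nat_lit 394) (B (lo114_11_1 (nat_lit 363)) (lo110_12_2 (nat_lit 397)))))) (B (M (nat_lit 397) (B (M (nat_lit 367) (B (lo115_11_1 (nat_lit 395)) (lo116_11_1 (nat_lit 368)))) (M (nat_lit 461) (B (lo113_15_7 (nat_lit 493))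 (lo113_14_6 (nat_lit 334)))))) (B (K _ _ _ o1_s29103) (K _ _ _ o1_s44924)))))) (K _ _ _ o1_s44801)))) (B (M (nat_lit 461) (B (lo112_10_4 (nat_lit 332)) (M (nat_lit 493) (B (lo112_11_4 (nat_lit 460)) (lo113_16_7 (nat_lit 525)))))) (K _ _ _ o1_s28837))))) (B (M (nat_lit 364) (B (M (nat_lit 461) (B (lo112_10_4 (nat_lit 332)) (M (nat_lit 493) (B (lo112_11_4 (nat_lit 460)) (lo113_16_7 (nat_lit 525)))))) (B (M (nat_lit 365) (B (M (nat_lit 333) (B (lo112_14_6 (nat_lit 460)) (M (nat_lit 301) (B (lo113_8_5 (nat_lit 269)) (lo113_9_5 (nat_lit 397)))))) (B (M (nat_lit 366) (B (M (nat_lit 395) (B (lo115_11_1 (nat_lit 367)) (M (nat_lit 394) (B (lo114_11_1 (nat_lit 363)) (lo110_12_2 (nat_lit 397)))))) (B (M (nat_lit 397) (B (M (nat_lit 367) (B (lo115_11_1 (nat_lit 395)) (lo116_11_1 (nat_lit 368)))) (M (nat_lit 461) (B (lo113_15_7 (nat_lit 493)) (lo113_14_6 (nat_lit 334)))))) (B (K _ _ _ o1_s29103)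 (B (M (nat_lit 395) (B (lo115_11_1 (nat_lit 367)) (M (nat_lit 363) (B (lo114_11_1 (nat_lit 394)) (M (nat_lit 331) (B (lo114_11_3 (nat_lit 330)) (lo111_9_4 (nat_lit 299)))))))) (K _ _ _ o1_s44924)))))) (K _ _ _ o1_s44801)))) (B (M (nat_lit 461) (B (lo112_10_4 (nat_lit 332)) (M (nat_lit 493) (B (lo113_15_7 (nat_lit 397)) (lo113_16_7 (nat_lit 525)))))) (K _ _ _ o1_s28837))))) (B (M (nat_lit 395) (B (M (nat_lit 364) (B (M (nat_lit 332) (B (lo112_10_4 (nat_lit 461)) (M (nat_lit 427) (B (lo112_9_5 (nat_lit 300)) (lo112_10_5 (nat_lit 459)))))) (B (M (nat_lit 332) (B (lo112_10_4 (nat_lit 461)) (M (nat_lit 300) (B (lo112_9_4 (nat_lit 397)) (M (nat_lit 301) (B (lo112_12_6 (nat_lit 269)) (lo112_13_6 (nat_lit 333)))))))) (K _ _ _ o1_s44952)))) (B (M (nat_lit 364) (B (M (nat_lit 332) (B (lo112_10_4 (nat_lit 461)) (M (nat_lit 427) (B (lo112_9_5 (nat_lit 300)) (lo112_10_5 (nat_lit 459))))))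 (B (M (nat_lit 332) (B (lo112_10_4 (nat_lit 461)) (M (nat_lit 300) (B (lo112_9_4 (nat_lit 397)) (M (nat_lit 301) (B (lo112_12_6 (nat_lit 269)) (lo112_13_6 (nat_lit 333)))))))) (B (M (nat_lit 332) (B (lo112_10_4 (nat_lit 461)) (M (nat_lit 460) (B (M (nat_lit 331) (B (lo112_13_7 (nat_lit 299)) (lo112_14_7 (nat_lit 363)))) (M (nat_lit 333) (B (lo112_13_6 (nat_lit 301)) (lo112_14_6 (nat_lit 365)))))))) (M (nat_lit 365) (B (M (nat_lit 333) (B (lo112_14_6 (nat_lit 460)) (M (nat_lit 301) (B (lo113_8_5 (nat_lit 269)) (lo113_9_5 (nat_lit 397)))))) (B (M (nat_lit 366) (B (lo115_11_1 (nat_lit 367)) (M (nat_lit 394) (B (lo114_11_1 (nat_lit 363)) (lo110_12_2 (nat_lit 397)))))) (M (nat_lit 363) (B (M (nat_lit 366) (B (lo114_11_1 (nat_lit 394)) (lo115_11_1 (nat_lit 367)))) (M (nat_lit 331) (B (lo111_9_4 (nat_lit 299)) (lo112_14_7 (nat_lit 460))))))))))))) (B (M (nat_lit 427) (B (M (nat_lit 426)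 (B (M (nat_lit 425) (B (lo18_13_2 (nat_lit 424)) (lo19_13_2 (nat_lit 397)))) (B (M (nat_lit 397) (B (lo19_13_2 (nat_lit 425)) (lo114_12_1 (nat_lit 398)))) (B (M (nat_lit 397) (B (lo114_12_1 (nat_lit 398)) (M (nat_lit 461) (B (lo110_13_0 (nat_lit 462)) (M (nat_lit 364) (B (lo112_10_4 (nat_lit 332)) (lo113_15_7 (nat_lit 493)))))))) (M (nat_lit 425) (B (lo18_13_2 (nat_lit 424)) (M (nat_lit 461) (B (lo19_13_0 (nat_lit 460)) (lo110_13_0 (nat_lit 462)))))))))) (B (M (nat_lit 426) (B (M (nat_lit 397) (B (lo19_13_2 (nat_lit 425)) (lo114_12_1 (nat_lit 398)))) (B (M (nat_lit 397) (B (lo114_12_1 (nat_lit 398)) (M (nat_lit 461) (B (lo110_13_0 (nat_lit 462)) (M (nat_lit 364) (B (lo112_10_4 (nat_lit 332)) (lo113_15_7 (nat_lit 493)))))))) (M (nat_lit 425) (B (M (nat_lit 457) (B (lo112_13_1 (nat_lit 456)) (lo113_13_1 (nat_lit 458)))) (M (nat_lit 461) (B (lo19_13_0 (nat_lit 460)) (lo110_13_0 (nat_lit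 462))))))))) (B (M (nat_lit 364) (B (M (nat_lit 459) (B (lo111_15_6 (nat_lit 491)) (lo112_10_5 (nat_lit 332)))) (B (M (nat_lit 332) (B (lo112_9_5 (nat_lit 300)) (lo112_10_4 (nat_lit 461)))) (M (nat_lit 458) (B (M (nat_lit 459) (B (lo111_15_6 (nat_lit 491)) (M (nat_lit 457) (B (lo18_14_2 (nat_lit 456)) (lo113_13_1 (nat_lit 426)))))) (B (M (nat_lit 459) (B (lo111_15_6 (nat_lit 491)) (M (nat_lit 457) (B (lo113_13_1 (nat_lit 426)) (lo19_14_2 (nat_lit 460)))))) (B (M (nat_lit 363) (B (M (nat_lit 459) (B (lo111_11_5 (nat_lit 490)) (lo111_15_6 (nat_lit 491)))) (M (nat_lit 331) (B (lo111_10_5 (nat_lit 426)) (lo111_10_4 (nat_lit 460)))))) (B (M (nat_lit 459) (B (lo111_15_6 (nat_lit 491)) (M (nat_lit 457) (B (lo18_14_2 (nat_lit 456)) (lo19_14_2 (nat_lit 460)))))) (M (nat_lit 461) (B (M (nat_lit 426) (B (lo113_13_1 (nat_lit 457)) (lo110_13_0 (nat_lit 462)))) (M (nat_lit 493) (B (lo112_11_4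 (nat_lit 460)) (lo113_15_7 (nat_lit 397)))))))))))))) (B (K _ _ _ o1_s45027) (M (nat_lit 426) (B (M (nat_lit 425) (B (lo18_13_2 (nat_lit 424)) (lo19_13_2 (nat_lit 397)))) (M (nat_lit 458) (B (lo113_13_1 (nat_lit 457)) (M (nat_lit 490) (B (lo110_16_6 (nat_lit 522)) (M (nat_lit 363) (B (lo111_10_5 (nat_lit 331)) (lo111_11_5 (nat_lit 459))))))))))))))) (B (M (nat_lit 397) (B (M (nat_lit 394) (B (lo19_12_0 (nat_lit 393)) (M (nat_lit 365) (B (lo110_12_2 (nat_lit 366)) (M (nat_lit 333) (B (lo113_9_5 (nat_lit 301)) (lo113_10_5 (nat_lit 460)))))))) (B (M (nat_lit 364) (B (M (nat_lit 332) (B (lo112_9_4 (nat_lit 300)) (lo112_10_4 (nat_lit 461)))) (M (nat_lit 365) (B (M (nat_lit 366) (B (lo110_12_2 (nat_lit 394)) (lo115_11_1 (nat_lit 367)))) (M (nat_lit 333) (B (lo112_14_6 (nat_lit 460)) (lo113_9_5 (nat_lit 301)))))))) (B (M (nat_lit 364) (B (M (nat_lit 332) (B (lo112_9_4 (nat_lit 300))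 (lo112_10_4 (nat_lit 461)))) (B (M (nat_lit 461) (B (lo112_10_4 (nat_lit 332)) (lo113_15_7 (nat_lit 493)))) (B (M (nat_lit 365) (B (M (nat_lit 333) (B (lo112_14_6 (nat_lit 460)) (lo113_9_5 (nat_lit 301)))) (M (nat_lit 461) (B (lo113_15_7 (nat_lit 493)) (M (nat_lit 366) (B (lo115_11_1 (nat_lit 367)) (lo113_14_6 (nat_lit 334)))))))) (M (nat_lit 427) (B (M (nat_lit 426) (B (lo19_13_2 (nat_lit 425)) (lo114_12_1 (nat_lit 398)))) (M (nat_lit 332) (B (lo112_9_5 (nat_lit 300)) (lo112_10_5 (nat_lit 459)))))))))) (K _ _ _ o1_s45078))))) (B (M (nat_lit 364) (B (M (nat_lit 461) (B (lo112_10_4 (nat_lit 332)) (M (nat_lit 493) (B (lo112_11_4 (nat_lit 460)) (lo113_15_7 (nat_lit 397)))))) (B (K _ _ _ o1_s44952) (B (M (nat_lit 461) (B (lo112_10_4 (nat_lit 332)) (M (nat_lit 493) (B (lo113_15_7 (nat_lit 397)) (lo113_16_7 (nat_lit 525)))))) (M (nat_lit 461) (B (lo112_10_4 (nat_lit 332)) (M (nat_lit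 493) (B (lo112_11_4 (nat_lit 460)) (lo113_16_7 (nat_lit 525)))))))))) (B (M (nat_lit 397) (B (M (nat_lit 394) (B (lo19_12_0 (nat_lit 393)) (M (nat_lit 365) (B (lo110_12_2 (nat_lit 366)) (M (nat_lit 333) (B (lo113_9_5 (nat_lit 301)) (lo113_10_5 (nat_lit 460)))))))) (B (M (nat_lit 398) (B (M (nat_lit 427) (B (lo114_12_1 (nat_lit 426)) (lo115_12_1 (nat_lit 399)))) (B (M (nat_lit 399) (B (lo115_12_1 (nat_lit 427)) (lo116_12_1 (nat_lit 400)))) (B (M (nat_lit 367) (B (lo111_12_2 (nat_lit 366)) (M (nat_lit 399) (B (lo112_12_2 (nat_lit 368)) (lo116_12_1 (nat_lit 400)))))) (M (nat_lit 365) (B (M (nat_lit 366) (B (lo110_12_2 (nat_lit 394)) (lo111_12_2 (nat_lit 367)))) (M (nat_lit 333) (B (lo113_9_5 (nat_lit 301)) (lo113_10_5 (nat_lit 460)))))))))) (B (M (nat_lit 398) (B (M (nat_lit 427) (B (lo114_12_1 (nat_lit 426)) (lo115_12_1 (nat_lit 399)))) (B (M (nat_lit 399) (B (lo115_12_1 (nat_lit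 427)) (lo116_12_1 (nat_lit 400)))) (B (M (nat_lit 367) (B (lo111_12_2 (nat_lit 366)) (M (nat_lit 399) (B (lo112_12_2 (nat_lit 368)) (lo116_12_1 (nat_lit 400)))))) (M (nat_lit 366) (B (lo111_12_2 (nat_lit 367)) (M (nat_lit 461) (B (lo113_15_6 (nat_lit 493)) (M (nat_lit 334) (B (lo113_14_6 (nat_lit 365)) (lo114_9_5 (nat_lit 302)))))))))))) (B (M (nat_lit 398) (B (M (nat_lit 427) (B (lo114_12_1 (nat_lit 426)) (lo115_12_1 (nat_lit 399)))) (B (M (nat_lit 399) (B (lo115_12_1 (nat_lit 427)) (lo116_12_1 (nat_lit 400)))) (B (M (nat_lit 367) (B (lo111_12_2 (nat_lit 366)) (M (nat_lit 399) (B (lo112_12_2 (nat_lit 368)) (lo116_12_1 (nat_lit 400)))))) (M (nat_lit 426) (B (lo114_12_1 (nat_lit 427)) (M (nat_lit 394) (B (lo19_12_0 (nat_lit 393)) (lo113_12_1 (nat_lit 425)))))))))) (K _ _ _ o1_s45078)))))) (B (M (nat_lit 426) (B (M (nat_lit 394) (B (lo19_12_0 (nat_lit 393)) (M (nat_lit 425) (B (lo113_12_1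 (nat_lit 397)) (M (nat_lit 424) (B (lo17_13_2 (nat_lit 423)) (lo18_13_2 (nat_lit 427)))))))) (B (M (nat_lit 397) (B (M (nat_lit 394) (B (lo19_12_0 (nat_lit 393)) (lo113_12_1 (nat_lit 425)))) (B (M (nat_lit 425) (B (lo113_12_1 (nat_lit 394)) (lo19_13_2 (nat_lit 427)))) (B (M (nat_lit 365) (B (M (nat_lit 394) (B (lo19_12_0 (nat_lit 393)) (lo110_12_2 (nat_lit 366)))) (M (nat_lit 333) (B (lo113_9_5 (nat_lit 301)) (lo113_10_5 (nat_lit 460)))))) (M (nat_lit 427) (B (lo19_13_2 (nat_lit 425)) (lo114_12_1 (nat_lit 398)))))))) (B (M (nat_lit 427) (B (M (nat_lit 425) (B (lo18_13_2 (nat_lit 424)) (lo19_13_2 (nat_lit 397)))) (M (nat_lit 458) (B (lo113_13_1 (nat_lit 457)) (M (nat_lit 490) (B (lo110_16_6 (nat_lit 522)) (M (nat_lit 363) (B (lo111_10_5 (nat_lit 331)) (lo111_11_5 (nat_lit 459)))))))))) (B (M (nat_lit 427) (B (M (nat_lit 458) (B (lo113_13_1 (nat_lit 457)) (M (nat_lit 490) (B (lo110_16_6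 (nat_lit 522)) (M (nat_lit 363) (B (lo111_10_5 (nat_lit 331)) (lo111_11_5 (nat_lit 459)))))))) (M (nat_lit 397) (B (lo114_12_1 (nat_lit 398)) (M (nat_lit 365) (B (M (nat_lit 394) (B (lo113_13_3 (nat_lit 393)) (lo110_12_2 (nat_lit 366)))) (M (nat_lit 333) (B (lo113_9_5 (nat_lit 301)) (lo113_10_5 (nat_lit 460)))))))))) (B (M (nat_lit 394) (B (lo19_12_0 (nat_lit 393)) (M (nat_lit 397) (B (lo113_12_1 (nat_lit 425)) (M (nat_lit 365) (B (lo110_12_2 (nat_lit 366)) (M (nat_lit 333) (B (lo113_9_5 (nat_lit 301)) (lo113_10_5 (nat_lit 460)))))))))) (M (nat_lit 394) (B (lo19_12_0 (nat_lit 393)) (M (nat_lit 427) (B (M (nat_lit 458) (B (lo113_13_1 (nat_lit 457)) (M (nat_lit 490) (B (lo110_15_6 (nat_lit 363)) (lo110_16_6 (nat_lit 522)))))) (M (nat_lit 425) (B (lo18_13_2 (nat_lit 424)) (M (nat_lit 461) (B (lo19_13_0 (nat_lit 460)) (lo110_13_0 (nat_lit 462)))))))))))))))) (B (M (nat_lit 397) (B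 (M (nat_lit 394) (B (lo19_12_0 (nat_lit 393)) (M (nat_lit 426) (B (lo113_12_1 (nat_lit 425)) (M (nat_lit 398) (B (lo114_12_1 (nat_lit 427)) (M (nat_lit 366) (B (lo110_12_2 (nat_lit 365)) (lo111_12_2 (nat_lit 367)))))))))) (B (M (nat_lit 398) (B (M (nat_lit 427) (B (lo114_12_1 (nat_lit 426)) (lo115_12_1 (nat_lit 399)))) (B (M (nat_lit 399) (B (lo115_12_1 (nat_lit 427)) (lo116_12_1 (nat_lit 400)))) (B (M (nat_lit 364) (B (M (nat_lit 399) (B (lo115_12_3 (nat_lit 363)) (lo116_12_1 (nat_lit 400)))) (M (nat_lit 461) (B (lo112_10_4 (nat_lit 332)) (lo113_15_7 (nat_lit 493)))))) (M (nat_lit 394) (B (M (nat_lit 426) (B (lo113_12_1 (nat_lit 425)) (lo114_12_1 (nat_lit 427)))) (M (nat_lit 366) (B (lo110_12_2 (nat_lit 365)) (lo111_12_2 (nat_lit 367)))))))))) (B (M (nat_lit 394) (B (lo19_12_0 (nat_lit 393)) (M (nat_lit 398) (B (M (nat_lit 366) (B (lo110_12_2 (nat_lit 365)) (lo111_12_2 (nat_lit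 367)))) (M (nat_lit 427) (B (lo114_12_1 (nat_lit 426)) (lo115_12_1 (nat_lit 399)))))))) (B (M (nat_lit 398) (B (M (nat_lit 427) (B (lo114_12_1 (nat_lit 426)) (lo115_12_1 (nat_lit 399)))) (B (M (nat_lit 399) (B (lo115_12_1 (nat_lit 427)) (lo116_12_1 (nat_lit 400)))) (B (M (nat_lit 364) (B (M (nat_lit 399) (B (lo115_12_3 (nat_lit 363)) (lo116_12_1 (nat_lit 400)))) (M (nat_lit 461) (B (lo112_10_4 (nat_lit 332)) (lo113_15_7 (nat_lit 493)))))) (M (nat_lit 366) (B (lo111_12_2 (nat_lit 367)) (M (nat_lit 461) (B (lo113_15_6 (nat_lit 493)) (M (nat_lit 334) (B (lo113_14_6 (nat_lit 365)) (lo114_9_5 (nat_lit 302)))))))))))) (B (M (nat_lit 394) (B (lo19_12_0 (nat_lit 393)) (M (nat_lit 398) (B (M (nat_lit 366) (B (lo110_12_2 (nat_lit 365)) (lo111_12_2 (nat_lit 367)))) (M (nat_lit 399) (B (lo115_12_1 (nat_lit 427)) (lo116_12_1 (nat_lit 400)))))))) (B (M (nat_lit 394) (B (lo19_12_0 (nat_lit 393))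 (M (nat_lit 364) (B (M (nat_lit 332) (B (lo112_9_4 (nat_lit 300)) (lo112_10_4 (nat_lit 461)))) (M (nat_lit 398) (B (M (nat_lit 366) (B (lo110_12_2 (nat_lit 365)) (lo111_12_2 (nat_lit 367)))) (M (nat_lit 399) (B (lo115_12_3 (nat_lit 363)) (lo116_12_1 (nat_lit 400)))))))))) (B (M (nat_lit 398) (B (M (nat_lit 427) (B (lo114_12_1 (nat_lit 426)) (lo115_12_1 (nat_lit 399)))) (B (M (nat_lit 399) (B (lo115_12_1 (nat_lit 427)) (lo116_12_1 (nat_lit 400)))) (B (M (nat_lit 364) (B (M (nat_lit 399) (B (lo115_12_3 (nat_lit 363)) (lo116_12_1 (nat_lit 400)))) (M (nat_lit 461) (B (lo112_10_4 (nat_lit 332)) (lo113_15_7 (nat_lit 493)))))) (M (nat_lit 426) (B (lo114_12_1 (nat_lit 427)) (M (nat_lit 394) (B (lo19_12_0 (nat_lit 393)) (lo113_12_1 (nat_lit 425)))))))))) (M (nat_lit 365) (B (M (nat_lit 394) (B (lo19_12_0 (nat_lit 393)) (lo110_12_2 (nat_lit 366)))) (B (M (nat_lit 461) (B (M (nat_lit 364)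 (B (lo112_10_4 (nat_lit 332)) (lo113_15_7 (nat_lit 493)))) (M (nat_lit 366) (B (lo110_12_2 (nat_lit 394)) (lo113_14_6 (nat_lit 334)))))) (B (M (nat_lit 333) (B (lo113_9_5 (nat_lit 301)) (M (nat_lit 461) (B (M (nat_lit 332) (B (lo113_13_7 (nat_lit 300)) (lo112_10_4 (nat_lit 364)))) (M (nat_lit 334) (B (lo113_13_6 (nat_lit 302)) (lo113_14_6 (nat_lit 366)))))))) (M (nat_lit 461) (B (M (nat_lit 364) (B (lo112_10_4 (nat_lit 332)) (lo113_15_7 (nat_lit 493)))) (M (nat_lit 426) (B (M (nat_lit 394) (B (lo19_12_0 (nat_lit 393)) (lo113_12_1 (nat_lit 425)))) (B (M (nat_lit 425) (B (lo113_12_1 (nat_lit 394)) (lo19_13_2 (nat_lit 427)))) (M (nat_lit 462) (B (lo110_13_0 (nat_lit 427)) (lo113_11_4 (nat_lit 494))))))))))))))))))))) (B (M (nat_lit 427) (B (M (nat_lit 394) (B (lo19_12_0 (nat_lit 393)) (M (nat_lit 426) (B (M (nat_lit 425) (B (lo18_13_2 (nat_lit 424)) (M (nat_lit 461) (B (lo19_13_0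 (nat_lit 460)) (lo110_13_0 (nat_lit 462)))))) (M (nat_lit 458) (B (lo113_13_1 (nat_lit 457)) (M (nat_lit 490) (B (lo110_15_6 (nat_lit 363)) (lo110_16_6 (nat_lit 522)))))))))) (B (M (nat_lit 426) (B (M (nat_lit 393) (B (lo113_13_3 (nat_lit 394)) (M (nat_lit 425) (B (lo112_13_3 (nat_lit 392)) (M (nat_lit 457) (B (lo112_13_1 (nat_lit 456)) (lo113_13_1 (nat_lit 458)))))))) (B (M (nat_lit 425) (B (M (nat_lit 457) (B (lo112_13_1 (nat_lit 456)) (lo113_13_1 (nat_lit 458)))) (M (nat_lit 461) (B (lo19_13_0 (nat_lit 460)) (lo110_13_0 (nat_lit 462)))))) (B (M (nat_lit 425) (B (M (nat_lit 393) (B (lo112_13_3 (nat_lit 392)) (lo113_13_3 (nat_lit 394)))) (M (nat_lit 461) (B (lo19_13_0 (nat_lit 460)) (lo110_13_0 (nat_lit 462)))))) (M (nat_lit 394) (B (lo113_13_3 (nat_lit 393)) (M (nat_lit 458) (B (lo113_13_1 (nat_lit 457)) (M (nat_lit 490) (B (lo110_15_6 (nat_lit 363)) (lo110_16_6 (nat_lit 522))))))))))))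 (B (M (nat_lit 459) (B (M (nat_lit 491) (B (lo111_15_6 (nat_lit 364)) (lo111_16_6 (nat_lit 523)))) (M (nat_lit 426) (B (M (nat_lit 458) (B (lo113_13_1 (nat_lit 457)) (M (nat_lit 363) (B (lo111_10_5 (nat_lit 331)) (lo111_11_5 (nat_lit 490)))))) (M (nat_lit 425) (B (lo18_13_2 (nat_lit 424)) (M (nat_lit 461) (B (lo19_13_0 (nat_lit 460)) (lo110_13_0 (nat_lit 462)))))))))) (B (K _ _ _ o1_s45027) (B (M (nat_lit 364) (B (M (nat_lit 332) (B (lo112_9_5 (nat_lit 300)) (lo112_10_5 (nat_lit 459)))) (B (M (nat_lit 332) (B (lo112_9_5 (nat_lit 300)) (lo112_10_4 (nat_lit 461)))) (B (M (nat_lit 332) (B (lo112_10_5 (nat_lit 459)) (lo112_10_4 (nat_lit 461)))) (M (nat_lit 426) (B (M (nat_lit 461) (B (lo110_13_0 (nat_lit 462)) (M (nat_lit 460) (B (lo19_13_0 (nat_lit 425)) (lo112_11_4 (nat_lit 493)))))) (B (M (nat_lit 461) (B (lo110_13_0 (nat_lit 462)) (M (nat_lit 493) (B (lo112_11_4 (nat_lit 460))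 (lo113_16_7 (nat_lit 525)))))) (M (nat_lit 393) (B (lo113_13_3 (nat_lit 394)) (M (nat_lit 425) (B (lo112_13_3 (nat_lit 392)) (lo18_13_2 (nat_lit 424))))))))))))) (M (nat_lit 426) (B (M (nat_lit 425) (B (lo18_13_2 (nat_lit 424)) (M (nat_lit 393) (B (lo112_13_3 (nat_lit 392)) (lo113_13_3 (nat_lit 394)))))) (B (M (nat_lit 425) (B (lo18_13_2 (nat_lit 424)) (M (nat_lit 457) (B (lo112_13_1 (nat_lit 456)) (lo113_13_1 (nat_lit 458)))))) (B (M (nat_lit 393) (B (lo113_13_3 (nat_lit 394)) (M (nat_lit 425) (B (lo112_13_3 (nat_lit 392)) (M (nat_lit 457) (B (lo112_13_1 (nat_lit 456)) (lo113_13_1 (nat_lit 458)))))))) (M (nat_lit 394) (B (lo113_13_3 (nat_lit 393)) (M (nat_lit 458) (B (lo113_13_1 (nat_lit 457)) (M (nat_lit 490) (B (lo110_15_6 (nat_lit 363)) (lo110_16_6 (nat_lit 522)))))))))))))))))) (M (nat_lit 394) (B (lo19_12_0 (nat_lit 393)) (M (nat_lit 365) (B (M (nat_lit 397) (B (lo110_12_2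 (nat_lit 366)) (M (nat_lit 333) (B (lo113_9_5 (nat_lit 301)) (lo113_10_5 (nat_lit 460)))))) (B (M (nat_lit 366) (B (lo110_12_2 (nat_lit 397)) (M (nat_lit 364) (B (lo114_11_1 (nat_lit 363)) (lo115_11_1 (nat_lit 367)))))) (B (M (nat_lit 364) (B (M (nat_lit 366) (B (lo114_11_1 (nat_lit 363)) (lo115_11_1 (nat_lit 367)))) (M (nat_lit 333) (B (lo112_14_6 (nat_lit 460)) (M (nat_lit 301) (B (lo112_13_6 (nat_lit 332)) (lo113_8_5 (nat_lit 269)))))))) (M (nat_lit 333) (B (M (nat_lit 460) (B (lo112_14_6 (nat_lit 364)) (lo113_10_5 (nat_lit 397)))) (B (M (nat_lit 397) (B (lo113_9_5 (nat_lit 301)) (lo113_10_5 (nat_lit 460)))) (B (M (nat_lit 301) (B (lo113_9_5 (nat_lit 397)) (M (nat_lit 364) (B (lo112_13_6 (nat_lit 332)) (lo113_8_5 (nat_lit 269)))))) (M (nat_lit 364) (B (lo112_14_6 (nat_lit 460)) (M (nat_lit 301) (B (lo112_13_6 (nat_lit 332)) (lo113_8_5 (nat_lit 269))))))))))))))))))))))))))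 (B (M (nat_lit 364) (B (M (nat_lit 461) (B (lo112_10_4 (nat_lit 332)) (M (nat_lit 493) (B (lo113_15_7 (nat_lit 397)) (lo113_16_7 (nat_lit 525)))))) (B (M (nat_lit 365) (B (M (nat_lit 333) (B (lo112_14_6 (nat_lit 460)) (M (nat_lit 301) (B (lo113_8_5 (nat_lit 269)) (lo113_9_5 (nat_lit 397)))))) (B (M (nat_lit 366) (B (M (nat_lit 367) (B (lo115_11_1 (nat_lit 395)) (M (nat_lit 368) (B (lo116_11_1 (nat_lit 397)) (M (nat_lit 400) (B (lo112_11_0 (nat_lit 399)) (lo113_11_0 (nat_lit 401)))))))) (B (K _ _ _ o1_s29103) (B (M (nat_lit 363) (B (M (nat_lit 331) (B (lo114_11_3 (nat_lit 330)) (M (nat_lit 299) (B (lo111_8_4 (nat_lit 267)) (lo111_9_4 (nat_lit 395)))))) (B (M (nat_lit 335) (B (lo111_11_2 (nat_lit 334)) (M (nat_lit 367) (B (lo115_11_1 (nat_lit 395)) (lo112_11_2 (nat_lit 336)))))) (M (nat_lit 362) (B (M (nat_lit 330) (B (lo113_11_3 (nat_lit 329)) (lo114_11_3 (nat_lit 331)))) (M (nat_lit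 334) (B (lo110_11_2 (nat_lit 333)) (lo111_11_2 (nat_lit 335))))))))) (M (nat_lit 363) (B (M (nat_lit 331) (B (lo114_11_3 (nat_lit 330)) (M (nat_lit 299) (B (lo111_8_4 (nat_lit 267)) (lo111_9_4 (nat_lit 395)))))) (M (nat_lit 397) (B (M (nat_lit 362) (B (lo19_11_0 (nat_lit 361)) (lo110_11_0 (nat_lit 398)))) (M (nat_lit 334) (B (lo111_11_2 (nat_lit 335)) (lo113_14_6 (nat_lit 461)))))))))))) (B (M (nat_lit 397) (B (M (nat_lit 461) (B (lo113_15_7 (nat_lit 493)) (M (nat_lit 366) (B (lo113_14_6 (nat_lit 334)) (M (nat_lit 367) (B (lo115_11_1 (nat_lit 395)) (lo116_11_1 (nat_lit 368)))))))) (B (M (nat_lit 363) (B (M (nat_lit 398) (B (lo110_11_0 (nat_lit 362)) (lo115_12_3 (nat_lit 399)))) (M (nat_lit 366) (B (M (nat_lit 331) (B (lo114_11_3 (nat_lit 330)) (lo112_14_7 (nat_lit 460)))) (M (nat_lit 461) (B (lo113_15_7 (nat_lit 493)) (lo113_14_6 (nat_lit 334)))))))) (M (nat_lit 363) (B (M (nat_lit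 398) (B (lo110_11_0 (nat_lit 362)) (lo115_12_3 (nat_lit 399)))) (M (nat_lit 331) (B (lo112_14_7 (nat_lit 460)) (M (nat_lit 299) (B (lo111_8_4 (nat_lit 267)) (lo111_9_4 (nat_lit 395))))))))))) (M (nat_lit 363) (B (M (nat_lit 460) (B (lo112_14_7 (nat_lit 331)) (lo112_14_6 (nat_lit 333)))) (B (M (nat_lit 333) (B (lo112_14_6 (nat_lit 460)) (M (nat_lit 334) (B (lo110_11_2 (nat_lit 362)) (M (nat_lit 335) (B (lo111_11_2 (nat_lit 366)) (lo116_10_1 (nat_lit 336)))))))) (B (M (nat_lit 366) (B (M (nat_lit 331) (B (lo114_11_3 (nat_lit 330)) (M (nat_lit 299) (B (lo111_8_4 (nat_lit 267)) (lo111_9_4 (nat_lit 395)))))) (B (M (nat_lit 335) (B (lo111_11_2 (nat_lit 334)) (M (nat_lit 367) (B (lo115_11_1 (nat_lit 395)) (lo112_11_2 (nat_lit 336)))))) (M (nat_lit 362) (B (M (nat_lit 330) (B (lo113_11_3 (nat_lit 329)) (lo114_11_3 (nat_lit 331)))) (M (nat_lit 334) (B (lo110_11_2 (nat_lit 333)) (lo111_11_2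 (nat_lit 335))))))))) (M (nat_lit 331) (B (lo112_14_7 (nat_lit 460)) (M (nat_lit 299) (B (lo111_8_4 (nat_lit 267)) (lo111_9_4 (nat_lit 395)))))))))))))) (B (M (nat_lit 461) (B (lo112_10_4 (nat_lit 332)) (M (nat_lit 493) (B (lo112_11_4 (nat_lit 460)) (lo113_16_7 (nat_lit 525)))))) (K _ _ _ o1_s28837))))) (B (M (nat_lit 364) (B (M (nat_lit 461) (B (lo112_10_4 (nat_lit 332)) (M (nat_lit 493) (B (lo112_11_4 (nat_lit 460)) (lo113_16_7 (nat_lit 525)))))) (B (M (nat_lit 461) (B (M (nat_lit 493) (B (lo112_11_4 (nat_lit 460)) (lo113_15_7 (nat_lit 397)))) (B (M (nat_lit 493) (B (lo113_15_7 (nat_lit 397)) (lo113_16_7 (nat_lit 525)))) (B (M (nat_lit 493) (B (lo112_11_4 (nat_lit 460)) (lo113_16_7 (nat_lit 525)))) (M (nat_lit 365) (B (M (nat_lit 333) (B (lo112_14_6 (nat_lit 460)) (M (nat_lit 301) (B (lo113_8_5 (nat_lit 269)) (lo113_9_5 (nat_lit 397)))))) (B (M (nat_lit 366) (B (M (nat_lit 395)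 (B (lo115_11_1 (nat_lit 367)) (M (nat_lit 394) (B (lo19_12_2 (nat_lit 393)) (lo114_11_1 (nat_lit 363)))))) (B (M (nat_lit 397) (B (lo113_14_6 (nat_lit 334)) (M (nat_lit 367) (B (lo115_11_1 (nat_lit 395)) (lo116_11_1 (nat_lit 368)))))) (B (M (nat_lit 397) (B (lo113_14_6 (nat_lit 334)) (M (nat_lit 399) (B (M (nat_lit 398) (B (lo115_12_3 (nat_lit 363)) (lo115_12_1 (nat_lit 427)))) (M (nat_lit 367) (B (lo112_11_0 (nat_lit 400)) (lo116_11_1 (nat_lit 368)))))))) (M (nat_lit 363) (B (M (nat_lit 334) (B (lo111_11_2 (nat_lit 335)) (lo113_14_6 (nat_lit 397)))) (M (nat_lit 362) (B (M (nat_lit 330) (B (lo113_11_3 (nat_lit 329)) (lo114_11_3 (nat_lit 331)))) (M (nat_lit 394) (B (lo113_11_1 (nat_lit 393)) (lo114_11_1 (nat_lit 395)))))))))))) (M (nat_lit 363) (B (M (nat_lit 460) (B (lo112_14_7 (nat_lit 331)) (lo112_14_6 (nat_lit 333)))) (B (M (nat_lit 333) (B (lo112_14_6 (nat_lit 460)) (M (nat_lit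 334) (B (lo110_11_2 (nat_lit 362)) (M (nat_lit 335) (B (lo111_11_2 (nat_lit 366)) (lo116_10_1 (nat_lit 336)))))))) (B (M (nat_lit 366) (B (M (nat_lit 395) (B (lo114_11_1 (nat_lit 394)) (lo115_11_1 (nat_lit 367)))) (M (nat_lit 362) (B (M (nat_lit 330) (B (lo113_11_3 (nat_lit 329)) (lo114_11_3 (nat_lit 331)))) (M (nat_lit 334) (B (lo110_11_2 (nat_lit 333)) (lo111_11_2 (nat_lit 335)))))))) (M (nat_lit 366) (B (M (nat_lit 331) (B (lo114_11_3 (nat_lit 330)) (lo112_14_7 (nat_lit 460)))) (M (nat_lit 395) (B (lo114_11_1 (nat_lit 394)) (lo115_11_1 (nat_lit 367))))))))))))))))) (B (M (nat_lit 461) (B (lo112_10_4 (nat_lit 332)) (M (nat_lit 493) (B (lo113_15_7 (nat_lit 397)) (lo113_16_7 (nat_lit 525)))))) (K _ _ _ o1_s31230))))) (B (M (nat_lit 397) (B (M (nat_lit 398) (B (M (nat_lit 399) (B (lo115_12_1 (nat_lit 427)) (lo116_12_1 (nat_lit 400)))) (K _ _ _ o1_s45381))) (B (M (nat_lit 364) (B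 (M (nat_lit 332) (B (lo112_9_4 (nat_lit 300)) (lo112_10_4 (nat_lit 461)))) (B (M (nat_lit 461) (B (lo112_10_4 (nat_lit 332)) (lo113_15_7 (nat_lit 493)))) (B (M (nat_lit 365) (B (M (nat_lit 333) (B (lo112_14_6 (nat_lit 460)) (lo113_9_5 (nat_lit 301)))) (B (M (nat_lit 461) (B (lo113_15_7 (nat_lit 493)) (M (nat_lit 333) (B (lo113_9_5 (nat_lit 301)) (M (nat_lit 334) (B (lo113_13_6 (nat_lit 302)) (lo113_14_6 (nat_lit 366)))))))) (B (M (nat_lit 461) (B (lo113_15_7 (nat_lit 493)) (M (nat_lit 333) (B (lo112_14_6 (nat_lit 460)) (M (nat_lit 334) (B (lo113_13_6 (nat_lit 302)) (lo113_14_6 (nat_lit 366)))))))) (K _ _ _ o1_s45402))))) (M (nat_lit 427) (B (M (nat_lit 332) (B (lo112_10_5 (nat_lit 459)) (lo112_9_4 (nat_lit 300)))) (M (nat_lit 398) (B (lo110_13_2 (nat_lit 426)) (lo115_12_1 (nat_lit 399)))))))))) (B (M (nat_lit 398) (B (M (nat_lit 399) (B (lo116_12_1 (nat_lit 400)) (M (nat_lit 364)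 (B (lo115_12_3 (nat_lit 363)) (M (nat_lit 332) (B (lo112_9_4 (nat_lit 300)) (lo112_10_4 (nat_lit 461)))))))) (B (K _ _ _ o1_s45381) (K _ _ _ o1_s45416)))) (B (M (nat_lit 398) (B (M (nat_lit 427) (B (lo110_13_2 (nat_lit 426)) (lo115_12_1 (nat_lit 399)))) (B (M (nat_lit 399) (B (lo115_12_1 (nat_lit 427)) (lo116_12_1 (nat_lit 400)))) (B (M (nat_lit 364) (B (M (nat_lit 399) (B (lo115_12_3 (nat_lit 363)) (lo116_12_1 (nat_lit 400)))) (M (nat_lit 461) (B (lo112_10_4 (nat_lit 332)) (lo113_15_7 (nat_lit 493)))))) (K _ _ _ o1_s45429))))) (B (M (nat_lit 398) (B (M (nat_lit 427) (B (lo110_13_2 (nat_lit 426)) (lo115_12_1 (nat_lit 399)))) (B (M (nat_lit 399) (B (lo115_12_1 (nat_lit 427)) (lo116_12_1 (nat_lit 400)))) (B (M (nat_lit 364) (B (M (nat_lit 399) (B (lo115_12_3 (nat_lit 363)) (lo116_12_1 (nat_lit 400)))) (M (nat_lit 461) (B (lo112_10_4 (nat_lit 332)) (lo113_15_7 (nat_lit 493))))))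 (M (nat_lit 395) (B (M (nat_lit 426) (B (lo114_12_1 (nat_lit 427)) (M (nat_lit 394) (B (lo19_12_0 (nat_lit 393)) (lo113_12_1 (nat_lit 425)))))) (B (M (nat_lit 394) (B (M (nat_lit 362) (B (lo113_12_3 (nat_lit 361)) (lo114_12_3 (nat_lit 363)))) (M (nat_lit 426) (B (lo113_12_1 (nat_lit 425)) (lo114_12_1 (nat_lit 427)))))) (B (M (nat_lit 362) (B (lo114_12_3 (nat_lit 363)) (M (nat_lit 394) (B (lo113_12_3 (nat_lit 361)) (lo19_12_0 (nat_lit 393)))))) (K _ _ _ o1_s45443))))))))) (B (M (nat_lit 398) (B (M (nat_lit 427) (B (lo110_13_2 (nat_lit 426)) (lo115_12_1 (nat_lit 399)))) (B (M (nat_lit 399) (B (lo115_12_1 (nat_lit 427)) (lo116_12_1 (nat_lit 400)))) (B (K _ _ _ o1_s45416) (M (nat_lit 395) (B (M (nat_lit 362) (B (lo114_12_3 (nat_lit 363)) (M (nat_lit 394) (B (lo113_12_3 (nat_lit 361)) (lo19_12_0 (nat_lit 393)))))) (B (M (nat_lit 366) (B (lo111_12_2 (nat_lit 367)) (M (nat_lit 394) (B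 (lo19_12_0 (nat_lit 393)) (lo110_12_2 (nat_lit 365)))))) (B (M (nat_lit 394) (B (M (nat_lit 362) (B (lo113_12_3 (nat_lit 361)) (lo114_12_3 (nat_lit 363)))) (M (nat_lit 366) (B (lo110_12_2 (nat_lit 365)) (lo111_12_2 (nat_lit 367)))))) (K _ _ _ o1_s45443))))))))) (K _ _ _ o1_s45450)))))))) (B (M (nat_lit 397) (B (M (nat_lit 398) (B (M (nat_lit 399) (B (lo115_12_1 (nat_lit 427)) (lo116_12_1 (nat_lit 400)))) (K _ _ _ o1_s45381))) (B (K _ _ _ o1_s44855) (B (M (nat_lit 365) (B (M (nat_lit 333) (B (lo113_9_5 (nat_lit 301)) (lo113_10_5 (nat_lit 460)))) (M (nat_lit 366) (B (M (nat_lit 395) (B (lo110_12_2 (nat_lit 394)) (M (nat_lit 367) (B (lo115_11_1 (nat_lit 364)) (lo116_11_1 (nat_lit 368)))))) (B (M (nat_lit 461) (B (lo113_14_6 (nat_lit 334)) (M (nat_lit 364) (B (lo112_10_4 (nat_lit 332)) (lo113_15_7 (nat_lit 493)))))) (M (nat_lit 395) (B (lo110_12_2 (nat_lit 394)) (M (nat_lit 367) (B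 (lo111_12_2 (nat_lit 398)) (lo116_11_1 (nat_lit 368))))))))))) (B (M (nat_lit 398) (B (M (nat_lit 427) (B (lo110_13_2 (nat_lit 426)) (lo115_12_1 (nat_lit 399)))) (B (M (nat_lit 399) (B (lo115_12_1 (nat_lit 427)) (lo116_12_1 (nat_lit 400)))) (B (M (nat_lit 366) (B (M (nat_lit 461) (B (lo113_15_6 (nat_lit 493)) (M (nat_lit 334) (B (lo113_14_6 (nat_lit 365)) (lo114_9_5 (nat_lit 302)))))) (M (nat_lit 367) (B (lo111_12_2 (nat_lit 395)) (M (nat_lit 399) (B (lo112_12_2 (nat_lit 368)) (lo116_12_1 (nat_lit 400)))))))) (M (nat_lit 461) (B (M (nat_lit 364) (B (lo112_10_4 (nat_lit 332)) (lo113_15_7 (nat_lit 493)))) (B (M (nat_lit 493) (B (lo113_15_7 (nat_lit 364)) (lo113_15_6 (nat_lit 366)))) (B (M (nat_lit 366) (B (lo113_15_6 (nat_lit 493)) (M (nat_lit 334) (B (lo113_14_6 (nat_lit 365)) (lo114_9_5 (nat_lit 302)))))) (K _ _ _ o1_s44891))))))))) (B (M (nat_lit 427) (B (M (nat_lit 426) (B (lo19_13_2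 (nat_lit 425)) (lo110_13_2 (nat_lit 398)))) (B (M (nat_lit 398) (B (lo110_13_2 (nat_lit 426)) (lo115_12_1 (nat_lit 399)))) (B (M (nat_lit 461) (B (M (nat_lit 364) (B (lo112_10_4 (nat_lit 332)) (lo113_15_7 (nat_lit 493)))) (B (M (nat_lit 493) (B (lo113_15_7 (nat_lit 364)) (lo113_16_7 (nat_lit 525)))) (B (M (nat_lit 493) (B (lo113_16_7 (nat_lit 525)) (M (nat_lit 398) (B (lo115_12_1 (nat_lit 399)) (lo113_15_6 (nat_lit 366)))))) (M (nat_lit 365) (B (M (nat_lit 333) (B (lo113_10_5 (nat_lit 460)) (M (nat_lit 334) (B (lo113_13_6 (nat_lit 302)) (lo113_14_6 (nat_lit 366)))))) (B (M (nat_lit 333) (B (M (nat_lit 332) (B (lo113_13_7 (nat_lit 300)) (lo112_10_4 (nat_lit 364)))) (M (nat_lit 334) (B (lo113_13_6 (nat_lit 302)) (lo113_14_6 (nat_lit 366)))))) (M (nat_lit 462) (B (lo113_11_4 (nat_lit 494)) (M (nat_lit 463) (B (lo115_14_3 (nat_lit 460)) (lo116_14_3 (nat_lit 464))))))))))))) (M (nat_lit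 461) (B (M (nat_lit 426) (B (lo19_13_2 (nat_lit 425)) (lo110_13_0 (nat_lit 462)))) (M (nat_lit 493) (B (lo113_15_7 (nat_lit 364)) (lo113_16_7 (nat_lit 525)))))))))) (B (M (nat_lit 461) (B (M (nat_lit 364) (B (lo112_10_4 (nat_lit 332)) (lo113_15_7 (nat_lit 493)))) (B (M (nat_lit 493) (B (lo113_15_7 (nat_lit 364)) (lo113_16_7 (nat_lit 525)))) (B (M (nat_lit 398) (B (M (nat_lit 399) (B (lo115_12_1 (nat_lit 427)) (lo116_12_1 (nat_lit 400)))) (M (nat_lit 493) (B (lo113_16_7 (nat_lit 525)) (lo113_15_6 (nat_lit 366)))))) (M (nat_lit 398) (B (M (nat_lit 427) (B (lo110_13_2 (nat_lit 426)) (lo115_12_1 (nat_lit 399)))) (B (M (nat_lit 399) (B (lo115_12_1 (nat_lit 427)) (lo116_12_1 (nat_lit 400)))) (B (M (nat_lit 366) (B (M (nat_lit 334) (B (lo113_14_6 (nat_lit 365)) (lo114_9_5 (nat_lit 302)))) (M (nat_lit 367) (B (lo111_12_2 (nat_lit 395)) (M (nat_lit 399) (B (lo112_12_2 (nat_lit 368)) (lo116_12_1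 (nat_lit 400)))))))) (M (nat_lit 395) (B (M (nat_lit 426) (B (lo114_12_1 (nat_lit 427)) (M (nat_lit 394) (B (lo19_12_0 (nat_lit 393)) (lo113_12_1 (nat_lit 425)))))) (B (M (nat_lit 366) (B (lo111_12_2 (nat_lit 367)) (M (nat_lit 365) (B (lo110_12_2 (nat_lit 394)) (lo113_14_6 (nat_lit 334)))))) (M (nat_lit 366) (B (lo111_12_2 (nat_lit 367)) (M (nat_lit 334) (B (lo113_14_6 (nat_lit 365)) (lo114_9_5 (nat_lit 302))))))))))))))))) (B (M (nat_lit 426) (B (M (nat_lit 427) (B (lo19_13_2 (nat_lit 425)) (lo110_13_2 (nat_lit 398)))) (B (M (nat_lit 461) (B (M (nat_lit 427) (B (lo110_13_2 (nat_lit 398)) (lo110_13_0 (nat_lit 462)))) (M (nat_lit 364) (B (lo112_10_4 (nat_lit 332)) (lo113_15_7 (nat_lit 493)))))) (M (nat_lit 394) (B (M (nat_lit 395) (B (lo19_12_0 (nat_lit 393)) (lo113_12_1 (nat_lit 425)))) (B (M (nat_lit 362) (B (M (nat_lit 395) (B (lo113_12_3 (nat_lit 361)) (lo113_12_1 (nat_lit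 425)))) (B (M (nat_lit 330) (B (M (nat_lit 425) (B (lo110_10_5 (nat_lit 457)) (lo113_12_1 (nat_lit 395)))) (M (nat_lit 298) (B (M (nat_lit 297) (B (lo110_12_7 (nat_lit 265)) (lo110_13_7 (nat_lit 329)))) (M (nat_lit 299) (B (lo110_12_6 (nat_lit 267)) (lo110_13_6 (nat_lit 331)))))))) (B (M (nat_lit 361) (B (lo113_12_3 (nat_lit 395)) (M (nat_lit 329) (B (lo110_14_7 (nat_lit 458)) (M (nat_lit 297) (B (lo19_8_4 (nat_lit 265)) (lo110_13_7 (nat_lit 330)))))))) (K _ _ _ o1_s45559))))) (B (M (nat_lit 458) (B (M (nat_lit 393) (B (lo19_12_0 (nat_lit 395)) (M (nat_lit 361) (B (lo110_15_7 (nat_lit 490)) (M (nat_lit 329) (B (lo19_9_4 (nat_lit 297)) (lo110_14_7 (nat_lit 362)))))))) (B (M (nat_lit 362) (B (M (nat_lit 361) (B (lo110_14_7 (nat_lit 329)) (lo113_12_3 (nat_lit 395)))) (M (nat_lit 457) (B (lo110_11_5 (nat_lit 489)) (M (nat_lit 459) (B (lo19_14_2 (nat_lit 460)) (lo110_11_4 (nat_lit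 491)))))))) (B (M (nat_lit 490) (B (M (nat_lit 393) (B (lo110_15_7 (nat_lit 361)) (lo19_12_0 (nat_lit 395)))) (M (nat_lit 522) (B (M (nat_lit 521) (B (lo110_12_5 (nat_lit 489)) (lo110_13_5 (nat_lit 553)))) (M (nat_lit 523) (B (lo110_12_4 (nat_lit 491)) (lo110_13_4 (nat_lit 555)))))))) (M (nat_lit 459) (B (M (nat_lit 491) (B (lo110_11_4 (nat_lit 362)) (M (nat_lit 523) (B (lo110_12_4 (nat_lit 490)) (lo111_17_7 (nat_lit 555)))))) (B (M (nat_lit 491) (B (M (nat_lit 523) (B (lo110_12_4 (nat_lit 490)) (lo111_17_7 (nat_lit 555)))) (M (nat_lit 460) (B (lo19_14_2 (nat_lit 457)) (lo112_11_5 (nat_lit 364)))))) (B (M (nat_lit 491) (B (lo110_11_4 (nat_lit 362)) (M (nat_lit 460) (B (lo19_14_2 (nat_lit 457)) (lo112_11_5 (nat_lit 364)))))) (M (nat_lit 457) (B (lo19_14_2 (nat_lit 460)) (M (nat_lit 489) (B (lo110_11_5 (nat_lit 362)) (M (nat_lit 521) (B (lo19_17_6 (nat_lit 553)) (lo110_12_5 (nat_lit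 490)))))))))))))))) (M (nat_lit 362) (B (K _ _ _ o1_s45609) (B (M (nat_lit 458) (B (M (nat_lit 457) (B (lo110_11_5 (nat_lit 489)) (M (nat_lit 459) (B (lo19_14_2 (nat_lit 460)) (lo110_11_4 (nat_lit 491)))))) (B (M (nat_lit 490) (B (M (nat_lit 491) (B (lo110_11_4 (nat_lit 459)) (lo110_12_4 (nat_lit 523)))) (M (nat_lit 522) (B (M (nat_lit 393) (B (lo110_15_7 (nat_lit 361)) (lo110_16_7 (nat_lit 425)))) (M (nat_lit 521) (B (lo110_12_5 (nat_lit 489)) (lo110_13_5 (nat_lit 553)))))))) (B (M (nat_lit 361) (B (M (nat_lit 490) (B (lo110_15_7 (nat_lit 393)) (M (nat_lit 491) (B (lo110_11_4 (nat_lit 459)) (lo110_12_4 (nat_lit 523)))))) (B (M (nat_lit 330) (B (M (nat_lit 457) (B (lo110_10_5 (nat_lit 425)) (M (nat_lit 459) (B (lo19_14_2 (nat_lit 460)) (lo110_11_4 (nat_lit 491)))))) (M (nat_lit 332) (B (M (nat_lit 331) (B (lo113_10_1 (nat_lit 333)) (lo110_13_6 (nat_lit 299)))) (M (nat_lit 364)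 (B (lo112_9_4 (nat_lit 300)) (lo112_10_4 (nat_lit 461)))))))) (M (nat_lit 330) (B (M (nat_lit 393) (B (lo110_15_7 (nat_lit 490)) (M (nat_lit 425) (B (lo19_14_6 (nat_lit 457)) (lo110_9_5 (nat_lit 298)))))) (M (nat_lit 332) (B (M (nat_lit 331) (B (lo113_10_1 (nat_lit 333)) (lo110_13_6 (nat_lit 299)))) (M (nat_lit 364) (B (lo112_9_4 (nat_lit 300)) (lo112_10_4 (nat_lit 461))))))))))) (M (nat_lit 361) (B (M (nat_lit 490) (B (lo110_15_7 (nat_lit 393)) (M (nat_lit 489) (B (lo110_11_5 (nat_lit 457)) (lo110_12_5 (nat_lit 521)))))) (B (M (nat_lit 330) (B (M (nat_lit 457) (B (lo110_10_5 (nat_lit 425)) (lo110_11_5 (nat_lit 489)))) (M (nat_lit 332) (B (M (nat_lit 331) (B (lo113_10_1 (nat_lit 333)) (lo110_13_6 (nat_lit 299)))) (M (nat_lit 364) (B (lo112_9_4 (nat_lit 300)) (lo112_10_4 (nat_lit 461)))))))) (M (nat_lit 330) (B (M (nat_lit 393) (B (lo110_15_7 (nat_lit 490)) (M (nat_lit 298) (B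 (lo110_8_5 (nat_lit 266)) (lo110_9_5 (nat_lit 425)))))) (M (nat_lit 332) (B (M (nat_lit 331) (B (lo113_10_1 (nat_lit 333)) (lo110_13_6 (nat_lit 299)))) (M (nat_lit 364) (B (lo112_9_4 (nat_lit 300)) (lo112_10_4 (nat_lit 461))))))))))))))) (B (M (nat_lit 330) (B (M (nat_lit 425) (B (lo110_10_5 (nat_lit 457)) (M (nat_lit 298) (B (lo110_9_5 (nat_lit 393)) (M (nat_lit 299) (B (lo110_12_6 (nat_lit 267)) (lo110_13_6 (nat_lit 331)))))))) (B (M (nat_lit 298) (B (M (nat_lit 297) (B (lo110_12_7 (nat_lit 265)) (lo110_13_7 (nat_lit 329)))) (M (nat_lit 299) (B (lo110_12_6 (nat_lit 267)) (lo110_13_6 (nat_lit 331)))))) (M (nat_lit 457) (B (lo110_10_5 (nat_lit 425)) (M (nat_lit 458) (B (lo110_11_5 (nat_lit 489)) (M (nat_lit 459) (B (lo19_14_2 (nat_lit 460)) (lo110_11_4 (nat_lit 491))))))))))) (B (K _ _ _ o1_s45559) (B (M (nat_lit 330) (B (M (nat_lit 298) (B (M (nat_lit 297) (B (lo110_12_7 (nat_lit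 265)) (lo110_13_7 (nat_lit 329)))) (M (nat_lit 299) (B (lo110_12_6 (nat_lit 267)) (lo110_13_6 (nat_lit 331)))))) (B (M (nat_lit 332) (B (M (nat_lit 364) (B (lo112_9_4 (nat_lit 300)) (lo112_10_4 (nat_lit 461)))) (M (nat_lit 361) (B (M (nat_lit 329) (B (lo110_13_7 (nat_lit 297)) (lo110_14_7 (nat_lit 458)))) (M (nat_lit 331) (B (lo113_10_1 (nat_lit 333)) (lo110_13_6 (nat_lit 299)))))))) (B (M (nat_lit 332) (B (M (nat_lit 364) (B (lo112_9_4 (nat_lit 300)) (lo112_10_4 (nat_lit 461)))) (M (nat_lit 331) (B (lo110_13_6 (nat_lit 299)) (M (nat_lit 361) (B (lo113_10_1 (nat_lit 333)) (M (nat_lit 329) (B (lo112_10_1 (nat_lit 360)) (lo110_14_7 (nat_lit 458)))))))))) (B (M (nat_lit 298) (B (M (nat_lit 299) (B (lo110_12_6 (nat_lit 267)) (lo110_13_6 (nat_lit 331)))) (M (nat_lit 266) (B (M (nat_lit 265) (B (lo110_11_7 (nat_lit 233)) (lo110_12_7 (nat_lit 297)))) (M (nat_lit 393) (B (lo110_8_5 (nat_lit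 361)) (lo110_9_5 (nat_lit 425)))))))) (M (nat_lit 425) (B (M (nat_lit 298) (B (lo110_9_5 (nat_lit 393)) (M (nat_lit 297) (B (lo110_12_7 (nat_lit 265)) (lo110_13_7 (nat_lit 329)))))) (B (M (nat_lit 458) (B (M (nat_lit 393) (B (lo110_9_5 (nat_lit 298)) (M (nat_lit 490) (B (lo110_15_7 (nat_lit 361)) (lo110_16_7 (nat_lit 522)))))) (M (nat_lit 461) (B (M (nat_lit 459) (B (lo113_14_3 (nat_lit 460)) (lo110_11_4 (nat_lit 491)))) (M (nat_lit 364) (B (lo112_10_4 (nat_lit 332)) (lo113_15_7 (nat_lit 493)))))))) (M (nat_lit 461) (B (M (nat_lit 364) (B (lo112_10_4 (nat_lit 332)) (lo113_15_7 (nat_lit 493)))) (M (nat_lit 458) (B (M (nat_lit 329) (B (lo110_13_7 (nat_lit 297)) (lo110_14_7 (nat_lit 361)))) (M (nat_lit 459) (B (lo113_14_3 (nat_lit 460)) (lo110_11_4 (nat_lit 491)))))))))))))))) (M (nat_lit 330) (B (M (nat_lit 298) (B (M (nat_lit 297) (B (lo110_12_7 (nat_lit 265)) (lo110_13_7 (nat_lit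 329)))) (M (nat_lit 299) (B (lo110_12_6 (nat_lit 267)) (lo110_13_6 (nat_lit 331)))))) (B (M (nat_lit 425) (B (lo110_10_5 (nat_lit 457)) (M (nat_lit 298) (B (lo110_9_5 (nat_lit 393)) (M (nat_lit 299) (B (lo110_12_6 (nat_lit 267)) (lo110_13_6 (nat_lit 331)))))))) (B (M (nat_lit 331) (B (lo110_13_6 (nat_lit 299)) (M (nat_lit 329) (B (lo110_13_7 (nat_lit 297)) (M (nat_lit 332) (B (M (nat_lit 361) (B (lo112_10_1 (nat_lit 360)) (lo113_10_1 (nat_lit 333)))) (M (nat_lit 300) (B (lo19_10_2 (nat_lit 301)) (lo112_9_4 (nat_lit 364)))))))))) (M (nat_lit 298) (B (M (nat_lit 297) (B (lo110_12_7 (nat_lit 265)) (lo110_13_7 (nat_lit 329)))) (M (nat_lit 425) (B (lo110_9_5 (nat_lit 393)) (lo110_10_5 (nat_lit 457))))))))))))))))))))))) (B (M (nat_lit 427) (B (M (nat_lit 426) (B (lo19_13_2 (nat_lit 425)) (lo110_13_2 (nat_lit 398)))) (B (M (nat_lit 398) (B (lo110_13_2 (nat_lit 426)) (lo115_12_1 (nat_lit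 399)))) (B (M (nat_lit 332) (B (M (nat_lit 364) (B (lo112_10_5 (nat_lit 459)) (lo112_9_4 (nat_lit 300)))) (B (M (nat_lit 333) (B (M (nat_lit 300) (B (lo112_9_4 (nat_lit 364)) (lo113_13_7 (nat_lit 365)))) (B (M (nat_lit 301) (B (lo112_13_6 (nat_lit 364)) (lo113_9_5 (nat_lit 365)))) (B (M (nat_lit 365) (B (lo113_13_7 (nat_lit 300)) (lo113_9_5 (nat_lit 301)))) (M (nat_lit 364) (B (lo112_9_4 (nat_lit 300)) (lo112_13_6 (nat_lit 301)))))))) (B (M (nat_lit 364) (B (lo112_10_5 (nat_lit 459)) (M (nat_lit 333) (B (lo112_13_6 (nat_lit 301)) (M (nat_lit 331) (B (lo112_13_7 (nat_lit 299)) (M (nat_lit 365) (B (lo112_14_6 (nat_lit 460)) (M (nat_lit 330) (B (lo19_10_0 (nat_lit 329)) (lo110_10_0 (nat_lit 366)))))))))))) (M (nat_lit 333) (B (M (nat_lit 365) (B (lo113_13_7 (nat_lit 300)) (lo113_9_5 (nat_lit 301)))) (B (M (nat_lit 365) (B (lo113_9_5 (nat_lit 301)) (lo113_10_5 (nat_lit 460)))) (B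 (M (nat_lit 365) (B (lo113_13_7 (nat_lit 300)) (lo113_10_5 (nat_lit 460)))) (M (nat_lit 334) (B (M (nat_lit 398) (B (lo115_12_1 (nat_lit 399)) (M (nat_lit 366) (B (lo114_9_5 (nat_lit 302)) (M (nat_lit 367) (B (lo111_10_0 (nat_lit 331)) (lo111_12_2 (nat_lit 395)))))))) (B (M (nat_lit 398) (B (lo115_12_1 (nat_lit 399)) (M (nat_lit 366) (B (lo114_9_5 (nat_lit 302)) (M (nat_lit 367) (B (lo111_12_2 (nat_lit 395)) (M (nat_lit 368) (B (lo112_10_0 (nat_lit 335)) (lo117_11_3 (nat_lit 369)))))))))) (B (M (nat_lit 331) (B (M (nat_lit 302) (B (lo111_10_2 (nat_lit 303)) (M (nat_lit 366) (B (lo111_10_0 (nat_lit 367)) (lo114_9_5 (nat_lit 398)))))) (B (M (nat_lit 335) (B (M (nat_lit 299) (B (lo114_10_3 (nat_lit 298)) (lo115_10_3 (nat_lit 300)))) (M (nat_lit 367) (B (lo111_10_0 (nat_lit 366)) (lo112_10_0 (nat_lit 368)))))) (M (nat_lit 335) (B (M (nat_lit 299) (B (lo114_10_3 (nat_lit 298)) (lo115_10_3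 (nat_lit 300)))) (M (nat_lit 303) (B (lo111_10_2 (nat_lit 302)) (lo112_10_2 (nat_lit 304))))))))) (B (M (nat_lit 335) (B (M (nat_lit 300) (B (lo115_10_3 (nat_lit 299)) (M (nat_lit 336) (B (lo116_10_3 (nat_lit 301)) (M (nat_lit 304) (B (lo112_10_2 (nat_lit 303)) (lo113_10_2 (nat_lit 305)))))))) (M (nat_lit 367) (B (lo112_10_0 (nat_lit 368)) (M (nat_lit 366) (B (lo111_10_0 (nat_lit 331)) (M (nat_lit 398) (B (lo111_12_2 (nat_lit 395)) (lo115_12_1 (nat_lit 399)))))))))) (B (M (nat_lit 335) (B (M (nat_lit 299) (B (lo115_10_3 (nat_lit 300)) (M (nat_lit 331) (B (lo114_10_3 (nat_lit 298)) (M (nat_lit 303) (B (lo111_10_2 (nat_lit 302)) (lo112_10_2 (nat_lit 304)))))))) (B (M (nat_lit 336) (B (M (nat_lit 300) (B (lo115_10_3 (nat_lit 299)) (lo116_10_3 (nat_lit 301)))) (M (nat_lit 368) (B (lo112_10_0 (nat_lit 367)) (lo113_10_0 (nat_lit 369)))))) (M (nat_lit 336) (B (M (nat_lit 304) (B (lo112_10_2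 (nat_lit 303)) (lo113_10_2 (nat_lit 305)))) (M (nat_lit 368) (B (lo112_10_0 (nat_lit 367)) (lo113_10_0 (nat_lit 369))))))))) (M (nat_lit 302) (B (M (nat_lit 398) (B (lo115_12_1 (nat_lit 399)) (lo114_9_5 (nat_lit 366)))) (M (nat_lit 303) (B (lo111_10_2 (nat_lit 331)) (M (nat_lit 304) (B (lo116_9_1 (nat_lit 301)) (lo112_10_2 (nat_lit 335)))))))))))))))))))))) (M (nat_lit 426) (B (lo19_13_2 (nat_lit 425)) (M (nat_lit 394) (B (lo113_13_3 (nat_lit 393)) (M (nat_lit 362) (B (M (nat_lit 458) (B (lo113_13_1 (nat_lit 457)) (M (nat_lit 459) (B (lo110_10_4 (nat_lit 330)) (lo110_11_4 (nat_lit 491)))))) (B (M (nat_lit 459) (B (lo110_10_4 (nat_lit 330)) (M (nat_lit 395) (B (lo113_12_3 (nat_lit 361)) (lo111_15_7 (nat_lit 491)))))) (M (nat_lit 458) (B (lo113_13_1 (nat_lit 457)) (M (nat_lit 361) (B (lo110_14_7 (nat_lit 329)) (lo113_12_3 (nat_lit 395))))))))))))))))) (K _ _ _ o1_s45450))))))))))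 (B (M (nat_lit 364) (B (M (nat_lit 461) (B (lo112_10_4 (nat_lit 332)) (M (nat_lit 493) (B (lo113_15_7 (nat_lit 397)) (lo113_16_7 (nat_lit 525)))))) (B (M (nat_lit 461) (B (M (nat_lit 493) (B (lo112_11_4 (nat_lit 460)) (lo113_15_7 (nat_lit 397)))) (B (M (nat_lit 493) (B (lo113_15_7 (nat_lit 397)) (lo113_16_7 (nat_lit 525)))) (B (M (nat_lit 493) (B (lo112_11_4 (nat_lit 460)) (lo113_16_7 (nat_lit 525)))) (M (nat_lit 363) (B (M (nat_lit 365) (B (M (nat_lit 460) (B (lo112_14_7 (nat_lit 331)) (lo112_14_6 (nat_lit 333)))) (B (M (nat_lit 397) (B (M (nat_lit 362) (B (lo19_11_0 (nat_lit 361)) (lo110_11_0 (nat_lit 398)))) (M (nat_lit 333) (B (lo112_14_6 (nat_lit 460)) (lo113_9_5 (nat_lit 301)))))) (B (K _ _ _ o1_s45860) (M (nat_lit 331) (B (lo112_14_7 (nat_lit 460)) (M (nat_lit 330) (B (lo114_11_3 (nat_lit 366)) (M (nat_lit 329) (B (lo18_10_0 (nat_lit 328)) (lo113_11_3 (nat_lit 362))))))))))))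 (B (M (nat_lit 365) (B (M (nat_lit 460) (B (lo112_14_7 (nat_lit 331)) (lo112_14_6 (nat_lit 333)))) (B (M (nat_lit 397) (B (M (nat_lit 362) (B (lo19_11_0 (nat_lit 361)) (lo110_11_0 (nat_lit 398)))) (M (nat_lit 333) (B (lo112_14_6 (nat_lit 460)) (lo113_9_5 (nat_lit 301)))))) (B (K _ _ _ o1_s45860) (M (nat_lit 331) (B (lo112_14_7 (nat_lit 460)) (M (nat_lit 397) (B (M (nat_lit 362) (B (lo19_11_0 (nat_lit 361)) (lo110_11_0 (nat_lit 398)))) (M (nat_lit 366) (B (lo114_11_3 (nat_lit 330)) (lo113_14_6 (nat_lit 334)))))))))))) (B (M (nat_lit 365) (B (M (nat_lit 460) (B (lo112_14_7 (nat_lit 331)) (lo112_14_6 (nat_lit 333)))) (B (M (nat_lit 397) (B (M (nat_lit 398) (B (lo110_11_0 (nat_lit 362)) (lo115_12_3 (nat_lit 399)))) (M (nat_lit 333) (B (lo112_14_6 (nat_lit 460)) (lo113_9_5 (nat_lit 301)))))) (B (M (nat_lit 397) (B (M (nat_lit 398) (B (lo110_11_0 (nat_lit 362)) (lo115_12_3 (nat_lit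 399)))) (M (nat_lit 333) (B (lo113_9_5 (nat_lit 301)) (M (nat_lit 334) (B (lo113_13_6 (nat_lit 302)) (lo113_14_6 (nat_lit 366)))))))) (M (nat_lit 331) (B (lo112_14_7 (nat_lit 460)) (M (nat_lit 330) (B (lo114_11_3 (nat_lit 366)) (M (nat_lit 329) (B (lo18_10_0 (nat_lit 328)) (lo113_11_3 (nat_lit 362)))))))))))) (B (M (nat_lit 426) (B (M (nat_lit 427) (B (lo110_13_0 (nat_lit 462)) (M (nat_lit 397) (B (lo19_13_2 (nat_lit 425)) (lo110_13_2 (nat_lit 398)))))) (B (M (nat_lit 397) (B (M (nat_lit 427) (B (lo110_13_2 (nat_lit 398)) (lo110_13_0 (nat_lit 462)))) (B (M (nat_lit 398) (B (lo115_12_3 (nat_lit 399)) (M (nat_lit 362) (B (lo19_11_0 (nat_lit 361)) (lo110_11_0 (nat_lit 365)))))) (M (nat_lit 365) (B (M (nat_lit 460) (B (lo112_14_7 (nat_lit 331)) (lo112_14_6 (nat_lit 333)))) (M (nat_lit 462) (B (lo110_13_0 (nat_lit 427)) (lo113_11_4 (nat_lit 494))))))))) (M (nat_lit 460) (B (lo112_14_7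 (nat_lit 331)) (M (nat_lit 459) (B (lo112_11_5 (nat_lit 491)) (M (nat_lit 458) (B (lo113_14_3 (nat_lit 425)) (lo19_14_2 (nat_lit 457))))))))))) (B (K _ _ _ o1_s45927) (B (M (nat_lit 365) (B (M (nat_lit 333) (B (lo112_14_6 (nat_lit 460)) (M (nat_lit 397) (B (lo113_9_5 (nat_lit 301)) (M (nat_lit 362) (B (lo19_11_0 (nat_lit 361)) (lo110_11_2 (nat_lit 334)))))))) (B (M (nat_lit 397) (B (M (nat_lit 398) (B (lo110_11_0 (nat_lit 362)) (lo115_12_3 (nat_lit 399)))) (M (nat_lit 333) (B (lo112_14_6 (nat_lit 460)) (lo113_9_5 (nat_lit 301)))))) (B (M (nat_lit 333) (B (lo112_14_6 (nat_lit 460)) (M (nat_lit 397) (B (lo113_9_5 (nat_lit 301)) (M (nat_lit 334) (B (lo113_13_6 (nat_lit 302)) (lo113_14_6 (nat_lit 366)))))))) (B (K _ _ _ o1_s45860) (B (M (nat_lit 362) (B (M (nat_lit 333) (B (lo110_11_2 (nat_lit 334)) (lo112_14_6 (nat_lit 460)))) (M (nat_lit 397) (B (lo19_11_0 (nat_lit 361)) (lo110_11_0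 (nat_lit 398)))))) (B (M (nat_lit 462) (B (M (nat_lit 397) (B (lo113_11_4 (nat_lit 494)) (M (nat_lit 362) (B (lo19_11_0 (nat_lit 361)) (lo110_11_0 (nat_lit 398)))))) (M (nat_lit 427) (B (lo110_13_0 (nat_lit 426)) (M (nat_lit 463) (B (lo115_14_3 (nat_lit 460)) (lo116_14_3 (nat_lit 464)))))))) (M (nat_lit 362) (B (M (nat_lit 333) (B (lo110_11_2 (nat_lit 334)) (lo112_14_6 (nat_lit 460)))) (M (nat_lit 361) (B (M (nat_lit 329) (B (lo112_11_3 (nat_lit 328)) (lo113_11_3 (nat_lit 330)))) (M (nat_lit 393) (B (lo112_11_1 (nat_lit 392)) (lo113_11_1 (nat_lit 394))))))))))))))) (M (nat_lit 362) (B (M (nat_lit 397) (B (lo19_11_0 (nat_lit 361)) (M (nat_lit 398) (B (lo110_11_0 (nat_lit 365)) (lo115_12_3 (nat_lit 399)))))) (B (M (nat_lit 365) (B (M (nat_lit 333) (B (lo110_11_2 (nat_lit 334)) (M (nat_lit 397) (B (lo110_11_0 (nat_lit 398)) (lo113_9_5 (nat_lit 301)))))) (B (M (nat_lit 397) (B (lo110_11_0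 (nat_lit 398)) (M (nat_lit 334) (B (lo110_11_2 (nat_lit 333)) (lo113_14_6 (nat_lit 366)))))) (B (M (nat_lit 366) (B (M (nat_lit 330) (B (lo113_11_3 (nat_lit 329)) (lo114_11_3 (nat_lit 331)))) (M (nat_lit 397) (B (lo110_11_0 (nat_lit 398)) (lo113_14_6 (nat_lit 334)))))) (B (M (nat_lit 366) (B (M (nat_lit 330) (B (lo113_11_3 (nat_lit 329)) (lo114_11_3 (nat_lit 331)))) (M (nat_lit 334) (B (lo110_11_2 (nat_lit 333)) (lo111_11_2 (nat_lit 335)))))) (M (nat_lit 366) (B (M (nat_lit 330) (B (lo113_11_3 (nat_lit 329)) (lo114_11_3 (nat_lit 331)))) (M (nat_lit 398) (B (lo110_11_0 (nat_lit 397)) (lo111_11_0 (nat_lit 399))))))))))) (B (K _ _ _ o1_s45988) (M (nat_lit 394) (B (M (nat_lit 393) (B (lo113_11_1 (nat_lit 365)) (M (nat_lit 392) (B (lo17_12_2 (nat_lit 391)) (lo112_11_1 (nat_lit 361)))))) (B (M (nat_lit 426) (B (M (nat_lit 427) (B (lo113_13_3 (nat_lit 393)) (lo110_13_0 (nat_lit 462))))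 (M (nat_lit 331) (B (lo110_14_6 (nat_lit 458)) (M (nat_lit 299) (B (lo110_13_6 (nat_lit 330)) (lo111_8_5 (nat_lit 267)))))))) (K _ _ _ o1_s46014))))))))))))))))))) (B (M (nat_lit 461) (B (lo112_10_4 (nat_lit 332)) (M (nat_lit 493) (B (lo112_11_4 (nat_lit 460)) (lo113_16_7 (nat_lit 525)))))) (K _ _ _ o1_s46019))))) (B (M (nat_lit 364) (B (M (nat_lit 461) (B (lo112_10_4 (nat_lit 332)) (M (nat_lit 493) (B (lo112_11_4 (nat_lit 460)) (lo113_16_7 (nat_lit 525)))))) (B (K _ _ _ o1_s46044) (B (M (nat_lit 461) (B (lo112_10_4 (nat_lit 332)) (M (nat_lit 493) (B (lo113_15_7 (nat_lit 397)) (lo113_16_7 (nat_lit 525)))))) (K _ _ _ o1_s28837))))) (B (M (nat_lit 364) (B (M (nat_lit 461) (B (lo112_10_4 (nat_lit 332)) (M (nat_lit 493) (B (lo113_15_7 (nat_lit 397)) (lo113_16_7 (nat_lit 525)))))) (B (K _ _ _ o1_s46044) (B (M (nat_lit 461) (B (lo112_10_4 (nat_lit 332)) (M (nat_lit 493) (B (lo112_11_4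 (nat_lit 460)) (lo113_16_7 (nat_lit 525)))))) (K _ _ _ o1_s46065))))) (B (M (nat_lit 397) (B (M (nat_lit 398) (B (M (nat_lit 399) (B (lo115_12_1 (nat_lit 427)) (lo116_12_1 (nat_lit 400)))) (K _ _ _ o1_s45381))) (B (M (nat_lit 365) (B (M (nat_lit 333) (B (lo113_9_5 (nat_lit 301)) (lo113_10_5 (nat_lit 460)))) (B (K _ _ _ o1_s46071) (B (K _ _ _ o1_s46072) (M (nat_lit 461) (B (M (nat_lit 493) (B (lo113_15_7 (nat_lit 364)) (lo113_16_7 (nat_lit 525)))) (M (nat_lit 462) (B (lo113_11_4 (nat_lit 494)) (M (nat_lit 427) (B (lo110_13_0 (nat_lit 426)) (M (nat_lit 463) (B (lo115_14_3 (nat_lit 460)) (lo116_14_3 (nat_lit 464)))))))))))))) (B (M (nat_lit 365) (B (M (nat_lit 333) (B (lo113_9_5 (nat_lit 301)) (lo113_10_5 (nat_lit 460)))) (M (nat_lit 366) (B (M (nat_lit 461) (B (lo113_14_6 (nat_lit 334)) (M (nat_lit 493) (B (lo113_15_7 (nat_lit 364)) (lo113_16_7 (nat_lit 525)))))) (B (M (nat_lit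 461) (B (lo113_14_6 (nat_lit 334)) (M (nat_lit 493) (B (lo113_16_7 (nat_lit 525)) (lo113_15_6 (nat_lit 398)))))) (M (nat_lit 395) (B (lo110_12_2 (nat_lit 394)) (M (nat_lit 367) (B (lo115_11_1 (nat_lit 364)) (lo116_11_1 (nat_lit 368))))))))))) (B (M (nat_lit 398) (B (M (nat_lit 427) (B (lo110_13_2 (nat_lit 426)) (lo115_12_1 (nat_lit 399)))) (B (M (nat_lit 399) (B (lo115_12_1 (nat_lit 427)) (lo116_12_1 (nat_lit 400)))) (B (K _ _ _ o1_s45416) (K _ _ _ o1_s46085))))) (B (M (nat_lit 398) (B (M (nat_lit 427) (B (lo110_13_2 (nat_lit 426)) (lo115_12_1 (nat_lit 399)))) (B (M (nat_lit 399) (B (lo115_12_1 (nat_lit 427)) (lo116_12_1 (nat_lit 400)))) (B (K _ _ _ o1_s45416) (K _ _ _ o1_s46092))))) (M (nat_lit 395) (B (K _ _ _ o1_s46097) (B (M (nat_lit 427) (B (M (nat_lit 426) (B (lo19_13_2 (nat_lit 425)) (lo114_12_1 (nat_lit 398)))) (B (M (nat_lit 398) (B (lo114_12_1 (nat_lit 426)) (lo115_12_1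 (nat_lit 399)))) (B (M (nat_lit 363) (B (M (nat_lit 398) (B (lo114_12_3 (nat_lit 362)) (lo115_12_1 (nat_lit 399)))) (M (nat_lit 331) (B (lo111_9_4 (nat_lit 299)) (lo111_10_4 (nat_lit 460)))))) (M (nat_lit 461) (B (M (nat_lit 426) (B (lo19_13_2 (nat_lit 425)) (lo110_13_0 (nat_lit 462)))) (M (nat_lit 493) (B (lo113_15_7 (nat_lit 364)) (lo113_16_7 (nat_lit 525)))))))))) (B (K _ _ _ o1_s46108) (B (K _ _ _ o1_s45078) (B (M (nat_lit 394) (B (lo19_12_0 (nat_lit 393)) (K _ _ _ o1_s46114))) (M (nat_lit 426) (B (M (nat_lit 394) (B (lo19_12_0 (nat_lit 393)) (lo113_12_1 (nat_lit 425)))) (B (M (nat_lit 425) (B (lo113_12_1 (nat_lit 394)) (lo19_13_2 (nat_lit 427)))) (M (nat_lit 461) (B (M (nat_lit 493) (B (lo113_15_7 (nat_lit 364)) (lo113_16_7 (nat_lit 525)))) (M (nat_lit 365) (B (M (nat_lit 333) (B (lo113_9_5 (nat_lit 301)) (lo113_10_5 (nat_lit 460)))) (M (nat_lit 462) (B (lo110_13_0 (nat_lit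 427)) (lo113_11_4 (nat_lit 494))))))))))))))))))))))) (B (M (nat_lit 397) (B (M (nat_lit 365) (B (M (nat_lit 333) (B (lo113_9_5 (nat_lit 301)) (lo113_10_5 (nat_lit 460)))) (M (nat_lit 398) (B (M (nat_lit 427) (B (lo110_13_2 (nat_lit 426)) (lo115_12_1 (nat_lit 399)))) (M (nat_lit 366) (B (M (nat_lit 367) (B (lo111_12_2 (nat_lit 395)) (lo116_11_1 (nat_lit 368)))) (M (nat_lit 461) (B (lo113_14_6 (nat_lit 334)) (lo113_15_6 (nat_lit 493)))))))))) (B (M (nat_lit 398) (B (M (nat_lit 399) (B (lo115_12_1 (nat_lit 427)) (lo116_12_1 (nat_lit 400)))) (K _ _ _ o1_s45381))) (B (M (nat_lit 365) (B (M (nat_lit 333) (B (lo113_9_5 (nat_lit 301)) (lo113_10_5 (nat_lit 460)))) (B (K _ _ _ o1_s46131) (B (M (nat_lit 461) (B (M (nat_lit 493) (B (lo113_16_7 (nat_lit 525)) (M (nat_lit 494) (B (lo113_11_4 (nat_lit 462)) (lo113_12_4 (nat_lit 526)))))) (M (nat_lit 333) (B (lo113_10_5 (nat_lit 460)) (M (nat_lit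 334) (B (lo113_13_6 (nat_lit 302)) (lo113_14_6 (nat_lit 366)))))))) (M (nat_lit 461) (B (M (nat_lit 493) (B (lo113_16_7 (nat_lit 525)) (M (nat_lit 366) (B (lo113_14_6 (nat_lit 334)) (lo113_15_6 (nat_lit 398)))))) (M (nat_lit 462) (B (lo113_11_4 (nat_lit 494)) (M (nat_lit 427) (B (lo110_13_0 (nat_lit 426)) (M (nat_lit 463) (B (lo115_14_3 (nat_lit 460)) (lo116_14_3 (nat_lit 464)))))))))))))) (B (M (nat_lit 365) (B (M (nat_lit 333) (B (lo113_9_5 (nat_lit 301)) (lo113_10_5 (nat_lit 460)))) (M (nat_lit 461) (B (M (nat_lit 493) (B (lo113_16_7 (nat_lit 525)) (M (nat_lit 366) (B (lo113_14_6 (nat_lit 334)) (lo113_15_6 (nat_lit 398)))))) (B (M (nat_lit 366) (B (lo113_14_6 (nat_lit 334)) (M (nat_lit 395) (B (lo110_12_2 (nat_lit 394)) (M (nat_lit 367) (B (lo111_12_2 (nat_lit 398)) (lo116_11_1 (nat_lit 368)))))))) (M (nat_lit 493) (B (lo113_16_7 (nat_lit 525)) (M (nat_lit 494) (B (lo113_11_4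 (nat_lit 462)) (lo113_12_4 (nat_lit 526))))))))))) (B (M (nat_lit 398) (B (M (nat_lit 399) (B (lo115_12_1 (nat_lit 427)) (lo116_12_1 (nat_lit 400)))) (K _ _ _ o1_s45429))) (B (M (nat_lit 398) (B (M (nat_lit 427) (B (lo110_13_2 (nat_lit 426)) (lo115_12_1 (nat_lit 399)))) (B (M (nat_lit 399) (B (lo115_12_1 (nat_lit 427)) (lo116_12_1 (nat_lit 400)))) (B (M (nat_lit 395) (B (M (nat_lit 362) (B (lo114_12_3 (nat_lit 363)) (M (nat_lit 394) (B (lo113_12_3 (nat_lit 361)) (lo19_12_0 (nat_lit 393)))))) (M (nat_lit 367) (B (lo111_12_2 (nat_lit 366)) (M (nat_lit 399) (B (lo112_12_2 (nat_lit 368)) (lo116_12_1 (nat_lit 400)))))))) (K _ _ _ o1_s46092))))) (B (M (nat_lit 395) (B (K _ _ _ o1_s46097) (B (M (nat_lit 394) (B (lo19_12_0 (nat_lit 393)) (K _ _ _ o1_s46154))) (B (M (nat_lit 394) (B (M (nat_lit 426) (B (lo113_12_1 (nat_lit 425)) (M (nat_lit 398) (B (lo114_12_1 (nat_lit 427)) (M (nat_lit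 362) (B (lo113_12_3 (nat_lit 361)) (lo114_12_3 (nat_lit 363)))))))) (B (K _ _ _ o1_s46154) (B (M (nat_lit 398) (B (M (nat_lit 362) (B (lo113_12_3 (nat_lit 361)) (lo114_12_3 (nat_lit 363)))) (M (nat_lit 399) (B (lo115_12_1 (nat_lit 427)) (lo116_12_1 (nat_lit 400)))))) (B (K _ _ _ o1_s46161) (B (K _ _ _ o1_s46114) (K _ _ _ o1_s46168))))))) (B (K _ _ _ o1_s46108) (B (M (nat_lit 427) (B (M (nat_lit 426) (B (lo19_13_2 (nat_lit 425)) (lo114_12_1 (nat_lit 398)))) (B (M (nat_lit 398) (B (lo114_12_1 (nat_lit 426)) (lo115_12_1 (nat_lit 399)))) (B (M (nat_lit 363) (B (M (nat_lit 398) (B (lo114_12_3 (nat_lit 362)) (lo115_12_1 (nat_lit 399)))) (M (nat_lit 331) (B (lo111_9_4 (nat_lit 299)) (lo111_10_4 (nat_lit 460)))))) (K _ _ _ o1_s46177))))) (B (M (nat_lit 394) (B (lo19_12_0 (nat_lit 393)) (K _ _ _ o1_s46161))) (B (M (nat_lit 394) (B (lo19_12_0 (nat_lit 393)) (K _ _ _ o1_s46114))) (M (nat_lit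 394) (B (lo19_12_0 (nat_lit 393)) (K _ _ _ o1_s46168))))))))))) (M (nat_lit 394) (B (M (nat_lit 426) (B (M (nat_lit 393) (B (lo113_13_3 (nat_lit 427)) (lo19_12_0 (nat_lit 395)))) (B (M (nat_lit 425) (B (lo113_12_1 (nat_lit 395)) (lo19_13_2 (nat_lit 427)))) (B (M (nat_lit 427) (B (lo113_13_3 (nat_lit 393)) (lo19_13_2 (nat_lit 425)))) (M (nat_lit 395) (B (lo19_12_0 (nat_lit 393)) (lo113_12_1 (nat_lit 425)))))))) (B (M (nat_lit 365) (B (M (nat_lit 333) (B (lo113_9_5 (nat_lit 301)) (lo113_10_5 (nat_lit 460)))) (M (nat_lit 461) (B (M (nat_lit 366) (B (lo110_12_2 (nat_lit 395)) (lo113_14_6 (nat_lit 334)))) (M (nat_lit 493) (B (lo113_16_7 (nat_lit 525)) (M (nat_lit 494) (B (lo113_11_4 (nat_lit 462)) (lo113_12_4 (nat_lit 526)))))))))) (M (nat_lit 426) (B (M (nat_lit 427) (B (lo113_13_3 (nat_lit 393)) (lo19_13_2 (nat_lit 425)))) (B (M (nat_lit 362) (B (M (nat_lit 427) (B (lo19_13_2 (nat_lit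 425)) (M (nat_lit 458) (B (lo113_13_1 (nat_lit 457)) (M (nat_lit 459) (B (lo110_10_4 (nat_lit 330)) (lo110_11_4 (nat_lit 491)))))))) (B (M (nat_lit 458) (B (M (nat_lit 457) (B (lo110_11_5 (nat_lit 489)) (lo113_13_1 (nat_lit 427)))) (M (nat_lit 330) (B (M (nat_lit 329) (B (lo110_13_7 (nat_lit 297)) (lo110_14_7 (nat_lit 361)))) (M (nat_lit 331) (B (lo110_13_6 (nat_lit 299)) (lo110_14_6 (nat_lit 363)))))))) (B (M (nat_lit 427) (B (lo19_13_2 (nat_lit 425)) (M (nat_lit 459) (B (lo110_10_4 (nat_lit 330)) (M (nat_lit 491) (B (lo110_11_4 (nat_lit 458)) (lo111_16_7 (nat_lit 523)))))))) (B (M (nat_lit 461) (B (M (nat_lit 427) (B (lo19_13_2 (nat_lit 425)) (lo110_13_0 (nat_lit 462)))) (B (M (nat_lit 365) (B (M (nat_lit 333) (B (lo113_9_5 (nat_lit 301)) (lo113_10_5 (nat_lit 460)))) (M (nat_lit 462) (B (lo110_13_0 (nat_lit 427)) (lo113_11_4 (nat_lit 494)))))) (B (M (nat_lit 365) (B (M (nat_lit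 333) (B (lo113_9_5 (nat_lit 301)) (lo113_10_5 (nat_lit 460)))) (M (nat_lit 493) (B (lo113_16_7 (nat_lit 525)) (M (nat_lit 494) (B (lo113_11_4 (nat_lit 462)) (lo113_12_4 (nat_lit 526)))))))) (M (nat_lit 458) (B (M (nat_lit 457) (B (lo110_11_5 (nat_lit 489)) (lo113_13_1 (nat_lit 427)))) (B (M (nat_lit 425) (B (lo19_13_2 (nat_lit 427)) (M (nat_lit 459) (B (lo113_14_3 (nat_lit 460)) (lo110_11_4 (nat_lit 491)))))) (M (nat_lit 459) (B (lo110_11_4 (nat_lit 491)) (M (nat_lit 457) (B (lo110_11_5 (nat_lit 489)) (lo19_14_2 (nat_lit 460))))))))))))) (B (M (nat_lit 330) (B (M (nat_lit 425) (B (lo110_10_5 (nat_lit 457)) (lo19_13_2 (nat_lit 427)))) (M (nat_lit 298) (B (M (nat_lit 297) (B (lo110_12_7 (nat_lit 265)) (lo110_13_7 (nat_lit 329)))) (M (nat_lit 299) (B (lo110_12_6 (nat_lit 267)) (lo110_13_6 (nat_lit 331)))))))) (K _ _ _ o1_s46255))))))) (B (M (nat_lit 458) (B (M (nat_lit 427) (B (lo113_13_3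 (nat_lit 393)) (lo113_13_1 (nat_lit 457)))) (B (M (nat_lit 457) (B (lo113_13_1 (nat_lit 427)) (M (nat_lit 362) (B (lo110_11_5 (nat_lit 489)) (M (nat_lit 459) (B (lo19_14_2 (nat_lit 460)) (lo110_11_4 (nat_lit 491)))))))) (B (M (nat_lit 393) (B (lo113_13_3 (nat_lit 427)) (M (nat_lit 361) (B (lo110_15_7 (nat_lit 490)) (M (nat_lit 329) (B (lo19_9_4 (nat_lit 297)) (lo110_14_7 (nat_lit 362)))))))) (M (nat_lit 362) (B (M (nat_lit 457) (B (lo110_11_5 (nat_lit 489)) (M (nat_lit 459) (B (lo19_14_2 (nat_lit 460)) (lo110_11_4 (nat_lit 491)))))) (M (nat_lit 330) (B (M (nat_lit 329) (B (lo110_13_7 (nat_lit 297)) (lo110_14_7 (nat_lit 361)))) (M (nat_lit 331) (B (lo110_13_6 (nat_lit 299)) (lo110_14_6 (nat_lit 363)))))))))))) (M (nat_lit 362) (B (K _ _ _ o1_s46255) (B (K _ _ _ o1_s45609) (B (M (nat_lit 457) (B (M (nat_lit 458) (B (lo110_11_5 (nat_lit 489)) (M (nat_lit 459) (B (lo19_14_2 (nat_lit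 460)) (lo110_11_4 (nat_lit 491)))))) (B (M (nat_lit 458) (B (M (nat_lit 459) (B (lo19_14_2 (nat_lit 460)) (lo110_11_4 (nat_lit 491)))) (M (nat_lit 330) (B (lo110_10_5 (nat_lit 425)) (M (nat_lit 331) (B (lo110_13_6 (nat_lit 299)) (lo110_14_6 (nat_lit 363)))))))) (M (nat_lit 425) (B (lo110_10_5 (nat_lit 330)) (M (nat_lit 489) (B (lo19_15_6 (nat_lit 393)) (lo19_16_6 (nat_lit 521))))))))) (B (M (nat_lit 331) (B (M (nat_lit 299) (B (lo110_13_6 (nat_lit 330)) (M (nat_lit 363) (B (lo110_14_6 (nat_lit 458)) (lo111_8_5 (nat_lit 267)))))) (B (M (nat_lit 458) (B (lo110_14_6 (nat_lit 363)) (M (nat_lit 490) (B (M (nat_lit 361) (B (lo110_14_7 (nat_lit 329)) (lo110_15_7 (nat_lit 393)))) (M (nat_lit 491) (B (lo110_11_4 (nat_lit 459)) (lo110_12_4 (nat_lit 523)))))))) (M (nat_lit 330) (B (lo110_13_6 (nat_lit 299)) (M (nat_lit 333) (B (M (nat_lit 365) (B (lo113_9_5 (nat_lit 301)) (lo113_10_5 (nat_lit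 460)))) (M (nat_lit 332) (B (lo113_10_1 (nat_lit 361)) (M (nat_lit 297) (B (lo110_13_7 (nat_lit 329)) (lo113_10_3 (nat_lit 298))))))))))))) (B (M (nat_lit 330) (B (M (nat_lit 298) (B (M (nat_lit 297) (B (lo110_12_7 (nat_lit 265)) (lo110_13_7 (nat_lit 329)))) (M (nat_lit 299) (B (lo110_12_6 (nat_lit 267)) (lo110_13_6 (nat_lit 331)))))) (B (M (nat_lit 425) (B (lo110_10_5 (nat_lit 457)) (M (nat_lit 298) (B (lo110_9_5 (nat_lit 393)) (M (nat_lit 299) (B (lo110_12_6 (nat_lit 267)) (lo110_13_6 (nat_lit 331)))))))) (B (M (nat_lit 329) (B (lo110_13_7 (nat_lit 297)) (M (nat_lit 331) (B (lo110_13_6 (nat_lit 299)) (M (nat_lit 333) (B (M (nat_lit 365) (B (lo113_9_5 (nat_lit 301)) (lo113_10_5 (nat_lit 460)))) (B (M (nat_lit 365) (B (lo113_9_5 (nat_lit 301)) (M (nat_lit 332) (B (lo113_10_1 (nat_lit 361)) (lo113_13_7 (nat_lit 300)))))) (B (M (nat_lit 365) (B (lo113_10_5 (nat_lit 460)) (M (nat_lit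 332) (B (lo113_10_1 (nat_lit 361)) (lo113_13_7 (nat_lit 300)))))) (M (nat_lit 332) (B (lo113_10_1 (nat_lit 361)) (M (nat_lit 301) (B (lo19_10_2 (nat_lit 300)) (lo110_10_2 (nat_lit 302)))))))))))))) (M (nat_lit 298) (B (M (nat_lit 297) (B (lo110_12_7 (nat_lit 265)) (lo110_13_7 (nat_lit 329)))) (M (nat_lit 425) (B (lo110_9_5 (nat_lit 393)) (lo110_10_5 (nat_lit 457)))))))))) (M (nat_lit 458) (B (M (nat_lit 330) (B (M (nat_lit 457) (B (lo110_10_5 (nat_lit 425)) (lo110_11_5 (nat_lit 489)))) (M (nat_lit 331) (B (lo110_13_6 (nat_lit 299)) (lo110_14_6 (nat_lit 363)))))) (B (M (nat_lit 330) (B (M (nat_lit 329) (B (lo110_13_7 (nat_lit 297)) (lo110_14_7 (nat_lit 361)))) (M (nat_lit 331) (B (lo110_13_6 (nat_lit 299)) (lo110_14_6 (nat_lit 363)))))) (M (nat_lit 490) (B (M (nat_lit 361) (B (lo110_14_7 (nat_lit 329)) (lo110_15_7 (nat_lit 393)))) (M (nat_lit 491) (B (lo110_11_4 (nat_lit 459))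 (lo110_12_4 (nat_lit 523)))))))))))))))))))))))))))))) (B (M (nat_lit 397) (B (M (nat_lit 398) (B (M (nat_lit 399) (B (lo115_12_1 (nat_lit 427)) (lo116_12_1 (nat_lit 400)))) (K _ _ _ o1_s45429))) (B (M (nat_lit 398) (B (M (nat_lit 427) (B (lo110_13_2 (nat_lit 426)) (lo115_12_1 (nat_lit 399)))) (B (M (nat_lit 399) (B (lo115_12_1 (nat_lit 427)) (lo116_12_1 (nat_lit 400)))) (B (M (nat_lit 364) (B (M (nat_lit 399) (B (lo115_12_3 (nat_lit 363)) (lo116_12_1 (nat_lit 400)))) (M (nat_lit 461) (B (lo112_10_4 (nat_lit 332)) (lo113_15_7 (nat_lit 493)))))) (K _ _ _ o1_s46085))))) (B (K _ _ _ o1_s44893) (B (M (nat_lit 398) (B (M (nat_lit 427) (B (lo110_13_2 (nat_lit 426)) (lo115_12_1 (nat_lit 399)))) (B (M (nat_lit 399) (B (lo115_12_1 (nat_lit 427)) (lo116_12_1 (nat_lit 400)))) (B (M (nat_lit 364) (B (M (nat_lit 399) (B (lo115_12_3 (nat_lit 363)) (lo116_12_1 (nat_lit 400)))) (M (nat_lit 461)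 (B (lo112_10_4 (nat_lit 332)) (lo113_15_7 (nat_lit 493)))))) (M (nat_lit 461) (B (M (nat_lit 364) (B (lo112_10_4 (nat_lit 332)) (lo113_15_7 (nat_lit 493)))) (B (M (nat_lit 493) (B (lo113_15_7 (nat_lit 364)) (lo113_15_6 (nat_lit 366)))) (B (M (nat_lit 493) (B (lo113_16_7 (nat_lit 525)) (lo113_15_6 (nat_lit 366)))) (M (nat_lit 365) (B (M (nat_lit 333) (B (lo113_9_5 (nat_lit 301)) (M (nat_lit 332) (B (lo113_13_7 (nat_lit 300)) (lo112_10_4 (nat_lit 364)))))) (M (nat_lit 366) (B (lo113_14_6 (nat_lit 334)) (M (nat_lit 367) (B (lo111_12_2 (nat_lit 395)) (lo116_11_1 (nat_lit 368)))))))))))))))) (B (M (nat_lit 461) (B (M (nat_lit 364) (B (lo112_10_4 (nat_lit 332)) (lo113_15_7 (nat_lit 493)))) (B (M (nat_lit 493) (B (lo113_15_7 (nat_lit 364)) (lo113_16_7 (nat_lit 525)))) (B (M (nat_lit 398) (B (M (nat_lit 399) (B (lo115_12_1 (nat_lit 427)) (lo116_12_1 (nat_lit 400)))) (M (nat_lit 493) (B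 (lo113_16_7 (nat_lit 525)) (lo113_15_6 (nat_lit 366)))))) (M (nat_lit 365) (B (M (nat_lit 333) (B (lo113_9_5 (nat_lit 301)) (M (nat_lit 332) (B (lo113_13_7 (nat_lit 300)) (lo112_10_4 (nat_lit 364)))))) (B (M (nat_lit 333) (B (lo113_9_5 (nat_lit 301)) (M (nat_lit 334) (B (lo113_13_6 (nat_lit 302)) (lo113_14_6 (nat_lit 366)))))) (B (M (nat_lit 333) (B (M (nat_lit 332) (B (lo113_13_7 (nat_lit 300)) (lo112_10_4 (nat_lit 364)))) (M (nat_lit 334) (B (lo113_13_6 (nat_lit 302)) (lo113_14_6 (nat_lit 366)))))) (M (nat_lit 364) (B (lo112_10_4 (nat_lit 332)) (M (nat_lit 366) (B (lo113_14_6 (nat_lit 334)) (M (nat_lit 395) (B (lo110_12_2 (nat_lit 394)) (lo115_11_1 (nat_lit 367)))))))))))))))) (B (M (nat_lit 365) (B (M (nat_lit 333) (B (lo113_9_5 (nat_lit 301)) (M (nat_lit 461) (B (M (nat_lit 332) (B (lo113_13_7 (nat_lit 300)) (lo112_10_4 (nat_lit 364)))) (M (nat_lit 334) (B (lo113_13_6 (nat_lit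 302)) (lo113_14_6 (nat_lit 366)))))))) (B (K _ _ _ o1_s46071) (B (K _ _ _ o1_s46131) (B (K _ _ _ o1_s46356) (B (M (nat_lit 333) (B (lo113_9_5 (nat_lit 301)) (M (nat_lit 332) (B (lo113_13_7 (nat_lit 300)) (M (nat_lit 364) (B (M (nat_lit 331) (B (lo112_13_7 (nat_lit 299)) (M (nat_lit 330) (B (lo19_10_0 (nat_lit 329)) (lo110_10_0 (nat_lit 366)))))) (M (nat_lit 334) (B (lo113_13_6 (nat_lit 302)) (M (nat_lit 363) (B (lo110_11_2 (nat_lit 362)) (lo115_10_1 (nat_lit 335)))))))))))) (M (nat_lit 461) (B (M (nat_lit 364) (B (lo112_10_4 (nat_lit 332)) (lo113_15_7 (nat_lit 493)))) (B (M (nat_lit 493) (B (lo113_15_7 (nat_lit 364)) (lo113_16_7 (nat_lit 525)))) (B (M (nat_lit 493) (B (lo113_16_7 (nat_lit 525)) (M (nat_lit 494) (B (lo113_11_4 (nat_lit 462)) (lo113_12_4 (nat_lit 526)))))) (M (nat_lit 333) (B (lo113_9_5 (nat_lit 301)) (M (nat_lit 332) (B (lo113_13_7 (nat_lit 300)) (lo112_10_4 (nat_lit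 364)))))))))))))))) (B (M (nat_lit 461) (B (M (nat_lit 364) (B (lo112_10_4 (nat_lit 332)) (lo113_15_7 (nat_lit 493)))) (B (M (nat_lit 493) (B (lo113_15_7 (nat_lit 364)) (lo113_16_7 (nat_lit 525)))) (B (K _ _ _ o1_s46370) (K _ _ _ o1_s46372))))) (B (M (nat_lit 398) (B (M (nat_lit 427) (B (lo110_13_2 (nat_lit 426)) (lo115_12_1 (nat_lit 399)))) (B (M (nat_lit 399) (B (lo115_12_1 (nat_lit 427)) (lo116_12_1 (nat_lit 400)))) (B (M (nat_lit 364) (B (M (nat_lit 399) (B (lo115_12_3 (nat_lit 363)) (lo116_12_1 (nat_lit 400)))) (M (nat_lit 461) (B (lo112_10_4 (nat_lit 332)) (lo113_15_7 (nat_lit 493)))))) (M (nat_lit 395) (B (M (nat_lit 426) (B (lo114_12_1 (nat_lit 427)) (M (nat_lit 394) (B (lo19_12_0 (nat_lit 393)) (lo113_12_1 (nat_lit 425)))))) (B (M (nat_lit 394) (B (M (nat_lit 362) (B (lo113_12_3 (nat_lit 361)) (lo114_12_3 (nat_lit 363)))) (M (nat_lit 426) (B (lo113_12_1 (nat_lit 425))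 (lo114_12_1 (nat_lit 427)))))) (B (M (nat_lit 362) (B (lo114_12_3 (nat_lit 363)) (M (nat_lit 394) (B (lo113_12_3 (nat_lit 361)) (lo19_12_0 (nat_lit 393)))))) (M (nat_lit 427) (B (lo114_12_1 (nat_lit 426)) (M (nat_lit 332) (B (M (nat_lit 364) (B (lo112_9_5 (nat_lit 300)) (lo112_10_5 (nat_lit 459)))) (B (M (nat_lit 364) (B (lo112_9_5 (nat_lit 300)) (lo112_10_4 (nat_lit 461)))) (B (M (nat_lit 364) (B (lo112_10_5 (nat_lit 459)) (lo112_10_4 (nat_lit 461)))) (M (nat_lit 363) (B (lo114_12_3 (nat_lit 362)) (M (nat_lit 331) (B (lo111_9_4 (nat_lit 299)) (lo111_13_6 (nat_lit 300)))))))))))))))))))) (B (M (nat_lit 427) (B (M (nat_lit 426) (B (lo19_13_2 (nat_lit 425)) (lo110_13_2 (nat_lit 398)))) (B (M (nat_lit 398) (B (lo110_13_2 (nat_lit 426)) (lo115_12_1 (nat_lit 399)))) (B (M (nat_lit 395) (B (M (nat_lit 394) (B (lo19_12_0 (nat_lit 393)) (M (nat_lit 362) (B (lo113_12_3 (nat_lit 361)) (M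 (nat_lit 398) (B (lo114_12_3 (nat_lit 363)) (lo115_12_1 (nat_lit 399)))))))) (B (M (nat_lit 394) (B (lo19_12_0 (nat_lit 393)) (M (nat_lit 398) (B (lo115_12_1 (nat_lit 399)) (M (nat_lit 366) (B (lo110_12_2 (nat_lit 365)) (lo111_12_2 (nat_lit 367)))))))) (B (K _ _ _ o1_s46402) (B (M (nat_lit 363) (B (M (nat_lit 398) (B (lo114_12_3 (nat_lit 362)) (lo115_12_1 (nat_lit 399)))) (M (nat_lit 459) (B (M (nat_lit 364) (B (lo111_14_6 (nat_lit 332)) (lo111_15_6 (nat_lit 491)))) (B (M (nat_lit 331) (B (lo111_9_4 (nat_lit 299)) (M (nat_lit 332) (B (lo111_13_6 (nat_lit 300)) (lo111_14_6 (nat_lit 364)))))) (B (M (nat_lit 491) (B (lo111_15_6 (nat_lit 364)) (lo111_16_6 (nat_lit 523)))) (M (nat_lit 490) (B (lo111_11_5 (nat_lit 458)) (M (nat_lit 491) (B (lo111_12_5 (nat_lit 522)) (lo111_16_6 (nat_lit 523)))))))))))) (K _ _ _ o1_s46424)))))) (M (nat_lit 395) (B (K _ _ _ o1_s46177) (B (K _ _ _ o1_s46424)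 (B (K _ _ _ o1_s46428) (K _ _ _ o1_s46430))))))))) (M (nat_lit 461) (B (M (nat_lit 364) (B (lo112_10_4 (nat_lit 332)) (lo113_15_7 (nat_lit 493)))) (B (M (nat_lit 493) (B (lo113_15_7 (nat_lit 364)) (lo113_16_7 (nat_lit 525)))) (B (M (nat_lit 365) (B (M (nat_lit 333) (B (lo113_9_5 (nat_lit 301)) (M (nat_lit 334) (B (lo113_13_6 (nat_lit 302)) (lo113_14_6 (nat_lit 366)))))) (M (nat_lit 493) (B (lo113_16_7 (nat_lit 525)) (M (nat_lit 494) (B (lo113_11_4 (nat_lit 462)) (lo113_12_4 (nat_lit 526)))))))) (K _ _ _ o1_s46372))))))))))))))) (B (M (nat_lit 397) (B (M (nat_lit 398) (B (M (nat_lit 399) (B (lo115_12_1 (nat_lit 427)) (lo116_12_1 (nat_lit 400)))) (K _ _ _ o1_s45429))) (B (M (nat_lit 365) (B (K _ _ _ o1_s46441) (B (K _ _ _ o1_s46072) (B (M (nat_lit 398) (B (M (nat_lit 427) (B (lo110_13_2 (nat_lit 426)) (lo115_12_1 (nat_lit 399)))) (M (nat_lit 366) (B (M (nat_lit 395) (B (lo110_12_2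 (nat_lit 394)) (lo111_12_2 (nat_lit 367)))) (M (nat_lit 461) (B (lo113_14_6 (nat_lit 334)) (lo113_15_6 (nat_lit 493)))))))) (M (nat_lit 364) (B (M (nat_lit 427) (B (M (nat_lit 426) (B (lo19_13_2 (nat_lit 425)) (lo110_13_2 (nat_lit 398)))) (M (nat_lit 332) (B (lo112_10_5 (nat_lit 459)) (lo112_9_4 (nat_lit 300)))))) (B (M (nat_lit 332) (B (lo112_9_4 (nat_lit 300)) (M (nat_lit 460) (B (lo112_14_6 (nat_lit 333)) (M (nat_lit 331) (B (lo112_13_7 (nat_lit 299)) (lo112_14_7 (nat_lit 363)))))))) (M (nat_lit 460) (B (lo112_14_6 (nat_lit 333)) (M (nat_lit 363) (B (lo112_14_7 (nat_lit 331)) (M (nat_lit 398) (B (lo110_11_0 (nat_lit 362)) (lo115_12_3 (nat_lit 399))))))))))))))) (B (M (nat_lit 461) (B (M (nat_lit 364) (B (lo112_10_4 (nat_lit 332)) (lo113_15_7 (nat_lit 493)))) (B (M (nat_lit 493) (B (lo113_15_7 (nat_lit 364)) (lo113_16_7 (nat_lit 525)))) (B (M (nat_lit 398) (B (M (nat_lit 399)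 (B (lo115_12_1 (nat_lit 427)) (lo116_12_1 (nat_lit 400)))) (M (nat_lit 493) (B (lo113_16_7 (nat_lit 525)) (lo113_15_6 (nat_lit 366)))))) (K _ _ _ o1_s46456))))) (B (M (nat_lit 365) (B (K _ _ _ o1_s46441) (B (K _ _ _ o1_s46072) (B (M (nat_lit 461) (B (M (nat_lit 333) (B (lo113_10_5 (nat_lit 460)) (M (nat_lit 334) (B (lo113_13_6 (nat_lit 302)) (lo113_14_6 (nat_lit 366)))))) (B (M (nat_lit 493) (B (lo113_16_7 (nat_lit 525)) (M (nat_lit 366) (B (lo113_14_6 (nat_lit 334)) (lo113_15_6 (nat_lit 398)))))) (M (nat_lit 493) (B (lo113_16_7 (nat_lit 525)) (M (nat_lit 494) (B (lo113_11_4 (nat_lit 462)) (lo113_12_4 (nat_lit 526))))))))) (B (K _ _ _ o1_s46356) (M (nat_lit 364) (B (M (nat_lit 427) (B (M (nat_lit 426) (B (lo19_13_2 (nat_lit 425)) (lo110_13_2 (nat_lit 398)))) (M (nat_lit 332) (B (lo112_10_5 (nat_lit 459)) (lo112_9_4 (nat_lit 300)))))) (B (M (nat_lit 363) (B (M (nat_lit 362) (B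 (lo19_11_0 (nat_lit 361)) (lo110_11_0 (nat_lit 398)))) (M (nat_lit 460) (B (lo112_14_7 (nat_lit 331)) (lo112_14_6 (nat_lit 333)))))) (M (nat_lit 332) (B (lo112_9_4 (nat_lit 300)) (M (nat_lit 460) (B (lo112_14_6 (nat_lit 333)) (M (nat_lit 331) (B (lo112_13_7 (nat_lit 299)) (lo112_14_7 (nat_lit 363)))))))))))))))) (B (M (nat_lit 364) (B (M (nat_lit 332) (B (lo112_9_4 (nat_lit 300)) (lo112_10_4 (nat_lit 461)))) (B (M (nat_lit 461) (B (lo112_10_4 (nat_lit 332)) (lo113_15_7 (nat_lit 493)))) (B (M (nat_lit 365) (B (M (nat_lit 366) (B (M (nat_lit 395) (B (lo110_12_2 (nat_lit 394)) (lo115_11_1 (nat_lit 367)))) (M (nat_lit 461) (B (lo113_15_7 (nat_lit 493)) (lo113_14_6 (nat_lit 334)))))) (M (nat_lit 363) (B (M (nat_lit 362) (B (lo19_11_0 (nat_lit 361)) (lo110_11_0 (nat_lit 398)))) (M (nat_lit 460) (B (lo112_14_7 (nat_lit 331)) (lo112_14_6 (nat_lit 333)))))))) (M (nat_lit 363) (B (M (nat_lit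 398) (B (lo115_12_3 (nat_lit 399)) (M (nat_lit 362) (B (lo19_11_0 (nat_lit 361)) (lo114_12_3 (nat_lit 395)))))) (M (nat_lit 331) (B (lo112_14_7 (nat_lit 460)) (M (nat_lit 332) (B (lo112_13_7 (nat_lit 299)) (lo112_9_4 (nat_lit 300)))))))))))) (B (M (nat_lit 398) (B (M (nat_lit 427) (B (lo110_13_2 (nat_lit 426)) (lo115_12_1 (nat_lit 399)))) (B (M (nat_lit 399) (B (lo115_12_1 (nat_lit 427)) (lo116_12_1 (nat_lit 400)))) (B (M (nat_lit 364) (B (M (nat_lit 399) (B (lo115_12_3 (nat_lit 363)) (lo116_12_1 (nat_lit 400)))) (M (nat_lit 461) (B (lo112_10_4 (nat_lit 332)) (lo113_15_7 (nat_lit 493)))))) (K _ _ _ o1_s46092))))) (B (M (nat_lit 398) (B (M (nat_lit 427) (B (lo110_13_2 (nat_lit 426)) (lo115_12_1 (nat_lit 399)))) (B (M (nat_lit 399) (B (lo115_12_1 (nat_lit 427)) (lo116_12_1 (nat_lit 400)))) (B (K _ _ _ o1_s45416) (K _ _ _ o1_s46092))))) (M (nat_lit 461) (B (M (nat_lit 364) (B (lo112_10_4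 (nat_lit 332)) (lo113_15_7 (nat_lit 493)))) (B (M (nat_lit 493) (B (lo113_15_7 (nat_lit 364)) (lo113_16_7 (nat_lit 525)))) (B (M (nat_lit 365) (B (M (nat_lit 333) (B (lo113_10_5 (nat_lit 460)) (M (nat_lit 334) (B (lo113_13_6 (nat_lit 302)) (lo113_14_6 (nat_lit 366)))))) (M (nat_lit 493) (B (lo113_16_7 (nat_lit 525)) (M (nat_lit 494) (B (lo113_11_4 (nat_lit 462)) (lo113_12_4 (nat_lit 526)))))))) (K _ _ _ o1_s46456))))))))))))) (B (M (nat_lit 364) (B (M (nat_lit 461) (B (lo112_10_4 (nat_lit 332)) (M (nat_lit 493) (B (lo113_15_7 (nat_lit 397)) (lo113_16_7 (nat_lit 525)))))) (B (M (nat_lit 461) (B (M (nat_lit 493) (B (lo112_11_4 (nat_lit 460)) (lo113_15_7 (nat_lit 397)))) (B (M (nat_lit 493) (B (lo113_15_7 (nat_lit 397)) (lo113_16_7 (nat_lit 525)))) (B (M (nat_lit 493) (B (lo112_11_4 (nat_lit 460)) (lo113_16_7 (nat_lit 525)))) (M (nat_lit 397) (B (M (nat_lit 363) (B (M (nat_lit 398)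 (B (lo115_12_3 (nat_lit 399)) (M (nat_lit 362) (B (lo19_11_0 (nat_lit 361)) (lo114_12_3 (nat_lit 395)))))) (B (M (nat_lit 398) (B (lo115_12_3 (nat_lit 399)) (M (nat_lit 362) (B (lo114_12_3 (nat_lit 395)) (lo110_11_0 (nat_lit 365)))))) (B (M (nat_lit 331) (B (lo112_14_7 (nat_lit 460)) (M (nat_lit 299) (B (lo111_8_4 (nat_lit 267)) (lo111_9_4 (nat_lit 395)))))) (M (nat_lit 362) (B (lo19_11_0 (nat_lit 361)) (M (nat_lit 398) (B (lo110_11_0 (nat_lit 365)) (lo115_12_3 (nat_lit 399)))))))))) (B (M (nat_lit 365) (B (M (nat_lit 366) (B (lo113_14_6 (nat_lit 334)) (M (nat_lit 367) (B (lo115_11_1 (nat_lit 395)) (lo116_11_1 (nat_lit 368)))))) (M (nat_lit 462) (B (lo113_11_4 (nat_lit 494)) (M (nat_lit 427) (B (lo110_13_0 (nat_lit 426)) (M (nat_lit 463) (B (lo115_14_3 (nat_lit 460)) (lo116_14_3 (nat_lit 464)))))))))) (B (M (nat_lit 365) (B (M (nat_lit 462) (B (lo113_11_4 (nat_lit 494)) (M (nat_lit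 427) (B (lo110_13_0 (nat_lit 426)) (M (nat_lit 463) (B (lo115_14_3 (nat_lit 460)) (lo116_14_3 (nat_lit 464)))))))) (B (K _ _ _ o1_s46503) (M (nat_lit 363) (B (M (nat_lit 362) (B (lo19_11_0 (nat_lit 361)) (lo110_11_0 (nat_lit 398)))) (M (nat_lit 331) (B (lo112_14_7 (nat_lit 460)) (M (nat_lit 366) (B (lo114_11_3 (nat_lit 330)) (lo113_14_6 (nat_lit 334))))))))))) (B (K _ _ _ o1_s46531) (M (nat_lit 398) (B (M (nat_lit 427) (B (lo110_13_2 (nat_lit 426)) (lo115_12_1 (nat_lit 399)))) (B (M (nat_lit 399) (B (lo115_12_3 (nat_lit 363)) (lo116_12_1 (nat_lit 400)))) (M (nat_lit 395) (B (M (nat_lit 426) (B (lo114_12_1 (nat_lit 427)) (M (nat_lit 394) (B (lo19_12_0 (nat_lit 393)) (lo113_12_1 (nat_lit 425)))))) (M (nat_lit 363) (B (lo114_12_3 (nat_lit 362)) (M (nat_lit 331) (B (lo111_9_4 (nat_lit 299)) (lo112_14_7 (nat_lit 460)))))))))))))))))))) (B (M (nat_lit 461) (B (lo112_10_4 (nat_lit 332))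 (M (nat_lit 493) (B (lo112_11_4 (nat_lit 460)) (lo113_16_7 (nat_lit 525)))))) (K _ _ _ o1_s46541))))) (B (M (nat_lit 364) (B (M (nat_lit 461) (B (lo112_10_4 (nat_lit 332)) (M (nat_lit 493) (B (lo112_11_4 (nat_lit 460)) (lo113_16_7 (nat_lit 525)))))) (B (M (nat_lit 461) (B (M (nat_lit 493) (B (lo112_11_4 (nat_lit 460)) (lo113_15_7 (nat_lit 397)))) (B (M (nat_lit 493) (B (lo113_15_7 (nat_lit 397)) (lo113_16_7 (nat_lit 525)))) (B (M (nat_lit 493) (B (lo112_11_4 (nat_lit 460)) (lo113_16_7 (nat_lit 525)))) (M (nat_lit 363) (B (M (nat_lit 331) (B (lo112_14_7 (nat_lit 460)) (M (nat_lit 299) (B (lo111_8_4 (nat_lit 267)) (lo111_9_4 (nat_lit 395)))))) (B (M (nat_lit 427) (B (M (nat_lit 426) (B (lo110_13_0 (nat_lit 462)) (M (nat_lit 397) (B (lo19_13_2 (nat_lit 425)) (lo110_13_2 (nat_lit 398)))))) (B (M (nat_lit 460) (B (lo112_14_7 (nat_lit 331)) (M (nat_lit 462) (B (lo110_13_0 (nat_lit 426))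 (lo115_14_3 (nat_lit 463)))))) (M (nat_lit 395) (B (M (nat_lit 331) (B (lo111_9_4 (nat_lit 299)) (lo111_10_4 (nat_lit 460)))) (M (nat_lit 362) (B (M (nat_lit 361) (B (lo18_11_0 (nat_lit 360)) (lo19_11_0 (nat_lit 397)))) (M (nat_lit 459) (B (lo111_14_7 (nat_lit 330)) (lo111_15_6 (nat_lit 491))))))))))) (B (M (nat_lit 426) (B (M (nat_lit 427) (B (lo110_13_0 (nat_lit 462)) (M (nat_lit 397) (B (lo19_13_2 (nat_lit 425)) (lo110_13_2 (nat_lit 398)))))) (B (M (nat_lit 427) (B (lo110_13_0 (nat_lit 462)) (M (nat_lit 331) (B (lo112_14_7 (nat_lit 460)) (M (nat_lit 458) (B (lo113_13_1 (nat_lit 457)) (lo111_10_5 (nat_lit 395)))))))) (M (nat_lit 460) (B (lo112_14_7 (nat_lit 331)) (M (nat_lit 459) (B (lo112_11_5 (nat_lit 491)) (M (nat_lit 458) (B (lo113_14_3 (nat_lit 425)) (lo19_14_2 (nat_lit 457))))))))))) (B (M (nat_lit 427) (B (M (nat_lit 426) (B (lo110_13_0 (nat_lit 462)) (M (nat_lit 397)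 (B (lo19_13_2 (nat_lit 425)) (lo110_13_2 (nat_lit 398)))))) (B (M (nat_lit 459) (B (M (nat_lit 491) (B (lo111_15_6 (nat_lit 395)) (lo111_16_6 (nat_lit 523)))) (B (M (nat_lit 491) (B (lo111_16_6 (nat_lit 523)) (lo112_11_5 (nat_lit 460)))) (M (nat_lit 395) (B (M (nat_lit 362) (B (lo111_14_7 (nat_lit 330)) (M (nat_lit 361) (B (lo18_11_0 (nat_lit 360)) (lo19_11_0 (nat_lit 397)))))) (M (nat_lit 458) (B (lo111_11_5 (nat_lit 490)) (M (nat_lit 457) (B (lo18_14_2 (nat_lit 456)) (lo19_14_2 (nat_lit 460))))))))))) (M (nat_lit 426) (B (lo110_13_0 (nat_lit 462)) (M (nat_lit 425) (B (lo19_13_0 (nat_lit 460)) (M (nat_lit 457) (B (lo112_13_1 (nat_lit 456)) (lo113_13_1 (nat_lit 458))))))))))) (B (K _ _ _ o1_s45927) (M (nat_lit 362) (B (M (nat_lit 397) (B (lo19_11_0 (nat_lit 361)) (M (nat_lit 398) (B (lo114_12_3 (nat_lit 395)) (lo115_12_3 (nat_lit 399)))))) (B (M (nat_lit 426) (B (M (nat_lit 427)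 (B (lo110_13_0 (nat_lit 462)) (M (nat_lit 397) (B (lo19_13_2 (nat_lit 425)) (lo110_13_2 (nat_lit 398)))))) (B (M (nat_lit 427) (B (lo110_13_0 (nat_lit 462)) (M (nat_lit 394) (B (lo113_13_3 (nat_lit 393)) (M (nat_lit 458) (B (lo113_13_1 (nat_lit 457)) (lo110_14_6 (nat_lit 331)))))))) (M (nat_lit 394) (B (M (nat_lit 395) (B (lo19_12_0 (nat_lit 393)) (M (nat_lit 331) (B (lo110_14_6 (nat_lit 458)) (lo111_9_5 (nat_lit 299)))))) (B (M (nat_lit 331) (B (lo110_14_6 (nat_lit 458)) (M (nat_lit 299) (B (lo110_13_6 (nat_lit 330)) (lo111_8_5 (nat_lit 267)))))) (M (nat_lit 395) (B (lo19_12_0 (nat_lit 393)) (M (nat_lit 397) (B (lo113_12_1 (nat_lit 425)) (lo114_12_3 (nat_lit 398)))))))))))) (B (K _ _ _ o1_s45988) (M (nat_lit 395) (B (M (nat_lit 361) (B (lo18_11_0 (nat_lit 360)) (M (nat_lit 393) (B (lo112_11_1 (nat_lit 392)) (lo19_12_0 (nat_lit 394)))))) (M (nat_lit 427) (B (M (nat_lit 459) (B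 (lo111_14_7 (nat_lit 330)) (lo111_15_6 (nat_lit 491)))) (M (nat_lit 426) (B (lo110_13_0 (nat_lit 462)) (M (nat_lit 331) (B (lo111_10_5 (nat_lit 458)) (lo111_9_4 (nat_lit 299)))))))))))))))))))))))) (B (M (nat_lit 461) (B (lo112_10_4 (nat_lit 332)) (M (nat_lit 493) (B (lo113_15_7 (nat_lit 397)) (lo113_16_7 (nat_lit 525)))))) (K _ _ _ o1_s46541))))) (B (M (nat_lit 364) (B (M (nat_lit 461) (B (lo112_10_4 (nat_lit 332)) (M (nat_lit 493) (B (lo112_11_4 (nat_lit 460)) (lo113_16_7 (nat_lit 525)))))) (B (M (nat_lit 460) (B (M (nat_lit 461) (B (lo112_11_4 (nat_lit 493)) (M (nat_lit 459) (B (lo112_11_5 (nat_lit 491)) (K _ _ _ o1_s46647))))) (B (M (nat_lit 363) (B (lo112_14_7 (nat_lit 331)) (M (nat_lit 395) (B (M (nat_lit 394) (B (lo19_12_0 (nat_lit 393)) (M (nat_lit 365) (B (lo114_11_1 (nat_lit 366)) (lo112_14_6 (nat_lit 333)))))) (M (nat_lit 427) (B (M (nat_lit 459) (B (lo111_15_6 (nat_lit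 491)) (M (nat_lit 458) (B (lo19_14_2 (nat_lit 457)) (lo111_11_5 (nat_lit 490)))))) (M (nat_lit 461) (B (lo112_11_4 (nat_lit 493)) (M (nat_lit 462) (B (lo110_13_0 (nat_lit 426)) (lo115_14_3 (nat_lit 463)))))))))))) (B (M (nat_lit 363) (B (lo112_14_7 (nat_lit 331)) (M (nat_lit 365) (B (lo112_14_6 (nat_lit 333)) (M (nat_lit 362) (B (M (nat_lit 393) (B (lo113_11_1 (nat_lit 394)) (M (nat_lit 361) (B (lo112_11_1 (nat_lit 392)) (M (nat_lit 329) (B (lo112_11_3 (nat_lit 328)) (lo113_11_3 (nat_lit 330)))))))) (B (M (nat_lit 395) (B (M (nat_lit 394) (B (lo113_11_1 (nat_lit 393)) (lo114_11_1 (nat_lit 366)))) (B (M (nat_lit 366) (B (lo114_11_1 (nat_lit 394)) (lo115_11_1 (nat_lit 367)))) (M (nat_lit 459) (B (lo112_11_5 (nat_lit 491)) (M (nat_lit 330) (B (lo113_11_3 (nat_lit 329)) (lo111_14_7 (nat_lit 427))))))))) (B (M (nat_lit 361) (B (M (nat_lit 393) (B (lo112_11_1 (nat_lit 392)) (lo113_11_1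 (nat_lit 394)))) (B (M (nat_lit 395) (B (lo18_11_0 (nat_lit 360)) (M (nat_lit 394) (B (lo113_11_1 (nat_lit 393)) (lo114_11_1 (nat_lit 366)))))) (B (M (nat_lit 395) (B (lo18_11_0 (nat_lit 360)) (M (nat_lit 366) (B (lo114_11_1 (nat_lit 394)) (lo115_11_1 (nat_lit 367)))))) (M (nat_lit 360) (B (lo18_11_0 (nat_lit 395)) (M (nat_lit 392) (B (lo111_11_1 (nat_lit 391)) (lo112_11_1 (nat_lit 393)))))))))) (B (M (nat_lit 395) (B (M (nat_lit 366) (B (lo114_11_1 (nat_lit 394)) (lo115_11_1 (nat_lit 367)))) (M (nat_lit 459) (B (lo112_11_5 (nat_lit 491)) (M (nat_lit 330) (B (lo113_11_3 (nat_lit 329)) (lo111_14_7 (nat_lit 427)))))))) (M (nat_lit 361) (B (M (nat_lit 329) (B (lo112_11_3 (nat_lit 328)) (lo113_11_3 (nat_lit 330)))) (M (nat_lit 360) (B (lo18_11_0 (nat_lit 395)) (M (nat_lit 392) (B (lo111_11_1 (nat_lit 391)) (lo112_11_1 (nat_lit 393))))))))))))))))) (B (M (nat_lit 365) (B (lo112_14_6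 (nat_lit 333)) (M (nat_lit 363) (B (lo112_14_7 (nat_lit 331)) (M (nat_lit 394) (B (M (nat_lit 393) (B (lo113_11_1 (nat_lit 362)) (lo19_12_2 (nat_lit 395)))) (B (K _ _ _ o1_s46700) (M (nat_lit 362) (B (lo113_11_1 (nat_lit 393)) (M (nat_lit 329) (B (lo113_11_3 (nat_lit 330)) (M (nat_lit 458) (B (M (nat_lit 361) (B (lo112_11_3 (nat_lit 328)) (lo110_14_7 (nat_lit 426)))) (M (nat_lit 459) (B (lo19_14_2 (nat_lit 457)) (lo112_11_5 (nat_lit 491))))))))))))))))) (M (nat_lit 363) (B (lo112_14_7 (nat_lit 331)) (M (nat_lit 365) (B (lo112_14_6 (nat_lit 333)) (M (nat_lit 394) (B (M (nat_lit 393) (B (lo113_11_1 (nat_lit 362)) (lo19_12_2 (nat_lit 395)))) (B (K _ _ _ o1_s46700) (M (nat_lit 362) (B (lo113_11_1 (nat_lit 393)) (M (nat_lit 426) (B (M (nat_lit 329) (B (lo113_11_3 (nat_lit 330)) (M (nat_lit 361) (B (lo112_11_3 (nat_lit 328)) (lo110_14_7 (nat_lit 458)))))) (M (nat_lit 461) (B (lo112_11_4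 (nat_lit 493)) (M (nat_lit 427) (B (lo19_13_0 (nat_lit 425)) (lo110_13_0 (nat_lit 462)))))))))))))))))))))) (B (K _ _ _ o1_s46722) (M (nat_lit 332) (B (M (nat_lit 460) (B (M (nat_lit 331) (B (lo112_13_7 (nat_lit 299)) (lo112_14_7 (nat_lit 363)))) (M (nat_lit 333) (B (lo112_13_6 (nat_lit 301)) (lo112_14_6 (nat_lit 365)))))) (B (M (nat_lit 300) (B (M (nat_lit 427) (B (lo112_9_5 (nat_lit 395)) (lo112_10_5 (nat_lit 459)))) (M (nat_lit 301) (B (lo112_12_6 (nat_lit 269)) (lo112_13_6 (nat_lit 333)))))) (M (nat_lit 300) (B (M (nat_lit 299) (B (lo112_12_7 (nat_lit 267)) (lo112_13_7 (nat_lit 331)))) (M (nat_lit 427) (B (lo112_9_5 (nat_lit 395)) (lo112_10_5 (nat_lit 459))))))))))))) (B (M (nat_lit 364) (B (K _ _ _ o1_s46726) (B (K _ _ _ o1_s31230) (B (K _ _ _ o1_s46019) (B (K _ _ _ o1_s28837) (B (K _ _ _ o1_s46065) (B (M (nat_lit 363) (B (M (nat_lit 331) (B (lo112_14_7 (nat_lit 460)) (M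 (nat_lit 299) (B (lo111_8_4 (nat_lit 267)) (lo111_9_4 (nat_lit 395)))))) (B (M (nat_lit 365) (B (M (nat_lit 460) (B (lo112_14_7 (nat_lit 331)) (lo112_14_6 (nat_lit 333)))) (K _ _ _ o1_s31240))) (B (M (nat_lit 365) (B (M (nat_lit 333) (B (lo112_14_6 (nat_lit 460)) (M (nat_lit 301) (B (lo113_8_5 (nat_lit 269)) (lo113_9_5 (nat_lit 397)))))) (B (K _ _ _ o1_s31240) (M (nat_lit 394) (B (M (nat_lit 393) (B (lo113_11_1 (nat_lit 362)) (lo19_12_2 (nat_lit 395)))) (B (M (nat_lit 334) (B (M (nat_lit 333) (B (lo110_11_2 (nat_lit 362)) (lo112_14_6 (nat_lit 460)))) (M (nat_lit 366) (B (lo114_11_1 (nat_lit 395)) (lo111_11_2 (nat_lit 335)))))) (B (M (nat_lit 395) (B (lo19_12_2 (nat_lit 393)) (lo114_11_1 (nat_lit 366)))) (M (nat_lit 362) (B (lo113_11_1 (nat_lit 393)) (M (nat_lit 333) (B (lo110_11_2 (nat_lit 334)) (lo112_14_6 (nat_lit 460))))))))))))) (B (M (nat_lit 365) (B (M (nat_lit 460) (B (lo112_14_7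 (nat_lit 331)) (lo112_14_6 (nat_lit 333)))) (B (M (nat_lit 362) (B (M (nat_lit 333) (B (lo110_11_2 (nat_lit 334)) (lo112_14_6 (nat_lit 460)))) (M (nat_lit 397) (B (lo19_11_0 (nat_lit 361)) (lo110_11_0 (nat_lit 398)))))) (B (K _ _ _ o1_s46748) (M (nat_lit 331) (B (lo112_14_7 (nat_lit 460)) (M (nat_lit 330) (B (lo114_11_3 (nat_lit 366)) (M (nat_lit 329) (B (lo18_10_0 (nat_lit 328)) (lo113_11_3 (nat_lit 362)))))))))))) (K _ _ _ o1_s31243)))))) (B (M (nat_lit 363) (B (M (nat_lit 331) (B (M (nat_lit 299) (B (lo111_8_4 (nat_lit 267)) (lo111_9_4 (nat_lit 395)))) (B (M (nat_lit 299) (B (lo111_9_4 (nat_lit 395)) (lo112_13_7 (nat_lit 332)))) (B (M (nat_lit 332) (B (M (nat_lit 333) (B (lo112_13_6 (nat_lit 301)) (M (nat_lit 362) (B (lo19_11_2 (nat_lit 361)) (lo114_10_1 (nat_lit 334)))))) (M (nat_lit 427) (B (lo112_10_5 (nat_lit 459)) (M (nat_lit 300) (B (lo111_13_6 (nat_lit 395)) (lo112_9_4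 (nat_lit 397)))))))) (M (nat_lit 299) (B (lo111_8_4 (nat_lit 267)) (lo112_13_7 (nat_lit 332)))))))) (B (M (nat_lit 331) (B (M (nat_lit 299) (B (lo111_8_4 (nat_lit 267)) (lo111_9_4 (nat_lit 395)))) (B (M (nat_lit 299) (B (lo111_9_4 (nat_lit 395)) (lo112_13_7 (nat_lit 332)))) (B (M (nat_lit 332) (B (M (nat_lit 427) (B (lo112_10_5 (nat_lit 459)) (M (nat_lit 300) (B (lo111_13_6 (nat_lit 395)) (lo112_9_4 (nat_lit 397)))))) (M (nat_lit 333) (B (lo112_13_6 (nat_lit 301)) (M (nat_lit 334) (B (lo114_10_1 (nat_lit 362)) (lo115_10_1 (nat_lit 335)))))))) (M (nat_lit 299) (B (lo111_8_4 (nat_lit 267)) (lo112_13_7 (nat_lit 332)))))))) (B (K _ _ _ o1_s31282) (B (M (nat_lit 332) (B (M (nat_lit 300) (B (lo112_9_4 (nat_lit 397)) (M (nat_lit 301) (B (lo112_12_6 (nat_lit 269)) (lo112_13_6 (nat_lit 333)))))) (B (M (nat_lit 331) (B (lo112_13_7 (nat_lit 299)) (M (nat_lit 333) (B (lo112_13_6 (nat_lit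 301)) (M (nat_lit 362) (B (lo19_11_2 (nat_lit 361)) (lo114_10_1 (nat_lit 334)))))))) (M (nat_lit 300) (B (lo112_9_4 (nat_lit 397)) (M (nat_lit 395) (B (lo112_8_5 (nat_lit 268)) (lo112_9_5 (nat_lit 427))))))))) (B (M (nat_lit 332) (B (M (nat_lit 300) (B (lo112_9_4 (nat_lit 397)) (M (nat_lit 395) (B (lo112_8_5 (nat_lit 268)) (lo112_9_5 (nat_lit 427)))))) (B (M (nat_lit 300) (B (lo112_9_4 (nat_lit 397)) (M (nat_lit 301) (B (lo112_12_6 (nat_lit 269)) (lo112_13_6 (nat_lit 333)))))) (M (nat_lit 333) (B (lo112_13_6 (nat_lit 301)) (M (nat_lit 362) (B (lo19_11_2 (nat_lit 361)) (M (nat_lit 334) (B (lo110_11_2 (nat_lit 365)) (lo115_10_1 (nat_lit 335))))))))))) (B (K _ _ _ o1_s46760) (B (M (nat_lit 362) (B (M (nat_lit 397) (B (lo19_11_0 (nat_lit 361)) (M (nat_lit 398) (B (lo110_11_0 (nat_lit 365)) (lo115_12_3 (nat_lit 399)))))) (B (K _ _ _ o1_s29185) (B (M (nat_lit 397) (B (lo19_11_0 (nat_lit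 361)) (M (nat_lit 398) (B (lo114_12_3 (nat_lit 395)) (lo115_12_3 (nat_lit 399)))))) (M (nat_lit 365) (B (M (nat_lit 333) (B (lo110_11_2 (nat_lit 334)) (M (nat_lit 332) (B (lo19_11_2 (nat_lit 361)) (lo112_13_6 (nat_lit 301)))))) (B (M (nat_lit 366) (B (M (nat_lit 330) (B (lo113_11_3 (nat_lit 329)) (lo114_11_3 (nat_lit 331)))) (M (nat_lit 334) (B (lo110_11_2 (nat_lit 333)) (lo111_11_2 (nat_lit 335)))))) (M (nat_lit 361) (B (M (nat_lit 329) (B (lo112_11_3 (nat_lit 328)) (lo113_11_3 (nat_lit 330)))) (M (nat_lit 393) (B (lo112_11_1 (nat_lit 392)) (lo113_11_1 (nat_lit 394))))))))))))) (B (K _ _ _ o1_s31243) (M (nat_lit 332) (B (M (nat_lit 333) (B (lo112_13_6 (nat_lit 301)) (M (nat_lit 362) (B (lo19_11_2 (nat_lit 361)) (M (nat_lit 334) (B (lo110_11_2 (nat_lit 365)) (lo115_10_1 (nat_lit 335)))))))) (M (nat_lit 300) (B (M (nat_lit 299) (B (lo112_12_7 (nat_lit 267)) (lo112_13_7 (nat_lit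 331)))) (M (nat_lit 427) (B (lo112_9_5 (nat_lit 395)) (lo112_10_5 (nat_lit 459))))))))))))))))) (B (K _ _ _ o1_s46541) (M (nat_lit 332) (B (M (nat_lit 300) (B (M (nat_lit 299) (B (lo112_12_7 (nat_lit 267)) (lo112_13_7 (nat_lit 331)))) (M (nat_lit 301) (B (lo112_12_6 (nat_lit 269)) (lo112_13_6 (nat_lit 333)))))) (B (M (nat_lit 300) (B (M (nat_lit 427) (B (lo112_9_5 (nat_lit 395)) (lo112_10_5 (nat_lit 459)))) (M (nat_lit 301) (B (lo112_12_6 (nat_lit 269)) (lo112_13_6 (nat_lit 333)))))) (M (nat_lit 460) (B (M (nat_lit 331) (B (lo112_13_7 (nat_lit 299)) (lo112_14_7 (nat_lit 363)))) (M (nat_lit 459) (B (lo112_10_5 (nat_lit 427)) (lo112_11_5 (nat_lit 491)))))))))))))))))) (M (nat_lit 364) (B (M (nat_lit 461) (B (lo112_10_4 (nat_lit 332)) (M (nat_lit 493) (B (lo112_11_4 (nat_lit 460)) (lo113_16_7 (nat_lit 525)))))) (B (M (nat_lit 365) (B (M (nat_lit 333) (B (lo112_14_6 (nat_lit 460))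 (M (nat_lit 301) (B (lo113_8_5 (nat_lit 269)) (lo113_9_5 (nat_lit 397)))))) (B (M (nat_lit 366) (B (M (nat_lit 395) (B (lo115_11_1 (nat_lit 367)) (M (nat_lit 394) (B (lo19_12_2 (nat_lit 393)) (lo114_11_1 (nat_lit 363)))))) (B (M (nat_lit 395) (B (lo115_11_1 (nat_lit 367)) (M (nat_lit 394) (B (lo114_11_1 (nat_lit 363)) (lo110_12_2 (nat_lit 397)))))) (B (M (nat_lit 334) (B (M (nat_lit 335) (B (lo111_11_2 (nat_lit 363)) (M (nat_lit 336) (B (lo116_10_1 (nat_lit 333)) (lo112_11_2 (nat_lit 367)))))) (B (M (nat_lit 397) (B (lo113_14_6 (nat_lit 461)) (M (nat_lit 333) (B (lo113_9_5 (nat_lit 301)) (lo113_13_6 (nat_lit 302)))))) (M (nat_lit 367) (B (M (nat_lit 335) (B (lo111_11_2 (nat_lit 363)) (lo112_11_2 (nat_lit 336)))) (M (nat_lit 397) (B (lo116_11_1 (nat_lit 368)) (lo113_14_6 (nat_lit 461))))))))) (B (M (nat_lit 395) (B (lo115_11_1 (nat_lit 367)) (M (nat_lit 394) (B (lo19_12_2 (nat_lit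 393)) (lo110_12_2 (nat_lit 397)))))) (K _ _ _ o1_s29122)))))) (B (M (nat_lit 333) (B (lo112_14_6 (nat_lit 460)) (M (nat_lit 366) (B (M (nat_lit 395) (B (lo115_11_1 (nat_lit 367)) (M (nat_lit 394) (B (lo19_12_2 (nat_lit 393)) (lo114_11_1 (nat_lit 363)))))) (B (M (nat_lit 395) (B (lo115_11_1 (nat_lit 367)) (M (nat_lit 394) (B (lo114_11_1 (nat_lit 363)) (lo110_12_2 (nat_lit 397)))))) (B (M (nat_lit 334) (B (M (nat_lit 363) (B (lo110_11_2 (nat_lit 362)) (lo111_11_2 (nat_lit 335)))) (M (nat_lit 397) (B (lo113_13_6 (nat_lit 302)) (lo113_14_6 (nat_lit 461)))))) (M (nat_lit 395) (B (lo115_11_1 (nat_lit 367)) (M (nat_lit 394) (B (lo19_12_2 (nat_lit 393)) (lo110_12_2 (nat_lit 397)))))))))))) (B (M (nat_lit 363) (B (M (nat_lit 331) (B (lo112_14_7 (nat_lit 460)) (M (nat_lit 299) (B (lo111_8_4 (nat_lit 267)) (lo111_9_4 (nat_lit 395)))))) (B (M (nat_lit 395) (B (M (nat_lit 394) (B (lo19_12_2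 (nat_lit 393)) (lo114_11_1 (nat_lit 366)))) (M (nat_lit 331) (B (lo111_9_4 (nat_lit 299)) (lo112_14_7 (nat_lit 460)))))) (B (M (nat_lit 366) (B (M (nat_lit 331) (B (lo114_11_3 (nat_lit 330)) (lo112_14_7 (nat_lit 460)))) (M (nat_lit 395) (B (lo114_11_1 (nat_lit 394)) (lo115_11_1 (nat_lit 367)))))) (B (M (nat_lit 366) (B (M (nat_lit 395) (B (lo114_11_1 (nat_lit 394)) (lo115_11_1 (nat_lit 367)))) (K _ _ _ o1_s29431))) (B (M (nat_lit 331) (B (lo112_14_7 (nat_lit 460)) (M (nat_lit 330) (B (lo114_11_3 (nat_lit 366)) (M (nat_lit 329) (B (lo18_10_0 (nat_lit 328)) (lo113_11_3 (nat_lit 362)))))))) (M (nat_lit 362) (B (M (nat_lit 393) (B (lo113_11_1 (nat_lit 394)) (M (nat_lit 361) (B (lo112_11_1 (nat_lit 392)) (lo19_11_0 (nat_lit 397)))))) (B (M (nat_lit 329) (B (lo113_11_3 (nat_lit 330)) (M (nat_lit 361) (B (lo112_11_3 (nat_lit 328)) (lo19_11_0 (nat_lit 397)))))) (M (nat_lit 366) (B (M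 (nat_lit 330) (B (lo113_11_3 (nat_lit 329)) (lo114_11_3 (nat_lit 331)))) (M (nat_lit 394) (B (lo113_11_1 (nat_lit 393)) (lo114_11_1 (nat_lit 395))))))))))))))) (M (nat_lit 363) (B (M (nat_lit 460) (B (lo112_14_7 (nat_lit 331)) (lo112_14_6 (nat_lit 333)))) (B (M (nat_lit 333) (B (lo112_14_6 (nat_lit 460)) (M (nat_lit 334) (B (lo110_11_2 (nat_lit 362)) (M (nat_lit 335) (B (lo111_11_2 (nat_lit 366)) (lo116_10_1 (nat_lit 336)))))))) (B (K _ _ _ o1_s44800) (M (nat_lit 331) (B (lo112_14_7 (nat_lit 460)) (M (nat_lit 299) (B (lo111_8_4 (nat_lit 267)) (lo111_9_4 (nat_lit 395))))))))))))))) (B (M (nat_lit 461) (B (lo112_10_4 (nat_lit 332)) (M (nat_lit 493) (B (lo113_15_7 (nat_lit 397)) (lo113_16_7 (nat_lit 525)))))) (K _ _ _ o1_s46541)))))))))))))))))))))))))) _ _ _ (by decide +kernel)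
theorem o1_s47934 : Sem (nat_lit 2079502270590611144683810638107312777577327806531862431377859685460965980854219217279980804578104683573043408221052678871730618368) (nat_lit 855038362086439190130824504005291158624502481908034098865330589608283905050030212986435992611460214132152755272187763571425012831048142808194895018642140070329089785856) (nat_lit 855038362086439190130824504005291158624502481908034098865330589608283905050030212986435992611460214132152755272187763571425012831048142808194895018642140070329089785856) := sem_of_chk (M (nat_lit 396) (B (M (nat_lit 364) (B (M (nat_lit 461) (B (lo112_10_4 (nat_lit 332)) (M (nat_lit 493) (B (lo112_11_4 (nat_lit 460)) (lo113_16_7 (nat_lit 525)))))) (B (K _ _ _ o1_s28776) (B (M (nat_lit 461) (B (lo112_10_4 (nat_lit 332)) (M (nat_lit 493) (B (lo113_15_7 (nat_lit 397)) (lo113_16_7 (nat_lit 525)))))) (K _ _ _ o1_s28837))))) (B (M (nat_lit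 364) (B (M (nat_lit 461) (B (lo112_10_4 (nat_lit 332)) (M (nat_lit 493) (B (lo113_15_7 (nat_lit 397)) (lo113_16_7 (nat_lit 525)))))) (B (M (nat_lit 460) (B (M (nat_lit 492) (B (M (nat_lit 365) (B (lo112_14_6 (nat_lit 333)) (lo112_15_6 (nat_lit 397)))) (M (nat_lit 493) (B (lo112_11_4 (nat_lit 461)) (lo112_12_4 (nat_lit 525)))))) (B (K _ _ _ o1_s28813) (B (M (nat_lit 492) (B (M (nat_lit 363) (B (lo112_14_7 (nat_lit 331)) (lo112_15_7 (nat_lit 395)))) (M (nat_lit 493) (B (lo112_11_4 (nat_lit 461)) (lo112_12_4 (nat_lit 525)))))) (M (nat_lit 365) (B (lo112_14_6 (nat_lit 333)) (M (nat_lit 492) (B (lo112_15_6 (nat_lit 397)) (M (nat_lit 363) (B (lo112_14_7 (nat_lit 331)) (lo112_15_7 (nat_lit 395)))))))))))) (B (M (nat_lit 461) (B (lo112_10_4 (nat_lit 332)) (M (nat_lit 493) (B (lo112_11_4 (nat_lit 460)) (lo113_16_7 (nat_lit 525)))))) (K _ _ _ o1_s28837))))) (B (M (nat_lit 461) (B (M (nat_lit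 493) (B (lo113_16_7 (nat_lit 525)) (M (nat_lit 364) (B (lo112_10_4 (nat_lit 332)) (lo112_11_4 (nat_lit 460)))))) (B (M (nat_lit 493) (B (lo113_16_7 (nat_lit 525)) (M (nat_lit 364) (B (lo112_11_4 (nat_lit 460)) (lo113_15_7 (nat_lit 397)))))) (B (K _ _ _ o1_s46844) (B (M (nat_lit 493) (B (lo113_16_7 (nat_lit 525)) (M (nat_lit 364) (B (lo112_10_4 (nat_lit 332)) (lo113_15_7 (nat_lit 397)))))) (M (nat_lit 397) (B (K _ _ _ o1_s46849) (B (M (nat_lit 460) (B (M (nat_lit 492) (B (lo112_15_6 (nat_lit 365)) (lo112_16_6 (nat_lit 524)))) (K _ _ _ o1_s46856))) (B (K _ _ _ o1_s46858) (B (K _ _ _ o1_s46861) (M (nat_lit 460) (B (M (nat_lit 492) (B (lo112_16_6 (nat_lit 524)) (M (nat_lit 364) (B (lo112_10_4 (nat_lit 332)) (M (nat_lit 363) (B (lo112_14_7 (nat_lit 331)) (lo112_15_7 (nat_lit 395)))))))) (B (K _ _ _ o1_s46867) (K _ _ _ o1_s46856)))))))))))))) (B (M (nat_lit 364) (B (M (nat_lit 461)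 (B (lo112_10_4 (nat_lit 332)) (M (nat_lit 493) (B (lo112_11_4 (nat_lit 460)) (lo113_16_7 (nat_lit 525)))))) (B (M (nat_lit 460) (B (M (nat_lit 365) (B (lo112_14_6 (nat_lit 333)) (M (nat_lit 492) (B (lo112_15_6 (nat_lit 397)) (M (nat_lit 491) (B (lo112_11_5 (nat_lit 459)) (lo112_12_5 (nat_lit 523)))))))) (B (M (nat_lit 492) (B (M (nat_lit 363) (B (lo112_14_7 (nat_lit 331)) (lo112_15_7 (nat_lit 395)))) (M (nat_lit 493) (B (lo112_11_4 (nat_lit 461)) (lo112_12_4 (nat_lit 525)))))) (M (nat_lit 397) (B (M (nat_lit 365) (B (lo112_14_6 (nat_lit 333)) (M (nat_lit 363) (B (lo112_14_7 (nat_lit 331)) (M (nat_lit 362) (B (lo19_11_0 (nat_lit 361)) (lo110_11_0 (nat_lit 398)))))))) (B (M (nat_lit 365) (B (lo112_14_6 (nat_lit 333)) (M (nat_lit 363) (B (lo112_14_7 (nat_lit 331)) (M (nat_lit 398) (B (lo110_11_0 (nat_lit 362)) (lo115_12_3 (nat_lit 399)))))))) (B (M (nat_lit 365) (B (lo112_14_6 (nat_lit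 333)) (M (nat_lit 366) (B (M (nat_lit 367) (B (lo115_11_1 (nat_lit 395)) (lo116_11_1 (nat_lit 368)))) (M (nat_lit 461) (B (lo112_11_4 (nat_lit 493)) (lo113_14_6 (nat_lit 334)))))))) (M (nat_lit 363) (B (lo112_14_7 (nat_lit 331)) (M (nat_lit 398) (B (lo115_12_3 (nat_lit 399)) (M (nat_lit 362) (B (lo19_11_0 (nat_lit 361)) (lo114_12_3 (nat_lit 395))))))))))))))) (B (M (nat_lit 461) (B (lo112_10_4 (nat_lit 332)) (M (nat_lit 493) (B (lo113_15_7 (nat_lit 397)) (lo113_16_7 (nat_lit 525)))))) (K _ _ _ o1_s28837))))) (B (M (nat_lit 461) (B (M (nat_lit 493) (B (lo113_16_7 (nat_lit 525)) (M (nat_lit 364) (B (lo112_10_4 (nat_lit 332)) (lo113_15_7 (nat_lit 397)))))) (B (M (nat_lit 493) (B (lo113_16_7 (nat_lit 525)) (M (nat_lit 364) (B (lo112_11_4 (nat_lit 460)) (lo113_15_7 (nat_lit 397)))))) (B (K _ _ _ o1_s46844) (B (M (nat_lit 493) (B (lo113_16_7 (nat_lit 525)) (M (nat_lit 364) (B (lo112_10_4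 (nat_lit 332)) (lo112_11_4 (nat_lit 460)))))) (M (nat_lit 397) (B (K _ _ _ o1_s46849) (B (M (nat_lit 460) (B (M (nat_lit 492) (B (lo112_15_6 (nat_lit 365)) (lo112_16_6 (nat_lit 524)))) (K _ _ _ o1_s46856))) (B (K _ _ _ o1_s46858) (B (K _ _ _ o1_s46861) (M (nat_lit 460) (B (M (nat_lit 492) (B (lo112_16_6 (nat_lit 524)) (M (nat_lit 364) (B (lo112_10_4 (nat_lit 332)) (M (nat_lit 491) (B (lo112_11_5 (nat_lit 459)) (lo112_12_5 (nat_lit 523)))))))) (B (K _ _ _ o1_s46867) (K _ _ _ o1_s46856)))))))))))))) (B (M (nat_lit 364) (B (M (nat_lit 461) (B (lo112_10_4 (nat_lit 332)) (M (nat_lit 493) (B (lo112_11_4 (nat_lit 460)) (lo113_16_7 (nat_lit 525)))))) (B (M (nat_lit 461) (B (M (nat_lit 493) (B (lo112_11_4 (nat_lit 460)) (lo113_15_7 (nat_lit 397)))) (B (M (nat_lit 493) (B (lo113_15_7 (nat_lit 397)) (lo113_16_7 (nat_lit 525)))) (B (M (nat_lit 493) (B (lo112_11_4 (nat_lit 460)) (lo113_16_7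 (nat_lit 525)))) (M (nat_lit 460) (B (M (nat_lit 365) (B (lo112_14_6 (nat_lit 333)) (M (nat_lit 492) (B (lo112_15_6 (nat_lit 397)) (M (nat_lit 491) (B (lo112_11_5 (nat_lit 459)) (lo112_12_5 (nat_lit 523)))))))) (B (M (nat_lit 492) (B (M (nat_lit 365) (B (lo112_14_6 (nat_lit 333)) (lo112_15_6 (nat_lit 397)))) (B (M (nat_lit 397) (B (lo112_15_6 (nat_lit 365)) (lo112_16_6 (nat_lit 524)))) (B (M (nat_lit 524) (B (lo112_16_6 (nat_lit 397)) (lo112_17_6 (nat_lit 556)))) (M (nat_lit 524) (B (lo112_17_6 (nat_lit 556)) (M (nat_lit 523) (B (lo112_12_5 (nat_lit 491)) (lo112_13_5 (nat_lit 555)))))))))) (B (M (nat_lit 492) (B (M (nat_lit 365) (B (lo112_14_6 (nat_lit 333)) (lo112_15_6 (nat_lit 397)))) (B (M (nat_lit 397) (B (lo112_15_6 (nat_lit 365)) (lo112_16_6 (nat_lit 524)))) (B (M (nat_lit 524) (B (lo112_16_6 (nat_lit 397)) (lo112_17_6 (nat_lit 556)))) (M (nat_lit 427) (B (M (nat_lit 426)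 (B (lo19_13_0 (nat_lit 425)) (lo110_13_0 (nat_lit 462)))) (M (nat_lit 524) (B (lo112_16_7 (nat_lit 395)) (lo112_17_6 (nat_lit 556)))))))))) (B (M (nat_lit 397) (B (M (nat_lit 365) (B (lo112_14_6 (nat_lit 333)) (M (nat_lit 366) (B (lo113_14_6 (nat_lit 334)) (M (nat_lit 395) (B (lo110_12_2 (nat_lit 394)) (lo115_11_1 (nat_lit 367)))))))) (K _ _ _ o1_s46927))) (B (M (nat_lit 492) (B (M (nat_lit 491) (B (lo112_11_5 (nat_lit 459)) (lo112_12_5 (nat_lit 523)))) (M (nat_lit 524) (B (lo112_16_6 (nat_lit 397)) (lo112_17_6 (nat_lit 556)))))) (M (nat_lit 427) (B (M (nat_lit 426) (B (lo19_13_0 (nat_lit 425)) (lo110_13_0 (nat_lit 462)))) (M (nat_lit 492) (B (M (nat_lit 491) (B (lo112_11_5 (nat_lit 459)) (lo112_12_5 (nat_lit 523)))) (M (nat_lit 524) (B (lo112_16_7 (nat_lit 395)) (lo112_17_6 (nat_lit 556)))))))))))))))))) (B (M (nat_lit 461) (B (lo112_10_4 (nat_lit 332)) (M (nat_lit 493) (B (lo113_15_7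 (nat_lit 397)) (lo113_16_7 (nat_lit 525)))))) (K _ _ _ o1_s31230))))) (B (M (nat_lit 364) (B (M (nat_lit 461) (B (lo112_10_4 (nat_lit 332)) (M (nat_lit 493) (B (lo113_15_7 (nat_lit 397)) (lo113_16_7 (nat_lit 525)))))) (B (M (nat_lit 461) (B (M (nat_lit 493) (B (lo112_11_4 (nat_lit 460)) (lo113_15_7 (nat_lit 397)))) (B (M (nat_lit 493) (B (lo113_15_7 (nat_lit 397)) (lo113_16_7 (nat_lit 525)))) (B (M (nat_lit 493) (B (lo112_11_4 (nat_lit 460)) (lo113_16_7 (nat_lit 525)))) (M (nat_lit 363) (B (M (nat_lit 460) (B (lo112_14_7 (nat_lit 331)) (M (nat_lit 365) (B (lo112_14_6 (nat_lit 333)) (M (nat_lit 397) (B (lo112_15_6 (nat_lit 492)) (M (nat_lit 362) (B (lo19_11_0 (nat_lit 361)) (lo110_11_0 (nat_lit 398)))))))))) (B (M (nat_lit 460) (B (lo112_14_7 (nat_lit 331)) (M (nat_lit 492) (B (M (nat_lit 491) (B (lo112_11_5 (nat_lit 459)) (lo112_12_5 (nat_lit 523)))) (M (nat_lit 365) (B (lo112_14_6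 (nat_lit 333)) (lo112_15_6 (nat_lit 397)))))))) (B (M (nat_lit 365) (B (M (nat_lit 460) (B (lo112_14_6 (nat_lit 333)) (M (nat_lit 397) (B (lo112_15_6 (nat_lit 492)) (M (nat_lit 362) (B (lo19_11_0 (nat_lit 361)) (lo110_11_0 (nat_lit 398)))))))) (B (M (nat_lit 397) (B (M (nat_lit 398) (B (lo110_11_0 (nat_lit 362)) (lo115_12_3 (nat_lit 399)))) (M (nat_lit 460) (B (lo112_14_6 (nat_lit 333)) (lo112_15_6 (nat_lit 492)))))) (B (M (nat_lit 460) (B (lo112_14_6 (nat_lit 333)) (M (nat_lit 492) (B (lo112_15_6 (nat_lit 397)) (M (nat_lit 491) (B (lo112_11_5 (nat_lit 459)) (lo112_12_5 (nat_lit 523)))))))) (B (M (nat_lit 397) (B (M (nat_lit 362) (B (lo19_11_0 (nat_lit 361)) (lo110_11_0 (nat_lit 398)))) (B (M (nat_lit 398) (B (lo110_11_0 (nat_lit 362)) (lo115_12_3 (nat_lit 399)))) (M (nat_lit 333) (B (lo113_9_5 (nat_lit 301)) (M (nat_lit 334) (B (lo113_13_6 (nat_lit 302)) (lo113_14_6 (nat_lit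 366))))))))) (B (M (nat_lit 366) (B (M (nat_lit 334) (B (lo111_11_2 (nat_lit 335)) (lo113_14_6 (nat_lit 397)))) (B (M (nat_lit 367) (B (M (nat_lit 335) (B (lo111_11_2 (nat_lit 334)) (lo112_11_2 (nat_lit 336)))) (M (nat_lit 399) (B (lo111_11_0 (nat_lit 398)) (lo112_11_0 (nat_lit 400)))))) (M (nat_lit 362) (B (M (nat_lit 397) (B (lo19_11_0 (nat_lit 361)) (lo110_11_0 (nat_lit 398)))) (B (M (nat_lit 398) (B (lo110_11_0 (nat_lit 397)) (lo111_11_0 (nat_lit 399)))) (M (nat_lit 361) (B (M (nat_lit 329) (B (lo112_11_3 (nat_lit 328)) (lo113_11_3 (nat_lit 330)))) (M (nat_lit 393) (B (lo112_11_1 (nat_lit 392)) (lo113_11_1 (nat_lit 394)))))))))))) (M (nat_lit 333) (B (lo112_14_6 (nat_lit 460)) (M (nat_lit 334) (B (lo110_11_2 (nat_lit 362)) (M (nat_lit 335) (B (lo111_11_2 (nat_lit 366)) (lo116_10_1 (nat_lit 336)))))))))))))) (B (M (nat_lit 362) (B (M (nat_lit 397) (B (lo19_11_0 (nat_lit 361))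 (M (nat_lit 398) (B (lo110_11_0 (nat_lit 365)) (lo115_12_3 (nat_lit 399)))))) (B (M (nat_lit 365) (B (M (nat_lit 397) (B (lo110_11_0 (nat_lit 398)) (M (nat_lit 334) (B (lo110_11_2 (nat_lit 333)) (lo113_14_6 (nat_lit 366)))))) (B (M (nat_lit 366) (B (M (nat_lit 330) (B (lo113_11_3 (nat_lit 329)) (lo114_11_3 (nat_lit 331)))) (M (nat_lit 397) (B (lo110_11_0 (nat_lit 398)) (lo113_14_6 (nat_lit 334)))))) (B (M (nat_lit 366) (B (M (nat_lit 330) (B (lo113_11_3 (nat_lit 329)) (lo114_11_3 (nat_lit 331)))) (M (nat_lit 334) (B (lo110_11_2 (nat_lit 333)) (lo111_11_2 (nat_lit 335)))))) (B (M (nat_lit 366) (B (M (nat_lit 330) (B (lo113_11_3 (nat_lit 329)) (lo114_11_3 (nat_lit 331)))) (M (nat_lit 398) (B (lo110_11_0 (nat_lit 397)) (lo111_11_0 (nat_lit 399)))))) (M (nat_lit 397) (B (lo110_11_0 (nat_lit 398)) (M (nat_lit 333) (B (lo110_11_2 (nat_lit 334)) (lo113_9_5 (nat_lit 301))))))))))) (B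 (K _ _ _ o1_s45988) (M (nat_lit 394) (B (M (nat_lit 393) (B (lo113_11_1 (nat_lit 365)) (M (nat_lit 392) (B (lo17_12_2 (nat_lit 391)) (lo112_11_1 (nat_lit 361)))))) (B (M (nat_lit 426) (B (M (nat_lit 427) (B (lo113_13_3 (nat_lit 393)) (lo110_13_0 (nat_lit 462)))) (B (M (nat_lit 427) (B (lo110_13_0 (nat_lit 462)) (M (nat_lit 458) (B (lo113_13_1 (nat_lit 457)) (lo110_14_6 (nat_lit 331)))))) (M (nat_lit 331) (B (lo110_14_6 (nat_lit 458)) (M (nat_lit 299) (B (lo110_13_6 (nat_lit 330)) (lo111_8_5 (nat_lit 267))))))))) (K _ _ _ o1_s46014)))))))) (B (M (nat_lit 460) (B (lo112_14_7 (nat_lit 331)) (M (nat_lit 492) (B (M (nat_lit 491) (B (lo112_11_5 (nat_lit 459)) (lo112_12_5 (nat_lit 523)))) (M (nat_lit 524) (B (lo112_16_6 (nat_lit 397)) (lo112_17_6 (nat_lit 556)))))))) (M (nat_lit 460) (B (lo112_14_7 (nat_lit 331)) (M (nat_lit 426) (B (M (nat_lit 427) (B (lo19_13_0 (nat_lit 425)) (lo110_13_0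 (nat_lit 462)))) (B (M (nat_lit 462) (B (lo110_13_0 (nat_lit 427)) (M (nat_lit 491) (B (lo112_11_5 (nat_lit 459)) (M (nat_lit 492) (B (lo112_12_5 (nat_lit 523)) (lo115_14_1 (nat_lit 463)))))))) (M (nat_lit 459) (B (lo112_11_5 (nat_lit 491)) (M (nat_lit 458) (B (lo113_14_3 (nat_lit 425)) (lo19_14_2 (nat_lit 457))))))))))))))))))))) (B (M (nat_lit 461) (B (lo112_10_4 (nat_lit 332)) (M (nat_lit 493) (B (lo112_11_4 (nat_lit 460)) (lo113_16_7 (nat_lit 525)))))) (K _ _ _ o1_s46019))))) (B (M (nat_lit 364) (B (M (nat_lit 461) (B (lo112_10_4 (nat_lit 332)) (M (nat_lit 493) (B (lo112_11_4 (nat_lit 460)) (lo113_16_7 (nat_lit 525)))))) (B (K _ _ _ o1_s28776) (B (M (nat_lit 461) (B (lo112_10_4 (nat_lit 332)) (M (nat_lit 493) (B (lo113_15_7 (nat_lit 397)) (lo113_16_7 (nat_lit 525)))))) (K _ _ _ o1_s47011))))) (B (M (nat_lit 395) (B (K _ _ _ o1_s47018) (B (M (nat_lit 397) (B (M (nat_lit 365)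 (B (M (nat_lit 394) (B (lo19_12_0 (nat_lit 393)) (lo110_12_2 (nat_lit 366)))) (M (nat_lit 460) (B (lo112_15_6 (nat_lit 492)) (lo113_10_5 (nat_lit 333)))))) (B (K _ _ _ o1_s47027) (M (nat_lit 398) (B (M (nat_lit 427) (B (lo114_12_1 (nat_lit 426)) (lo115_12_1 (nat_lit 399)))) (M (nat_lit 394) (B (lo19_12_0 (nat_lit 393)) (M (nat_lit 366) (B (lo110_12_2 (nat_lit 365)) (lo111_12_2 (nat_lit 367))))))))))) (B (M (nat_lit 397) (B (K _ _ _ o1_s47033) (B (M (nat_lit 398) (B (M (nat_lit 427) (B (lo114_12_1 (nat_lit 426)) (lo115_12_1 (nat_lit 399)))) (B (M (nat_lit 399) (B (lo115_12_1 (nat_lit 427)) (lo116_12_1 (nat_lit 400)))) (B (M (nat_lit 399) (B (lo116_12_1 (nat_lit 400)) (M (nat_lit 367) (B (lo111_12_2 (nat_lit 366)) (lo112_12_2 (nat_lit 368)))))) (M (nat_lit 365) (B (M (nat_lit 366) (B (lo110_12_2 (nat_lit 394)) (lo111_12_2 (nat_lit 367)))) (M (nat_lit 460) (B (lo112_15_6 (nat_lit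 492)) (lo113_10_5 (nat_lit 333)))))))))) (B (K _ _ _ o1_s47027) (B (K _ _ _ o1_s47039) (K _ _ _ o1_s47041)))))) (B (M (nat_lit 460) (B (M (nat_lit 492) (B (lo112_15_7 (nat_lit 363)) (M (nat_lit 524) (B (lo112_16_7 (nat_lit 427)) (lo112_16_6 (nat_lit 397)))))) (B (M (nat_lit 492) (B (M (nat_lit 524) (B (lo112_16_7 (nat_lit 427)) (lo112_16_6 (nat_lit 397)))) (B (M (nat_lit 397) (B (lo112_15_6 (nat_lit 365)) (lo112_16_6 (nat_lit 524)))) (M (nat_lit 364) (B (M (nat_lit 491) (B (lo112_11_5 (nat_lit 459)) (lo112_12_5 (nat_lit 523)))) (M (nat_lit 493) (B (lo112_11_4 (nat_lit 461)) (lo112_12_4 (nat_lit 525))))))))) (B (M (nat_lit 492) (B (lo112_15_7 (nat_lit 363)) (M (nat_lit 397) (B (lo112_15_6 (nat_lit 365)) (lo112_16_6 (nat_lit 524)))))) (B (M (nat_lit 394) (B (lo19_12_0 (nat_lit 393)) (M (nat_lit 363) (B (M (nat_lit 331) (B (lo111_9_4 (nat_lit 299)) (lo111_10_4 (nat_lit 427)))) (B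 (M (nat_lit 331) (B (lo111_10_4 (nat_lit 427)) (lo112_14_7 (nat_lit 364)))) (M (nat_lit 365) (B (M (nat_lit 366) (B (lo114_11_1 (nat_lit 364)) (lo110_12_2 (nat_lit 397)))) (B (M (nat_lit 397) (B (lo110_12_2 (nat_lit 366)) (lo113_10_5 (nat_lit 333)))) (B (M (nat_lit 364) (B (lo114_11_1 (nat_lit 366)) (lo112_14_6 (nat_lit 333)))) (M (nat_lit 333) (B (lo112_14_6 (nat_lit 364)) (lo113_10_5 (nat_lit 397))))))))))))) (M (nat_lit 363) (B (lo112_15_7 (nat_lit 492)) (M (nat_lit 331) (B (lo111_9_4 (nat_lit 299)) (lo112_14_7 (nat_lit 364))))))))))) (B (M (nat_lit 427) (B (K _ _ _ o1_s47086) (B (K _ _ _ o1_s47097) (B (M (nat_lit 461) (B (M (nat_lit 426) (B (lo110_13_0 (nat_lit 462)) (M (nat_lit 425) (B (lo18_13_2 (nat_lit 424)) (lo19_13_2 (nat_lit 397)))))) (B (M (nat_lit 426) (B (lo110_13_0 (nat_lit 462)) (M (nat_lit 425) (B (lo19_13_2 (nat_lit 397)) (lo19_13_0 (nat_lit 460)))))) (B (M (nat_lit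 493) (B (lo113_16_7 (nat_lit 525)) (M (nat_lit 364) (B (lo112_11_4 (nat_lit 460)) (lo113_15_7 (nat_lit 397)))))) (M (nat_lit 426) (B (lo110_13_0 (nat_lit 462)) (M (nat_lit 425) (B (lo18_13_2 (nat_lit 424)) (lo19_13_0 (nat_lit 460)))))))))) (K _ _ _ o1_s47110))))) (B (M (nat_lit 397) (B (M (nat_lit 365) (B (M (nat_lit 394) (B (lo19_12_0 (nat_lit 393)) (lo110_12_2 (nat_lit 366)))) (M (nat_lit 460) (B (lo112_15_6 (nat_lit 492)) (lo113_10_5 (nat_lit 333)))))) (B (K _ _ _ o1_s47041) (B (K _ _ _ o1_s47116) (B (K _ _ _ o1_s47117) (K _ _ _ o1_s45078)))))) (B (M (nat_lit 397) (B (M (nat_lit 365) (B (M (nat_lit 394) (B (lo19_12_0 (nat_lit 393)) (lo110_12_2 (nat_lit 366)))) (M (nat_lit 460) (B (lo112_15_6 (nat_lit 492)) (lo113_10_5 (nat_lit 333)))))) (B (K _ _ _ o1_s47041) (B (M (nat_lit 460) (B (M (nat_lit 492) (B (lo112_15_7 (nat_lit 363)) (lo112_15_6 (nat_lit 365)))) (B (M (nat_lit 365)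 (B (lo112_15_6 (nat_lit 492)) (lo113_10_5 (nat_lit 333)))) (M (nat_lit 398) (B (M (nat_lit 399) (B (lo116_12_1 (nat_lit 400)) (M (nat_lit 367) (B (lo111_12_2 (nat_lit 366)) (lo112_12_2 (nat_lit 368)))))) (M (nat_lit 363) (B (lo114_12_3 (nat_lit 362)) (M (nat_lit 331) (B (lo111_9_4 (nat_lit 299)) (lo112_14_7 (nat_lit 364))))))))))) (B (K _ _ _ o1_s47133) (M (nat_lit 363) (B (M (nat_lit 398) (B (lo114_12_3 (nat_lit 362)) (M (nat_lit 399) (B (lo115_12_3 (nat_lit 364)) (lo116_12_1 (nat_lit 400)))))) (B (M (nat_lit 331) (B (lo111_9_4 (nat_lit 299)) (M (nat_lit 460) (B (lo112_14_7 (nat_lit 364)) (lo112_15_7 (nat_lit 492)))))) (M (nat_lit 362) (B (lo114_12_3 (nat_lit 398)) (M (nat_lit 394) (B (lo113_12_3 (nat_lit 361)) (lo19_12_0 (nat_lit 393)))))))))))))) (B (M (nat_lit 426) (B (M (nat_lit 394) (B (lo19_12_0 (nat_lit 393)) (M (nat_lit 425) (B (lo113_12_1 (nat_lit 397)) (M (nat_lit 424)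 (B (lo17_13_2 (nat_lit 423)) (lo18_13_2 (nat_lit 427)))))))) (B (K _ _ _ o1_s47156) (B (K _ _ _ o1_s47157) (B (K _ _ _ o1_s47167) (B (K _ _ _ o1_s47170) (M (nat_lit 427) (B (M (nat_lit 425) (B (lo18_13_2 (nat_lit 424)) (M (nat_lit 457) (B (lo112_13_1 (nat_lit 456)) (lo113_13_1 (nat_lit 458)))))) (B (M (nat_lit 425) (B (M (nat_lit 393) (B (lo112_13_3 (nat_lit 392)) (lo113_13_3 (nat_lit 394)))) (M (nat_lit 457) (B (lo112_13_1 (nat_lit 456)) (lo113_13_1 (nat_lit 458)))))) (B (M (nat_lit 393) (B (lo113_13_3 (nat_lit 394)) (M (nat_lit 425) (B (lo112_13_3 (nat_lit 392)) (lo18_13_2 (nat_lit 424)))))) (M (nat_lit 394) (B (lo113_13_3 (nat_lit 393)) (M (nat_lit 458) (B (lo113_13_1 (nat_lit 457)) (M (nat_lit 363) (B (lo110_15_6 (nat_lit 490)) (lo111_10_5 (nat_lit 331)))))))))))))))))) (M (nat_lit 427) (B (K _ _ _ o1_s47086) (B (K _ _ _ o1_s47097) (B (M (nat_lit 491) (B (M (nat_lit 459) (B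 (lo111_15_6 (nat_lit 364)) (lo111_16_6 (nat_lit 523)))) (B (M (nat_lit 460) (B (M (nat_lit 492) (B (lo112_16_7 (nat_lit 524)) (lo112_12_5 (nat_lit 523)))) (M (nat_lit 461) (B (M (nat_lit 426) (B (lo19_13_0 (nat_lit 425)) (lo110_13_0 (nat_lit 462)))) (M (nat_lit 493) (B (lo112_11_4 (nat_lit 364)) (lo113_16_7 (nat_lit 525)))))))) (B (M (nat_lit 459) (B (lo111_15_6 (nat_lit 364)) (M (nat_lit 394) (B (lo19_12_0 (nat_lit 393)) (lo111_15_7 (nat_lit 362)))))) (M (nat_lit 459) (B (lo111_16_6 (nat_lit 523)) (M (nat_lit 394) (B (lo19_12_0 (nat_lit 393)) (lo111_15_7 (nat_lit 362)))))))))) (M (nat_lit 426) (B (M (nat_lit 393) (B (lo113_13_3 (nat_lit 394)) (M (nat_lit 425) (B (lo112_13_3 (nat_lit 392)) (lo18_13_2 (nat_lit 424)))))) (B (M (nat_lit 425) (B (lo18_13_2 (nat_lit 424)) (M (nat_lit 457) (B (lo112_13_1 (nat_lit 456)) (lo113_13_1 (nat_lit 458)))))) (B (M (nat_lit 425) (B (M (nat_lit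 393) (B (lo112_13_3 (nat_lit 392)) (lo113_13_3 (nat_lit 394)))) (M (nat_lit 457) (B (lo112_13_1 (nat_lit 456)) (lo113_13_1 (nat_lit 458)))))) (M (nat_lit 394) (B (lo113_13_3 (nat_lit 393)) (M (nat_lit 458) (B (lo113_13_1 (nat_lit 457)) (M (nat_lit 363) (B (lo110_15_6 (nat_lit 490)) (lo111_10_5 (nat_lit 331))))))))))))))))))))))))) (B (M (nat_lit 395) (B (K _ _ _ o1_s47018) (B (M (nat_lit 397) (B (M (nat_lit 365) (B (M (nat_lit 394) (B (lo19_12_0 (nat_lit 393)) (lo110_12_2 (nat_lit 366)))) (M (nat_lit 460) (B (lo112_15_6 (nat_lit 492)) (lo113_10_5 (nat_lit 333)))))) (B (M (nat_lit 365) (B (M (nat_lit 460) (B (lo112_15_6 (nat_lit 492)) (lo113_10_5 (nat_lit 333)))) (M (nat_lit 398) (B (M (nat_lit 366) (B (lo110_12_2 (nat_lit 394)) (lo111_12_2 (nat_lit 367)))) (M (nat_lit 427) (B (lo114_12_1 (nat_lit 426)) (lo115_12_1 (nat_lit 399)))))))) (B (K _ _ _ o1_s47204) (B (M (nat_lit 398)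 (B (M (nat_lit 399) (B (lo115_12_1 (nat_lit 427)) (lo116_12_1 (nat_lit 400)))) (M (nat_lit 394) (B (lo19_12_0 (nat_lit 393)) (M (nat_lit 366) (B (lo110_12_2 (nat_lit 365)) (lo111_12_2 (nat_lit 367)))))))) (K _ _ _ o1_s47219)))))) (B (M (nat_lit 397) (B (K _ _ _ o1_s47221) (B (K _ _ _ o1_s47204) (B (K _ _ _ o1_s47223) (B (K _ _ _ o1_s47033) (B (K _ _ _ o1_s47219) (M (nat_lit 365) (B (M (nat_lit 460) (B (lo112_15_6 (nat_lit 492)) (lo113_10_5 (nat_lit 333)))) (B (M (nat_lit 334) (B (M (nat_lit 333) (B (lo113_9_5 (nat_lit 301)) (lo113_13_6 (nat_lit 302)))) (M (nat_lit 366) (B (lo110_12_2 (nat_lit 394)) (lo113_14_6 (nat_lit 461)))))) (M (nat_lit 492) (B (lo112_15_6 (nat_lit 460)) (M (nat_lit 461) (B (M (nat_lit 493) (B (lo113_16_7 (nat_lit 525)) (lo113_12_5 (nat_lit 524)))) (M (nat_lit 366) (B (lo110_12_2 (nat_lit 394)) (lo113_14_6 (nat_lit 334))))))))))))))))) (B (M (nat_lit 397)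 (B (M (nat_lit 365) (B (M (nat_lit 394) (B (lo19_12_0 (nat_lit 393)) (lo110_12_2 (nat_lit 366)))) (M (nat_lit 460) (B (lo112_15_6 (nat_lit 492)) (lo113_10_5 (nat_lit 333)))))) (B (K _ _ _ o1_s47039) (B (K _ _ _ o1_s47116) (B (K _ _ _ o1_s47117) (M (nat_lit 426) (B (M (nat_lit 394) (B (lo19_12_0 (nat_lit 393)) (lo113_12_1 (nat_lit 425)))) (B (M (nat_lit 425) (B (lo113_12_1 (nat_lit 394)) (lo19_13_2 (nat_lit 427)))) (M (nat_lit 492) (B (M (nat_lit 460) (B (lo112_15_7 (nat_lit 363)) (lo112_15_6 (nat_lit 365)))) (B (M (nat_lit 460) (B (lo112_15_6 (nat_lit 365)) (lo112_16_6 (nat_lit 524)))) (M (nat_lit 461) (B (M (nat_lit 427) (B (lo114_12_1 (nat_lit 398)) (lo110_13_0 (nat_lit 462)))) (M (nat_lit 493) (B (lo113_16_7 (nat_lit 525)) (lo113_12_5 (nat_lit 524))))))))))))))))) (B (M (nat_lit 427) (B (K _ _ _ o1_s47110) (B (M (nat_lit 397) (B (M (nat_lit 426) (B (lo19_13_2 (nat_lit 425))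 (lo114_12_1 (nat_lit 398)))) (B (M (nat_lit 398) (B (lo114_12_1 (nat_lit 426)) (lo115_12_1 (nat_lit 399)))) (B (M (nat_lit 363) (B (M (nat_lit 398) (B (lo114_12_3 (nat_lit 362)) (lo115_12_1 (nat_lit 399)))) (M (nat_lit 460) (B (lo111_10_4 (nat_lit 331)) (lo112_15_7 (nat_lit 492)))))) (K _ _ _ o1_s47218))))) (B (M (nat_lit 363) (B (M (nat_lit 331) (B (lo111_9_4 (nat_lit 299)) (lo111_10_4 (nat_lit 460)))) (B (M (nat_lit 460) (B (lo111_10_4 (nat_lit 331)) (lo112_15_7 (nat_lit 492)))) (B (M (nat_lit 459) (B (M (nat_lit 460) (B (lo111_11_4 (nat_lit 492)) (M (nat_lit 458) (B (lo19_14_2 (nat_lit 457)) (lo111_11_5 (nat_lit 490)))))) (B (M (nat_lit 492) (B (lo111_11_4 (nat_lit 460)) (M (nat_lit 491) (B (lo111_12_4 (nat_lit 524)) (lo111_16_6 (nat_lit 523)))))) (M (nat_lit 458) (B (lo111_11_5 (nat_lit 490)) (M (nat_lit 457) (B (lo18_14_2 (nat_lit 456)) (lo113_13_1 (nat_lit 426))))))))) (M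 (nat_lit 331) (B (lo111_9_4 (nat_lit 299)) (M (nat_lit 459) (B (M (nat_lit 330) (B (lo111_13_7 (nat_lit 298)) (lo111_14_7 (nat_lit 362)))) (M (nat_lit 458) (B (lo111_10_5 (nat_lit 426)) (lo111_11_5 (nat_lit 490)))))))))))) (B (M (nat_lit 363) (B (M (nat_lit 331) (B (lo111_9_4 (nat_lit 299)) (lo111_10_4 (nat_lit 460)))) (B (M (nat_lit 460) (B (lo111_10_4 (nat_lit 331)) (lo112_15_7 (nat_lit 492)))) (B (M (nat_lit 459) (B (M (nat_lit 491) (B (lo111_16_6 (nat_lit 523)) (M (nat_lit 490) (B (lo111_11_5 (nat_lit 458)) (lo111_12_5 (nat_lit 522)))))) (B (M (nat_lit 492) (B (lo111_11_4 (nat_lit 460)) (M (nat_lit 491) (B (lo111_12_4 (nat_lit 524)) (lo111_16_6 (nat_lit 523)))))) (M (nat_lit 460) (B (lo111_11_4 (nat_lit 492)) (M (nat_lit 458) (B (lo19_14_2 (nat_lit 457)) (lo111_11_5 (nat_lit 490))))))))) (M (nat_lit 459) (B (M (nat_lit 491) (B (lo111_16_6 (nat_lit 523)) (M (nat_lit 490) (B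 (lo111_11_5 (nat_lit 458)) (lo111_12_5 (nat_lit 522)))))) (M (nat_lit 330) (B (lo111_14_7 (nat_lit 362)) (M (nat_lit 331) (B (lo111_13_7 (nat_lit 298)) (lo111_9_4 (nat_lit 299)))))))))))) (B (M (nat_lit 397) (B (M (nat_lit 426) (B (lo19_13_2 (nat_lit 425)) (lo114_12_1 (nat_lit 398)))) (B (M (nat_lit 398) (B (lo114_12_1 (nat_lit 426)) (lo115_12_1 (nat_lit 399)))) (B (M (nat_lit 398) (B (lo115_12_1 (nat_lit 399)) (M (nat_lit 365) (B (M (nat_lit 460) (B (lo112_15_6 (nat_lit 492)) (lo113_10_5 (nat_lit 333)))) (M (nat_lit 366) (B (lo111_12_2 (nat_lit 367)) (M (nat_lit 461) (B (lo113_14_6 (nat_lit 334)) (lo113_15_6 (nat_lit 493)))))))))) (K _ _ _ o1_s47218))))) (M (nat_lit 397) (B (M (nat_lit 426) (B (lo19_13_2 (nat_lit 425)) (lo114_12_1 (nat_lit 398)))) (B (M (nat_lit 398) (B (lo114_12_1 (nat_lit 426)) (lo115_12_1 (nat_lit 399)))) (B (M (nat_lit 398) (B (lo115_12_1 (nat_lit 399)) (M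 (nat_lit 366) (B (lo111_12_2 (nat_lit 367)) (M (nat_lit 461) (B (lo113_15_6 (nat_lit 493)) (M (nat_lit 334) (B (lo113_14_6 (nat_lit 365)) (lo114_9_5 (nat_lit 302)))))))))) (M (nat_lit 365) (B (M (nat_lit 460) (B (lo112_15_6 (nat_lit 492)) (lo113_10_5 (nat_lit 333)))) (B (M (nat_lit 461) (B (M (nat_lit 426) (B (lo19_13_2 (nat_lit 425)) (lo110_13_0 (nat_lit 462)))) (M (nat_lit 333) (B (lo113_9_5 (nat_lit 301)) (M (nat_lit 334) (B (lo113_13_6 (nat_lit 302)) (lo113_14_6 (nat_lit 366)))))))) (M (nat_lit 492) (B (lo112_15_6 (nat_lit 460)) (M (nat_lit 461) (B (M (nat_lit 426) (B (lo19_13_2 (nat_lit 425)) (lo110_13_0 (nat_lit 462)))) (M (nat_lit 493) (B (lo113_16_7 (nat_lit 525)) (lo113_12_5 (nat_lit 524))))))))))))))))))))) (B (M (nat_lit 397) (B (M (nat_lit 365) (B (M (nat_lit 394) (B (lo19_12_0 (nat_lit 393)) (lo110_12_2 (nat_lit 366)))) (M (nat_lit 460) (B (lo112_15_6 (nat_lit 492))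 (lo113_10_5 (nat_lit 333)))))) (B (K _ _ _ o1_s47221) (B (M (nat_lit 398) (B (M (nat_lit 399) (B (lo115_12_1 (nat_lit 427)) (lo116_12_1 (nat_lit 400)))) (K _ _ _ o1_s47115))) (B (K _ _ _ o1_s47117) (M (nat_lit 394) (B (lo19_12_0 (nat_lit 393)) (K _ _ _ o1_s46161)))))))) (B (M (nat_lit 397) (B (M (nat_lit 365) (B (M (nat_lit 394) (B (lo19_12_0 (nat_lit 393)) (lo110_12_2 (nat_lit 366)))) (M (nat_lit 460) (B (lo112_15_6 (nat_lit 492)) (lo113_10_5 (nat_lit 333)))))) (B (K _ _ _ o1_s47223) (B (M (nat_lit 365) (B (M (nat_lit 460) (B (lo112_15_6 (nat_lit 492)) (lo113_10_5 (nat_lit 333)))) (B (M (nat_lit 366) (B (M (nat_lit 367) (B (lo111_12_2 (nat_lit 398)) (lo116_11_1 (nat_lit 368)))) (M (nat_lit 333) (B (lo113_9_5 (nat_lit 301)) (M (nat_lit 334) (B (lo113_13_6 (nat_lit 302)) (lo113_14_6 (nat_lit 461)))))))) (M (nat_lit 461) (B (M (nat_lit 492) (B (lo112_15_6 (nat_lit 460)) (M (nat_lit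 493) (B (lo113_16_7 (nat_lit 525)) (lo113_12_5 (nat_lit 524)))))) (M (nat_lit 366) (B (lo113_14_6 (nat_lit 334)) (M (nat_lit 367) (B (lo111_12_2 (nat_lit 398)) (lo116_11_1 (nat_lit 368))))))))))) (B (K _ _ _ o1_s47133) (B (M (nat_lit 398) (B (M (nat_lit 399) (B (lo116_12_1 (nat_lit 400)) (M (nat_lit 367) (B (lo111_12_2 (nat_lit 366)) (lo112_12_2 (nat_lit 368)))))) (M (nat_lit 362) (B (lo114_12_3 (nat_lit 363)) (M (nat_lit 394) (B (lo113_12_3 (nat_lit 361)) (lo19_12_0 (nat_lit 393)))))))) (M (nat_lit 394) (B (lo19_12_0 (nat_lit 393)) (M (nat_lit 362) (B (lo113_12_3 (nat_lit 361)) (M (nat_lit 363) (B (lo114_12_3 (nat_lit 398)) (M (nat_lit 426) (B (lo113_12_1 (nat_lit 425)) (M (nat_lit 458) (B (lo110_14_6 (nat_lit 331)) (lo110_15_6 (nat_lit 490)))))))))))))))))) (B (M (nat_lit 426) (B (M (nat_lit 394) (B (lo19_12_0 (nat_lit 393)) (M (nat_lit 425) (B (lo113_12_1 (nat_lit 397)) (M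 (nat_lit 427) (B (lo18_13_2 (nat_lit 424)) (M (nat_lit 457) (B (lo112_13_1 (nat_lit 456)) (lo113_13_1 (nat_lit 458)))))))))) (B (K _ _ _ o1_s47156) (B (K _ _ _ o1_s47157) (B (K _ _ _ o1_s47167) (B (K _ _ _ o1_s47170) (M (nat_lit 427) (B (M (nat_lit 425) (B (lo18_13_2 (nat_lit 424)) (M (nat_lit 457) (B (lo112_13_1 (nat_lit 456)) (lo113_13_1 (nat_lit 458)))))) (B (M (nat_lit 425) (B (M (nat_lit 393) (B (lo112_13_3 (nat_lit 392)) (lo113_13_3 (nat_lit 394)))) (M (nat_lit 457) (B (lo112_13_1 (nat_lit 456)) (lo113_13_1 (nat_lit 458)))))) (B (M (nat_lit 393) (B (lo113_13_3 (nat_lit 394)) (M (nat_lit 425) (B (lo112_13_3 (nat_lit 392)) (lo18_13_2 (nat_lit 424)))))) (M (nat_lit 394) (B (lo113_13_3 (nat_lit 393)) (M (nat_lit 458) (B (lo113_13_1 (nat_lit 457)) (M (nat_lit 490) (B (lo110_15_6 (nat_lit 363)) (lo110_16_6 (nat_lit 522)))))))))))))))))) (B (M (nat_lit 427) (B (M (nat_lit 426)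 (B (M (nat_lit 425) (B (lo18_13_2 (nat_lit 424)) (lo19_13_2 (nat_lit 397)))) (B (M (nat_lit 397) (B (lo19_13_2 (nat_lit 425)) (lo114_12_1 (nat_lit 398)))) (M (nat_lit 394) (B (lo113_13_3 (nat_lit 393)) (M (nat_lit 458) (B (lo113_13_1 (nat_lit 457)) (M (nat_lit 490) (B (lo110_15_6 (nat_lit 363)) (lo110_16_6 (nat_lit 522))))))))))) (B (M (nat_lit 426) (B (M (nat_lit 397) (B (lo19_13_2 (nat_lit 425)) (lo114_12_1 (nat_lit 398)))) (M (nat_lit 394) (B (lo113_13_3 (nat_lit 393)) (M (nat_lit 458) (B (lo113_13_1 (nat_lit 457)) (M (nat_lit 490) (B (lo110_15_6 (nat_lit 363)) (lo110_16_6 (nat_lit 522)))))))))) (B (K _ _ _ o1_s47110) (B (M (nat_lit 394) (B (lo19_12_0 (nat_lit 393)) (M (nat_lit 363) (B (M (nat_lit 460) (B (lo111_10_4 (nat_lit 331)) (lo112_15_7 (nat_lit 492)))) (M (nat_lit 362) (B (M (nat_lit 330) (B (lo110_9_4 (nat_lit 298)) (lo111_14_7 (nat_lit 459)))) (M (nat_lit 397) (B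 (lo113_12_3 (nat_lit 361)) (lo114_12_3 (nat_lit 398)))))))))) (B (M (nat_lit 426) (B (M (nat_lit 425) (B (lo18_13_2 (nat_lit 424)) (lo19_13_2 (nat_lit 397)))) (B (M (nat_lit 397) (B (lo19_13_2 (nat_lit 425)) (lo114_12_1 (nat_lit 398)))) (B (K _ _ _ o1_s47367) (M (nat_lit 425) (B (lo18_13_2 (nat_lit 424)) (M (nat_lit 457) (B (lo112_13_1 (nat_lit 456)) (lo113_13_1 (nat_lit 458)))))))))) (M (nat_lit 394) (B (lo19_12_0 (nat_lit 393)) (M (nat_lit 458) (B (M (nat_lit 426) (B (lo113_13_1 (nat_lit 457)) (M (nat_lit 490) (B (lo110_15_6 (nat_lit 363)) (lo110_16_6 (nat_lit 522)))))) (B (K _ _ _ o1_s47377) (M (nat_lit 459) (B (M (nat_lit 457) (B (lo18_14_2 (nat_lit 456)) (lo19_14_2 (nat_lit 460)))) (M (nat_lit 491) (B (lo111_15_7 (nat_lit 362)) (lo111_16_6 (nat_lit 523))))))))))))))))) (M (nat_lit 394) (B (lo19_12_0 (nat_lit 393)) (M (nat_lit 458) (B (M (nat_lit 427) (B (M (nat_lit 426) (B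 (lo113_13_1 (nat_lit 457)) (M (nat_lit 490) (B (lo110_15_6 (nat_lit 363)) (lo110_16_6 (nat_lit 522)))))) (B (K _ _ _ o1_s47377) (M (nat_lit 459) (B (M (nat_lit 457) (B (lo18_14_2 (nat_lit 456)) (lo19_14_2 (nat_lit 460)))) (M (nat_lit 491) (B (lo111_15_7 (nat_lit 362)) (lo111_16_6 (nat_lit 523))))))))) (B (M (nat_lit 363) (B (M (nat_lit 426) (B (lo110_15_6 (nat_lit 490)) (M (nat_lit 331) (B (lo110_14_6 (nat_lit 362)) (lo111_9_5 (nat_lit 299)))))) (B (M (nat_lit 426) (B (lo110_15_6 (nat_lit 490)) (M (nat_lit 331) (B (lo111_9_5 (nat_lit 299)) (lo111_10_5 (nat_lit 427)))))) (B (M (nat_lit 460) (B (lo112_15_7 (nat_lit 492)) (M (nat_lit 331) (B (lo111_9_4 (nat_lit 299)) (lo111_10_4 (nat_lit 427)))))) (B (M (nat_lit 426) (B (lo110_15_6 (nat_lit 490)) (M (nat_lit 331) (B (lo110_14_6 (nat_lit 362)) (lo111_10_5 (nat_lit 427)))))) (M (nat_lit 457) (B (M (nat_lit 426) (B (lo113_13_1 (nat_lit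 427)) (lo110_15_6 (nat_lit 490)))) (M (nat_lit 460) (B (lo19_14_2 (nat_lit 459)) (lo112_15_7 (nat_lit 492))))))))))) (B (M (nat_lit 363) (B (M (nat_lit 426) (B (lo110_15_6 (nat_lit 490)) (M (nat_lit 331) (B (lo110_14_6 (nat_lit 362)) (lo111_10_5 (nat_lit 427)))))) (B (M (nat_lit 426) (B (lo110_15_6 (nat_lit 490)) (M (nat_lit 331) (B (lo111_9_5 (nat_lit 299)) (lo111_10_5 (nat_lit 427)))))) (B (M (nat_lit 460) (B (lo112_15_7 (nat_lit 492)) (M (nat_lit 331) (B (lo111_9_4 (nat_lit 299)) (lo111_10_4 (nat_lit 427)))))) (B (M (nat_lit 426) (B (lo110_15_6 (nat_lit 490)) (M (nat_lit 427) (B (M (nat_lit 460) (B (lo112_15_7 (nat_lit 492)) (M (nat_lit 425) (B (lo18_13_2 (nat_lit 424)) (lo19_13_0 (nat_lit 461)))))) (M (nat_lit 362) (B (M (nat_lit 361) (B (lo18_11_0 (nat_lit 360)) (lo110_14_7 (nat_lit 329)))) (M (nat_lit 330) (B (lo110_9_4 (nat_lit 298)) (lo110_10_4 (nat_lit 459)))))))))) (M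 (nat_lit 426) (B (lo110_15_6 (nat_lit 490)) (M (nat_lit 331) (B (lo110_14_6 (nat_lit 362)) (lo111_9_5 (nat_lit 299))))))))))) (B (M (nat_lit 426) (B (M (nat_lit 363) (B (lo110_15_6 (nat_lit 490)) (M (nat_lit 331) (B (lo111_9_5 (nat_lit 299)) (lo111_10_5 (nat_lit 427)))))) (B (M (nat_lit 427) (B (lo113_13_1 (nat_lit 457)) (M (nat_lit 461) (B (lo110_13_0 (nat_lit 462)) (M (nat_lit 425) (B (lo18_13_2 (nat_lit 424)) (lo19_13_0 (nat_lit 460)))))))) (K _ _ _ o1_s47439)))) (B (M (nat_lit 460) (B (M (nat_lit 363) (B (lo112_15_7 (nat_lit 492)) (M (nat_lit 331) (B (lo111_9_4 (nat_lit 299)) (lo111_10_4 (nat_lit 427)))))) (B (M (nat_lit 363) (B (lo112_15_7 (nat_lit 492)) (M (nat_lit 427) (B (lo111_10_4 (nat_lit 331)) (M (nat_lit 459) (B (lo19_14_2 (nat_lit 457)) (lo111_11_5 (nat_lit 490)))))))) (B (M (nat_lit 492) (B (lo112_15_7 (nat_lit 363)) (M (nat_lit 524) (B (lo112_16_7 (nat_lit 427))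 (M (nat_lit 523) (B (lo112_12_5 (nat_lit 491)) (lo112_13_5 (nat_lit 555)))))))) (B (M (nat_lit 459) (B (lo19_14_2 (nat_lit 457)) (M (nat_lit 491) (B (M (nat_lit 427) (B (lo111_15_7 (nat_lit 362)) (lo111_16_6 (nat_lit 523)))) (B (M (nat_lit 523) (B (lo111_16_6 (nat_lit 427)) (lo111_17_6 (nat_lit 555)))) (B (M (nat_lit 523) (B (lo111_17_6 (nat_lit 555)) (lo112_12_5 (nat_lit 492)))) (M (nat_lit 490) (B (M (nat_lit 427) (B (lo111_15_7 (nat_lit 362)) (lo111_12_5 (nat_lit 522)))) (M (nat_lit 461) (B (lo113_14_1 (nat_lit 489)) (lo114_14_1 (nat_lit 462)))))))))))) (B (K _ _ _ o1_s47476) (M (nat_lit 459) (B (lo19_14_2 (nat_lit 457)) (M (nat_lit 427) (B (M (nat_lit 363) (B (lo111_11_5 (nat_lit 490)) (lo111_10_4 (nat_lit 331)))) (M (nat_lit 491) (B (lo111_15_7 (nat_lit 362)) (lo111_16_6 (nat_lit 523)))))))))))))) (B (M (nat_lit 426) (B (M (nat_lit 427) (B (lo113_13_1 (nat_lit 457)) (M (nat_lit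 461) (B (lo110_13_0 (nat_lit 462)) (M (nat_lit 425) (B (lo18_13_2 (nat_lit 424)) (lo19_13_0 (nat_lit 460)))))))) (B (M (nat_lit 457) (B (lo113_13_1 (nat_lit 427)) (M (nat_lit 362) (B (lo110_11_5 (nat_lit 489)) (M (nat_lit 459) (B (lo19_14_2 (nat_lit 460)) (lo110_11_4 (nat_lit 491)))))))) (B (M (nat_lit 362) (B (M (nat_lit 363) (B (lo110_14_6 (nat_lit 331)) (M (nat_lit 361) (B (lo18_11_0 (nat_lit 360)) (lo110_14_7 (nat_lit 329)))))) (B (M (nat_lit 330) (B (M (nat_lit 331) (B (lo110_13_6 (nat_lit 299)) (lo110_14_6 (nat_lit 363)))) (M (nat_lit 459) (B (lo110_10_4 (nat_lit 427)) (lo110_11_4 (nat_lit 491)))))) (M (nat_lit 330) (B (M (nat_lit 329) (B (lo110_13_7 (nat_lit 297)) (lo110_14_7 (nat_lit 361)))) (M (nat_lit 459) (B (lo110_10_4 (nat_lit 427)) (lo110_11_4 (nat_lit 491))))))))) (M (nat_lit 362) (B (M (nat_lit 363) (B (lo110_14_6 (nat_lit 331)) (M (nat_lit 361) (B (lo18_11_0 (nat_lit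 360)) (lo110_14_7 (nat_lit 329)))))) (M (nat_lit 457) (B (lo110_11_5 (nat_lit 489)) (M (nat_lit 459) (B (lo19_14_2 (nat_lit 460)) (lo110_11_4 (nat_lit 491)))))))))))) (B (M (nat_lit 426) (B (M (nat_lit 490) (B (lo110_15_6 (nat_lit 363)) (M (nat_lit 427) (B (lo113_13_1 (nat_lit 457)) (lo110_16_6 (nat_lit 522)))))) (B (M (nat_lit 490) (B (lo110_15_6 (nat_lit 363)) (M (nat_lit 522) (B (lo110_16_6 (nat_lit 427)) (M (nat_lit 521) (B (lo110_12_5 (nat_lit 489)) (lo110_13_5 (nat_lit 553)))))))) (B (M (nat_lit 457) (B (lo113_13_1 (nat_lit 427)) (M (nat_lit 362) (B (lo110_11_5 (nat_lit 489)) (M (nat_lit 459) (B (lo19_14_2 (nat_lit 460)) (lo110_11_4 (nat_lit 491)))))))) (K _ _ _ o1_s47439))))) (B (M (nat_lit 427) (B (M (nat_lit 457) (B (lo113_13_1 (nat_lit 426)) (M (nat_lit 459) (B (lo18_14_2 (nat_lit 456)) (lo19_14_2 (nat_lit 460)))))) (B (M (nat_lit 459) (B (M (nat_lit 457) (B (lo113_13_1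 (nat_lit 426)) (lo19_14_2 (nat_lit 460)))) (M (nat_lit 491) (B (lo111_15_7 (nat_lit 362)) (lo111_16_6 (nat_lit 523)))))) (B (M (nat_lit 426) (B (M (nat_lit 461) (B (lo110_13_0 (nat_lit 462)) (M (nat_lit 425) (B (lo18_13_2 (nat_lit 424)) (lo19_13_0 (nat_lit 460)))))) (M (nat_lit 362) (B (M (nat_lit 330) (B (lo110_9_4 (nat_lit 298)) (lo110_10_4 (nat_lit 459)))) (B (M (nat_lit 459) (B (lo110_10_4 (nat_lit 330)) (lo110_11_4 (nat_lit 491)))) (B (M (nat_lit 491) (B (lo110_11_4 (nat_lit 459)) (M (nat_lit 490) (B (lo110_12_4 (nat_lit 523)) (lo110_16_6 (nat_lit 522)))))) (M (nat_lit 329) (B (lo110_14_7 (nat_lit 361)) (M (nat_lit 330) (B (lo110_13_7 (nat_lit 297)) (lo110_9_4 (nat_lit 298)))))))))))) (B (M (nat_lit 459) (B (M (nat_lit 457) (B (lo18_14_2 (nat_lit 456)) (lo19_14_2 (nat_lit 460)))) (M (nat_lit 491) (B (lo111_15_7 (nat_lit 362)) (lo111_16_6 (nat_lit 523)))))) (B (M (nat_lit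 426) (B (lo113_13_1 (nat_lit 457)) (M (nat_lit 461) (B (lo110_13_0 (nat_lit 462)) (M (nat_lit 425) (B (lo18_13_2 (nat_lit 424)) (lo19_13_0 (nat_lit 460)))))))) (M (nat_lit 459) (B (M (nat_lit 457) (B (lo18_14_2 (nat_lit 456)) (lo113_13_1 (nat_lit 426)))) (M (nat_lit 491) (B (lo111_15_7 (nat_lit 362)) (lo111_16_6 (nat_lit 523)))))))))))) (B (M (nat_lit 460) (B (M (nat_lit 363) (B (lo112_15_7 (nat_lit 492)) (M (nat_lit 331) (B (lo111_9_4 (nat_lit 299)) (M (nat_lit 426) (B (lo110_14_6 (nat_lit 362)) (lo110_15_6 (nat_lit 490)))))))) (B (K _ _ _ o1_s47476) (B (M (nat_lit 492) (B (lo112_15_7 (nat_lit 363)) (M (nat_lit 525) (B (lo112_12_4 (nat_lit 493)) (M (nat_lit 523) (B (lo112_12_5 (nat_lit 491)) (M (nat_lit 524) (B (lo112_13_5 (nat_lit 555)) (lo112_13_4 (nat_lit 557)))))))))) (B (M (nat_lit 459) (B (lo19_14_2 (nat_lit 457)) (M (nat_lit 491) (B (M (nat_lit 523) (B (lo111_17_6 (nat_lit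 555)) (lo112_12_5 (nat_lit 492)))) (M (nat_lit 461) (B (M (nat_lit 426) (B (lo113_14_3 (nat_lit 425)) (lo110_11_4 (nat_lit 362)))) (M (nat_lit 490) (B (lo113_14_1 (nat_lit 489)) (lo114_14_1 (nat_lit 462)))))))))) (M (nat_lit 426) (B (M (nat_lit 363) (B (lo110_15_6 (nat_lit 490)) (M (nat_lit 331) (B (lo110_14_6 (nat_lit 362)) (lo111_9_5 (nat_lit 299)))))) (B (M (nat_lit 490) (B (lo110_15_6 (nat_lit 363)) (M (nat_lit 522) (B (M (nat_lit 521) (B (lo110_12_5 (nat_lit 489)) (lo110_13_5 (nat_lit 553)))) (M (nat_lit 523) (B (lo110_12_4 (nat_lit 491)) (lo110_13_4 (nat_lit 555)))))))) (M (nat_lit 457) (B (lo19_14_2 (nat_lit 459)) (M (nat_lit 489) (B (lo110_11_5 (nat_lit 362)) (M (nat_lit 521) (B (lo19_16_6 (nat_lit 425)) (lo19_17_6 (nat_lit 553)))))))))))))))) (M (nat_lit 426) (B (M (nat_lit 363) (B (lo110_15_6 (nat_lit 490)) (M (nat_lit 331) (B (lo110_14_6 (nat_lit 362)) (lo111_9_5 (nat_lit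 299)))))) (B (M (nat_lit 363) (B (lo110_15_6 (nat_lit 490)) (M (nat_lit 331) (B (lo111_9_5 (nat_lit 299)) (lo111_10_5 (nat_lit 427)))))) (M (nat_lit 362) (B (M (nat_lit 457) (B (lo110_11_5 (nat_lit 489)) (lo113_13_1 (nat_lit 427)))) (B (M (nat_lit 330) (B (M (nat_lit 329) (B (lo110_13_7 (nat_lit 297)) (lo110_14_7 (nat_lit 361)))) (M (nat_lit 459) (B (lo110_10_4 (nat_lit 427)) (lo110_11_4 (nat_lit 491)))))) (M (nat_lit 330) (B (M (nat_lit 329) (B (lo110_13_7 (nat_lit 297)) (lo110_14_7 (nat_lit 361)))) (M (nat_lit 457) (B (lo110_10_5 (nat_lit 425)) (lo110_11_5 (nat_lit 489)))))))))))))))))))))))))))))))))) (B (M (nat_lit 397) (B (M (nat_lit 398) (B (M (nat_lit 427) (B (lo110_13_2 (nat_lit 426)) (lo115_12_1 (nat_lit 399)))) (B (M (nat_lit 399) (B (lo115_12_1 (nat_lit 427)) (lo116_12_1 (nat_lit 400)))) (B (M (nat_lit 364) (B (M (nat_lit 399) (B (lo115_12_3 (nat_lit 363)) (lo116_12_1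 (nat_lit 400)))) (M (nat_lit 461) (B (lo112_10_4 (nat_lit 332)) (lo113_15_7 (nat_lit 493)))))) (K _ _ _ o1_s47589))))) (B (M (nat_lit 398) (B (M (nat_lit 427) (B (lo110_13_2 (nat_lit 426)) (lo115_12_1 (nat_lit 399)))) (B (M (nat_lit 399) (B (lo115_12_1 (nat_lit 427)) (lo116_12_1 (nat_lit 400)))) (B (M (nat_lit 364) (B (M (nat_lit 399) (B (lo115_12_3 (nat_lit 363)) (lo116_12_1 (nat_lit 400)))) (M (nat_lit 461) (B (lo112_10_4 (nat_lit 332)) (lo113_15_7 (nat_lit 493)))))) (M (nat_lit 426) (B (lo110_13_2 (nat_lit 427)) (M (nat_lit 366) (B (M (nat_lit 395) (B (lo111_12_2 (nat_lit 367)) (M (nat_lit 394) (B (lo19_12_0 (nat_lit 393)) (lo113_12_1 (nat_lit 425)))))) (B (M (nat_lit 395) (B (lo111_12_2 (nat_lit 367)) (M (nat_lit 394) (B (lo113_12_1 (nat_lit 425)) (lo110_12_2 (nat_lit 365)))))) (B (M (nat_lit 395) (B (lo111_12_2 (nat_lit 367)) (M (nat_lit 394) (B (lo19_12_0 (nat_lit 393))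 (lo110_12_2 (nat_lit 365)))))) (M (nat_lit 461) (B (lo113_15_6 (nat_lit 493)) (M (nat_lit 334) (B (lo113_14_6 (nat_lit 365)) (lo114_9_5 (nat_lit 302)))))))))))))))) (B (M (nat_lit 398) (B (M (nat_lit 427) (B (lo110_13_2 (nat_lit 426)) (lo115_12_1 (nat_lit 399)))) (B (M (nat_lit 399) (B (lo115_12_1 (nat_lit 427)) (lo116_12_1 (nat_lit 400)))) (B (M (nat_lit 364) (B (M (nat_lit 399) (B (lo115_12_3 (nat_lit 363)) (lo116_12_1 (nat_lit 400)))) (M (nat_lit 461) (B (lo112_10_4 (nat_lit 332)) (lo113_15_7 (nat_lit 493)))))) (M (nat_lit 395) (B (M (nat_lit 426) (B (lo114_12_1 (nat_lit 427)) (M (nat_lit 394) (B (lo113_12_1 (nat_lit 425)) (M (nat_lit 366) (B (lo110_12_2 (nat_lit 365)) (lo111_12_2 (nat_lit 367)))))))) (B (M (nat_lit 394) (B (M (nat_lit 362) (B (lo113_12_3 (nat_lit 361)) (lo114_12_3 (nat_lit 363)))) (M (nat_lit 366) (B (lo110_12_2 (nat_lit 365)) (lo111_12_2 (nat_lit 367))))))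 (B (M (nat_lit 366) (B (lo111_12_2 (nat_lit 367)) (M (nat_lit 461) (B (lo113_15_6 (nat_lit 493)) (M (nat_lit 334) (B (lo113_14_6 (nat_lit 365)) (lo114_9_5 (nat_lit 302)))))))) (M (nat_lit 394) (B (M (nat_lit 362) (B (lo113_12_3 (nat_lit 361)) (lo114_12_3 (nat_lit 363)))) (M (nat_lit 426) (B (lo113_12_1 (nat_lit 425)) (lo114_12_1 (nat_lit 427)))))))))))))) (B (M (nat_lit 398) (B (M (nat_lit 427) (B (lo110_13_2 (nat_lit 426)) (lo115_12_1 (nat_lit 399)))) (B (M (nat_lit 399) (B (lo115_12_1 (nat_lit 427)) (lo116_12_1 (nat_lit 400)))) (B (M (nat_lit 364) (B (M (nat_lit 399) (B (lo115_12_3 (nat_lit 363)) (lo116_12_1 (nat_lit 400)))) (M (nat_lit 461) (B (lo112_10_4 (nat_lit 332)) (lo113_15_7 (nat_lit 493)))))) (M (nat_lit 395) (B (M (nat_lit 394) (B (lo19_12_0 (nat_lit 393)) (M (nat_lit 366) (B (lo110_12_2 (nat_lit 365)) (lo111_12_2 (nat_lit 367)))))) (B (M (nat_lit 366) (B (lo111_12_2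 (nat_lit 367)) (M (nat_lit 461) (B (lo113_15_6 (nat_lit 493)) (M (nat_lit 334) (B (lo113_14_6 (nat_lit 365)) (lo114_9_5 (nat_lit 302)))))))) (M (nat_lit 362) (B (lo114_12_3 (nat_lit 363)) (M (nat_lit 394) (B (lo113_12_3 (nat_lit 361)) (lo19_12_0 (nat_lit 393))))))))))))) (B (M (nat_lit 398) (B (M (nat_lit 399) (B (lo115_12_1 (nat_lit 427)) (lo116_12_1 (nat_lit 400)))) (M (nat_lit 461) (B (M (nat_lit 364) (B (lo112_10_4 (nat_lit 332)) (lo113_15_7 (nat_lit 493)))) (B (M (nat_lit 493) (B (lo113_15_7 (nat_lit 364)) (lo113_16_7 (nat_lit 525)))) (B (M (nat_lit 493) (B (lo113_16_7 (nat_lit 525)) (lo113_15_6 (nat_lit 366)))) (M (nat_lit 365) (B (M (nat_lit 332) (B (lo112_10_4 (nat_lit 364)) (M (nat_lit 333) (B (lo113_13_7 (nat_lit 300)) (lo113_9_5 (nat_lit 301)))))) (M (nat_lit 366) (B (lo113_14_6 (nat_lit 334)) (M (nat_lit 367) (B (lo111_12_2 (nat_lit 395)) (lo116_11_1 (nat_lit 368))))))))))))))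 (B (M (nat_lit 461) (B (M (nat_lit 364) (B (lo112_10_4 (nat_lit 332)) (lo113_15_7 (nat_lit 493)))) (B (M (nat_lit 493) (B (lo113_15_7 (nat_lit 364)) (lo113_16_7 (nat_lit 525)))) (B (M (nat_lit 493) (B (lo113_16_7 (nat_lit 525)) (M (nat_lit 398) (B (lo113_15_6 (nat_lit 366)) (M (nat_lit 399) (B (lo115_12_1 (nat_lit 427)) (lo116_12_1 (nat_lit 400)))))))) (M (nat_lit 365) (B (M (nat_lit 332) (B (lo112_10_4 (nat_lit 364)) (M (nat_lit 333) (B (lo113_13_7 (nat_lit 300)) (lo113_9_5 (nat_lit 301)))))) (B (M (nat_lit 333) (B (lo113_9_5 (nat_lit 301)) (M (nat_lit 334) (B (lo113_13_6 (nat_lit 302)) (lo113_14_6 (nat_lit 366)))))) (B (M (nat_lit 333) (B (M (nat_lit 332) (B (lo113_13_7 (nat_lit 300)) (lo112_10_4 (nat_lit 364)))) (M (nat_lit 334) (B (lo113_13_6 (nat_lit 302)) (lo113_14_6 (nat_lit 366)))))) (M (nat_lit 364) (B (lo112_10_4 (nat_lit 332)) (K _ _ _ o1_s46503))))))))))) (B (M (nat_lit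 398) (B (M (nat_lit 364) (B (M (nat_lit 399) (B (lo115_12_3 (nat_lit 363)) (lo116_12_1 (nat_lit 400)))) (M (nat_lit 461) (B (lo112_10_4 (nat_lit 332)) (lo113_15_7 (nat_lit 493)))))) (B (M (nat_lit 461) (B (M (nat_lit 364) (B (lo112_10_4 (nat_lit 332)) (lo113_15_7 (nat_lit 493)))) (B (M (nat_lit 493) (B (lo113_15_7 (nat_lit 364)) (lo113_15_6 (nat_lit 366)))) (B (M (nat_lit 493) (B (lo113_16_7 (nat_lit 525)) (lo113_15_6 (nat_lit 366)))) (M (nat_lit 365) (B (M (nat_lit 332) (B (lo112_10_4 (nat_lit 364)) (M (nat_lit 333) (B (lo113_13_7 (nat_lit 300)) (lo113_9_5 (nat_lit 301)))))) (M (nat_lit 366) (B (lo113_14_6 (nat_lit 334)) (M (nat_lit 395) (B (lo110_12_2 (nat_lit 394)) (lo111_12_2 (nat_lit 367)))))))))))) (B (K _ _ _ o1_s45416) (K _ _ _ o1_s47628))))) (B (M (nat_lit 398) (B (M (nat_lit 427) (B (lo110_13_2 (nat_lit 426)) (lo115_12_1 (nat_lit 399)))) (B (M (nat_lit 399) (B (lo115_12_1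 (nat_lit 427)) (lo116_12_1 (nat_lit 400)))) (B (K _ _ _ o1_s45416) (M (nat_lit 395) (B (M (nat_lit 426) (B (lo114_12_1 (nat_lit 427)) (M (nat_lit 394) (B (lo19_12_0 (nat_lit 393)) (lo113_12_1 (nat_lit 425)))))) (B (M (nat_lit 426) (B (lo114_12_1 (nat_lit 427)) (M (nat_lit 394) (B (lo113_12_1 (nat_lit 425)) (M (nat_lit 366) (B (lo110_12_2 (nat_lit 365)) (lo111_12_2 (nat_lit 367)))))))) (B (M (nat_lit 394) (B (lo19_12_0 (nat_lit 393)) (M (nat_lit 366) (B (lo110_12_2 (nat_lit 365)) (lo111_12_2 (nat_lit 367)))))) (M (nat_lit 366) (B (lo111_12_2 (nat_lit 367)) (M (nat_lit 461) (B (lo113_15_6 (nat_lit 493)) (M (nat_lit 334) (B (lo113_14_6 (nat_lit 365)) (lo114_9_5 (nat_lit 302)))))))))))))))) (B (M (nat_lit 398) (B (M (nat_lit 427) (B (lo110_13_2 (nat_lit 426)) (lo115_12_1 (nat_lit 399)))) (B (M (nat_lit 399) (B (lo115_12_1 (nat_lit 427)) (lo116_12_1 (nat_lit 400)))) (B (K _ _ _ o1_s47628)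 (K _ _ _ o1_s47589))))) (B (M (nat_lit 398) (B (M (nat_lit 427) (B (lo110_13_2 (nat_lit 426)) (lo115_12_1 (nat_lit 399)))) (B (M (nat_lit 399) (B (lo115_12_1 (nat_lit 427)) (lo116_12_1 (nat_lit 400)))) (B (M (nat_lit 364) (B (M (nat_lit 399) (B (lo115_12_3 (nat_lit 363)) (lo116_12_1 (nat_lit 400)))) (M (nat_lit 461) (B (lo112_10_4 (nat_lit 332)) (lo113_15_7 (nat_lit 493)))))) (M (nat_lit 395) (B (M (nat_lit 426) (B (lo114_12_1 (nat_lit 427)) (M (nat_lit 394) (B (lo19_12_0 (nat_lit 393)) (lo113_12_1 (nat_lit 425)))))) (B (M (nat_lit 394) (B (M (nat_lit 362) (B (lo113_12_3 (nat_lit 361)) (lo114_12_3 (nat_lit 363)))) (M (nat_lit 426) (B (lo113_12_1 (nat_lit 425)) (lo114_12_1 (nat_lit 427)))))) (B (M (nat_lit 362) (B (lo114_12_3 (nat_lit 363)) (M (nat_lit 394) (B (lo113_12_3 (nat_lit 361)) (lo19_12_0 (nat_lit 393)))))) (M (nat_lit 427) (B (lo114_12_1 (nat_lit 426)) (M (nat_lit 363)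 (B (lo114_12_3 (nat_lit 362)) (M (nat_lit 332) (B (M (nat_lit 331) (B (lo111_9_4 (nat_lit 299)) (lo111_13_6 (nat_lit 300)))) (M (nat_lit 364) (B (lo111_14_6 (nat_lit 459)) (lo112_10_4 (nat_lit 461)))))))))))))))))) (B (M (nat_lit 427) (B (M (nat_lit 426) (B (lo19_13_2 (nat_lit 425)) (lo110_13_2 (nat_lit 398)))) (B (M (nat_lit 398) (B (lo110_13_2 (nat_lit 426)) (lo115_12_1 (nat_lit 399)))) (B (M (nat_lit 395) (B (M (nat_lit 394) (B (lo19_12_0 (nat_lit 393)) (M (nat_lit 398) (B (lo115_12_1 (nat_lit 399)) (M (nat_lit 366) (B (lo110_12_2 (nat_lit 365)) (lo111_12_2 (nat_lit 367)))))))) (B (K _ _ _ o1_s46402) (B (M (nat_lit 363) (B (M (nat_lit 398) (B (lo114_12_3 (nat_lit 362)) (lo115_12_1 (nat_lit 399)))) (M (nat_lit 459) (B (M (nat_lit 364) (B (lo111_14_6 (nat_lit 332)) (lo111_15_6 (nat_lit 491)))) (B (M (nat_lit 332) (B (lo111_14_6 (nat_lit 364)) (M (nat_lit 331) (B (lo111_9_4 (nat_lit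 299)) (lo111_13_6 (nat_lit 300)))))) (B (M (nat_lit 491) (B (lo111_15_6 (nat_lit 364)) (lo111_16_6 (nat_lit 523)))) (M (nat_lit 490) (B (lo111_11_5 (nat_lit 458)) (M (nat_lit 491) (B (lo111_12_5 (nat_lit 522)) (lo111_16_6 (nat_lit 523)))))))))))) (K _ _ _ o1_s46424))))) (M (nat_lit 395) (B (K _ _ _ o1_s46428) (B (K _ _ _ o1_s46430) (B (M (nat_lit 426) (B (lo19_13_2 (nat_lit 425)) (M (nat_lit 458) (B (lo113_13_1 (nat_lit 457)) (M (nat_lit 490) (B (lo110_16_6 (nat_lit 522)) (M (nat_lit 363) (B (lo110_15_6 (nat_lit 394)) (lo111_11_5 (nat_lit 459)))))))))) (B (K _ _ _ o1_s46424) (M (nat_lit 426) (B (lo19_13_2 (nat_lit 425)) (M (nat_lit 458) (B (lo113_13_1 (nat_lit 457)) (M (nat_lit 459) (B (M (nat_lit 490) (B (lo110_16_6 (nat_lit 522)) (lo111_11_5 (nat_lit 363)))) (M (nat_lit 491) (B (lo111_15_6 (nat_lit 364)) (lo111_16_6 (nat_lit 523))))))))))))))))))) (M (nat_lit 365) (B (M (nat_lit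 333) (B (lo113_9_5 (nat_lit 301)) (M (nat_lit 334) (B (lo113_13_6 (nat_lit 302)) (M (nat_lit 461) (B (lo113_14_6 (nat_lit 366)) (M (nat_lit 332) (B (lo113_13_7 (nat_lit 300)) (lo112_10_4 (nat_lit 364)))))))))) (B (M (nat_lit 333) (B (lo113_9_5 (nat_lit 301)) (M (nat_lit 461) (B (M (nat_lit 364) (B (lo112_10_4 (nat_lit 332)) (lo113_15_7 (nat_lit 493)))) (M (nat_lit 334) (B (lo113_13_6 (nat_lit 302)) (lo113_14_6 (nat_lit 366)))))))) (B (K _ _ _ o1_s46071) (B (M (nat_lit 333) (B (lo113_9_5 (nat_lit 301)) (M (nat_lit 332) (B (lo113_13_7 (nat_lit 300)) (M (nat_lit 334) (B (lo113_13_6 (nat_lit 302)) (M (nat_lit 366) (B (lo113_14_6 (nat_lit 461)) (M (nat_lit 331) (B (lo110_10_0 (nat_lit 330)) (lo111_10_0 (nat_lit 367)))))))))))) (B (M (nat_lit 364) (B (M (nat_lit 332) (B (lo112_9_4 (nat_lit 300)) (lo112_10_4 (nat_lit 461)))) (B (M (nat_lit 461) (B (lo112_10_4 (nat_lit 332)) (lo113_15_7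 (nat_lit 493)))) (B (M (nat_lit 366) (B (M (nat_lit 395) (B (lo110_12_2 (nat_lit 394)) (lo115_11_1 (nat_lit 367)))) (M (nat_lit 461) (B (lo113_15_7 (nat_lit 493)) (lo113_14_6 (nat_lit 334)))))) (K _ _ _ o1_s47692))))) (B (M (nat_lit 364) (B (K _ _ _ o1_s47692) (B (M (nat_lit 333) (B (lo113_9_5 (nat_lit 301)) (M (nat_lit 332) (B (lo112_9_4 (nat_lit 300)) (M (nat_lit 334) (B (lo113_13_6 (nat_lit 302)) (M (nat_lit 363) (B (lo110_11_2 (nat_lit 362)) (lo115_10_1 (nat_lit 335)))))))))) (B (M (nat_lit 332) (B (lo112_9_4 (nat_lit 300)) (M (nat_lit 333) (B (lo112_13_6 (nat_lit 301)) (M (nat_lit 331) (B (lo112_13_7 (nat_lit 299)) (M (nat_lit 330) (B (lo19_10_0 (nat_lit 329)) (lo110_10_0 (nat_lit 366)))))))))) (M (nat_lit 395) (B (M (nat_lit 394) (B (lo19_12_2 (nat_lit 393)) (lo110_12_2 (nat_lit 366)))) (B (M (nat_lit 366) (B (lo110_12_2 (nat_lit 394)) (lo115_11_1 (nat_lit 367)))) (B (M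 (nat_lit 363) (B (M (nat_lit 366) (B (lo115_11_1 (nat_lit 367)) (M (nat_lit 331) (B (lo114_11_3 (nat_lit 330)) (lo111_9_4 (nat_lit 299)))))) (M (nat_lit 362) (B (lo19_11_0 (nat_lit 361)) (M (nat_lit 333) (B (lo110_11_2 (nat_lit 334)) (lo113_9_5 (nat_lit 301)))))))) (M (nat_lit 333) (B (lo113_9_5 (nat_lit 301)) (M (nat_lit 362) (B (M (nat_lit 394) (B (lo113_12_3 (nat_lit 361)) (lo19_12_2 (nat_lit 393)))) (M (nat_lit 334) (B (lo110_11_2 (nat_lit 363)) (lo113_13_6 (nat_lit 302)))))))))))))))) (B (M (nat_lit 333) (B (lo113_9_5 (nat_lit 301)) (M (nat_lit 332) (B (lo113_13_7 (nat_lit 300)) (M (nat_lit 364) (B (lo112_10_4 (nat_lit 461)) (M (nat_lit 331) (B (lo112_13_7 (nat_lit 299)) (M (nat_lit 330) (B (lo19_10_0 (nat_lit 329)) (lo110_10_0 (nat_lit 366)))))))))))) (M (nat_lit 333) (B (lo113_9_5 (nat_lit 301)) (M (nat_lit 332) (B (lo113_13_7 (nat_lit 300)) (M (nat_lit 364) (B (lo112_10_4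 (nat_lit 461)) (M (nat_lit 334) (B (lo113_13_6 (nat_lit 302)) (M (nat_lit 363) (B (lo110_11_2 (nat_lit 362)) (lo115_10_1 (nat_lit 335)))))))))))))))))))))))))))))))) (B (M (nat_lit 461) (B (M (nat_lit 493) (B (lo113_16_7 (nat_lit 525)) (M (nat_lit 364) (B (lo112_10_4 (nat_lit 332)) (lo113_15_7 (nat_lit 397)))))) (B (M (nat_lit 493) (B (lo113_16_7 (nat_lit 525)) (M (nat_lit 364) (B (lo112_11_4 (nat_lit 460)) (lo113_15_7 (nat_lit 397)))))) (B (M (nat_lit 492) (B (M (nat_lit 493) (B (lo113_16_7 (nat_lit 525)) (M (nat_lit 397) (B (lo113_12_5 (nat_lit 524)) (M (nat_lit 398) (B (lo113_15_6 (nat_lit 366)) (M (nat_lit 399) (B (lo115_12_1 (nat_lit 427)) (lo116_12_1 (nat_lit 400)))))))))) (B (M (nat_lit 460) (B (M (nat_lit 524) (B (lo112_16_6 (nat_lit 397)) (lo112_17_6 (nat_lit 556)))) (M (nat_lit 491) (B (lo112_12_5 (nat_lit 523)) (M (nat_lit 490) (B (lo19_15_2 (nat_lit 489)) (M (nat_lit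 462) (B (lo114_14_1 (nat_lit 459)) (lo115_14_1 (nat_lit 463)))))))))) (B (M (nat_lit 460) (B (M (nat_lit 491) (B (lo112_12_5 (nat_lit 523)) (M (nat_lit 490) (B (lo19_15_2 (nat_lit 489)) (M (nat_lit 462) (B (lo114_14_1 (nat_lit 459)) (lo115_14_1 (nat_lit 463)))))))) (B (M (nat_lit 493) (B (lo112_12_4 (nat_lit 525)) (M (nat_lit 491) (B (lo112_12_5 (nat_lit 523)) (M (nat_lit 462) (B (lo110_15_2 (nat_lit 490)) (lo115_14_1 (nat_lit 463)))))))) (M (nat_lit 397) (B (lo112_15_6 (nat_lit 365)) (M (nat_lit 398) (B (M (nat_lit 399) (B (lo115_12_1 (nat_lit 427)) (lo116_12_1 (nat_lit 400)))) (M (nat_lit 493) (B (lo112_12_4 (nat_lit 525)) (lo113_15_6 (nat_lit 366))))))))))) (M (nat_lit 493) (B (lo113_16_7 (nat_lit 525)) (M (nat_lit 460) (B (M (nat_lit 491) (B (lo112_12_5 (nat_lit 523)) (M (nat_lit 490) (B (lo19_15_2 (nat_lit 489)) (lo110_15_2 (nat_lit 462)))))) (M (nat_lit 395) (B (lo112_15_7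 (nat_lit 363)) (M (nat_lit 524) (B (lo112_16_7 (nat_lit 427)) (lo112_17_6 (nat_lit 556)))))))))))))) (B (M (nat_lit 493) (B (lo113_16_7 (nat_lit 525)) (M (nat_lit 364) (B (lo112_10_4 (nat_lit 332)) (lo112_11_4 (nat_lit 460)))))) (M (nat_lit 460) (B (M (nat_lit 364) (B (lo112_10_4 (nat_lit 332)) (M (nat_lit 491) (B (lo112_11_5 (nat_lit 459)) (M (nat_lit 492) (B (lo112_12_5 (nat_lit 523)) (M (nat_lit 363) (B (lo112_14_7 (nat_lit 331)) (lo112_15_7 (nat_lit 395)))))))))) (B (M (nat_lit 492) (B (M (nat_lit 524) (B (lo112_16_6 (nat_lit 397)) (lo112_17_6 (nat_lit 556)))) (M (nat_lit 491) (B (lo112_12_5 (nat_lit 523)) (M (nat_lit 364) (B (lo112_11_5 (nat_lit 459)) (lo112_10_4 (nat_lit 332)))))))) (B (M (nat_lit 492) (B (M (nat_lit 524) (B (lo112_16_6 (nat_lit 397)) (lo112_17_6 (nat_lit 556)))) (M (nat_lit 363) (B (lo112_15_7 (nat_lit 395)) (M (nat_lit 364) (B (lo112_14_7 (nat_lit 331))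 (lo112_10_4 (nat_lit 332)))))))) (B (M (nat_lit 491) (B (M (nat_lit 492) (B (lo112_12_5 (nat_lit 523)) (M (nat_lit 397) (B (lo112_15_6 (nat_lit 365)) (lo112_16_6 (nat_lit 524)))))) (M (nat_lit 462) (B (M (nat_lit 459) (B (lo114_14_1 (nat_lit 490)) (lo112_11_5 (nat_lit 364)))) (M (nat_lit 427) (B (lo110_13_0 (nat_lit 426)) (lo115_14_3 (nat_lit 463)))))))) (B (M (nat_lit 492) (B (M (nat_lit 524) (B (lo112_16_6 (nat_lit 397)) (lo112_17_6 (nat_lit 556)))) (M (nat_lit 491) (B (lo112_12_5 (nat_lit 523)) (M (nat_lit 490) (B (lo19_15_2 (nat_lit 489)) (M (nat_lit 462) (B (lo114_14_1 (nat_lit 459)) (lo115_14_1 (nat_lit 463)))))))))) (M (nat_lit 459) (B (M (nat_lit 364) (B (lo112_11_5 (nat_lit 491)) (lo112_10_4 (nat_lit 332)))) (B (M (nat_lit 458) (B (lo19_14_2 (nat_lit 457)) (M (nat_lit 427) (B (M (nat_lit 426) (B (lo113_14_3 (nat_lit 425)) (lo114_14_3 (nat_lit 462)))) (M (nat_lit 363)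 (B (M (nat_lit 490) (B (lo113_14_1 (nat_lit 489)) (lo111_11_5 (nat_lit 395)))) (B (M (nat_lit 395) (B (lo111_11_5 (nat_lit 490)) (lo111_10_4 (nat_lit 331)))) (B (M (nat_lit 331) (B (lo111_10_4 (nat_lit 395)) (lo112_14_7 (nat_lit 364)))) (M (nat_lit 364) (B (lo112_14_7 (nat_lit 331)) (lo112_10_5 (nat_lit 332)))))))))))) (B (M (nat_lit 458) (B (lo19_14_2 (nat_lit 457)) (M (nat_lit 490) (B (lo113_14_1 (nat_lit 489)) (M (nat_lit 491) (B (lo114_14_1 (nat_lit 462)) (lo112_11_5 (nat_lit 364)))))))) (M (nat_lit 458) (B (lo19_14_2 (nat_lit 457)) (M (nat_lit 462) (B (M (nat_lit 426) (B (lo113_14_3 (nat_lit 425)) (lo114_14_3 (nat_lit 427)))) (M (nat_lit 490) (B (lo113_14_1 (nat_lit 489)) (lo114_14_1 (nat_lit 491))))))))))))))))))))))) (B (M (nat_lit 427) (B (M (nat_lit 461) (B (M (nat_lit 462) (B (lo110_13_0 (nat_lit 426)) (M (nat_lit 463) (B (lo115_14_3 (nat_lit 460)) (lo116_14_3 (nat_lit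 464)))))) (B (M (nat_lit 364) (B (lo112_10_4 (nat_lit 332)) (M (nat_lit 493) (B (lo112_11_4 (nat_lit 460)) (lo113_16_7 (nat_lit 525)))))) (M (nat_lit 364) (B (lo112_10_4 (nat_lit 332)) (M (nat_lit 493) (B (lo113_15_7 (nat_lit 397)) (lo113_16_7 (nat_lit 525))))))))) (B (M (nat_lit 459) (B (M (nat_lit 491) (B (lo111_16_6 (nat_lit 523)) (M (nat_lit 364) (B (lo111_15_6 (nat_lit 395)) (lo112_10_5 (nat_lit 332)))))) (B (M (nat_lit 364) (B (lo112_10_5 (nat_lit 332)) (M (nat_lit 491) (B (lo111_16_6 (nat_lit 523)) (lo112_11_5 (nat_lit 460)))))) (B (M (nat_lit 364) (B (lo112_10_5 (nat_lit 332)) (M (nat_lit 460) (B (M (nat_lit 363) (B (lo112_14_7 (nat_lit 331)) (M (nat_lit 395) (B (lo111_11_4 (nat_lit 492)) (M (nat_lit 458) (B (lo19_14_2 (nat_lit 457)) (lo111_11_5 (nat_lit 490)))))))) (B (M (nat_lit 492) (B (M (nat_lit 363) (B (lo112_14_7 (nat_lit 331)) (lo111_11_4 (nat_lit 395)))) (M (nat_lit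 493) (B (lo112_11_4 (nat_lit 461)) (lo112_12_4 (nat_lit 525)))))) (B (M (nat_lit 492) (B (M (nat_lit 395) (B (lo111_11_4 (nat_lit 363)) (lo112_16_7 (nat_lit 524)))) (M (nat_lit 493) (B (lo112_11_4 (nat_lit 461)) (lo112_12_4 (nat_lit 525)))))) (B (M (nat_lit 492) (B (M (nat_lit 524) (B (lo112_16_7 (nat_lit 395)) (lo112_17_7 (nat_lit 556)))) (M (nat_lit 493) (B (lo112_11_4 (nat_lit 461)) (lo112_12_4 (nat_lit 525)))))) (B (M (nat_lit 492) (B (M (nat_lit 493) (B (lo112_11_4 (nat_lit 461)) (lo112_12_4 (nat_lit 525)))) (M (nat_lit 524) (B (lo112_17_7 (nat_lit 556)) (lo112_16_6 (nat_lit 397)))))) (M (nat_lit 458) (B (lo19_14_2 (nat_lit 457)) (M (nat_lit 490) (B (M (nat_lit 461) (B (lo113_14_1 (nat_lit 489)) (lo112_11_4 (nat_lit 493)))) (M (nat_lit 363) (B (lo111_11_5 (nat_lit 395)) (lo112_14_7 (nat_lit 331)))))))))))))))) (B (M (nat_lit 491) (B (lo111_16_6 (nat_lit 523)) (M (nat_lit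 364) (B (lo111_15_6 (nat_lit 395)) (lo112_11_5 (nat_lit 460)))))) (M (nat_lit 491) (B (lo111_16_6 (nat_lit 523)) (M (nat_lit 395) (B (M (nat_lit 394) (B (lo19_12_0 (nat_lit 393)) (lo111_15_7 (nat_lit 362)))) (M (nat_lit 363) (B (M (nat_lit 490) (B (lo111_11_5 (nat_lit 458)) (lo111_12_5 (nat_lit 522)))) (M (nat_lit 492) (B (lo111_11_4 (nat_lit 460)) (lo111_12_4 (nat_lit 524))))))))))))))) (B (M (nat_lit 461) (B (M (nat_lit 462) (B (lo110_13_0 (nat_lit 426)) (M (nat_lit 463) (B (lo115_14_3 (nat_lit 460)) (lo116_14_3 (nat_lit 464)))))) (B (M (nat_lit 493) (B (lo113_16_7 (nat_lit 525)) (M (nat_lit 364) (B (lo112_11_4 (nat_lit 460)) (lo113_15_7 (nat_lit 397)))))) (M (nat_lit 426) (B (lo110_13_0 (nat_lit 462)) (M (nat_lit 397) (B (lo19_13_2 (nat_lit 425)) (lo110_13_2 (nat_lit 398))))))))) (B (M (nat_lit 426) (B (M (nat_lit 397) (B (lo19_13_2 (nat_lit 425)) (lo110_13_2 (nat_lit 398))))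 (B (M (nat_lit 395) (B (M (nat_lit 394) (B (lo113_13_3 (nat_lit 393)) (M (nat_lit 458) (B (lo113_13_1 (nat_lit 457)) (M (nat_lit 490) (B (lo110_15_6 (nat_lit 363)) (lo110_16_6 (nat_lit 522)))))))) (B (M (nat_lit 458) (B (lo113_13_1 (nat_lit 457)) (M (nat_lit 363) (B (lo111_10_5 (nat_lit 331)) (M (nat_lit 490) (B (lo110_15_6 (nat_lit 394)) (lo110_16_6 (nat_lit 522)))))))) (B (K _ _ _ o1_s47367) (M (nat_lit 458) (B (lo113_13_1 (nat_lit 457)) (M (nat_lit 490) (B (lo110_16_6 (nat_lit 522)) (M (nat_lit 363) (B (lo111_10_5 (nat_lit 331)) (lo111_11_5 (nat_lit 459)))))))))))) (M (nat_lit 425) (B (M (nat_lit 393) (B (lo112_13_3 (nat_lit 392)) (lo113_13_3 (nat_lit 394)))) (M (nat_lit 457) (B (lo112_13_1 (nat_lit 456)) (lo113_13_1 (nat_lit 458))))))))) (M (nat_lit 426) (B (M (nat_lit 461) (B (lo110_13_0 (nat_lit 462)) (M (nat_lit 364) (B (lo112_10_4 (nat_lit 332)) (M (nat_lit 493) (B (lo112_11_4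 (nat_lit 460)) (lo113_16_7 (nat_lit 525)))))))) (M (nat_lit 425) (B (M (nat_lit 393) (B (lo112_13_3 (nat_lit 392)) (lo113_13_3 (nat_lit 394)))) (M (nat_lit 457) (B (lo112_13_1 (nat_lit 456)) (lo113_13_1 (nat_lit 458))))))))))))) (B (M (nat_lit 364) (B (M (nat_lit 461) (B (lo112_10_4 (nat_lit 332)) (M (nat_lit 493) (B (lo112_11_4 (nat_lit 460)) (lo113_16_7 (nat_lit 525)))))) (B (M (nat_lit 460) (B (M (nat_lit 492) (B (M (nat_lit 363) (B (lo112_14_7 (nat_lit 331)) (lo112_15_7 (nat_lit 395)))) (M (nat_lit 491) (B (lo112_11_5 (nat_lit 459)) (lo112_12_5 (nat_lit 523)))))) (B (M (nat_lit 492) (B (M (nat_lit 491) (B (lo112_11_5 (nat_lit 459)) (lo112_12_5 (nat_lit 523)))) (M (nat_lit 493) (B (lo112_11_4 (nat_lit 461)) (lo112_12_4 (nat_lit 525)))))) (B (M (nat_lit 492) (B (M (nat_lit 363) (B (lo112_14_7 (nat_lit 331)) (lo112_15_7 (nat_lit 395)))) (M (nat_lit 493) (B (lo112_11_4 (nat_lit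 461)) (lo112_12_4 (nat_lit 525)))))) (M (nat_lit 427) (B (M (nat_lit 461) (B (lo112_11_4 (nat_lit 493)) (M (nat_lit 426) (B (lo19_13_0 (nat_lit 425)) (lo110_13_0 (nat_lit 462)))))) (M (nat_lit 363) (B (lo112_14_7 (nat_lit 331)) (K _ _ _ o1_s47907))))))))) (B (K _ _ _ o1_s47911) (K _ _ _ o1_s31232))))) (M (nat_lit 364) (B (M (nat_lit 332) (B (M (nat_lit 300) (B (lo112_9_4 (nat_lit 397)) (M (nat_lit 299) (B (lo112_12_7 (nat_lit 267)) (lo112_13_7 (nat_lit 331)))))) (B (M (nat_lit 300) (B (lo112_9_4 (nat_lit 397)) (M (nat_lit 427) (B (lo112_9_5 (nat_lit 395)) (lo112_10_5 (nat_lit 459)))))) (M (nat_lit 460) (B (M (nat_lit 331) (B (lo112_13_7 (nat_lit 299)) (lo112_14_7 (nat_lit 363)))) (M (nat_lit 333) (B (lo112_13_6 (nat_lit 301)) (lo112_14_6 (nat_lit 365))))))))) (B (K _ _ _ o1_s46726) (B (K _ _ _ o1_s31230) (B (K _ _ _ o1_s46019) (B (K _ _ _ o1_s28837) (B (K _ _ _ o1_s47011) (B (M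 (nat_lit 363) (B (M (nat_lit 331) (B (lo112_14_7 (nat_lit 460)) (M (nat_lit 299) (B (lo111_8_4 (nat_lit 267)) (lo111_9_4 (nat_lit 395)))))) (B (M (nat_lit 460) (B (lo112_14_7 (nat_lit 331)) (M (nat_lit 492) (B (lo112_15_7 (nat_lit 395)) (M (nat_lit 491) (B (lo112_11_5 (nat_lit 459)) (lo112_12_5 (nat_lit 523)))))))) (B (M (nat_lit 362) (B (M (nat_lit 397) (B (lo19_11_0 (nat_lit 361)) (M (nat_lit 398) (B (lo114_12_3 (nat_lit 395)) (lo115_12_3 (nat_lit 399)))))) (B (M (nat_lit 365) (B (M (nat_lit 333) (B (lo110_11_2 (nat_lit 334)) (lo112_14_6 (nat_lit 460)))) (B (M (nat_lit 397) (B (lo110_11_0 (nat_lit 398)) (M (nat_lit 333) (B (lo110_11_2 (nat_lit 334)) (lo113_9_5 (nat_lit 301)))))) (M (nat_lit 366) (B (M (nat_lit 394) (B (lo113_11_1 (nat_lit 393)) (lo114_11_1 (nat_lit 395)))) (M (nat_lit 398) (B (lo110_11_0 (nat_lit 397)) (lo111_11_0 (nat_lit 399))))))))) (B (M (nat_lit 397) (B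 (lo19_11_0 (nat_lit 361)) (M (nat_lit 398) (B (lo110_11_0 (nat_lit 365)) (lo115_12_3 (nat_lit 399)))))) (K _ _ _ o1_s29333))))) (B (K _ _ _ o1_s29395) (M (nat_lit 362) (B (M (nat_lit 397) (B (lo19_11_0 (nat_lit 361)) (M (nat_lit 398) (B (lo110_11_0 (nat_lit 365)) (lo115_12_3 (nat_lit 399)))))) (B (M (nat_lit 365) (B (M (nat_lit 397) (B (lo110_11_0 (nat_lit 398)) (M (nat_lit 333) (B (lo110_11_2 (nat_lit 334)) (lo113_9_5 (nat_lit 301)))))) (M (nat_lit 331) (B (M (nat_lit 330) (B (lo113_11_3 (nat_lit 329)) (lo114_11_3 (nat_lit 366)))) (M (nat_lit 299) (B (lo111_8_4 (nat_lit 267)) (lo111_9_4 (nat_lit 395)))))))) (B (M (nat_lit 397) (B (lo19_11_0 (nat_lit 361)) (M (nat_lit 398) (B (lo114_12_3 (nat_lit 395)) (lo115_12_3 (nat_lit 399)))))) (K _ _ _ o1_s29333)))))))))) (B (M (nat_lit 363) (B (K _ _ _ o1_s31257) (B (K _ _ _ o1_s31282) (B (M (nat_lit 362) (B (M (nat_lit 397) (B (lo19_11_0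 (nat_lit 361)) (M (nat_lit 398) (B (lo114_12_3 (nat_lit 395)) (lo115_12_3 (nat_lit 399)))))) (B (M (nat_lit 365) (B (M (nat_lit 397) (B (lo110_11_0 (nat_lit 398)) (M (nat_lit 333) (B (lo110_11_2 (nat_lit 334)) (lo113_9_5 (nat_lit 301)))))) (B (M (nat_lit 366) (B (M (nat_lit 330) (B (lo113_11_3 (nat_lit 329)) (lo114_11_3 (nat_lit 331)))) (M (nat_lit 398) (B (lo110_11_0 (nat_lit 397)) (lo111_11_0 (nat_lit 399)))))) (M (nat_lit 333) (B (lo110_11_2 (nat_lit 334)) (M (nat_lit 301) (B (lo112_13_6 (nat_lit 332)) (lo113_8_5 (nat_lit 269))))))))) (K _ _ _ o1_s29333)))) (B (M (nat_lit 362) (B (M (nat_lit 397) (B (lo19_11_0 (nat_lit 361)) (M (nat_lit 398) (B (lo114_12_3 (nat_lit 395)) (lo115_12_3 (nat_lit 399)))))) (B (M (nat_lit 365) (B (M (nat_lit 333) (B (lo110_11_2 (nat_lit 334)) (M (nat_lit 301) (B (lo112_13_6 (nat_lit 332)) (lo113_8_5 (nat_lit 269)))))) (B (M (nat_lit 397) (B (lo110_11_0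 (nat_lit 398)) (M (nat_lit 333) (B (lo110_11_2 (nat_lit 334)) (lo113_9_5 (nat_lit 301)))))) (M (nat_lit 366) (B (M (nat_lit 394) (B (lo113_11_1 (nat_lit 393)) (lo114_11_1 (nat_lit 395)))) (M (nat_lit 398) (B (lo110_11_0 (nat_lit 397)) (lo111_11_0 (nat_lit 399))))))))) (B (M (nat_lit 397) (B (lo19_11_0 (nat_lit 361)) (M (nat_lit 398) (B (lo110_11_0 (nat_lit 365)) (lo115_12_3 (nat_lit 399)))))) (K _ _ _ o1_s29333))))) (B (M (nat_lit 332) (B (M (nat_lit 300) (B (lo112_9_4 (nat_lit 397)) (M (nat_lit 301) (B (lo112_12_6 (nat_lit 269)) (lo112_13_6 (nat_lit 333)))))) (B (M (nat_lit 331) (B (lo112_13_7 (nat_lit 299)) (M (nat_lit 333) (B (lo112_13_6 (nat_lit 301)) (M (nat_lit 362) (B (lo19_11_2 (nat_lit 361)) (lo114_10_1 (nat_lit 334)))))))) (M (nat_lit 397) (B (lo112_9_4 (nat_lit 300)) (M (nat_lit 427) (B (lo112_10_5 (nat_lit 459)) (M (nat_lit 398) (B (lo110_13_2 (nat_lit 426)) (lo115_12_3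 (nat_lit 399))))))))))) (B (M (nat_lit 362) (B (M (nat_lit 397) (B (lo19_11_0 (nat_lit 361)) (M (nat_lit 398) (B (lo110_11_0 (nat_lit 365)) (lo115_12_3 (nat_lit 399)))))) (B (K _ _ _ o1_s29461) (B (M (nat_lit 397) (B (lo19_11_0 (nat_lit 361)) (M (nat_lit 398) (B (lo114_12_3 (nat_lit 395)) (lo115_12_3 (nat_lit 399)))))) (K _ _ _ o1_s29333))))) (K _ _ _ o1_s31334)))))))) (B (K _ _ _ o1_s30835) (K _ _ _ o1_s31232)))))))))))))))))))))))))) _ _ _ (by decide +kernel)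
theorem o1_s48784 : Sem (nat_lit 2977131416794308094280641461793077210819827790952582581444846287221758209573443874798297761003556369114987972072309673036810407142536249344) (nat_lit 2532663312853635318922554928838732991070190449174289268797031046809266464261626160828360331330748309106872161650782326143143451385256421829940923823903851374791077074305913192448) (nat_lit 2532663312853635318922554928838732991070190449174289268797031046809266464261626160828360331330748309106872161650782326143143451385256421829940923823903851374791077074305913192448) := sem_of_chk (M (nat_lit 492) (B (K _ _ _ o1_s47938) (B (M (nat_lit 524) (B (M (nat_lit 556) (B (lo112_17_6 (nat_lit 461)) (M (nat_lit 427) (B (lo112_17_7 (nat_lit 459)) (lo112_16_7 (nat_lit 395)))))) (M (nat_lit 396) (B (M (nat_lit 525) (B (lo112_13_4 (nat_lit 557)) (lo112_12_4 (nat_lit 493)))) (M (nat_lit 523) (B (lo112_13_5 (nat_lit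 555)) (lo112_12_5 (nat_lit 491)))))))) (B (M (nat_lit 461) (B (M (nat_lit 524) (B (lo112_17_6 (nat_lit 556)) (M (nat_lit 427) (B (lo112_16_7 (nat_lit 395)) (M (nat_lit 462) (B (lo115_14_3 (nat_lit 463)) (lo110_13_0 (nat_lit 426)))))))) (B (M (nat_lit 524) (B (lo112_17_6 (nat_lit 556)) (M (nat_lit 396) (B (M (nat_lit 364) (B (lo112_11_4 (nat_lit 493)) (lo112_10_4 (nat_lit 332)))) (M (nat_lit 523) (B (lo112_13_5 (nat_lit 555)) (lo112_12_5 (nat_lit 491)))))))) (K _ _ _ o1_s48036)))) (B (M (nat_lit 524) (B (M (nat_lit 556) (B (lo112_17_6 (nat_lit 461)) (M (nat_lit 427) (B (lo112_17_7 (nat_lit 459)) (lo112_16_7 (nat_lit 395)))))) (M (nat_lit 523) (B (lo112_13_5 (nat_lit 555)) (M (nat_lit 525) (B (lo112_13_4 (nat_lit 557)) (M (nat_lit 491) (B (lo112_12_5 (nat_lit 396)) (M (nat_lit 526) (B (lo115_16_3 (nat_lit 527)) (lo114_16_3 (nat_lit 490)))))))))))) (B (K _ _ _ o1_s48298) (B (K _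 _ _ o1_s48638) (B (M (nat_lit 493) (B (M (nat_lit 525) (B (lo112_12_4 (nat_lit 396)) (M (nat_lit 557) (B (lo113_18_7 (nat_lit 589)) (lo113_17_7 (nat_lit 461)))))) (B (M (nat_lit 396) (B (lo112_12_4 (nat_lit 525)) (M (nat_lit 491) (B (lo112_12_5 (nat_lit 523)) (M (nat_lit 364) (B (lo112_11_4 (nat_lit 461)) (lo112_11_5 (nat_lit 459)))))))) (B (M (nat_lit 491) (B (M (nat_lit 396) (B (lo112_12_5 (nat_lit 523)) (M (nat_lit 364) (B (lo112_11_4 (nat_lit 461)) (lo112_11_5 (nat_lit 459)))))) (B (M (nat_lit 459) (B (M (nat_lit 494) (B (lo115_15_3 (nat_lit 495)) (lo114_15_3 (nat_lit 458)))) (M (nat_lit 396) (B (lo112_12_5 (nat_lit 523)) (lo112_11_5 (nat_lit 364)))))) (B (K _ _ _ o1_s48629) (M (nat_lit 461) (B (M (nat_lit 462) (B (lo115_14_1 (nat_lit 463)) (lo110_15_2 (nat_lit 490)))) (M (nat_lit 396) (B (lo112_11_4 (nat_lit 364)) (lo112_12_5 (nat_lit 523)))))))))) (B (K _ _ _ o1_s42332)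 (M (nat_lit 494) (B (M (nat_lit 459) (B (lo115_15_3 (nat_lit 495)) (M (nat_lit 458) (B (lo114_15_3 (nat_lit 491)) (lo19_14_0 (nat_lit 457)))))) (B (M (nat_lit 491) (B (M (nat_lit 459) (B (lo114_15_3 (nat_lit 458)) (M (nat_lit 523) (B (lo114_15_1 (nat_lit 522)) (lo111_17_6 (nat_lit 555)))))) (M (nat_lit 490) (B (M (nat_lit 526) (B (lo111_15_0 (nat_lit 527)) (lo110_15_0 (nat_lit 525)))) (M (nat_lit 462) (B (lo111_15_2 (nat_lit 463)) (lo110_15_2 (nat_lit 461)))))))) (B (M (nat_lit 459) (B (lo115_15_3 (nat_lit 495)) (M (nat_lit 458) (B (lo110_14_0 (nat_lit 461)) (lo19_14_0 (nat_lit 457)))))) (M (nat_lit 495) (B (M (nat_lit 496) (B (lo116_15_3 (nat_lit 461)) (M (nat_lit 464) (B (lo113_15_2 (nat_lit 465)) (lo112_15_2 (nat_lit 463)))))) (B (M (nat_lit 496) (B (lo116_15_3 (nat_lit 461)) (M (nat_lit 528) (B (lo113_15_0 (nat_lit 529)) (lo112_15_0 (nat_lit 527)))))) (M (nat_lit 491) (B (M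 (nat_lit 527) (B (lo112_15_0 (nat_lit 528)) (lo111_15_0 (nat_lit 526)))) (M (nat_lit 463) (B (lo112_15_2 (nat_lit 464)) (lo111_15_2 (nat_lit 462)))))))))))))))))) (B (M (nat_lit 461) (B (M (nat_lit 524) (B (lo112_17_6 (nat_lit 556)) (M (nat_lit 427) (B (lo112_16_7 (nat_lit 395)) (M (nat_lit 462) (B (lo115_14_3 (nat_lit 463)) (lo110_13_0 (nat_lit 426)))))))) (B (M (nat_lit 427) (B (M (nat_lit 426) (B (lo110_13_0 (nat_lit 462)) (lo19_13_0 (nat_lit 425)))) (M (nat_lit 524) (B (lo112_17_6 (nat_lit 556)) (lo112_16_7 (nat_lit 395)))))) (B (M (nat_lit 524) (B (lo112_17_6 (nat_lit 556)) (K _ _ _ o1_s48665))) (B (M (nat_lit 524) (B (M (nat_lit 427) (B (lo112_16_7 (nat_lit 395)) (M (nat_lit 462) (B (lo115_14_3 (nat_lit 463)) (lo110_13_0 (nat_lit 426)))))) (K _ _ _ o1_s48665))) (K _ _ _ o1_s48748)))))) (B (M (nat_lit 461) (B (M (nat_lit 524) (B (lo112_17_6 (nat_lit 556)) (M (nat_lit 427)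 (B (lo112_16_7 (nat_lit 395)) (M (nat_lit 462) (B (lo115_14_3 (nat_lit 463)) (lo110_13_0 (nat_lit 426)))))))) (B (M (nat_lit 396) (B (M (nat_lit 493) (B (lo113_16_7 (nat_lit 525)) (lo112_11_4 (nat_lit 364)))) (B (M (nat_lit 364) (B (lo112_11_4 (nat_lit 493)) (lo112_10_4 (nat_lit 332)))) (B (M (nat_lit 491) (B (lo112_12_5 (nat_lit 523)) (M (nat_lit 364) (B (lo112_10_4 (nat_lit 332)) (lo112_11_5 (nat_lit 459)))))) (M (nat_lit 525) (B (lo113_16_7 (nat_lit 493)) (M (nat_lit 524) (B (lo112_13_4 (nat_lit 557)) (lo112_17_6 (nat_lit 556)))))))))) (K _ _ _ o1_s48027)))) (B (M (nat_lit 461) (B (M (nat_lit 524) (B (lo112_17_6 (nat_lit 556)) (M (nat_lit 427) (B (lo112_16_7 (nat_lit 395)) (M (nat_lit 462) (B (lo115_14_3 (nat_lit 463)) (lo110_13_0 (nat_lit 426)))))))) (B (M (nat_lit 524) (B (lo112_17_6 (nat_lit 556)) (K _ _ _ o1_s48765))) (B (M (nat_lit 524) (B (M (nat_lit 427) (B (lo112_16_7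 (nat_lit 395)) (M (nat_lit 462) (B (lo115_14_3 (nat_lit 463)) (lo110_13_0 (nat_lit 426)))))) (K _ _ _ o1_s48765))) (M (nat_lit 493) (B (M (nat_lit 396) (B (lo113_16_7 (nat_lit 525)) (lo112_11_4 (nat_lit 364)))) (K _ _ _ o1_s48777))))))) (M (nat_lit 524) (B (M (nat_lit 556) (B (lo112_17_6 (nat_lit 461)) (M (nat_lit 427) (B (lo112_17_7 (nat_lit 459)) (lo112_16_7 (nat_lit 395)))))) (K _ _ _ o1_s48782)))))))))))))) _ _ _ (by decide +kernel)
theorem o1_s51042 : Sem (nat_lit 2079502270590611144683810638107312777577327806531862431377859685460965980854219217279980804578104683573043408221052678871730618368) (nat_lit 506532663042472366604373991213346482700056399474959272981140752946706838911628916289585588436872006961253996359923331036532659403711027546088398290256248189847568810347579047936) (nat_lit 506532663042472366604373991213346482700056399474959272981140752946706838911628916289585588436872006961253996359923331036532659403711027546088398290256248189847568810347579047936)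 := sem_of_chk (M (nat_lit 396) (B (M (nat_lit 364) (B (M (nat_lit 461) (B (lo112_10_4 (nat_lit 332)) (M (nat_lit 493) (B (lo113_15_7 (nat_lit 397)) (lo113_16_7 (nat_lit 525)))))) (B (M (nat_lit 461) (B (lo112_10_4 (nat_lit 332)) (M (nat_lit 493) (B (lo113_16_7 (nat_lit 525)) (lo112_11_4 (nat_lit 460)))))) (B (K _ _ _ o1_s49514) (K _ _ _ o1_s49519))))) (B (M (nat_lit 364) (B (M (nat_lit 461) (B (lo112_10_4 (nat_lit 332)) (M (nat_lit 493) (B (lo113_16_7 (nat_lit 525)) (lo112_11_4 (nat_lit 460)))))) (B (K _ _ _ o1_s49514) (B (M (nat_lit 365) (B (M (nat_lit 333) (B (lo112_14_6 (nat_lit 460)) (M (nat_lit 301) (B (lo113_8_5 (nat_lit 269)) (lo113_9_5 (nat_lit 397)))))) (B (M (nat_lit 460) (B (lo112_14_6 (nat_lit 333)) (M (nat_lit 363) (B (lo112_14_7 (nat_lit 331)) (M (nat_lit 492) (B (lo112_15_6 (nat_lit 397)) (lo112_15_7 (nat_lit 395)))))))) (B (M (nat_lit 397) (B (M (nat_lit 461) (B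 (lo113_15_7 (nat_lit 493)) (M (nat_lit 366) (B (lo113_14_6 (nat_lit 334)) (M (nat_lit 395) (B (lo115_11_1 (nat_lit 367)) (lo110_12_2 (nat_lit 394)))))))) (M (nat_lit 363) (B (M (nat_lit 362) (B (lo110_11_0 (nat_lit 398)) (lo19_11_0 (nat_lit 361)))) (M (nat_lit 460) (B (lo112_15_6 (nat_lit 492)) (lo112_14_7 (nat_lit 331)))))))) (B (K _ _ _ o1_s43583) (M (nat_lit 366) (B (M (nat_lit 395) (B (lo115_11_1 (nat_lit 367)) (M (nat_lit 394) (B (lo110_12_2 (nat_lit 397)) (lo19_12_2 (nat_lit 393)))))) (B (K _ _ _ o1_s49517) (B (M (nat_lit 395) (B (lo115_11_1 (nat_lit 367)) (M (nat_lit 394) (B (lo114_11_1 (nat_lit 363)) (lo19_12_2 (nat_lit 393)))))) (K _ _ _ o1_s49535)))))))))) (M (nat_lit 461) (B (lo112_10_4 (nat_lit 332)) (M (nat_lit 493) (B (lo113_15_7 (nat_lit 397)) (lo113_16_7 (nat_lit 525)))))))))) (B (M (nat_lit 364) (B (M (nat_lit 461) (B (lo112_10_4 (nat_lit 332)) (M (nat_lit 493)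 (B (lo113_15_7 (nat_lit 397)) (lo113_16_7 (nat_lit 525)))))) (B (M (nat_lit 461) (B (lo112_10_4 (nat_lit 332)) (M (nat_lit 493) (B (lo113_16_7 (nat_lit 525)) (lo112_11_4 (nat_lit 460)))))) (B (K _ _ _ o1_s49514) (K _ _ _ o1_s49555))))) (B (M (nat_lit 364) (B (M (nat_lit 461) (B (lo112_10_4 (nat_lit 332)) (M (nat_lit 493) (B (lo113_16_7 (nat_lit 525)) (lo112_11_4 (nat_lit 460)))))) (B (K _ _ _ o1_s49514) (B (M (nat_lit 460) (B (M (nat_lit 365) (B (lo112_14_6 (nat_lit 333)) (M (nat_lit 363) (B (lo112_14_7 (nat_lit 331)) (M (nat_lit 492) (B (lo112_15_6 (nat_lit 397)) (lo112_15_7 (nat_lit 395)))))))) (B (M (nat_lit 492) (B (M (nat_lit 493) (B (lo112_11_4 (nat_lit 461)) (lo112_12_4 (nat_lit 525)))) (M (nat_lit 363) (B (lo112_14_7 (nat_lit 331)) (lo112_15_7 (nat_lit 395)))))) (B (M (nat_lit 365) (B (lo112_14_6 (nat_lit 333)) (M (nat_lit 397) (B (M (nat_lit 363) (B (lo112_14_7 (nat_lit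 331)) (M (nat_lit 362) (B (lo110_11_0 (nat_lit 398)) (lo19_11_0 (nat_lit 361)))))) (M (nat_lit 366) (B (M (nat_lit 367) (B (lo116_11_1 (nat_lit 368)) (lo115_11_1 (nat_lit 395)))) (M (nat_lit 461) (B (lo113_14_6 (nat_lit 334)) (lo113_15_7 (nat_lit 493)))))))))) (M (nat_lit 492) (B (M (nat_lit 365) (B (lo112_14_6 (nat_lit 333)) (lo112_15_6 (nat_lit 397)))) (M (nat_lit 493) (B (lo112_11_4 (nat_lit 461)) (lo112_12_4 (nat_lit 525)))))))))) (M (nat_lit 461) (B (lo112_10_4 (nat_lit 332)) (M (nat_lit 493) (B (lo113_15_7 (nat_lit 397)) (lo113_16_7 (nat_lit 525)))))))))) (B (M (nat_lit 364) (B (M (nat_lit 461) (B (lo112_10_4 (nat_lit 332)) (M (nat_lit 493) (B (lo113_15_7 (nat_lit 397)) (lo113_16_7 (nat_lit 525)))))) (B (M (nat_lit 461) (B (lo112_10_4 (nat_lit 332)) (M (nat_lit 493) (B (lo113_16_7 (nat_lit 525)) (lo112_11_4 (nat_lit 460)))))) (B (K _ _ _ o1_s49514) (M (nat_lit 365) (B (M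 (nat_lit 333) (B (lo112_14_6 (nat_lit 460)) (M (nat_lit 301) (B (lo113_8_5 (nat_lit 269)) (lo113_9_5 (nat_lit 397)))))) (B (M (nat_lit 460) (B (lo112_14_6 (nat_lit 333)) (M (nat_lit 363) (B (lo112_14_7 (nat_lit 331)) (M (nat_lit 492) (B (lo112_15_6 (nat_lit 397)) (lo112_15_7 (nat_lit 395)))))))) (B (M (nat_lit 461) (B (M (nat_lit 493) (B (lo113_15_7 (nat_lit 397)) (lo113_16_7 (nat_lit 525)))) (B (M (nat_lit 493) (B (lo113_16_7 (nat_lit 525)) (lo112_11_4 (nat_lit 460)))) (M (nat_lit 366) (B (M (nat_lit 395) (B (lo115_11_1 (nat_lit 367)) (M (nat_lit 397) (B (lo113_14_6 (nat_lit 334)) (lo110_12_2 (nat_lit 394)))))) (B (M (nat_lit 363) (B (M (nat_lit 334) (B (lo111_11_2 (nat_lit 335)) (lo113_14_6 (nat_lit 397)))) (M (nat_lit 331) (B (lo114_11_3 (nat_lit 330)) (lo112_14_7 (nat_lit 460)))))) (B (M (nat_lit 395) (B (lo115_11_1 (nat_lit 367)) (M (nat_lit 394) (B (lo110_12_2 (nat_lit 397))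 (lo114_11_1 (nat_lit 363)))))) (M (nat_lit 395) (B (lo115_11_1 (nat_lit 367)) (M (nat_lit 394) (B (lo114_11_1 (nat_lit 363)) (lo19_12_2 (nat_lit 393))))))))))))) (B (K _ _ _ o1_s43583) (M (nat_lit 366) (B (M (nat_lit 395) (B (lo115_11_1 (nat_lit 367)) (M (nat_lit 394) (B (lo114_11_1 (nat_lit 363)) (lo19_12_2 (nat_lit 393)))))) (B (M (nat_lit 363) (B (M (nat_lit 395) (B (lo114_11_1 (nat_lit 394)) (M (nat_lit 331) (B (lo114_11_3 (nat_lit 330)) (lo111_9_4 (nat_lit 299)))))) (M (nat_lit 333) (B (M (nat_lit 334) (B (lo111_11_2 (nat_lit 335)) (lo110_11_2 (nat_lit 362)))) (M (nat_lit 301) (B (lo113_8_5 (nat_lit 269)) (lo113_9_5 (nat_lit 397)))))))) (B (M (nat_lit 395) (B (lo115_11_1 (nat_lit 367)) (M (nat_lit 394) (B (lo110_12_2 (nat_lit 397)) (lo19_12_2 (nat_lit 393)))))) (K _ _ _ o1_s49535)))))))))))))) (B (M (nat_lit 364) (B (M (nat_lit 461) (B (lo112_10_4 (nat_lit 332)) (M (nat_lit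 493) (B (lo113_16_7 (nat_lit 525)) (lo112_11_4 (nat_lit 460)))))) (B (M (nat_lit 332) (B (M (nat_lit 300) (B (lo112_9_4 (nat_lit 397)) (M (nat_lit 299) (B (lo112_12_7 (nat_lit 267)) (lo112_13_7 (nat_lit 331)))))) (B (M (nat_lit 460) (B (M (nat_lit 333) (B (lo112_13_6 (nat_lit 301)) (lo112_14_6 (nat_lit 365)))) (M (nat_lit 331) (B (lo112_13_7 (nat_lit 299)) (lo112_14_7 (nat_lit 363)))))) (M (nat_lit 300) (B (lo112_9_4 (nat_lit 397)) (M (nat_lit 427) (B (lo112_9_5 (nat_lit 395)) (lo112_10_5 (nat_lit 459))))))))) (B (K _ _ _ o1_s49555) (M (nat_lit 461) (B (lo112_10_4 (nat_lit 332)) (M (nat_lit 493) (B (lo113_15_7 (nat_lit 397)) (lo113_16_7 (nat_lit 525)))))))))) (B (M (nat_lit 364) (B (M (nat_lit 461) (B (lo112_10_4 (nat_lit 332)) (M (nat_lit 493) (B (lo113_15_7 (nat_lit 397)) (lo113_16_7 (nat_lit 525)))))) (B (M (nat_lit 461) (B (lo112_10_4 (nat_lit 332)) (M (nat_lit 493) (B (lo113_16_7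 (nat_lit 525)) (lo112_11_4 (nat_lit 460)))))) (B (M (nat_lit 397) (B (M (nat_lit 332) (B (lo112_9_4 (nat_lit 300)) (M (nat_lit 427) (B (lo112_10_5 (nat_lit 459)) (M (nat_lit 398) (B (lo115_12_1 (nat_lit 399)) (lo110_13_2 (nat_lit 426)))))))) (B (M (nat_lit 332) (B (lo112_9_4 (nat_lit 300)) (M (nat_lit 460) (B (M (nat_lit 365) (B (lo113_10_5 (nat_lit 333)) (lo112_15_6 (nat_lit 492)))) (M (nat_lit 331) (B (lo112_13_7 (nat_lit 299)) (lo112_14_7 (nat_lit 363)))))))) (K _ _ _ o1_s49603)))) (M (nat_lit 460) (B (M (nat_lit 365) (B (lo112_14_6 (nat_lit 333)) (M (nat_lit 363) (B (lo112_14_7 (nat_lit 331)) (M (nat_lit 492) (B (lo112_15_6 (nat_lit 397)) (lo112_15_7 (nat_lit 395)))))))) (B (M (nat_lit 492) (B (M (nat_lit 493) (B (lo112_11_4 (nat_lit 461)) (lo112_12_4 (nat_lit 525)))) (M (nat_lit 363) (B (lo112_14_7 (nat_lit 331)) (lo112_15_7 (nat_lit 395)))))) (B (K _ _ _ o1_s49607) (M (nat_lit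 492) (B (M (nat_lit 365) (B (lo112_14_6 (nat_lit 333)) (lo112_15_6 (nat_lit 397)))) (M (nat_lit 493) (B (lo112_11_4 (nat_lit 461)) (lo112_12_4 (nat_lit 525)))))))))))))) (B (M (nat_lit 397) (B (M (nat_lit 364) (B (M (nat_lit 332) (B (lo112_9_4 (nat_lit 300)) (lo112_10_4 (nat_lit 461)))) (K _ _ _ o1_s49612))) (B (M (nat_lit 364) (B (M (nat_lit 461) (B (lo113_15_7 (nat_lit 493)) (lo112_10_4 (nat_lit 332)))) (B (M (nat_lit 427) (B (M (nat_lit 426) (B (lo110_13_2 (nat_lit 398)) (lo19_13_2 (nat_lit 425)))) (M (nat_lit 332) (B (lo112_9_4 (nat_lit 300)) (lo112_10_5 (nat_lit 459)))))) (M (nat_lit 365) (B (M (nat_lit 366) (B (M (nat_lit 367) (B (lo116_11_1 (nat_lit 368)) (lo115_11_1 (nat_lit 395)))) (M (nat_lit 461) (B (lo113_14_6 (nat_lit 334)) (lo113_15_7 (nat_lit 493)))))) (M (nat_lit 363) (B (M (nat_lit 362) (B (lo110_11_0 (nat_lit 398)) (lo19_11_0 (nat_lit 361)))) (M (nat_lit 460)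 (B (lo112_15_6 (nat_lit 492)) (lo112_14_7 (nat_lit 331))))))))))) (B (M (nat_lit 461) (B (M (nat_lit 493) (B (lo113_15_7 (nat_lit 364)) (lo113_16_7 (nat_lit 525)))) (B (M (nat_lit 365) (B (M (nat_lit 460) (B (lo113_11_5 (nat_lit 492)) (M (nat_lit 462) (B (lo113_11_4 (nat_lit 494)) (M (nat_lit 463) (B (lo116_14_3 (nat_lit 464)) (lo115_14_3 (nat_lit 427)))))))) (M (nat_lit 364) (B (lo113_14_7 (nat_lit 332)) (M (nat_lit 366) (B (lo113_14_6 (nat_lit 334)) (M (nat_lit 367) (B (lo116_11_1 (nat_lit 368)) (lo115_11_1 (nat_lit 395)))))))))) (K _ _ _ o1_s49627)))) (B (M (nat_lit 364) (B (M (nat_lit 461) (B (lo113_15_7 (nat_lit 493)) (lo112_10_4 (nat_lit 332)))) (B (M (nat_lit 427) (B (M (nat_lit 426) (B (lo110_13_2 (nat_lit 398)) (lo19_13_2 (nat_lit 425)))) (M (nat_lit 332) (B (lo112_9_4 (nat_lit 300)) (lo112_10_5 (nat_lit 459)))))) (M (nat_lit 398) (B (M (nat_lit 399) (B (lo116_12_1 (nat_lit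 400)) (lo115_12_3 (nat_lit 363)))) (B (M (nat_lit 399) (B (lo115_12_3 (nat_lit 363)) (lo115_12_1 (nat_lit 427)))) (B (M (nat_lit 395) (B (M (nat_lit 426) (B (lo110_13_2 (nat_lit 427)) (M (nat_lit 394) (B (lo113_12_1 (nat_lit 425)) (lo19_12_0 (nat_lit 393)))))) (M (nat_lit 363) (B (lo114_12_3 (nat_lit 362)) (M (nat_lit 460) (B (lo112_14_7 (nat_lit 331)) (lo112_15_7 (nat_lit 492)))))))) (M (nat_lit 427) (B (lo115_12_1 (nat_lit 399)) (lo110_13_2 (nat_lit 426))))))))))) (B (M (nat_lit 398) (B (M (nat_lit 399) (B (lo116_12_1 (nat_lit 400)) (lo115_12_1 (nat_lit 427)))) (B (M (nat_lit 427) (B (lo115_12_1 (nat_lit 399)) (lo110_13_2 (nat_lit 426)))) (B (K _ _ _ o1_s49654) (K _ _ _ o1_s49658))))) (B (K _ _ _ o1_s49661) (B (M (nat_lit 398) (B (M (nat_lit 399) (B (lo116_12_1 (nat_lit 400)) (lo115_12_1 (nat_lit 427)))) (B (M (nat_lit 427) (B (lo115_12_1 (nat_lit 399)) (lo110_13_2 (nat_lit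 426)))) (B (M (nat_lit 461) (B (M (nat_lit 493) (B (lo113_15_6 (nat_lit 366)) (lo113_15_7 (nat_lit 364)))) (B (M (nat_lit 493) (B (lo113_15_7 (nat_lit 364)) (lo113_16_7 (nat_lit 525)))) (K _ _ _ o1_s49667)))) (M (nat_lit 364) (B (M (nat_lit 399) (B (lo116_12_1 (nat_lit 400)) (lo115_12_3 (nat_lit 363)))) (M (nat_lit 461) (B (lo113_15_7 (nat_lit 493)) (lo112_10_4 (nat_lit 332)))))))))) (M (nat_lit 364) (B (M (nat_lit 461) (B (lo113_15_7 (nat_lit 493)) (lo112_10_4 (nat_lit 332)))) (B (M (nat_lit 427) (B (M (nat_lit 426) (B (lo110_13_2 (nat_lit 398)) (lo19_13_2 (nat_lit 425)))) (M (nat_lit 332) (B (lo112_9_4 (nat_lit 300)) (lo112_10_5 (nat_lit 459)))))) (M (nat_lit 398) (B (M (nat_lit 399) (B (lo116_12_1 (nat_lit 400)) (lo115_12_3 (nat_lit 363)))) (B (M (nat_lit 399) (B (lo115_12_3 (nat_lit 363)) (lo115_12_1 (nat_lit 427)))) (B (M (nat_lit 460) (B (M (nat_lit 492) (B (lo112_15_6 (nat_lit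 365)) (lo112_16_6 (nat_lit 524)))) (B (M (nat_lit 493) (B (lo113_15_7 (nat_lit 461)) (M (nat_lit 492) (B (lo112_16_6 (nat_lit 524)) (lo112_12_4 (nat_lit 525)))))) (M (nat_lit 363) (B (lo112_14_7 (nat_lit 331)) (M (nat_lit 362) (B (lo110_11_0 (nat_lit 365)) (lo19_11_0 (nat_lit 361))))))))) (M (nat_lit 399) (B (lo116_12_1 (nat_lit 400)) (lo115_12_1 (nat_lit 427))))))))))))))))))) (B (M (nat_lit 364) (B (M (nat_lit 461) (B (lo112_10_4 (nat_lit 332)) (M (nat_lit 493) (B (lo113_16_7 (nat_lit 525)) (lo112_11_4 (nat_lit 460)))))) (B (M (nat_lit 332) (B (M (nat_lit 300) (B (lo112_9_4 (nat_lit 397)) (M (nat_lit 427) (B (lo112_9_5 (nat_lit 395)) (lo112_10_5 (nat_lit 459)))))) (M (nat_lit 331) (B (lo112_13_7 (nat_lit 299)) (M (nat_lit 363) (B (lo112_14_7 (nat_lit 460)) (M (nat_lit 333) (B (lo112_13_6 (nat_lit 301)) (M (nat_lit 362) (B (lo114_10_1 (nat_lit 334)) (lo19_11_2 (nat_lit 361))))))))))))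 (B (M (nat_lit 460) (B (M (nat_lit 492) (B (M (nat_lit 493) (B (lo112_11_4 (nat_lit 461)) (lo112_12_4 (nat_lit 525)))) (M (nat_lit 363) (B (lo112_14_7 (nat_lit 331)) (lo112_15_7 (nat_lit 395)))))) (B (K _ _ _ o1_s35901) (B (M (nat_lit 492) (B (M (nat_lit 363) (B (lo112_14_7 (nat_lit 331)) (lo112_15_7 (nat_lit 395)))) (M (nat_lit 524) (B (lo112_16_6 (nat_lit 397)) (M (nat_lit 556) (B (lo112_17_6 (nat_lit 461)) (M (nat_lit 555) (B (lo112_13_5 (nat_lit 523)) (lo112_14_5 (nat_lit 587)))))))))) (B (M (nat_lit 461) (B (lo112_11_4 (nat_lit 493)) (M (nat_lit 426) (B (M (nat_lit 427) (B (lo110_13_0 (nat_lit 462)) (lo19_13_0 (nat_lit 425)))) (B (M (nat_lit 458) (B (M (nat_lit 427) (B (lo113_13_1 (nat_lit 457)) (lo19_13_0 (nat_lit 425)))) (B (M (nat_lit 459) (B (lo19_14_2 (nat_lit 457)) (lo113_14_3 (nat_lit 425)))) (B (M (nat_lit 457) (B (lo19_14_2 (nat_lit 459)) (lo113_13_1 (nat_lit 427))))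 (M (nat_lit 425) (B (lo19_13_0 (nat_lit 427)) (lo113_14_3 (nat_lit 459)))))))) (B (M (nat_lit 394) (B (M (nat_lit 395) (B (lo19_12_0 (nat_lit 393)) (M (nat_lit 363) (B (lo112_14_7 (nat_lit 331)) (M (nat_lit 397) (B (lo113_12_1 (nat_lit 425)) (M (nat_lit 398) (B (lo115_12_3 (nat_lit 399)) (lo114_12_3 (nat_lit 362)))))))))) (B (M (nat_lit 395) (B (lo19_12_0 (nat_lit 393)) (M (nat_lit 458) (B (M (nat_lit 459) (B (lo19_14_2 (nat_lit 457)) (lo113_14_3 (nat_lit 425)))) (M (nat_lit 363) (B (lo112_14_7 (nat_lit 331)) (lo110_15_6 (nat_lit 490)))))))) (B (M (nat_lit 362) (B (M (nat_lit 395) (B (lo19_12_0 (nat_lit 393)) (M (nat_lit 397) (B (lo113_12_3 (nat_lit 361)) (lo113_12_1 (nat_lit 425)))))) (B (K _ _ _ o1_s49754) (B (M (nat_lit 395) (B (lo19_12_0 (nat_lit 393)) (M (nat_lit 457) (B (M (nat_lit 425) (B (lo113_12_1 (nat_lit 397)) (lo110_10_5 (nat_lit 330)))) (M (nat_lit 458) (B (lo19_14_2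 (nat_lit 459)) (lo110_11_5 (nat_lit 489)))))))) (M (nat_lit 458) (B (M (nat_lit 457) (B (lo19_14_2 (nat_lit 459)) (lo110_11_5 (nat_lit 489)))) (M (nat_lit 361) (B (lo110_14_7 (nat_lit 329)) (M (nat_lit 397) (B (lo19_11_0 (nat_lit 363)) (lo113_12_3 (nat_lit 395)))))))))))) (B (M (nat_lit 458) (B (M (nat_lit 459) (B (lo19_14_2 (nat_lit 457)) (lo113_14_3 (nat_lit 425)))) (M (nat_lit 393) (B (lo19_12_0 (nat_lit 395)) (M (nat_lit 361) (B (lo110_15_7 (nat_lit 490)) (M (nat_lit 329) (B (lo110_14_7 (nat_lit 362)) (lo19_9_4 (nat_lit 297)))))))))) (B (M (nat_lit 362) (B (M (nat_lit 363) (B (lo112_14_7 (nat_lit 331)) (M (nat_lit 361) (B (lo19_11_0 (nat_lit 397)) (M (nat_lit 329) (B (lo112_11_3 (nat_lit 328)) (lo110_14_7 (nat_lit 458)))))))) (B (M (nat_lit 331) (B (lo112_14_7 (nat_lit 363)) (M (nat_lit 457) (B (M (nat_lit 330) (B (lo110_13_6 (nat_lit 299)) (lo110_10_5 (nat_lit 425)))) (M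 (nat_lit 458) (B (lo19_14_2 (nat_lit 459)) (lo110_11_5 (nat_lit 489)))))))) (B (K _ _ _ o1_s49754) (M (nat_lit 330) (B (M (nat_lit 331) (B (lo112_14_7 (nat_lit 363)) (lo110_13_6 (nat_lit 299)))) (M (nat_lit 298) (B (M (nat_lit 297) (B (lo110_12_7 (nat_lit 265)) (lo110_13_7 (nat_lit 329)))) (M (nat_lit 425) (B (lo110_9_5 (nat_lit 393)) (lo110_10_5 (nat_lit 457)))))))))))) (B (M (nat_lit 458) (B (M (nat_lit 459) (B (lo19_14_2 (nat_lit 457)) (lo113_14_3 (nat_lit 425)))) (B (M (nat_lit 362) (B (M (nat_lit 361) (B (lo110_14_7 (nat_lit 329)) (M (nat_lit 397) (B (lo19_11_0 (nat_lit 363)) (lo113_12_3 (nat_lit 395)))))) (B (M (nat_lit 330) (B (M (nat_lit 329) (B (lo110_13_7 (nat_lit 297)) (lo110_14_7 (nat_lit 361)))) (M (nat_lit 457) (B (lo110_10_5 (nat_lit 425)) (lo110_11_5 (nat_lit 489)))))) (M (nat_lit 330) (B (M (nat_lit 331) (B (lo112_14_7 (nat_lit 363)) (lo110_13_6 (nat_lit 299))))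 (M (nat_lit 457) (B (lo110_10_5 (nat_lit 425)) (lo110_11_5 (nat_lit 489))))))))) (B (M (nat_lit 490) (B (M (nat_lit 459) (B (lo19_14_2 (nat_lit 457)) (lo113_14_1 (nat_lit 489)))) (M (nat_lit 363) (B (lo112_14_7 (nat_lit 331)) (lo110_15_6 (nat_lit 395)))))) (M (nat_lit 395) (B (M (nat_lit 425) (B (lo113_12_1 (nat_lit 397)) (lo113_14_3 (nat_lit 459)))) (M (nat_lit 363) (B (lo112_14_7 (nat_lit 331)) (lo110_15_6 (nat_lit 490)))))))))) (M (nat_lit 395) (B (lo19_12_0 (nat_lit 393)) (M (nat_lit 362) (B (M (nat_lit 397) (B (lo113_12_3 (nat_lit 361)) (M (nat_lit 363) (B (lo114_12_3 (nat_lit 398)) (lo112_14_7 (nat_lit 331)))))) (B (M (nat_lit 458) (B (M (nat_lit 361) (B (lo113_12_3 (nat_lit 397)) (lo110_14_7 (nat_lit 329)))) (M (nat_lit 457) (B (lo19_14_2 (nat_lit 459)) (lo110_11_5 (nat_lit 489)))))) (M (nat_lit 458) (B (M (nat_lit 363) (B (lo112_14_7 (nat_lit 331)) (lo110_15_6 (nat_lit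 490)))) (M (nat_lit 457) (B (lo19_14_2 (nat_lit 459)) (lo110_11_5 (nat_lit 489)))))))))))))))))) (M (nat_lit 427) (B (lo110_13_0 (nat_lit 462)) (M (nat_lit 458) (B (lo113_13_1 (nat_lit 457)) (M (nat_lit 394) (B (lo113_13_3 (nat_lit 393)) (M (nat_lit 490) (B (M (nat_lit 363) (B (lo112_14_7 (nat_lit 331)) (lo110_15_6 (nat_lit 395)))) (M (nat_lit 489) (B (lo113_14_1 (nat_lit 459)) (lo110_12_5 (nat_lit 521)))))))))))))))))) (B (M (nat_lit 492) (B (M (nat_lit 493) (B (lo112_11_4 (nat_lit 461)) (lo112_12_4 (nat_lit 525)))) (B (M (nat_lit 525) (B (lo112_12_4 (nat_lit 493)) (M (nat_lit 524) (B (lo112_16_6 (nat_lit 397)) (lo112_13_4 (nat_lit 557)))))) (M (nat_lit 524) (B (lo112_16_6 (nat_lit 397)) (M (nat_lit 395) (B (lo112_15_7 (nat_lit 363)) (lo112_16_7 (nat_lit 427))))))))) (M (nat_lit 492) (B (M (nat_lit 493) (B (lo112_11_4 (nat_lit 461)) (lo112_12_4 (nat_lit 525)))) (B (M (nat_lit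 525) (B (lo112_12_4 (nat_lit 493)) (M (nat_lit 524) (B (lo112_16_6 (nat_lit 397)) (lo112_13_4 (nat_lit 557)))))) (M (nat_lit 524) (B (lo112_16_6 (nat_lit 397)) (M (nat_lit 556) (B (lo112_17_6 (nat_lit 461)) (M (nat_lit 555) (B (lo112_13_5 (nat_lit 523)) (lo112_14_5 (nat_lit 587))))))))))))))))) (M (nat_lit 461) (B (lo112_10_4 (nat_lit 332)) (M (nat_lit 493) (B (lo113_15_7 (nat_lit 397)) (lo113_16_7 (nat_lit 525)))))))))) (B (M (nat_lit 364) (B (M (nat_lit 461) (B (lo112_10_4 (nat_lit 332)) (M (nat_lit 493) (B (lo113_16_7 (nat_lit 525)) (lo112_11_4 (nat_lit 460)))))) (B (K _ _ _ o1_s49860) (B (M (nat_lit 363) (B (M (nat_lit 331) (B (lo112_14_7 (nat_lit 460)) (M (nat_lit 299) (B (lo111_8_4 (nat_lit 267)) (lo111_9_4 (nat_lit 395)))))) (B (M (nat_lit 362) (B (M (nat_lit 361) (B (M (nat_lit 360) (B (lo18_11_0 (nat_lit 395)) (M (nat_lit 328) (B (lo112_11_3 (nat_lit 329)) (lo111_11_3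 (nat_lit 327)))))) (B (M (nat_lit 360) (B (M (nat_lit 328) (B (lo112_11_3 (nat_lit 329)) (lo111_11_3 (nat_lit 327)))) (M (nat_lit 392) (B (lo112_11_1 (nat_lit 393)) (lo111_11_1 (nat_lit 391)))))) (B (M (nat_lit 360) (B (lo18_11_0 (nat_lit 395)) (M (nat_lit 392) (B (lo112_11_1 (nat_lit 393)) (lo111_11_1 (nat_lit 391)))))) (M (nat_lit 393) (B (lo112_11_1 (nat_lit 392)) (M (nat_lit 394) (B (lo113_11_1 (nat_lit 365)) (lo19_12_0 (nat_lit 395)))))))))) (B (M (nat_lit 361) (B (M (nat_lit 393) (B (lo112_11_1 (nat_lit 392)) (M (nat_lit 395) (B (lo19_12_0 (nat_lit 394)) (lo18_11_0 (nat_lit 360)))))) (B (M (nat_lit 360) (B (M (nat_lit 328) (B (lo112_11_3 (nat_lit 329)) (lo111_11_3 (nat_lit 327)))) (M (nat_lit 392) (B (lo112_11_1 (nat_lit 393)) (lo111_11_1 (nat_lit 391)))))) (B (M (nat_lit 360) (B (lo18_11_0 (nat_lit 395)) (M (nat_lit 328) (B (lo112_11_3 (nat_lit 329)) (lo111_11_3 (nat_lit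 327)))))) (M (nat_lit 393) (B (lo112_11_1 (nat_lit 392)) (M (nat_lit 394) (B (lo19_12_0 (nat_lit 395)) (M (nat_lit 426) (B (lo113_13_3 (nat_lit 427)) (M (nat_lit 458) (B (lo110_14_6 (nat_lit 331)) (lo110_14_7 (nat_lit 329)))))))))))))) (B (M (nat_lit 361) (B (M (nat_lit 329) (B (lo112_11_3 (nat_lit 328)) (M (nat_lit 365) (B (lo113_11_3 (nat_lit 330)) (M (nat_lit 393) (B (lo113_11_1 (nat_lit 394)) (lo112_11_1 (nat_lit 392)))))))) (B (M (nat_lit 360) (B (M (nat_lit 328) (B (lo112_11_3 (nat_lit 329)) (lo111_11_3 (nat_lit 327)))) (M (nat_lit 392) (B (lo112_11_1 (nat_lit 393)) (lo111_11_1 (nat_lit 391)))))) (B (M (nat_lit 393) (B (lo112_11_1 (nat_lit 392)) (M (nat_lit 394) (B (lo113_11_1 (nat_lit 365)) (M (nat_lit 426) (B (lo113_13_3 (nat_lit 427)) (M (nat_lit 458) (B (lo110_14_6 (nat_lit 331)) (lo110_15_7 (nat_lit 490)))))))))) (B (M (nat_lit 360) (B (M (nat_lit 328) (B (lo112_11_3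 (nat_lit 329)) (lo111_11_3 (nat_lit 327)))) (B (M (nat_lit 359) (B (M (nat_lit 327) (B (lo111_11_3 (nat_lit 328)) (lo110_11_3 (nat_lit 326)))) (M (nat_lit 391) (B (lo111_11_1 (nat_lit 392)) (lo110_11_1 (nat_lit 390)))))) (M (nat_lit 359) (B (M (nat_lit 391) (B (lo111_11_1 (nat_lit 392)) (lo110_11_1 (nat_lit 390)))) (M (nat_lit 330) (B (lo17_11_2 (nat_lit 331)) (M (nat_lit 329) (B (lo113_11_3 (nat_lit 365)) (lo16_11_2 (nat_lit 358))))))))))) (M (nat_lit 329) (B (lo112_11_3 (nat_lit 328)) (M (nat_lit 394) (B (M (nat_lit 365) (B (lo113_11_3 (nat_lit 330)) (lo113_11_1 (nat_lit 393)))) (B (M (nat_lit 426) (B (lo110_14_7 (nat_lit 458)) (M (nat_lit 297) (B (lo110_13_7 (nat_lit 330)) (lo19_8_4 (nat_lit 265)))))) (M (nat_lit 426) (B (lo110_14_7 (nat_lit 458)) (M (nat_lit 297) (B (lo19_8_4 (nat_lit 265)) (lo19_9_4 (nat_lit 393)))))))))))))))) (B (M (nat_lit 365) (B (M (nat_lit 330) (B (lo113_11_3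 (nat_lit 329)) (M (nat_lit 366) (B (lo114_11_3 (nat_lit 331)) (M (nat_lit 334) (B (lo111_11_2 (nat_lit 335)) (lo110_11_2 (nat_lit 333)))))))) (B (K _ _ _ o1_s34626) (M (nat_lit 366) (B (M (nat_lit 334) (B (lo111_11_2 (nat_lit 335)) (lo110_11_2 (nat_lit 333)))) (M (nat_lit 367) (B (lo115_11_1 (nat_lit 395)) (M (nat_lit 399) (B (lo112_11_0 (nat_lit 400)) (lo111_11_0 (nat_lit 398))))))))))) (B (M (nat_lit 331) (B (M (nat_lit 299) (B (lo111_8_4 (nat_lit 267)) (lo111_9_4 (nat_lit 395)))) (B (M (nat_lit 395) (B (lo111_9_4 (nat_lit 299)) (M (nat_lit 393) (B (lo19_12_0 (nat_lit 394)) (M (nat_lit 361) (B (lo112_11_1 (nat_lit 392)) (lo18_11_0 (nat_lit 360)))))))) (B (M (nat_lit 361) (B (M (nat_lit 360) (B (lo18_11_0 (nat_lit 395)) (M (nat_lit 392) (B (lo112_11_1 (nat_lit 393)) (lo111_11_1 (nat_lit 391)))))) (B (M (nat_lit 393) (B (lo112_11_1 (nat_lit 392)) (M (nat_lit 394) (B (lo113_11_1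 (nat_lit 365)) (M (nat_lit 426) (B (lo113_13_3 (nat_lit 427)) (lo110_14_6 (nat_lit 458)))))))) (M (nat_lit 360) (B (lo18_11_0 (nat_lit 395)) (M (nat_lit 327) (B (lo111_11_3 (nat_lit 328)) (M (nat_lit 359) (B (lo17_11_2 (nat_lit 330)) (lo110_11_3 (nat_lit 326))))))))))) (K _ _ _ o1_s49945))))) (B (M (nat_lit 394) (B (M (nat_lit 393) (B (lo113_11_1 (nat_lit 365)) (lo19_12_0 (nat_lit 395)))) (B (M (nat_lit 331) (B (M (nat_lit 299) (B (lo111_8_4 (nat_lit 267)) (lo111_9_4 (nat_lit 395)))) (B (M (nat_lit 395) (B (lo19_12_0 (nat_lit 393)) (lo111_9_4 (nat_lit 299)))) (B (M (nat_lit 393) (B (lo19_12_0 (nat_lit 395)) (M (nat_lit 426) (B (lo113_13_3 (nat_lit 427)) (lo110_14_6 (nat_lit 458)))))) (M (nat_lit 299) (B (lo111_8_4 (nat_lit 267)) (M (nat_lit 426) (B (lo110_13_6 (nat_lit 330)) (lo110_14_6 (nat_lit 458)))))))))) (B (M (nat_lit 365) (B (lo113_11_1 (nat_lit 393)) (M (nat_lit 366) (B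 (M (nat_lit 334) (B (lo111_11_2 (nat_lit 335)) (lo110_11_2 (nat_lit 333)))) (M (nat_lit 330) (B (lo114_11_3 (nat_lit 331)) (lo113_11_3 (nat_lit 329)))))))) (M (nat_lit 330) (B (M (nat_lit 365) (B (lo113_11_3 (nat_lit 329)) (M (nat_lit 366) (B (lo114_11_3 (nat_lit 331)) (lo114_11_1 (nat_lit 395)))))) (B (M (nat_lit 299) (B (M (nat_lit 331) (B (lo111_8_4 (nat_lit 267)) (lo111_9_4 (nat_lit 395)))) (B (M (nat_lit 395) (B (lo111_9_4 (nat_lit 331)) (M (nat_lit 298) (B (lo110_8_4 (nat_lit 266)) (lo110_9_4 (nat_lit 427)))))) (B (M (nat_lit 298) (B (lo110_12_6 (nat_lit 267)) (M (nat_lit 395) (B (lo110_8_4 (nat_lit 266)) (lo110_9_4 (nat_lit 427)))))) (M (nat_lit 267) (B (lo111_8_4 (nat_lit 331)) (lo110_12_6 (nat_lit 298)))))))) (B (M (nat_lit 395) (B (M (nat_lit 365) (B (lo114_11_1 (nat_lit 366)) (lo113_11_3 (nat_lit 329)))) (M (nat_lit 298) (B (lo110_8_4 (nat_lit 266)) (lo110_9_4 (nat_lit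 427)))))) (M (nat_lit 331) (B (M (nat_lit 365) (B (lo114_11_3 (nat_lit 366)) (lo113_11_3 (nat_lit 329)))) (M (nat_lit 299) (B (lo111_8_4 (nat_lit 267)) (lo110_13_6 (nat_lit 426)))))))))))))) (M (nat_lit 365) (B (M (nat_lit 330) (B (lo113_11_3 (nat_lit 329)) (M (nat_lit 366) (B (lo114_11_3 (nat_lit 331)) (M (nat_lit 334) (B (lo111_11_2 (nat_lit 335)) (lo110_11_2 (nat_lit 333)))))))) (B (M (nat_lit 366) (B (M (nat_lit 330) (B (lo114_11_3 (nat_lit 331)) (lo113_11_3 (nat_lit 329)))) (M (nat_lit 395) (B (lo115_11_1 (nat_lit 367)) (lo114_11_1 (nat_lit 394)))))) (B (M (nat_lit 361) (B (M (nat_lit 329) (B (lo113_11_3 (nat_lit 330)) (lo112_11_3 (nat_lit 328)))) (B (M (nat_lit 360) (B (lo18_11_0 (nat_lit 395)) (M (nat_lit 328) (B (lo112_11_3 (nat_lit 329)) (lo111_11_3 (nat_lit 327)))))) (B (M (nat_lit 360) (B (lo18_11_0 (nat_lit 395)) (M (nat_lit 359) (B (M (nat_lit 327) (B (lo111_11_3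 (nat_lit 328)) (lo110_11_3 (nat_lit 326)))) (M (nat_lit 391) (B (lo111_11_1 (nat_lit 392)) (lo110_11_1 (nat_lit 390)))))))) (M (nat_lit 360) (B (lo18_11_0 (nat_lit 395)) (M (nat_lit 359) (B (M (nat_lit 330) (B (lo113_11_3 (nat_lit 329)) (lo17_11_2 (nat_lit 331)))) (M (nat_lit 391) (B (lo111_11_1 (nat_lit 392)) (lo110_11_1 (nat_lit 390)))))))))))) (M (nat_lit 366) (B (M (nat_lit 334) (B (lo111_11_2 (nat_lit 335)) (lo110_11_2 (nat_lit 333)))) (M (nat_lit 395) (B (lo115_11_1 (nat_lit 367)) (lo114_11_1 (nat_lit 394))))))))))))))))) (B (M (nat_lit 460) (B (lo112_14_7 (nat_lit 331)) (M (nat_lit 492) (B (lo112_15_7 (nat_lit 395)) (M (nat_lit 493) (B (lo112_11_4 (nat_lit 461)) (lo112_12_4 (nat_lit 525)))))))) (B (M (nat_lit 365) (B (M (nat_lit 460) (B (lo112_14_6 (nat_lit 333)) (M (nat_lit 395) (B (lo112_15_7 (nat_lit 492)) (M (nat_lit 366) (B (lo115_11_1 (nat_lit 367)) (lo114_11_1 (nat_lit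 394)))))))) (B (M (nat_lit 395) (B (M (nat_lit 394) (B (lo114_11_1 (nat_lit 366)) (lo19_12_2 (nat_lit 393)))) (M (nat_lit 460) (B (lo112_14_6 (nat_lit 333)) (lo112_15_7 (nat_lit 492)))))) (B (M (nat_lit 460) (B (lo112_14_6 (nat_lit 333)) (M (nat_lit 493) (B (lo112_11_4 (nat_lit 461)) (M (nat_lit 492) (B (lo112_12_4 (nat_lit 525)) (lo112_15_7 (nat_lit 395)))))))) (B (K _ _ _ o1_s43630) (M (nat_lit 333) (B (lo112_14_6 (nat_lit 460)) (M (nat_lit 334) (B (lo110_11_2 (nat_lit 362)) (M (nat_lit 335) (B (lo116_10_1 (nat_lit 336)) (lo111_11_2 (nat_lit 366))))))))))))) (M (nat_lit 362) (B (M (nat_lit 460) (B (lo112_14_7 (nat_lit 331)) (M (nat_lit 365) (B (lo112_14_6 (nat_lit 333)) (M (nat_lit 393) (B (lo113_11_1 (nat_lit 394)) (M (nat_lit 361) (B (lo112_11_1 (nat_lit 392)) (M (nat_lit 329) (B (lo113_11_3 (nat_lit 330)) (lo112_11_3 (nat_lit 328)))))))))))) (B (M (nat_lit 331) (B (lo112_14_7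 (nat_lit 460)) (K _ _ _ o1_s49945))) (B (M (nat_lit 426) (B (M (nat_lit 331) (B (lo112_14_7 (nat_lit 460)) (M (nat_lit 299) (B (lo111_8_4 (nat_lit 267)) (M (nat_lit 394) (B (lo110_13_6 (nat_lit 330)) (lo110_14_6 (nat_lit 458)))))))) (B (M (nat_lit 394) (B (M (nat_lit 393) (B (lo113_13_3 (nat_lit 427)) (M (nat_lit 392) (B (lo112_11_1 (nat_lit 361)) (lo17_12_2 (nat_lit 391)))))) (M (nat_lit 331) (B (lo110_14_6 (nat_lit 458)) (M (nat_lit 299) (B (lo111_8_4 (nat_lit 267)) (lo110_13_6 (nat_lit 330)))))))) (B (M (nat_lit 460) (B (lo112_14_7 (nat_lit 331)) (M (nat_lit 461) (B (lo112_11_4 (nat_lit 493)) (M (nat_lit 427) (B (lo110_13_0 (nat_lit 462)) (lo19_13_0 (nat_lit 425)))))))) (M (nat_lit 427) (B (M (nat_lit 393) (B (lo113_13_3 (nat_lit 394)) (M (nat_lit 392) (B (lo112_11_1 (nat_lit 361)) (lo112_13_3 (nat_lit 425)))))) (M (nat_lit 461) (B (lo110_13_0 (nat_lit 462)) (M (nat_lit 493)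 (B (lo113_16_7 (nat_lit 525)) (lo112_11_4 (nat_lit 460)))))))))))) (B (M (nat_lit 329) (B (M (nat_lit 330) (B (lo113_11_3 (nat_lit 365)) (M (nat_lit 328) (B (lo18_10_0 (nat_lit 331)) (lo112_11_3 (nat_lit 361)))))) (B (M (nat_lit 328) (B (lo112_11_3 (nat_lit 361)) (M (nat_lit 330) (B (lo18_10_0 (nat_lit 331)) (lo17_10_0 (nat_lit 327)))))) (B (M (nat_lit 328) (B (lo112_11_3 (nat_lit 361)) (M (nat_lit 330) (B (lo113_11_3 (nat_lit 365)) (lo17_10_0 (nat_lit 327)))))) (B (M (nat_lit 361) (B (lo112_11_3 (nat_lit 328)) (M (nat_lit 393) (B (lo112_11_1 (nat_lit 392)) (M (nat_lit 394) (B (lo113_11_1 (nat_lit 365)) (M (nat_lit 426) (B (lo113_13_3 (nat_lit 427)) (lo110_14_7 (nat_lit 458)))))))))) (B (M (nat_lit 330) (B (lo113_11_3 (nat_lit 365)) (M (nat_lit 328) (B (lo18_10_0 (nat_lit 331)) (lo17_10_0 (nat_lit 327)))))) (M (nat_lit 394) (B (M (nat_lit 365) (B (lo113_11_3 (nat_lit 330)) (lo113_11_1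 (nat_lit 393)))) (B (M (nat_lit 426) (B (M (nat_lit 458) (B (lo110_14_6 (nat_lit 331)) (lo110_14_7 (nat_lit 361)))) (B (M (nat_lit 361) (B (lo110_14_7 (nat_lit 458)) (M (nat_lit 393) (B (lo113_13_3 (nat_lit 427)) (lo19_9_4 (nat_lit 297)))))) (B (M (nat_lit 297) (B (lo110_13_7 (nat_lit 330)) (M (nat_lit 361) (B (lo19_8_4 (nat_lit 265)) (lo19_9_4 (nat_lit 393)))))) (M (nat_lit 331) (B (lo110_14_6 (nat_lit 458)) (M (nat_lit 330) (B (lo110_13_6 (nat_lit 299)) (lo110_13_7 (nat_lit 297)))))))))) (B (M (nat_lit 393) (B (lo113_11_1 (nat_lit 365)) (M (nat_lit 392) (B (lo112_11_1 (nat_lit 361)) (lo17_12_2 (nat_lit 391)))))) (M (nat_lit 426) (B (M (nat_lit 330) (B (lo113_11_3 (nat_lit 365)) (lo110_13_7 (nat_lit 297)))) (M (nat_lit 458) (B (lo110_14_6 (nat_lit 331)) (lo110_14_7 (nat_lit 361)))))))))))))))) (B (M (nat_lit 361) (B (M (nat_lit 329) (B (lo112_11_3 (nat_lit 328)) (M (nat_lit 365)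 (B (lo113_11_3 (nat_lit 330)) (M (nat_lit 393) (B (lo113_11_1 (nat_lit 394)) (lo112_11_1 (nat_lit 392)))))))) (B (M (nat_lit 360) (B (M (nat_lit 328) (B (lo112_11_3 (nat_lit 329)) (lo111_11_3 (nat_lit 327)))) (M (nat_lit 392) (B (lo112_11_1 (nat_lit 393)) (lo111_11_1 (nat_lit 391)))))) (B (M (nat_lit 365) (B (M (nat_lit 333) (B (lo110_11_2 (nat_lit 334)) (lo112_14_6 (nat_lit 460)))) (M (nat_lit 393) (B (lo113_11_1 (nat_lit 394)) (lo112_11_1 (nat_lit 392)))))) (M (nat_lit 365) (B (M (nat_lit 333) (B (lo110_11_2 (nat_lit 334)) (lo112_14_6 (nat_lit 460)))) (M (nat_lit 329) (B (lo113_11_3 (nat_lit 330)) (lo112_11_3 (nat_lit 328)))))))))) (B (M (nat_lit 460) (B (lo112_14_7 (nat_lit 331)) (M (nat_lit 461) (B (lo112_11_4 (nat_lit 493)) (M (nat_lit 361) (B (M (nat_lit 365) (B (lo112_14_6 (nat_lit 333)) (M (nat_lit 393) (B (lo113_11_1 (nat_lit 394)) (lo112_11_1 (nat_lit 392)))))) (B (M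 (nat_lit 328) (B (lo112_11_3 (nat_lit 329)) (M (nat_lit 360) (B (lo111_11_3 (nat_lit 327)) (M (nat_lit 392) (B (lo112_11_1 (nat_lit 393)) (lo111_11_1 (nat_lit 391)))))))) (M (nat_lit 426) (B (M (nat_lit 427) (B (lo110_13_0 (nat_lit 462)) (lo19_13_0 (nat_lit 425)))) (B (M (nat_lit 458) (B (M (nat_lit 427) (B (lo113_13_1 (nat_lit 457)) (lo19_13_0 (nat_lit 425)))) (B (M (nat_lit 459) (B (lo19_14_2 (nat_lit 457)) (lo113_14_3 (nat_lit 425)))) (B (M (nat_lit 457) (B (lo19_14_2 (nat_lit 459)) (lo113_13_1 (nat_lit 427)))) (M (nat_lit 425) (B (lo19_13_0 (nat_lit 427)) (lo113_14_3 (nat_lit 459)))))))) (B (M (nat_lit 458) (B (M (nat_lit 459) (B (lo19_14_2 (nat_lit 457)) (lo113_14_3 (nat_lit 425)))) (M (nat_lit 329) (B (lo112_11_3 (nat_lit 328)) (lo110_14_7 (nat_lit 394)))))) (M (nat_lit 458) (B (M (nat_lit 427) (B (lo110_13_0 (nat_lit 462)) (lo113_13_1 (nat_lit 457)))) (M (nat_lit 329) (B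 (lo112_11_3 (nat_lit 328)) (lo110_14_7 (nat_lit 394))))))))))))))))) (M (nat_lit 365) (B (M (nat_lit 333) (B (lo110_11_2 (nat_lit 334)) (lo112_14_6 (nat_lit 460)))) (B (M (nat_lit 460) (B (lo112_14_6 (nat_lit 333)) (lo112_14_7 (nat_lit 331)))) (B (M (nat_lit 331) (B (lo112_14_7 (nat_lit 460)) (M (nat_lit 330) (B (lo114_11_3 (nat_lit 366)) (lo113_11_3 (nat_lit 329)))))) (M (nat_lit 330) (B (lo113_11_3 (nat_lit 329)) (M (nat_lit 366) (B (lo114_11_3 (nat_lit 331)) (M (nat_lit 334) (B (lo111_11_2 (nat_lit 335)) (lo110_11_2 (nat_lit 333)))))))))))))))))))))))) (M (nat_lit 332) (B (lo112_10_4 (nat_lit 461)) (M (nat_lit 300) (B (M (nat_lit 301) (B (lo112_12_6 (nat_lit 269)) (lo112_13_6 (nat_lit 333)))) (M (nat_lit 427) (B (lo112_9_5 (nat_lit 395)) (lo112_10_5 (nat_lit 459)))))))))))) (B (M (nat_lit 364) (B (K _ _ _ o1_s49514) (B (M (nat_lit 332) (B (M (nat_lit 300) (B (lo112_9_4 (nat_lit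 397)) (M (nat_lit 427) (B (lo112_9_5 (nat_lit 395)) (lo112_10_5 (nat_lit 459)))))) (M (nat_lit 460) (B (M (nat_lit 333) (B (lo112_13_6 (nat_lit 301)) (lo112_14_6 (nat_lit 365)))) (M (nat_lit 331) (B (lo112_13_7 (nat_lit 299)) (lo112_14_7 (nat_lit 363)))))))) (B (M (nat_lit 397) (B (M (nat_lit 332) (B (lo112_9_4 (nat_lit 300)) (M (nat_lit 427) (B (lo112_10_5 (nat_lit 459)) (M (nat_lit 398) (B (lo115_12_1 (nat_lit 399)) (lo110_13_2 (nat_lit 426)))))))) (B (M (nat_lit 332) (B (lo112_9_4 (nat_lit 300)) (M (nat_lit 460) (B (M (nat_lit 492) (B (lo112_15_6 (nat_lit 365)) (lo112_16_6 (nat_lit 524)))) (M (nat_lit 331) (B (lo112_13_7 (nat_lit 299)) (lo112_14_7 (nat_lit 363)))))))) (K _ _ _ o1_s49612)))) (B (M (nat_lit 332) (B (M (nat_lit 300) (B (lo112_9_4 (nat_lit 397)) (M (nat_lit 427) (B (lo112_9_5 (nat_lit 395)) (lo112_10_5 (nat_lit 459)))))) (M (nat_lit 331) (B (lo112_13_7 (nat_lit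 299)) (M (nat_lit 333) (B (lo112_13_6 (nat_lit 301)) (M (nat_lit 363) (B (lo112_14_7 (nat_lit 460)) (M (nat_lit 334) (B (lo115_10_1 (nat_lit 335)) (lo114_10_1 (nat_lit 362)))))))))))) (B (K _ _ _ o1_s49860) (B (K _ _ _ o1_s50181) (B (M (nat_lit 365) (B (M (nat_lit 333) (B (lo112_14_6 (nat_lit 460)) (M (nat_lit 301) (B (lo113_8_5 (nat_lit 269)) (lo113_9_5 (nat_lit 397)))))) (B (M (nat_lit 460) (B (lo112_14_6 (nat_lit 333)) (M (nat_lit 363) (B (lo112_14_7 (nat_lit 331)) (M (nat_lit 492) (B (lo112_15_6 (nat_lit 397)) (lo112_15_7 (nat_lit 395)))))))) (B (M (nat_lit 363) (B (M (nat_lit 460) (B (lo112_14_7 (nat_lit 331)) (M (nat_lit 492) (B (lo112_15_6 (nat_lit 397)) (lo112_15_7 (nat_lit 395)))))) (B (M (nat_lit 395) (B (M (nat_lit 366) (B (lo115_11_1 (nat_lit 367)) (lo114_11_1 (nat_lit 394)))) (M (nat_lit 460) (B (lo112_14_7 (nat_lit 331)) (lo112_15_7 (nat_lit 492)))))) (B (K _ _ _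 o1_s50172) (M (nat_lit 397) (B (M (nat_lit 398) (B (lo115_12_3 (nat_lit 399)) (lo110_11_0 (nat_lit 362)))) (M (nat_lit 460) (B (lo112_15_6 (nat_lit 492)) (lo112_14_7 (nat_lit 331)))))))))) (B (K _ _ _ o1_s43742) (M (nat_lit 366) (B (M (nat_lit 395) (B (lo115_11_1 (nat_lit 367)) (M (nat_lit 394) (B (lo114_11_1 (nat_lit 363)) (lo19_12_2 (nat_lit 393)))))) (B (M (nat_lit 363) (B (M (nat_lit 395) (B (lo114_11_1 (nat_lit 394)) (M (nat_lit 331) (B (lo114_11_3 (nat_lit 330)) (lo111_9_4 (nat_lit 299)))))) (M (nat_lit 362) (B (M (nat_lit 334) (B (lo111_11_2 (nat_lit 335)) (lo110_11_2 (nat_lit 333)))) (M (nat_lit 398) (B (lo111_11_0 (nat_lit 399)) (lo110_11_0 (nat_lit 397)))))))) (B (M (nat_lit 395) (B (lo115_11_1 (nat_lit 367)) (M (nat_lit 394) (B (lo110_12_2 (nat_lit 397)) (lo19_12_2 (nat_lit 393)))))) (M (nat_lit 367) (B (M (nat_lit 368) (B (lo116_11_1 (nat_lit 397)) (M (nat_lit 400)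 (B (lo113_11_0 (nat_lit 401)) (lo112_11_0 (nat_lit 399)))))) (B (M (nat_lit 368) (B (lo116_11_1 (nat_lit 397)) (M (nat_lit 336) (B (lo113_11_2 (nat_lit 337)) (lo112_11_2 (nat_lit 335)))))) (M (nat_lit 363) (B (M (nat_lit 335) (B (lo112_11_2 (nat_lit 336)) (lo111_11_2 (nat_lit 334)))) (M (nat_lit 399) (B (lo112_11_0 (nat_lit 400)) (lo111_11_0 (nat_lit 398)))))))))))))))))) (B (M (nat_lit 397) (B (M (nat_lit 332) (B (lo112_9_4 (nat_lit 300)) (M (nat_lit 427) (B (lo112_10_5 (nat_lit 459)) (M (nat_lit 398) (B (lo115_12_1 (nat_lit 399)) (lo110_13_2 (nat_lit 426)))))))) (B (M (nat_lit 427) (B (M (nat_lit 426) (B (lo110_13_2 (nat_lit 398)) (lo19_13_2 (nat_lit 425)))) (M (nat_lit 332) (B (lo112_9_4 (nat_lit 300)) (lo112_10_5 (nat_lit 459)))))) (B (M (nat_lit 332) (B (lo112_9_4 (nat_lit 300)) (K _ _ _ o1_s50208))) (B (M (nat_lit 332) (B (M (nat_lit 427) (B (lo112_10_5 (nat_lit 459)) (M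 (nat_lit 398) (B (lo115_12_1 (nat_lit 399)) (lo110_13_2 (nat_lit 426)))))) (K _ _ _ o1_s50208))) (K _ _ _ o1_s50289)))))) (B (M (nat_lit 397) (B (M (nat_lit 332) (B (lo112_9_4 (nat_lit 300)) (M (nat_lit 427) (B (lo112_10_5 (nat_lit 459)) (M (nat_lit 398) (B (lo115_12_1 (nat_lit 399)) (lo110_13_2 (nat_lit 426)))))))) (B (M (nat_lit 460) (B (M (nat_lit 365) (B (lo113_10_5 (nat_lit 333)) (lo112_15_6 (nat_lit 492)))) (B (M (nat_lit 492) (B (lo112_15_6 (nat_lit 365)) (lo112_16_6 (nat_lit 524)))) (B (M (nat_lit 363) (B (lo112_14_7 (nat_lit 331)) (M (nat_lit 492) (B (lo112_16_6 (nat_lit 524)) (lo112_15_7 (nat_lit 395)))))) (M (nat_lit 333) (B (lo113_10_5 (nat_lit 365)) (M (nat_lit 332) (B (lo112_13_6 (nat_lit 301)) (lo112_9_4 (nat_lit 300)))))))))) (K _ _ _ o1_s49603)))) (B (M (nat_lit 397) (B (M (nat_lit 332) (B (lo112_9_4 (nat_lit 300)) (M (nat_lit 427) (B (lo112_10_5 (nat_lit 459))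 (M (nat_lit 398) (B (lo115_12_1 (nat_lit 399)) (lo110_13_2 (nat_lit 426)))))))) (B (M (nat_lit 332) (B (lo112_9_4 (nat_lit 300)) (K _ _ _ o1_s50306))) (B (M (nat_lit 332) (B (M (nat_lit 427) (B (lo112_10_5 (nat_lit 459)) (M (nat_lit 398) (B (lo115_12_1 (nat_lit 399)) (lo110_13_2 (nat_lit 426)))))) (K _ _ _ o1_s50306))) (M (nat_lit 365) (B (M (nat_lit 460) (B (lo113_10_5 (nat_lit 333)) (lo112_15_6 (nat_lit 492)))) (K _ _ _ o1_s50318))))))) (M (nat_lit 332) (B (M (nat_lit 300) (B (lo112_9_4 (nat_lit 397)) (M (nat_lit 427) (B (lo112_9_5 (nat_lit 395)) (lo112_10_5 (nat_lit 459)))))) (K _ _ _ o1_s50322)))))))))))))) (B (M (nat_lit 364) (B (M (nat_lit 461) (B (lo112_10_4 (nat_lit 332)) (M (nat_lit 493) (B (lo113_16_7 (nat_lit 525)) (lo112_11_4 (nat_lit 460)))))) (B (K _ _ _ o1_s50181) (B (K _ _ _ o1_s49519) (M (nat_lit 461) (B (lo112_10_4 (nat_lit 332)) (M (nat_lit 493) (B (lo113_15_7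 (nat_lit 397)) (lo113_16_7 (nat_lit 525)))))))))) (B (M (nat_lit 397) (B (M (nat_lit 398) (B (M (nat_lit 399) (B (lo116_12_1 (nat_lit 400)) (lo115_12_1 (nat_lit 427)))) (K _ _ _ o1_s50334))) (B (K _ _ _ o1_s50345) (B (K _ _ _ o1_s50348) (B (M (nat_lit 460) (B (M (nat_lit 365) (B (lo113_10_5 (nat_lit 333)) (lo112_15_6 (nat_lit 492)))) (B (M (nat_lit 492) (B (lo112_15_6 (nat_lit 365)) (lo112_16_6 (nat_lit 524)))) (B (K _ _ _ o1_s50355) (K _ _ _ o1_s50363))))) (B (M (nat_lit 398) (B (M (nat_lit 399) (B (lo116_12_1 (nat_lit 400)) (lo115_12_1 (nat_lit 427)))) (B (M (nat_lit 427) (B (lo115_12_1 (nat_lit 399)) (lo110_13_2 (nat_lit 426)))) (B (M (nat_lit 427) (B (lo110_13_2 (nat_lit 426)) (M (nat_lit 395) (B (M (nat_lit 394) (B (lo19_12_0 (nat_lit 393)) (M (nat_lit 366) (B (lo111_12_2 (nat_lit 367)) (lo110_12_2 (nat_lit 365)))))) (M (nat_lit 363) (B (lo114_12_3 (nat_lit 362)) (M (nat_lit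 460) (B (lo112_15_7 (nat_lit 492)) (lo111_10_4 (nat_lit 331)))))))))) (K _ _ _ o1_s49658))))) (B (M (nat_lit 398) (B (M (nat_lit 399) (B (lo116_12_1 (nat_lit 400)) (lo115_12_1 (nat_lit 427)))) (B (M (nat_lit 427) (B (lo115_12_1 (nat_lit 399)) (lo110_13_2 (nat_lit 426)))) (B (K _ _ _ o1_s49654) (K _ _ _ o1_s49658))))) (B (M (nat_lit 398) (B (M (nat_lit 399) (B (lo116_12_1 (nat_lit 400)) (lo115_12_1 (nat_lit 427)))) (B (M (nat_lit 427) (B (lo115_12_1 (nat_lit 399)) (lo110_13_2 (nat_lit 426)))) (M (nat_lit 461) (B (M (nat_lit 493) (B (lo113_15_6 (nat_lit 366)) (lo113_15_7 (nat_lit 364)))) (B (M (nat_lit 493) (B (lo113_15_7 (nat_lit 364)) (lo113_16_7 (nat_lit 525)))) (M (nat_lit 395) (B (M (nat_lit 394) (B (lo19_12_0 (nat_lit 393)) (M (nat_lit 362) (B (lo114_12_3 (nat_lit 363)) (lo113_12_3 (nat_lit 361)))))) (M (nat_lit 366) (B (lo111_12_2 (nat_lit 367)) (M (nat_lit 334) (B (lo114_9_5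 (nat_lit 302)) (lo113_14_6 (nat_lit 365)))))))))))))) (B (M (nat_lit 460) (B (M (nat_lit 365) (B (lo113_10_5 (nat_lit 333)) (lo112_15_6 (nat_lit 492)))) (B (M (nat_lit 492) (B (lo112_15_6 (nat_lit 365)) (lo112_16_6 (nat_lit 524)))) (B (K _ _ _ o1_s50388) (K _ _ _ o1_s50363))))) (M (nat_lit 365) (B (M (nat_lit 333) (B (lo113_9_5 (nat_lit 301)) (lo113_10_5 (nat_lit 460)))) (B (M (nat_lit 460) (B (lo113_10_5 (nat_lit 333)) (lo112_15_6 (nat_lit 492)))) (M (nat_lit 366) (B (M (nat_lit 367) (B (lo116_11_1 (nat_lit 368)) (M (nat_lit 395) (B (lo111_12_2 (nat_lit 398)) (lo110_12_2 (nat_lit 394)))))) (B (M (nat_lit 461) (B (lo113_14_6 (nat_lit 334)) (M (nat_lit 493) (B (lo113_15_6 (nat_lit 398)) (lo113_15_7 (nat_lit 364)))))) (M (nat_lit 367) (B (lo116_11_1 (nat_lit 368)) (M (nat_lit 395) (B (lo115_11_1 (nat_lit 364)) (lo110_12_2 (nat_lit 394))))))))))))))))))))) (B (M (nat_lit 397) (B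 (K _ _ _ o1_s50345) (B (K _ _ _ o1_s50348) (B (M (nat_lit 365) (B (M (nat_lit 333) (B (lo113_9_5 (nat_lit 301)) (lo113_10_5 (nat_lit 460)))) (B (M (nat_lit 460) (B (lo113_10_5 (nat_lit 333)) (lo112_15_6 (nat_lit 492)))) (B (M (nat_lit 460) (B (lo112_15_6 (nat_lit 492)) (M (nat_lit 461) (B (M (nat_lit 366) (B (lo113_14_6 (nat_lit 334)) (M (nat_lit 493) (B (lo113_15_6 (nat_lit 398)) (lo113_16_7 (nat_lit 525)))))) (M (nat_lit 462) (B (lo113_11_4 (nat_lit 494)) (M (nat_lit 463) (B (lo116_14_3 (nat_lit 464)) (lo115_14_3 (nat_lit 427)))))))))) (K _ _ _ o1_s50412))))) (B (M (nat_lit 365) (B (M (nat_lit 460) (B (lo113_10_5 (nat_lit 333)) (lo112_15_6 (nat_lit 492)))) (M (nat_lit 398) (B (M (nat_lit 427) (B (lo115_12_1 (nat_lit 399)) (lo110_13_2 (nat_lit 426)))) (M (nat_lit 366) (B (M (nat_lit 367) (B (lo116_11_1 (nat_lit 368)) (lo111_12_2 (nat_lit 395)))) (M (nat_lit 461) (B (lo113_14_6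 (nat_lit 334)) (lo113_15_6 (nat_lit 493)))))))))) (B (M (nat_lit 460) (B (M (nat_lit 492) (B (lo112_15_6 (nat_lit 365)) (lo112_16_6 (nat_lit 524)))) (B (M (nat_lit 492) (B (lo112_16_6 (nat_lit 524)) (M (nat_lit 398) (B (M (nat_lit 399) (B (lo116_12_1 (nat_lit 400)) (lo115_12_1 (nat_lit 427)))) (M (nat_lit 366) (B (M (nat_lit 395) (B (lo111_12_2 (nat_lit 367)) (lo112_15_7 (nat_lit 363)))) (M (nat_lit 493) (B (lo113_15_6 (nat_lit 461)) (lo112_12_4 (nat_lit 525)))))))))) (M (nat_lit 398) (B (M (nat_lit 399) (B (lo116_12_1 (nat_lit 400)) (lo115_12_1 (nat_lit 427)))) (B (M (nat_lit 427) (B (lo115_12_1 (nat_lit 399)) (lo110_13_2 (nat_lit 426)))) (B (K _ _ _ o1_s50442) (K _ _ _ o1_s50449)))))))) (B (M (nat_lit 395) (B (K _ _ _ o1_s50455) (B (M (nat_lit 394) (B (lo19_12_0 (nat_lit 393)) (M (nat_lit 426) (B (lo113_12_1 (nat_lit 425)) (M (nat_lit 427) (B (M (nat_lit 362) (B (lo113_12_3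 (nat_lit 361)) (M (nat_lit 330) (B (lo110_9_4 (nat_lit 298)) (lo110_10_4 (nat_lit 459)))))) (M (nat_lit 458) (B (lo113_13_1 (nat_lit 457)) (M (nat_lit 363) (B (lo111_10_5 (nat_lit 331)) (lo110_15_6 (nat_lit 490)))))))))))) (B (M (nat_lit 394) (B (lo19_12_0 (nat_lit 393)) (M (nat_lit 426) (B (lo113_12_1 (nat_lit 425)) (M (nat_lit 427) (B (lo110_13_2 (nat_lit 398)) (M (nat_lit 362) (B (lo113_12_3 (nat_lit 361)) (M (nat_lit 330) (B (lo110_9_4 (nat_lit 298)) (lo110_10_4 (nat_lit 459)))))))))))) (B (K _ _ _ o1_s50470) (B (M (nat_lit 426) (B (M (nat_lit 427) (B (lo110_13_2 (nat_lit 398)) (lo19_13_2 (nat_lit 425)))) (B (M (nat_lit 394) (B (lo113_12_1 (nat_lit 425)) (lo19_12_0 (nat_lit 393)))) (M (nat_lit 492) (B (M (nat_lit 460) (B (lo112_15_6 (nat_lit 365)) (lo112_16_6 (nat_lit 524)))) (B (M (nat_lit 460) (B (lo112_16_6 (nat_lit 524)) (lo112_15_7 (nat_lit 363)))) (B (M (nat_lit 461)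 (B (M (nat_lit 427) (B (lo110_13_2 (nat_lit 398)) (lo110_13_0 (nat_lit 462)))) (M (nat_lit 493) (B (lo113_12_5 (nat_lit 524)) (lo113_16_7 (nat_lit 525)))))) (M (nat_lit 460) (B (lo112_15_6 (nat_lit 365)) (lo112_15_7 (nat_lit 363))))))))))) (B (M (nat_lit 427) (B (M (nat_lit 398) (B (lo115_12_1 (nat_lit 399)) (lo110_13_2 (nat_lit 426)))) (B (M (nat_lit 426) (B (lo110_13_2 (nat_lit 398)) (lo19_13_2 (nat_lit 425)))) (B (M (nat_lit 492) (B (M (nat_lit 460) (B (lo112_15_6 (nat_lit 365)) (lo112_16_6 (nat_lit 524)))) (B (M (nat_lit 460) (B (lo112_16_6 (nat_lit 524)) (lo112_15_7 (nat_lit 363)))) (B (M (nat_lit 461) (B (M (nat_lit 426) (B (lo110_13_0 (nat_lit 462)) (lo19_13_2 (nat_lit 425)))) (M (nat_lit 493) (B (lo113_12_5 (nat_lit 524)) (lo113_16_7 (nat_lit 525)))))) (M (nat_lit 460) (B (lo112_15_6 (nat_lit 365)) (lo112_15_7 (nat_lit 363)))))))) (M (nat_lit 363) (B (M (nat_lit 398) (B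 (lo115_12_1 (nat_lit 399)) (lo114_12_3 (nat_lit 362)))) (M (nat_lit 331) (B (lo111_9_4 (nat_lit 299)) (lo111_10_4 (nat_lit 460)))))))))) (K _ _ _ o1_s50493)))))))) (B (K _ _ _ o1_s50499) (B (K _ _ _ o1_s49661) (B (K _ _ _ o1_s50505) (M (nat_lit 365) (B (M (nat_lit 333) (B (lo113_9_5 (nat_lit 301)) (lo113_10_5 (nat_lit 460)))) (B (M (nat_lit 460) (B (lo113_10_5 (nat_lit 333)) (lo112_15_6 (nat_lit 492)))) (B (M (nat_lit 461) (B (M (nat_lit 492) (B (lo113_11_5 (nat_lit 460)) (M (nat_lit 493) (B (lo113_12_5 (nat_lit 524)) (lo113_16_7 (nat_lit 525)))))) (M (nat_lit 366) (B (lo113_14_6 (nat_lit 334)) (M (nat_lit 395) (B (lo110_12_2 (nat_lit 394)) (M (nat_lit 367) (B (lo116_11_1 (nat_lit 368)) (lo111_12_2 (nat_lit 398)))))))))) (M (nat_lit 366) (B (M (nat_lit 461) (B (lo113_14_6 (nat_lit 334)) (M (nat_lit 493) (B (lo113_15_6 (nat_lit 398)) (lo113_16_7 (nat_lit 525)))))) (B (M (nat_lit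 367) (B (lo116_11_1 (nat_lit 368)) (M (nat_lit 395) (B (lo111_12_2 (nat_lit 398)) (lo110_12_2 (nat_lit 394)))))) (M (nat_lit 334) (B (lo113_14_6 (nat_lit 461)) (M (nat_lit 333) (B (lo113_13_6 (nat_lit 302)) (lo113_9_5 (nat_lit 301))))))))))))))))))))))) (B (K _ _ _ o1_s50638) (B (M (nat_lit 364) (B (M (nat_lit 461) (B (lo112_10_4 (nat_lit 332)) (M (nat_lit 493) (B (lo113_15_7 (nat_lit 397)) (lo113_16_7 (nat_lit 525)))))) (B (M (nat_lit 461) (B (lo112_10_4 (nat_lit 332)) (M (nat_lit 493) (B (lo113_16_7 (nat_lit 525)) (lo112_11_4 (nat_lit 460)))))) (B (M (nat_lit 397) (B (M (nat_lit 332) (B (lo112_9_4 (nat_lit 300)) (M (nat_lit 427) (B (lo112_10_5 (nat_lit 459)) (M (nat_lit 398) (B (lo115_12_1 (nat_lit 399)) (lo110_13_2 (nat_lit 426)))))))) (B (M (nat_lit 332) (B (lo112_9_4 (nat_lit 300)) (K _ _ _ o1_s50306))) (M (nat_lit 398) (B (M (nat_lit 399) (B (lo116_12_1 (nat_lit 400)) (lo115_12_3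 (nat_lit 363)))) (B (M (nat_lit 399) (B (lo115_12_3 (nat_lit 363)) (lo115_12_1 (nat_lit 427)))) (B (M (nat_lit 365) (B (M (nat_lit 333) (B (lo113_9_5 (nat_lit 301)) (lo113_10_5 (nat_lit 460)))) (K _ _ _ o1_s50316))) (M (nat_lit 427) (B (lo115_12_1 (nat_lit 399)) (lo110_13_2 (nat_lit 426))))))))))) (M (nat_lit 365) (B (M (nat_lit 333) (B (lo112_14_6 (nat_lit 460)) (M (nat_lit 301) (B (lo113_8_5 (nat_lit 269)) (lo113_9_5 (nat_lit 397)))))) (B (M (nat_lit 460) (B (lo112_14_6 (nat_lit 333)) (M (nat_lit 493) (B (lo112_11_4 (nat_lit 461)) (M (nat_lit 492) (B (lo112_15_6 (nat_lit 397)) (lo112_12_4 (nat_lit 525)))))))) (B (M (nat_lit 397) (B (M (nat_lit 366) (B (M (nat_lit 367) (B (lo116_11_1 (nat_lit 368)) (lo115_11_1 (nat_lit 395)))) (M (nat_lit 461) (B (lo113_14_6 (nat_lit 334)) (lo113_15_7 (nat_lit 493)))))) (B (M (nat_lit 399) (B (M (nat_lit 398) (B (lo116_12_3 (nat_lit 400)) (lo115_12_3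 (nat_lit 363)))) (B (M (nat_lit 398) (B (lo115_12_3 (nat_lit 363)) (lo115_12_1 (nat_lit 427)))) (M (nat_lit 366) (B (M (nat_lit 367) (B (lo112_11_0 (nat_lit 400)) (lo115_11_1 (nat_lit 395)))) (M (nat_lit 461) (B (lo113_14_6 (nat_lit 334)) (lo113_15_7 (nat_lit 493))))))))) (B (M (nat_lit 461) (B (lo113_15_7 (nat_lit 493)) (M (nat_lit 460) (B (lo113_11_5 (nat_lit 492)) (M (nat_lit 462) (B (lo113_11_4 (nat_lit 494)) (M (nat_lit 427) (B (lo115_14_3 (nat_lit 463)) (lo110_13_0 (nat_lit 426)))))))))) (K _ _ _ o1_s50318))))) (B (M (nat_lit 460) (B (lo112_14_6 (nat_lit 333)) (M (nat_lit 492) (B (M (nat_lit 493) (B (lo112_11_4 (nat_lit 461)) (lo112_12_4 (nat_lit 525)))) (B (M (nat_lit 524) (B (M (nat_lit 525) (B (lo112_12_4 (nat_lit 493)) (lo112_13_4 (nat_lit 557)))) (M (nat_lit 395) (B (lo112_15_7 (nat_lit 363)) (lo112_16_7 (nat_lit 427)))))) (M (nat_lit 524) (B (M (nat_lit 395) (B (lo112_15_7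 (nat_lit 363)) (lo112_16_7 (nat_lit 427)))) (B (M (nat_lit 556) (B (lo112_17_6 (nat_lit 461)) (M (nat_lit 427) (B (lo112_16_7 (nat_lit 395)) (lo112_17_7 (nat_lit 459)))))) (M (nat_lit 556) (B (lo112_17_6 (nat_lit 461)) (M (nat_lit 555) (B (lo112_13_5 (nat_lit 523)) (lo112_14_5 (nat_lit 587)))))))))))))) (K _ _ _ o1_s50676)))))))))) (B (M (nat_lit 427) (B (M (nat_lit 461) (B (M (nat_lit 426) (B (lo110_13_0 (nat_lit 462)) (M (nat_lit 425) (B (lo19_13_2 (nat_lit 397)) (lo19_13_0 (nat_lit 460)))))) (B (M (nat_lit 493) (B (lo113_16_7 (nat_lit 525)) (M (nat_lit 364) (B (lo113_15_7 (nat_lit 397)) (lo112_10_4 (nat_lit 332)))))) (M (nat_lit 493) (B (lo113_16_7 (nat_lit 525)) (M (nat_lit 364) (B (lo112_10_4 (nat_lit 332)) (lo112_11_4 (nat_lit 460))))))))) (B (M (nat_lit 397) (B (M (nat_lit 398) (B (lo115_12_1 (nat_lit 399)) (lo110_13_2 (nat_lit 426)))) (B (M (nat_lit 426) (B (lo110_13_2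 (nat_lit 398)) (lo19_13_2 (nat_lit 425)))) (M (nat_lit 364) (B (M (nat_lit 461) (B (lo113_15_7 (nat_lit 493)) (lo112_10_4 (nat_lit 332)))) (B (M (nat_lit 332) (B (lo112_9_4 (nat_lit 300)) (lo112_10_5 (nat_lit 459)))) (M (nat_lit 365) (B (M (nat_lit 460) (B (lo113_10_5 (nat_lit 333)) (lo112_15_6 (nat_lit 492)))) (M (nat_lit 366) (B (M (nat_lit 367) (B (lo116_11_1 (nat_lit 368)) (lo115_11_1 (nat_lit 395)))) (M (nat_lit 461) (B (lo113_14_6 (nat_lit 334)) (lo113_15_7 (nat_lit 493)))))))))))))) (B (M (nat_lit 461) (B (M (nat_lit 493) (B (lo113_16_7 (nat_lit 525)) (M (nat_lit 364) (B (lo112_10_4 (nat_lit 332)) (lo112_11_4 (nat_lit 460)))))) (B (M (nat_lit 426) (B (lo110_13_0 (nat_lit 462)) (M (nat_lit 425) (B (lo19_13_0 (nat_lit 460)) (M (nat_lit 393) (B (lo113_13_3 (nat_lit 394)) (lo112_13_3 (nat_lit 392)))))))) (K _ _ _ o1_s50700)))) (B (M (nat_lit 426) (B (M (nat_lit 397) (B (lo110_13_2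 (nat_lit 398)) (lo19_13_2 (nat_lit 425)))) (B (M (nat_lit 393) (B (lo113_13_3 (nat_lit 394)) (M (nat_lit 425) (B (lo19_13_2 (nat_lit 397)) (lo112_13_3 (nat_lit 392)))))) (B (M (nat_lit 425) (B (M (nat_lit 393) (B (lo113_13_3 (nat_lit 394)) (lo112_13_3 (nat_lit 392)))) (M (nat_lit 457) (B (lo113_13_1 (nat_lit 458)) (lo112_13_1 (nat_lit 456)))))) (M (nat_lit 397) (B (lo110_13_2 (nat_lit 398)) (M (nat_lit 394) (B (lo113_13_3 (nat_lit 393)) (M (nat_lit 395) (B (M (nat_lit 362) (B (lo113_12_3 (nat_lit 361)) (M (nat_lit 330) (B (lo110_9_4 (nat_lit 298)) (lo110_10_4 (nat_lit 459)))))) (M (nat_lit 365) (B (lo110_12_2 (nat_lit 366)) (M (nat_lit 333) (B (lo113_9_5 (nat_lit 301)) (lo113_10_5 (nat_lit 460)))))))))))))))) (B (M (nat_lit 461) (B (M (nat_lit 493) (B (lo113_16_7 (nat_lit 525)) (M (nat_lit 364) (B (lo113_15_7 (nat_lit 397)) (lo112_10_4 (nat_lit 332)))))) (K _ _ _ o1_s50700)))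 (M (nat_lit 365) (B (M (nat_lit 364) (B (M (nat_lit 332) (B (lo112_10_4 (nat_lit 461)) (lo112_10_5 (nat_lit 459)))) (M (nat_lit 333) (B (lo112_14_6 (nat_lit 460)) (M (nat_lit 301) (B (lo113_8_5 (nat_lit 269)) (lo113_9_5 (nat_lit 397)))))))) (B (M (nat_lit 333) (B (M (nat_lit 397) (B (lo113_9_5 (nat_lit 301)) (lo113_10_5 (nat_lit 460)))) (B (M (nat_lit 460) (B (lo113_10_5 (nat_lit 397)) (lo112_14_6 (nat_lit 364)))) (B (M (nat_lit 364) (B (lo112_14_6 (nat_lit 460)) (M (nat_lit 332) (B (lo112_13_6 (nat_lit 301)) (lo112_10_4 (nat_lit 461)))))) (M (nat_lit 332) (B (M (nat_lit 301) (B (lo113_9_5 (nat_lit 397)) (lo112_13_6 (nat_lit 364)))) (B (M (nat_lit 364) (B (lo112_10_4 (nat_lit 461)) (lo112_10_5 (nat_lit 459)))) (M (nat_lit 397) (B (lo113_9_5 (nat_lit 301)) (lo113_13_7 (nat_lit 300))))))))))) (B (M (nat_lit 397) (B (M (nat_lit 460) (B (lo113_10_5 (nat_lit 333)) (lo112_15_6 (nat_lit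 492)))) (M (nat_lit 364) (B (M (nat_lit 461) (B (lo113_14_7 (nat_lit 332)) (lo113_15_7 (nat_lit 493)))) (B (M (nat_lit 332) (B (lo112_9_4 (nat_lit 300)) (lo112_10_5 (nat_lit 459)))) (M (nat_lit 366) (B (M (nat_lit 367) (B (lo116_11_1 (nat_lit 368)) (lo115_11_1 (nat_lit 395)))) (M (nat_lit 461) (B (lo113_14_6 (nat_lit 334)) (lo113_15_7 (nat_lit 493))))))))))) (B (M (nat_lit 461) (B (M (nat_lit 364) (B (lo112_10_4 (nat_lit 332)) (M (nat_lit 493) (B (lo113_15_7 (nat_lit 397)) (lo113_16_7 (nat_lit 525)))))) (B (M (nat_lit 364) (B (lo112_10_4 (nat_lit 332)) (M (nat_lit 493) (B (lo113_16_7 (nat_lit 525)) (lo112_11_4 (nat_lit 460)))))) (B (M (nat_lit 364) (B (lo112_10_4 (nat_lit 332)) (M (nat_lit 397) (B (M (nat_lit 366) (B (lo113_14_6 (nat_lit 334)) (M (nat_lit 367) (B (lo116_11_1 (nat_lit 368)) (lo115_11_1 (nat_lit 395)))))) (M (nat_lit 460) (B (lo113_11_5 (nat_lit 492)) (M (nat_lit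 462) (B (lo115_14_3 (nat_lit 463)) (lo113_11_4 (nat_lit 494)))))))))) (B (M (nat_lit 493) (B (lo113_16_7 (nat_lit 525)) (M (nat_lit 364) (B (lo113_15_7 (nat_lit 397)) (lo112_11_4 (nat_lit 460)))))) (M (nat_lit 397) (B (M (nat_lit 460) (B (lo113_11_5 (nat_lit 492)) (M (nat_lit 462) (B (lo115_14_3 (nat_lit 463)) (lo113_11_4 (nat_lit 494)))))) (M (nat_lit 366) (B (lo113_14_6 (nat_lit 334)) (M (nat_lit 398) (B (lo115_12_1 (nat_lit 399)) (lo113_15_6 (nat_lit 493))))))))))))) (B (M (nat_lit 364) (B (M (nat_lit 332) (B (lo112_10_4 (nat_lit 461)) (lo112_10_5 (nat_lit 459)))) (B (M (nat_lit 332) (B (lo112_10_5 (nat_lit 459)) (M (nat_lit 333) (B (lo112_13_6 (nat_lit 301)) (lo112_14_6 (nat_lit 460)))))) (B (M (nat_lit 460) (B (lo112_14_6 (nat_lit 333)) (M (nat_lit 492) (B (M (nat_lit 493) (B (lo112_11_4 (nat_lit 461)) (lo112_12_4 (nat_lit 525)))) (B (M (nat_lit 524) (B (lo112_16_7 (nat_lit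 395)) (M (nat_lit 525) (B (lo112_12_4 (nat_lit 493)) (lo112_13_4 (nat_lit 557)))))) (M (nat_lit 524) (B (lo112_16_7 (nat_lit 395)) (M (nat_lit 556) (B (lo112_17_6 (nat_lit 461)) (lo112_17_7 (nat_lit 459))))))))))) (M (nat_lit 332) (B (lo112_10_4 (nat_lit 461)) (M (nat_lit 333) (B (lo112_13_6 (nat_lit 301)) (lo112_14_6 (nat_lit 460)))))))))) (B (M (nat_lit 333) (B (M (nat_lit 397) (B (lo113_9_5 (nat_lit 301)) (lo113_10_5 (nat_lit 460)))) (B (M (nat_lit 460) (B (lo113_10_5 (nat_lit 397)) (lo112_14_6 (nat_lit 364)))) (B (M (nat_lit 364) (B (lo112_14_6 (nat_lit 460)) (M (nat_lit 301) (B (lo113_8_5 (nat_lit 269)) (lo112_13_6 (nat_lit 332)))))) (M (nat_lit 301) (B (lo113_9_5 (nat_lit 397)) (M (nat_lit 364) (B (lo113_8_5 (nat_lit 269)) (lo112_13_6 (nat_lit 332)))))))))) (B (M (nat_lit 397) (B (M (nat_lit 333) (B (lo113_9_5 (nat_lit 301)) (lo113_10_5 (nat_lit 460)))) (B (M (nat_lit 460)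 (B (lo113_10_5 (nat_lit 333)) (lo112_15_6 (nat_lit 492)))) (B (M (nat_lit 460) (B (lo112_15_6 (nat_lit 492)) (M (nat_lit 461) (B (M (nat_lit 462) (B (lo115_14_3 (nat_lit 463)) (lo113_11_4 (nat_lit 494)))) (M (nat_lit 493) (B (lo113_15_7 (nat_lit 364)) (lo113_16_7 (nat_lit 525)))))))) (M (nat_lit 461) (B (M (nat_lit 493) (B (lo113_15_7 (nat_lit 364)) (lo113_16_7 (nat_lit 525)))) (M (nat_lit 334) (B (lo113_14_6 (nat_lit 366)) (M (nat_lit 333) (B (lo113_13_6 (nat_lit 302)) (lo113_9_5 (nat_lit 301)))))))))))) (B (M (nat_lit 397) (B (M (nat_lit 460) (B (lo113_10_5 (nat_lit 333)) (lo112_15_6 (nat_lit 492)))) (M (nat_lit 398) (B (lo115_12_1 (nat_lit 399)) (M (nat_lit 366) (B (M (nat_lit 367) (B (lo116_11_1 (nat_lit 368)) (lo111_12_2 (nat_lit 395)))) (M (nat_lit 461) (B (lo113_14_6 (nat_lit 334)) (lo113_15_6 (nat_lit 493)))))))))) (M (nat_lit 332) (B (M (nat_lit 364) (B (lo112_10_4 (nat_lit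 461)) (lo112_10_5 (nat_lit 459)))) (B (M (nat_lit 364) (B (lo112_10_5 (nat_lit 459)) (M (nat_lit 300) (B (lo112_9_4 (nat_lit 397)) (lo112_9_5 (nat_lit 395)))))) (M (nat_lit 397) (B (M (nat_lit 333) (B (lo113_9_5 (nat_lit 301)) (lo113_13_7 (nat_lit 300)))) (M (nat_lit 398) (B (lo115_12_1 (nat_lit 399)) (M (nat_lit 366) (B (M (nat_lit 367) (B (lo116_11_1 (nat_lit 368)) (lo111_12_2 (nat_lit 395)))) (M (nat_lit 334) (B (lo114_9_5 (nat_lit 302)) (lo113_14_6 (nat_lit 461)))))))))))))))))))))))))))) (B (M (nat_lit 364) (B (M (nat_lit 461) (B (lo112_10_4 (nat_lit 332)) (M (nat_lit 493) (B (lo113_16_7 (nat_lit 525)) (lo112_11_4 (nat_lit 460)))))) (B (K _ _ _ o1_s49514) (B (M (nat_lit 461) (B (M (nat_lit 493) (B (lo113_15_7 (nat_lit 397)) (lo113_16_7 (nat_lit 525)))) (B (M (nat_lit 493) (B (lo113_16_7 (nat_lit 525)) (lo112_11_4 (nat_lit 460)))) (M (nat_lit 363) (B (M (nat_lit 460) (B (lo112_14_7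 (nat_lit 331)) (M (nat_lit 365) (B (lo112_14_6 (nat_lit 333)) (M (nat_lit 397) (B (lo113_11_5 (nat_lit 492)) (M (nat_lit 398) (B (lo115_12_3 (nat_lit 399)) (lo110_11_0 (nat_lit 362)))))))))) (B (M (nat_lit 460) (B (lo112_14_7 (nat_lit 331)) (M (nat_lit 365) (B (lo112_14_6 (nat_lit 333)) (M (nat_lit 397) (B (lo113_11_5 (nat_lit 492)) (M (nat_lit 362) (B (lo110_11_0 (nat_lit 398)) (lo19_11_0 (nat_lit 361)))))))))) (B (M (nat_lit 365) (B (M (nat_lit 460) (B (lo112_14_6 (nat_lit 333)) (lo112_14_7 (nat_lit 331)))) (B (M (nat_lit 366) (B (M (nat_lit 334) (B (lo111_11_2 (nat_lit 335)) (lo113_14_6 (nat_lit 397)))) (M (nat_lit 331) (B (lo114_11_3 (nat_lit 330)) (lo112_14_7 (nat_lit 460)))))) (B (M (nat_lit 362) (B (M (nat_lit 333) (B (lo110_11_2 (nat_lit 334)) (M (nat_lit 397) (B (lo113_9_5 (nat_lit 301)) (lo19_11_0 (nat_lit 361)))))) (B (M (nat_lit 329) (B (lo113_11_3 (nat_lit 330)) (M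 (nat_lit 361) (B (lo19_11_0 (nat_lit 397)) (lo112_11_3 (nat_lit 328)))))) (M (nat_lit 366) (B (M (nat_lit 334) (B (lo111_11_2 (nat_lit 335)) (lo110_11_2 (nat_lit 333)))) (M (nat_lit 330) (B (lo114_11_3 (nat_lit 331)) (lo113_11_3 (nat_lit 329))))))))) (M (nat_lit 334) (B (M (nat_lit 366) (B (lo111_11_2 (nat_lit 335)) (lo113_14_6 (nat_lit 397)))) (M (nat_lit 333) (B (lo110_11_2 (nat_lit 362)) (lo112_14_6 (nat_lit 460)))))))))) (B (M (nat_lit 365) (B (M (nat_lit 460) (B (lo112_14_7 (nat_lit 331)) (M (nat_lit 397) (B (lo113_11_5 (nat_lit 492)) (M (nat_lit 362) (B (lo110_11_0 (nat_lit 398)) (lo19_11_0 (nat_lit 361)))))))) (B (M (nat_lit 331) (B (lo112_14_7 (nat_lit 460)) (M (nat_lit 330) (B (lo114_11_3 (nat_lit 366)) (M (nat_lit 329) (B (lo113_11_3 (nat_lit 362)) (lo18_10_0 (nat_lit 328)))))))) (B (M (nat_lit 397) (B (M (nat_lit 398) (B (lo115_12_3 (nat_lit 399)) (lo110_11_0 (nat_lit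 362)))) (B (M (nat_lit 362) (B (lo110_11_0 (nat_lit 398)) (lo19_11_0 (nat_lit 361)))) (B (M (nat_lit 330) (B (M (nat_lit 366) (B (lo113_14_6 (nat_lit 334)) (lo114_11_3 (nat_lit 331)))) (M (nat_lit 362) (B (lo113_11_3 (nat_lit 329)) (lo19_11_0 (nat_lit 361)))))) (M (nat_lit 399) (B (lo115_12_3 (nat_lit 398)) (M (nat_lit 366) (B (lo113_14_6 (nat_lit 334)) (M (nat_lit 367) (B (lo116_11_1 (nat_lit 368)) (lo112_11_0 (nat_lit 400)))))))))))) (B (M (nat_lit 397) (B (M (nat_lit 398) (B (lo115_12_3 (nat_lit 399)) (lo110_11_0 (nat_lit 362)))) (B (M (nat_lit 362) (B (lo110_11_0 (nat_lit 398)) (lo19_11_0 (nat_lit 361)))) (M (nat_lit 460) (B (lo113_11_5 (nat_lit 492)) (M (nat_lit 462) (B (lo113_11_4 (nat_lit 494)) (M (nat_lit 463) (B (lo116_14_3 (nat_lit 464)) (lo115_14_3 (nat_lit 427))))))))))) (M (nat_lit 460) (B (lo112_14_7 (nat_lit 331)) (M (nat_lit 462) (B (M (nat_lit 463) (B (lo116_14_3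 (nat_lit 464)) (lo115_14_3 (nat_lit 427)))) (M (nat_lit 397) (B (lo113_11_4 (nat_lit 494)) (lo113_11_5 (nat_lit 492))))))))))))) (B (M (nat_lit 426) (B (M (nat_lit 427) (B (lo110_13_0 (nat_lit 462)) (M (nat_lit 397) (B (lo110_13_2 (nat_lit 398)) (lo19_13_2 (nat_lit 425)))))) (B (M (nat_lit 427) (B (lo110_13_0 (nat_lit 462)) (M (nat_lit 460) (B (lo19_13_0 (nat_lit 425)) (lo112_14_7 (nat_lit 331)))))) (M (nat_lit 362) (B (M (nat_lit 331) (B (lo112_14_7 (nat_lit 460)) (M (nat_lit 299) (B (lo111_8_4 (nat_lit 267)) (M (nat_lit 394) (B (lo110_13_6 (nat_lit 330)) (lo110_14_6 (nat_lit 458)))))))) (M (nat_lit 361) (B (lo19_11_0 (nat_lit 397)) (M (nat_lit 360) (B (M (nat_lit 328) (B (lo112_11_3 (nat_lit 329)) (lo111_11_3 (nat_lit 327)))) (M (nat_lit 392) (B (lo112_11_1 (nat_lit 393)) (lo111_11_1 (nat_lit 391))))))))))))) (B (M (nat_lit 426) (B (M (nat_lit 427) (B (lo110_13_0 (nat_lit 462))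 (M (nat_lit 460) (B (lo19_13_0 (nat_lit 425)) (lo112_14_7 (nat_lit 331)))))) (B (M (nat_lit 362) (B (M (nat_lit 331) (B (lo112_14_7 (nat_lit 460)) (M (nat_lit 299) (B (lo111_8_4 (nat_lit 267)) (M (nat_lit 394) (B (lo110_13_6 (nat_lit 330)) (lo110_14_6 (nat_lit 458)))))))) (B (M (nat_lit 394) (B (M (nat_lit 331) (B (lo110_14_6 (nat_lit 458)) (M (nat_lit 299) (B (lo111_8_4 (nat_lit 267)) (lo110_13_6 (nat_lit 330)))))) (M (nat_lit 393) (B (lo113_11_1 (nat_lit 365)) (M (nat_lit 392) (B (lo112_11_1 (nat_lit 361)) (lo17_12_2 (nat_lit 391)))))))) (B (M (nat_lit 365) (B (M (nat_lit 333) (B (lo110_11_2 (nat_lit 334)) (lo112_14_6 (nat_lit 460)))) (B (M (nat_lit 460) (B (lo112_14_6 (nat_lit 333)) (lo112_14_7 (nat_lit 331)))) (B (M (nat_lit 331) (B (lo112_14_7 (nat_lit 460)) (M (nat_lit 330) (B (lo114_11_3 (nat_lit 366)) (lo113_11_3 (nat_lit 329)))))) (M (nat_lit 330) (B (lo113_11_3 (nat_lit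 329)) (M (nat_lit 366) (B (lo114_11_3 (nat_lit 331)) (M (nat_lit 334) (B (lo111_11_2 (nat_lit 335)) (lo110_11_2 (nat_lit 333)))))))))))) (B (M (nat_lit 365) (B (M (nat_lit 333) (B (lo110_11_2 (nat_lit 334)) (lo112_14_6 (nat_lit 460)))) (M (nat_lit 393) (B (lo113_11_1 (nat_lit 394)) (M (nat_lit 361) (B (lo112_11_1 (nat_lit 392)) (M (nat_lit 329) (B (lo113_11_3 (nat_lit 330)) (lo112_11_3 (nat_lit 328)))))))))) (M (nat_lit 394) (B (M (nat_lit 331) (B (lo112_14_7 (nat_lit 460)) (lo110_14_6 (nat_lit 458)))) (M (nat_lit 393) (B (lo113_11_1 (nat_lit 365)) (M (nat_lit 392) (B (lo112_11_1 (nat_lit 361)) (lo17_12_2 (nat_lit 391))))))))))))) (M (nat_lit 427) (B (lo110_13_0 (nat_lit 462)) (M (nat_lit 425) (B (M (nat_lit 393) (B (lo113_13_3 (nat_lit 394)) (lo112_13_3 (nat_lit 392)))) (M (nat_lit 457) (B (lo113_13_1 (nat_lit 458)) (lo112_13_1 (nat_lit 456))))))))))) (B (M (nat_lit 362) (B (M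 (nat_lit 397) (B (lo19_11_0 (nat_lit 361)) (M (nat_lit 398) (B (lo115_12_3 (nat_lit 399)) (lo110_11_0 (nat_lit 365)))))) (B (M (nat_lit 397) (B (lo19_11_0 (nat_lit 361)) (M (nat_lit 365) (B (lo110_11_0 (nat_lit 398)) (M (nat_lit 334) (B (lo113_14_6 (nat_lit 366)) (lo110_11_2 (nat_lit 333)))))))) (B (M (nat_lit 365) (B (M (nat_lit 333) (B (lo110_11_2 (nat_lit 334)) (M (nat_lit 397) (B (lo113_9_5 (nat_lit 301)) (lo19_11_0 (nat_lit 361)))))) (B (M (nat_lit 329) (B (lo113_11_3 (nat_lit 330)) (M (nat_lit 361) (B (lo19_11_0 (nat_lit 397)) (lo112_11_3 (nat_lit 328)))))) (M (nat_lit 366) (B (M (nat_lit 334) (B (lo111_11_2 (nat_lit 335)) (lo110_11_2 (nat_lit 333)))) (M (nat_lit 330) (B (lo114_11_3 (nat_lit 331)) (lo113_11_3 (nat_lit 329))))))))) (B (M (nat_lit 361) (B (lo19_11_0 (nat_lit 397)) (M (nat_lit 360) (B (M (nat_lit 328) (B (lo112_11_3 (nat_lit 329)) (lo111_11_3 (nat_lit 327))))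 (M (nat_lit 392) (B (lo112_11_1 (nat_lit 393)) (lo111_11_1 (nat_lit 391)))))))) (B (M (nat_lit 394) (B (M (nat_lit 393) (B (lo113_11_1 (nat_lit 365)) (M (nat_lit 392) (B (lo112_11_1 (nat_lit 361)) (lo17_12_2 (nat_lit 391)))))) (B (M (nat_lit 426) (B (M (nat_lit 427) (B (lo110_13_0 (nat_lit 462)) (lo113_13_3 (nat_lit 393)))) (M (nat_lit 331) (B (lo110_14_6 (nat_lit 458)) (M (nat_lit 299) (B (lo111_8_4 (nat_lit 267)) (lo110_13_6 (nat_lit 330)))))))) (M (nat_lit 330) (B (M (nat_lit 329) (B (lo113_11_3 (nat_lit 365)) (M (nat_lit 328) (B (lo18_10_0 (nat_lit 331)) (lo112_11_3 (nat_lit 361)))))) (B (M (nat_lit 426) (B (M (nat_lit 331) (B (lo110_13_6 (nat_lit 299)) (lo110_14_6 (nat_lit 458)))) (M (nat_lit 427) (B (lo110_13_0 (nat_lit 462)) (lo110_10_4 (nat_lit 459)))))) (M (nat_lit 329) (B (lo113_11_3 (nat_lit 365)) (M (nat_lit 328) (B (lo112_11_3 (nat_lit 361)) (lo17_10_0 (nat_lit 327))))))))))))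 (M (nat_lit 365) (B (M (nat_lit 397) (B (lo110_11_0 (nat_lit 398)) (M (nat_lit 334) (B (lo113_14_6 (nat_lit 366)) (lo110_11_2 (nat_lit 333)))))) (B (M (nat_lit 366) (B (M (nat_lit 398) (B (lo111_11_0 (nat_lit 399)) (lo110_11_0 (nat_lit 397)))) (M (nat_lit 330) (B (lo114_11_3 (nat_lit 331)) (lo113_11_3 (nat_lit 329)))))) (B (M (nat_lit 397) (B (lo110_11_0 (nat_lit 398)) (M (nat_lit 333) (B (lo110_11_2 (nat_lit 334)) (lo113_9_5 (nat_lit 301)))))) (B (M (nat_lit 334) (B (lo110_11_2 (nat_lit 333)) (M (nat_lit 366) (B (lo111_11_2 (nat_lit 335)) (lo113_14_6 (nat_lit 397)))))) (M (nat_lit 366) (B (M (nat_lit 334) (B (lo111_11_2 (nat_lit 335)) (lo110_11_2 (nat_lit 333)))) (M (nat_lit 330) (B (lo114_11_3 (nat_lit 331)) (lo113_11_3 (nat_lit 329))))))))))))))))) (B (M (nat_lit 365) (B (M (nat_lit 460) (B (lo112_14_6 (nat_lit 333)) (M (nat_lit 397) (B (lo113_11_5 (nat_lit 492)) (M (nat_lit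 362) (B (lo110_11_0 (nat_lit 398)) (lo19_11_0 (nat_lit 361)))))))) (B (M (nat_lit 333) (B (lo112_14_6 (nat_lit 460)) (M (nat_lit 397) (B (lo113_9_5 (nat_lit 301)) (M (nat_lit 334) (B (lo113_13_6 (nat_lit 302)) (lo110_11_2 (nat_lit 362)))))))) (B (M (nat_lit 397) (B (M (nat_lit 362) (B (lo110_11_0 (nat_lit 398)) (lo19_11_0 (nat_lit 361)))) (M (nat_lit 460) (B (lo113_11_5 (nat_lit 492)) (M (nat_lit 462) (B (lo113_11_4 (nat_lit 494)) (M (nat_lit 463) (B (lo116_14_3 (nat_lit 464)) (lo115_14_3 (nat_lit 427)))))))))) (B (M (nat_lit 362) (B (M (nat_lit 333) (B (lo110_11_2 (nat_lit 334)) (lo112_14_6 (nat_lit 460)))) (M (nat_lit 361) (B (M (nat_lit 329) (B (lo113_11_3 (nat_lit 330)) (lo112_11_3 (nat_lit 328)))) (M (nat_lit 393) (B (lo113_11_1 (nat_lit 394)) (lo112_11_1 (nat_lit 392)))))))) (B (M (nat_lit 397) (B (M (nat_lit 362) (B (lo110_11_0 (nat_lit 398)) (lo19_11_0 (nat_lit 361))))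 (B (M (nat_lit 362) (B (lo19_11_0 (nat_lit 361)) (M (nat_lit 334) (B (lo113_14_6 (nat_lit 366)) (lo110_11_2 (nat_lit 333)))))) (M (nat_lit 334) (B (lo113_14_6 (nat_lit 366)) (M (nat_lit 333) (B (lo113_13_6 (nat_lit 302)) (lo113_9_5 (nat_lit 301))))))))) (M (nat_lit 333) (B (lo112_14_6 (nat_lit 460)) (M (nat_lit 397) (B (lo113_9_5 (nat_lit 301)) (M (nat_lit 334) (B (lo113_13_6 (nat_lit 302)) (lo113_14_6 (nat_lit 366)))))))))))))) (M (nat_lit 460) (B (lo112_14_7 (nat_lit 331)) (M (nat_lit 365) (B (lo112_14_6 (nat_lit 333)) (M (nat_lit 462) (B (M (nat_lit 463) (B (lo116_14_3 (nat_lit 464)) (lo115_14_3 (nat_lit 427)))) (M (nat_lit 397) (B (lo113_11_4 (nat_lit 494)) (lo113_11_5 (nat_lit 492)))))))))))))))))))))) (M (nat_lit 461) (B (lo112_10_4 (nat_lit 332)) (M (nat_lit 493) (B (lo113_15_7 (nat_lit 397)) (lo113_16_7 (nat_lit 525)))))))))) (M (nat_lit 364) (B (M (nat_lit 461) (B (lo112_10_4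 (nat_lit 332)) (M (nat_lit 493) (B (lo113_15_7 (nat_lit 397)) (lo113_16_7 (nat_lit 525)))))) (B (M (nat_lit 461) (B (lo112_10_4 (nat_lit 332)) (M (nat_lit 493) (B (lo113_16_7 (nat_lit 525)) (lo112_11_4 (nat_lit 460)))))) (B (K _ _ _ o1_s49514) (M (nat_lit 365) (B (M (nat_lit 333) (B (lo112_14_6 (nat_lit 460)) (M (nat_lit 301) (B (lo113_8_5 (nat_lit 269)) (lo113_9_5 (nat_lit 397)))))) (B (M (nat_lit 460) (B (lo112_14_6 (nat_lit 333)) (M (nat_lit 493) (B (lo112_11_4 (nat_lit 461)) (M (nat_lit 492) (B (lo112_15_6 (nat_lit 397)) (lo112_12_4 (nat_lit 525)))))))) (B (M (nat_lit 366) (B (M (nat_lit 395) (B (lo115_11_1 (nat_lit 367)) (M (nat_lit 394) (B (lo110_12_2 (nat_lit 397)) (lo114_11_1 (nat_lit 363)))))) (B (M (nat_lit 461) (B (M (nat_lit 397) (B (lo113_14_6 (nat_lit 334)) (lo113_15_7 (nat_lit 493)))) (B (M (nat_lit 493) (B (lo113_15_7 (nat_lit 397)) (lo113_16_7 (nat_lit 525))))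 (B (M (nat_lit 493) (B (lo113_16_7 (nat_lit 525)) (lo112_11_4 (nat_lit 460)))) (M (nat_lit 363) (B (M (nat_lit 334) (B (lo111_11_2 (nat_lit 335)) (lo113_14_6 (nat_lit 397)))) (M (nat_lit 331) (B (lo114_11_3 (nat_lit 330)) (lo112_14_7 (nat_lit 460)))))))))) (B (M (nat_lit 395) (B (lo115_11_1 (nat_lit 367)) (M (nat_lit 394) (B (lo114_11_1 (nat_lit 363)) (lo19_12_2 (nat_lit 393)))))) (M (nat_lit 395) (B (lo115_11_1 (nat_lit 367)) (M (nat_lit 394) (B (lo110_12_2 (nat_lit 397)) (lo19_12_2 (nat_lit 393)))))))))) (B (K _ _ _ o1_s43583) (K _ _ _ o1_s50676))))))))))))))))))))))))))))) _ _ _ (by decide +kernel)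
theorem o1_s53660 : Sem (nat_lit 2079502270590611144683810638107312777577327806531862431377859685460965980854219217279980804578104683573043408221052678871730618368) (nat_lit 7851256266219727463696504614534284725900719401880549185019783460557059559944099489854589290393856397995049897544473813569427039743912349751200716524945490608770359351822864351232) (nat_lit 7851256266219727463696504614534284725900719401880549185019783460557059559944099489854589290393856397995049897544473813569427039743912349751200716524945490608770359351822864351232) := sem_of_chk (M (nat_lit 492) (B (M (nat_lit 460) (B (M (nat_lit 397) (B (lo112_16_6 (nat_lit 524)) (M (nat_lit 365) (B (lo112_15_6 (nat_lit 396)) (lo113_11_5 (nat_lit 461)))))) (B (M (nat_lit 396) (B (M (nat_lit 493) (B (lo112_12_4 (nat_lit 525)) (M (nat_lit 364) (B (lo112_11_4 (nat_lit 461)) (M (nat_lit 491) (B (lo112_12_5 (nat_lit 523)) (lo112_11_5 (nat_lit 459)))))))) (B (M (nat_lit 364) (B (M (nat_lit 363) (B (lo112_15_7 (nat_lit 395)) (lo112_14_7 (nat_lit 331)))) (M (nat_lit 493) (B (lo112_12_4 (nat_lit 525)) (lo112_11_4 (nat_lit 461)))))) (B (K _ _ _ o1_s51050) (B (M (nat_lit 364) (B (M (nat_lit 491) (B (lo112_12_5 (nat_lit 523)) (lo112_11_5 (nat_lit 459)))) (M (nat_lit 461) (B (lo112_11_4 (nat_lit 493)) (lo112_10_4 (nat_lit 332)))))) (M (nat_lit 364) (B (M (nat_lit 491) (B (lo112_12_5 (nat_lit 523)) (lo112_11_5 (nat_lit 459)))) (M (nat_lit 363) (B (lo112_15_7 (nat_lit 395)) (lo112_14_7 (nat_lit 331))))))))))) (B (M (nat_lit 524) (B (lo112_16_6 (nat_lit 397)) (M (nat_lit 556) (B (lo112_17_6 (nat_lit 461)) (M (nat_lit 557) (B (lo112_14_4 (nat_lit 589)) (lo112_13_4 (nat_lit 525)))))))) (B (K _ _ _ o1_s51057) (K _ _ _ o1_s26570)))))) (B (M (nat_lit 460) (B (M (nat_lit 397) (B (lo112_16_6 (nat_lit 524)) (M (nat_lit 365) (B (lo112_15_6 (nat_lit 396)) (lo113_11_5 (nat_lit 461)))))) (B (M (nat_lit 397) (B (M (nat_lit 365) (B (lo112_15_6 (nat_lit 396)) (lo113_11_5 (nat_lit 461)))) (B (M (nat_lit 461) (B (lo113_11_5 (nat_lit 365)) (K _ _ _ o1_s40631))) (B (M (nat_lit 396) (B (lo112_15_6 (nat_lit 365)) (K _ _ _ o1_s51067))) (M (nat_lit 396) (B (M (nat_lit 364) (B (M (nat_lit 363) (B (lo112_15_7 (nat_lit 395)) (lo112_14_7 (nat_lit 331)))) (M (nat_lit 493) (B (lo112_12_4 (nat_lit 525)) (lo112_11_4 (nat_lit 461)))))) (B (M (nat_lit 427) (B (M (nat_lit 426) (B (lo19_13_2 (nat_lit 425)) (lo110_13_2 (nat_lit 398)))) (B (M (nat_lit 398) (B (lo110_13_2 (nat_lit 426)) (lo115_12_1 (nat_lit 399)))) (M (nat_lit 364) (B (M (nat_lit 459) (B (lo112_11_5 (nat_lit 491)) (lo112_10_5 (nat_lit 332)))) (M (nat_lit 493) (B (lo112_12_4 (nat_lit 525)) (lo112_11_4 (nat_lit 461))))))))) (B (M (nat_lit 395) (B (lo112_15_7 (nat_lit 363)) (M (nat_lit 493) (B (lo112_12_4 (nat_lit 525)) (M (nat_lit 398) (B (M (nat_lit 427) (B (lo114_12_1 (nat_lit 426)) (lo115_12_1 (nat_lit 399)))) (M (nat_lit 366) (B (lo111_12_2 (nat_lit 367)) (lo113_15_6 (nat_lit 461)))))))))) (B (M (nat_lit 364) (B (M (nat_lit 363) (B (lo112_15_7 (nat_lit 395)) (lo112_14_7 (nat_lit 331)))) (M (nat_lit 461) (B (lo112_11_4 (nat_lit 493)) (lo112_10_4 (nat_lit 332)))))) (K _ _ _ o1_s51067)))))))))) (B (M (nat_lit 524) (B (lo112_16_6 (nat_lit 397)) (M (nat_lit 556) (B (lo112_17_6 (nat_lit 461)) (M (nat_lit 557) (B (lo112_14_4 (nat_lit 589)) (lo112_13_4 (nat_lit 525)))))))) (B (K _ _ _ o1_s51096) (K _ _ _ o1_s51126)))))) (B (M (nat_lit 460) (B (M (nat_lit 397) (B (lo112_16_6 (nat_lit 524)) (M (nat_lit 365) (B (lo112_15_6 (nat_lit 396)) (lo113_11_5 (nat_lit 461)))))) (B (M (nat_lit 396) (B (K _ _ _ o1_s51128) (B (M (nat_lit 397) (B (lo112_15_6 (nat_lit 365)) (M (nat_lit 427) (B (M (nat_lit 426) (B (lo19_13_2 (nat_lit 425)) (lo110_13_2 (nat_lit 398)))) (B (M (nat_lit 398) (B (lo110_13_2 (nat_lit 426)) (lo115_12_1 (nat_lit 399)))) (M (nat_lit 364) (B (M (nat_lit 493) (B (lo112_12_4 (nat_lit 525)) (lo112_11_4 (nat_lit 461)))) (B (M (nat_lit 332) (B (lo112_10_5 (nat_lit 459)) (lo112_10_4 (nat_lit 461)))) (M (nat_lit 332) (B (lo112_10_5 (nat_lit 459)) (lo112_9_4 (nat_lit 300)))))))))))) (B (K _ _ _ o1_s51050) (B (M (nat_lit 364) (B (M (nat_lit 363) (B (lo112_15_7 (nat_lit 395)) (lo112_14_7 (nat_lit 331)))) (M (nat_lit 461) (B (lo112_11_4 (nat_lit 493)) (lo112_10_4 (nat_lit 332)))))) (B (K _ _ _ o1_s51134) (M (nat_lit 397) (B (lo112_15_6 (nat_lit 365)) (M (nat_lit 427) (B (M (nat_lit 398) (B (lo110_13_2 (nat_lit 426)) (lo115_12_1 (nat_lit 399)))) (M (nat_lit 364) (B (M (nat_lit 363) (B (lo112_15_7 (nat_lit 395)) (lo112_14_7 (nat_lit 331)))) (M (nat_lit 332) (B (lo112_10_5 (nat_lit 459)) (lo112_9_4 (nat_lit 300)))))))))))))))) (B (M (nat_lit 524) (B (lo112_16_6 (nat_lit 397)) (M (nat_lit 556) (B (lo112_17_6 (nat_lit 461)) (M (nat_lit 557) (B (lo112_14_4 (nat_lit 589)) (lo112_13_4 (nat_lit 525)))))))) (B (K _ _ _ o1_s51096) (M (nat_lit 395) (B (M (nat_lit 363) (B (lo112_15_7 (nat_lit 396)) (M (nat_lit 427) (B (lo111_11_4 (nat_lit 459)) (lo111_10_4 (nat_lit 331)))))) (B (M (nat_lit 427) (B (lo112_16_7 (nat_lit 524)) (M (nat_lit 363) (B (lo111_10_4 (nat_lit 331)) (lo112_15_7 (nat_lit 396)))))) (B (M (nat_lit 524) (B (M (nat_lit 556) (B (lo112_17_6 (nat_lit 461)) (M (nat_lit 557) (B (lo112_14_4 (nat_lit 589)) (lo112_13_4 (nat_lit 525)))))) (B (M (nat_lit 396) (B (lo112_15_7 (nat_lit 363)) (M (nat_lit 525) (B (lo112_13_4 (nat_lit 557)) (lo112_12_4 (nat_lit 493)))))) (M (nat_lit 556) (B (lo112_17_6 (nat_lit 461)) (M (nat_lit 555) (B (lo112_14_5 (nat_lit 587)) (lo112_13_5 (nat_lit 523))))))))) (M (nat_lit 524) (B (lo112_16_7 (nat_lit 427)) (M (nat_lit 556) (B (lo112_17_6 (nat_lit 461)) (M (nat_lit 557) (B (lo112_14_4 (nat_lit 589)) (lo112_13_4 (nat_lit 525))))))))))))))))) (B (M (nat_lit 460) (B (M (nat_lit 397) (B (lo112_16_6 (nat_lit 524)) (M (nat_lit 365) (B (lo112_15_6 (nat_lit 396)) (lo113_11_5 (nat_lit 461)))))) (B (M (nat_lit 396) (B (K _ _ _ o1_s51128) (B (M (nat_lit 397) (B (lo112_15_6 (nat_lit 365)) (M (nat_lit 493) (B (lo112_12_4 (nat_lit 525)) (M (nat_lit 398) (B (M (nat_lit 427) (B (lo110_13_2 (nat_lit 426)) (lo115_12_1 (nat_lit 399)))) (M (nat_lit 461) (B (lo112_11_4 (nat_lit 364)) (lo113_15_6 (nat_lit 366)))))))))) (B (K _ _ _ o1_s51050) (B (M (nat_lit 364) (B (M (nat_lit 363) (B (lo112_15_7 (nat_lit 395)) (lo112_14_7 (nat_lit 331)))) (M (nat_lit 461) (B (lo112_11_4 (nat_lit 493)) (lo112_10_4 (nat_lit 332)))))) (B (K _ _ _ o1_s51134) (M (nat_lit 397) (B (lo112_15_6 (nat_lit 365)) (M (nat_lit 395) (B (lo112_15_7 (nat_lit 363)) (K _ _ _ o1_s40748))))))))))) (B (M (nat_lit 524) (B (lo112_16_6 (nat_lit 397)) (M (nat_lit 556) (B (lo112_17_6 (nat_lit 461)) (M (nat_lit 557) (B (lo112_14_4 (nat_lit 589)) (lo112_13_4 (nat_lit 525)))))))) (B (M (nat_lit 397) (B (lo112_16_6 (nat_lit 524)) (M (nat_lit 396) (B (lo112_15_6 (nat_lit 365)) (M (nat_lit 395) (B (lo112_15_7 (nat_lit 363)) (K _ _ _ o1_s40748))))))) (M (nat_lit 396) (B (M (nat_lit 524) (B (M (nat_lit 395) (B (lo112_16_7 (nat_lit 427)) (lo112_15_7 (nat_lit 363)))) (M (nat_lit 525) (B (lo112_13_4 (nat_lit 557)) (lo112_12_4 (nat_lit 493)))))) (B (M (nat_lit 364) (B (M (nat_lit 363) (B (lo112_15_7 (nat_lit 395)) (lo112_14_7 (nat_lit 331)))) (M (nat_lit 493) (B (lo112_12_4 (nat_lit 525)) (lo112_11_4 (nat_lit 461)))))) (B (M (nat_lit 524) (B (M (nat_lit 523) (B (lo112_13_5 (nat_lit 555)) (lo112_12_5 (nat_lit 491)))) (M (nat_lit 525) (B (lo112_13_4 (nat_lit 557)) (lo112_12_4 (nat_lit 493)))))) (M (nat_lit 524) (B (M (nat_lit 523) (B (lo112_13_5 (nat_lit 555)) (lo112_12_5 (nat_lit 491)))) (M (nat_lit 395) (B (lo112_16_7 (nat_lit 427)) (lo112_15_7 (nat_lit 363))))))))))))))) (B (M (nat_lit 460) (B (M (nat_lit 397) (B (lo112_16_6 (nat_lit 524)) (M (nat_lit 365) (B (lo112_15_6 (nat_lit 396)) (lo113_11_5 (nat_lit 461)))))) (B (M (nat_lit 397) (B (M (nat_lit 365) (B (lo112_15_6 (nat_lit 396)) (lo113_11_5 (nat_lit 461)))) (B (M (nat_lit 461) (B (lo113_11_5 (nat_lit 365)) (M (nat_lit 462) (B (M (nat_lit 463) (B (lo115_14_1 (nat_lit 491)) (lo116_14_3 (nat_lit 464)))) (B (M (nat_lit 463) (B (lo116_14_3 (nat_lit 464)) (M (nat_lit 494) (B (M (nat_lit 495) (B (lo111_14_0 (nat_lit 459)) (lo112_14_0 (nat_lit 496)))) (M (nat_lit 526) (B (lo113_12_4 (nat_lit 493)) (lo114_17_7 (nat_lit 558)))))))) (K _ _ _ o1_s51186)))))) (B (K _ _ _ o1_s51192) (M (nat_lit 396) (B (M (nat_lit 364) (B (M (nat_lit 363) (B (lo112_15_7 (nat_lit 395)) (lo112_14_7 (nat_lit 331)))) (M (nat_lit 493) (B (lo112_12_4 (nat_lit 525)) (lo112_11_4 (nat_lit 461)))))) (B (M (nat_lit 364) (B (M (nat_lit 491) (B (lo112_12_5 (nat_lit 523)) (lo112_11_5 (nat_lit 459)))) (M (nat_lit 493) (B (lo112_12_4 (nat_lit 525)) (lo112_11_4 (nat_lit 461)))))) (B (M (nat_lit 461) (B (M (nat_lit 493) (B (lo112_12_4 (nat_lit 525)) (M (nat_lit 494) (B (lo113_12_4 (nat_lit 526)) (M (nat_lit 459) (B (lo110_14_0 (nat_lit 458)) (lo115_15_3 (nat_lit 495)))))))) (B (M (nat_lit 493) (B (lo112_12_4 (nat_lit 525)) (M (nat_lit 491) (B (lo112_12_5 (nat_lit 523)) (M (nat_lit 490) (B (lo19_15_2 (nat_lit 489)) (lo110_15_2 (nat_lit 462)))))))) (B (M (nat_lit 491) (B (lo112_12_5 (nat_lit 523)) (M (nat_lit 462) (B (lo115_14_1 (nat_lit 463)) (M (nat_lit 490) (B (lo19_15_2 (nat_lit 489)) (lo110_15_2 (nat_lit 493)))))))) (M (nat_lit 491) (B (lo112_12_5 (nat_lit 523)) (M (nat_lit 462) (B (lo115_14_1 (nat_lit 463)) (M (nat_lit 490) (B (lo19_15_2 (nat_lit 489)) (lo114_14_1 (nat_lit 459)))))))))))) (B (M (nat_lit 364) (B (M (nat_lit 491) (B (lo112_12_5 (nat_lit 523)) (lo112_11_5 (nat_lit 459)))) (M (nat_lit 461) (B (lo112_11_4 (nat_lit 493)) (lo112_10_4 (nat_lit 332)))))) (M (nat_lit 364) (B (M (nat_lit 491) (B (lo112_12_5 (nat_lit 523)) (lo112_11_5 (nat_lit 459)))) (M (nat_lit 363) (B (lo112_15_7 (nat_lit 395)) (lo112_14_7 (nat_lit 331))))))))))))))) (B (M (nat_lit 524) (B (lo112_16_6 (nat_lit 397)) (M (nat_lit 556) (B (lo112_17_6 (nat_lit 461)) (M (nat_lit 557) (B (lo112_14_4 (nat_lit 589)) (lo112_13_4 (nat_lit 525)))))))) (B (K _ _ _ o1_s51057) (K _ _ _ o1_s51211)))))) (B (M (nat_lit 493) (B (M (nat_lit 461) (B (M (nat_lit 524) (B (lo113_12_5 (nat_lit 397)) (M (nat_lit 525) (B (lo113_13_5 (nat_lit 556)) (lo113_16_7 (nat_lit 396)))))) (B (M (nat_lit 396) (B (lo113_16_7 (nat_lit 525)) (M (nat_lit 364) (B (lo112_10_4 (nat_lit 332)) (lo113_15_7 (nat_lit 397)))))) (B (M (nat_lit 524) (B (lo113_12_5 (nat_lit 397)) (M (nat_lit 556) (B (lo112_18_6 (nat_lit 588)) (lo113_13_5 (nat_lit 525)))))) (B (M (nat_lit 524) (B (lo113_12_5 (nat_lit 397)) (M (nat_lit 556) (B (lo112_18_6 (nat_lit 588)) (lo112_17_6 (nat_lit 460)))))) (M (nat_lit 396) (B (lo113_16_7 (nat_lit 525)) (M (nat_lit 364) (B (lo112_11_4 (nat_lit 460)) (lo112_10_4 (nat_lit 332))))))))))) (B (M (nat_lit 461) (B (M (nat_lit 396) (B (lo113_16_7 (nat_lit 525)) (M (nat_lit 364) (B (lo112_11_4 (nat_lit 460)) (lo112_10_4 (nat_lit 332)))))) (B (M (nat_lit 396) (B (lo113_16_7 (nat_lit 525)) (M (nat_lit 364) (B (lo112_10_4 (nat_lit 332)) (lo113_15_7 (nat_lit 397)))))) (B (M (nat_lit 524) (B (lo113_12_5 (nat_lit 397)) (M (nat_lit 556) (B (lo112_17_6 (nat_lit 460)) (lo113_13_5 (nat_lit 525)))))) (M (nat_lit 397) (B (lo113_12_5 (nat_lit 524)) (M (nat_lit 364) (B (lo113_15_7 (nat_lit 396)) (M (nat_lit 365) (B (lo113_11_5 (nat_lit 460)) (lo113_14_7 (nat_lit 332)))))))))))) (B (M (nat_lit 461) (B (M (nat_lit 396) (B (lo113_16_7 (nat_lit 525)) (M (nat_lit 364) (B (lo112_10_4 (nat_lit 332)) (lo113_15_7 (nat_lit 397)))))) (B (M (nat_lit 397) (B (lo113_12_5 (nat_lit 524)) (M (nat_lit 494) (B (lo113_12_4 (nat_lit 526)) (M (nat_lit 365) (B (lo113_11_5 (nat_lit 460)) (lo113_11_4 (nat_lit 462)))))))) (M (nat_lit 396) (B (lo113_16_7 (nat_lit 525)) (M (nat_lit 364) (B (lo112_11_4 (nat_lit 460)) (lo112_10_4 (nat_lit 332))))))))) (B (M (nat_lit 491) (B (K _ _ _ o1_s26652) (B (K _ _ _ o1_s26784) (B (K _ _ _ o1_s26659) (B (M (nat_lit 494) (B (M (nat_lit 461) (B (M (nat_lit 462) (B (lo110_15_2 (nat_lit 490)) (lo111_15_2 (nat_lit 463)))) (M (nat_lit 526) (B (lo111_15_0 (nat_lit 527)) (lo113_12_4 (nat_lit 397)))))) (B (M (nat_lit 495) (B (M (nat_lit 459) (B (lo114_15_3 (nat_lit 458)) (lo115_15_3 (nat_lit 460)))) (M (nat_lit 463) (B (lo111_15_2 (nat_lit 462)) (lo112_15_2 (nat_lit 464)))))) (M (nat_lit 490) (B (M (nat_lit 522) (B (lo113_15_1 (nat_lit 521)) (lo114_15_1 (nat_lit 523)))) (M (nat_lit 458) (B (lo113_15_3 (nat_lit 457)) (lo114_15_3 (nat_lit 459))))))))) (K _ _ _ o1_s51230)))))) (B (M (nat_lit 461) (B (M (nat_lit 396) (B (lo113_16_7 (nat_lit 525)) (M (nat_lit 364) (B (lo112_10_4 (nat_lit 332)) (lo113_15_7 (nat_lit 397)))))) (B (M (nat_lit 524) (B (lo113_12_5 (nat_lit 397)) (M (nat_lit 556) (B (lo112_18_6 (nat_lit 588)) (lo113_13_5 (nat_lit 525)))))) (B (M (nat_lit 397) (B (lo113_12_5 (nat_lit 524)) (M (nat_lit 365) (B (M (nat_lit 364) (B (lo113_15_7 (nat_lit 396)) (lo113_14_7 (nat_lit 332)))) (M (nat_lit 366) (B (lo113_15_6 (nat_lit 398)) (lo113_14_6 (nat_lit 334)))))))) (K _ _ _ o1_s26326))))) (B (M (nat_lit 494) (B (M (nat_lit 524) (B (M (nat_lit 397) (B (lo112_16_6 (nat_lit 460)) (lo113_12_5 (nat_lit 461)))) (M (nat_lit 523) (B (lo115_15_1 (nat_lit 495)) (M (nat_lit 522) (B (lo19_16_2 (nat_lit 521)) (lo110_16_2 (nat_lit 525)))))))) (B (K _ _ _ o1_s27640) (B (M (nat_lit 524) (B (M (nat_lit 397) (B (lo112_16_6 (nat_lit 460)) (lo113_12_5 (nat_lit 461)))) (M (nat_lit 523) (B (lo115_15_1 (nat_lit 495)) (M (nat_lit 522) (B (lo19_16_2 (nat_lit 521)) (lo114_15_1 (nat_lit 491)))))))) (M (nat_lit 491) (B (M (nat_lit 490) (B (M (nat_lit 522) (B (lo113_15_1 (nat_lit 521)) (lo114_15_1 (nat_lit 523)))) (M (nat_lit 526) (B (lo110_15_0 (nat_lit 525)) (lo111_15_0 (nat_lit 527)))))) (B (M (nat_lit 490) (B (M (nat_lit 458) (B (lo113_15_3 (nat_lit 457)) (lo114_15_3 (nat_lit 459)))) (M (nat_lit 526) (B (lo110_15_0 (nat_lit 525)) (lo111_15_0 (nat_lit 527)))))) (M (nat_lit 495) (B (M (nat_lit 459) (B (lo114_15_3 (nat_lit 458)) (lo115_15_3 (nat_lit 460)))) (M (nat_lit 463) (B (lo111_15_2 (nat_lit 462)) (lo112_15_2 (nat_lit 464))))))))))))) (B (M (nat_lit 491) (B (M (nat_lit 460) (B (M (nat_lit 396) (B (lo112_12_5 (nat_lit 523)) (M (nat_lit 397) (B (lo112_16_6 (nat_lit 524)) (lo112_15_6 (nat_lit 365)))))) (B (M (nat_lit 397) (B (lo112_16_6 (nat_lit 524)) (M (nat_lit 365) (B (lo112_15_6 (nat_lit 396)) (lo113_11_5 (nat_lit 461)))))) (B (M (nat_lit 396) (B (lo112_12_5 (nat_lit 523)) (M (nat_lit 364) (B (lo112_11_5 (nat_lit 459)) (lo112_11_4 (nat_lit 461)))))) (M (nat_lit 461) (B (M (nat_lit 490) (B (lo19_15_2 (nat_lit 489)) (lo110_15_2 (nat_lit 462)))) (M (nat_lit 397) (B (lo112_16_6 (nat_lit 524)) (lo113_11_5 (nat_lit 365)))))))))) (B (M (nat_lit 460) (B (M (nat_lit 396) (B (lo112_12_5 (nat_lit 523)) (M (nat_lit 397) (B (lo112_16_6 (nat_lit 524)) (lo112_15_6 (nat_lit 365)))))) (B (M (nat_lit 397) (B (lo112_16_6 (nat_lit 524)) (M (nat_lit 365) (B (lo112_15_6 (nat_lit 396)) (lo113_11_5 (nat_lit 461)))))) (B (M (nat_lit 396) (B (lo112_12_5 (nat_lit 523)) (M (nat_lit 364) (B (lo112_11_5 (nat_lit 459)) (lo112_11_4 (nat_lit 461)))))) (M (nat_lit 461) (B (M (nat_lit 462) (B (lo110_15_2 (nat_lit 490)) (lo115_14_1 (nat_lit 463)))) (M (nat_lit 397) (B (lo112_16_6 (nat_lit 524)) (lo113_11_5 (nat_lit 365)))))))))) (B (K _ _ _ o1_s51263) (B (M (nat_lit 461) (B (M (nat_lit 524) (B (lo113_12_5 (nat_lit 397)) (M (nat_lit 556) (B (lo112_18_6 (nat_lit 588)) (lo112_17_6 (nat_lit 460)))))) (B (M (nat_lit 462) (B (lo110_15_2 (nat_lit 490)) (M (nat_lit 463) (B (lo115_14_1 (nat_lit 460)) (lo111_15_2 (nat_lit 494)))))) (M (nat_lit 462) (B (lo110_15_2 (nat_lit 490)) (M (nat_lit 463) (B (lo111_15_2 (nat_lit 494)) (lo116_14_1 (nat_lit 464))))))))) (B (K _ _ _ o1_s51267) (M (nat_lit 494) (B (M (nat_lit 495) (B (M (nat_lit 523) (B (lo114_15_1 (nat_lit 522)) (lo115_15_1 (nat_lit 524)))) (M (nat_lit 463) (B (lo111_15_2 (nat_lit 462)) (lo112_15_2 (nat_lit 464)))))) (B (M (nat_lit 461) (B (M (nat_lit 462) (B (lo110_15_2 (nat_lit 490)) (lo111_15_2 (nat_lit 463)))) (M (nat_lit 397) (B (lo113_12_5 (nat_lit 524)) (lo113_12_4 (nat_lit 526)))))) (B (M (nat_lit 461) (B (M (nat_lit 462) (B (lo110_15_2 (nat_lit 490)) (lo111_15_2 (nat_lit 463)))) (M (nat_lit 526) (B (lo111_15_0 (nat_lit 527)) (lo113_12_4 (nat_lit 397)))))) (M (nat_lit 490) (B (M (nat_lit 522) (B (lo113_15_1 (nat_lit 521)) (lo114_15_1 (nat_lit 523)))) (M (nat_lit 458) (B (lo113_15_3 (nat_lit 457)) (lo114_15_3 (nat_lit 459)))))))))))))))) (B (M (nat_lit 523) (B (M (nat_lit 460) (B (M (nat_lit 524) (B (lo112_13_5 (nat_lit 555)) (lo112_16_6 (nat_lit 397)))) (M (nat_lit 396) (B (lo112_12_5 (nat_lit 491)) (lo112_12_4 (nat_lit 525)))))) (B (M (nat_lit 522) (B (M (nat_lit 494) (B (lo114_15_1 (nat_lit 491)) (M (nat_lit 524) (B (lo19_16_2 (nat_lit 521)) (lo110_16_2 (nat_lit 525)))))) (B (M (nat_lit 494) (B (lo114_15_1 (nat_lit 491)) (M (nat_lit 524) (B (lo110_16_2 (nat_lit 525)) (lo115_15_1 (nat_lit 495)))))) (B (M (nat_lit 524) (B (lo19_16_2 (nat_lit 521)) (M (nat_lit 494) (B (lo110_16_2 (nat_lit 525)) (lo115_15_1 (nat_lit 495)))))) (B (M (nat_lit 491) (B (lo114_15_1 (nat_lit 494)) (M (nat_lit 521) (B (lo18_16_2 (nat_lit 520)) (lo113_15_1 (nat_lit 490)))))) (M (nat_lit 521) (B (lo19_16_2 (nat_lit 524)) (M (nat_lit 491) (B (lo18_16_2 (nat_lit 520)) (lo113_15_1 (nat_lit 490))))))))))) (B (M (nat_lit 524) (B (M (nat_lit 460) (B (lo112_13_5 (nat_lit 555)) (lo112_16_6 (nat_lit 397)))) (M (nat_lit 522) (B (lo19_16_2 (nat_lit 521)) (M (nat_lit 494) (B (lo110_16_2 (nat_lit 525)) (lo115_15_1 (nat_lit 495)))))))) (M (nat_lit 491) (B (M (nat_lit 522) (B (lo114_15_1 (nat_lit 494)) (M (nat_lit 521) (B (lo18_16_2 (nat_lit 520)) (lo113_15_1 (nat_lit 490)))))) (M (nat_lit 460) (B (lo112_12_5 (nat_lit 396)) (M (nat_lit 555) (B (lo111_18_6 (nat_lit 587)) (lo111_17_6 (nat_lit 459)))))))))))) (M (nat_lit 491) (B (M (nat_lit 461) (B (M (nat_lit 462) (B (lo110_15_2 (nat_lit 490)) (M (nat_lit 463) (B (lo111_15_2 (nat_lit 494)) (lo116_14_1 (nat_lit 464)))))) (M (nat_lit 396) (B (lo113_16_7 (nat_lit 525)) (M (nat_lit 460) (B (lo112_12_5 (nat_lit 523)) (lo112_11_4 (nat_lit 364)))))))) (B (K _ _ _ o1_s51263) (B (K _ _ _ o1_s51295) (B (K _ _ _ o1_s26944) (B (K _ _ _ o1_s27795) (M (nat_lit 461) (B (M (nat_lit 462) (B (lo110_15_2 (nat_lit 490)) (M (nat_lit 463) (B (lo115_14_1 (nat_lit 460)) (lo116_14_1 (nat_lit 464)))))) (B (M (nat_lit 396) (B (lo113_16_7 (nat_lit 525)) (M (nat_lit 460) (B (lo112_12_5 (nat_lit 523)) (lo112_11_4 (nat_lit 364)))))) (M (nat_lit 525) (B (lo113_16_7 (nat_lit 396)) (M (nat_lit 490) (B (lo110_15_0 (nat_lit 526)) (lo110_15_2 (nat_lit 462)))))))))))))))))))))))) (B (M (nat_lit 460) (B (M (nat_lit 397) (B (lo112_16_6 (nat_lit 524)) (M (nat_lit 365) (B (lo112_15_6 (nat_lit 396)) (lo113_11_5 (nat_lit 461)))))) (B (M (nat_lit 397) (B (M (nat_lit 365) (B (lo112_15_6 (nat_lit 396)) (lo113_11_5 (nat_lit 461)))) (B (K _ _ _ o1_s51307) (B (K _ _ _ o1_s51192) (M (nat_lit 396) (B (M (nat_lit 364) (B (M (nat_lit 363) (B (lo112_15_7 (nat_lit 395)) (lo112_14_7 (nat_lit 331)))) (M (nat_lit 493) (B (lo112_12_4 (nat_lit 525)) (lo112_11_4 (nat_lit 461)))))) (B (M (nat_lit 364) (B (M (nat_lit 491) (B (lo112_12_5 (nat_lit 523)) (lo112_11_5 (nat_lit 459)))) (M (nat_lit 493) (B (lo112_12_4 (nat_lit 525)) (lo112_11_4 (nat_lit 461)))))) (B (M (nat_lit 493) (B (lo112_12_4 (nat_lit 525)) (M (nat_lit 461) (B (M (nat_lit 491) (B (lo112_12_5 (nat_lit 523)) (M (nat_lit 490) (B (lo19_15_2 (nat_lit 489)) (lo110_15_2 (nat_lit 462)))))) (M (nat_lit 494) (B (lo113_12_4 (nat_lit 526)) (M (nat_lit 459) (B (lo110_14_0 (nat_lit 458)) (lo115_15_3 (nat_lit 495)))))))))) (B (M (nat_lit 364) (B (M (nat_lit 491) (B (lo112_12_5 (nat_lit 523)) (lo112_11_5 (nat_lit 459)))) (M (nat_lit 461) (B (lo112_11_4 (nat_lit 493)) (lo112_10_4 (nat_lit 332)))))) (M (nat_lit 364) (B (M (nat_lit 491) (B (lo112_12_5 (nat_lit 523)) (lo112_11_5 (nat_lit 459)))) (M (nat_lit 363) (B (lo112_15_7 (nat_lit 395)) (lo112_14_7 (nat_lit 331))))))))))))))) (B (M (nat_lit 397) (B (lo112_16_6 (nat_lit 524)) (K _ _ _ o1_s51307))) (B (K _ _ _ o1_s51057) (K _ _ _ o1_s26570)))))) (B (M (nat_lit 491) (B (M (nat_lit 396) (B (M (nat_lit 460) (B (lo112_12_5 (nat_lit 523)) (M (nat_lit 364) (B (lo112_11_5 (nat_lit 459)) (M (nat_lit 493) (B (lo112_12_4 (nat_lit 525)) (lo112_11_4 (nat_lit 461)))))))) (B (K _ _ _ o1_s26691) (B (K _ _ _ o1_s26693) (B (K _ _ _ o1_s51328) (B (M (nat_lit 461) (B (M (nat_lit 493) (B (lo113_16_7 (nat_lit 525)) (M (nat_lit 462) (B (lo110_15_2 (nat_lit 490)) (M (nat_lit 463) (B (lo111_15_2 (nat_lit 494)) (lo116_14_1 (nat_lit 464)))))))) (B (K _ _ _ o1_s51332) (B (M (nat_lit 460) (B (lo112_12_5 (nat_lit 523)) (M (nat_lit 462) (B (lo115_14_1 (nat_lit 463)) (M (nat_lit 490) (B (lo19_15_2 (nat_lit 489)) (lo110_15_2 (nat_lit 493)))))))) (M (nat_lit 460) (B (lo112_12_5 (nat_lit 523)) (M (nat_lit 462) (B (lo115_14_1 (nat_lit 463)) (M (nat_lit 490) (B (lo19_15_2 (nat_lit 489)) (lo114_14_1 (nat_lit 459)))))))))))) (M (nat_lit 460) (B (lo112_12_5 (nat_lit 523)) (M (nat_lit 364) (B (lo112_11_5 (nat_lit 459)) (M (nat_lit 363) (B (lo112_15_7 (nat_lit 395)) (lo112_14_7 (nat_lit 331)))))))))))))) (B (M (nat_lit 396) (B (M (nat_lit 460) (B (lo112_12_5 (nat_lit 523)) (M (nat_lit 364) (B (lo112_11_5 (nat_lit 459)) (M (nat_lit 363) (B (lo112_15_7 (nat_lit 395)) (lo112_14_7 (nat_lit 331)))))))) (B (K _ _ _ o1_s26691) (B (K _ _ _ o1_s26693) (B (M (nat_lit 460) (B (lo112_12_5 (nat_lit 523)) (M (nat_lit 364) (B (lo112_11_5 (nat_lit 459)) (M (nat_lit 493) (B (lo112_12_4 (nat_lit 525)) (lo112_11_4 (nat_lit 461)))))))) (B (K _ _ _ o1_s51328) (M (nat_lit 461) (B (M (nat_lit 493) (B (lo113_16_7 (nat_lit 525)) (M (nat_lit 462) (B (lo110_15_2 (nat_lit 490)) (M (nat_lit 463) (B (lo111_15_2 (nat_lit 494)) (lo116_14_1 (nat_lit 464)))))))) (B (K _ _ _ o1_s51332) (B (M (nat_lit 460) (B (lo112_12_5 (nat_lit 523)) (M (nat_lit 462) (B (lo115_14_1 (nat_lit 463)) (M (nat_lit 490) (B (lo114_14_1 (nat_lit 459)) (lo110_15_2 (nat_lit 493)))))))) (M (nat_lit 427) (B (M (nat_lit 523) (B (lo111_16_6 (nat_lit 459)) (lo112_12_5 (nat_lit 460)))) (M (nat_lit 426) (B (lo110_13_0 (nat_lit 462)) (M (nat_lit 397) (B (lo19_13_2 (nat_lit 425)) (lo110_13_2 (nat_lit 398)))))))))))))))))) (B (M (nat_lit 461) (B (K _ _ _ o1_s51348) (B (K _ _ _ o1_s51350) (B (M (nat_lit 396) (B (M (nat_lit 493) (B (lo113_16_7 (nat_lit 525)) (M (nat_lit 364) (B (lo112_10_4 (nat_lit 332)) (lo113_15_7 (nat_lit 397)))))) (B (K _ _ _ o1_s51332) (M (nat_lit 460) (B (lo112_12_5 (nat_lit 523)) (M (nat_lit 364) (B (lo112_11_5 (nat_lit 459)) (lo112_10_4 (nat_lit 332))))))))) (B (K _ _ _ o1_s51361) (B (K _ _ _ o1_s51365) (B (K _ _ _ o1_s51429) (K _ _ _ o1_s51430)))))))) (B (M (nat_lit 396) (B (M (nat_lit 460) (B (lo112_12_5 (nat_lit 523)) (M (nat_lit 364) (B (lo112_11_5 (nat_lit 459)) (M (nat_lit 493) (B (lo112_12_4 (nat_lit 525)) (lo112_11_4 (nat_lit 461)))))))) (B (K _ _ _ o1_s26691) (B (K _ _ _ o1_s26693) (B (K _ _ _ o1_s51328) (B (M (nat_lit 461) (B (M (nat_lit 460) (B (lo112_12_5 (nat_lit 523)) (M (nat_lit 493) (B (lo112_12_4 (nat_lit 525)) (M (nat_lit 490) (B (lo19_15_2 (nat_lit 489)) (lo110_15_2 (nat_lit 462)))))))) (B (M (nat_lit 460) (B (lo112_12_5 (nat_lit 523)) (M (nat_lit 493) (B (lo112_12_4 (nat_lit 525)) (M (nat_lit 462) (B (lo110_15_2 (nat_lit 490)) (lo115_14_1 (nat_lit 463)))))))) (B (M (nat_lit 397) (B (M (nat_lit 460) (B (lo112_12_5 (nat_lit 523)) (lo112_15_6 (nat_lit 365)))) (M (nat_lit 398) (B (M (nat_lit 427) (B (lo110_13_2 (nat_lit 426)) (lo115_12_1 (nat_lit 399)))) (M (nat_lit 493) (B (lo113_16_7 (nat_lit 525)) (lo113_15_6 (nat_lit 366)))))))) (B (M (nat_lit 462) (B (M (nat_lit 493) (B (lo110_15_2 (nat_lit 490)) (lo113_16_7 (nat_lit 525)))) (M (nat_lit 463) (B (lo115_14_1 (nat_lit 460)) (lo116_14_3 (nat_lit 464)))))) (B (M (nat_lit 493) (B (lo113_16_7 (nat_lit 525)) (M (nat_lit 462) (B (lo110_15_2 (nat_lit 490)) (M (nat_lit 463) (B (lo111_15_2 (nat_lit 494)) (lo116_14_1 (nat_lit 464)))))))) (M (nat_lit 460) (B (lo112_12_5 (nat_lit 523)) (M (nat_lit 462) (B (lo115_14_1 (nat_lit 463)) (M (nat_lit 490) (B (lo19_15_2 (nat_lit 489)) (lo114_14_1 (nat_lit 459)))))))))))))) (M (nat_lit 460) (B (lo112_12_5 (nat_lit 523)) (M (nat_lit 364) (B (lo112_11_5 (nat_lit 459)) (M (nat_lit 363) (B (lo112_15_7 (nat_lit 395)) (lo112_14_7 (nat_lit 331)))))))))))))) (B (M (nat_lit 396) (B (M (nat_lit 460) (B (lo112_12_5 (nat_lit 523)) (M (nat_lit 364) (B (lo112_11_5 (nat_lit 459)) (M (nat_lit 363) (B (lo112_15_7 (nat_lit 395)) (lo112_14_7 (nat_lit 331)))))))) (B (K _ _ _ o1_s26691) (B (K _ _ _ o1_s26693) (B (M (nat_lit 460) (B (lo112_12_5 (nat_lit 523)) (M (nat_lit 364) (B (lo112_11_5 (nat_lit 459)) (M (nat_lit 493) (B (lo112_12_4 (nat_lit 525)) (lo112_11_4 (nat_lit 461)))))))) (B (M (nat_lit 461) (B (M (nat_lit 493) (B (lo113_16_7 (nat_lit 525)) (M (nat_lit 364) (B (lo112_10_4 (nat_lit 332)) (lo113_15_7 (nat_lit 397)))))) (B (M (nat_lit 493) (B (lo113_16_7 (nat_lit 525)) (M (nat_lit 397) (B (M (nat_lit 494) (B (lo113_12_4 (nat_lit 526)) (M (nat_lit 462) (B (lo111_15_2 (nat_lit 463)) (lo113_11_4 (nat_lit 365)))))) (M (nat_lit 398) (B (lo113_15_6 (nat_lit 366)) (M (nat_lit 427) (B (lo110_13_2 (nat_lit 426)) (lo115_12_1 (nat_lit 399)))))))))) (B (K _ _ _ o1_s51327) (K _ _ _ o1_s51472))))) (M (nat_lit 460) (B (lo112_12_5 (nat_lit 523)) (M (nat_lit 427) (B (M (nat_lit 397) (B (lo112_15_6 (nat_lit 365)) (M (nat_lit 426) (B (lo19_13_2 (nat_lit 425)) (lo110_13_2 (nat_lit 398)))))) (K _ _ _ o1_s42084))))))))))) (B (M (nat_lit 493) (B (K _ _ _ o1_s26652) (B (K _ _ _ o1_s51295) (B (K _ _ _ o1_s26659) (B (M (nat_lit 494) (B (M (nat_lit 461) (B (M (nat_lit 462) (B (lo110_15_2 (nat_lit 490)) (lo111_15_2 (nat_lit 463)))) (M (nat_lit 526) (B (lo111_15_0 (nat_lit 527)) (lo113_12_4 (nat_lit 397)))))) (B (M (nat_lit 495) (B (M (nat_lit 459) (B (lo114_15_3 (nat_lit 458)) (lo115_15_3 (nat_lit 460)))) (M (nat_lit 463) (B (lo111_15_2 (nat_lit 462)) (lo112_15_2 (nat_lit 464)))))) (M (nat_lit 490) (B (M (nat_lit 458) (B (lo113_15_3 (nat_lit 457)) (lo114_15_3 (nat_lit 459)))) (M (nat_lit 526) (B (lo110_15_0 (nat_lit 525)) (lo111_15_0 (nat_lit 527))))))))) (B (K _ _ _ o1_s51267) (K _ _ _ o1_s51230))))))) (B (M (nat_lit 493) (B (K _ _ _ o1_s26659) (B (K _ _ _ o1_s26798) (B (M (nat_lit 494) (B (M (nat_lit 490) (B (M (nat_lit 458) (B (lo113_15_3 (nat_lit 457)) (lo114_15_3 (nat_lit 459)))) (M (nat_lit 526) (B (lo110_15_0 (nat_lit 525)) (lo111_15_0 (nat_lit 527)))))) (B (M (nat_lit 461) (B (M (nat_lit 462) (B (lo110_15_2 (nat_lit 490)) (lo111_15_2 (nat_lit 463)))) (M (nat_lit 526) (B (lo111_15_0 (nat_lit 527)) (lo113_12_4 (nat_lit 397)))))) (B (M (nat_lit 495) (B (M (nat_lit 527) (B (lo111_15_0 (nat_lit 526)) (lo112_15_0 (nat_lit 528)))) (M (nat_lit 463) (B (lo111_15_2 (nat_lit 462)) (lo112_15_2 (nat_lit 464)))))) (M (nat_lit 490) (B (M (nat_lit 458) (B (lo113_15_3 (nat_lit 457)) (lo114_15_3 (nat_lit 459)))) (M (nat_lit 462) (B (lo110_15_2 (nat_lit 461)) (lo111_15_2 (nat_lit 463)))))))))) (B (M (nat_lit 494) (B (M (nat_lit 495) (B (M (nat_lit 459) (B (lo114_15_3 (nat_lit 458)) (lo115_15_3 (nat_lit 460)))) (M (nat_lit 527) (B (lo111_15_0 (nat_lit 526)) (lo112_15_0 (nat_lit 528)))))) (B (M (nat_lit 461) (B (M (nat_lit 462) (B (lo110_15_2 (nat_lit 490)) (lo111_15_2 (nat_lit 463)))) (M (nat_lit 526) (B (lo111_15_0 (nat_lit 527)) (lo113_12_4 (nat_lit 397)))))) (M (nat_lit 490) (B (M (nat_lit 458) (B (lo113_15_3 (nat_lit 457)) (lo114_15_3 (nat_lit 459)))) (M (nat_lit 462) (B (lo110_15_2 (nat_lit 461)) (lo111_15_2 (nat_lit 463))))))))) (K _ _ _ o1_s26820)))))) (B (M (nat_lit 426) (B (M (nat_lit 460) (B (M (nat_lit 396) (B (lo112_12_5 (nat_lit 523)) (M (nat_lit 397) (B (lo112_15_6 (nat_lit 365)) (M (nat_lit 427) (B (lo19_13_2 (nat_lit 425)) (lo110_13_2 (nat_lit 398)))))))) (B (K _ _ _ o1_s51496) (B (M (nat_lit 396) (B (M (nat_lit 397) (B (lo112_15_6 (nat_lit 365)) (M (nat_lit 427) (B (lo19_13_2 (nat_lit 425)) (lo110_13_2 (nat_lit 398)))))) (M (nat_lit 364) (B (M (nat_lit 363) (B (lo112_15_7 (nat_lit 395)) (lo112_14_7 (nat_lit 331)))) (M (nat_lit 493) (B (lo112_12_4 (nat_lit 525)) (lo112_11_4 (nat_lit 461)))))))) (M (nat_lit 461) (B (M (nat_lit 427) (B (lo19_13_0 (nat_lit 425)) (lo110_13_0 (nat_lit 462)))) (B (M (nat_lit 462) (B (lo110_13_0 (nat_lit 427)) (lo115_14_1 (nat_lit 463)))) (B (M (nat_lit 462) (B (lo115_14_1 (nat_lit 463)) (M (nat_lit 490) (B (lo19_15_2 (nat_lit 489)) (lo110_15_2 (nat_lit 493)))))) (M (nat_lit 427) (B (lo19_13_0 (nat_lit 425)) (M (nat_lit 397) (B (lo110_13_2 (nat_lit 398)) (lo113_11_5 (nat_lit 365)))))))))))))) (B (M (nat_lit 396) (B (M (nat_lit 460) (B (lo112_12_5 (nat_lit 523)) (M (nat_lit 397) (B (lo112_15_6 (nat_lit 365)) (M (nat_lit 427) (B (lo19_13_2 (nat_lit 425)) (lo110_13_2 (nat_lit 398)))))))) (B (M (nat_lit 460) (B (lo112_12_5 (nat_lit 523)) (M (nat_lit 364) (B (M (nat_lit 363) (B (lo112_15_7 (nat_lit 395)) (lo112_14_7 (nat_lit 331)))) (M (nat_lit 493) (B (lo112_12_4 (nat_lit 525)) (lo112_11_4 (nat_lit 461)))))))) (B (M (nat_lit 460) (B (M (nat_lit 397) (B (lo112_15_6 (nat_lit 365)) (M (nat_lit 427) (B (lo19_13_2 (nat_lit 425)) (lo110_13_2 (nat_lit 398)))))) (M (nat_lit 364) (B (M (nat_lit 363) (B (lo112_15_7 (nat_lit 395)) (lo112_14_7 (nat_lit 331)))) (M (nat_lit 493) (B (lo112_12_4 (nat_lit 525)) (lo112_11_4 (nat_lit 461)))))))) (M (nat_lit 461) (B (M (nat_lit 493) (B (lo113_16_7 (nat_lit 525)) (M (nat_lit 462) (B (lo110_15_2 (nat_lit 490)) (lo110_13_0 (nat_lit 427)))))) (B (M (nat_lit 493) (B (lo113_16_7 (nat_lit 525)) (M (nat_lit 364) (B (lo112_10_4 (nat_lit 332)) (lo113_15_7 (nat_lit 397)))))) (M (nat_lit 427) (B (lo110_13_0 (nat_lit 462)) (M (nat_lit 397) (B (lo19_13_2 (nat_lit 425)) (lo110_13_2 (nat_lit 398))))))))))))) (B (M (nat_lit 490) (B (M (nat_lit 460) (B (M (nat_lit 461) (B (lo19_15_2 (nat_lit 489)) (M (nat_lit 462) (B (lo110_15_2 (nat_lit 493)) (lo110_13_0 (nat_lit 427)))))) (B (M (nat_lit 458) (B (M (nat_lit 457) (B (lo113_15_3 (nat_lit 493)) (lo113_13_1 (nat_lit 427)))) (M (nat_lit 523) (B (lo110_12_4 (nat_lit 394)) (lo112_12_5 (nat_lit 396)))))) (B (M (nat_lit 461) (B (lo19_15_2 (nat_lit 489)) (M (nat_lit 462) (B (lo110_15_2 (nat_lit 493)) (lo115_14_1 (nat_lit 463)))))) (M (nat_lit 461) (B (lo19_15_2 (nat_lit 489)) (M (nat_lit 462) (B (lo110_13_0 (nat_lit 427)) (lo115_14_1 (nat_lit 463)))))))))) (B (K _ _ _ o1_s51541) (B (K _ _ _ o1_s51558) (B (K _ _ _ o1_s51572) (K _ _ _ o1_s51576)))))) (B (M (nat_lit 427) (B (M (nat_lit 397) (B (lo110_13_2 (nat_lit 398)) (M (nat_lit 425) (B (lo19_13_2 (nat_lit 396)) (M (nat_lit 461) (B (lo19_13_0 (nat_lit 460)) (lo110_13_0 (nat_lit 462)))))))) (B (M (nat_lit 397) (B (lo110_13_2 (nat_lit 398)) (M (nat_lit 461) (B (lo110_13_0 (nat_lit 462)) (M (nat_lit 396) (B (M (nat_lit 460) (B (lo112_12_5 (nat_lit 523)) (lo112_15_6 (nat_lit 365)))) (M (nat_lit 364) (B (lo112_10_4 (nat_lit 332)) (lo113_15_7 (nat_lit 493)))))))))) (B (M (nat_lit 397) (B (lo110_13_2 (nat_lit 398)) (M (nat_lit 425) (B (lo19_13_2 (nat_lit 396)) (M (nat_lit 393) (B (lo112_13_3 (nat_lit 392)) (lo113_13_3 (nat_lit 394)))))))) (B (M (nat_lit 397) (B (lo110_13_2 (nat_lit 398)) (M (nat_lit 461) (B (lo110_13_0 (nat_lit 462)) (M (nat_lit 460) (B (lo19_13_0 (nat_lit 425)) (lo113_11_5 (nat_lit 365)))))))) (M (nat_lit 461) (B (lo110_13_0 (nat_lit 462)) (M (nat_lit 425) (B (lo19_13_0 (nat_lit 460)) (M (nat_lit 393) (B (lo112_13_3 (nat_lit 392)) (lo113_13_3 (nat_lit 394))))))))))))) (B (M (nat_lit 427) (B (M (nat_lit 461) (B (lo110_13_0 (nat_lit 462)) (M (nat_lit 425) (B (lo19_13_0 (nat_lit 460)) (M (nat_lit 393) (B (lo112_13_3 (nat_lit 392)) (lo113_13_3 (nat_lit 394)))))))) (B (M (nat_lit 425) (B (M (nat_lit 457) (B (lo112_13_1 (nat_lit 456)) (lo113_13_1 (nat_lit 458)))) (M (nat_lit 461) (B (lo19_13_0 (nat_lit 460)) (lo110_13_0 (nat_lit 462)))))) (B (M (nat_lit 458) (B (lo113_13_1 (nat_lit 457)) (M (nat_lit 490) (B (M (nat_lit 522) (B (lo110_16_6 (nat_lit 395)) (M (nat_lit 521) (B (lo110_13_5 (nat_lit 553)) (lo113_15_1 (nat_lit 493)))))) (B (M (nat_lit 395) (B (lo110_16_6 (nat_lit 522)) (M (nat_lit 394) (B (lo113_13_3 (nat_lit 393)) (lo110_15_6 (nat_lit 363)))))) (M (nat_lit 489) (B (M (nat_lit 521) (B (lo112_15_1 (nat_lit 520)) (lo110_12_5 (nat_lit 394)))) (M (nat_lit 461) (B (lo19_15_2 (nat_lit 460)) (lo110_13_0 (nat_lit 462))))))))))) (M (nat_lit 397) (B (lo110_13_2 (nat_lit 398)) (M (nat_lit 425) (B (lo19_13_2 (nat_lit 396)) (M (nat_lit 393) (B (lo112_13_3 (nat_lit 392)) (lo113_13_3 (nat_lit 394)))))))))))) (B (M (nat_lit 460) (B (M (nat_lit 396) (B (lo112_12_5 (nat_lit 523)) (M (nat_lit 493) (B (lo112_12_4 (nat_lit 525)) (M (nat_lit 461) (B (lo112_11_4 (nat_lit 364)) (M (nat_lit 490) (B (lo19_15_2 (nat_lit 489)) (lo110_15_2 (nat_lit 462)))))))))) (B (K _ _ _ o1_s51496) (B (M (nat_lit 396) (B (M (nat_lit 493) (B (lo112_12_4 (nat_lit 525)) (M (nat_lit 461) (B (lo112_11_4 (nat_lit 364)) (M (nat_lit 490) (B (lo19_15_2 (nat_lit 489)) (lo110_15_2 (nat_lit 462)))))))) (B (M (nat_lit 364) (B (M (nat_lit 363) (B (lo112_15_7 (nat_lit 395)) (lo112_14_7 (nat_lit 331)))) (M (nat_lit 493) (B (lo112_12_4 (nat_lit 525)) (lo112_11_4 (nat_lit 461)))))) (M (nat_lit 397) (B (lo112_15_6 (nat_lit 365)) (M (nat_lit 395) (B (lo112_15_7 (nat_lit 363)) (M (nat_lit 394) (B (lo113_12_1 (nat_lit 425)) (lo19_12_0 (nat_lit 393))))))))))) (B (M (nat_lit 490) (B (M (nat_lit 461) (B (lo19_15_2 (nat_lit 489)) (M (nat_lit 462) (B (lo110_15_2 (nat_lit 493)) (lo115_14_1 (nat_lit 463)))))) (B (M (nat_lit 493) (B (M (nat_lit 461) (B (lo110_15_2 (nat_lit 462)) (M (nat_lit 525) (B (lo110_15_0 (nat_lit 526)) (lo113_17_7 (nat_lit 557)))))) (B (M (nat_lit 494) (B (M (nat_lit 522) (B (lo113_15_1 (nat_lit 521)) (lo114_15_1 (nat_lit 523)))) (M (nat_lit 462) (B (lo110_15_2 (nat_lit 461)) (lo111_15_2 (nat_lit 463)))))) (M (nat_lit 494) (B (M (nat_lit 522) (B (lo113_15_1 (nat_lit 521)) (lo114_15_1 (nat_lit 523)))) (M (nat_lit 526) (B (lo110_15_0 (nat_lit 525)) (lo111_15_0 (nat_lit 527))))))))) (B (M (nat_lit 489) (B (lo19_15_2 (nat_lit 461)) (M (nat_lit 488) (B (M (nat_lit 520) (B (lo111_15_1 (nat_lit 519)) (lo112_15_1 (nat_lit 521)))) (M (nat_lit 456) (B (lo111_15_3 (nat_lit 455)) (lo112_15_3 (nat_lit 457)))))))) (M (nat_lit 458) (B (M (nat_lit 523) (B (lo110_12_4 (nat_lit 394)) (M (nat_lit 555) (B (lo110_13_4 (nat_lit 522)) (lo111_18_7 (nat_lit 587)))))) (M (nat_lit 457) (B (lo113_15_3 (nat_lit 493)) (M (nat_lit 456) (B (lo17_14_0 (nat_lit 455)) (lo112_15_3 (nat_lit 489)))))))))))) (B (M (nat_lit 396) (B (lo112_12_5 (nat_lit 523)) (M (nat_lit 364) (B (M (nat_lit 363) (B (lo112_15_7 (nat_lit 395)) (lo112_14_7 (nat_lit 331)))) (M (nat_lit 461) (B (lo112_11_4 (nat_lit 493)) (lo112_10_4 (nat_lit 332)))))))) (M (nat_lit 396) (B (lo112_12_5 (nat_lit 523)) (M (nat_lit 397) (B (lo112_15_6 (nat_lit 365)) (M (nat_lit 395) (B (lo112_15_7 (nat_lit 363)) (M (nat_lit 394) (B (lo113_12_1 (nat_lit 425)) (lo19_12_0 (nat_lit 393)))))))))))))))) (B (M (nat_lit 490) (B (K _ _ _ o1_s51541) (B (K _ _ _ o1_s51558) (B (M (nat_lit 427) (B (M (nat_lit 394) (B (lo113_13_3 (nat_lit 393)) (M (nat_lit 458) (B (lo113_13_1 (nat_lit 457)) (lo110_12_4 (nat_lit 523)))))) (B (M (nat_lit 425) (B (M (nat_lit 393) (B (lo112_13_3 (nat_lit 392)) (lo113_13_3 (nat_lit 394)))) (M (nat_lit 397) (B (lo19_13_2 (nat_lit 396)) (lo110_13_2 (nat_lit 398)))))) (M (nat_lit 457) (B (lo113_13_1 (nat_lit 458)) (M (nat_lit 456) (B (lo112_15_3 (nat_lit 489)) (lo112_13_1 (nat_lit 425))))))))) (M (nat_lit 458) (B (M (nat_lit 457) (B (lo113_15_3 (nat_lit 493)) (lo113_13_1 (nat_lit 427)))) (B (M (nat_lit 521) (B (M (nat_lit 489) (B (lo112_15_1 (nat_lit 520)) (lo110_12_5 (nat_lit 394)))) (M (nat_lit 522) (B (lo110_13_5 (nat_lit 553)) (lo113_15_1 (nat_lit 493)))))) (M (nat_lit 457) (B (lo113_13_1 (nat_lit 427)) (M (nat_lit 456) (B (lo17_14_0 (nat_lit 455)) (lo112_15_3 (nat_lit 489))))))))))))) (B (M (nat_lit 490) (B (K _ _ _ o1_s51572) (B (K _ _ _ o1_s51541) (B (M (nat_lit 493) (B (M (nat_lit 494) (B (M (nat_lit 522) (B (lo113_15_1 (nat_lit 521)) (lo114_15_1 (nat_lit 523)))) (M (nat_lit 526) (B (lo110_15_0 (nat_lit 525)) (lo111_15_0 (nat_lit 527)))))) (B (M (nat_lit 494) (B (M (nat_lit 526) (B (lo110_15_0 (nat_lit 525)) (lo111_15_0 (nat_lit 527)))) (M (nat_lit 462) (B (lo110_15_2 (nat_lit 461)) (lo111_15_2 (nat_lit 463)))))) (B (M (nat_lit 494) (B (M (nat_lit 522) (B (lo113_15_1 (nat_lit 521)) (lo114_15_1 (nat_lit 523)))) (M (nat_lit 462) (B (lo110_15_2 (nat_lit 461)) (lo111_15_2 (nat_lit 463)))))) (M (nat_lit 489) (B (M (nat_lit 521) (B (lo112_15_1 (nat_lit 520)) (lo113_15_1 (nat_lit 522)))) (M (nat_lit 461) (B (lo19_15_2 (nat_lit 460)) (lo110_15_2 (nat_lit 462)))))))))) (K _ _ _ o1_s51576))))) (B (M (nat_lit 427) (B (M (nat_lit 397) (B (lo110_13_2 (nat_lit 398)) (M (nat_lit 461) (B (lo110_13_0 (nat_lit 462)) (M (nat_lit 460) (B (lo19_13_0 (nat_lit 425)) (lo113_11_5 (nat_lit 365)))))))) (B (M (nat_lit 460) (B (M (nat_lit 397) (B (lo110_13_2 (nat_lit 398)) (M (nat_lit 396) (B (lo112_12_5 (nat_lit 523)) (lo112_15_6 (nat_lit 365)))))) (B (M (nat_lit 397) (B (lo110_13_2 (nat_lit 398)) (M (nat_lit 461) (B (lo110_13_0 (nat_lit 462)) (lo113_11_5 (nat_lit 365)))))) (M (nat_lit 396) (B (lo112_12_5 (nat_lit 523)) (M (nat_lit 364) (B (M (nat_lit 363) (B (lo112_15_7 (nat_lit 395)) (lo112_14_7 (nat_lit 331)))) (M (nat_lit 461) (B (lo110_13_0 (nat_lit 462)) (lo112_10_4 (nat_lit 332))))))))))) (M (nat_lit 425) (B (M (nat_lit 457) (B (lo112_13_1 (nat_lit 456)) (lo113_13_1 (nat_lit 458)))) (M (nat_lit 393) (B (lo112_13_3 (nat_lit 392)) (lo113_13_3 (nat_lit 394))))))))) (M (nat_lit 427) (B (M (nat_lit 397) (B (lo110_13_2 (nat_lit 398)) (M (nat_lit 396) (B (lo19_13_2 (nat_lit 425)) (M (nat_lit 460) (B (lo112_12_5 (nat_lit 523)) (lo112_15_6 (nat_lit 365)))))))) (B (K _ _ _ o1_s51726) (M (nat_lit 425) (B (M (nat_lit 457) (B (lo112_13_1 (nat_lit 456)) (lo113_13_1 (nat_lit 458)))) (M (nat_lit 393) (B (lo112_13_3 (nat_lit 392)) (lo113_13_3 (nat_lit 394))))))))))))))))))) (B (K _ _ _ o1_s26950) (B (M (nat_lit 427) (B (K _ _ _ o1_s51731) (B (M (nat_lit 461) (B (M (nat_lit 462) (B (lo110_13_0 (nat_lit 426)) (M (nat_lit 463) (B (lo115_14_1 (nat_lit 460)) (lo116_14_3 (nat_lit 464)))))) (B (M (nat_lit 462) (B (M (nat_lit 463) (B (lo115_14_1 (nat_lit 460)) (lo116_14_3 (nat_lit 464)))) (B (M (nat_lit 463) (B (lo116_14_3 (nat_lit 464)) (M (nat_lit 493) (B (lo110_15_2 (nat_lit 490)) (lo111_15_2 (nat_lit 494)))))) (M (nat_lit 490) (B (lo110_15_2 (nat_lit 493)) (M (nat_lit 460) (B (lo19_15_2 (nat_lit 489)) (lo114_14_1 (nat_lit 459))))))))) (B (M (nat_lit 462) (B (lo110_13_0 (nat_lit 426)) (M (nat_lit 463) (B (lo116_14_3 (nat_lit 464)) (M (nat_lit 493) (B (lo110_15_2 (nat_lit 490)) (lo111_15_2 (nat_lit 494)))))))) (M (nat_lit 426) (B (M (nat_lit 460) (B (lo19_13_0 (nat_lit 425)) (M (nat_lit 397) (B (lo110_13_2 (nat_lit 398)) (lo113_11_5 (nat_lit 365)))))) (M (nat_lit 394) (B (lo113_13_3 (nat_lit 393)) (M (nat_lit 459) (B (lo111_16_7 (nat_lit 523)) (M (nat_lit 362) (B (lo110_11_4 (nat_lit 458)) (lo110_10_4 (nat_lit 330)))))))))))))) (B (M (nat_lit 490) (B (M (nat_lit 522) (B (M (nat_lit 521) (B (lo113_15_1 (nat_lit 493)) (M (nat_lit 520) (B (lo17_16_2 (nat_lit 519)) (lo18_16_2 (nat_lit 523)))))) (B (M (nat_lit 521) (B (lo113_15_1 (nat_lit 493)) (M (nat_lit 520) (B (lo112_15_1 (nat_lit 489)) (lo18_16_2 (nat_lit 523)))))) (B (M (nat_lit 459) (B (lo111_12_5 (nat_lit 395)) (M (nat_lit 554) (B (lo110_18_6 (nat_lit 586)) (lo111_13_5 (nat_lit 523)))))) (M (nat_lit 521) (B (lo113_15_1 (nat_lit 493)) (M (nat_lit 520) (B (lo17_16_2 (nat_lit 519)) (lo112_15_1 (nat_lit 489)))))))))) (B (M (nat_lit 522) (B (M (nat_lit 459) (B (lo111_12_5 (nat_lit 395)) (M (nat_lit 554) (B (lo110_18_6 (nat_lit 586)) (lo111_13_5 (nat_lit 523)))))) (B (M (nat_lit 459) (B (lo111_12_5 (nat_lit 395)) (M (nat_lit 554) (B (lo110_17_6 (nat_lit 458)) (lo111_13_5 (nat_lit 523)))))) (B (M (nat_lit 521) (B (lo113_15_1 (nat_lit 493)) (M (nat_lit 520) (B (lo112_15_1 (nat_lit 489)) (lo18_16_2 (nat_lit 523)))))) (M (nat_lit 459) (B (lo111_12_5 (nat_lit 395)) (M (nat_lit 554) (B (lo110_18_6 (nat_lit 586)) (lo110_17_6 (nat_lit 458)))))))))) (B (M (nat_lit 461) (B (M (nat_lit 462) (B (lo110_15_2 (nat_lit 493)) (lo110_13_0 (nat_lit 426)))) (B (M (nat_lit 462) (B (lo110_15_2 (nat_lit 493)) (M (nat_lit 460) (B (lo19_15_2 (nat_lit 489)) (lo114_14_1 (nat_lit 459)))))) (B (M (nat_lit 462) (B (lo110_13_0 (nat_lit 426)) (M (nat_lit 460) (B (lo19_15_2 (nat_lit 489)) (lo114_14_1 (nat_lit 459)))))) (M (nat_lit 457) (B (M (nat_lit 489) (B (lo112_15_3 (nat_lit 456)) (lo19_15_2 (nat_lit 460)))) (M (nat_lit 458) (B (lo113_15_3 (nat_lit 493)) (lo113_13_1 (nat_lit 426)))))))))) (B (M (nat_lit 522) (B (M (nat_lit 521) (B (lo113_15_1 (nat_lit 493)) (M (nat_lit 520) (B (lo17_16_2 (nat_lit 519)) (lo18_16_2 (nat_lit 523)))))) (B (M (nat_lit 459) (B (lo111_12_5 (nat_lit 395)) (M (nat_lit 554) (B (lo110_18_6 (nat_lit 586)) (lo111_13_5 (nat_lit 523)))))) (M (nat_lit 459) (B (lo111_12_5 (nat_lit 395)) (M (nat_lit 554) (B (lo110_18_6 (nat_lit 586)) (lo110_17_6 (nat_lit 458))))))))) (B (M (nat_lit 461) (B (M (nat_lit 462) (B (lo110_15_2 (nat_lit 493)) (lo110_13_0 (nat_lit 426)))) (B (M (nat_lit 462) (B (lo110_15_2 (nat_lit 493)) (M (nat_lit 460) (B (lo19_15_2 (nat_lit 489)) (lo115_14_1 (nat_lit 463)))))) (B (M (nat_lit 462) (B (lo110_13_0 (nat_lit 426)) (M (nat_lit 460) (B (lo19_15_2 (nat_lit 489)) (lo115_14_1 (nat_lit 463)))))) (M (nat_lit 457) (B (M (nat_lit 489) (B (lo112_15_3 (nat_lit 456)) (lo19_15_2 (nat_lit 460)))) (M (nat_lit 458) (B (lo113_15_3 (nat_lit 493)) (lo113_13_1 (nat_lit 426)))))))))) (M (nat_lit 489) (B (M (nat_lit 488) (B (M (nat_lit 520) (B (lo111_15_1 (nat_lit 519)) (lo112_15_1 (nat_lit 521)))) (M (nat_lit 456) (B (lo111_15_3 (nat_lit 455)) (lo112_15_3 (nat_lit 457)))))) (B (M (nat_lit 426) (B (M (nat_lit 457) (B (lo112_15_3 (nat_lit 456)) (lo113_13_1 (nat_lit 458)))) (M (nat_lit 461) (B (lo19_15_2 (nat_lit 460)) (lo110_13_0 (nat_lit 462)))))) (M (nat_lit 488) (B (M (nat_lit 520) (B (lo111_15_1 (nat_lit 519)) (lo112_15_1 (nat_lit 521)))) (M (nat_lit 460) (B (lo18_15_2 (nat_lit 459)) (lo19_15_2 (nat_lit 461))))))))))))))) (B (M (nat_lit 426) (B (M (nat_lit 394) (B (lo113_13_3 (nat_lit 393)) (M (nat_lit 459) (B (lo111_16_7 (nat_lit 523)) (M (nat_lit 362) (B (lo110_10_4 (nat_lit 330)) (lo111_15_7 (nat_lit 395)))))))) (M (nat_lit 397) (B (lo110_13_2 (nat_lit 398)) (M (nat_lit 461) (B (lo110_13_0 (nat_lit 462)) (M (nat_lit 460) (B (lo19_13_0 (nat_lit 425)) (lo113_11_5 (nat_lit 365)))))))))) (B (M (nat_lit 493) (B (M (nat_lit 461) (B (M (nat_lit 462) (B (lo110_15_2 (nat_lit 490)) (M (nat_lit 463) (B (lo115_14_1 (nat_lit 460)) (lo111_15_2 (nat_lit 494)))))) (B (M (nat_lit 494) (B (M (nat_lit 526) (B (lo111_15_0 (nat_lit 527)) (lo113_12_4 (nat_lit 397)))) (B (M (nat_lit 462) (B (lo111_15_2 (nat_lit 463)) (M (nat_lit 526) (B (lo111_15_0 (nat_lit 527)) (lo114_17_7 (nat_lit 558)))))) (M (nat_lit 495) (B (M (nat_lit 459) (B (lo114_15_3 (nat_lit 458)) (lo115_15_3 (nat_lit 460)))) (M (nat_lit 463) (B (lo111_15_2 (nat_lit 462)) (lo112_15_2 (nat_lit 464))))))))) (B (M (nat_lit 462) (B (lo110_15_2 (nat_lit 490)) (M (nat_lit 463) (B (lo111_15_2 (nat_lit 494)) (lo116_14_1 (nat_lit 464)))))) (B (M (nat_lit 462) (B (lo110_15_2 (nat_lit 490)) (M (nat_lit 463) (B (lo115_14_1 (nat_lit 460)) (lo116_14_1 (nat_lit 464)))))) (M (nat_lit 526) (B (M (nat_lit 525) (B (lo110_15_0 (nat_lit 490)) (lo113_13_4 (nat_lit 558)))) (M (nat_lit 494) (B (lo111_15_0 (nat_lit 527)) (lo113_12_4 (nat_lit 397))))))))))) (B (M (nat_lit 494) (B (M (nat_lit 463) (B (lo111_15_2 (nat_lit 462)) (M (nat_lit 495) (B (lo112_15_2 (nat_lit 464)) (M (nat_lit 527) (B (lo111_15_0 (nat_lit 526)) (lo112_15_0 (nat_lit 528)))))))) (B (M (nat_lit 459) (B (lo114_15_3 (nat_lit 458)) (M (nat_lit 523) (B (lo114_15_1 (nat_lit 522)) (M (nat_lit 460) (B (lo111_17_6 (nat_lit 555)) (lo115_15_3 (nat_lit 495)))))))) (M (nat_lit 462) (B (lo111_15_2 (nat_lit 463)) (M (nat_lit 526) (B (lo111_15_0 (nat_lit 527)) (M (nat_lit 461) (B (lo113_12_4 (nat_lit 397)) (lo114_17_7 (nat_lit 558))))))))))) (B (M (nat_lit 494) (B (M (nat_lit 490) (B (M (nat_lit 522) (B (lo113_15_1 (nat_lit 521)) (lo114_15_1 (nat_lit 523)))) (M (nat_lit 462) (B (lo110_15_2 (nat_lit 461)) (lo111_15_2 (nat_lit 463)))))) (B (M (nat_lit 490) (B (M (nat_lit 526) (B (lo110_15_0 (nat_lit 525)) (lo111_15_0 (nat_lit 527)))) (M (nat_lit 462) (B (lo110_15_2 (nat_lit 461)) (lo111_15_2 (nat_lit 463)))))) (B (M (nat_lit 495) (B (M (nat_lit 527) (B (lo111_15_0 (nat_lit 526)) (lo112_15_0 (nat_lit 528)))) (M (nat_lit 463) (B (lo111_15_2 (nat_lit 462)) (lo112_15_2 (nat_lit 464)))))) (M (nat_lit 490) (B (M (nat_lit 522) (B (lo113_15_1 (nat_lit 521)) (lo114_15_1 (nat_lit 523)))) (M (nat_lit 526) (B (lo110_15_0 (nat_lit 525)) (lo111_15_0 (nat_lit 527)))))))))) (B (M (nat_lit 458) (B (M (nat_lit 457) (B (lo113_15_3 (nat_lit 490)) (M (nat_lit 459) (B (lo18_14_0 (nat_lit 456)) (lo114_15_3 (nat_lit 494)))))) (B (M (nat_lit 457) (B (lo113_15_3 (nat_lit 490)) (M (nat_lit 459) (B (lo19_14_0 (nat_lit 460)) (lo114_15_3 (nat_lit 494)))))) (B (M (nat_lit 494) (B (lo114_15_3 (nat_lit 459)) (M (nat_lit 490) (B (M (nat_lit 522) (B (lo113_15_1 (nat_lit 521)) (lo114_15_1 (nat_lit 523)))) (M (nat_lit 526) (B (lo110_15_0 (nat_lit 525)) (lo111_15_0 (nat_lit 527)))))))) (B (M (nat_lit 459) (B (lo114_15_3 (nat_lit 494)) (M (nat_lit 457) (B (lo18_14_0 (nat_lit 456)) (lo19_14_0 (nat_lit 460)))))) (B (M (nat_lit 490) (B (lo113_15_3 (nat_lit 457)) (M (nat_lit 494) (B (M (nat_lit 522) (B (lo113_15_1 (nat_lit 521)) (lo114_15_1 (nat_lit 523)))) (M (nat_lit 526) (B (lo110_15_0 (nat_lit 525)) (lo111_15_0 (nat_lit 527)))))))) (M (nat_lit 457) (B (lo113_15_3 (nat_lit 490)) (M (nat_lit 459) (B (lo18_14_0 (nat_lit 456)) (lo19_14_0 (nat_lit 460)))))))))))) (B (M (nat_lit 494) (B (M (nat_lit 490) (B (M (nat_lit 522) (B (lo113_15_1 (nat_lit 521)) (lo114_15_1 (nat_lit 523)))) (M (nat_lit 462) (B (lo110_15_2 (nat_lit 461)) (lo111_15_2 (nat_lit 463)))))) (B (M (nat_lit 490) (B (M (nat_lit 458) (B (lo113_15_3 (nat_lit 457)) (lo114_15_3 (nat_lit 459)))) (M (nat_lit 462) (B (lo110_15_2 (nat_lit 461)) (lo111_15_2 (nat_lit 463)))))) (B (M (nat_lit 495) (B (M (nat_lit 459) (B (lo114_15_3 (nat_lit 458)) (lo115_15_3 (nat_lit 460)))) (M (nat_lit 463) (B (lo111_15_2 (nat_lit 462)) (lo112_15_2 (nat_lit 464)))))) (M (nat_lit 490) (B (M (nat_lit 522) (B (lo113_15_1 (nat_lit 521)) (lo114_15_1 (nat_lit 523)))) (M (nat_lit 458) (B (lo113_15_3 (nat_lit 457)) (lo114_15_3 (nat_lit 459)))))))))) (M (nat_lit 490) (B (M (nat_lit 458) (B (lo113_15_3 (nat_lit 457)) (M (nat_lit 522) (B (lo113_15_1 (nat_lit 521)) (M (nat_lit 459) (B (lo110_17_6 (nat_lit 554)) (lo111_12_5 (nat_lit 395)))))))) (M (nat_lit 461) (B (lo110_15_2 (nat_lit 462)) (M (nat_lit 525) (B (lo110_15_0 (nat_lit 526)) (M (nat_lit 460) (B (lo19_15_2 (nat_lit 489)) (lo113_17_7 (nat_lit 557)))))))))))))))) (B (M (nat_lit 426) (B (M (nat_lit 397) (B (lo110_13_2 (nat_lit 398)) (M (nat_lit 461) (B (lo110_13_0 (nat_lit 462)) (M (nat_lit 460) (B (lo19_13_0 (nat_lit 425)) (lo113_11_5 (nat_lit 365)))))))) (B (K _ _ _ o1_s27308) (M (nat_lit 425) (B (M (nat_lit 457) (B (lo112_13_1 (nat_lit 456)) (lo113_13_1 (nat_lit 458)))) (M (nat_lit 393) (B (lo112_13_3 (nat_lit 392)) (lo113_13_3 (nat_lit 394))))))))) (B (M (nat_lit 461) (B (M (nat_lit 462) (B (lo110_13_0 (nat_lit 426)) (M (nat_lit 463) (B (lo115_14_1 (nat_lit 460)) (lo116_14_3 (nat_lit 464)))))) (B (M (nat_lit 490) (B (M (nat_lit 462) (B (lo110_15_2 (nat_lit 493)) (M (nat_lit 460) (B (lo19_15_2 (nat_lit 489)) (lo115_14_1 (nat_lit 463)))))) (B (M (nat_lit 493) (B (lo110_15_2 (nat_lit 462)) (M (nat_lit 526) (B (lo110_15_0 (nat_lit 525)) (M (nat_lit 494) (B (lo111_15_0 (nat_lit 527)) (lo113_12_4 (nat_lit 397)))))))) (M (nat_lit 489) (B (lo19_15_2 (nat_lit 460)) (M (nat_lit 488) (B (M (nat_lit 520) (B (lo111_15_1 (nat_lit 519)) (lo112_15_1 (nat_lit 521)))) (M (nat_lit 456) (B (lo111_15_3 (nat_lit 455)) (lo112_15_3 (nat_lit 457))))))))))) (B (M (nat_lit 462) (B (lo110_13_0 (nat_lit 426)) (M (nat_lit 463) (B (lo116_14_3 (nat_lit 464)) (M (nat_lit 493) (B (lo110_15_2 (nat_lit 490)) (lo111_15_2 (nat_lit 494)))))))) (M (nat_lit 426) (B (M (nat_lit 460) (B (lo19_13_0 (nat_lit 425)) (M (nat_lit 397) (B (lo110_13_2 (nat_lit 398)) (lo113_11_5 (nat_lit 365)))))) (B (M (nat_lit 490) (B (M (nat_lit 457) (B (lo113_13_1 (nat_lit 458)) (M (nat_lit 489) (B (lo112_15_3 (nat_lit 456)) (lo19_15_2 (nat_lit 460)))))) (B (M (nat_lit 460) (B (lo19_15_2 (nat_lit 489)) (M (nat_lit 397) (B (lo110_13_2 (nat_lit 398)) (lo113_11_5 (nat_lit 365)))))) (M (nat_lit 394) (B (lo113_13_3 (nat_lit 393)) (M (nat_lit 458) (B (lo113_13_1 (nat_lit 457)) (lo110_12_4 (nat_lit 523))))))))) (M (nat_lit 393) (B (lo113_13_3 (nat_lit 394)) (M (nat_lit 425) (B (lo112_13_3 (nat_lit 392)) (M (nat_lit 457) (B (lo112_13_1 (nat_lit 456)) (lo113_13_1 (nat_lit 458))))))))))))))) (B (M (nat_lit 426) (B (M (nat_lit 394) (B (lo113_13_3 (nat_lit 393)) (M (nat_lit 459) (B (lo111_16_7 (nat_lit 523)) (M (nat_lit 458) (B (lo113_13_1 (nat_lit 457)) (lo110_11_4 (nat_lit 362)))))))) (B (M (nat_lit 394) (B (lo113_13_3 (nat_lit 393)) (M (nat_lit 459) (B (lo111_16_7 (nat_lit 523)) (M (nat_lit 362) (B (lo110_11_4 (nat_lit 458)) (lo110_10_4 (nat_lit 330)))))))) (B (M (nat_lit 490) (B (M (nat_lit 457) (B (lo113_13_1 (nat_lit 458)) (M (nat_lit 456) (B (lo112_15_3 (nat_lit 489)) (lo112_13_1 (nat_lit 425)))))) (B (M (nat_lit 459) (B (M (nat_lit 458) (B (lo113_13_1 (nat_lit 457)) (M (nat_lit 522) (B (lo110_17_6 (nat_lit 554)) (lo110_16_6 (nat_lit 395)))))) (B (M (nat_lit 395) (B (lo111_12_5 (nat_lit 522)) (M (nat_lit 394) (B (lo111_16_7 (nat_lit 523)) (lo111_15_7 (nat_lit 362)))))) (B (M (nat_lit 394) (B (lo111_16_7 (nat_lit 523)) (M (nat_lit 362) (B (lo110_10_4 (nat_lit 330)) (lo111_15_7 (nat_lit 395)))))) (M (nat_lit 394) (B (lo111_16_7 (nat_lit 523)) (M (nat_lit 458) (B (lo113_13_1 (nat_lit 457)) (lo110_11_4 (nat_lit 362)))))))))) (B (M (nat_lit 459) (B (M (nat_lit 394) (B (lo111_16_7 (nat_lit 523)) (M (nat_lit 362) (B (lo110_10_4 (nat_lit 330)) (lo111_15_7 (nat_lit 395)))))) (B (M (nat_lit 522) (B (lo111_12_5 (nat_lit 395)) (M (nat_lit 554) (B (lo110_18_6 (nat_lit 586)) (lo111_13_5 (nat_lit 523)))))) (B (M (nat_lit 522) (B (lo111_12_5 (nat_lit 395)) (M (nat_lit 554) (B (lo110_18_6 (nat_lit 586)) (lo110_17_6 (nat_lit 458)))))) (M (nat_lit 394) (B (lo111_16_7 (nat_lit 523)) (M (nat_lit 362) (B (lo110_11_4 (nat_lit 458)) (lo110_10_4 (nat_lit 330)))))))))) (K _ _ _ o1_s51942))))) (B (M (nat_lit 394) (B (lo113_13_3 (nat_lit 393)) (M (nat_lit 459) (B (lo111_16_7 (nat_lit 523)) (M (nat_lit 362) (B (lo110_10_4 (nat_lit 330)) (lo111_15_7 (nat_lit 395)))))))) (B (M (nat_lit 490) (B (M (nat_lit 461) (B (lo110_13_0 (nat_lit 462)) (M (nat_lit 457) (B (lo113_13_1 (nat_lit 458)) (M (nat_lit 456) (B (lo112_15_3 (nat_lit 489)) (lo112_13_1 (nat_lit 425)))))))) (B (M (nat_lit 493) (B (M (nat_lit 458) (B (lo113_15_3 (nat_lit 457)) (M (nat_lit 522) (B (lo113_15_1 (nat_lit 521)) (lo110_16_6 (nat_lit 395)))))) (B (M (nat_lit 494) (B (M (nat_lit 458) (B (lo113_15_3 (nat_lit 457)) (lo114_15_3 (nat_lit 459)))) (M (nat_lit 462) (B (lo110_15_2 (nat_lit 461)) (lo111_15_2 (nat_lit 463)))))) (M (nat_lit 494) (B (M (nat_lit 522) (B (lo113_15_1 (nat_lit 521)) (lo114_15_1 (nat_lit 523)))) (M (nat_lit 462) (B (lo110_15_2 (nat_lit 461)) (lo111_15_2 (nat_lit 463))))))))) (B (M (nat_lit 493) (B (M (nat_lit 522) (B (lo113_15_1 (nat_lit 521)) (M (nat_lit 395) (B (lo110_16_6 (nat_lit 458)) (lo111_12_5 (nat_lit 459)))))) (M (nat_lit 494) (B (M (nat_lit 526) (B (lo110_15_0 (nat_lit 525)) (lo111_15_0 (nat_lit 527)))) (M (nat_lit 462) (B (lo110_15_2 (nat_lit 461)) (lo111_15_2 (nat_lit 463)))))))) (K _ _ _ o1_s51942))))) (M (nat_lit 425) (B (M (nat_lit 457) (B (lo112_13_1 (nat_lit 456)) (lo113_13_1 (nat_lit 458)))) (M (nat_lit 393) (B (lo112_13_3 (nat_lit 392)) (lo113_13_3 (nat_lit 394)))))))))))) (M (nat_lit 426) (B (M (nat_lit 394) (B (lo113_13_3 (nat_lit 393)) (M (nat_lit 459) (B (lo111_16_7 (nat_lit 523)) (M (nat_lit 362) (B (lo110_10_4 (nat_lit 330)) (lo111_15_7 (nat_lit 395)))))))) (B (M (nat_lit 394) (B (M (nat_lit 459) (B (lo111_16_7 (nat_lit 523)) (M (nat_lit 458) (B (lo113_13_1 (nat_lit 457)) (lo110_11_4 (nat_lit 362)))))) (B (M (nat_lit 459) (B (lo111_16_7 (nat_lit 523)) (M (nat_lit 362) (B (lo110_11_4 (nat_lit 458)) (lo110_10_4 (nat_lit 330)))))) (B (M (nat_lit 459) (B (lo111_16_7 (nat_lit 523)) (M (nat_lit 362) (B (lo110_10_4 (nat_lit 330)) (lo111_15_7 (nat_lit 395)))))) (B (M (nat_lit 458) (B (lo113_13_1 (nat_lit 457)) (M (nat_lit 523) (B (lo110_12_4 (nat_lit 490)) (lo111_16_7 (nat_lit 459)))))) (B (M (nat_lit 362) (B (M (nat_lit 458) (B (lo113_13_1 (nat_lit 457)) (lo110_11_4 (nat_lit 459)))) (B (M (nat_lit 459) (B (lo110_11_4 (nat_lit 458)) (lo110_10_4 (nat_lit 330)))) (B (M (nat_lit 459) (B (lo110_10_4 (nat_lit 330)) (lo111_15_7 (nat_lit 395)))) (M (nat_lit 457) (B (lo113_13_1 (nat_lit 458)) (M (nat_lit 425) (B (lo112_13_1 (nat_lit 456)) (lo110_10_5 (nat_lit 330)))))))))) (M (nat_lit 458) (B (lo113_13_1 (nat_lit 457)) (M (nat_lit 490) (B (lo110_12_4 (nat_lit 523)) (M (nat_lit 395) (B (lo110_16_6 (nat_lit 522)) (lo110_15_6 (nat_lit 363)))))))))))))) (B (K _ _ _ o1_s52020) (M (nat_lit 425) (B (M (nat_lit 457) (B (lo112_13_1 (nat_lit 456)) (lo113_13_1 (nat_lit 458)))) (M (nat_lit 393) (B (lo112_13_3 (nat_lit 392)) (lo113_13_3 (nat_lit 394))))))))))))))))))) (B (M (nat_lit 396) (B (M (nat_lit 460) (B (lo112_12_5 (nat_lit 523)) (M (nat_lit 364) (B (lo112_11_5 (nat_lit 459)) (M (nat_lit 363) (B (lo112_15_7 (nat_lit 395)) (lo112_14_7 (nat_lit 331)))))))) (B (M (nat_lit 397) (B (M (nat_lit 460) (B (lo112_15_6 (nat_lit 365)) (M (nat_lit 364) (B (lo112_11_5 (nat_lit 459)) (M (nat_lit 363) (B (lo112_15_7 (nat_lit 395)) (lo112_14_7 (nat_lit 331)))))))) (B (M (nat_lit 460) (B (lo112_15_6 (nat_lit 365)) (M (nat_lit 364) (B (M (nat_lit 363) (B (lo112_15_7 (nat_lit 395)) (lo112_14_7 (nat_lit 331)))) (M (nat_lit 332) (B (lo112_10_4 (nat_lit 461)) (lo112_9_4 (nat_lit 300)))))))) (B (M (nat_lit 364) (B (M (nat_lit 460) (B (lo112_11_5 (nat_lit 459)) (lo112_15_6 (nat_lit 365)))) (M (nat_lit 332) (B (lo112_10_4 (nat_lit 461)) (lo112_9_4 (nat_lit 300)))))) (B (M (nat_lit 427) (B (M (nat_lit 426) (B (lo19_13_2 (nat_lit 425)) (lo110_13_2 (nat_lit 398)))) (B (M (nat_lit 398) (B (lo110_13_2 (nat_lit 426)) (lo115_12_1 (nat_lit 399)))) (B (K _ _ _ o1_s52049) (M (nat_lit 461) (B (M (nat_lit 426) (B (lo19_13_2 (nat_lit 425)) (lo110_13_0 (nat_lit 462)))) (M (nat_lit 364) (B (lo112_10_4 (nat_lit 332)) (lo113_15_7 (nat_lit 493)))))))))) (M (nat_lit 427) (B (M (nat_lit 426) (B (lo19_13_2 (nat_lit 425)) (lo110_13_2 (nat_lit 398)))) (K _ _ _ o1_s52064)))))))) (B (M (nat_lit 460) (B (lo112_12_5 (nat_lit 523)) (M (nat_lit 364) (B (M (nat_lit 363) (B (lo112_15_7 (nat_lit 395)) (lo112_14_7 (nat_lit 331)))) (M (nat_lit 461) (B (lo112_11_4 (nat_lit 493)) (lo112_10_4 (nat_lit 332)))))))) (B (M (nat_lit 460) (B (lo112_12_5 (nat_lit 523)) (M (nat_lit 364) (B (lo112_11_5 (nat_lit 459)) (M (nat_lit 461) (B (lo112_11_4 (nat_lit 493)) (lo112_10_4 (nat_lit 332)))))))) (B (M (nat_lit 427) (B (M (nat_lit 459) (B (lo111_16_6 (nat_lit 523)) (M (nat_lit 364) (B (lo111_15_6 (nat_lit 395)) (lo112_10_5 (nat_lit 332)))))) (B (M (nat_lit 461) (B (M (nat_lit 426) (B (lo110_13_0 (nat_lit 462)) (M (nat_lit 397) (B (lo19_13_2 (nat_lit 425)) (lo110_13_2 (nat_lit 398)))))) (B (M (nat_lit 397) (B (M (nat_lit 426) (B (lo110_13_0 (nat_lit 462)) (lo110_13_2 (nat_lit 398)))) (M (nat_lit 364) (B (lo112_10_4 (nat_lit 332)) (lo113_15_7 (nat_lit 493)))))) (B (M (nat_lit 493) (B (M (nat_lit 397) (B (lo113_15_7 (nat_lit 364)) (M (nat_lit 398) (B (lo115_12_1 (nat_lit 399)) (lo113_15_6 (nat_lit 366)))))) (M (nat_lit 462) (B (lo110_15_2 (nat_lit 490)) (M (nat_lit 463) (B (lo111_15_2 (nat_lit 494)) (lo116_14_1 (nat_lit 464)))))))) (B (M (nat_lit 462) (B (lo110_13_0 (nat_lit 426)) (M (nat_lit 463) (B (lo116_14_3 (nat_lit 464)) (M (nat_lit 493) (B (lo110_15_2 (nat_lit 490)) (lo111_15_2 (nat_lit 494)))))))) (M (nat_lit 397) (B (M (nat_lit 426) (B (lo19_13_2 (nat_lit 425)) (lo110_13_2 (nat_lit 398)))) (M (nat_lit 364) (B (lo112_10_4 (nat_lit 332)) (lo113_15_7 (nat_lit 493))))))))))) (K _ _ _ o1_s52097)))) (M (nat_lit 427) (B (M (nat_lit 523) (B (lo111_16_6 (nat_lit 459)) (lo112_12_5 (nat_lit 460)))) (B (M (nat_lit 397) (B (M (nat_lit 426) (B (lo19_13_2 (nat_lit 425)) (lo110_13_2 (nat_lit 398)))) (K _ _ _ o1_s52064))) (B (M (nat_lit 397) (B (M (nat_lit 426) (B (lo19_13_2 (nat_lit 425)) (lo110_13_2 (nat_lit 398)))) (M (nat_lit 460) (B (lo112_12_5 (nat_lit 523)) (lo112_15_6 (nat_lit 365)))))) (K _ _ _ o1_s52097))))))))))) (B (M (nat_lit 427) (B (M (nat_lit 460) (B (M (nat_lit 396) (B (lo112_12_5 (nat_lit 523)) (M (nat_lit 397) (B (lo112_15_6 (nat_lit 365)) (M (nat_lit 426) (B (lo19_13_2 (nat_lit 425)) (lo110_13_2 (nat_lit 398)))))))) (B (M (nat_lit 396) (B (lo112_12_5 (nat_lit 523)) (M (nat_lit 364) (B (lo112_11_5 (nat_lit 459)) (M (nat_lit 363) (B (lo112_15_7 (nat_lit 395)) (lo112_14_7 (nat_lit 331)))))))) (B (M (nat_lit 396) (B (M (nat_lit 397) (B (lo112_15_6 (nat_lit 365)) (M (nat_lit 426) (B (lo19_13_2 (nat_lit 425)) (lo110_13_2 (nat_lit 398)))))) (M (nat_lit 364) (B (lo112_11_5 (nat_lit 459)) (M (nat_lit 363) (B (lo112_15_7 (nat_lit 395)) (lo112_14_7 (nat_lit 331)))))))) (M (nat_lit 461) (B (M (nat_lit 426) (B (lo19_13_0 (nat_lit 425)) (lo110_13_0 (nat_lit 462)))) (B (M (nat_lit 462) (B (lo110_13_0 (nat_lit 426)) (lo115_14_1 (nat_lit 463)))) (B (M (nat_lit 462) (B (lo115_14_1 (nat_lit 463)) (M (nat_lit 490) (B (lo19_15_2 (nat_lit 489)) (lo114_14_1 (nat_lit 459)))))) (M (nat_lit 426) (B (lo19_13_0 (nat_lit 425)) (M (nat_lit 397) (B (lo110_13_2 (nat_lit 398)) (lo113_11_5 (nat_lit 365)))))))))))))) (B (K _ _ _ o1_s52117) (B (M (nat_lit 396) (B (M (nat_lit 523) (B (lo111_16_6 (nat_lit 459)) (lo112_12_5 (nat_lit 460)))) (B (M (nat_lit 460) (B (M (nat_lit 397) (B (lo112_15_6 (nat_lit 365)) (M (nat_lit 398) (B (lo110_13_2 (nat_lit 426)) (lo115_12_1 (nat_lit 399)))))) (M (nat_lit 364) (B (lo112_11_5 (nat_lit 459)) (M (nat_lit 363) (B (lo112_15_7 (nat_lit 395)) (lo112_14_7 (nat_lit 331)))))))) (B (M (nat_lit 397) (B (M (nat_lit 398) (B (lo110_13_2 (nat_lit 426)) (lo115_12_1 (nat_lit 399)))) (M (nat_lit 460) (B (lo112_12_5 (nat_lit 523)) (lo112_15_6 (nat_lit 365)))))) (M (nat_lit 459) (B (lo111_16_6 (nat_lit 523)) (M (nat_lit 364) (B (lo111_15_6 (nat_lit 395)) (lo112_10_5 (nat_lit 332)))))))))) (B (M (nat_lit 396) (B (M (nat_lit 523) (B (lo111_16_6 (nat_lit 459)) (lo112_12_5 (nat_lit 460)))) (B (M (nat_lit 397) (B (M (nat_lit 460) (B (lo112_15_6 (nat_lit 365)) (M (nat_lit 364) (B (lo112_11_5 (nat_lit 459)) (M (nat_lit 332) (B (lo112_10_4 (nat_lit 461)) (lo112_9_4 (nat_lit 300)))))))) (B (M (nat_lit 460) (B (lo112_15_6 (nat_lit 365)) (M (nat_lit 364) (B (M (nat_lit 363) (B (lo112_15_7 (nat_lit 395)) (lo112_14_7 (nat_lit 331)))) (M (nat_lit 332) (B (lo112_10_4 (nat_lit 461)) (lo112_9_4 (nat_lit 300)))))))) (B (K _ _ _ o1_s52049) (K _ _ _ o1_s52064))))) (B (M (nat_lit 364) (B (M (nat_lit 460) (B (lo112_12_5 (nat_lit 523)) (M (nat_lit 363) (B (lo112_15_7 (nat_lit 395)) (lo112_14_7 (nat_lit 331)))))) (B (M (nat_lit 332) (B (lo112_10_4 (nat_lit 461)) (M (nat_lit 300) (B (lo112_9_5 (nat_lit 395)) (lo112_9_4 (nat_lit 397)))))) (M (nat_lit 397) (B (M (nat_lit 460) (B (lo112_12_5 (nat_lit 523)) (lo112_15_6 (nat_lit 365)))) (M (nat_lit 332) (B (lo112_10_4 (nat_lit 461)) (lo112_9_4 (nat_lit 300))))))))) (M (nat_lit 459) (B (lo111_16_6 (nat_lit 523)) (M (nat_lit 364) (B (lo111_15_6 (nat_lit 395)) (lo112_10_5 (nat_lit 332)))))))))) (B (M (nat_lit 426) (B (M (nat_lit 397) (B (lo110_13_2 (nat_lit 398)) (M (nat_lit 425) (B (lo19_13_2 (nat_lit 396)) (M (nat_lit 461) (B (lo19_13_0 (nat_lit 460)) (lo110_13_0 (nat_lit 462)))))))) (B (M (nat_lit 364) (B (M (nat_lit 397) (B (lo110_13_2 (nat_lit 398)) (M (nat_lit 461) (B (lo110_13_0 (nat_lit 462)) (M (nat_lit 332) (B (lo112_10_4 (nat_lit 396)) (lo113_14_7 (nat_lit 365)))))))) (B (M (nat_lit 397) (B (lo110_13_2 (nat_lit 398)) (M (nat_lit 461) (B (lo110_13_0 (nat_lit 462)) (M (nat_lit 365) (B (lo113_11_5 (nat_lit 460)) (lo113_14_7 (nat_lit 332)))))))) (B (M (nat_lit 460) (B (M (nat_lit 461) (B (lo110_13_0 (nat_lit 462)) (M (nat_lit 397) (B (lo110_13_2 (nat_lit 398)) (lo113_11_5 (nat_lit 365)))))) (B (M (nat_lit 396) (B (lo112_11_5 (nat_lit 459)) (M (nat_lit 397) (B (lo110_13_2 (nat_lit 398)) (lo112_15_6 (nat_lit 365)))))) (M (nat_lit 396) (B (lo112_11_5 (nat_lit 459)) (M (nat_lit 363) (B (lo112_15_7 (nat_lit 395)) (lo112_14_7 (nat_lit 331))))))))) (B (M (nat_lit 396) (B (M (nat_lit 459) (B (lo111_15_6 (nat_lit 395)) (lo112_11_5 (nat_lit 460)))) (B (M (nat_lit 460) (B (M (nat_lit 363) (B (lo112_15_7 (nat_lit 395)) (lo112_14_7 (nat_lit 331)))) (M (nat_lit 397) (B (lo110_13_2 (nat_lit 398)) (lo112_15_6 (nat_lit 365)))))) (B (M (nat_lit 459) (B (lo112_11_5 (nat_lit 460)) (lo112_10_5 (nat_lit 332)))) (M (nat_lit 459) (B (lo111_15_6 (nat_lit 395)) (lo112_10_5 (nat_lit 332)))))))) (M (nat_lit 396) (B (M (nat_lit 459) (B (lo111_15_6 (nat_lit 395)) (lo112_11_5 (nat_lit 460)))) (M (nat_lit 461) (B (lo110_13_0 (nat_lit 462)) (lo112_10_4 (nat_lit 332))))))))))) (M (nat_lit 425) (B (M (nat_lit 457) (B (lo112_13_1 (nat_lit 456)) (lo113_13_1 (nat_lit 458)))) (M (nat_lit 393) (B (lo112_13_3 (nat_lit 392)) (lo113_13_3 (nat_lit 394))))))))) (B (M (nat_lit 460) (B (M (nat_lit 396) (B (lo112_12_5 (nat_lit 523)) (M (nat_lit 397) (B (lo112_15_6 (nat_lit 365)) (M (nat_lit 426) (B (lo19_13_2 (nat_lit 425)) (lo110_13_2 (nat_lit 398)))))))) (B (M (nat_lit 396) (B (lo112_12_5 (nat_lit 523)) (M (nat_lit 397) (B (lo112_15_6 (nat_lit 365)) (M (nat_lit 364) (B (M (nat_lit 363) (B (lo112_15_7 (nat_lit 395)) (lo112_14_7 (nat_lit 331)))) (M (nat_lit 332) (B (lo112_10_4 (nat_lit 461)) (lo112_9_4 (nat_lit 300)))))))))) (B (M (nat_lit 397) (B (M (nat_lit 365) (B (lo112_15_6 (nat_lit 396)) (lo113_11_5 (nat_lit 461)))) (B (M (nat_lit 461) (B (lo113_11_5 (nat_lit 365)) (M (nat_lit 426) (B (lo110_13_0 (nat_lit 462)) (lo110_13_2 (nat_lit 398)))))) (B (M (nat_lit 396) (B (lo112_15_6 (nat_lit 365)) (M (nat_lit 426) (B (lo19_13_2 (nat_lit 425)) (lo110_13_2 (nat_lit 398)))))) (M (nat_lit 426) (B (lo110_13_2 (nat_lit 398)) (M (nat_lit 461) (B (lo19_13_0 (nat_lit 425)) (lo110_13_0 (nat_lit 462)))))))))) (B (M (nat_lit 426) (B (M (nat_lit 461) (B (lo19_13_0 (nat_lit 425)) (lo110_13_0 (nat_lit 462)))) (B (M (nat_lit 397) (B (lo110_13_2 (nat_lit 398)) (M (nat_lit 461) (B (lo110_13_0 (nat_lit 462)) (lo113_11_5 (nat_lit 365)))))) (M (nat_lit 393) (B (lo113_13_3 (nat_lit 394)) (M (nat_lit 425) (B (lo112_13_3 (nat_lit 392)) (M (nat_lit 457) (B (lo112_13_1 (nat_lit 456)) (lo113_13_1 (nat_lit 458))))))))))) (M (nat_lit 396) (B (lo112_12_5 (nat_lit 523)) (M (nat_lit 461) (B (M (nat_lit 426) (B (lo19_13_0 (nat_lit 425)) (lo110_13_0 (nat_lit 462)))) (M (nat_lit 364) (B (lo112_10_4 (nat_lit 332)) (M (nat_lit 363) (B (lo112_15_7 (nat_lit 395)) (lo112_14_7 (nat_lit 331))))))))))))))) (B (M (nat_lit 426) (B (M (nat_lit 397) (B (lo110_13_2 (nat_lit 398)) (M (nat_lit 425) (B (lo19_13_2 (nat_lit 396)) (M (nat_lit 461) (B (lo19_13_0 (nat_lit 460)) (lo110_13_0 (nat_lit 462)))))))) (B (M (nat_lit 460) (B (M (nat_lit 394) (B (lo113_13_3 (nat_lit 393)) (M (nat_lit 523) (B (lo111_16_7 (nat_lit 459)) (lo112_12_5 (nat_lit 396)))))) (B (M (nat_lit 397) (B (lo110_13_2 (nat_lit 398)) (M (nat_lit 396) (B (lo112_12_5 (nat_lit 523)) (lo112_15_6 (nat_lit 365)))))) (M (nat_lit 397) (B (lo110_13_2 (nat_lit 398)) (M (nat_lit 461) (B (lo110_13_0 (nat_lit 462)) (lo113_11_5 (nat_lit 365))))))))) (M (nat_lit 425) (B (M (nat_lit 457) (B (lo112_13_1 (nat_lit 456)) (lo113_13_1 (nat_lit 458)))) (M (nat_lit 393) (B (lo112_13_3 (nat_lit 392)) (lo113_13_3 (nat_lit 394))))))))) (B (M (nat_lit 426) (B (M (nat_lit 425) (B (M (nat_lit 457) (B (lo112_13_1 (nat_lit 456)) (lo113_13_1 (nat_lit 458)))) (M (nat_lit 393) (B (lo112_13_3 (nat_lit 392)) (lo113_13_3 (nat_lit 394)))))) (B (M (nat_lit 397) (B (lo110_13_2 (nat_lit 398)) (M (nat_lit 425) (B (lo19_13_2 (nat_lit 396)) (M (nat_lit 393) (B (lo112_13_3 (nat_lit 392)) (lo113_13_3 (nat_lit 394)))))))) (B (M (nat_lit 397) (B (lo110_13_2 (nat_lit 398)) (M (nat_lit 425) (B (lo19_13_2 (nat_lit 396)) (M (nat_lit 457) (B (lo112_13_1 (nat_lit 456)) (lo113_13_1 (nat_lit 458)))))))) (M (nat_lit 394) (B (lo113_13_3 (nat_lit 393)) (M (nat_lit 459) (B (lo111_16_7 (nat_lit 523)) (M (nat_lit 458) (B (lo113_13_1 (nat_lit 457)) (lo110_11_4 (nat_lit 362)))))))))))) (B (K _ _ _ o1_s51731) (K _ _ _ o1_s52224))))))))))) (B (M (nat_lit 427) (B (K _ _ _ o1_s52117) (B (K _ _ _ o1_s52224) (B (M (nat_lit 459) (B (M (nat_lit 396) (B (lo111_16_6 (nat_lit 523)) (M (nat_lit 364) (B (lo111_15_6 (nat_lit 395)) (lo112_10_5 (nat_lit 332)))))) (B (K _ _ _ o1_s27234) (B (M (nat_lit 396) (B (lo111_16_6 (nat_lit 523)) (M (nat_lit 364) (B (lo112_11_5 (nat_lit 460)) (lo112_10_5 (nat_lit 332)))))) (M (nat_lit 490) (B (M (nat_lit 522) (B (lo111_12_5 (nat_lit 395)) (M (nat_lit 554) (B (lo110_18_6 (nat_lit 586)) (lo111_13_5 (nat_lit 523)))))) (B (M (nat_lit 458) (B (M (nat_lit 457) (B (lo18_14_0 (nat_lit 456)) (lo113_15_3 (nat_lit 493)))) (M (nat_lit 522) (B (lo110_17_6 (nat_lit 554)) (lo111_12_5 (nat_lit 395)))))) (K _ _ _ o1_s28419)))))))) (B (M (nat_lit 459) (B (M (nat_lit 426) (B (M (nat_lit 394) (B (lo113_13_3 (nat_lit 393)) (M (nat_lit 458) (B (lo113_13_1 (nat_lit 457)) (lo110_11_4 (nat_lit 362)))))) (M (nat_lit 396) (B (M (nat_lit 397) (B (lo19_13_2 (nat_lit 425)) (lo110_13_2 (nat_lit 398)))) (M (nat_lit 364) (B (lo112_11_5 (nat_lit 460)) (lo112_10_5 (nat_lit 332)))))))) (B (M (nat_lit 426) (B (M (nat_lit 394) (B (lo113_13_3 (nat_lit 393)) (M (nat_lit 362) (B (lo110_11_4 (nat_lit 458)) (lo111_15_7 (nat_lit 395)))))) (M (nat_lit 396) (B (M (nat_lit 397) (B (lo19_13_2 (nat_lit 425)) (lo110_13_2 (nat_lit 398)))) (M (nat_lit 364) (B (lo112_11_5 (nat_lit 460)) (lo112_10_5 (nat_lit 332)))))))) (B (K _ _ _ o1_s52223) (B (M (nat_lit 396) (B (M (nat_lit 364) (B (lo111_15_6 (nat_lit 395)) (lo112_11_5 (nat_lit 460)))) (B (M (nat_lit 364) (B (lo112_11_5 (nat_lit 460)) (lo112_10_5 (nat_lit 332)))) (B (M (nat_lit 364) (B (lo111_15_6 (nat_lit 395)) (lo112_10_5 (nat_lit 332)))) (M (nat_lit 460) (B (M (nat_lit 397) (B (lo112_15_6 (nat_lit 365)) (M (nat_lit 426) (B (lo19_13_2 (nat_lit 425)) (lo110_13_2 (nat_lit 398)))))) (M (nat_lit 493) (B (lo112_12_4 (nat_lit 525)) (M (nat_lit 458) (B (lo19_14_0 (nat_lit 457)) (lo114_15_3 (nat_lit 494)))))))))))) (B (K _ _ _ o1_s52222) (B (K _ _ _ o1_s27234) (M (nat_lit 426) (B (M (nat_lit 394) (B (lo113_13_3 (nat_lit 393)) (M (nat_lit 458) (B (lo113_13_1 (nat_lit 457)) (lo110_11_4 (nat_lit 362)))))) (B (M (nat_lit 394) (B (lo113_13_3 (nat_lit 393)) (M (nat_lit 362) (B (lo110_11_4 (nat_lit 458)) (lo111_15_7 (nat_lit 395)))))) (M (nat_lit 396) (B (M (nat_lit 397) (B (lo19_13_2 (nat_lit 425)) (lo110_13_2 (nat_lit 398)))) (M (nat_lit 364) (B (lo111_15_6 (nat_lit 395)) (lo112_10_5 (nat_lit 332)))))))))))))))) (B (M (nat_lit 426) (B (M (nat_lit 397) (B (lo110_13_2 (nat_lit 398)) (M (nat_lit 425) (B (lo19_13_2 (nat_lit 396)) (M (nat_lit 393) (B (lo112_13_3 (nat_lit 392)) (lo113_13_3 (nat_lit 394)))))))) (B (M (nat_lit 397) (B (lo110_13_2 (nat_lit 398)) (M (nat_lit 425) (B (lo19_13_2 (nat_lit 396)) (M (nat_lit 457) (B (lo112_13_1 (nat_lit 456)) (lo113_13_1 (nat_lit 458)))))))) (K _ _ _ o1_s51726)))) (B (M (nat_lit 426) (B (M (nat_lit 397) (B (lo110_13_2 (nat_lit 398)) (M (nat_lit 425) (B (lo19_13_2 (nat_lit 396)) (M (nat_lit 457) (B (lo112_13_1 (nat_lit 456)) (lo113_13_1 (nat_lit 458)))))))) (B (M (nat_lit 396) (B (M (nat_lit 397) (B (lo19_13_2 (nat_lit 425)) (lo110_13_2 (nat_lit 398)))) (M (nat_lit 523) (B (lo111_16_6 (nat_lit 459)) (lo112_12_5 (nat_lit 460)))))) (B (M (nat_lit 459) (B (M (nat_lit 394) (B (lo113_13_3 (nat_lit 393)) (lo111_16_7 (nat_lit 523)))) (B (M (nat_lit 523) (B (lo111_16_7 (nat_lit 394)) (lo111_16_6 (nat_lit 396)))) (B (M (nat_lit 396) (B (lo111_16_6 (nat_lit 523)) (M (nat_lit 364) (B (lo112_11_5 (nat_lit 460)) (lo112_10_5 (nat_lit 332)))))) (M (nat_lit 394) (B (lo113_13_3 (nat_lit 393)) (M (nat_lit 458) (B (lo113_13_1 (nat_lit 457)) (lo110_11_4 (nat_lit 362)))))))))) (M (nat_lit 394) (B (lo113_13_3 (nat_lit 393)) (M (nat_lit 459) (B (lo111_16_7 (nat_lit 523)) (M (nat_lit 458) (B (lo113_13_1 (nat_lit 457)) (lo110_11_4 (nat_lit 362)))))))))))) (M (nat_lit 426) (B (M (nat_lit 397) (B (lo110_13_2 (nat_lit 398)) (M (nat_lit 394) (B (lo113_13_3 (nat_lit 393)) (M (nat_lit 459) (B (lo111_16_7 (nat_lit 523)) (M (nat_lit 458) (B (lo113_13_1 (nat_lit 457)) (lo110_11_4 (nat_lit 362)))))))))) (B (M (nat_lit 397) (B (lo110_13_2 (nat_lit 398)) (M (nat_lit 394) (B (lo113_13_3 (nat_lit 393)) (M (nat_lit 459) (B (lo111_16_7 (nat_lit 523)) (M (nat_lit 362) (B (lo110_11_4 (nat_lit 458)) (lo110_10_4 (nat_lit 330)))))))))) (B (M (nat_lit 395) (B (M (nat_lit 458) (B (lo113_13_1 (nat_lit 457)) (M (nat_lit 490) (B (lo110_16_6 (nat_lit 522)) (M (nat_lit 363) (B (lo111_11_5 (nat_lit 459)) (lo111_10_5 (nat_lit 331)))))))) (B (M (nat_lit 459) (B (M (nat_lit 394) (B (lo111_16_7 (nat_lit 523)) (lo111_15_7 (nat_lit 362)))) (M (nat_lit 363) (B (lo111_11_4 (nat_lit 460)) (M (nat_lit 490) (B (lo111_12_5 (nat_lit 522)) (lo111_11_5 (nat_lit 458)))))))) (B (M (nat_lit 458) (B (lo113_13_1 (nat_lit 457)) (M (nat_lit 363) (B (lo111_10_5 (nat_lit 331)) (M (nat_lit 490) (B (lo110_15_6 (nat_lit 394)) (lo111_11_5 (nat_lit 459)))))))) (B (M (nat_lit 459) (B (M (nat_lit 394) (B (lo111_16_7 (nat_lit 523)) (lo111_15_7 (nat_lit 362)))) (M (nat_lit 458) (B (lo113_13_1 (nat_lit 457)) (M (nat_lit 363) (B (lo111_10_5 (nat_lit 331)) (lo111_11_4 (nat_lit 460)))))))) (B (M (nat_lit 459) (B (M (nat_lit 394) (B (lo111_16_7 (nat_lit 523)) (lo111_15_7 (nat_lit 362)))) (B (M (nat_lit 523) (B (M (nat_lit 522) (B (lo111_13_5 (nat_lit 554)) (lo111_12_5 (nat_lit 490)))) (M (nat_lit 460) (B (lo111_17_6 (nat_lit 555)) (lo111_11_4 (nat_lit 363)))))) (M (nat_lit 363) (B (lo111_11_4 (nat_lit 460)) (M (nat_lit 362) (B (lo111_15_7 (nat_lit 394)) (lo111_14_7 (nat_lit 330))))))))) (B (M (nat_lit 458) (B (lo113_13_1 (nat_lit 457)) (M (nat_lit 490) (B (lo110_16_6 (nat_lit 522)) (M (nat_lit 363) (B (lo110_15_6 (nat_lit 394)) (lo111_10_5 (nat_lit 331)))))))) (M (nat_lit 490) (B (M (nat_lit 458) (B (lo113_13_1 (nat_lit 457)) (lo110_16_6 (nat_lit 522)))) (B (M (nat_lit 522) (B (lo110_16_6 (nat_lit 458)) (lo111_12_5 (nat_lit 459)))) (B (M (nat_lit 457) (B (lo113_13_1 (nat_lit 458)) (M (nat_lit 456) (B (lo112_15_3 (nat_lit 489)) (lo112_13_1 (nat_lit 425)))))) (M (nat_lit 459) (B (lo111_12_5 (nat_lit 522)) (M (nat_lit 394) (B (lo111_16_7 (nat_lit 523)) (lo111_15_7 (nat_lit 362))))))))))))))))) (B (M (nat_lit 397) (B (lo110_13_2 (nat_lit 398)) (M (nat_lit 394) (B (lo113_13_3 (nat_lit 393)) (M (nat_lit 459) (B (lo111_16_7 (nat_lit 523)) (M (nat_lit 362) (B (lo110_10_4 (nat_lit 330)) (lo111_15_7 (nat_lit 395)))))))))) (B (K _ _ _ o1_s52020) (M (nat_lit 425) (B (M (nat_lit 457) (B (lo112_13_1 (nat_lit 456)) (lo113_13_1 (nat_lit 458)))) (M (nat_lit 393) (B (lo112_13_3 (nat_lit 392)) (lo113_13_3 (nat_lit 394))))))))))))))))))) (M (nat_lit 461) (B (K _ _ _ o1_s51348) (B (K _ _ _ o1_s51350) (B (M (nat_lit 396) (B (M (nat_lit 460) (B (lo112_12_5 (nat_lit 523)) (M (nat_lit 364) (B (lo112_11_5 (nat_lit 459)) (lo112_10_4 (nat_lit 332)))))) (B (M (nat_lit 364) (B (lo112_10_4 (nat_lit 332)) (M (nat_lit 493) (B (lo112_11_4 (nat_lit 460)) (lo113_16_7 (nat_lit 525)))))) (B (K _ _ _ o1_s51472) (M (nat_lit 462) (B (M (nat_lit 460) (B (lo112_12_5 (nat_lit 523)) (lo115_14_1 (nat_lit 463)))) (B (M (nat_lit 463) (B (lo115_14_1 (nat_lit 460)) (lo116_14_3 (nat_lit 464)))) (B (M (nat_lit 493) (B (lo113_16_7 (nat_lit 525)) (M (nat_lit 463) (B (lo111_15_2 (nat_lit 494)) (lo116_14_1 (nat_lit 464)))))) (M (nat_lit 427) (B (lo110_13_0 (nat_lit 426)) (M (nat_lit 523) (B (lo111_16_6 (nat_lit 459)) (lo112_12_5 (nat_lit 460)))))))))))))) (B (K _ _ _ o1_s51361) (B (K _ _ _ o1_s51365) (B (K _ _ _ o1_s51429) (B (K _ _ _ o1_s51430) (M (nat_lit 459) (B (M (nat_lit 396) (B (M (nat_lit 523) (B (lo111_16_6 (nat_lit 427)) (lo112_12_5 (nat_lit 460)))) (B (M (nat_lit 364) (B (lo112_11_5 (nat_lit 460)) (lo112_10_4 (nat_lit 332)))) (M (nat_lit 364) (B (lo112_10_4 (nat_lit 332)) (M (nat_lit 427) (B (lo111_16_6 (nat_lit 523)) (lo111_15_6 (nat_lit 395))))))))) (B (M (nat_lit 396) (B (M (nat_lit 364) (B (lo112_11_5 (nat_lit 460)) (lo112_10_4 (nat_lit 332)))) (B (M (nat_lit 427) (B (M (nat_lit 364) (B (lo111_15_6 (nat_lit 395)) (lo112_10_5 (nat_lit 332)))) (M (nat_lit 458) (B (M (nat_lit 457) (B (lo18_14_0 (nat_lit 456)) (lo113_13_1 (nat_lit 426)))) (M (nat_lit 493) (B (lo114_15_3 (nat_lit 494)) (lo113_16_7 (nat_lit 525)))))))) (M (nat_lit 458) (B (M (nat_lit 457) (B (lo18_14_0 (nat_lit 456)) (lo19_14_2 (nat_lit 460)))) (M (nat_lit 493) (B (lo114_15_3 (nat_lit 494)) (lo113_16_7 (nat_lit 525))))))))) (B (M (nat_lit 493) (B (M (nat_lit 458) (B (lo114_15_3 (nat_lit 494)) (M (nat_lit 457) (B (lo18_14_0 (nat_lit 456)) (lo19_14_0 (nat_lit 460)))))) (B (M (nat_lit 458) (B (lo114_15_3 (nat_lit 494)) (M (nat_lit 457) (B (lo113_15_3 (nat_lit 490)) (lo19_14_0 (nat_lit 460)))))) (B (M (nat_lit 396) (B (lo113_16_7 (nat_lit 525)) (M (nat_lit 460) (B (lo112_12_5 (nat_lit 523)) (lo112_11_5 (nat_lit 364)))))) (M (nat_lit 458) (B (lo114_15_3 (nat_lit 494)) (M (nat_lit 457) (B (lo18_14_0 (nat_lit 456)) (lo113_15_3 (nat_lit 490)))))))))) (B (M (nat_lit 396) (B (M (nat_lit 364) (B (lo112_10_4 (nat_lit 332)) (M (nat_lit 427) (B (lo111_16_6 (nat_lit 523)) (lo111_15_6 (nat_lit 395)))))) (M (nat_lit 493) (B (lo113_16_7 (nat_lit 525)) (M (nat_lit 458) (B (lo114_15_3 (nat_lit 494)) (M (nat_lit 457) (B (lo18_14_0 (nat_lit 456)) (lo113_15_3 (nat_lit 490)))))))))) (M (nat_lit 460) (B (M (nat_lit 426) (B (M (nat_lit 458) (B (lo19_14_2 (nat_lit 457)) (lo113_14_3 (nat_lit 425)))) (B (M (nat_lit 425) (B (lo113_14_3 (nat_lit 458)) (lo19_13_0 (nat_lit 427)))) (B (M (nat_lit 394) (B (M (nat_lit 458) (B (lo19_14_2 (nat_lit 457)) (lo110_11_4 (nat_lit 362)))) (M (nat_lit 523) (B (lo111_16_7 (nat_lit 427)) (lo111_17_6 (nat_lit 555)))))) (M (nat_lit 427) (B (lo19_13_0 (nat_lit 425)) (M (nat_lit 394) (B (lo113_13_3 (nat_lit 393)) (lo111_16_7 (nat_lit 523)))))))))) (B (M (nat_lit 427) (B (M (nat_lit 395) (B (lo111_11_4 (nat_lit 363)) (M (nat_lit 490) (B (lo19_15_2 (nat_lit 489)) (lo111_12_5 (nat_lit 522)))))) (M (nat_lit 426) (B (lo19_13_0 (nat_lit 425)) (M (nat_lit 523) (B (lo111_16_7 (nat_lit 394)) (lo111_17_6 (nat_lit 555)))))))) (M (nat_lit 493) (B (M (nat_lit 458) (B (lo19_14_0 (nat_lit 457)) (lo114_15_3 (nat_lit 494)))) (M (nat_lit 525) (B (lo113_17_7 (nat_lit 557)) (M (nat_lit 490) (B (lo19_15_2 (nat_lit 489)) (lo110_15_0 (nat_lit 526)))))))))))))))))))))))))))))))))))))) (B (M (nat_lit 427) (B (M (nat_lit 426) (B (M (nat_lit 397) (B (lo110_13_2 (nat_lit 398)) (M (nat_lit 425) (B (lo19_13_2 (nat_lit 396)) (M (nat_lit 393) (B (lo112_13_3 (nat_lit 392)) (lo113_13_3 (nat_lit 394)))))))) (B (M (nat_lit 397) (B (lo110_13_2 (nat_lit 398)) (M (nat_lit 425) (B (lo19_13_2 (nat_lit 396)) (M (nat_lit 457) (B (lo112_13_1 (nat_lit 456)) (lo113_13_1 (nat_lit 458)))))))) (B (M (nat_lit 397) (B (lo110_13_2 (nat_lit 398)) (M (nat_lit 461) (B (lo110_13_0 (nat_lit 462)) (M (nat_lit 493) (B (lo113_12_5 (nat_lit 524)) (M (nat_lit 396) (B (lo113_16_7 (nat_lit 525)) (lo113_15_7 (nat_lit 364)))))))))) (K _ _ _ o1_s52439))))) (B (M (nat_lit 461) (B (K _ _ _ o1_s52444) (B (K _ _ _ o1_s52468) (B (K _ _ _ o1_s52474) (B (K _ _ _ o1_s52489) (B (M (nat_lit 426) (B (lo110_13_0 (nat_lit 462)) (M (nat_lit 425) (B (M (nat_lit 393) (B (lo112_13_3 (nat_lit 392)) (lo113_13_3 (nat_lit 394)))) (M (nat_lit 397) (B (lo19_13_2 (nat_lit 396)) (lo110_13_2 (nat_lit 398)))))))) (K _ _ _ o1_s52499))))))) (B (M (nat_lit 461) (B (K _ _ _ o1_s52444) (B (K _ _ _ o1_s52468) (B (K _ _ _ o1_s52474) (B (K _ _ _ o1_s52489) (B (M (nat_lit 426) (B (lo110_13_0 (nat_lit 462)) (M (nat_lit 425) (B (M (nat_lit 457) (B (lo112_13_1 (nat_lit 456)) (lo113_13_1 (nat_lit 458)))) (M (nat_lit 397) (B (lo19_13_2 (nat_lit 396)) (lo110_13_2 (nat_lit 398)))))))) (K _ _ _ o1_s52499))))))) (B (M (nat_lit 491) (B (M (nat_lit 461) (B (M (nat_lit 462) (B (lo110_13_0 (nat_lit 426)) (M (nat_lit 463) (B (lo116_14_3 (nat_lit 464)) (M (nat_lit 493) (B (lo110_15_2 (nat_lit 490)) (lo111_15_2 (nat_lit 494)))))))) (B (M (nat_lit 459) (B (M (nat_lit 426) (B (lo110_13_0 (nat_lit 462)) (M (nat_lit 523) (B (lo111_16_7 (nat_lit 394)) (lo111_16_6 (nat_lit 396)))))) (B (M (nat_lit 396) (B (lo111_16_6 (nat_lit 523)) (M (nat_lit 395) (B (lo111_12_4 (nat_lit 524)) (lo111_15_6 (nat_lit 364)))))) (M (nat_lit 394) (B (M (nat_lit 426) (B (lo113_13_3 (nat_lit 393)) (lo110_13_0 (nat_lit 462)))) (M (nat_lit 395) (B (lo111_15_7 (nat_lit 362)) (lo111_12_4 (nat_lit 524))))))))) (M (nat_lit 396) (B (M (nat_lit 364) (B (lo112_10_4 (nat_lit 332)) (M (nat_lit 493) (B (lo113_16_7 (nat_lit 525)) (lo113_15_7 (nat_lit 397)))))) (B (M (nat_lit 524) (B (M (nat_lit 459) (B (lo111_16_6 (nat_lit 523)) (lo111_12_4 (nat_lit 395)))) (M (nat_lit 493) (B (lo113_12_5 (nat_lit 397)) (lo113_16_7 (nat_lit 525)))))) (M (nat_lit 364) (B (lo112_10_4 (nat_lit 332)) (M (nat_lit 459) (B (lo111_16_6 (nat_lit 523)) (lo111_15_6 (nat_lit 395)))))))))))) (B (M (nat_lit 459) (B (M (nat_lit 524) (B (lo111_12_4 (nat_lit 395)) (M (nat_lit 523) (B (lo111_13_4 (nat_lit 556)) (lo111_16_6 (nat_lit 396)))))) (B (K _ _ _ o1_s24478) (M (nat_lit 493) (B (M (nat_lit 458) (B (lo114_15_3 (nat_lit 494)) (M (nat_lit 457) (B (lo18_14_0 (nat_lit 456)) (lo113_13_1 (nat_lit 426)))))) (B (M (nat_lit 458) (B (lo114_15_3 (nat_lit 494)) (M (nat_lit 457) (B (lo113_15_3 (nat_lit 490)) (lo113_13_1 (nat_lit 426)))))) (B (M (nat_lit 461) (B (M (nat_lit 462) (B (lo110_15_2 (nat_lit 490)) (lo110_13_0 (nat_lit 426)))) (M (nat_lit 396) (B (lo111_16_6 (nat_lit 523)) (lo113_16_7 (nat_lit 525)))))) (M (nat_lit 458) (B (lo114_15_3 (nat_lit 494)) (M (nat_lit 457) (B (lo18_14_0 (nat_lit 456)) (lo113_15_3 (nat_lit 490))))))))))))) (B (M (nat_lit 459) (B (M (nat_lit 395) (B (lo111_12_4 (nat_lit 524)) (M (nat_lit 396) (B (lo111_16_6 (nat_lit 523)) (lo111_15_6 (nat_lit 364)))))) (B (M (nat_lit 395) (B (lo111_12_4 (nat_lit 524)) (M (nat_lit 396) (B (lo111_15_6 (nat_lit 364)) (M (nat_lit 394) (B (lo19_12_0 (nat_lit 393)) (lo111_15_7 (nat_lit 362)))))))) (B (M (nat_lit 523) (B (lo111_16_6 (nat_lit 396)) (M (nat_lit 426) (B (lo111_16_7 (nat_lit 394)) (M (nat_lit 458) (B (lo113_13_1 (nat_lit 457)) (lo111_17_7 (nat_lit 555)))))))) (M (nat_lit 394) (B (M (nat_lit 426) (B (lo113_13_3 (nat_lit 393)) (lo111_16_7 (nat_lit 523)))) (M (nat_lit 395) (B (lo111_15_7 (nat_lit 362)) (lo111_12_4 (nat_lit 524)))))))))) (B (M (nat_lit 459) (B (M (nat_lit 524) (B (lo111_12_4 (nat_lit 395)) (M (nat_lit 523) (B (lo111_13_4 (nat_lit 556)) (lo111_16_6 (nat_lit 396)))))) (B (M (nat_lit 395) (B (lo111_12_4 (nat_lit 524)) (M (nat_lit 396) (B (lo111_15_6 (nat_lit 364)) (M (nat_lit 394) (B (lo19_12_0 (nat_lit 393)) (lo111_15_7 (nat_lit 362)))))))) (B (M (nat_lit 523) (B (lo111_16_6 (nat_lit 396)) (M (nat_lit 554) (B (lo111_13_5 (nat_lit 522)) (M (nat_lit 556) (B (lo111_13_4 (nat_lit 524)) (M (nat_lit 555) (B (lo111_14_5 (nat_lit 586)) (lo111_14_4 (nat_lit 588)))))))))) (B (M (nat_lit 396) (B (lo111_16_6 (nat_lit 523)) (M (nat_lit 364) (B (lo111_15_6 (nat_lit 395)) (lo112_10_5 (nat_lit 332)))))) (M (nat_lit 524) (B (lo111_12_4 (nat_lit 395)) (M (nat_lit 556) (B (lo111_13_4 (nat_lit 523)) (lo112_18_7 (nat_lit 588))))))))))) (B (M (nat_lit 459) (B (M (nat_lit 396) (B (lo111_16_6 (nat_lit 523)) (M (nat_lit 395) (B (lo111_12_4 (nat_lit 524)) (lo111_15_6 (nat_lit 364)))))) (B (M (nat_lit 395) (B (lo111_12_4 (nat_lit 524)) (M (nat_lit 458) (B (M (nat_lit 457) (B (lo18_14_0 (nat_lit 456)) (lo113_13_1 (nat_lit 426)))) (M (nat_lit 490) (B (lo111_12_5 (nat_lit 522)) (lo111_11_5 (nat_lit 363)))))))) (M (nat_lit 493) (B (M (nat_lit 458) (B (lo114_15_3 (nat_lit 494)) (M (nat_lit 457) (B (lo18_14_0 (nat_lit 456)) (lo113_15_3 (nat_lit 490)))))) (B (M (nat_lit 458) (B (lo114_15_3 (nat_lit 494)) (M (nat_lit 457) (B (lo113_15_3 (nat_lit 490)) (lo113_13_1 (nat_lit 426)))))) (B (M (nat_lit 494) (B (lo114_15_3 (nat_lit 458)) (M (nat_lit 523) (B (lo114_15_1 (nat_lit 522)) (lo111_16_6 (nat_lit 396)))))) (B (M (nat_lit 523) (B (lo111_16_6 (nat_lit 396)) (M (nat_lit 522) (B (lo111_13_5 (nat_lit 554)) (lo114_15_1 (nat_lit 494)))))) (M (nat_lit 461) (B (M (nat_lit 462) (B (lo110_15_2 (nat_lit 490)) (lo110_13_0 (nat_lit 426)))) (M (nat_lit 396) (B (lo111_16_6 (nat_lit 523)) (lo113_16_7 (nat_lit 525)))))))))))))) (B (M (nat_lit 493) (B (K _ _ _ o1_s52571) (B (K _ _ _ o1_s52585) (B (K _ _ _ o1_s52586) (B (K _ _ _ o1_s52592) (B (K _ _ _ o1_s52597) (K _ _ _ o1_s52599))))))) (B (M (nat_lit 493) (B (K _ _ _ o1_s52571) (B (K _ _ _ o1_s52585) (B (K _ _ _ o1_s52586) (B (K _ _ _ o1_s52592) (B (K _ _ _ o1_s52601) (K _ _ _ o1_s52599))))))) (B (K _ _ _ o1_s27346) (M (nat_lit 493) (B (K _ _ _ o1_s52592) (B (M (nat_lit 426) (B (M (nat_lit 397) (B (lo110_13_2 (nat_lit 398)) (M (nat_lit 461) (B (lo110_13_0 (nat_lit 462)) (lo113_12_5 (nat_lit 524)))))) (M (nat_lit 459) (B (M (nat_lit 458) (B (lo113_13_1 (nat_lit 457)) (lo114_15_3 (nat_lit 494)))) (M (nat_lit 394) (B (lo113_13_3 (nat_lit 393)) (lo111_16_7 (nat_lit 523)))))))) (B (K _ _ _ o1_s52615) (B (M (nat_lit 462) (B (M (nat_lit 461) (B (lo110_15_2 (nat_lit 490)) (lo110_13_0 (nat_lit 426)))) (B (M (nat_lit 461) (B (lo110_13_0 (nat_lit 426)) (M (nat_lit 463) (B (lo111_15_2 (nat_lit 494)) (lo116_14_1 (nat_lit 464)))))) (B (M (nat_lit 461) (B (lo110_15_2 (nat_lit 490)) (M (nat_lit 463) (B (lo111_15_2 (nat_lit 494)) (lo116_14_1 (nat_lit 464)))))) (M (nat_lit 458) (B (M (nat_lit 457) (B (lo113_15_3 (nat_lit 490)) (lo113_13_1 (nat_lit 426)))) (M (nat_lit 494) (B (lo114_15_3 (nat_lit 459)) (lo111_15_2 (nat_lit 463)))))))))) (B (M (nat_lit 459) (B (M (nat_lit 458) (B (lo114_15_3 (nat_lit 494)) (M (nat_lit 457) (B (lo18_14_0 (nat_lit 456)) (lo113_15_3 (nat_lit 490)))))) (B (M (nat_lit 458) (B (lo114_15_3 (nat_lit 494)) (M (nat_lit 457) (B (lo113_15_3 (nat_lit 490)) (lo113_13_1 (nat_lit 426)))))) (M (nat_lit 394) (B (M (nat_lit 426) (B (lo113_13_3 (nat_lit 393)) (lo111_16_7 (nat_lit 523)))) (M (nat_lit 395) (B (lo111_15_7 (nat_lit 362)) (lo111_12_4 (nat_lit 524))))))))) (M (nat_lit 461) (B (M (nat_lit 462) (B (lo110_15_2 (nat_lit 490)) (lo110_13_0 (nat_lit 426)))) (M (nat_lit 524) (B (lo113_12_5 (nat_lit 397)) (M (nat_lit 556) (B (lo112_18_6 (nat_lit 588)) (lo113_13_5 (nat_lit 525))))))))))))))))))))))) (B (M (nat_lit 493) (B (M (nat_lit 461) (B (M (nat_lit 397) (B (lo113_12_5 (nat_lit 524)) (M (nat_lit 396) (B (lo113_16_7 (nat_lit 525)) (lo113_15_7 (nat_lit 364)))))) (B (M (nat_lit 396) (B (lo113_16_7 (nat_lit 525)) (M (nat_lit 364) (B (lo112_10_4 (nat_lit 332)) (lo113_15_7 (nat_lit 397)))))) (B (M (nat_lit 524) (B (lo113_12_5 (nat_lit 397)) (M (nat_lit 556) (B (lo112_18_6 (nat_lit 588)) (lo113_13_5 (nat_lit 525)))))) (B (M (nat_lit 397) (B (lo113_12_5 (nat_lit 524)) (M (nat_lit 396) (B (lo113_15_7 (nat_lit 364)) (M (nat_lit 398) (B (lo115_12_1 (nat_lit 399)) (lo113_15_6 (nat_lit 366)))))))) (M (nat_lit 396) (B (lo113_16_7 (nat_lit 525)) (K _ _ _ o1_s52637)))))))) (B (M (nat_lit 461) (B (M (nat_lit 524) (B (lo113_12_5 (nat_lit 397)) (M (nat_lit 556) (B (lo112_18_6 (nat_lit 588)) (lo113_13_5 (nat_lit 525)))))) (B (M (nat_lit 524) (B (lo113_12_5 (nat_lit 397)) (M (nat_lit 525) (B (lo113_13_5 (nat_lit 556)) (lo113_16_7 (nat_lit 396)))))) (B (M (nat_lit 396) (B (lo113_16_7 (nat_lit 525)) (M (nat_lit 364) (B (lo112_10_4 (nat_lit 332)) (lo113_15_7 (nat_lit 397)))))) (B (M (nat_lit 397) (B (lo113_12_5 (nat_lit 524)) (M (nat_lit 396) (B (lo113_15_7 (nat_lit 364)) (M (nat_lit 398) (B (lo115_12_1 (nat_lit 399)) (lo113_15_6 (nat_lit 366)))))))) (K _ _ _ o1_s52467)))))) (B (M (nat_lit 491) (B (K _ _ _ o1_s52586) (B (M (nat_lit 396) (B (M (nat_lit 461) (B (lo113_16_7 (nat_lit 525)) (M (nat_lit 364) (B (lo112_10_4 (nat_lit 332)) (lo113_15_7 (nat_lit 397)))))) (B (M (nat_lit 524) (B (M (nat_lit 459) (B (lo111_16_6 (nat_lit 523)) (lo111_12_4 (nat_lit 395)))) (M (nat_lit 461) (B (lo113_12_5 (nat_lit 397)) (lo113_16_7 (nat_lit 525)))))) (M (nat_lit 459) (B (lo111_16_6 (nat_lit 523)) (M (nat_lit 395) (B (lo111_12_4 (nat_lit 524)) (lo111_15_6 (nat_lit 364))))))))) (B (M (nat_lit 494) (B (M (nat_lit 524) (B (M (nat_lit 523) (B (lo114_15_1 (nat_lit 522)) (lo115_15_1 (nat_lit 495)))) (M (nat_lit 459) (B (lo114_15_3 (nat_lit 458)) (lo111_12_4 (nat_lit 395)))))) (B (M (nat_lit 461) (B (M (nat_lit 462) (B (lo110_15_2 (nat_lit 490)) (lo111_15_2 (nat_lit 463)))) (M (nat_lit 397) (B (lo113_12_5 (nat_lit 524)) (lo113_12_4 (nat_lit 526)))))) (M (nat_lit 461) (B (M (nat_lit 462) (B (lo110_15_2 (nat_lit 490)) (lo111_15_2 (nat_lit 463)))) (M (nat_lit 526) (B (lo111_15_0 (nat_lit 527)) (lo113_12_4 (nat_lit 397))))))))) (K _ _ _ o1_s52670))))) (B (M (nat_lit 491) (B (K _ _ _ o1_s52586) (B (M (nat_lit 494) (B (M (nat_lit 459) (B (lo114_15_3 (nat_lit 458)) (M (nat_lit 523) (B (lo114_15_1 (nat_lit 522)) (lo111_16_6 (nat_lit 396)))))) (M (nat_lit 463) (B (lo111_15_2 (nat_lit 462)) (M (nat_lit 495) (B (lo112_15_2 (nat_lit 464)) (M (nat_lit 527) (B (lo111_15_0 (nat_lit 526)) (lo112_15_0 (nat_lit 528)))))))))) (B (M (nat_lit 494) (B (M (nat_lit 490) (B (M (nat_lit 522) (B (lo113_15_1 (nat_lit 521)) (lo114_15_1 (nat_lit 523)))) (M (nat_lit 458) (B (lo113_15_3 (nat_lit 457)) (lo114_15_3 (nat_lit 459)))))) (B (M (nat_lit 461) (B (M (nat_lit 462) (B (lo110_15_2 (nat_lit 490)) (lo111_15_2 (nat_lit 463)))) (M (nat_lit 526) (B (lo111_15_0 (nat_lit 527)) (lo113_12_4 (nat_lit 397)))))) (M (nat_lit 495) (B (M (nat_lit 527) (B (lo111_15_0 (nat_lit 526)) (lo112_15_0 (nat_lit 528)))) (M (nat_lit 463) (B (lo111_15_2 (nat_lit 462)) (lo112_15_2 (nat_lit 464))))))))) (B (M (nat_lit 490) (B (M (nat_lit 461) (B (lo110_15_2 (nat_lit 462)) (M (nat_lit 525) (B (lo110_15_0 (nat_lit 526)) (lo113_16_7 (nat_lit 396)))))) (M (nat_lit 489) (B (M (nat_lit 521) (B (lo112_15_1 (nat_lit 520)) (lo113_15_1 (nat_lit 522)))) (M (nat_lit 457) (B (lo112_15_3 (nat_lit 456)) (lo113_15_3 (nat_lit 458)))))))) (K _ _ _ o1_s52670)))))) (B (K _ _ _ o1_s52690) (B (M (nat_lit 461) (B (M (nat_lit 397) (B (lo113_12_5 (nat_lit 524)) (M (nat_lit 396) (B (lo113_15_7 (nat_lit 364)) (M (nat_lit 398) (B (lo115_12_1 (nat_lit 399)) (lo113_15_6 (nat_lit 366)))))))) (B (M (nat_lit 396) (B (M (nat_lit 364) (B (lo112_10_4 (nat_lit 332)) (lo113_15_7 (nat_lit 397)))) (B (M (nat_lit 494) (B (M (nat_lit 397) (B (lo113_12_4 (nat_lit 526)) (M (nat_lit 398) (B (lo115_12_1 (nat_lit 399)) (lo113_15_6 (nat_lit 366)))))) (M (nat_lit 491) (B (M (nat_lit 523) (B (lo114_15_1 (nat_lit 522)) (lo111_16_6 (nat_lit 459)))) (M (nat_lit 462) (B (lo110_15_2 (nat_lit 490)) (lo111_15_2 (nat_lit 463)))))))) (K _ _ _ o1_s52637)))) (B (M (nat_lit 524) (B (lo113_12_5 (nat_lit 397)) (M (nat_lit 491) (B (M (nat_lit 459) (B (lo111_12_4 (nat_lit 395)) (M (nat_lit 556) (B (lo111_13_4 (nat_lit 523)) (lo112_18_7 (nat_lit 588)))))) (M (nat_lit 462) (B (lo110_15_2 (nat_lit 490)) (M (nat_lit 463) (B (lo111_15_2 (nat_lit 494)) (lo116_14_1 (nat_lit 464)))))))))) (M (nat_lit 491) (B (M (nat_lit 462) (B (lo110_15_2 (nat_lit 490)) (M (nat_lit 463) (B (lo111_15_2 (nat_lit 494)) (lo116_14_1 (nat_lit 464)))))) (B (M (nat_lit 494) (B (M (nat_lit 462) (B (lo111_15_2 (nat_lit 463)) (M (nat_lit 526) (B (lo111_15_0 (nat_lit 527)) (lo114_17_7 (nat_lit 558)))))) (M (nat_lit 459) (B (lo114_15_3 (nat_lit 458)) (M (nat_lit 523) (B (lo114_15_1 (nat_lit 522)) (lo111_16_6 (nat_lit 396)))))))) (B (M (nat_lit 459) (B (M (nat_lit 396) (B (lo111_16_6 (nat_lit 523)) (M (nat_lit 395) (B (lo111_12_4 (nat_lit 524)) (lo111_15_6 (nat_lit 364)))))) (B (M (nat_lit 395) (B (lo111_12_4 (nat_lit 524)) (M (nat_lit 490) (B (lo111_12_5 (nat_lit 522)) (lo110_15_2 (nat_lit 462)))))) (M (nat_lit 522) (B (M (nat_lit 490) (B (lo113_15_1 (nat_lit 521)) (lo110_15_2 (nat_lit 462)))) (M (nat_lit 523) (B (lo111_13_5 (nat_lit 554)) (lo111_16_6 (nat_lit 396))))))))) (M (nat_lit 459) (B (M (nat_lit 396) (B (lo111_16_6 (nat_lit 523)) (M (nat_lit 395) (B (lo111_12_4 (nat_lit 524)) (lo111_15_6 (nat_lit 364)))))) (M (nat_lit 458) (B (lo114_15_3 (nat_lit 494)) (M (nat_lit 457) (B (lo18_14_0 (nat_lit 456)) (lo113_15_3 (nat_lit 490)))))))))))))))) (M (nat_lit 491) (B (M (nat_lit 459) (B (M (nat_lit 524) (B (lo111_12_4 (nat_lit 395)) (M (nat_lit 556) (B (lo111_13_4 (nat_lit 523)) (lo112_18_7 (nat_lit 588)))))) (M (nat_lit 458) (B (lo114_15_3 (nat_lit 494)) (M (nat_lit 457) (B (lo18_14_0 (nat_lit 456)) (lo113_15_3 (nat_lit 490)))))))) (B (M (nat_lit 459) (B (M (nat_lit 396) (B (lo111_16_6 (nat_lit 523)) (M (nat_lit 395) (B (lo111_12_4 (nat_lit 524)) (lo111_15_6 (nat_lit 364)))))) (B (M (nat_lit 395) (B (lo111_12_4 (nat_lit 524)) (M (nat_lit 396) (B (lo111_15_6 (nat_lit 364)) (M (nat_lit 394) (B (lo19_12_0 (nat_lit 393)) (lo111_15_7 (nat_lit 362)))))))) (B (M (nat_lit 494) (B (lo114_15_3 (nat_lit 458)) (M (nat_lit 523) (B (lo114_15_1 (nat_lit 522)) (lo111_16_6 (nat_lit 396)))))) (M (nat_lit 522) (B (M (nat_lit 490) (B (lo113_15_1 (nat_lit 521)) (lo111_12_5 (nat_lit 395)))) (M (nat_lit 523) (B (lo111_13_5 (nat_lit 554)) (lo114_15_1 (nat_lit 494)))))))))) (B (M (nat_lit 459) (B (M (nat_lit 494) (B (lo114_15_3 (nat_lit 458)) (M (nat_lit 523) (B (lo114_15_1 (nat_lit 522)) (lo111_16_6 (nat_lit 396)))))) (B (M (nat_lit 396) (B (lo111_16_6 (nat_lit 523)) (M (nat_lit 395) (B (lo111_12_4 (nat_lit 524)) (lo111_15_6 (nat_lit 364)))))) (B (M (nat_lit 395) (B (lo111_12_4 (nat_lit 524)) (M (nat_lit 396) (B (lo111_15_6 (nat_lit 364)) (M (nat_lit 394) (B (lo19_12_0 (nat_lit 393)) (lo111_15_7 (nat_lit 362)))))))) (M (nat_lit 523) (B (M (nat_lit 494) (B (lo114_15_1 (nat_lit 522)) (lo114_15_3 (nat_lit 458)))) (M (nat_lit 524) (B (lo111_13_4 (nat_lit 556)) (lo111_12_4 (nat_lit 395)))))))))) (B (M (nat_lit 459) (B (M (nat_lit 396) (B (lo111_16_6 (nat_lit 523)) (M (nat_lit 395) (B (lo111_12_4 (nat_lit 524)) (lo111_15_6 (nat_lit 364)))))) (B (M (nat_lit 395) (B (lo111_12_4 (nat_lit 524)) (M (nat_lit 396) (B (lo111_15_6 (nat_lit 364)) (M (nat_lit 394) (B (lo19_12_0 (nat_lit 393)) (lo111_15_7 (nat_lit 362)))))))) (B (M (nat_lit 523) (B (lo111_16_6 (nat_lit 396)) (M (nat_lit 494) (B (lo114_15_1 (nat_lit 522)) (M (nat_lit 524) (B (lo111_13_4 (nat_lit 556)) (lo115_15_1 (nat_lit 495)))))))) (B (M (nat_lit 396) (B (lo111_16_6 (nat_lit 523)) (M (nat_lit 395) (B (lo111_15_6 (nat_lit 364)) (M (nat_lit 394) (B (lo19_12_0 (nat_lit 393)) (lo111_15_7 (nat_lit 362)))))))) (M (nat_lit 524) (B (lo111_12_4 (nat_lit 395)) (M (nat_lit 556) (B (lo111_13_4 (nat_lit 523)) (lo112_18_7 (nat_lit 588))))))))))) (B (M (nat_lit 459) (B (M (nat_lit 458) (B (lo114_15_3 (nat_lit 494)) (M (nat_lit 457) (B (lo18_14_0 (nat_lit 456)) (lo113_15_3 (nat_lit 490)))))) (M (nat_lit 395) (B (lo111_12_4 (nat_lit 524)) (M (nat_lit 396) (B (lo111_15_6 (nat_lit 364)) (M (nat_lit 394) (B (lo19_12_0 (nat_lit 393)) (lo111_15_7 (nat_lit 362)))))))))) (B (K _ _ _ o1_s52601) (B (K _ _ _ o1_s52670) (M (nat_lit 459) (B (M (nat_lit 396) (B (lo111_16_6 (nat_lit 523)) (M (nat_lit 395) (B (lo111_12_4 (nat_lit 524)) (lo111_15_6 (nat_lit 364)))))) (B (M (nat_lit 395) (B (lo111_12_4 (nat_lit 524)) (M (nat_lit 396) (B (lo111_15_6 (nat_lit 364)) (M (nat_lit 394) (B (lo19_12_0 (nat_lit 393)) (lo111_15_7 (nat_lit 362)))))))) (B (M (nat_lit 523) (B (lo111_16_6 (nat_lit 396)) (M (nat_lit 522) (B (lo111_13_5 (nat_lit 554)) (M (nat_lit 524) (B (lo19_16_2 (nat_lit 521)) (lo111_13_4 (nat_lit 556)))))))) (B (M (nat_lit 396) (B (lo111_16_6 (nat_lit 523)) (M (nat_lit 395) (B (lo111_15_6 (nat_lit 364)) (M (nat_lit 394) (B (lo19_12_0 (nat_lit 393)) (lo111_15_7 (nat_lit 362)))))))) (M (nat_lit 524) (B (lo111_12_4 (nat_lit 395)) (M (nat_lit 556) (B (lo111_13_4 (nat_lit 523)) (lo112_18_7 (nat_lit 588)))))))))))))))))))))))))) (B (M (nat_lit 426) (B (M (nat_lit 397) (B (lo110_13_2 (nat_lit 398)) (M (nat_lit 425) (B (lo19_13_2 (nat_lit 396)) (M (nat_lit 393) (B (lo112_13_3 (nat_lit 392)) (lo113_13_3 (nat_lit 394)))))))) (B (M (nat_lit 397) (B (lo110_13_2 (nat_lit 398)) (M (nat_lit 425) (B (lo19_13_2 (nat_lit 396)) (M (nat_lit 457) (B (lo112_13_1 (nat_lit 456)) (lo113_13_1 (nat_lit 458)))))))) (B (M (nat_lit 493) (B (M (nat_lit 397) (B (lo110_13_2 (nat_lit 398)) (M (nat_lit 461) (B (lo110_13_0 (nat_lit 462)) (M (nat_lit 396) (B (lo113_16_7 (nat_lit 525)) (lo113_15_7 (nat_lit 364)))))))) (B (M (nat_lit 458) (B (lo113_13_1 (nat_lit 457)) (M (nat_lit 491) (B (M (nat_lit 462) (B (lo110_13_0 (nat_lit 461)) (M (nat_lit 494) (B (lo114_15_3 (nat_lit 459)) (lo111_15_2 (nat_lit 463)))))) (M (nat_lit 490) (B (M (nat_lit 522) (B (lo113_15_1 (nat_lit 521)) (lo110_16_6 (nat_lit 395)))) (M (nat_lit 394) (B (lo113_13_3 (nat_lit 393)) (lo110_12_4 (nat_lit 523)))))))))) (M (nat_lit 458) (B (lo113_13_1 (nat_lit 457)) (M (nat_lit 491) (B (M (nat_lit 459) (B (lo114_15_3 (nat_lit 494)) (M (nat_lit 394) (B (lo113_13_3 (nat_lit 393)) (lo110_11_4 (nat_lit 362)))))) (B (M (nat_lit 459) (B (lo114_15_3 (nat_lit 494)) (M (nat_lit 394) (B (lo110_11_4 (nat_lit 362)) (lo111_16_7 (nat_lit 523)))))) (B (M (nat_lit 459) (B (lo114_15_3 (nat_lit 494)) (M (nat_lit 523) (B (lo111_17_7 (nat_lit 555)) (lo111_16_6 (nat_lit 396)))))) (M (nat_lit 490) (B (M (nat_lit 522) (B (lo113_15_1 (nat_lit 521)) (lo110_16_6 (nat_lit 395)))) (M (nat_lit 394) (B (lo113_13_3 (nat_lit 393)) (lo110_12_4 (nat_lit 523))))))))))))))) (K _ _ _ o1_s52439))))) (B (M (nat_lit 493) (B (M (nat_lit 461) (B (M (nat_lit 397) (B (lo113_12_5 (nat_lit 524)) (M (nat_lit 426) (B (lo110_13_0 (nat_lit 462)) (lo110_13_2 (nat_lit 398)))))) (B (M (nat_lit 524) (B (lo113_12_5 (nat_lit 397)) (M (nat_lit 556) (B (lo112_18_6 (nat_lit 588)) (lo113_13_5 (nat_lit 525)))))) (M (nat_lit 462) (B (lo110_13_0 (nat_lit 426)) (M (nat_lit 463) (B (lo116_14_1 (nat_lit 464)) (M (nat_lit 491) (B (lo110_15_2 (nat_lit 490)) (lo111_15_2 (nat_lit 494))))))))))) (B (M (nat_lit 461) (B (M (nat_lit 524) (B (lo113_12_5 (nat_lit 397)) (M (nat_lit 556) (B (lo112_18_6 (nat_lit 588)) (lo113_13_5 (nat_lit 525)))))) (B (M (nat_lit 397) (B (lo113_12_5 (nat_lit 524)) (M (nat_lit 462) (B (lo110_13_0 (nat_lit 426)) (M (nat_lit 494) (B (lo113_12_4 (nat_lit 526)) (lo113_11_4 (nat_lit 365)))))))) (B (M (nat_lit 462) (B (lo110_13_0 (nat_lit 426)) (M (nat_lit 494) (B (M (nat_lit 463) (B (lo111_15_2 (nat_lit 491)) (lo116_14_1 (nat_lit 464)))) (M (nat_lit 397) (B (lo113_12_4 (nat_lit 526)) (lo113_11_4 (nat_lit 365)))))))) (K _ _ _ o1_s52783))))) (B (K _ _ _ o1_s52690) (B (M (nat_lit 397) (B (M (nat_lit 461) (B (lo113_12_5 (nat_lit 524)) (M (nat_lit 426) (B (lo110_13_0 (nat_lit 462)) (lo110_13_2 (nat_lit 398)))))) (B (M (nat_lit 461) (B (lo113_12_5 (nat_lit 524)) (M (nat_lit 365) (B (M (nat_lit 494) (B (lo113_12_4 (nat_lit 526)) (lo113_11_4 (nat_lit 462)))) (M (nat_lit 366) (B (lo113_15_6 (nat_lit 398)) (lo113_14_6 (nat_lit 334)))))))) (B (M (nat_lit 461) (B (M (nat_lit 426) (B (lo110_13_0 (nat_lit 462)) (lo110_13_2 (nat_lit 398)))) (B (M (nat_lit 365) (B (M (nat_lit 494) (B (lo113_12_4 (nat_lit 526)) (lo113_11_4 (nat_lit 462)))) (M (nat_lit 366) (B (lo113_15_6 (nat_lit 398)) (lo113_14_6 (nat_lit 334)))))) (B (M (nat_lit 398) (B (lo110_13_2 (nat_lit 426)) (lo113_15_6 (nat_lit 366)))) (M (nat_lit 462) (B (lo110_13_0 (nat_lit 426)) (M (nat_lit 494) (B (lo113_12_4 (nat_lit 526)) (lo113_11_4 (nat_lit 365)))))))))) (B (M (nat_lit 426) (B (lo110_13_2 (nat_lit 398)) (M (nat_lit 425) (B (M (nat_lit 457) (B (lo112_13_1 (nat_lit 456)) (lo113_13_1 (nat_lit 458)))) (M (nat_lit 393) (B (lo112_13_3 (nat_lit 392)) (lo113_13_3 (nat_lit 394)))))))) (M (nat_lit 461) (B (lo113_12_5 (nat_lit 524)) (M (nat_lit 462) (B (lo110_13_0 (nat_lit 426)) (M (nat_lit 494) (B (lo113_12_4 (nat_lit 526)) (lo113_11_4 (nat_lit 365))))))))))))) (B (M (nat_lit 494) (B (M (nat_lit 426) (B (M (nat_lit 397) (B (lo110_13_2 (nat_lit 398)) (M (nat_lit 461) (B (lo110_13_0 (nat_lit 462)) (lo113_12_4 (nat_lit 526)))))) (M (nat_lit 425) (B (M (nat_lit 457) (B (lo112_13_1 (nat_lit 456)) (lo113_13_1 (nat_lit 458)))) (M (nat_lit 393) (B (lo112_13_3 (nat_lit 392)) (lo113_13_3 (nat_lit 394)))))))) (B (M (nat_lit 461) (B (M (nat_lit 397) (B (lo113_12_4 (nat_lit 526)) (M (nat_lit 426) (B (lo110_13_0 (nat_lit 462)) (lo110_13_2 (nat_lit 398)))))) (B (M (nat_lit 526) (B (lo113_12_4 (nat_lit 397)) (M (nat_lit 558) (B (lo113_13_4 (nat_lit 525)) (lo114_18_7 (nat_lit 590)))))) (M (nat_lit 462) (B (lo110_13_0 (nat_lit 426)) (M (nat_lit 491) (B (lo110_15_2 (nat_lit 490)) (lo111_15_2 (nat_lit 463))))))))) (B (K _ _ _ o1_s52840) (B (M (nat_lit 491) (B (M (nat_lit 458) (B (lo114_15_3 (nat_lit 459)) (M (nat_lit 457) (B (lo113_15_3 (nat_lit 490)) (lo113_13_1 (nat_lit 426)))))) (M (nat_lit 463) (B (lo111_15_2 (nat_lit 462)) (M (nat_lit 495) (B (lo112_15_2 (nat_lit 464)) (M (nat_lit 527) (B (lo111_15_0 (nat_lit 526)) (lo112_15_0 (nat_lit 528)))))))))) (M (nat_lit 491) (B (M (nat_lit 458) (B (lo114_15_3 (nat_lit 459)) (M (nat_lit 457) (B (lo113_15_3 (nat_lit 490)) (lo113_13_1 (nat_lit 426)))))) (B (M (nat_lit 462) (B (lo111_15_2 (nat_lit 463)) (M (nat_lit 461) (B (lo110_15_2 (nat_lit 490)) (lo110_13_0 (nat_lit 426)))))) (B (M (nat_lit 426) (B (M (nat_lit 458) (B (lo113_13_1 (nat_lit 457)) (lo114_15_3 (nat_lit 459)))) (M (nat_lit 462) (B (lo110_13_0 (nat_lit 461)) (lo111_15_2 (nat_lit 463)))))) (M (nat_lit 490) (B (M (nat_lit 522) (B (lo113_15_1 (nat_lit 521)) (lo114_15_1 (nat_lit 523)))) (M (nat_lit 458) (B (lo113_15_3 (nat_lit 457)) (lo114_15_3 (nat_lit 459))))))))))))))) (B (M (nat_lit 491) (B (M (nat_lit 459) (B (M (nat_lit 458) (B (lo114_15_3 (nat_lit 494)) (M (nat_lit 457) (B (lo18_14_0 (nat_lit 456)) (lo113_13_1 (nat_lit 426)))))) (M (nat_lit 524) (B (lo111_12_4 (nat_lit 395)) (M (nat_lit 556) (B (lo111_13_4 (nat_lit 523)) (lo112_18_7 (nat_lit 588)))))))) (B (M (nat_lit 459) (B (M (nat_lit 524) (B (lo111_12_4 (nat_lit 395)) (M (nat_lit 556) (B (lo111_13_4 (nat_lit 523)) (lo112_18_7 (nat_lit 588)))))) (M (nat_lit 458) (B (lo114_15_3 (nat_lit 494)) (M (nat_lit 457) (B (lo113_15_3 (nat_lit 490)) (lo113_13_1 (nat_lit 426)))))))) (B (M (nat_lit 494) (B (M (nat_lit 524) (B (M (nat_lit 523) (B (lo114_15_1 (nat_lit 522)) (lo115_15_1 (nat_lit 495)))) (M (nat_lit 459) (B (lo114_15_3 (nat_lit 458)) (lo111_12_4 (nat_lit 395)))))) (B (M (nat_lit 463) (B (lo111_15_2 (nat_lit 462)) (M (nat_lit 495) (B (lo112_15_2 (nat_lit 464)) (M (nat_lit 527) (B (lo111_15_0 (nat_lit 526)) (lo112_15_0 (nat_lit 528)))))))) (M (nat_lit 490) (B (M (nat_lit 522) (B (lo113_15_1 (nat_lit 521)) (lo114_15_1 (nat_lit 523)))) (M (nat_lit 526) (B (lo110_15_0 (nat_lit 525)) (lo111_15_0 (nat_lit 527))))))))) (B (K _ _ _ o1_s52601) (B (M (nat_lit 459) (B (M (nat_lit 458) (B (lo114_15_3 (nat_lit 494)) (M (nat_lit 457) (B (lo18_14_0 (nat_lit 456)) (lo113_13_1 (nat_lit 426)))))) (B (M (nat_lit 458) (B (lo114_15_3 (nat_lit 494)) (M (nat_lit 457) (B (lo113_15_3 (nat_lit 490)) (lo113_13_1 (nat_lit 426)))))) (B (M (nat_lit 395) (B (lo111_12_4 (nat_lit 524)) (M (nat_lit 394) (B (lo111_15_7 (nat_lit 362)) (M (nat_lit 393) (B (lo18_12_0 (nat_lit 392)) (lo113_13_3 (nat_lit 426)))))))) (M (nat_lit 458) (B (lo114_15_3 (nat_lit 494)) (M (nat_lit 457) (B (lo18_14_0 (nat_lit 456)) (lo113_15_3 (nat_lit 490)))))))))) (B (K _ _ _ o1_s52597) (M (nat_lit 426) (B (M (nat_lit 394) (B (lo113_13_3 (nat_lit 393)) (M (nat_lit 459) (B (lo111_16_7 (nat_lit 523)) (M (nat_lit 458) (B (lo113_13_1 (nat_lit 457)) (lo110_11_4 (nat_lit 362)))))))) (B (M (nat_lit 394) (B (lo113_13_3 (nat_lit 393)) (M (nat_lit 459) (B (lo111_16_7 (nat_lit 523)) (M (nat_lit 362) (B (lo110_11_4 (nat_lit 458)) (lo110_10_4 (nat_lit 330)))))))) (B (K _ _ _ o1_s52878) (M (nat_lit 394) (B (lo113_13_3 (nat_lit 393)) (M (nat_lit 459) (B (lo111_16_7 (nat_lit 523)) (M (nat_lit 362) (B (lo110_10_4 (nat_lit 330)) (lo111_15_7 (nat_lit 395))))))))))))))))))) (B (M (nat_lit 461) (B (M (nat_lit 524) (B (lo113_12_5 (nat_lit 397)) (M (nat_lit 556) (B (lo112_18_6 (nat_lit 588)) (lo113_13_5 (nat_lit 525)))))) (K _ _ _ o1_s52783))) (M (nat_lit 494) (B (M (nat_lit 426) (B (M (nat_lit 397) (B (lo110_13_2 (nat_lit 398)) (M (nat_lit 461) (B (lo113_12_5 (nat_lit 524)) (lo113_12_4 (nat_lit 526)))))) (M (nat_lit 425) (B (M (nat_lit 457) (B (lo112_13_1 (nat_lit 456)) (lo113_13_1 (nat_lit 458)))) (M (nat_lit 393) (B (lo112_13_3 (nat_lit 392)) (lo113_13_3 (nat_lit 394)))))))) (B (M (nat_lit 491) (B (M (nat_lit 458) (B (lo114_15_3 (nat_lit 459)) (M (nat_lit 457) (B (lo113_15_3 (nat_lit 490)) (lo113_13_1 (nat_lit 426)))))) (M (nat_lit 495) (B (M (nat_lit 523) (B (lo114_15_1 (nat_lit 522)) (lo115_15_1 (nat_lit 524)))) (M (nat_lit 527) (B (lo111_15_0 (nat_lit 526)) (lo112_15_0 (nat_lit 528)))))))) (B (M (nat_lit 524) (B (M (nat_lit 523) (B (lo115_15_1 (nat_lit 495)) (M (nat_lit 522) (B (lo19_16_2 (nat_lit 521)) (lo110_16_2 (nat_lit 525)))))) (B (M (nat_lit 523) (B (lo115_15_1 (nat_lit 495)) (M (nat_lit 522) (B (lo114_15_1 (nat_lit 491)) (lo110_16_2 (nat_lit 525)))))) (B (M (nat_lit 461) (B (lo113_12_5 (nat_lit 397)) (M (nat_lit 556) (B (lo112_18_6 (nat_lit 588)) (lo113_13_5 (nat_lit 525)))))) (M (nat_lit 523) (B (lo115_15_1 (nat_lit 495)) (M (nat_lit 522) (B (lo19_16_2 (nat_lit 521)) (lo114_15_1 (nat_lit 491)))))))))) (K _ _ _ o1_s52840))))))))))))) (B (M (nat_lit 426) (B (M (nat_lit 393) (B (lo113_13_3 (nat_lit 394)) (M (nat_lit 425) (B (lo112_13_3 (nat_lit 392)) (M (nat_lit 457) (B (lo112_13_1 (nat_lit 456)) (lo113_13_1 (nat_lit 458)))))))) (B (M (nat_lit 397) (B (lo110_13_2 (nat_lit 398)) (M (nat_lit 425) (B (lo19_13_2 (nat_lit 396)) (M (nat_lit 393) (B (lo112_13_3 (nat_lit 392)) (lo113_13_3 (nat_lit 394)))))))) (B (M (nat_lit 397) (B (lo110_13_2 (nat_lit 398)) (M (nat_lit 425) (B (lo19_13_2 (nat_lit 396)) (M (nat_lit 457) (B (lo112_13_1 (nat_lit 456)) (lo113_13_1 (nat_lit 458)))))))) (M (nat_lit 493) (B (M (nat_lit 397) (B (lo110_13_2 (nat_lit 398)) (M (nat_lit 461) (B (lo110_13_0 (nat_lit 462)) (lo113_12_5 (nat_lit 524)))))) (M (nat_lit 458) (B (lo113_13_1 (nat_lit 457)) (M (nat_lit 491) (B (M (nat_lit 459) (B (lo114_15_3 (nat_lit 494)) (M (nat_lit 394) (B (lo113_13_3 (nat_lit 393)) (lo110_11_4 (nat_lit 362)))))) (B (M (nat_lit 459) (B (lo114_15_3 (nat_lit 494)) (M (nat_lit 394) (B (lo110_11_4 (nat_lit 362)) (lo111_16_7 (nat_lit 523)))))) (B (M (nat_lit 522) (B (M (nat_lit 490) (B (lo113_15_1 (nat_lit 521)) (lo110_16_6 (nat_lit 395)))) (M (nat_lit 494) (B (lo114_15_1 (nat_lit 523)) (lo114_15_3 (nat_lit 459)))))) (M (nat_lit 490) (B (M (nat_lit 522) (B (lo113_15_1 (nat_lit 521)) (lo110_16_6 (nat_lit 395)))) (M (nat_lit 394) (B (lo113_13_3 (nat_lit 393)) (lo110_12_4 (nat_lit 523)))))))))))))))))) (B (M (nat_lit 426) (B (M (nat_lit 425) (B (M (nat_lit 393) (B (lo112_13_3 (nat_lit 392)) (lo113_13_3 (nat_lit 394)))) (M (nat_lit 397) (B (lo19_13_2 (nat_lit 396)) (lo110_13_2 (nat_lit 398)))))) (B (M (nat_lit 425) (B (M (nat_lit 457) (B (lo112_13_1 (nat_lit 456)) (lo113_13_1 (nat_lit 458)))) (M (nat_lit 397) (B (lo19_13_2 (nat_lit 396)) (lo110_13_2 (nat_lit 398)))))) (M (nat_lit 458) (B (lo113_13_1 (nat_lit 457)) (M (nat_lit 394) (B (lo113_13_3 (nat_lit 393)) (M (nat_lit 490) (B (M (nat_lit 395) (B (lo110_16_6 (nat_lit 522)) (lo110_15_6 (nat_lit 363)))) (B (M (nat_lit 362) (B (M (nat_lit 491) (B (lo110_12_4 (nat_lit 523)) (lo110_11_4 (nat_lit 459)))) (M (nat_lit 363) (B (lo110_15_6 (nat_lit 395)) (lo110_14_6 (nat_lit 331)))))) (M (nat_lit 522) (B (M (nat_lit 521) (B (lo110_13_5 (nat_lit 553)) (lo110_12_5 (nat_lit 489)))) (M (nat_lit 523) (B (lo110_13_4 (nat_lit 555)) (lo110_12_4 (nat_lit 491)))))))))))))))) (M (nat_lit 426) (B (M (nat_lit 393) (B (lo113_13_3 (nat_lit 394)) (M (nat_lit 425) (B (lo112_13_3 (nat_lit 392)) (M (nat_lit 457) (B (lo112_13_1 (nat_lit 456)) (lo113_13_1 (nat_lit 458)))))))) (B (M (nat_lit 459) (B (M (nat_lit 458) (B (lo113_13_1 (nat_lit 457)) (M (nat_lit 394) (B (lo113_13_3 (nat_lit 393)) (M (nat_lit 491) (B (lo110_11_4 (nat_lit 362)) (lo111_16_7 (nat_lit 523)))))))) (B (M (nat_lit 394) (B (lo113_13_3 (nat_lit 393)) (M (nat_lit 491) (B (lo111_16_7 (nat_lit 523)) (M (nat_lit 362) (B (lo110_11_4 (nat_lit 458)) (lo110_10_4 (nat_lit 330)))))))) (B (M (nat_lit 395) (B (M (nat_lit 458) (B (lo113_13_1 (nat_lit 457)) (M (nat_lit 490) (B (lo110_16_6 (nat_lit 522)) (lo111_11_5 (nat_lit 363)))))) (M (nat_lit 491) (B (lo111_12_4 (nat_lit 524)) (M (nat_lit 523) (B (lo111_16_7 (nat_lit 394)) (lo111_16_6 (nat_lit 396)))))))) (B (M (nat_lit 394) (B (lo113_13_3 (nat_lit 393)) (M (nat_lit 362) (B (lo110_10_4 (nat_lit 330)) (M (nat_lit 491) (B (lo111_16_7 (nat_lit 523)) (lo111_15_7 (nat_lit 395)))))))) (B (M (nat_lit 395) (B (M (nat_lit 458) (B (lo113_13_1 (nat_lit 457)) (M (nat_lit 490) (B (lo110_16_6 (nat_lit 522)) (lo111_11_5 (nat_lit 363)))))) (M (nat_lit 491) (B (lo111_12_4 (nat_lit 524)) (M (nat_lit 396) (B (lo111_16_6 (nat_lit 523)) (lo111_15_6 (nat_lit 364)))))))) (B (M (nat_lit 394) (B (lo113_13_3 (nat_lit 393)) (M (nat_lit 458) (B (lo113_13_1 (nat_lit 457)) (M (nat_lit 362) (B (lo110_11_4 (nat_lit 491)) (lo110_10_4 (nat_lit 330)))))))) (M (nat_lit 458) (B (lo113_13_1 (nat_lit 457)) (M (nat_lit 395) (B (M (nat_lit 490) (B (lo110_16_6 (nat_lit 522)) (lo111_11_5 (nat_lit 363)))) (M (nat_lit 425) (B (M (nat_lit 424) (B (lo17_13_0 (nat_lit 423)) (lo18_13_2 (nat_lit 396)))) (M (nat_lit 393) (B (lo112_13_3 (nat_lit 392)) (lo113_13_3 (nat_lit 394))))))))))))))))) (B (M (nat_lit 394) (B (lo113_13_3 (nat_lit 393)) (M (nat_lit 458) (B (lo113_13_1 (nat_lit 457)) (M (nat_lit 491) (B (M (nat_lit 523) (B (lo110_12_4 (nat_lit 490)) (lo111_16_7 (nat_lit 459)))) (B (M (nat_lit 459) (B (lo110_11_4 (nat_lit 362)) (lo111_16_7 (nat_lit 523)))) (B (M (nat_lit 395) (B (M (nat_lit 490) (B (lo110_16_6 (nat_lit 522)) (lo110_15_6 (nat_lit 363)))) (M (nat_lit 459) (B (lo110_11_4 (nat_lit 362)) (lo111_12_4 (nat_lit 524)))))) (M (nat_lit 490) (B (lo110_12_4 (nat_lit 523)) (M (nat_lit 395) (B (lo110_16_6 (nat_lit 522)) (lo110_15_6 (nat_lit 363)))))))))))))) (B (M (nat_lit 491) (B (M (nat_lit 461) (B (lo110_13_0 (nat_lit 462)) (M (nat_lit 394) (B (lo113_13_3 (nat_lit 393)) (M (nat_lit 459) (B (lo111_16_7 (nat_lit 523)) (M (nat_lit 362) (B (lo110_11_4 (nat_lit 458)) (lo110_10_4 (nat_lit 330)))))))))) (B (M (nat_lit 459) (B (M (nat_lit 523) (B (lo111_16_7 (nat_lit 394)) (lo111_16_6 (nat_lit 396)))) (B (M (nat_lit 396) (B (lo111_16_6 (nat_lit 523)) (M (nat_lit 395) (B (lo111_12_4 (nat_lit 524)) (lo111_15_6 (nat_lit 364)))))) (B (K _ _ _ o1_s53020) (M (nat_lit 394) (B (lo111_16_7 (nat_lit 523)) (M (nat_lit 362) (B (lo110_11_4 (nat_lit 458)) (lo110_10_4 (nat_lit 330)))))))))) (B (M (nat_lit 459) (B (M (nat_lit 394) (B (lo113_13_3 (nat_lit 393)) (lo111_16_7 (nat_lit 523)))) (B (M (nat_lit 394) (B (lo111_16_7 (nat_lit 523)) (M (nat_lit 362) (B (lo110_10_4 (nat_lit 330)) (lo111_15_7 (nat_lit 395)))))) (B (M (nat_lit 524) (B (lo111_12_4 (nat_lit 395)) (M (nat_lit 556) (B (lo111_13_4 (nat_lit 523)) (lo112_18_7 (nat_lit 588)))))) (M (nat_lit 394) (B (lo113_13_3 (nat_lit 393)) (M (nat_lit 362) (B (lo110_10_4 (nat_lit 330)) (lo111_15_7 (nat_lit 395)))))))))) (B (M (nat_lit 459) (B (M (nat_lit 396) (B (lo111_16_6 (nat_lit 523)) (M (nat_lit 395) (B (lo111_12_4 (nat_lit 524)) (lo111_15_6 (nat_lit 364)))))) (B (K _ _ _ o1_s53020) (B (M (nat_lit 493) (B (M (nat_lit 396) (B (lo111_16_6 (nat_lit 523)) (M (nat_lit 461) (B (lo110_13_0 (nat_lit 462)) (lo113_16_7 (nat_lit 525)))))) (B (M (nat_lit 462) (B (lo110_13_0 (nat_lit 461)) (M (nat_lit 494) (B (lo114_15_3 (nat_lit 458)) (lo111_15_2 (nat_lit 463)))))) (M (nat_lit 458) (B (lo114_15_3 (nat_lit 494)) (M (nat_lit 523) (B (lo111_17_7 (nat_lit 555)) (lo111_16_6 (nat_lit 396))))))))) (M (nat_lit 461) (B (lo110_13_0 (nat_lit 462)) (M (nat_lit 524) (B (lo111_12_4 (nat_lit 395)) (M (nat_lit 556) (B (lo111_13_4 (nat_lit 523)) (lo112_18_7 (nat_lit 588)))))))))))) (B (M (nat_lit 459) (B (M (nat_lit 394) (B (lo113_13_3 (nat_lit 393)) (M (nat_lit 362) (B (lo110_11_4 (nat_lit 458)) (lo110_10_4 (nat_lit 330)))))) (B (K _ _ _ o1_s53020) (M (nat_lit 394) (B (lo113_13_3 (nat_lit 393)) (M (nat_lit 362) (B (lo110_10_4 (nat_lit 330)) (lo111_15_7 (nat_lit 395))))))))) (M (nat_lit 490) (B (M (nat_lit 394) (B (lo113_13_3 (nat_lit 393)) (M (nat_lit 458) (B (lo110_12_4 (nat_lit 523)) (M (nat_lit 395) (B (lo110_16_6 (nat_lit 522)) (lo110_15_6 (nat_lit 363)))))))) (B (M (nat_lit 493) (B (M (nat_lit 461) (B (lo110_15_2 (nat_lit 462)) (M (nat_lit 525) (B (lo110_15_0 (nat_lit 526)) (lo113_16_7 (nat_lit 396)))))) (B (M (nat_lit 494) (B (M (nat_lit 522) (B (lo113_15_1 (nat_lit 521)) (lo114_15_1 (nat_lit 523)))) (M (nat_lit 462) (B (lo110_15_2 (nat_lit 461)) (lo111_15_2 (nat_lit 463)))))) (M (nat_lit 494) (B (M (nat_lit 522) (B (lo113_15_1 (nat_lit 521)) (lo114_15_1 (nat_lit 523)))) (M (nat_lit 526) (B (lo110_15_0 (nat_lit 525)) (lo111_15_0 (nat_lit 527))))))))) (B (M (nat_lit 489) (B (M (nat_lit 394) (B (lo113_13_3 (nat_lit 393)) (M (nat_lit 521) (B (lo112_15_1 (nat_lit 520)) (lo110_12_5 (nat_lit 458)))))) (B (M (nat_lit 394) (B (lo113_13_3 (nat_lit 393)) (M (nat_lit 458) (B (lo110_12_5 (nat_lit 521)) (lo110_12_4 (nat_lit 523)))))) (B (M (nat_lit 523) (B (M (nat_lit 524) (B (lo18_15_0 (nat_lit 488)) (lo19_15_0 (nat_lit 525)))) (M (nat_lit 394) (B (lo113_13_3 (nat_lit 393)) (lo110_12_4 (nat_lit 458)))))) (M (nat_lit 488) (B (M (nat_lit 520) (B (lo111_15_1 (nat_lit 519)) (lo112_15_1 (nat_lit 521)))) (M (nat_lit 524) (B (lo18_15_0 (nat_lit 523)) (lo19_15_0 (nat_lit 525)))))))))) (M (nat_lit 522) (B (M (nat_lit 521) (B (lo113_15_1 (nat_lit 493)) (M (nat_lit 458) (B (lo110_13_5 (nat_lit 553)) (lo110_16_6 (nat_lit 395)))))) (B (M (nat_lit 521) (B (lo113_15_1 (nat_lit 493)) (M (nat_lit 520) (B (lo17_16_2 (nat_lit 519)) (lo112_15_1 (nat_lit 489)))))) (M (nat_lit 458) (B (lo110_16_6 (nat_lit 395)) (M (nat_lit 393) (B (lo110_16_7 (nat_lit 425)) (lo113_13_3 (nat_lit 394))))))))))))))))))) (B (M (nat_lit 493) (B (K _ _ _ o1_s53097) (B (M (nat_lit 491) (B (M (nat_lit 461) (B (lo110_13_0 (nat_lit 462)) (M (nat_lit 525) (B (lo113_16_7 (nat_lit 396)) (M (nat_lit 526) (B (lo110_15_0 (nat_lit 490)) (lo113_13_4 (nat_lit 558)))))))) (B (M (nat_lit 459) (B (M (nat_lit 458) (B (lo113_13_1 (nat_lit 457)) (lo114_15_3 (nat_lit 494)))) (M (nat_lit 523) (B (lo111_16_7 (nat_lit 394)) (lo111_16_6 (nat_lit 396)))))) (M (nat_lit 458) (B (lo113_13_1 (nat_lit 457)) (M (nat_lit 459) (B (lo114_15_3 (nat_lit 494)) (M (nat_lit 394) (B (lo110_11_4 (nat_lit 362)) (lo111_16_7 (nat_lit 523))))))))))) (B (M (nat_lit 491) (B (M (nat_lit 462) (B (lo110_13_0 (nat_lit 461)) (M (nat_lit 458) (B (lo113_13_1 (nat_lit 457)) (M (nat_lit 494) (B (lo114_15_3 (nat_lit 459)) (lo111_15_2 (nat_lit 463)))))))) (B (M (nat_lit 459) (B (M (nat_lit 394) (B (lo111_16_7 (nat_lit 523)) (M (nat_lit 458) (B (lo110_11_4 (nat_lit 362)) (lo114_15_3 (nat_lit 494)))))) (B (M (nat_lit 394) (B (lo111_16_7 (nat_lit 523)) (M (nat_lit 395) (B (lo111_15_7 (nat_lit 362)) (lo111_12_4 (nat_lit 524)))))) (M (nat_lit 462) (B (lo110_13_0 (nat_lit 461)) (M (nat_lit 494) (B (lo114_15_3 (nat_lit 458)) (lo111_15_2 (nat_lit 463))))))))) (B (K _ _ _ o1_s53129) (B (M (nat_lit 458) (B (lo113_13_1 (nat_lit 457)) (M (nat_lit 459) (B (lo114_15_3 (nat_lit 494)) (M (nat_lit 394) (B (lo110_11_4 (nat_lit 362)) (lo111_16_7 (nat_lit 523)))))))) (K _ _ _ o1_s52878)))))) (B (M (nat_lit 491) (B (M (nat_lit 462) (B (lo110_13_0 (nat_lit 461)) (M (nat_lit 458) (B (lo113_13_1 (nat_lit 457)) (M (nat_lit 494) (B (lo114_15_3 (nat_lit 459)) (lo111_15_2 (nat_lit 463)))))))) (B (M (nat_lit 459) (B (M (nat_lit 394) (B (lo111_16_7 (nat_lit 523)) (M (nat_lit 458) (B (lo110_11_4 (nat_lit 362)) (lo114_15_3 (nat_lit 494)))))) (B (M (nat_lit 394) (B (lo111_16_7 (nat_lit 523)) (M (nat_lit 362) (B (lo110_10_4 (nat_lit 330)) (lo111_15_7 (nat_lit 395)))))) (M (nat_lit 462) (B (lo110_13_0 (nat_lit 461)) (M (nat_lit 494) (B (lo114_15_3 (nat_lit 458)) (lo111_15_2 (nat_lit 463))))))))) (B (M (nat_lit 462) (B (lo110_13_0 (nat_lit 461)) (M (nat_lit 523) (B (M (nat_lit 494) (B (lo114_15_1 (nat_lit 522)) (lo111_15_2 (nat_lit 463)))) (M (nat_lit 459) (B (lo111_16_7 (nat_lit 394)) (lo111_16_6 (nat_lit 396)))))))) (B (K _ _ _ o1_s53129) (B (M (nat_lit 459) (B (M (nat_lit 458) (B (lo113_13_1 (nat_lit 457)) (lo114_15_3 (nat_lit 494)))) (M (nat_lit 523) (B (lo111_16_7 (nat_lit 394)) (lo111_16_6 (nat_lit 396)))))) (K _ _ _ o1_s53153))))))) (B (M (nat_lit 491) (B (M (nat_lit 458) (B (lo113_13_1 (nat_lit 457)) (M (nat_lit 459) (B (lo114_15_3 (nat_lit 494)) (M (nat_lit 394) (B (lo110_11_4 (nat_lit 362)) (lo111_16_7 (nat_lit 523)))))))) (B (M (nat_lit 494) (B (M (nat_lit 459) (B (lo114_15_3 (nat_lit 458)) (M (nat_lit 523) (B (lo114_15_1 (nat_lit 522)) (lo111_16_7 (nat_lit 394)))))) (M (nat_lit 495) (B (M (nat_lit 527) (B (lo111_15_0 (nat_lit 526)) (lo112_15_0 (nat_lit 528)))) (M (nat_lit 463) (B (lo111_15_2 (nat_lit 462)) (lo112_15_2 (nat_lit 464)))))))) (B (M (nat_lit 494) (B (M (nat_lit 523) (B (lo114_15_1 (nat_lit 522)) (M (nat_lit 459) (B (lo111_16_7 (nat_lit 394)) (lo111_16_6 (nat_lit 396)))))) (M (nat_lit 495) (B (M (nat_lit 527) (B (lo111_15_0 (nat_lit 526)) (lo112_15_0 (nat_lit 528)))) (M (nat_lit 463) (B (lo111_15_2 (nat_lit 462)) (lo112_15_2 (nat_lit 464)))))))) (B (M (nat_lit 458) (B (lo113_13_1 (nat_lit 457)) (M (nat_lit 522) (B (M (nat_lit 490) (B (lo113_15_1 (nat_lit 521)) (lo110_16_6 (nat_lit 395)))) (M (nat_lit 494) (B (lo114_15_1 (nat_lit 523)) (lo114_15_3 (nat_lit 459)))))))) (B (M (nat_lit 494) (B (M (nat_lit 458) (B (lo113_13_1 (nat_lit 457)) (lo114_15_3 (nat_lit 459)))) (M (nat_lit 495) (B (M (nat_lit 527) (B (lo111_15_0 (nat_lit 526)) (lo112_15_0 (nat_lit 528)))) (M (nat_lit 463) (B (lo111_15_2 (nat_lit 462)) (lo112_15_2 (nat_lit 464)))))))) (B (M (nat_lit 490) (B (M (nat_lit 457) (B (lo113_15_3 (nat_lit 458)) (M (nat_lit 456) (B (lo112_15_3 (nat_lit 489)) (lo112_13_1 (nat_lit 425)))))) (B (M (nat_lit 458) (B (lo113_15_3 (nat_lit 457)) (M (nat_lit 522) (B (lo113_15_1 (nat_lit 521)) (lo110_16_6 (nat_lit 395)))))) (M (nat_lit 494) (B (M (nat_lit 522) (B (lo113_15_1 (nat_lit 521)) (lo114_15_1 (nat_lit 523)))) (M (nat_lit 526) (B (lo110_15_0 (nat_lit 525)) (lo111_15_0 (nat_lit 527))))))))) (K _ _ _ o1_s53153)))))))) (B (M (nat_lit 491) (B (M (nat_lit 462) (B (lo110_13_0 (nat_lit 461)) (M (nat_lit 458) (B (lo113_13_1 (nat_lit 457)) (M (nat_lit 494) (B (lo114_15_3 (nat_lit 459)) (lo111_15_2 (nat_lit 463)))))))) (B (M (nat_lit 396) (B (M (nat_lit 461) (B (lo110_13_0 (nat_lit 462)) (lo113_16_7 (nat_lit 525)))) (M (nat_lit 459) (B (lo111_16_6 (nat_lit 523)) (M (nat_lit 395) (B (lo111_12_4 (nat_lit 524)) (lo111_15_6 (nat_lit 364)))))))) (B (M (nat_lit 490) (B (M (nat_lit 457) (B (lo113_15_3 (nat_lit 458)) (M (nat_lit 456) (B (lo112_15_3 (nat_lit 489)) (lo112_13_1 (nat_lit 425)))))) (B (M (nat_lit 458) (B (lo113_15_3 (nat_lit 457)) (M (nat_lit 522) (B (lo113_15_1 (nat_lit 521)) (lo110_16_6 (nat_lit 395)))))) (M (nat_lit 494) (B (M (nat_lit 522) (B (lo113_15_1 (nat_lit 521)) (lo114_15_1 (nat_lit 523)))) (M (nat_lit 462) (B (lo110_15_2 (nat_lit 461)) (lo111_15_2 (nat_lit 463))))))))) (M (nat_lit 459) (B (M (nat_lit 458) (B (lo113_13_1 (nat_lit 457)) (lo114_15_3 (nat_lit 494)))) (M (nat_lit 523) (B (lo111_16_7 (nat_lit 394)) (lo111_16_6 (nat_lit 396)))))))))) (M (nat_lit 491) (B (M (nat_lit 458) (B (lo113_13_1 (nat_lit 457)) (M (nat_lit 459) (B (lo114_15_3 (nat_lit 494)) (M (nat_lit 394) (B (lo110_11_4 (nat_lit 362)) (lo111_16_7 (nat_lit 523)))))))) (B (M (nat_lit 524) (B (M (nat_lit 459) (B (lo111_12_4 (nat_lit 395)) (M (nat_lit 523) (B (lo111_16_7 (nat_lit 394)) (lo111_16_6 (nat_lit 396)))))) (B (M (nat_lit 459) (B (lo111_12_4 (nat_lit 395)) (M (nat_lit 523) (B (lo111_13_4 (nat_lit 556)) (lo111_16_6 (nat_lit 396)))))) (B (M (nat_lit 525) (B (M (nat_lit 490) (B (lo19_15_0 (nat_lit 489)) (lo110_15_0 (nat_lit 526)))) (M (nat_lit 461) (B (lo113_13_5 (nat_lit 556)) (lo113_16_7 (nat_lit 396)))))) (M (nat_lit 459) (B (lo111_12_4 (nat_lit 395)) (M (nat_lit 523) (B (lo111_16_7 (nat_lit 394)) (lo111_13_4 (nat_lit 556)))))))))) (B (K _ _ _ o1_s53203) (B (M (nat_lit 524) (B (M (nat_lit 459) (B (lo111_12_4 (nat_lit 395)) (M (nat_lit 458) (B (lo113_13_1 (nat_lit 457)) (lo114_15_3 (nat_lit 494)))))) (M (nat_lit 525) (B (M (nat_lit 490) (B (lo19_15_0 (nat_lit 489)) (lo110_15_0 (nat_lit 526)))) (M (nat_lit 461) (B (lo113_13_5 (nat_lit 556)) (lo113_16_7 (nat_lit 396)))))))) (M (nat_lit 490) (B (M (nat_lit 457) (B (lo113_15_3 (nat_lit 458)) (M (nat_lit 456) (B (lo112_15_3 (nat_lit 489)) (lo112_13_1 (nat_lit 425)))))) (M (nat_lit 494) (B (M (nat_lit 522) (B (lo113_15_1 (nat_lit 521)) (lo114_15_1 (nat_lit 523)))) (M (nat_lit 526) (B (lo110_15_0 (nat_lit 525)) (lo111_15_0 (nat_lit 527)))))))))))))))))))) (B (M (nat_lit 461) (B (lo110_13_0 (nat_lit 462)) (M (nat_lit 425) (B (M (nat_lit 393) (B (lo112_13_3 (nat_lit 392)) (lo113_13_3 (nat_lit 394)))) (B (M (nat_lit 394) (B (lo113_13_3 (nat_lit 393)) (M (nat_lit 424) (B (M (nat_lit 456) (B (lo111_13_1 (nat_lit 455)) (lo112_13_1 (nat_lit 457)))) (M (nat_lit 395) (B (lo17_13_2 (nat_lit 423)) (lo18_13_2 (nat_lit 396)))))))) (B (M (nat_lit 424) (B (M (nat_lit 456) (B (lo111_13_1 (nat_lit 455)) (lo112_13_1 (nat_lit 457)))) (M (nat_lit 423) (B (M (nat_lit 391) (B (lo110_13_3 (nat_lit 390)) (lo111_13_3 (nat_lit 392)))) (M (nat_lit 395) (B (lo17_13_2 (nat_lit 394)) (lo18_13_2 (nat_lit 396)))))))) (M (nat_lit 456) (B (lo112_13_1 (nat_lit 457)) (M (nat_lit 424) (B (lo111_13_1 (nat_lit 455)) (M (nat_lit 392) (B (lo111_13_3 (nat_lit 391)) (lo112_13_3 (nat_lit 393)))))))))))))) (M (nat_lit 493) (B (M (nat_lit 396) (B (M (nat_lit 461) (B (lo110_13_0 (nat_lit 462)) (lo113_16_7 (nat_lit 525)))) (M (nat_lit 425) (B (M (nat_lit 457) (B (lo112_13_1 (nat_lit 456)) (lo113_13_1 (nat_lit 458)))) (M (nat_lit 424) (B (lo18_13_2 (nat_lit 395)) (M (nat_lit 392) (B (lo111_13_3 (nat_lit 391)) (lo112_13_3 (nat_lit 393)))))))))) (B (K _ _ _ o1_s53097) (B (M (nat_lit 491) (B (M (nat_lit 462) (B (lo110_13_0 (nat_lit 461)) (M (nat_lit 458) (B (lo113_13_1 (nat_lit 457)) (M (nat_lit 494) (B (lo114_15_3 (nat_lit 459)) (lo111_15_2 (nat_lit 463)))))))) (B (M (nat_lit 459) (B (M (nat_lit 462) (B (lo110_13_0 (nat_lit 461)) (M (nat_lit 494) (B (lo114_15_3 (nat_lit 458)) (lo111_15_2 (nat_lit 463)))))) (M (nat_lit 524) (B (lo111_12_4 (nat_lit 395)) (M (nat_lit 556) (B (lo111_13_4 (nat_lit 523)) (lo112_18_7 (nat_lit 588)))))))) (B (K _ _ _ o1_s53129) (B (M (nat_lit 459) (B (M (nat_lit 458) (B (lo113_13_1 (nat_lit 457)) (lo114_15_3 (nat_lit 494)))) (M (nat_lit 524) (B (lo111_12_4 (nat_lit 395)) (M (nat_lit 556) (B (lo111_13_4 (nat_lit 523)) (lo112_18_7 (nat_lit 588)))))))) (K _ _ _ o1_s52878)))))) (B (M (nat_lit 491) (B (M (nat_lit 462) (B (lo110_13_0 (nat_lit 461)) (M (nat_lit 458) (B (lo113_13_1 (nat_lit 457)) (M (nat_lit 494) (B (lo114_15_3 (nat_lit 459)) (lo111_15_2 (nat_lit 463)))))))) (B (M (nat_lit 459) (B (M (nat_lit 462) (B (lo110_13_0 (nat_lit 461)) (M (nat_lit 494) (B (lo114_15_3 (nat_lit 458)) (lo111_15_2 (nat_lit 463)))))) (B (M (nat_lit 494) (B (M (nat_lit 523) (B (lo114_15_1 (nat_lit 522)) (lo111_16_6 (nat_lit 396)))) (M (nat_lit 462) (B (lo110_13_0 (nat_lit 461)) (lo111_15_2 (nat_lit 463)))))) (B (M (nat_lit 494) (B (lo114_15_3 (nat_lit 458)) (M (nat_lit 523) (B (lo114_15_1 (nat_lit 522)) (lo111_16_6 (nat_lit 396)))))) (M (nat_lit 524) (B (lo111_12_4 (nat_lit 395)) (M (nat_lit 523) (B (lo111_13_4 (nat_lit 556)) (lo111_16_6 (nat_lit 396)))))))))) (B (K _ _ _ o1_s53129) (B (K _ _ _ o1_s53203) (M (nat_lit 522) (B (M (nat_lit 458) (B (lo113_13_1 (nat_lit 457)) (M (nat_lit 490) (B (lo113_15_1 (nat_lit 521)) (lo110_16_6 (nat_lit 395)))))) (B (M (nat_lit 459) (B (M (nat_lit 523) (B (lo111_13_5 (nat_lit 554)) (lo111_16_6 (nat_lit 396)))) (M (nat_lit 395) (B (lo111_12_5 (nat_lit 490)) (lo111_12_4 (nat_lit 524)))))) (M (nat_lit 523) (B (M (nat_lit 521) (B (lo18_16_2 (nat_lit 520)) (lo19_16_2 (nat_lit 524)))) (M (nat_lit 459) (B (lo111_13_5 (nat_lit 554)) (lo111_16_6 (nat_lit 396)))))))))))))) (M (nat_lit 491) (B (M (nat_lit 458) (B (lo113_13_1 (nat_lit 457)) (M (nat_lit 459) (B (lo114_15_3 (nat_lit 494)) (M (nat_lit 523) (B (lo111_17_7 (nat_lit 555)) (lo111_16_6 (nat_lit 396)))))))) (B (M (nat_lit 523) (B (M (nat_lit 459) (B (lo111_16_6 (nat_lit 396)) (M (nat_lit 522) (B (lo111_13_5 (nat_lit 554)) (lo114_15_1 (nat_lit 494)))))) (B (M (nat_lit 459) (B (lo111_16_6 (nat_lit 396)) (M (nat_lit 458) (B (lo111_17_7 (nat_lit 555)) (lo114_15_3 (nat_lit 494)))))) (B (M (nat_lit 522) (B (lo114_15_1 (nat_lit 494)) (M (nat_lit 521) (B (lo18_16_2 (nat_lit 520)) (lo19_16_2 (nat_lit 524)))))) (M (nat_lit 459) (B (lo111_16_6 (nat_lit 396)) (M (nat_lit 524) (B (lo111_13_4 (nat_lit 556)) (lo111_12_4 (nat_lit 395)))))))))) (B (M (nat_lit 523) (B (M (nat_lit 459) (B (lo111_16_6 (nat_lit 396)) (M (nat_lit 522) (B (lo111_13_5 (nat_lit 554)) (lo114_15_1 (nat_lit 494)))))) (B (M (nat_lit 459) (B (lo111_16_6 (nat_lit 396)) (M (nat_lit 524) (B (lo111_13_4 (nat_lit 556)) (lo111_12_4 (nat_lit 395)))))) (M (nat_lit 522) (B (lo114_15_1 (nat_lit 494)) (M (nat_lit 521) (B (lo18_16_2 (nat_lit 520)) (lo19_16_2 (nat_lit 524))))))))) (K _ _ _ o1_s52878))))))))))))))))))))))))))) (B (M (nat_lit 524) (B (M (nat_lit 460) (B (lo112_16_6 (nat_lit 397)) (M (nat_lit 556) (B (lo112_17_6 (nat_lit 461)) (M (nat_lit 557) (B (lo112_14_4 (nat_lit 589)) (lo112_13_4 (nat_lit 525)))))))) (B (M (nat_lit 460) (B (lo112_16_6 (nat_lit 397)) (K _ _ _ o1_s53309))) (B (M (nat_lit 493) (B (M (nat_lit 461) (B (lo113_12_5 (nat_lit 397)) (M (nat_lit 556) (B (lo112_18_6 (nat_lit 588)) (lo113_13_5 (nat_lit 525)))))) (B (K _ _ _ o1_s28077) (B (M (nat_lit 461) (B (lo113_12_5 (nat_lit 397)) (M (nat_lit 491) (B (M (nat_lit 462) (B (lo110_15_2 (nat_lit 490)) (M (nat_lit 463) (B (lo111_15_2 (nat_lit 494)) (lo116_14_1 (nat_lit 464)))))) (B (M (nat_lit 494) (B (M (nat_lit 523) (B (lo114_15_1 (nat_lit 522)) (lo115_15_1 (nat_lit 495)))) (M (nat_lit 526) (B (lo111_15_0 (nat_lit 527)) (M (nat_lit 558) (B (lo114_18_7 (nat_lit 590)) (lo114_17_7 (nat_lit 462)))))))) (B (M (nat_lit 490) (B (lo110_15_2 (nat_lit 462)) (M (nat_lit 525) (B (lo19_15_0 (nat_lit 489)) (lo110_15_0 (nat_lit 526)))))) (M (nat_lit 458) (B (M (nat_lit 494) (B (lo114_15_3 (nat_lit 459)) (M (nat_lit 523) (B (lo114_15_1 (nat_lit 522)) (lo115_15_1 (nat_lit 495)))))) (M (nat_lit 490) (B (lo113_15_3 (nat_lit 457)) (M (nat_lit 525) (B (lo19_15_0 (nat_lit 489)) (lo110_15_0 (nat_lit 526)))))))))))))) (B (M (nat_lit 461) (B (lo113_12_5 (nat_lit 397)) (M (nat_lit 491) (B (M (nat_lit 462) (B (lo110_15_2 (nat_lit 490)) (M (nat_lit 463) (B (lo111_15_2 (nat_lit 494)) (lo116_14_1 (nat_lit 464)))))) (B (M (nat_lit 427) (B (M (nat_lit 459) (B (lo111_12_4 (nat_lit 395)) (M (nat_lit 556) (B (lo111_13_4 (nat_lit 523)) (lo112_18_7 (nat_lit 588)))))) (M (nat_lit 462) (B (lo110_13_0 (nat_lit 426)) (M (nat_lit 463) (B (lo111_15_2 (nat_lit 494)) (lo116_14_1 (nat_lit 464)))))))) (B (M (nat_lit 556) (B (lo112_18_6 (nat_lit 588)) (M (nat_lit 427) (B (M (nat_lit 462) (B (lo110_15_2 (nat_lit 490)) (lo110_13_0 (nat_lit 426)))) (M (nat_lit 459) (B (lo111_13_4 (nat_lit 523)) (lo111_12_4 (nat_lit 395)))))))) (M (nat_lit 459) (B (M (nat_lit 458) (B (lo114_15_3 (nat_lit 494)) (M (nat_lit 457) (B (lo18_14_0 (nat_lit 456)) (lo113_15_3 (nat_lit 490)))))) (B (M (nat_lit 494) (B (lo114_15_3 (nat_lit 458)) (M (nat_lit 523) (B (lo114_15_1 (nat_lit 522)) (lo115_15_1 (nat_lit 495)))))) (M (nat_lit 427) (B (lo111_12_4 (nat_lit 395)) (M (nat_lit 556) (B (lo111_13_4 (nat_lit 523)) (lo112_18_7 (nat_lit 588))))))))))))))) (M (nat_lit 494) (B (M (nat_lit 523) (B (lo115_15_1 (nat_lit 495)) (M (nat_lit 522) (B (lo19_16_2 (nat_lit 521)) (lo110_16_2 (nat_lit 525)))))) (B (M (nat_lit 491) (B (M (nat_lit 523) (B (lo114_15_1 (nat_lit 522)) (lo115_15_1 (nat_lit 495)))) (B (M (nat_lit 459) (B (lo114_15_3 (nat_lit 458)) (M (nat_lit 427) (B (lo111_12_4 (nat_lit 395)) (M (nat_lit 523) (B (lo111_13_4 (nat_lit 556)) (lo115_15_1 (nat_lit 495)))))))) (M (nat_lit 458) (B (lo114_15_3 (nat_lit 459)) (M (nat_lit 490) (B (lo113_15_3 (nat_lit 457)) (M (nat_lit 526) (B (lo110_15_0 (nat_lit 525)) (lo111_15_0 (nat_lit 527))))))))))) (B (M (nat_lit 491) (B (M (nat_lit 458) (B (lo114_15_3 (nat_lit 459)) (M (nat_lit 490) (B (lo113_15_3 (nat_lit 457)) (M (nat_lit 526) (B (lo110_15_0 (nat_lit 525)) (lo111_15_0 (nat_lit 527)))))))) (B (M (nat_lit 459) (B (lo114_15_3 (nat_lit 458)) (M (nat_lit 427) (B (lo111_12_4 (nat_lit 395)) (M (nat_lit 523) (B (lo111_13_4 (nat_lit 556)) (lo115_15_1 (nat_lit 495)))))))) (M (nat_lit 525) (B (M (nat_lit 490) (B (lo19_15_0 (nat_lit 489)) (lo110_15_0 (nat_lit 526)))) (M (nat_lit 495) (B (lo115_15_1 (nat_lit 523)) (lo116_15_1 (nat_lit 496))))))))) (B (M (nat_lit 491) (B (M (nat_lit 458) (B (lo114_15_3 (nat_lit 459)) (M (nat_lit 490) (B (lo113_15_3 (nat_lit 457)) (M (nat_lit 526) (B (lo110_15_0 (nat_lit 525)) (lo111_15_0 (nat_lit 527)))))))) (B (M (nat_lit 463) (B (lo111_15_2 (nat_lit 462)) (M (nat_lit 495) (B (lo112_15_2 (nat_lit 464)) (M (nat_lit 527) (B (lo111_15_0 (nat_lit 526)) (lo112_15_0 (nat_lit 528)))))))) (M (nat_lit 525) (B (M (nat_lit 463) (B (lo111_15_2 (nat_lit 462)) (M (nat_lit 495) (B (lo116_15_1 (nat_lit 496)) (lo112_15_2 (nat_lit 464)))))) (M (nat_lit 458) (B (lo114_15_3 (nat_lit 459)) (M (nat_lit 490) (B (lo19_15_0 (nat_lit 489)) (lo113_15_3 (nat_lit 457))))))))))) (B (M (nat_lit 523) (B (lo115_15_1 (nat_lit 495)) (M (nat_lit 522) (B (lo19_16_2 (nat_lit 521)) (lo114_15_1 (nat_lit 491)))))) (M (nat_lit 491) (B (M (nat_lit 459) (B (lo114_15_3 (nat_lit 458)) (M (nat_lit 427) (B (lo111_12_4 (nat_lit 395)) (M (nat_lit 523) (B (lo114_15_1 (nat_lit 522)) (lo111_13_4 (nat_lit 556)))))))) (B (M (nat_lit 458) (B (lo114_15_3 (nat_lit 459)) (M (nat_lit 490) (B (lo113_15_3 (nat_lit 457)) (M (nat_lit 526) (B (lo110_15_0 (nat_lit 525)) (lo111_15_0 (nat_lit 527)))))))) (M (nat_lit 462) (B (lo111_15_2 (nat_lit 463)) (M (nat_lit 490) (B (M (nat_lit 522) (B (lo113_15_1 (nat_lit 521)) (lo114_15_1 (nat_lit 523)))) (M (nat_lit 526) (B (lo110_15_0 (nat_lit 525)) (lo111_15_0 (nat_lit 527)))))))))))))))))))))) (B (M (nat_lit 460) (B (lo112_16_6 (nat_lit 397)) (M (nat_lit 556) (B (lo112_17_6 (nat_lit 461)) (M (nat_lit 555) (B (lo112_14_5 (nat_lit 587)) (lo112_13_5 (nat_lit 523)))))))) (B (K _ _ _ o1_s28175) (M (nat_lit 460) (B (M (nat_lit 556) (B (lo112_17_6 (nat_lit 461)) (M (nat_lit 555) (B (lo112_14_5 (nat_lit 587)) (lo112_13_5 (nat_lit 523)))))) (B (M (nat_lit 556) (B (lo112_17_6 (nat_lit 461)) (M (nat_lit 557) (B (lo112_14_4 (nat_lit 589)) (lo112_13_4 (nat_lit 525)))))) (B (K _ _ _ o1_s53309) (M (nat_lit 556) (B (M (nat_lit 555) (B (lo112_14_5 (nat_lit 587)) (lo112_13_5 (nat_lit 523)))) (M (nat_lit 427) (B (lo112_17_7 (nat_lit 459)) (lo112_16_7 (nat_lit 395)))))))))))))))) (B (M (nat_lit 460) (B (M (nat_lit 397) (B (lo112_16_6 (nat_lit 524)) (M (nat_lit 365) (B (lo112_15_6 (nat_lit 396)) (lo113_11_5 (nat_lit 461)))))) (B (M (nat_lit 426) (B (M (nat_lit 397) (B (M (nat_lit 365) (B (lo112_15_6 (nat_lit 396)) (lo113_11_5 (nat_lit 461)))) (B (M (nat_lit 427) (B (lo110_13_2 (nat_lit 398)) (M (nat_lit 461) (B (lo19_13_0 (nat_lit 425)) (lo110_13_0 (nat_lit 462)))))) (M (nat_lit 396) (B (lo112_15_6 (nat_lit 365)) (M (nat_lit 427) (B (lo19_13_2 (nat_lit 425)) (lo110_13_2 (nat_lit 398))))))))) (B (M (nat_lit 461) (B (M (nat_lit 397) (B (lo113_11_5 (nat_lit 365)) (M (nat_lit 427) (B (lo110_13_0 (nat_lit 462)) (lo110_13_2 (nat_lit 398)))))) (B (M (nat_lit 493) (B (M (nat_lit 396) (B (lo112_12_4 (nat_lit 525)) (lo112_11_4 (nat_lit 364)))) (M (nat_lit 494) (B (M (nat_lit 459) (B (lo110_14_0 (nat_lit 458)) (lo115_15_3 (nat_lit 495)))) (M (nat_lit 397) (B (lo113_11_5 (nat_lit 365)) (lo113_12_4 (nat_lit 526)))))))) (M (nat_lit 396) (B (M (nat_lit 364) (B (lo112_11_4 (nat_lit 493)) (M (nat_lit 363) (B (lo112_15_7 (nat_lit 395)) (lo112_14_7 (nat_lit 331)))))) (B (M (nat_lit 364) (B (lo112_11_4 (nat_lit 493)) (M (nat_lit 491) (B (lo112_12_5 (nat_lit 523)) (lo112_11_5 (nat_lit 459)))))) (M (nat_lit 462) (B (lo110_13_0 (nat_lit 427)) (M (nat_lit 491) (B (lo112_12_5 (nat_lit 523)) (lo115_14_1 (nat_lit 463)))))))))))) (B (M (nat_lit 396) (B (M (nat_lit 397) (B (lo112_15_6 (nat_lit 365)) (M (nat_lit 395) (B (lo112_15_7 (nat_lit 363)) (M (nat_lit 394) (B (lo113_12_1 (nat_lit 425)) (lo19_12_0 (nat_lit 393)))))))) (M (nat_lit 364) (B (M (nat_lit 491) (B (lo112_12_5 (nat_lit 523)) (lo112_11_5 (nat_lit 459)))) (M (nat_lit 493) (B (lo112_12_4 (nat_lit 525)) (lo112_11_4 (nat_lit 461)))))))) (B (M (nat_lit 427) (B (M (nat_lit 461) (B (lo19_13_0 (nat_lit 425)) (lo110_13_0 (nat_lit 462)))) (B (M (nat_lit 397) (B (lo110_13_2 (nat_lit 398)) (M (nat_lit 461) (B (lo110_13_0 (nat_lit 462)) (lo113_11_5 (nat_lit 365)))))) (M (nat_lit 393) (B (lo113_13_3 (nat_lit 394)) (M (nat_lit 425) (B (lo112_13_3 (nat_lit 392)) (M (nat_lit 457) (B (lo112_13_1 (nat_lit 456)) (lo113_13_1 (nat_lit 458))))))))))) (B (M (nat_lit 396) (B (M (nat_lit 397) (B (lo112_15_6 (nat_lit 365)) (M (nat_lit 427) (B (lo19_13_2 (nat_lit 425)) (lo110_13_2 (nat_lit 398)))))) (M (nat_lit 364) (B (M (nat_lit 491) (B (lo112_12_5 (nat_lit 523)) (lo112_11_5 (nat_lit 459)))) (M (nat_lit 363) (B (lo112_15_7 (nat_lit 395)) (lo112_14_7 (nat_lit 331)))))))) (M (nat_lit 461) (B (M (nat_lit 427) (B (lo19_13_0 (nat_lit 425)) (lo110_13_0 (nat_lit 462)))) (B (M (nat_lit 462) (B (lo110_13_0 (nat_lit 427)) (M (nat_lit 491) (B (lo115_14_1 (nat_lit 463)) (M (nat_lit 490) (B (lo19_15_2 (nat_lit 489)) (lo110_15_2 (nat_lit 493)))))))) (B (M (nat_lit 459) (B (M (nat_lit 458) (B (lo19_14_2 (nat_lit 457)) (lo113_14_3 (nat_lit 425)))) (M (nat_lit 491) (B (M (nat_lit 490) (B (lo19_15_2 (nat_lit 489)) (lo114_14_1 (nat_lit 462)))) (M (nat_lit 523) (B (lo111_17_6 (nat_lit 555)) (lo112_12_5 (nat_lit 396)))))))) (M (nat_lit 396) (B (M (nat_lit 364) (B (lo112_11_4 (nat_lit 493)) (M (nat_lit 363) (B (lo112_15_7 (nat_lit 395)) (lo112_14_7 (nat_lit 331)))))) (M (nat_lit 458) (B (M (nat_lit 427) (B (lo113_13_1 (nat_lit 457)) (lo19_13_0 (nat_lit 425)))) (B (M (nat_lit 425) (B (lo113_14_3 (nat_lit 459)) (lo19_13_0 (nat_lit 427)))) (B (M (nat_lit 457) (B (lo113_13_1 (nat_lit 427)) (lo19_14_2 (nat_lit 459)))) (M (nat_lit 459) (B (lo19_14_2 (nat_lit 457)) (lo113_14_3 (nat_lit 425)))))))))))))))))))) (B (M (nat_lit 427) (B (M (nat_lit 524) (B (lo112_16_7 (nat_lit 395)) (lo112_16_6 (nat_lit 397)))) (B (M (nat_lit 524) (B (lo112_16_6 (nat_lit 397)) (M (nat_lit 556) (B (lo112_17_7 (nat_lit 459)) (lo112_17_6 (nat_lit 461)))))) (B (M (nat_lit 426) (B (M (nat_lit 461) (B (lo19_13_0 (nat_lit 425)) (lo110_13_0 (nat_lit 462)))) (B (M (nat_lit 397) (B (lo110_13_2 (nat_lit 398)) (M (nat_lit 461) (B (lo110_13_0 (nat_lit 462)) (lo113_11_5 (nat_lit 365)))))) (M (nat_lit 393) (B (lo113_13_3 (nat_lit 394)) (M (nat_lit 425) (B (lo112_13_3 (nat_lit 392)) (M (nat_lit 457) (B (lo112_13_1 (nat_lit 456)) (lo113_13_1 (nat_lit 458))))))))))) (M (nat_lit 524) (B (lo112_16_7 (nat_lit 395)) (M (nat_lit 556) (B (lo112_17_7 (nat_lit 459)) (lo112_17_6 (nat_lit 461)))))))))) (B (K _ _ _ o1_s53499) (K _ _ _ o1_s41164)))))) (B (M (nat_lit 460) (B (M (nat_lit 397) (B (lo112_16_6 (nat_lit 524)) (M (nat_lit 365) (B (lo112_15_6 (nat_lit 396)) (lo113_11_5 (nat_lit 461)))))) (B (M (nat_lit 397) (B (M (nat_lit 365) (B (lo112_15_6 (nat_lit 396)) (lo113_11_5 (nat_lit 461)))) (B (K _ _ _ o1_s51307) (B (K _ _ _ o1_s51192) (M (nat_lit 396) (B (M (nat_lit 364) (B (M (nat_lit 491) (B (lo112_12_5 (nat_lit 523)) (lo112_11_5 (nat_lit 459)))) (M (nat_lit 363) (B (lo112_15_7 (nat_lit 395)) (lo112_14_7 (nat_lit 331)))))) (B (M (nat_lit 364) (B (M (nat_lit 363) (B (lo112_15_7 (nat_lit 395)) (lo112_14_7 (nat_lit 331)))) (M (nat_lit 461) (B (lo112_11_4 (nat_lit 493)) (lo112_10_4 (nat_lit 332)))))) (B (M (nat_lit 364) (B (M (nat_lit 491) (B (lo112_12_5 (nat_lit 523)) (lo112_11_5 (nat_lit 459)))) (M (nat_lit 461) (B (lo112_11_4 (nat_lit 493)) (lo112_10_4 (nat_lit 332)))))) (M (nat_lit 461) (B (K _ _ _ o1_s41081) (B (M (nat_lit 395) (B (lo112_15_7 (nat_lit 363)) (M (nat_lit 398) (B (M (nat_lit 399) (B (lo115_12_1 (nat_lit 427)) (lo116_12_1 (nat_lit 400)))) (M (nat_lit 366) (B (lo111_12_2 (nat_lit 367)) (lo113_15_6 (nat_lit 493)))))))) (M (nat_lit 493) (B (M (nat_lit 494) (B (lo113_12_4 (nat_lit 526)) (M (nat_lit 459) (B (lo110_14_0 (nat_lit 458)) (lo115_15_3 (nat_lit 495)))))) (M (nat_lit 491) (B (lo112_12_5 (nat_lit 523)) (M (nat_lit 490) (B (lo19_15_2 (nat_lit 489)) (lo110_15_2 (nat_lit 462))))))))))))))))))) (B (M (nat_lit 397) (B (lo112_16_6 (nat_lit 524)) (K _ _ _ o1_s51307))) (B (K _ _ _ o1_s53499) (K _ _ _ o1_s53514)))))) (B (M (nat_lit 460) (B (M (nat_lit 397) (B (lo112_16_6 (nat_lit 524)) (M (nat_lit 365) (B (lo112_15_6 (nat_lit 396)) (lo113_11_5 (nat_lit 461)))))) (B (M (nat_lit 396) (B (M (nat_lit 364) (B (M (nat_lit 491) (B (lo112_12_5 (nat_lit 523)) (lo112_11_5 (nat_lit 459)))) (M (nat_lit 363) (B (lo112_15_7 (nat_lit 395)) (lo112_14_7 (nat_lit 331)))))) (B (K _ _ _ o1_s51134) (B (M (nat_lit 397) (B (lo112_15_6 (nat_lit 365)) (M (nat_lit 364) (B (M (nat_lit 491) (B (lo112_12_5 (nat_lit 523)) (lo112_11_5 (nat_lit 459)))) (M (nat_lit 332) (B (lo112_10_4 (nat_lit 461)) (lo112_9_4 (nat_lit 300)))))))) (M (nat_lit 397) (B (lo112_15_6 (nat_lit 365)) (M (nat_lit 395) (B (lo112_15_7 (nat_lit 363)) (K _ _ _ o1_s40748))))))))) (B (M (nat_lit 524) (B (lo112_16_6 (nat_lit 397)) (M (nat_lit 556) (B (lo112_17_6 (nat_lit 461)) (M (nat_lit 557) (B (lo112_14_4 (nat_lit 589)) (lo112_13_4 (nat_lit 525)))))))) (B (K _ _ _ o1_s53499) (K _ _ _ o1_s53537)))))) (B (M (nat_lit 460) (B (K _ _ _ o1_s53499) (B (K _ _ _ o1_s51057) (B (M (nat_lit 396) (B (M (nat_lit 397) (B (lo112_16_6 (nat_lit 524)) (lo112_15_6 (nat_lit 365)))) (B (K _ _ _ o1_s53541) (M (nat_lit 524) (B (M (nat_lit 395) (B (lo112_16_7 (nat_lit 427)) (lo112_15_7 (nat_lit 363)))) (M (nat_lit 525) (B (lo112_13_4 (nat_lit 557)) (lo112_12_4 (nat_lit 493))))))))) (B (K _ _ _ o1_s40850) (B (M (nat_lit 396) (B (M (nat_lit 364) (B (M (nat_lit 491) (B (lo112_12_5 (nat_lit 523)) (lo112_11_5 (nat_lit 459)))) (M (nat_lit 363) (B (lo112_15_7 (nat_lit 395)) (lo112_14_7 (nat_lit 331)))))) (B (K _ _ _ o1_s53541) (B (M (nat_lit 397) (B (lo112_15_6 (nat_lit 365)) (M (nat_lit 364) (B (M (nat_lit 363) (B (lo112_15_7 (nat_lit 395)) (lo112_14_7 (nat_lit 331)))) (M (nat_lit 427) (B (M (nat_lit 426) (B (lo19_13_2 (nat_lit 425)) (lo110_13_2 (nat_lit 398)))) (M (nat_lit 332) (B (lo112_10_5 (nat_lit 459)) (lo112_9_4 (nat_lit 300)))))))))) (B (M (nat_lit 397) (B (lo112_15_6 (nat_lit 365)) (M (nat_lit 426) (B (M (nat_lit 427) (B (lo19_13_2 (nat_lit 425)) (lo110_13_2 (nat_lit 398)))) (B (M (nat_lit 398) (B (lo110_13_2 (nat_lit 427)) (M (nat_lit 363) (B (lo112_15_7 (nat_lit 395)) (M (nat_lit 364) (B (lo112_14_7 (nat_lit 331)) (lo115_12_3 (nat_lit 399)))))))) (M (nat_lit 395) (B (lo112_15_7 (nat_lit 363)) (M (nat_lit 394) (B (lo113_12_1 (nat_lit 425)) (lo19_12_0 (nat_lit 393))))))))))) (B (M (nat_lit 364) (B (M (nat_lit 491) (B (lo112_12_5 (nat_lit 523)) (lo112_11_5 (nat_lit 459)))) (B (M (nat_lit 397) (B (lo112_15_6 (nat_lit 365)) (M (nat_lit 459) (B (lo112_11_5 (nat_lit 491)) (M (nat_lit 332) (B (lo112_10_5 (nat_lit 427)) (lo112_9_4 (nat_lit 300)))))))) (M (nat_lit 332) (B (M (nat_lit 331) (B (lo112_14_7 (nat_lit 363)) (lo112_13_7 (nat_lit 299)))) (M (nat_lit 397) (B (lo112_15_6 (nat_lit 365)) (lo112_9_4 (nat_lit 300))))))))) (B (M (nat_lit 395) (B (M (nat_lit 397) (B (lo112_15_6 (nat_lit 365)) (K _ _ _ o1_s40748))) (M (nat_lit 493) (B (lo112_12_4 (nat_lit 525)) (M (nat_lit 491) (B (lo112_12_5 (nat_lit 523)) (M (nat_lit 459) (B (lo112_11_5 (nat_lit 364)) (M (nat_lit 458) (B (lo19_14_0 (nat_lit 457)) (lo114_15_3 (nat_lit 494)))))))))))) (M (nat_lit 397) (B (lo112_15_6 (nat_lit 365)) (M (nat_lit 395) (B (lo112_15_7 (nat_lit 363)) (K _ _ _ o1_s40748)))))))))))) (K _ _ _ o1_s28629))))))) (M (nat_lit 460) (B (M (nat_lit 396) (B (M (nat_lit 493) (B (lo112_12_4 (nat_lit 525)) (M (nat_lit 364) (B (lo112_11_4 (nat_lit 461)) (M (nat_lit 491) (B (lo112_12_5 (nat_lit 523)) (lo112_11_5 (nat_lit 459)))))))) (B (M (nat_lit 364) (B (M (nat_lit 363) (B (lo112_15_7 (nat_lit 395)) (lo112_14_7 (nat_lit 331)))) (M (nat_lit 493) (B (lo112_12_4 (nat_lit 525)) (lo112_11_4 (nat_lit 461)))))) (B (M (nat_lit 524) (B (M (nat_lit 523) (B (lo112_13_5 (nat_lit 555)) (lo112_12_5 (nat_lit 491)))) (M (nat_lit 525) (B (lo112_13_4 (nat_lit 557)) (lo112_12_4 (nat_lit 493)))))) (M (nat_lit 524) (B (M (nat_lit 523) (B (lo112_13_5 (nat_lit 555)) (lo112_12_5 (nat_lit 491)))) (M (nat_lit 395) (B (lo112_16_7 (nat_lit 427)) (lo112_15_7 (nat_lit 363)))))))))) (B (K _ _ _ o1_s26570) (B (K _ _ _ o1_s51126) (B (K _ _ _ o1_s40113) (B (K _ _ _ o1_s51211) (B (K _ _ _ o1_s26263) (B (M (nat_lit 493) (B (M (nat_lit 525) (B (lo112_12_4 (nat_lit 396)) (M (nat_lit 557) (B (lo113_18_7 (nat_lit 589)) (lo113_17_7 (nat_lit 461)))))) (B (M (nat_lit 491) (B (K _ _ _ o1_s53579) (B (K _ _ _ o1_s53581) (B (K _ _ _ o1_s53582) (B (K _ _ _ o1_s53587) (B (K _ _ _ o1_s53589) (K _ _ _ o1_s40878))))))) (B (M (nat_lit 396) (B (lo112_12_4 (nat_lit 525)) (M (nat_lit 364) (B (lo112_11_4 (nat_lit 461)) (M (nat_lit 363) (B (lo112_15_7 (nat_lit 395)) (lo112_14_7 (nat_lit 331)))))))) (B (M (nat_lit 491) (B (M (nat_lit 396) (B (lo112_12_5 (nat_lit 523)) (M (nat_lit 364) (B (lo112_11_5 (nat_lit 459)) (lo112_11_4 (nat_lit 461)))))) (B (M (nat_lit 494) (B (M (nat_lit 459) (B (lo114_15_3 (nat_lit 458)) (lo115_15_3 (nat_lit 495)))) (B (M (nat_lit 495) (B (lo115_15_3 (nat_lit 459)) (M (nat_lit 527) (B (lo111_15_0 (nat_lit 526)) (lo112_15_0 (nat_lit 528)))))) (B (M (nat_lit 495) (B (M (nat_lit 527) (B (lo111_15_0 (nat_lit 526)) (lo112_15_0 (nat_lit 528)))) (M (nat_lit 463) (B (lo111_15_2 (nat_lit 462)) (lo112_15_2 (nat_lit 464)))))) (M (nat_lit 490) (B (M (nat_lit 458) (B (lo113_15_3 (nat_lit 457)) (lo114_15_3 (nat_lit 459)))) (M (nat_lit 462) (B (lo110_15_2 (nat_lit 461)) (lo111_15_2 (nat_lit 463)))))))))) (B (M (nat_lit 461) (B (M (nat_lit 462) (B (lo110_15_2 (nat_lit 490)) (lo115_14_1 (nat_lit 463)))) (M (nat_lit 396) (B (lo112_12_5 (nat_lit 523)) (lo112_11_4 (nat_lit 364)))))) (M (nat_lit 459) (B (M (nat_lit 458) (B (lo19_14_0 (nat_lit 457)) (lo114_15_3 (nat_lit 494)))) (M (nat_lit 396) (B (lo112_12_5 (nat_lit 523)) (lo112_11_5 (nat_lit 364)))))))))) (M (nat_lit 396) (B (lo112_12_4 (nat_lit 525)) (M (nat_lit 364) (B (M (nat_lit 491) (B (lo112_12_5 (nat_lit 523)) (lo112_11_5 (nat_lit 459)))) (M (nat_lit 363) (B (lo112_15_7 (nat_lit 395)) (lo112_14_7 (nat_lit 331))))))))))))) (B (M (nat_lit 491) (B (K _ _ _ o1_s28679) (B (K _ _ _ o1_s28653) (B (M (nat_lit 461) (B (M (nat_lit 462) (B (lo115_14_1 (nat_lit 463)) (M (nat_lit 490) (B (lo19_15_2 (nat_lit 489)) (lo114_14_1 (nat_lit 459)))))) (B (M (nat_lit 462) (B (lo115_14_1 (nat_lit 463)) (M (nat_lit 490) (B (lo114_14_1 (nat_lit 459)) (lo110_15_2 (nat_lit 493)))))) (B (M (nat_lit 427) (B (M (nat_lit 462) (B (lo110_13_0 (nat_lit 426)) (lo115_14_1 (nat_lit 463)))) (M (nat_lit 524) (B (lo112_16_7 (nat_lit 395)) (lo112_17_6 (nat_lit 556)))))) (K _ _ _ o1_s53621))))) (B (M (nat_lit 461) (B (M (nat_lit 462) (B (lo115_14_1 (nat_lit 463)) (M (nat_lit 490) (B (lo19_15_2 (nat_lit 489)) (lo110_15_2 (nat_lit 493)))))) (B (M (nat_lit 427) (B (M (nat_lit 426) (B (lo19_13_0 (nat_lit 425)) (lo110_13_0 (nat_lit 462)))) (M (nat_lit 524) (B (lo112_16_7 (nat_lit 395)) (lo112_17_6 (nat_lit 556)))))) (K _ _ _ o1_s53621)))) (B (K _ _ _ o1_s40890) (B (M (nat_lit 525) (B (M (nat_lit 557) (B (lo112_13_4 (nat_lit 524)) (M (nat_lit 493) (B (lo113_18_7 (nat_lit 589)) (lo113_17_7 (nat_lit 461)))))) (B (M (nat_lit 493) (B (M (nat_lit 557) (B (lo113_18_7 (nat_lit 589)) (lo113_17_7 (nat_lit 461)))) (M (nat_lit 494) (B (M (nat_lit 526) (B (lo110_15_0 (nat_lit 490)) (lo111_15_0 (nat_lit 527)))) (M (nat_lit 459) (B (lo114_15_3 (nat_lit 458)) (lo115_15_3 (nat_lit 495)))))))) (B (M (nat_lit 461) (B (M (nat_lit 557) (B (lo112_13_4 (nat_lit 524)) (lo113_17_7 (nat_lit 493)))) (B (M (nat_lit 493) (B (lo113_17_7 (nat_lit 557)) (M (nat_lit 490) (B (lo19_15_2 (nat_lit 489)) (lo110_15_2 (nat_lit 462)))))) (B (M (nat_lit 462) (B (lo115_14_1 (nat_lit 463)) (M (nat_lit 490) (B (lo19_15_2 (nat_lit 489)) (lo110_15_2 (nat_lit 493)))))) (M (nat_lit 462) (B (lo115_14_1 (nat_lit 463)) (M (nat_lit 490) (B (lo19_15_2 (nat_lit 489)) (lo114_14_1 (nat_lit 459)))))))))) (B (M (nat_lit 490) (B (M (nat_lit 489) (B (lo19_15_0 (nat_lit 524)) (lo19_15_2 (nat_lit 461)))) (B (M (nat_lit 526) (B (lo110_15_0 (nat_lit 493)) (M (nat_lit 524) (B (lo114_16_3 (nat_lit 523)) (lo115_16_3 (nat_lit 527)))))) (M (nat_lit 461) (B (lo19_15_2 (nat_lit 489)) (M (nat_lit 493) (B (lo110_15_0 (nat_lit 526)) (lo110_15_2 (nat_lit 462))))))))) (M (nat_lit 524) (B (lo112_13_4 (nat_lit 557)) (M (nat_lit 490) (B (lo19_15_0 (nat_lit 489)) (M (nat_lit 523) (B (lo114_16_3 (nat_lit 526)) (lo112_13_5 (nat_lit 555))))))))))))) (B (M (nat_lit 493) (B (K _ _ _ o1_s53579) (B (K _ _ _ o1_s53581) (B (K _ _ _ o1_s53582) (B (K _ _ _ o1_s53587) (B (K _ _ _ o1_s53589) (K _ _ _ o1_s40878))))))) (K _ _ _ o1_s28729))))))))) (B (K _ _ _ o1_s41164) (B (K _ _ _ o1_s53514) (B (K _ _ _ o1_s53537) (K _ _ _ o1_s28629)))))))))))))))))))))))))))) _ _ _ (by decide +kernel)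
theorem o1_s56902 : Sem (nat_lit 2079502270590611144683810638107312777577327806531862431377859685460965980854219217279980804578104683573043408221052678871730618368) (nat_lit 353808977642800194546229279681295278603577160194023783146971561401334562312431684490406503187116090432467086635892110704488069788332489709087056978841926534909239754752) (nat_lit 353808977642800194546229279681295278603577160194023783146971561401334562312431684490406503187116090432467086635892110704488069788332489709087056978841926534909239754752) := sem_of_chk (M (nat_lit 364) (B (M (nat_lit 396) (B (M (nat_lit 461) (B (lo112_10_4 (nat_lit 332)) (M (nat_lit 493) (B (lo112_11_4 (nat_lit 460)) (lo113_15_7 (nat_lit 397)))))) (B (M (nat_lit 460) (B (M (nat_lit 365) (B (lo112_14_6 (nat_lit 333)) (M (nat_lit 492) (B (lo112_15_6 (nat_lit 397)) (M (nat_lit 363) (B (lo112_14_7 (nat_lit 331)) (lo112_15_7 (nat_lit 395)))))))) (B (M (nat_lit 492) (B (M (nat_lit 491) (B (lo112_11_5 (nat_lit 459)) (lo112_12_5 (nat_lit 523)))) (M (nat_lit 365) (B (lo112_14_6 (nat_lit 333)) (lo112_15_6 (nat_lit 397)))))) (B (K _ _ _ o1_s54293) (B (M (nat_lit 492) (B (M (nat_lit 363) (B (lo112_14_7 (nat_lit 331)) (lo112_15_7 (nat_lit 395)))) (M (nat_lit 397) (B (lo112_15_6 (nat_lit 365)) (lo112_16_6 (nat_lit 524)))))) (M (nat_lit 492) (B (M (nat_lit 363) (B (lo112_14_7 (nat_lit 331)) (lo112_15_7 (nat_lit 395)))) (M (nat_lit 491) (B (lo112_11_5 (nat_lit 459)) (lo112_12_5 (nat_lit 523))))))))))) (B (M (nat_lit 332) (B (lo112_10_4 (nat_lit 461)) (M (nat_lit 300) (B (lo112_9_4 (nat_lit 397)) (M (nat_lit 301) (B (lo112_12_6 (nat_lit 269)) (lo112_13_6 (nat_lit 333)))))))) (B (K _ _ _ o1_s54299) (K _ _ _ o1_s29144)))))) (B (M (nat_lit 396) (B (M (nat_lit 461) (B (lo112_10_4 (nat_lit 332)) (M (nat_lit 493) (B (lo112_11_4 (nat_lit 460)) (lo113_15_7 (nat_lit 397)))))) (B (M (nat_lit 461) (B (M (nat_lit 493) (B (lo112_11_4 (nat_lit 460)) (lo113_15_7 (nat_lit 397)))) (B (M (nat_lit 397) (B (lo113_15_7 (nat_lit 493)) (K _ _ _ o1_s46531))) (B (M (nat_lit 460) (B (lo112_11_4 (nat_lit 493)) (K _ _ _ o1_s54309))) (M (nat_lit 460) (B (M (nat_lit 492) (B (M (nat_lit 491) (B (lo112_11_5 (nat_lit 459)) (lo112_12_5 (nat_lit 523)))) (M (nat_lit 365) (B (lo112_14_6 (nat_lit 333)) (lo112_15_6 (nat_lit 397)))))) (B (M (nat_lit 427) (B (M (nat_lit 426) (B (lo19_13_0 (nat_lit 425)) (lo110_13_0 (nat_lit 462)))) (B (M (nat_lit 462) (B (lo110_13_0 (nat_lit 426)) (lo115_14_3 (nat_lit 463)))) (M (nat_lit 492) (B (M (nat_lit 395) (B (lo112_15_7 (nat_lit 363)) (lo112_16_7 (nat_lit 524)))) (M (nat_lit 365) (B (lo112_14_6 (nat_lit 333)) (lo112_15_6 (nat_lit 397))))))))) (B (M (nat_lit 459) (B (lo112_11_5 (nat_lit 491)) (M (nat_lit 365) (B (lo112_14_6 (nat_lit 333)) (M (nat_lit 462) (B (M (nat_lit 427) (B (lo114_14_3 (nat_lit 426)) (lo115_14_3 (nat_lit 463)))) (M (nat_lit 494) (B (lo111_14_0 (nat_lit 495)) (lo113_11_4 (nat_lit 397)))))))))) (B (M (nat_lit 492) (B (M (nat_lit 491) (B (lo112_11_5 (nat_lit 459)) (lo112_12_5 (nat_lit 523)))) (M (nat_lit 397) (B (lo112_15_6 (nat_lit 365)) (lo112_16_6 (nat_lit 524)))))) (K _ _ _ o1_s54309)))))))))) (B (M (nat_lit 332) (B (lo112_10_4 (nat_lit 461)) (M (nat_lit 300) (B (lo112_9_4 (nat_lit 397)) (M (nat_lit 301) (B (lo112_12_6 (nat_lit 269)) (lo112_13_6 (nat_lit 333)))))))) (B (K _ _ _ o1_s54338) (K _ _ _ o1_s54367)))))) (B (M (nat_lit 396) (B (M (nat_lit 461) (B (lo112_10_4 (nat_lit 332)) (M (nat_lit 493) (B (lo112_11_4 (nat_lit 460)) (lo113_15_7 (nat_lit 397)))))) (B (M (nat_lit 460) (B (K _ _ _ o1_s54369) (B (M (nat_lit 461) (B (lo112_11_4 (nat_lit 493)) (M (nat_lit 427) (B (M (nat_lit 426) (B (lo19_13_0 (nat_lit 425)) (lo110_13_0 (nat_lit 462)))) (B (M (nat_lit 462) (B (lo110_13_0 (nat_lit 426)) (lo115_14_3 (nat_lit 463)))) (M (nat_lit 492) (B (M (nat_lit 365) (B (lo112_14_6 (nat_lit 333)) (lo112_15_6 (nat_lit 397)))) (B (M (nat_lit 524) (B (lo112_16_7 (nat_lit 395)) (lo112_16_6 (nat_lit 397)))) (M (nat_lit 524) (B (lo112_16_7 (nat_lit 395)) (lo112_17_6 (nat_lit 556)))))))))))) (B (K _ _ _ o1_s54293) (B (M (nat_lit 492) (B (M (nat_lit 491) (B (lo112_11_5 (nat_lit 459)) (lo112_12_5 (nat_lit 523)))) (M (nat_lit 397) (B (lo112_15_6 (nat_lit 365)) (lo112_16_6 (nat_lit 524)))))) (B (K _ _ _ o1_s54375) (M (nat_lit 461) (B (lo112_11_4 (nat_lit 493)) (M (nat_lit 427) (B (M (nat_lit 462) (B (lo110_13_0 (nat_lit 426)) (lo115_14_3 (nat_lit 463)))) (M (nat_lit 492) (B (M (nat_lit 491) (B (lo112_11_5 (nat_lit 459)) (lo112_12_5 (nat_lit 523)))) (M (nat_lit 524) (B (lo112_16_7 (nat_lit 395)) (lo112_17_6 (nat_lit 556)))))))))))))))) (B (M (nat_lit 332) (B (lo112_10_4 (nat_lit 461)) (M (nat_lit 300) (B (lo112_9_4 (nat_lit 397)) (M (nat_lit 301) (B (lo112_12_6 (nat_lit 269)) (lo112_13_6 (nat_lit 333)))))))) (B (K _ _ _ o1_s54338) (M (nat_lit 459) (B (M (nat_lit 491) (B (lo112_11_5 (nat_lit 460)) (M (nat_lit 427) (B (lo111_15_6 (nat_lit 395)) (lo111_16_6 (nat_lit 523)))))) (B (M (nat_lit 427) (B (lo112_10_5 (nat_lit 332)) (M (nat_lit 491) (B (lo111_16_6 (nat_lit 523)) (lo112_11_5 (nat_lit 460)))))) (B (M (nat_lit 332) (B (M (nat_lit 300) (B (lo112_9_4 (nat_lit 397)) (M (nat_lit 301) (B (lo112_12_6 (nat_lit 269)) (lo112_13_6 (nat_lit 333)))))) (B (M (nat_lit 460) (B (lo112_11_5 (nat_lit 491)) (M (nat_lit 333) (B (lo112_13_6 (nat_lit 301)) (lo112_14_6 (nat_lit 365)))))) (M (nat_lit 300) (B (lo112_9_4 (nat_lit 397)) (M (nat_lit 299) (B (lo112_12_7 (nat_lit 267)) (lo112_13_7 (nat_lit 331))))))))) (M (nat_lit 332) (B (lo112_10_5 (nat_lit 427)) (M (nat_lit 300) (B (lo112_9_4 (nat_lit 397)) (M (nat_lit 301) (B (lo112_12_6 (nat_lit 269)) (lo112_13_6 (nat_lit 333))))))))))))))))) (B (M (nat_lit 396) (B (M (nat_lit 461) (B (lo112_10_4 (nat_lit 332)) (M (nat_lit 493) (B (lo112_11_4 (nat_lit 460)) (lo113_15_7 (nat_lit 397)))))) (B (M (nat_lit 460) (B (K _ _ _ o1_s54369) (B (M (nat_lit 461) (B (lo112_11_4 (nat_lit 493)) (M (nat_lit 365) (B (lo112_14_6 (nat_lit 333)) (M (nat_lit 462) (B (M (nat_lit 427) (B (lo110_13_0 (nat_lit 426)) (lo115_14_3 (nat_lit 463)))) (M (nat_lit 397) (B (lo112_15_6 (nat_lit 492)) (lo113_11_4 (nat_lit 494)))))))))) (B (K _ _ _ o1_s54293) (B (M (nat_lit 492) (B (M (nat_lit 491) (B (lo112_11_5 (nat_lit 459)) (lo112_12_5 (nat_lit 523)))) (M (nat_lit 397) (B (lo112_15_6 (nat_lit 365)) (lo112_16_6 (nat_lit 524)))))) (B (K _ _ _ o1_s54375) (M (nat_lit 461) (B (lo112_11_4 (nat_lit 493)) (M (nat_lit 459) (B (lo112_11_5 (nat_lit 491)) (K _ _ _ o1_s46647))))))))))) (B (M (nat_lit 332) (B (lo112_10_4 (nat_lit 461)) (M (nat_lit 300) (B (lo112_9_4 (nat_lit 397)) (M (nat_lit 301) (B (lo112_12_6 (nat_lit 269)) (lo112_13_6 (nat_lit 333)))))))) (B (M (nat_lit 461) (B (lo112_10_4 (nat_lit 332)) (M (nat_lit 460) (B (lo112_11_4 (nat_lit 493)) (M (nat_lit 459) (B (lo112_11_5 (nat_lit 491)) (K _ _ _ o1_s46647))))))) (M (nat_lit 460) (B (M (nat_lit 332) (B (M (nat_lit 459) (B (lo112_10_5 (nat_lit 427)) (lo112_11_5 (nat_lit 491)))) (M (nat_lit 333) (B (lo112_13_6 (nat_lit 301)) (lo112_14_6 (nat_lit 365)))))) (B (M (nat_lit 492) (B (M (nat_lit 491) (B (lo112_11_5 (nat_lit 459)) (lo112_12_5 (nat_lit 523)))) (M (nat_lit 365) (B (lo112_14_6 (nat_lit 333)) (lo112_15_6 (nat_lit 397)))))) (B (M (nat_lit 332) (B (M (nat_lit 331) (B (lo112_13_7 (nat_lit 299)) (lo112_14_7 (nat_lit 363)))) (M (nat_lit 333) (B (lo112_13_6 (nat_lit 301)) (lo112_14_6 (nat_lit 365)))))) (M (nat_lit 332) (B (M (nat_lit 331) (B (lo112_13_7 (nat_lit 299)) (lo112_14_7 (nat_lit 363)))) (M (nat_lit 459) (B (lo112_10_5 (nat_lit 427)) (lo112_11_5 (nat_lit 491))))))))))))))) (B (M (nat_lit 396) (B (M (nat_lit 461) (B (lo112_10_4 (nat_lit 332)) (M (nat_lit 493) (B (lo112_11_4 (nat_lit 460)) (lo113_15_7 (nat_lit 397)))))) (B (M (nat_lit 461) (B (M (nat_lit 493) (B (lo112_11_4 (nat_lit 460)) (lo113_15_7 (nat_lit 397)))) (B (M (nat_lit 397) (B (lo113_15_7 (nat_lit 493)) (M (nat_lit 398) (B (M (nat_lit 399) (B (lo115_12_3 (nat_lit 363)) (lo116_12_1 (nat_lit 400)))) (B (M (nat_lit 399) (B (lo116_12_1 (nat_lit 400)) (M (nat_lit 366) (B (M (nat_lit 367) (B (lo111_12_2 (nat_lit 395)) (lo112_12_2 (nat_lit 368)))) (M (nat_lit 334) (B (lo113_14_6 (nat_lit 365)) (lo114_9_5 (nat_lit 302)))))))) (K _ _ _ o1_s54427)))))) (B (K _ _ _ o1_s54432) (M (nat_lit 460) (B (M (nat_lit 492) (B (M (nat_lit 491) (B (lo112_11_5 (nat_lit 459)) (lo112_12_5 (nat_lit 523)))) (M (nat_lit 365) (B (lo112_14_6 (nat_lit 333)) (lo112_15_6 (nat_lit 397)))))) (B (M (nat_lit 492) (B (M (nat_lit 363) (B (lo112_14_7 (nat_lit 331)) (lo112_15_7 (nat_lit 395)))) (M (nat_lit 365) (B (lo112_14_6 (nat_lit 333)) (lo112_15_6 (nat_lit 397)))))) (B (M (nat_lit 397) (B (M (nat_lit 365) (B (lo112_14_6 (nat_lit 333)) (M (nat_lit 366) (B (lo113_14_6 (nat_lit 334)) (M (nat_lit 395) (B (lo110_12_2 (nat_lit 394)) (lo115_11_1 (nat_lit 367)))))))) (B (M (nat_lit 365) (B (lo112_14_6 (nat_lit 333)) (M (nat_lit 363) (B (lo112_14_7 (nat_lit 331)) (M (nat_lit 362) (B (lo19_11_0 (nat_lit 361)) (lo110_11_0 (nat_lit 398)))))))) (B (M (nat_lit 363) (B (lo112_14_7 (nat_lit 331)) (M (nat_lit 398) (B (lo115_12_3 (nat_lit 399)) (M (nat_lit 362) (B (lo19_11_0 (nat_lit 361)) (lo110_11_0 (nat_lit 365)))))))) (M (nat_lit 363) (B (lo112_14_7 (nat_lit 331)) (M (nat_lit 398) (B (lo115_12_3 (nat_lit 399)) (M (nat_lit 362) (B (lo19_11_0 (nat_lit 361)) (lo114_12_3 (nat_lit 395)))))))))))) (B (M (nat_lit 492) (B (M (nat_lit 363) (B (lo112_14_7 (nat_lit 331)) (lo112_15_7 (nat_lit 395)))) (M (nat_lit 397) (B (lo112_15_6 (nat_lit 365)) (lo112_16_6 (nat_lit 524)))))) (M (nat_lit 492) (B (M (nat_lit 363) (B (lo112_14_7 (nat_lit 331)) (lo112_15_7 (nat_lit 395)))) (M (nat_lit 491) (B (lo112_11_5 (nat_lit 459)) (lo112_12_5 (nat_lit 523))))))))))))))) (B (M (nat_lit 332) (B (lo112_10_4 (nat_lit 461)) (M (nat_lit 300) (B (lo112_9_4 (nat_lit 397)) (M (nat_lit 301) (B (lo112_12_6 (nat_lit 269)) (lo112_13_6 (nat_lit 333)))))))) (B (K _ _ _ o1_s54299) (K _ _ _ o1_s54451)))))) (B (M (nat_lit 365) (B (K _ _ _ o1_s54453) (B (M (nat_lit 397) (B (M (nat_lit 460) (B (lo113_10_5 (nat_lit 333)) (M (nat_lit 492) (B (lo112_15_6 (nat_lit 396)) (lo112_16_6 (nat_lit 524)))))) (B (M (nat_lit 460) (B (lo113_10_5 (nat_lit 333)) (M (nat_lit 492) (B (lo112_16_6 (nat_lit 524)) (lo113_11_5 (nat_lit 461)))))) (B (M (nat_lit 332) (B (lo113_14_7 (nat_lit 461)) (M (nat_lit 300) (B (lo112_9_4 (nat_lit 396)) (lo113_13_7 (nat_lit 333)))))) (M (nat_lit 461) (B (lo113_14_7 (nat_lit 332)) (M (nat_lit 492) (B (lo113_11_5 (nat_lit 460)) (M (nat_lit 493) (B (lo113_15_7 (nat_lit 396)) (lo113_12_5 (nat_lit 524)))))))))))) (B (M (nat_lit 397) (B (M (nat_lit 460) (B (lo113_10_5 (nat_lit 333)) (M (nat_lit 492) (B (lo112_16_6 (nat_lit 524)) (lo113_11_5 (nat_lit 461)))))) (B (M (nat_lit 461) (B (lo113_14_7 (nat_lit 332)) (M (nat_lit 366) (B (lo113_14_6 (nat_lit 334)) (M (nat_lit 493) (B (lo113_15_7 (nat_lit 396)) (lo113_15_6 (nat_lit 398)))))))) (M (nat_lit 460) (B (lo113_10_5 (nat_lit 333)) (M (nat_lit 492) (B (lo112_15_6 (nat_lit 396)) (lo112_16_6 (nat_lit 524))))))))) (B (M (nat_lit 363) (B (K _ _ _ o1_s29226) (B (K _ _ _ o1_s29357) (B (K _ _ _ o1_s29233) (B (M (nat_lit 366) (B (M (nat_lit 397) (B (M (nat_lit 398) (B (lo110_11_0 (nat_lit 362)) (lo111_11_0 (nat_lit 399)))) (M (nat_lit 334) (B (lo111_11_2 (nat_lit 335)) (lo113_14_6 (nat_lit 461)))))) (B (M (nat_lit 367) (B (M (nat_lit 395) (B (lo114_11_1 (nat_lit 394)) (lo115_11_1 (nat_lit 396)))) (M (nat_lit 399) (B (lo111_11_0 (nat_lit 398)) (lo112_11_0 (nat_lit 400)))))) (M (nat_lit 362) (B (M (nat_lit 330) (B (lo113_11_3 (nat_lit 329)) (lo114_11_3 (nat_lit 331)))) (M (nat_lit 394) (B (lo113_11_1 (nat_lit 393)) (lo114_11_1 (nat_lit 395))))))))) (K _ _ _ o1_s54468)))))) (B (M (nat_lit 397) (B (M (nat_lit 460) (B (lo113_10_5 (nat_lit 333)) (M (nat_lit 492) (B (lo112_16_6 (nat_lit 524)) (lo113_11_5 (nat_lit 461)))))) (B (M (nat_lit 332) (B (lo113_14_7 (nat_lit 461)) (M (nat_lit 300) (B (lo112_8_4 (nat_lit 268)) (lo113_13_7 (nat_lit 333)))))) (B (M (nat_lit 461) (B (lo113_14_7 (nat_lit 332)) (M (nat_lit 493) (B (M (nat_lit 492) (B (lo113_11_5 (nat_lit 460)) (lo113_12_5 (nat_lit 524)))) (M (nat_lit 494) (B (lo113_11_4 (nat_lit 462)) (lo113_12_4 (nat_lit 526)))))))) (K _ _ _ o1_s28900))))) (B (M (nat_lit 366) (B (M (nat_lit 332) (B (M (nat_lit 461) (B (lo112_10_4 (nat_lit 396)) (lo113_14_7 (nat_lit 397)))) (M (nat_lit 331) (B (lo115_11_3 (nat_lit 367)) (M (nat_lit 330) (B (lo19_10_0 (nat_lit 329)) (lo110_10_0 (nat_lit 333)))))))) (B (K _ _ _ o1_s30234) (B (M (nat_lit 332) (B (M (nat_lit 461) (B (lo112_10_4 (nat_lit 396)) (lo113_14_7 (nat_lit 397)))) (M (nat_lit 331) (B (lo115_11_3 (nat_lit 367)) (M (nat_lit 330) (B (lo19_10_0 (nat_lit 329)) (lo114_11_3 (nat_lit 363)))))))) (M (nat_lit 363) (B (M (nat_lit 362) (B (M (nat_lit 330) (B (lo113_11_3 (nat_lit 329)) (lo114_11_3 (nat_lit 331)))) (M (nat_lit 334) (B (lo110_11_2 (nat_lit 333)) (lo111_11_2 (nat_lit 335)))))) (B (M (nat_lit 362) (B (M (nat_lit 394) (B (lo113_11_1 (nat_lit 393)) (lo114_11_1 (nat_lit 395)))) (M (nat_lit 334) (B (lo110_11_2 (nat_lit 333)) (lo111_11_2 (nat_lit 335)))))) (M (nat_lit 367) (B (M (nat_lit 395) (B (lo114_11_1 (nat_lit 394)) (lo115_11_1 (nat_lit 396)))) (M (nat_lit 399) (B (lo111_11_0 (nat_lit 398)) (lo112_11_0 (nat_lit 400))))))))))))) (B (M (nat_lit 363) (B (M (nat_lit 396) (B (M (nat_lit 460) (B (lo112_14_7 (nat_lit 331)) (M (nat_lit 461) (B (lo112_10_4 (nat_lit 332)) (lo112_11_4 (nat_lit 493)))))) (B (M (nat_lit 461) (B (lo112_10_4 (nat_lit 332)) (M (nat_lit 493) (B (lo112_11_4 (nat_lit 460)) (lo113_15_7 (nat_lit 397)))))) (B (M (nat_lit 460) (B (lo112_14_7 (nat_lit 331)) (M (nat_lit 492) (B (lo112_15_7 (nat_lit 395)) (lo112_15_6 (nat_lit 397)))))) (M (nat_lit 397) (B (M (nat_lit 362) (B (lo19_11_0 (nat_lit 361)) (lo110_11_0 (nat_lit 398)))) (M (nat_lit 461) (B (lo112_10_4 (nat_lit 332)) (lo113_15_7 (nat_lit 493)))))))))) (B (M (nat_lit 396) (B (M (nat_lit 460) (B (lo112_14_7 (nat_lit 331)) (M (nat_lit 461) (B (lo112_10_4 (nat_lit 332)) (lo112_11_4 (nat_lit 493)))))) (B (M (nat_lit 461) (B (lo112_10_4 (nat_lit 332)) (M (nat_lit 493) (B (lo112_11_4 (nat_lit 460)) (lo113_15_7 (nat_lit 397)))))) (B (M (nat_lit 460) (B (lo112_14_7 (nat_lit 331)) (M (nat_lit 492) (B (lo112_15_7 (nat_lit 395)) (lo112_15_6 (nat_lit 397)))))) (M (nat_lit 397) (B (M (nat_lit 398) (B (lo110_11_0 (nat_lit 362)) (lo115_12_3 (nat_lit 399)))) (M (nat_lit 461) (B (lo112_10_4 (nat_lit 332)) (lo113_15_7 (nat_lit 493)))))))))) (B (K _ _ _ o1_s54500) (B (M (nat_lit 397) (B (M (nat_lit 332) (B (lo113_14_7 (nat_lit 461)) (M (nat_lit 300) (B (lo112_8_4 (nat_lit 268)) (lo112_9_4 (nat_lit 396)))))) (B (M (nat_lit 398) (B (lo110_11_0 (nat_lit 362)) (M (nat_lit 399) (B (lo115_12_3 (nat_lit 396)) (lo111_11_0 (nat_lit 366)))))) (M (nat_lit 398) (B (lo110_11_0 (nat_lit 362)) (M (nat_lit 399) (B (lo111_11_0 (nat_lit 366)) (lo116_12_3 (nat_lit 400))))))))) (B (K _ _ _ o1_s54504) (M (nat_lit 366) (B (M (nat_lit 367) (B (M (nat_lit 331) (B (lo114_11_3 (nat_lit 330)) (lo115_11_3 (nat_lit 332)))) (M (nat_lit 399) (B (lo111_11_0 (nat_lit 398)) (lo112_11_0 (nat_lit 400)))))) (B (M (nat_lit 397) (B (M (nat_lit 398) (B (lo110_11_0 (nat_lit 362)) (lo111_11_0 (nat_lit 399)))) (M (nat_lit 461) (B (lo113_14_7 (nat_lit 332)) (lo113_14_6 (nat_lit 334)))))) (B (M (nat_lit 397) (B (M (nat_lit 398) (B (lo110_11_0 (nat_lit 362)) (lo111_11_0 (nat_lit 399)))) (M (nat_lit 334) (B (lo111_11_2 (nat_lit 335)) (lo113_14_6 (nat_lit 461)))))) (M (nat_lit 362) (B (M (nat_lit 330) (B (lo113_11_3 (nat_lit 329)) (lo114_11_3 (nat_lit 331)))) (M (nat_lit 394) (B (lo113_11_1 (nat_lit 393)) (lo114_11_1 (nat_lit 395)))))))))))))))) (B (K _ _ _ o1_s54525) (M (nat_lit 363) (B (M (nat_lit 397) (B (M (nat_lit 398) (B (lo110_11_0 (nat_lit 362)) (M (nat_lit 399) (B (lo111_11_0 (nat_lit 366)) (lo116_12_3 (nat_lit 400)))))) (M (nat_lit 460) (B (lo113_10_5 (nat_lit 333)) (M (nat_lit 396) (B (lo112_14_7 (nat_lit 331)) (lo112_15_6 (nat_lit 492)))))))) (B (K _ _ _ o1_s54500) (B (K _ _ _ o1_s54530) (B (K _ _ _ o1_s29517) (B (K _ _ _ o1_s30405) (M (nat_lit 397) (B (M (nat_lit 398) (B (lo110_11_0 (nat_lit 362)) (M (nat_lit 399) (B (lo115_12_3 (nat_lit 396)) (lo116_12_3 (nat_lit 400)))))) (B (M (nat_lit 460) (B (lo113_10_5 (nat_lit 333)) (M (nat_lit 396) (B (lo112_14_7 (nat_lit 331)) (lo112_15_6 (nat_lit 492)))))) (M (nat_lit 333) (B (lo113_10_5 (nat_lit 460)) (M (nat_lit 362) (B (lo110_11_2 (nat_lit 334)) (lo110_11_0 (nat_lit 398)))))))))))))))))))))))) (B (M (nat_lit 396) (B (M (nat_lit 461) (B (lo112_10_4 (nat_lit 332)) (M (nat_lit 493) (B (lo112_11_4 (nat_lit 460)) (lo113_15_7 (nat_lit 397)))))) (B (M (nat_lit 461) (B (M (nat_lit 493) (B (lo112_11_4 (nat_lit 460)) (lo113_15_7 (nat_lit 397)))) (B (K _ _ _ o1_s54541) (B (K _ _ _ o1_s54432) (M (nat_lit 460) (B (M (nat_lit 492) (B (M (nat_lit 491) (B (lo112_11_5 (nat_lit 459)) (lo112_12_5 (nat_lit 523)))) (M (nat_lit 365) (B (lo112_14_6 (nat_lit 333)) (lo112_15_6 (nat_lit 397)))))) (B (M (nat_lit 492) (B (M (nat_lit 363) (B (lo112_14_7 (nat_lit 331)) (lo112_15_7 (nat_lit 395)))) (M (nat_lit 365) (B (lo112_14_6 (nat_lit 333)) (lo112_15_6 (nat_lit 397)))))) (B (M (nat_lit 365) (B (lo112_14_6 (nat_lit 333)) (M (nat_lit 397) (B (M (nat_lit 363) (B (lo112_14_7 (nat_lit 331)) (M (nat_lit 362) (B (lo19_11_0 (nat_lit 361)) (lo110_11_0 (nat_lit 398)))))) (M (nat_lit 366) (B (lo113_14_6 (nat_lit 334)) (M (nat_lit 395) (B (lo110_12_2 (nat_lit 394)) (lo115_11_1 (nat_lit 367)))))))))) (B (M (nat_lit 492) (B (M (nat_lit 363) (B (lo112_14_7 (nat_lit 331)) (lo112_15_7 (nat_lit 395)))) (M (nat_lit 397) (B (lo112_15_6 (nat_lit 365)) (lo112_16_6 (nat_lit 524)))))) (M (nat_lit 492) (B (M (nat_lit 363) (B (lo112_14_7 (nat_lit 331)) (lo112_15_7 (nat_lit 395)))) (M (nat_lit 491) (B (lo112_11_5 (nat_lit 459)) (lo112_12_5 (nat_lit 523))))))))))))))) (B (M (nat_lit 461) (B (lo112_10_4 (nat_lit 332)) (K _ _ _ o1_s54541))) (B (K _ _ _ o1_s54299) (K _ _ _ o1_s29144)))))) (B (M (nat_lit 363) (B (M (nat_lit 460) (B (M (nat_lit 396) (B (lo112_14_7 (nat_lit 331)) (M (nat_lit 492) (B (lo112_15_7 (nat_lit 395)) (M (nat_lit 365) (B (lo112_14_6 (nat_lit 333)) (lo112_15_6 (nat_lit 397)))))))) (B (K _ _ _ o1_s29265) (B (K _ _ _ o1_s29267) (B (K _ _ _ o1_s54562) (B (M (nat_lit 397) (B (M (nat_lit 365) (B (lo113_10_5 (nat_lit 333)) (M (nat_lit 398) (B (lo110_11_0 (nat_lit 362)) (M (nat_lit 399) (B (lo111_11_0 (nat_lit 366)) (lo116_12_3 (nat_lit 400)))))))) (B (K _ _ _ o1_s54564) (B (M (nat_lit 396) (B (lo112_14_7 (nat_lit 331)) (M (nat_lit 398) (B (lo115_12_3 (nat_lit 399)) (M (nat_lit 362) (B (lo19_11_0 (nat_lit 361)) (lo110_11_0 (nat_lit 365)))))))) (M (nat_lit 396) (B (lo112_14_7 (nat_lit 331)) (M (nat_lit 398) (B (lo115_12_3 (nat_lit 399)) (M (nat_lit 362) (B (lo19_11_0 (nat_lit 361)) (lo114_12_3 (nat_lit 395)))))))))))) (M (nat_lit 396) (B (lo112_14_7 (nat_lit 331)) (M (nat_lit 492) (B (lo112_15_7 (nat_lit 395)) (M (nat_lit 491) (B (lo112_11_5 (nat_lit 459)) (lo112_12_5 (nat_lit 523)))))))))))))) (B (M (nat_lit 460) (B (M (nat_lit 396) (B (lo112_14_7 (nat_lit 331)) (M (nat_lit 492) (B (lo112_15_7 (nat_lit 395)) (M (nat_lit 491) (B (lo112_11_5 (nat_lit 459)) (lo112_12_5 (nat_lit 523)))))))) (B (K _ _ _ o1_s29265) (B (K _ _ _ o1_s29267) (B (M (nat_lit 396) (B (lo112_14_7 (nat_lit 331)) (M (nat_lit 492) (B (lo112_15_7 (nat_lit 395)) (M (nat_lit 365) (B (lo112_14_6 (nat_lit 333)) (lo112_15_6 (nat_lit 397)))))))) (B (K _ _ _ o1_s54562) (M (nat_lit 397) (B (M (nat_lit 365) (B (lo113_10_5 (nat_lit 333)) (M (nat_lit 398) (B (lo110_11_0 (nat_lit 362)) (M (nat_lit 399) (B (lo111_11_0 (nat_lit 366)) (lo116_12_3 (nat_lit 400)))))))) (B (K _ _ _ o1_s54564) (B (M (nat_lit 396) (B (lo112_14_7 (nat_lit 331)) (M (nat_lit 398) (B (lo115_12_3 (nat_lit 399)) (M (nat_lit 362) (B (lo114_12_3 (nat_lit 395)) (lo110_11_0 (nat_lit 365)))))))) (M (nat_lit 427) (B (M (nat_lit 331) (B (lo111_10_4 (nat_lit 395)) (lo112_14_7 (nat_lit 396)))) (M (nat_lit 426) (B (lo110_13_2 (nat_lit 398)) (M (nat_lit 461) (B (lo19_13_0 (nat_lit 425)) (lo110_13_0 (nat_lit 462)))))))))))))))))) (B (M (nat_lit 397) (B (K _ _ _ o1_s54580) (B (K _ _ _ o1_s54582) (B (M (nat_lit 460) (B (M (nat_lit 365) (B (lo113_10_5 (nat_lit 333)) (M (nat_lit 492) (B (lo112_16_6 (nat_lit 524)) (lo113_11_5 (nat_lit 461)))))) (B (K _ _ _ o1_s54564) (M (nat_lit 396) (B (lo112_14_7 (nat_lit 331)) (M (nat_lit 492) (B (lo112_15_7 (nat_lit 395)) (lo112_16_6 (nat_lit 524))))))))) (B (K _ _ _ o1_s54593) (B (K _ _ _ o1_s54597) (B (K _ _ _ o1_s54661) (K _ _ _ o1_s54662)))))))) (B (M (nat_lit 460) (B (M (nat_lit 396) (B (lo112_14_7 (nat_lit 331)) (M (nat_lit 492) (B (lo112_15_7 (nat_lit 395)) (M (nat_lit 365) (B (lo112_14_6 (nat_lit 333)) (lo112_15_6 (nat_lit 397)))))))) (B (K _ _ _ o1_s29265) (B (K _ _ _ o1_s29267) (B (K _ _ _ o1_s54562) (B (M (nat_lit 397) (B (M (nat_lit 396) (B (lo112_14_7 (nat_lit 331)) (M (nat_lit 365) (B (lo112_14_6 (nat_lit 333)) (M (nat_lit 362) (B (lo19_11_0 (nat_lit 361)) (lo110_11_0 (nat_lit 398)))))))) (B (M (nat_lit 396) (B (lo112_14_7 (nat_lit 331)) (M (nat_lit 365) (B (lo112_14_6 (nat_lit 333)) (M (nat_lit 398) (B (lo110_11_0 (nat_lit 362)) (lo115_12_3 (nat_lit 399)))))))) (B (M (nat_lit 461) (B (M (nat_lit 396) (B (lo112_14_7 (nat_lit 331)) (lo112_11_4 (nat_lit 493)))) (M (nat_lit 462) (B (M (nat_lit 427) (B (lo110_13_0 (nat_lit 426)) (lo115_14_3 (nat_lit 463)))) (M (nat_lit 365) (B (lo113_10_5 (nat_lit 333)) (lo113_11_4 (nat_lit 494)))))))) (B (M (nat_lit 398) (B (M (nat_lit 365) (B (lo110_11_0 (nat_lit 362)) (lo113_10_5 (nat_lit 333)))) (M (nat_lit 399) (B (lo115_12_3 (nat_lit 396)) (lo116_12_1 (nat_lit 400)))))) (B (M (nat_lit 365) (B (lo113_10_5 (nat_lit 333)) (M (nat_lit 398) (B (lo110_11_0 (nat_lit 362)) (M (nat_lit 399) (B (lo111_11_0 (nat_lit 366)) (lo116_12_3 (nat_lit 400)))))))) (M (nat_lit 396) (B (lo112_14_7 (nat_lit 331)) (M (nat_lit 398) (B (lo115_12_3 (nat_lit 399)) (M (nat_lit 362) (B (lo19_11_0 (nat_lit 361)) (lo114_12_3 (nat_lit 395)))))))))))))) (M (nat_lit 396) (B (lo112_14_7 (nat_lit 331)) (M (nat_lit 492) (B (lo112_15_7 (nat_lit 395)) (M (nat_lit 491) (B (lo112_11_5 (nat_lit 459)) (lo112_12_5 (nat_lit 523)))))))))))))) (B (M (nat_lit 460) (B (M (nat_lit 396) (B (lo112_14_7 (nat_lit 331)) (M (nat_lit 492) (B (lo112_15_7 (nat_lit 395)) (M (nat_lit 491) (B (lo112_11_5 (nat_lit 459)) (lo112_12_5 (nat_lit 523)))))))) (B (K _ _ _ o1_s29265) (B (K _ _ _ o1_s29267) (B (M (nat_lit 396) (B (lo112_14_7 (nat_lit 331)) (M (nat_lit 492) (B (lo112_15_7 (nat_lit 395)) (M (nat_lit 365) (B (lo112_14_6 (nat_lit 333)) (lo112_15_6 (nat_lit 397)))))))) (B (M (nat_lit 397) (B (M (nat_lit 365) (B (lo113_10_5 (nat_lit 333)) (M (nat_lit 492) (B (lo112_16_6 (nat_lit 524)) (lo113_11_5 (nat_lit 461)))))) (B (M (nat_lit 365) (B (lo113_10_5 (nat_lit 333)) (M (nat_lit 461) (B (M (nat_lit 366) (B (lo113_14_6 (nat_lit 334)) (M (nat_lit 398) (B (lo111_11_0 (nat_lit 399)) (lo113_15_6 (nat_lit 493)))))) (M (nat_lit 462) (B (lo113_11_4 (nat_lit 494)) (M (nat_lit 427) (B (lo110_13_0 (nat_lit 426)) (lo115_14_3 (nat_lit 463)))))))))) (B (K _ _ _ o1_s54561) (K _ _ _ o1_s54704))))) (M (nat_lit 396) (B (lo112_14_7 (nat_lit 331)) (M (nat_lit 427) (B (M (nat_lit 461) (B (lo112_11_4 (nat_lit 493)) (M (nat_lit 426) (B (lo19_13_0 (nat_lit 425)) (lo110_13_0 (nat_lit 462)))))) (K _ _ _ o1_s47907))))))))))) (B (M (nat_lit 365) (B (K _ _ _ o1_s29226) (B (K _ _ _ o1_s54530) (B (K _ _ _ o1_s29233) (B (M (nat_lit 366) (B (M (nat_lit 397) (B (M (nat_lit 398) (B (lo110_11_0 (nat_lit 362)) (lo111_11_0 (nat_lit 399)))) (M (nat_lit 334) (B (lo111_11_2 (nat_lit 335)) (lo113_14_6 (nat_lit 461)))))) (B (M (nat_lit 367) (B (M (nat_lit 395) (B (lo114_11_1 (nat_lit 394)) (lo115_11_1 (nat_lit 396)))) (M (nat_lit 399) (B (lo111_11_0 (nat_lit 398)) (lo112_11_0 (nat_lit 400)))))) (M (nat_lit 362) (B (M (nat_lit 394) (B (lo113_11_1 (nat_lit 393)) (lo114_11_1 (nat_lit 395)))) (M (nat_lit 334) (B (lo110_11_2 (nat_lit 333)) (lo111_11_2 (nat_lit 335))))))))) (B (K _ _ _ o1_s54504) (K _ _ _ o1_s54468))))))) (B (M (nat_lit 365) (B (K _ _ _ o1_s29233) (B (K _ _ _ o1_s29371) (B (M (nat_lit 366) (B (M (nat_lit 362) (B (M (nat_lit 394) (B (lo113_11_1 (nat_lit 393)) (lo114_11_1 (nat_lit 395)))) (M (nat_lit 334) (B (lo110_11_2 (nat_lit 333)) (lo111_11_2 (nat_lit 335)))))) (B (M (nat_lit 397) (B (M (nat_lit 398) (B (lo110_11_0 (nat_lit 362)) (lo111_11_0 (nat_lit 399)))) (M (nat_lit 334) (B (lo111_11_2 (nat_lit 335)) (lo113_14_6 (nat_lit 461)))))) (B (M (nat_lit 367) (B (M (nat_lit 335) (B (lo111_11_2 (nat_lit 334)) (lo112_11_2 (nat_lit 336)))) (M (nat_lit 399) (B (lo111_11_0 (nat_lit 398)) (lo112_11_0 (nat_lit 400)))))) (M (nat_lit 362) (B (M (nat_lit 394) (B (lo113_11_1 (nat_lit 393)) (lo114_11_1 (nat_lit 395)))) (M (nat_lit 398) (B (lo110_11_0 (nat_lit 397)) (lo111_11_0 (nat_lit 399)))))))))) (B (M (nat_lit 366) (B (M (nat_lit 367) (B (M (nat_lit 395) (B (lo114_11_1 (nat_lit 394)) (lo115_11_1 (nat_lit 396)))) (M (nat_lit 335) (B (lo111_11_2 (nat_lit 334)) (lo112_11_2 (nat_lit 336)))))) (B (M (nat_lit 397) (B (M (nat_lit 398) (B (lo110_11_0 (nat_lit 362)) (lo111_11_0 (nat_lit 399)))) (M (nat_lit 334) (B (lo111_11_2 (nat_lit 335)) (lo113_14_6 (nat_lit 461)))))) (M (nat_lit 362) (B (M (nat_lit 394) (B (lo113_11_1 (nat_lit 393)) (lo114_11_1 (nat_lit 395)))) (M (nat_lit 398) (B (lo110_11_0 (nat_lit 397)) (lo111_11_0 (nat_lit 399))))))))) (K _ _ _ o1_s29393)))))) (B (M (nat_lit 426) (B (M (nat_lit 396) (B (M (nat_lit 460) (B (lo112_14_7 (nat_lit 331)) (M (nat_lit 461) (B (lo112_11_4 (nat_lit 493)) (M (nat_lit 427) (B (lo19_13_0 (nat_lit 425)) (lo110_13_0 (nat_lit 462)))))))) (B (K _ _ _ o1_s54728) (B (M (nat_lit 460) (B (M (nat_lit 461) (B (lo112_11_4 (nat_lit 493)) (M (nat_lit 427) (B (lo19_13_0 (nat_lit 425)) (lo110_13_0 (nat_lit 462)))))) (M (nat_lit 492) (B (M (nat_lit 491) (B (lo112_11_5 (nat_lit 459)) (lo112_12_5 (nat_lit 523)))) (M (nat_lit 365) (B (lo112_14_6 (nat_lit 333)) (lo112_15_6 (nat_lit 397)))))))) (M (nat_lit 397) (B (M (nat_lit 427) (B (lo19_13_2 (nat_lit 425)) (lo110_13_2 (nat_lit 398)))) (B (M (nat_lit 398) (B (lo110_13_2 (nat_lit 427)) (lo115_12_3 (nat_lit 399)))) (B (M (nat_lit 398) (B (lo115_12_3 (nat_lit 399)) (M (nat_lit 362) (B (lo19_11_0 (nat_lit 361)) (lo110_11_0 (nat_lit 365)))))) (M (nat_lit 427) (B (lo19_13_2 (nat_lit 425)) (M (nat_lit 461) (B (lo110_13_0 (nat_lit 462)) (lo113_15_7 (nat_lit 493)))))))))))))) (B (M (nat_lit 460) (B (M (nat_lit 396) (B (lo112_14_7 (nat_lit 331)) (M (nat_lit 461) (B (lo112_11_4 (nat_lit 493)) (M (nat_lit 427) (B (lo19_13_0 (nat_lit 425)) (lo110_13_0 (nat_lit 462)))))))) (B (M (nat_lit 396) (B (lo112_14_7 (nat_lit 331)) (M (nat_lit 492) (B (M (nat_lit 491) (B (lo112_11_5 (nat_lit 459)) (lo112_12_5 (nat_lit 523)))) (M (nat_lit 365) (B (lo112_14_6 (nat_lit 333)) (lo112_15_6 (nat_lit 397)))))))) (B (M (nat_lit 396) (B (M (nat_lit 461) (B (lo112_11_4 (nat_lit 493)) (M (nat_lit 427) (B (lo19_13_0 (nat_lit 425)) (lo110_13_0 (nat_lit 462)))))) (M (nat_lit 492) (B (M (nat_lit 491) (B (lo112_11_5 (nat_lit 459)) (lo112_12_5 (nat_lit 523)))) (M (nat_lit 365) (B (lo112_14_6 (nat_lit 333)) (lo112_15_6 (nat_lit 397)))))))) (M (nat_lit 397) (B (M (nat_lit 365) (B (lo113_10_5 (nat_lit 333)) (M (nat_lit 398) (B (lo110_11_0 (nat_lit 362)) (lo110_13_2 (nat_lit 427)))))) (B (M (nat_lit 365) (B (lo113_10_5 (nat_lit 333)) (M (nat_lit 492) (B (lo112_16_6 (nat_lit 524)) (lo113_11_5 (nat_lit 461)))))) (M (nat_lit 427) (B (lo110_13_2 (nat_lit 398)) (M (nat_lit 461) (B (lo19_13_0 (nat_lit 425)) (lo110_13_0 (nat_lit 462))))))))))))) (B (M (nat_lit 362) (B (M (nat_lit 396) (B (M (nat_lit 397) (B (lo19_11_0 (nat_lit 361)) (M (nat_lit 398) (B (lo110_11_0 (nat_lit 365)) (lo110_13_2 (nat_lit 427)))))) (B (M (nat_lit 394) (B (M (nat_lit 393) (B (lo113_11_1 (nat_lit 365)) (lo113_13_3 (nat_lit 427)))) (M (nat_lit 331) (B (lo110_14_6 (nat_lit 458)) (lo112_14_7 (nat_lit 460)))))) (B (M (nat_lit 397) (B (lo19_11_0 (nat_lit 361)) (M (nat_lit 398) (B (lo110_11_0 (nat_lit 365)) (lo115_12_3 (nat_lit 399)))))) (M (nat_lit 397) (B (lo19_11_0 (nat_lit 361)) (M (nat_lit 398) (B (lo110_13_2 (nat_lit 427)) (lo115_12_3 (nat_lit 399)))))))))) (B (K _ _ _ o1_s54773) (B (K _ _ _ o1_s54790) (B (K _ _ _ o1_s54804) (K _ _ _ o1_s54808)))))) (B (M (nat_lit 427) (B (M (nat_lit 461) (B (lo110_13_0 (nat_lit 462)) (M (nat_lit 425) (B (lo19_13_0 (nat_lit 460)) (M (nat_lit 397) (B (lo19_13_2 (nat_lit 396)) (lo110_13_2 (nat_lit 398)))))))) (B (M (nat_lit 461) (B (lo110_13_0 (nat_lit 462)) (M (nat_lit 397) (B (lo110_13_2 (nat_lit 398)) (M (nat_lit 460) (B (M (nat_lit 396) (B (lo112_14_7 (nat_lit 331)) (lo112_11_4 (nat_lit 493)))) (M (nat_lit 492) (B (lo112_16_6 (nat_lit 524)) (lo113_11_5 (nat_lit 365)))))))))) (B (M (nat_lit 461) (B (lo110_13_0 (nat_lit 462)) (M (nat_lit 425) (B (lo19_13_0 (nat_lit 460)) (M (nat_lit 457) (B (lo112_13_1 (nat_lit 456)) (lo113_13_1 (nat_lit 458)))))))) (B (M (nat_lit 461) (B (lo110_13_0 (nat_lit 462)) (M (nat_lit 397) (B (lo110_13_2 (nat_lit 398)) (M (nat_lit 396) (B (lo19_13_2 (nat_lit 425)) (lo113_15_7 (nat_lit 493)))))))) (M (nat_lit 397) (B (lo110_13_2 (nat_lit 398)) (M (nat_lit 425) (B (lo19_13_2 (nat_lit 396)) (M (nat_lit 457) (B (lo112_13_1 (nat_lit 456)) (lo113_13_1 (nat_lit 458))))))))))))) (B (M (nat_lit 427) (B (M (nat_lit 397) (B (lo110_13_2 (nat_lit 398)) (M (nat_lit 425) (B (lo19_13_2 (nat_lit 396)) (M (nat_lit 457) (B (lo112_13_1 (nat_lit 456)) (lo113_13_1 (nat_lit 458)))))))) (B (M (nat_lit 425) (B (M (nat_lit 393) (B (lo112_13_3 (nat_lit 392)) (lo113_13_3 (nat_lit 394)))) (M (nat_lit 397) (B (lo19_13_2 (nat_lit 396)) (lo110_13_2 (nat_lit 398)))))) (B (M (nat_lit 394) (B (lo113_13_3 (nat_lit 393)) (M (nat_lit 362) (B (M (nat_lit 330) (B (lo110_10_4 (nat_lit 459)) (M (nat_lit 329) (B (lo110_13_7 (nat_lit 297)) (lo113_11_3 (nat_lit 365)))))) (B (M (nat_lit 459) (B (lo110_10_4 (nat_lit 330)) (M (nat_lit 458) (B (lo113_13_1 (nat_lit 457)) (lo110_11_4 (nat_lit 491)))))) (M (nat_lit 361) (B (M (nat_lit 329) (B (lo112_11_3 (nat_lit 328)) (lo110_14_7 (nat_lit 458)))) (M (nat_lit 397) (B (lo19_11_0 (nat_lit 396)) (lo110_13_2 (nat_lit 398))))))))))) (M (nat_lit 461) (B (lo110_13_0 (nat_lit 462)) (M (nat_lit 425) (B (lo19_13_0 (nat_lit 460)) (M (nat_lit 457) (B (lo112_13_1 (nat_lit 456)) (lo113_13_1 (nat_lit 458)))))))))))) (B (M (nat_lit 396) (B (M (nat_lit 460) (B (lo112_14_7 (nat_lit 331)) (M (nat_lit 365) (B (lo112_14_6 (nat_lit 333)) (M (nat_lit 397) (B (lo112_15_6 (nat_lit 492)) (M (nat_lit 362) (B (lo19_11_0 (nat_lit 361)) (lo110_11_0 (nat_lit 398)))))))))) (B (K _ _ _ o1_s54728) (B (M (nat_lit 460) (B (M (nat_lit 365) (B (lo112_14_6 (nat_lit 333)) (M (nat_lit 397) (B (lo112_15_6 (nat_lit 492)) (M (nat_lit 362) (B (lo19_11_0 (nat_lit 361)) (lo110_11_0 (nat_lit 398)))))))) (B (M (nat_lit 492) (B (M (nat_lit 491) (B (lo112_11_5 (nat_lit 459)) (lo112_12_5 (nat_lit 523)))) (M (nat_lit 365) (B (lo112_14_6 (nat_lit 333)) (lo112_15_6 (nat_lit 397)))))) (M (nat_lit 461) (B (lo112_11_4 (nat_lit 493)) (M (nat_lit 459) (B (lo112_11_5 (nat_lit 491)) (M (nat_lit 458) (B (lo113_14_3 (nat_lit 425)) (lo19_14_2 (nat_lit 457))))))))))) (B (M (nat_lit 362) (B (M (nat_lit 397) (B (lo19_11_0 (nat_lit 361)) (M (nat_lit 398) (B (lo110_11_0 (nat_lit 365)) (lo115_12_3 (nat_lit 399)))))) (B (M (nat_lit 365) (B (M (nat_lit 397) (B (lo110_11_0 (nat_lit 398)) (M (nat_lit 333) (B (lo110_11_2 (nat_lit 334)) (lo113_9_5 (nat_lit 301)))))) (B (M (nat_lit 366) (B (M (nat_lit 330) (B (lo113_11_3 (nat_lit 329)) (lo114_11_3 (nat_lit 331)))) (M (nat_lit 398) (B (lo110_11_0 (nat_lit 397)) (lo111_11_0 (nat_lit 399)))))) (M (nat_lit 366) (B (M (nat_lit 330) (B (lo113_11_3 (nat_lit 329)) (lo114_11_3 (nat_lit 331)))) (M (nat_lit 334) (B (lo110_11_2 (nat_lit 333)) (lo111_11_2 (nat_lit 335))))))))) (B (M (nat_lit 361) (B (lo19_11_0 (nat_lit 397)) (M (nat_lit 360) (B (M (nat_lit 328) (B (lo111_11_3 (nat_lit 327)) (lo112_11_3 (nat_lit 329)))) (M (nat_lit 392) (B (lo111_11_1 (nat_lit 391)) (lo112_11_1 (nat_lit 393)))))))) (M (nat_lit 394) (B (M (nat_lit 331) (B (lo110_14_6 (nat_lit 458)) (M (nat_lit 299) (B (lo110_13_6 (nat_lit 330)) (lo111_8_5 (nat_lit 267)))))) (M (nat_lit 393) (B (lo113_11_1 (nat_lit 365)) (M (nat_lit 392) (B (lo17_12_2 (nat_lit 391)) (lo112_11_1 (nat_lit 361)))))))))))) (B (M (nat_lit 460) (B (lo112_14_7 (nat_lit 331)) (M (nat_lit 492) (B (M (nat_lit 491) (B (lo112_11_5 (nat_lit 459)) (lo112_12_5 (nat_lit 523)))) (M (nat_lit 397) (B (lo112_15_6 (nat_lit 365)) (lo112_16_6 (nat_lit 524)))))))) (M (nat_lit 460) (B (lo112_14_7 (nat_lit 331)) (M (nat_lit 461) (B (lo112_11_4 (nat_lit 493)) (M (nat_lit 459) (B (lo112_11_5 (nat_lit 491)) (M (nat_lit 458) (B (lo113_14_3 (nat_lit 425)) (lo19_14_2 (nat_lit 457)))))))))))))))) (B (M (nat_lit 362) (B (K _ _ _ o1_s54773) (B (K _ _ _ o1_s54790) (B (M (nat_lit 427) (B (M (nat_lit 458) (B (lo113_13_1 (nat_lit 457)) (M (nat_lit 394) (B (lo113_13_3 (nat_lit 393)) (lo110_14_6 (nat_lit 331)))))) (B (M (nat_lit 425) (B (M (nat_lit 457) (B (lo112_13_1 (nat_lit 456)) (lo113_13_1 (nat_lit 458)))) (M (nat_lit 461) (B (lo19_13_0 (nat_lit 460)) (lo110_13_0 (nat_lit 462)))))) (M (nat_lit 393) (B (lo113_13_3 (nat_lit 394)) (M (nat_lit 392) (B (lo112_11_1 (nat_lit 361)) (lo112_13_3 (nat_lit 425))))))))) (M (nat_lit 394) (B (M (nat_lit 393) (B (lo113_11_1 (nat_lit 365)) (lo113_13_3 (nat_lit 427)))) (B (M (nat_lit 329) (B (M (nat_lit 361) (B (lo112_11_3 (nat_lit 328)) (lo110_14_7 (nat_lit 458)))) (M (nat_lit 330) (B (lo110_13_7 (nat_lit 297)) (lo113_11_3 (nat_lit 365)))))) (M (nat_lit 393) (B (lo113_13_3 (nat_lit 427)) (M (nat_lit 392) (B (lo17_12_2 (nat_lit 391)) (lo112_11_1 (nat_lit 361))))))))))))) (B (M (nat_lit 362) (B (K _ _ _ o1_s54804) (B (K _ _ _ o1_s54773) (B (M (nat_lit 365) (B (M (nat_lit 366) (B (M (nat_lit 330) (B (lo113_11_3 (nat_lit 329)) (lo114_11_3 (nat_lit 331)))) (M (nat_lit 334) (B (lo110_11_2 (nat_lit 333)) (lo111_11_2 (nat_lit 335)))))) (B (M (nat_lit 366) (B (M (nat_lit 334) (B (lo110_11_2 (nat_lit 333)) (lo111_11_2 (nat_lit 335)))) (M (nat_lit 398) (B (lo110_11_0 (nat_lit 397)) (lo111_11_0 (nat_lit 399)))))) (B (M (nat_lit 366) (B (M (nat_lit 330) (B (lo113_11_3 (nat_lit 329)) (lo114_11_3 (nat_lit 331)))) (M (nat_lit 398) (B (lo110_11_0 (nat_lit 397)) (lo111_11_0 (nat_lit 399)))))) (M (nat_lit 361) (B (M (nat_lit 329) (B (lo112_11_3 (nat_lit 328)) (lo113_11_3 (nat_lit 330)))) (M (nat_lit 397) (B (lo19_11_0 (nat_lit 396)) (lo110_11_0 (nat_lit 398)))))))))) (K _ _ _ o1_s54808))))) (B (M (nat_lit 427) (B (M (nat_lit 461) (B (lo110_13_0 (nat_lit 462)) (M (nat_lit 397) (B (lo110_13_2 (nat_lit 398)) (M (nat_lit 396) (B (lo19_13_2 (nat_lit 425)) (lo113_15_7 (nat_lit 493)))))))) (B (M (nat_lit 396) (B (M (nat_lit 461) (B (lo110_13_0 (nat_lit 462)) (M (nat_lit 460) (B (lo112_14_7 (nat_lit 331)) (lo112_11_4 (nat_lit 493)))))) (B (M (nat_lit 461) (B (lo110_13_0 (nat_lit 462)) (M (nat_lit 397) (B (lo110_13_2 (nat_lit 398)) (lo113_15_7 (nat_lit 493)))))) (M (nat_lit 460) (B (lo112_14_7 (nat_lit 331)) (M (nat_lit 492) (B (M (nat_lit 491) (B (lo112_11_5 (nat_lit 459)) (lo112_12_5 (nat_lit 523)))) (M (nat_lit 397) (B (lo110_13_2 (nat_lit 398)) (lo112_16_6 (nat_lit 524))))))))))) (M (nat_lit 425) (B (M (nat_lit 393) (B (lo112_13_3 (nat_lit 392)) (lo113_13_3 (nat_lit 394)))) (M (nat_lit 457) (B (lo112_13_1 (nat_lit 456)) (lo113_13_1 (nat_lit 458))))))))) (M (nat_lit 427) (B (M (nat_lit 461) (B (lo110_13_0 (nat_lit 462)) (M (nat_lit 460) (B (lo19_13_0 (nat_lit 425)) (M (nat_lit 396) (B (lo112_14_7 (nat_lit 331)) (lo112_11_4 (nat_lit 493)))))))) (B (K _ _ _ o1_s54958) (M (nat_lit 425) (B (M (nat_lit 393) (B (lo112_13_3 (nat_lit 392)) (lo113_13_3 (nat_lit 394)))) (M (nat_lit 457) (B (lo112_13_1 (nat_lit 456)) (lo113_13_1 (nat_lit 458))))))))))))))))))) (B (K _ _ _ o1_s29523) (B (M (nat_lit 427) (B (K _ _ _ o1_s54963) (B (M (nat_lit 397) (B (M (nat_lit 398) (B (lo110_13_2 (nat_lit 426)) (M (nat_lit 399) (B (lo115_12_3 (nat_lit 396)) (lo116_12_1 (nat_lit 400)))))) (B (M (nat_lit 398) (B (M (nat_lit 399) (B (lo115_12_3 (nat_lit 396)) (lo116_12_1 (nat_lit 400)))) (B (M (nat_lit 399) (B (lo116_12_1 (nat_lit 400)) (M (nat_lit 365) (B (lo110_11_0 (nat_lit 362)) (lo111_11_0 (nat_lit 366)))))) (M (nat_lit 362) (B (lo110_11_0 (nat_lit 365)) (M (nat_lit 396) (B (lo19_11_0 (nat_lit 361)) (lo114_12_3 (nat_lit 395))))))))) (B (M (nat_lit 398) (B (lo110_13_2 (nat_lit 426)) (M (nat_lit 399) (B (lo116_12_1 (nat_lit 400)) (M (nat_lit 365) (B (lo110_11_0 (nat_lit 362)) (lo111_11_0 (nat_lit 366)))))))) (M (nat_lit 426) (B (M (nat_lit 396) (B (lo19_13_2 (nat_lit 425)) (M (nat_lit 461) (B (lo110_13_0 (nat_lit 462)) (lo113_15_7 (nat_lit 493)))))) (M (nat_lit 458) (B (lo113_13_1 (nat_lit 457)) (M (nat_lit 395) (B (lo111_10_5 (nat_lit 331)) (M (nat_lit 490) (B (lo110_15_6 (nat_lit 394)) (lo110_16_6 (nat_lit 522)))))))))))))) (B (M (nat_lit 362) (B (M (nat_lit 330) (B (M (nat_lit 329) (B (lo113_11_3 (nat_lit 365)) (M (nat_lit 328) (B (lo17_10_0 (nat_lit 327)) (lo18_10_0 (nat_lit 331)))))) (B (M (nat_lit 329) (B (lo113_11_3 (nat_lit 365)) (M (nat_lit 328) (B (lo112_11_3 (nat_lit 361)) (lo18_10_0 (nat_lit 331)))))) (B (M (nat_lit 395) (B (lo111_14_7 (nat_lit 459)) (M (nat_lit 298) (B (lo110_8_4 (nat_lit 266)) (lo111_13_7 (nat_lit 331)))))) (M (nat_lit 329) (B (lo113_11_3 (nat_lit 365)) (M (nat_lit 328) (B (lo17_10_0 (nat_lit 327)) (lo112_11_3 (nat_lit 361)))))))))) (B (M (nat_lit 330) (B (M (nat_lit 395) (B (lo111_14_7 (nat_lit 459)) (M (nat_lit 298) (B (lo110_8_4 (nat_lit 266)) (lo111_13_7 (nat_lit 331)))))) (B (M (nat_lit 395) (B (lo111_14_7 (nat_lit 459)) (M (nat_lit 298) (B (lo110_9_4 (nat_lit 394)) (lo111_13_7 (nat_lit 331)))))) (B (M (nat_lit 329) (B (lo113_11_3 (nat_lit 365)) (M (nat_lit 328) (B (lo112_11_3 (nat_lit 361)) (lo18_10_0 (nat_lit 331)))))) (M (nat_lit 395) (B (lo111_14_7 (nat_lit 459)) (M (nat_lit 298) (B (lo110_8_4 (nat_lit 266)) (lo110_9_4 (nat_lit 394)))))))))) (B (M (nat_lit 397) (B (M (nat_lit 398) (B (lo110_11_0 (nat_lit 365)) (lo110_13_2 (nat_lit 426)))) (B (M (nat_lit 398) (B (lo110_11_0 (nat_lit 365)) (M (nat_lit 396) (B (lo19_11_0 (nat_lit 361)) (lo114_12_3 (nat_lit 395)))))) (B (M (nat_lit 398) (B (lo110_13_2 (nat_lit 426)) (M (nat_lit 396) (B (lo19_11_0 (nat_lit 361)) (lo114_12_3 (nat_lit 395)))))) (M (nat_lit 393) (B (M (nat_lit 361) (B (lo112_11_1 (nat_lit 392)) (lo19_11_0 (nat_lit 396)))) (M (nat_lit 394) (B (lo113_11_1 (nat_lit 365)) (lo113_13_3 (nat_lit 426)))))))))) (B (M (nat_lit 330) (B (M (nat_lit 329) (B (lo113_11_3 (nat_lit 365)) (M (nat_lit 328) (B (lo17_10_0 (nat_lit 327)) (lo18_10_0 (nat_lit 331)))))) (B (M (nat_lit 395) (B (lo111_14_7 (nat_lit 459)) (M (nat_lit 298) (B (lo110_8_4 (nat_lit 266)) (lo111_13_7 (nat_lit 331)))))) (M (nat_lit 395) (B (lo111_14_7 (nat_lit 459)) (M (nat_lit 298) (B (lo110_8_4 (nat_lit 266)) (lo110_9_4 (nat_lit 394))))))))) (B (M (nat_lit 397) (B (M (nat_lit 398) (B (lo110_11_0 (nat_lit 365)) (lo110_13_2 (nat_lit 426)))) (B (M (nat_lit 398) (B (lo110_11_0 (nat_lit 365)) (M (nat_lit 396) (B (lo19_11_0 (nat_lit 361)) (lo115_12_3 (nat_lit 399)))))) (B (M (nat_lit 398) (B (lo110_13_2 (nat_lit 426)) (M (nat_lit 396) (B (lo19_11_0 (nat_lit 361)) (lo115_12_3 (nat_lit 399)))))) (M (nat_lit 393) (B (M (nat_lit 361) (B (lo112_11_1 (nat_lit 392)) (lo19_11_0 (nat_lit 396)))) (M (nat_lit 394) (B (lo113_11_1 (nat_lit 365)) (lo113_13_3 (nat_lit 426)))))))))) (M (nat_lit 361) (B (M (nat_lit 360) (B (M (nat_lit 328) (B (lo111_11_3 (nat_lit 327)) (lo112_11_3 (nat_lit 329)))) (M (nat_lit 392) (B (lo111_11_1 (nat_lit 391)) (lo112_11_1 (nat_lit 393)))))) (B (M (nat_lit 426) (B (M (nat_lit 393) (B (lo112_11_1 (nat_lit 392)) (lo113_13_3 (nat_lit 394)))) (M (nat_lit 397) (B (lo19_11_0 (nat_lit 396)) (lo110_13_2 (nat_lit 398)))))) (M (nat_lit 360) (B (M (nat_lit 328) (B (lo111_11_3 (nat_lit 327)) (lo112_11_3 (nat_lit 329)))) (M (nat_lit 396) (B (lo18_11_0 (nat_lit 395)) (lo19_11_0 (nat_lit 397))))))))))))))) (B (M (nat_lit 426) (B (M (nat_lit 458) (B (lo113_13_1 (nat_lit 457)) (M (nat_lit 395) (B (lo111_10_5 (nat_lit 331)) (M (nat_lit 490) (B (lo110_16_6 (nat_lit 522)) (lo111_11_5 (nat_lit 459)))))))) (M (nat_lit 461) (B (lo110_13_0 (nat_lit 462)) (M (nat_lit 397) (B (lo110_13_2 (nat_lit 398)) (M (nat_lit 396) (B (lo19_13_2 (nat_lit 425)) (lo113_15_7 (nat_lit 493)))))))))) (B (M (nat_lit 365) (B (M (nat_lit 397) (B (M (nat_lit 398) (B (lo110_11_0 (nat_lit 362)) (M (nat_lit 399) (B (lo115_12_3 (nat_lit 396)) (lo111_11_0 (nat_lit 366)))))) (B (M (nat_lit 366) (B (M (nat_lit 334) (B (lo111_11_2 (nat_lit 335)) (lo113_14_6 (nat_lit 461)))) (B (M (nat_lit 398) (B (lo111_11_0 (nat_lit 399)) (M (nat_lit 334) (B (lo111_11_2 (nat_lit 335)) (lo114_9_5 (nat_lit 302)))))) (M (nat_lit 367) (B (M (nat_lit 395) (B (lo114_11_1 (nat_lit 394)) (lo115_11_1 (nat_lit 396)))) (M (nat_lit 399) (B (lo111_11_0 (nat_lit 398)) (lo112_11_0 (nat_lit 400))))))))) (B (M (nat_lit 398) (B (lo110_11_0 (nat_lit 362)) (M (nat_lit 399) (B (lo111_11_0 (nat_lit 366)) (lo116_12_3 (nat_lit 400)))))) (B (M (nat_lit 398) (B (lo110_11_0 (nat_lit 362)) (M (nat_lit 399) (B (lo115_12_3 (nat_lit 396)) (lo116_12_3 (nat_lit 400)))))) (M (nat_lit 334) (B (M (nat_lit 333) (B (lo110_11_2 (nat_lit 362)) (lo113_13_6 (nat_lit 302)))) (M (nat_lit 366) (B (lo111_11_2 (nat_lit 335)) (lo113_14_6 (nat_lit 461))))))))))) (B (M (nat_lit 366) (B (M (nat_lit 399) (B (lo111_11_0 (nat_lit 398)) (M (nat_lit 367) (B (lo112_11_0 (nat_lit 400)) (M (nat_lit 335) (B (lo111_11_2 (nat_lit 334)) (lo112_11_2 (nat_lit 336)))))))) (B (M (nat_lit 395) (B (lo114_11_1 (nat_lit 394)) (M (nat_lit 331) (B (lo114_11_3 (nat_lit 330)) (M (nat_lit 396) (B (lo111_9_4 (nat_lit 299)) (lo115_11_1 (nat_lit 367)))))))) (M (nat_lit 398) (B (lo111_11_0 (nat_lit 399)) (M (nat_lit 334) (B (lo111_11_2 (nat_lit 335)) (M (nat_lit 397) (B (lo113_14_6 (nat_lit 461)) (lo114_9_5 (nat_lit 302))))))))))) (B (M (nat_lit 366) (B (M (nat_lit 362) (B (M (nat_lit 330) (B (lo113_11_3 (nat_lit 329)) (lo114_11_3 (nat_lit 331)))) (M (nat_lit 398) (B (lo110_11_0 (nat_lit 397)) (lo111_11_0 (nat_lit 399)))))) (B (M (nat_lit 362) (B (M (nat_lit 334) (B (lo110_11_2 (nat_lit 333)) (lo111_11_2 (nat_lit 335)))) (M (nat_lit 398) (B (lo110_11_0 (nat_lit 397)) (lo111_11_0 (nat_lit 399)))))) (B (M (nat_lit 367) (B (M (nat_lit 335) (B (lo111_11_2 (nat_lit 334)) (lo112_11_2 (nat_lit 336)))) (M (nat_lit 399) (B (lo111_11_0 (nat_lit 398)) (lo112_11_0 (nat_lit 400)))))) (M (nat_lit 362) (B (M (nat_lit 330) (B (lo113_11_3 (nat_lit 329)) (lo114_11_3 (nat_lit 331)))) (M (nat_lit 334) (B (lo110_11_2 (nat_lit 333)) (lo111_11_2 (nat_lit 335)))))))))) (B (M (nat_lit 394) (B (M (nat_lit 393) (B (lo113_11_1 (nat_lit 362)) (M (nat_lit 395) (B (lo18_12_2 (nat_lit 392)) (lo114_11_1 (nat_lit 366)))))) (B (M (nat_lit 393) (B (lo113_11_1 (nat_lit 362)) (M (nat_lit 395) (B (lo19_12_2 (nat_lit 396)) (lo114_11_1 (nat_lit 366)))))) (B (M (nat_lit 366) (B (lo114_11_1 (nat_lit 395)) (M (nat_lit 362) (B (M (nat_lit 330) (B (lo113_11_3 (nat_lit 329)) (lo114_11_3 (nat_lit 331)))) (M (nat_lit 334) (B (lo110_11_2 (nat_lit 333)) (lo111_11_2 (nat_lit 335)))))))) (B (M (nat_lit 395) (B (lo114_11_1 (nat_lit 366)) (M (nat_lit 393) (B (lo18_12_2 (nat_lit 392)) (lo19_12_2 (nat_lit 396)))))) (B (M (nat_lit 362) (B (lo113_11_1 (nat_lit 393)) (M (nat_lit 366) (B (M (nat_lit 330) (B (lo113_11_3 (nat_lit 329)) (lo114_11_3 (nat_lit 331)))) (M (nat_lit 334) (B (lo110_11_2 (nat_lit 333)) (lo111_11_2 (nat_lit 335)))))))) (M (nat_lit 393) (B (lo113_11_1 (nat_lit 362)) (M (nat_lit 395) (B (lo18_12_2 (nat_lit 392)) (lo19_12_2 (nat_lit 396)))))))))))) (B (M (nat_lit 366) (B (M (nat_lit 362) (B (M (nat_lit 330) (B (lo113_11_3 (nat_lit 329)) (lo114_11_3 (nat_lit 331)))) (M (nat_lit 398) (B (lo110_11_0 (nat_lit 397)) (lo111_11_0 (nat_lit 399)))))) (B (M (nat_lit 362) (B (M (nat_lit 394) (B (lo113_11_1 (nat_lit 393)) (lo114_11_1 (nat_lit 395)))) (M (nat_lit 398) (B (lo110_11_0 (nat_lit 397)) (lo111_11_0 (nat_lit 399)))))) (B (M (nat_lit 367) (B (M (nat_lit 395) (B (lo114_11_1 (nat_lit 394)) (lo115_11_1 (nat_lit 396)))) (M (nat_lit 399) (B (lo111_11_0 (nat_lit 398)) (lo112_11_0 (nat_lit 400)))))) (M (nat_lit 362) (B (M (nat_lit 330) (B (lo113_11_3 (nat_lit 329)) (lo114_11_3 (nat_lit 331)))) (M (nat_lit 394) (B (lo113_11_1 (nat_lit 393)) (lo114_11_1 (nat_lit 395)))))))))) (M (nat_lit 362) (B (M (nat_lit 394) (B (lo113_11_1 (nat_lit 393)) (M (nat_lit 330) (B (lo113_11_3 (nat_lit 329)) (M (nat_lit 395) (B (lo110_9_4 (nat_lit 298)) (lo111_14_7 (nat_lit 459)))))))) (M (nat_lit 397) (B (lo110_11_0 (nat_lit 398)) (M (nat_lit 333) (B (lo110_11_2 (nat_lit 334)) (M (nat_lit 396) (B (lo19_11_0 (nat_lit 361)) (lo113_9_5 (nat_lit 301)))))))))))))))) (B (M (nat_lit 426) (B (M (nat_lit 461) (B (lo110_13_0 (nat_lit 462)) (M (nat_lit 397) (B (lo110_13_2 (nat_lit 398)) (M (nat_lit 396) (B (lo19_13_2 (nat_lit 425)) (lo113_15_7 (nat_lit 493)))))))) (B (K _ _ _ o1_s29888) (M (nat_lit 425) (B (M (nat_lit 393) (B (lo112_13_3 (nat_lit 392)) (lo113_13_3 (nat_lit 394)))) (M (nat_lit 457) (B (lo112_13_1 (nat_lit 456)) (lo113_13_1 (nat_lit 458))))))))) (B (M (nat_lit 397) (B (M (nat_lit 398) (B (lo110_13_2 (nat_lit 426)) (M (nat_lit 399) (B (lo115_12_3 (nat_lit 396)) (lo116_12_1 (nat_lit 400)))))) (B (M (nat_lit 362) (B (M (nat_lit 398) (B (lo110_11_0 (nat_lit 365)) (M (nat_lit 396) (B (lo19_11_0 (nat_lit 361)) (lo115_12_3 (nat_lit 399)))))) (B (M (nat_lit 365) (B (lo110_11_0 (nat_lit 398)) (M (nat_lit 334) (B (lo110_11_2 (nat_lit 333)) (M (nat_lit 366) (B (lo111_11_2 (nat_lit 335)) (lo113_14_6 (nat_lit 461)))))))) (M (nat_lit 361) (B (lo19_11_0 (nat_lit 396)) (M (nat_lit 360) (B (M (nat_lit 328) (B (lo111_11_3 (nat_lit 327)) (lo112_11_3 (nat_lit 329)))) (M (nat_lit 392) (B (lo111_11_1 (nat_lit 391)) (lo112_11_1 (nat_lit 393))))))))))) (B (M (nat_lit 398) (B (lo110_13_2 (nat_lit 426)) (M (nat_lit 399) (B (lo116_12_1 (nat_lit 400)) (M (nat_lit 365) (B (lo110_11_0 (nat_lit 362)) (lo111_11_0 (nat_lit 366)))))))) (M (nat_lit 426) (B (M (nat_lit 396) (B (lo19_13_2 (nat_lit 425)) (M (nat_lit 461) (B (lo110_13_0 (nat_lit 462)) (lo113_15_7 (nat_lit 493)))))) (B (M (nat_lit 362) (B (M (nat_lit 393) (B (lo113_13_3 (nat_lit 394)) (M (nat_lit 361) (B (lo112_11_1 (nat_lit 392)) (lo19_11_0 (nat_lit 396)))))) (B (M (nat_lit 396) (B (lo19_11_0 (nat_lit 361)) (M (nat_lit 461) (B (lo110_13_0 (nat_lit 462)) (lo113_15_7 (nat_lit 493)))))) (M (nat_lit 458) (B (lo113_13_1 (nat_lit 457)) (M (nat_lit 394) (B (lo113_13_3 (nat_lit 393)) (lo110_14_6 (nat_lit 331))))))))) (M (nat_lit 457) (B (lo113_13_1 (nat_lit 458)) (M (nat_lit 425) (B (lo112_13_1 (nat_lit 456)) (M (nat_lit 393) (B (lo112_13_3 (nat_lit 392)) (lo113_13_3 (nat_lit 394))))))))))))))) (B (M (nat_lit 426) (B (M (nat_lit 458) (B (lo113_13_1 (nat_lit 457)) (M (nat_lit 395) (B (lo111_10_5 (nat_lit 331)) (M (nat_lit 394) (B (lo113_13_3 (nat_lit 393)) (lo110_15_6 (nat_lit 490)))))))) (B (M (nat_lit 458) (B (lo113_13_1 (nat_lit 457)) (M (nat_lit 395) (B (lo111_10_5 (nat_lit 331)) (M (nat_lit 490) (B (lo110_15_6 (nat_lit 394)) (lo110_16_6 (nat_lit 522)))))))) (B (M (nat_lit 362) (B (M (nat_lit 393) (B (lo113_13_3 (nat_lit 394)) (M (nat_lit 392) (B (lo112_11_1 (nat_lit 361)) (lo112_13_3 (nat_lit 425)))))) (B (M (nat_lit 395) (B (M (nat_lit 394) (B (lo113_13_3 (nat_lit 393)) (M (nat_lit 330) (B (lo110_9_4 (nat_lit 298)) (lo110_10_4 (nat_lit 459)))))) (B (M (nat_lit 459) (B (lo111_14_7 (nat_lit 330)) (M (nat_lit 458) (B (lo111_10_5 (nat_lit 331)) (lo111_11_5 (nat_lit 490)))))) (B (M (nat_lit 458) (B (lo111_10_5 (nat_lit 331)) (M (nat_lit 490) (B (lo110_16_6 (nat_lit 522)) (lo111_11_5 (nat_lit 459)))))) (M (nat_lit 458) (B (lo111_10_5 (nat_lit 331)) (M (nat_lit 394) (B (lo113_13_3 (nat_lit 393)) (lo110_15_6 (nat_lit 490)))))))))) (B (M (nat_lit 395) (B (M (nat_lit 458) (B (lo111_10_5 (nat_lit 331)) (M (nat_lit 490) (B (lo110_16_6 (nat_lit 522)) (lo111_11_5 (nat_lit 459)))))) (B (M (nat_lit 330) (B (lo111_14_7 (nat_lit 459)) (M (nat_lit 298) (B (lo110_8_4 (nat_lit 266)) (lo111_13_7 (nat_lit 331)))))) (B (M (nat_lit 330) (B (lo111_14_7 (nat_lit 459)) (M (nat_lit 298) (B (lo110_8_4 (nat_lit 266)) (lo110_9_4 (nat_lit 394)))))) (M (nat_lit 458) (B (lo111_10_5 (nat_lit 331)) (M (nat_lit 490) (B (lo110_15_6 (nat_lit 394)) (lo110_16_6 (nat_lit 522)))))))))) (K _ _ _ o1_s55187))))) (B (M (nat_lit 458) (B (lo113_13_1 (nat_lit 457)) (M (nat_lit 395) (B (lo111_10_5 (nat_lit 331)) (M (nat_lit 490) (B (lo110_16_6 (nat_lit 522)) (lo111_11_5 (nat_lit 459)))))))) (B (M (nat_lit 362) (B (M (nat_lit 397) (B (lo110_13_2 (nat_lit 398)) (M (nat_lit 393) (B (lo113_13_3 (nat_lit 394)) (M (nat_lit 392) (B (lo112_11_1 (nat_lit 361)) (lo112_13_3 (nat_lit 425)))))))) (B (M (nat_lit 365) (B (M (nat_lit 394) (B (lo113_11_1 (nat_lit 393)) (M (nat_lit 330) (B (lo113_11_3 (nat_lit 329)) (lo110_10_4 (nat_lit 459)))))) (B (M (nat_lit 366) (B (M (nat_lit 394) (B (lo113_11_1 (nat_lit 393)) (lo114_11_1 (nat_lit 395)))) (M (nat_lit 398) (B (lo110_11_0 (nat_lit 397)) (lo111_11_0 (nat_lit 399)))))) (M (nat_lit 366) (B (M (nat_lit 330) (B (lo113_11_3 (nat_lit 329)) (lo114_11_3 (nat_lit 331)))) (M (nat_lit 398) (B (lo110_11_0 (nat_lit 397)) (lo111_11_0 (nat_lit 399))))))))) (B (M (nat_lit 365) (B (M (nat_lit 330) (B (lo113_11_3 (nat_lit 329)) (M (nat_lit 459) (B (lo110_10_4 (nat_lit 394)) (lo111_14_7 (nat_lit 395)))))) (M (nat_lit 366) (B (M (nat_lit 334) (B (lo110_11_2 (nat_lit 333)) (lo111_11_2 (nat_lit 335)))) (M (nat_lit 398) (B (lo110_11_0 (nat_lit 397)) (lo111_11_0 (nat_lit 399)))))))) (K _ _ _ o1_s55187))))) (M (nat_lit 425) (B (M (nat_lit 393) (B (lo112_13_3 (nat_lit 392)) (lo113_13_3 (nat_lit 394)))) (M (nat_lit 457) (B (lo112_13_1 (nat_lit 456)) (lo113_13_1 (nat_lit 458)))))))))))) (M (nat_lit 426) (B (M (nat_lit 458) (B (lo113_13_1 (nat_lit 457)) (M (nat_lit 395) (B (lo111_10_5 (nat_lit 331)) (M (nat_lit 490) (B (lo110_16_6 (nat_lit 522)) (lo111_11_5 (nat_lit 459)))))))) (B (M (nat_lit 458) (B (M (nat_lit 395) (B (lo111_10_5 (nat_lit 331)) (M (nat_lit 394) (B (lo113_13_3 (nat_lit 393)) (lo110_15_6 (nat_lit 490)))))) (B (M (nat_lit 395) (B (lo111_10_5 (nat_lit 331)) (M (nat_lit 490) (B (lo110_15_6 (nat_lit 394)) (lo110_16_6 (nat_lit 522)))))) (B (M (nat_lit 395) (B (lo111_10_5 (nat_lit 331)) (M (nat_lit 490) (B (lo110_16_6 (nat_lit 522)) (lo111_11_5 (nat_lit 459)))))) (B (M (nat_lit 394) (B (lo113_13_3 (nat_lit 393)) (M (nat_lit 331) (B (lo110_14_6 (nat_lit 362)) (lo111_10_5 (nat_lit 395)))))) (B (M (nat_lit 490) (B (M (nat_lit 394) (B (lo113_13_3 (nat_lit 393)) (lo110_15_6 (nat_lit 395)))) (B (M (nat_lit 395) (B (lo110_15_6 (nat_lit 394)) (lo110_16_6 (nat_lit 522)))) (B (M (nat_lit 395) (B (lo110_16_6 (nat_lit 522)) (lo111_11_5 (nat_lit 459)))) (M (nat_lit 393) (B (lo113_13_3 (nat_lit 394)) (M (nat_lit 425) (B (lo112_13_3 (nat_lit 392)) (lo110_16_7 (nat_lit 522)))))))))) (M (nat_lit 394) (B (lo113_13_3 (nat_lit 393)) (M (nat_lit 362) (B (lo110_14_6 (nat_lit 331)) (M (nat_lit 459) (B (lo110_10_4 (nat_lit 330)) (lo110_11_4 (nat_lit 491)))))))))))))) (B (K _ _ _ o1_s55265) (M (nat_lit 425) (B (M (nat_lit 393) (B (lo112_13_3 (nat_lit 392)) (lo113_13_3 (nat_lit 394)))) (M (nat_lit 457) (B (lo112_13_1 (nat_lit 456)) (lo113_13_1 (nat_lit 458))))))))))))))))))) (B (M (nat_lit 460) (B (M (nat_lit 396) (B (lo112_14_7 (nat_lit 331)) (M (nat_lit 492) (B (lo112_15_7 (nat_lit 395)) (M (nat_lit 491) (B (lo112_11_5 (nat_lit 459)) (lo112_12_5 (nat_lit 523)))))))) (B (M (nat_lit 461) (B (M (nat_lit 396) (B (lo112_11_4 (nat_lit 493)) (M (nat_lit 492) (B (lo112_15_7 (nat_lit 395)) (M (nat_lit 491) (B (lo112_11_5 (nat_lit 459)) (lo112_12_5 (nat_lit 523)))))))) (B (M (nat_lit 396) (B (lo112_11_4 (nat_lit 493)) (M (nat_lit 492) (B (M (nat_lit 491) (B (lo112_11_5 (nat_lit 459)) (lo112_12_5 (nat_lit 523)))) (M (nat_lit 524) (B (lo112_16_6 (nat_lit 397)) (lo112_17_6 (nat_lit 556)))))))) (B (M (nat_lit 492) (B (M (nat_lit 396) (B (lo112_15_7 (nat_lit 395)) (lo112_11_4 (nat_lit 493)))) (M (nat_lit 524) (B (lo112_16_6 (nat_lit 397)) (lo112_17_6 (nat_lit 556)))))) (B (M (nat_lit 427) (B (M (nat_lit 426) (B (lo19_13_0 (nat_lit 425)) (lo110_13_0 (nat_lit 462)))) (B (M (nat_lit 462) (B (lo110_13_0 (nat_lit 426)) (lo115_14_3 (nat_lit 463)))) (B (K _ _ _ o1_s55294) (M (nat_lit 397) (B (M (nat_lit 426) (B (lo19_13_0 (nat_lit 425)) (lo110_13_2 (nat_lit 398)))) (M (nat_lit 492) (B (lo112_16_6 (nat_lit 524)) (lo113_11_5 (nat_lit 365)))))))))) (M (nat_lit 427) (B (M (nat_lit 426) (B (lo19_13_0 (nat_lit 425)) (lo110_13_0 (nat_lit 462)))) (K _ _ _ o1_s55309)))))))) (B (M (nat_lit 396) (B (lo112_14_7 (nat_lit 331)) (M (nat_lit 492) (B (M (nat_lit 491) (B (lo112_11_5 (nat_lit 459)) (lo112_12_5 (nat_lit 523)))) (M (nat_lit 397) (B (lo112_15_6 (nat_lit 365)) (lo112_16_6 (nat_lit 524)))))))) (B (M (nat_lit 396) (B (lo112_14_7 (nat_lit 331)) (M (nat_lit 492) (B (lo112_15_7 (nat_lit 395)) (M (nat_lit 397) (B (lo112_15_6 (nat_lit 365)) (lo112_16_6 (nat_lit 524)))))))) (B (M (nat_lit 427) (B (M (nat_lit 395) (B (lo111_10_4 (nat_lit 331)) (M (nat_lit 492) (B (lo111_11_4 (nat_lit 459)) (lo112_16_7 (nat_lit 524)))))) (B (M (nat_lit 397) (B (M (nat_lit 426) (B (lo110_13_2 (nat_lit 398)) (M (nat_lit 461) (B (lo19_13_0 (nat_lit 425)) (lo110_13_0 (nat_lit 462)))))) (B (M (nat_lit 461) (B (M (nat_lit 426) (B (lo110_13_2 (nat_lit 398)) (lo110_13_0 (nat_lit 462)))) (M (nat_lit 492) (B (lo112_16_6 (nat_lit 524)) (lo113_11_5 (nat_lit 365)))))) (B (M (nat_lit 365) (B (M (nat_lit 461) (B (lo113_11_5 (nat_lit 492)) (M (nat_lit 462) (B (lo115_14_3 (nat_lit 463)) (lo113_11_4 (nat_lit 494)))))) (M (nat_lit 398) (B (lo110_11_0 (nat_lit 362)) (M (nat_lit 399) (B (lo111_11_0 (nat_lit 366)) (lo116_12_3 (nat_lit 400)))))))) (B (M (nat_lit 398) (B (lo110_13_2 (nat_lit 426)) (M (nat_lit 399) (B (lo116_12_1 (nat_lit 400)) (M (nat_lit 365) (B (lo110_11_0 (nat_lit 362)) (lo111_11_0 (nat_lit 366)))))))) (M (nat_lit 461) (B (M (nat_lit 426) (B (lo19_13_0 (nat_lit 425)) (lo110_13_0 (nat_lit 462)))) (M (nat_lit 492) (B (lo112_16_6 (nat_lit 524)) (lo113_11_5 (nat_lit 365))))))))))) (K _ _ _ o1_s55342)))) (M (nat_lit 427) (B (M (nat_lit 331) (B (lo111_10_4 (nat_lit 395)) (lo112_14_7 (nat_lit 396)))) (B (M (nat_lit 461) (B (M (nat_lit 426) (B (lo19_13_0 (nat_lit 425)) (lo110_13_0 (nat_lit 462)))) (K _ _ _ o1_s55309))) (B (M (nat_lit 461) (B (M (nat_lit 426) (B (lo19_13_0 (nat_lit 425)) (lo110_13_0 (nat_lit 462)))) (M (nat_lit 396) (B (lo112_14_7 (nat_lit 331)) (lo112_11_4 (nat_lit 493)))))) (K _ _ _ o1_s55342))))))))))) (B (M (nat_lit 427) (B (M (nat_lit 396) (B (M (nat_lit 460) (B (lo112_14_7 (nat_lit 331)) (M (nat_lit 461) (B (lo112_11_4 (nat_lit 493)) (M (nat_lit 426) (B (lo19_13_0 (nat_lit 425)) (lo110_13_0 (nat_lit 462)))))))) (B (M (nat_lit 460) (B (lo112_14_7 (nat_lit 331)) (M (nat_lit 492) (B (lo112_15_7 (nat_lit 395)) (M (nat_lit 491) (B (lo112_11_5 (nat_lit 459)) (lo112_12_5 (nat_lit 523)))))))) (B (M (nat_lit 460) (B (M (nat_lit 461) (B (lo112_11_4 (nat_lit 493)) (M (nat_lit 426) (B (lo19_13_0 (nat_lit 425)) (lo110_13_0 (nat_lit 462)))))) (M (nat_lit 492) (B (lo112_15_7 (nat_lit 395)) (M (nat_lit 491) (B (lo112_11_5 (nat_lit 459)) (lo112_12_5 (nat_lit 523)))))))) (M (nat_lit 397) (B (M (nat_lit 426) (B (lo19_13_2 (nat_lit 425)) (lo110_13_2 (nat_lit 398)))) (B (M (nat_lit 398) (B (lo110_13_2 (nat_lit 426)) (lo115_12_3 (nat_lit 399)))) (B (M (nat_lit 398) (B (lo115_12_3 (nat_lit 399)) (M (nat_lit 362) (B (lo19_11_0 (nat_lit 361)) (lo114_12_3 (nat_lit 395)))))) (M (nat_lit 426) (B (lo19_13_2 (nat_lit 425)) (M (nat_lit 461) (B (lo110_13_0 (nat_lit 462)) (lo113_15_7 (nat_lit 493)))))))))))))) (B (K _ _ _ o1_s55363) (B (M (nat_lit 460) (B (M (nat_lit 331) (B (lo111_10_4 (nat_lit 395)) (lo112_14_7 (nat_lit 396)))) (B (M (nat_lit 396) (B (M (nat_lit 461) (B (lo112_11_4 (nat_lit 493)) (M (nat_lit 462) (B (lo110_13_0 (nat_lit 426)) (lo115_14_3 (nat_lit 463)))))) (M (nat_lit 492) (B (lo112_15_7 (nat_lit 395)) (M (nat_lit 491) (B (lo112_11_5 (nat_lit 459)) (lo112_12_5 (nat_lit 523)))))))) (B (M (nat_lit 461) (B (M (nat_lit 462) (B (lo110_13_0 (nat_lit 426)) (lo115_14_3 (nat_lit 463)))) (M (nat_lit 396) (B (lo112_14_7 (nat_lit 331)) (lo112_11_4 (nat_lit 493)))))) (M (nat_lit 395) (B (lo111_10_4 (nat_lit 331)) (M (nat_lit 492) (B (lo111_11_4 (nat_lit 459)) (lo112_16_7 (nat_lit 524)))))))))) (B (M (nat_lit 460) (B (M (nat_lit 331) (B (lo111_10_4 (nat_lit 395)) (lo112_14_7 (nat_lit 396)))) (B (M (nat_lit 461) (B (M (nat_lit 396) (B (lo112_11_4 (nat_lit 493)) (M (nat_lit 492) (B (lo112_15_7 (nat_lit 395)) (M (nat_lit 524) (B (lo112_16_6 (nat_lit 397)) (lo112_17_6 (nat_lit 556)))))))) (B (M (nat_lit 396) (B (lo112_11_4 (nat_lit 493)) (M (nat_lit 492) (B (M (nat_lit 491) (B (lo112_11_5 (nat_lit 459)) (lo112_12_5 (nat_lit 523)))) (M (nat_lit 524) (B (lo112_16_6 (nat_lit 397)) (lo112_17_6 (nat_lit 556)))))))) (B (K _ _ _ o1_s55294) (K _ _ _ o1_s55309))))) (B (M (nat_lit 492) (B (M (nat_lit 396) (B (lo112_14_7 (nat_lit 331)) (M (nat_lit 491) (B (lo112_11_5 (nat_lit 459)) (lo112_12_5 (nat_lit 523)))))) (B (M (nat_lit 524) (B (lo112_16_6 (nat_lit 397)) (M (nat_lit 556) (B (lo112_17_7 (nat_lit 459)) (lo112_17_6 (nat_lit 461)))))) (M (nat_lit 461) (B (M (nat_lit 396) (B (lo112_14_7 (nat_lit 331)) (lo112_11_4 (nat_lit 493)))) (M (nat_lit 524) (B (lo112_16_6 (nat_lit 397)) (lo112_17_6 (nat_lit 556))))))))) (M (nat_lit 395) (B (lo111_10_4 (nat_lit 331)) (M (nat_lit 492) (B (lo111_11_4 (nat_lit 459)) (lo112_16_7 (nat_lit 524)))))))))) (B (M (nat_lit 426) (B (M (nat_lit 461) (B (lo110_13_0 (nat_lit 462)) (M (nat_lit 425) (B (lo19_13_0 (nat_lit 460)) (M (nat_lit 397) (B (lo19_13_2 (nat_lit 396)) (lo110_13_2 (nat_lit 398)))))))) (B (M (nat_lit 492) (B (M (nat_lit 461) (B (lo110_13_0 (nat_lit 462)) (M (nat_lit 397) (B (lo110_13_2 (nat_lit 398)) (M (nat_lit 524) (B (lo112_16_6 (nat_lit 460)) (lo113_12_5 (nat_lit 493)))))))) (B (M (nat_lit 461) (B (lo110_13_0 (nat_lit 462)) (M (nat_lit 397) (B (lo110_13_2 (nat_lit 398)) (M (nat_lit 493) (B (lo113_15_7 (nat_lit 396)) (lo113_12_5 (nat_lit 524)))))))) (B (M (nat_lit 396) (B (M (nat_lit 397) (B (lo110_13_2 (nat_lit 398)) (M (nat_lit 461) (B (lo110_13_0 (nat_lit 462)) (lo113_15_7 (nat_lit 493)))))) (B (M (nat_lit 460) (B (lo112_15_7 (nat_lit 395)) (M (nat_lit 461) (B (lo110_13_0 (nat_lit 462)) (lo112_11_4 (nat_lit 493)))))) (M (nat_lit 460) (B (lo112_15_7 (nat_lit 395)) (M (nat_lit 491) (B (lo112_11_5 (nat_lit 459)) (lo112_12_5 (nat_lit 523))))))))) (B (M (nat_lit 460) (B (M (nat_lit 395) (B (lo111_11_4 (nat_lit 459)) (lo112_15_7 (nat_lit 396)))) (B (M (nat_lit 396) (B (M (nat_lit 491) (B (lo112_11_5 (nat_lit 459)) (lo112_12_5 (nat_lit 523)))) (M (nat_lit 461) (B (lo110_13_0 (nat_lit 462)) (lo112_11_4 (nat_lit 493)))))) (B (M (nat_lit 395) (B (lo112_15_7 (nat_lit 396)) (lo112_16_7 (nat_lit 524)))) (M (nat_lit 395) (B (lo111_11_4 (nat_lit 459)) (lo112_16_7 (nat_lit 524)))))))) (M (nat_lit 460) (B (M (nat_lit 395) (B (lo111_11_4 (nat_lit 459)) (lo112_15_7 (nat_lit 396)))) (M (nat_lit 397) (B (lo110_13_2 (nat_lit 398)) (lo112_16_6 (nat_lit 524))))))))))) (M (nat_lit 425) (B (M (nat_lit 393) (B (lo112_13_3 (nat_lit 392)) (lo113_13_3 (nat_lit 394)))) (M (nat_lit 457) (B (lo112_13_1 (nat_lit 456)) (lo113_13_1 (nat_lit 458))))))))) (B (M (nat_lit 396) (B (M (nat_lit 460) (B (lo112_14_7 (nat_lit 331)) (M (nat_lit 461) (B (lo112_11_4 (nat_lit 493)) (M (nat_lit 426) (B (lo19_13_0 (nat_lit 425)) (lo110_13_0 (nat_lit 462)))))))) (B (M (nat_lit 460) (B (lo112_14_7 (nat_lit 331)) (M (nat_lit 461) (B (lo112_11_4 (nat_lit 493)) (M (nat_lit 492) (B (M (nat_lit 491) (B (lo112_11_5 (nat_lit 459)) (lo112_12_5 (nat_lit 523)))) (M (nat_lit 524) (B (lo112_16_6 (nat_lit 397)) (lo112_17_6 (nat_lit 556)))))))))) (B (M (nat_lit 461) (B (M (nat_lit 493) (B (lo112_11_4 (nat_lit 460)) (lo113_15_7 (nat_lit 397)))) (B (M (nat_lit 397) (B (lo113_15_7 (nat_lit 493)) (M (nat_lit 426) (B (lo110_13_2 (nat_lit 398)) (lo110_13_0 (nat_lit 462)))))) (B (M (nat_lit 460) (B (lo112_11_4 (nat_lit 493)) (M (nat_lit 426) (B (lo19_13_0 (nat_lit 425)) (lo110_13_0 (nat_lit 462)))))) (M (nat_lit 426) (B (lo110_13_0 (nat_lit 462)) (M (nat_lit 397) (B (lo19_13_2 (nat_lit 425)) (lo110_13_2 (nat_lit 398)))))))))) (B (M (nat_lit 426) (B (M (nat_lit 397) (B (lo19_13_2 (nat_lit 425)) (lo110_13_2 (nat_lit 398)))) (B (M (nat_lit 461) (B (lo110_13_0 (nat_lit 462)) (M (nat_lit 397) (B (lo110_13_2 (nat_lit 398)) (lo113_15_7 (nat_lit 493)))))) (M (nat_lit 457) (B (lo113_13_1 (nat_lit 458)) (M (nat_lit 425) (B (lo112_13_1 (nat_lit 456)) (M (nat_lit 393) (B (lo112_13_3 (nat_lit 392)) (lo113_13_3 (nat_lit 394))))))))))) (M (nat_lit 460) (B (lo112_14_7 (nat_lit 331)) (M (nat_lit 397) (B (M (nat_lit 426) (B (lo19_13_2 (nat_lit 425)) (lo110_13_2 (nat_lit 398)))) (M (nat_lit 492) (B (lo112_16_6 (nat_lit 524)) (M (nat_lit 491) (B (lo112_11_5 (nat_lit 459)) (lo112_12_5 (nat_lit 523))))))))))))))) (B (M (nat_lit 426) (B (M (nat_lit 461) (B (lo110_13_0 (nat_lit 462)) (M (nat_lit 425) (B (lo19_13_0 (nat_lit 460)) (M (nat_lit 397) (B (lo19_13_2 (nat_lit 396)) (lo110_13_2 (nat_lit 398)))))))) (B (M (nat_lit 396) (B (M (nat_lit 458) (B (lo113_13_1 (nat_lit 457)) (M (nat_lit 331) (B (lo111_10_5 (nat_lit 395)) (lo112_14_7 (nat_lit 460)))))) (B (M (nat_lit 461) (B (lo110_13_0 (nat_lit 462)) (M (nat_lit 460) (B (lo112_14_7 (nat_lit 331)) (lo112_11_4 (nat_lit 493)))))) (M (nat_lit 461) (B (lo110_13_0 (nat_lit 462)) (M (nat_lit 397) (B (lo110_13_2 (nat_lit 398)) (lo113_15_7 (nat_lit 493))))))))) (M (nat_lit 425) (B (M (nat_lit 393) (B (lo112_13_3 (nat_lit 392)) (lo113_13_3 (nat_lit 394)))) (M (nat_lit 457) (B (lo112_13_1 (nat_lit 456)) (lo113_13_1 (nat_lit 458))))))))) (B (M (nat_lit 426) (B (M (nat_lit 425) (B (M (nat_lit 393) (B (lo112_13_3 (nat_lit 392)) (lo113_13_3 (nat_lit 394)))) (M (nat_lit 457) (B (lo112_13_1 (nat_lit 456)) (lo113_13_1 (nat_lit 458)))))) (B (M (nat_lit 461) (B (lo110_13_0 (nat_lit 462)) (M (nat_lit 425) (B (lo19_13_0 (nat_lit 460)) (M (nat_lit 457) (B (lo112_13_1 (nat_lit 456)) (lo113_13_1 (nat_lit 458)))))))) (B (M (nat_lit 461) (B (lo110_13_0 (nat_lit 462)) (M (nat_lit 425) (B (lo19_13_0 (nat_lit 460)) (M (nat_lit 393) (B (lo112_13_3 (nat_lit 392)) (lo113_13_3 (nat_lit 394)))))))) (M (nat_lit 458) (B (lo113_13_1 (nat_lit 457)) (M (nat_lit 395) (B (lo111_10_5 (nat_lit 331)) (M (nat_lit 394) (B (lo113_13_3 (nat_lit 393)) (lo110_15_6 (nat_lit 490)))))))))))) (B (K _ _ _ o1_s54963) (K _ _ _ o1_s55471))))))))))) (B (M (nat_lit 427) (B (K _ _ _ o1_s55363) (B (K _ _ _ o1_s55471) (B (M (nat_lit 395) (B (M (nat_lit 460) (B (lo111_10_4 (nat_lit 331)) (M (nat_lit 492) (B (lo111_11_4 (nat_lit 459)) (lo112_16_7 (nat_lit 524)))))) (B (K _ _ _ o1_s29815) (B (M (nat_lit 460) (B (lo111_10_4 (nat_lit 331)) (M (nat_lit 492) (B (lo112_15_7 (nat_lit 396)) (lo112_16_7 (nat_lit 524)))))) (M (nat_lit 362) (B (M (nat_lit 330) (B (lo111_14_7 (nat_lit 459)) (M (nat_lit 298) (B (lo110_8_4 (nat_lit 266)) (lo111_13_7 (nat_lit 331)))))) (B (M (nat_lit 394) (B (M (nat_lit 393) (B (lo18_12_2 (nat_lit 392)) (lo113_11_1 (nat_lit 365)))) (M (nat_lit 330) (B (lo110_9_4 (nat_lit 298)) (lo111_14_7 (nat_lit 459)))))) (K _ _ _ o1_s31012)))))))) (B (M (nat_lit 395) (B (M (nat_lit 426) (B (M (nat_lit 458) (B (lo113_13_1 (nat_lit 457)) (M (nat_lit 394) (B (lo113_13_3 (nat_lit 393)) (lo110_15_6 (nat_lit 490)))))) (M (nat_lit 460) (B (M (nat_lit 461) (B (lo19_13_0 (nat_lit 425)) (lo110_13_0 (nat_lit 462)))) (M (nat_lit 492) (B (lo112_15_7 (nat_lit 396)) (lo112_16_7 (nat_lit 524)))))))) (B (M (nat_lit 426) (B (M (nat_lit 458) (B (lo113_13_1 (nat_lit 457)) (M (nat_lit 490) (B (lo110_15_6 (nat_lit 394)) (lo111_11_5 (nat_lit 459)))))) (M (nat_lit 460) (B (M (nat_lit 461) (B (lo19_13_0 (nat_lit 425)) (lo110_13_0 (nat_lit 462)))) (M (nat_lit 492) (B (lo112_15_7 (nat_lit 396)) (lo112_16_7 (nat_lit 524)))))))) (B (K _ _ _ o1_s55470) (B (M (nat_lit 460) (B (M (nat_lit 492) (B (lo111_11_4 (nat_lit 459)) (lo112_15_7 (nat_lit 396)))) (B (M (nat_lit 492) (B (lo112_15_7 (nat_lit 396)) (lo112_16_7 (nat_lit 524)))) (B (M (nat_lit 492) (B (lo111_11_4 (nat_lit 459)) (lo112_16_7 (nat_lit 524)))) (M (nat_lit 396) (B (M (nat_lit 461) (B (lo112_11_4 (nat_lit 493)) (M (nat_lit 426) (B (lo19_13_0 (nat_lit 425)) (lo110_13_0 (nat_lit 462)))))) (M (nat_lit 365) (B (lo112_14_6 (nat_lit 333)) (M (nat_lit 394) (B (lo19_12_2 (nat_lit 393)) (lo114_11_1 (nat_lit 366)))))))))))) (B (K _ _ _ o1_s55469) (B (K _ _ _ o1_s29815) (M (nat_lit 426) (B (M (nat_lit 458) (B (lo113_13_1 (nat_lit 457)) (M (nat_lit 394) (B (lo113_13_3 (nat_lit 393)) (lo110_15_6 (nat_lit 490)))))) (B (M (nat_lit 458) (B (lo113_13_1 (nat_lit 457)) (M (nat_lit 490) (B (lo110_15_6 (nat_lit 394)) (lo111_11_5 (nat_lit 459)))))) (M (nat_lit 460) (B (M (nat_lit 461) (B (lo19_13_0 (nat_lit 425)) (lo110_13_0 (nat_lit 462)))) (M (nat_lit 492) (B (lo111_11_4 (nat_lit 459)) (lo112_16_7 (nat_lit 524)))))))))))))))) (B (M (nat_lit 426) (B (M (nat_lit 461) (B (lo110_13_0 (nat_lit 462)) (M (nat_lit 425) (B (lo19_13_0 (nat_lit 460)) (M (nat_lit 457) (B (lo112_13_1 (nat_lit 456)) (lo113_13_1 (nat_lit 458)))))))) (B (M (nat_lit 461) (B (lo110_13_0 (nat_lit 462)) (M (nat_lit 425) (B (lo19_13_0 (nat_lit 460)) (M (nat_lit 393) (B (lo112_13_3 (nat_lit 392)) (lo113_13_3 (nat_lit 394)))))))) (K _ _ _ o1_s54958)))) (B (M (nat_lit 426) (B (M (nat_lit 461) (B (lo110_13_0 (nat_lit 462)) (M (nat_lit 425) (B (lo19_13_0 (nat_lit 460)) (M (nat_lit 393) (B (lo112_13_3 (nat_lit 392)) (lo113_13_3 (nat_lit 394)))))))) (B (M (nat_lit 460) (B (M (nat_lit 461) (B (lo19_13_0 (nat_lit 425)) (lo110_13_0 (nat_lit 462)))) (M (nat_lit 331) (B (lo111_10_4 (nat_lit 395)) (lo112_14_7 (nat_lit 396)))))) (B (M (nat_lit 395) (B (M (nat_lit 458) (B (lo113_13_1 (nat_lit 457)) (lo111_10_5 (nat_lit 331)))) (B (M (nat_lit 331) (B (lo111_10_5 (nat_lit 458)) (lo111_10_4 (nat_lit 460)))) (B (M (nat_lit 460) (B (lo111_10_4 (nat_lit 331)) (M (nat_lit 492) (B (lo112_15_7 (nat_lit 396)) (lo112_16_7 (nat_lit 524)))))) (M (nat_lit 458) (B (lo113_13_1 (nat_lit 457)) (M (nat_lit 394) (B (lo113_13_3 (nat_lit 393)) (lo110_15_6 (nat_lit 490)))))))))) (M (nat_lit 458) (B (lo113_13_1 (nat_lit 457)) (M (nat_lit 395) (B (lo111_10_5 (nat_lit 331)) (M (nat_lit 394) (B (lo113_13_3 (nat_lit 393)) (lo110_15_6 (nat_lit 490)))))))))))) (M (nat_lit 426) (B (M (nat_lit 461) (B (lo110_13_0 (nat_lit 462)) (M (nat_lit 458) (B (lo113_13_1 (nat_lit 457)) (M (nat_lit 395) (B (lo111_10_5 (nat_lit 331)) (M (nat_lit 394) (B (lo113_13_3 (nat_lit 393)) (lo110_15_6 (nat_lit 490)))))))))) (B (M (nat_lit 461) (B (lo110_13_0 (nat_lit 462)) (M (nat_lit 458) (B (lo113_13_1 (nat_lit 457)) (M (nat_lit 395) (B (lo111_10_5 (nat_lit 331)) (M (nat_lit 490) (B (lo110_15_6 (nat_lit 394)) (lo110_16_6 (nat_lit 522)))))))))) (B (M (nat_lit 459) (B (M (nat_lit 394) (B (lo113_13_3 (nat_lit 393)) (M (nat_lit 362) (B (lo110_10_4 (nat_lit 330)) (M (nat_lit 491) (B (lo111_15_7 (nat_lit 395)) (lo111_16_7 (nat_lit 523)))))))) (B (M (nat_lit 395) (B (M (nat_lit 458) (B (lo111_10_5 (nat_lit 331)) (lo111_11_5 (nat_lit 490)))) (M (nat_lit 491) (B (lo111_15_6 (nat_lit 396)) (M (nat_lit 362) (B (lo111_14_7 (nat_lit 330)) (lo111_15_7 (nat_lit 394)))))))) (B (M (nat_lit 394) (B (lo113_13_3 (nat_lit 393)) (M (nat_lit 491) (B (lo111_16_7 (nat_lit 523)) (M (nat_lit 362) (B (lo110_11_4 (nat_lit 458)) (lo111_15_7 (nat_lit 395)))))))) (B (M (nat_lit 395) (B (M (nat_lit 458) (B (lo111_10_5 (nat_lit 331)) (lo111_11_5 (nat_lit 490)))) (M (nat_lit 394) (B (lo113_13_3 (nat_lit 393)) (M (nat_lit 491) (B (lo111_16_7 (nat_lit 523)) (lo111_15_6 (nat_lit 396)))))))) (B (M (nat_lit 395) (B (M (nat_lit 458) (B (lo111_10_5 (nat_lit 331)) (lo111_11_5 (nat_lit 490)))) (B (M (nat_lit 331) (B (M (nat_lit 330) (B (lo111_13_7 (nat_lit 298)) (lo111_14_7 (nat_lit 362)))) (M (nat_lit 396) (B (lo111_9_4 (nat_lit 299)) (lo111_15_6 (nat_lit 491)))))) (M (nat_lit 491) (B (lo111_15_6 (nat_lit 396)) (M (nat_lit 490) (B (lo111_11_5 (nat_lit 458)) (lo111_12_5 (nat_lit 522))))))))) (B (M (nat_lit 394) (B (lo113_13_3 (nat_lit 393)) (M (nat_lit 362) (B (lo110_10_4 (nat_lit 330)) (M (nat_lit 491) (B (lo110_11_4 (nat_lit 458)) (lo111_16_7 (nat_lit 523)))))))) (M (nat_lit 362) (B (M (nat_lit 394) (B (lo113_13_3 (nat_lit 393)) (lo110_10_4 (nat_lit 330)))) (B (M (nat_lit 330) (B (lo110_10_4 (nat_lit 394)) (lo111_14_7 (nat_lit 395)))) (B (M (nat_lit 393) (B (lo113_13_3 (nat_lit 394)) (M (nat_lit 392) (B (lo112_11_1 (nat_lit 361)) (lo112_13_3 (nat_lit 425)))))) (M (nat_lit 395) (B (lo111_14_7 (nat_lit 330)) (M (nat_lit 458) (B (lo111_10_5 (nat_lit 331)) (lo111_11_5 (nat_lit 490))))))))))))))))) (B (M (nat_lit 461) (B (lo110_13_0 (nat_lit 462)) (M (nat_lit 458) (B (lo113_13_1 (nat_lit 457)) (M (nat_lit 395) (B (lo111_10_5 (nat_lit 331)) (M (nat_lit 490) (B (lo110_16_6 (nat_lit 522)) (lo111_11_5 (nat_lit 459)))))))))) (B (K _ _ _ o1_s55265) (M (nat_lit 425) (B (M (nat_lit 393) (B (lo112_13_3 (nat_lit 392)) (lo113_13_3 (nat_lit 394)))) (M (nat_lit 457) (B (lo112_13_1 (nat_lit 456)) (lo113_13_1 (nat_lit 458))))))))))))))))))) (M (nat_lit 397) (B (K _ _ _ o1_s54580) (B (K _ _ _ o1_s54582) (B (M (nat_lit 460) (B (M (nat_lit 396) (B (lo112_14_7 (nat_lit 331)) (M (nat_lit 492) (B (lo112_15_7 (nat_lit 395)) (lo112_16_6 (nat_lit 524)))))) (B (M (nat_lit 492) (B (lo112_16_6 (nat_lit 524)) (M (nat_lit 365) (B (lo112_15_6 (nat_lit 396)) (lo113_10_5 (nat_lit 333)))))) (B (K _ _ _ o1_s54704) (M (nat_lit 398) (B (M (nat_lit 396) (B (lo112_14_7 (nat_lit 331)) (lo115_12_3 (nat_lit 399)))) (B (M (nat_lit 399) (B (lo115_12_3 (nat_lit 396)) (lo116_12_1 (nat_lit 400)))) (B (M (nat_lit 365) (B (lo113_10_5 (nat_lit 333)) (M (nat_lit 399) (B (lo111_11_0 (nat_lit 366)) (lo116_12_3 (nat_lit 400)))))) (M (nat_lit 427) (B (lo110_13_2 (nat_lit 426)) (M (nat_lit 331) (B (lo111_10_4 (nat_lit 395)) (lo112_14_7 (nat_lit 396)))))))))))))) (B (K _ _ _ o1_s54593) (B (K _ _ _ o1_s54597) (B (K _ _ _ o1_s54661) (B (K _ _ _ o1_s54662) (M (nat_lit 395) (B (M (nat_lit 460) (B (M (nat_lit 331) (B (lo111_10_4 (nat_lit 427)) (lo112_14_7 (nat_lit 396)))) (B (M (nat_lit 492) (B (lo112_15_7 (nat_lit 396)) (lo112_16_6 (nat_lit 524)))) (M (nat_lit 492) (B (lo112_16_6 (nat_lit 524)) (M (nat_lit 427) (B (lo111_10_4 (nat_lit 331)) (lo111_11_4 (nat_lit 459))))))))) (B (M (nat_lit 460) (B (M (nat_lit 492) (B (lo112_15_7 (nat_lit 396)) (lo112_16_6 (nat_lit 524)))) (B (M (nat_lit 427) (B (M (nat_lit 492) (B (lo111_11_4 (nat_lit 459)) (lo112_16_7 (nat_lit 524)))) (M (nat_lit 394) (B (M (nat_lit 393) (B (lo18_12_2 (nat_lit 392)) (lo113_13_3 (nat_lit 426)))) (M (nat_lit 365) (B (lo114_11_1 (nat_lit 366)) (lo113_10_5 (nat_lit 333)))))))) (M (nat_lit 394) (B (M (nat_lit 393) (B (lo18_12_2 (nat_lit 392)) (lo19_12_0 (nat_lit 396)))) (M (nat_lit 365) (B (lo114_11_1 (nat_lit 366)) (lo113_10_5 (nat_lit 333))))))))) (B (M (nat_lit 365) (B (M (nat_lit 394) (B (lo114_11_1 (nat_lit 366)) (M (nat_lit 393) (B (lo18_12_2 (nat_lit 392)) (lo19_12_2 (nat_lit 396)))))) (B (M (nat_lit 394) (B (lo114_11_1 (nat_lit 366)) (M (nat_lit 393) (B (lo113_11_1 (nat_lit 362)) (lo19_12_2 (nat_lit 396)))))) (B (M (nat_lit 460) (B (lo113_10_5 (nat_lit 333)) (M (nat_lit 396) (B (lo112_14_7 (nat_lit 331)) (lo112_15_7 (nat_lit 492)))))) (M (nat_lit 394) (B (lo114_11_1 (nat_lit 366)) (M (nat_lit 393) (B (lo18_12_2 (nat_lit 392)) (lo113_11_1 (nat_lit 362)))))))))) (B (M (nat_lit 460) (B (M (nat_lit 492) (B (lo112_16_6 (nat_lit 524)) (M (nat_lit 427) (B (lo111_10_4 (nat_lit 331)) (lo111_11_4 (nat_lit 459)))))) (M (nat_lit 365) (B (lo113_10_5 (nat_lit 333)) (M (nat_lit 394) (B (lo114_11_1 (nat_lit 366)) (M (nat_lit 393) (B (lo18_12_2 (nat_lit 392)) (lo113_11_1 (nat_lit 362)))))))))) (M (nat_lit 396) (B (M (nat_lit 426) (B (M (nat_lit 394) (B (lo19_12_0 (nat_lit 393)) (lo113_12_1 (nat_lit 425)))) (B (M (nat_lit 425) (B (lo113_12_1 (nat_lit 394)) (lo19_13_2 (nat_lit 427)))) (B (M (nat_lit 458) (B (M (nat_lit 394) (B (lo19_12_0 (nat_lit 393)) (lo110_15_6 (nat_lit 490)))) (M (nat_lit 331) (B (lo111_10_5 (nat_lit 427)) (lo111_9_4 (nat_lit 299)))))) (M (nat_lit 427) (B (lo19_13_2 (nat_lit 425)) (M (nat_lit 458) (B (lo113_13_1 (nat_lit 457)) (lo111_10_5 (nat_lit 331)))))))))) (B (M (nat_lit 427) (B (M (nat_lit 459) (B (lo111_15_6 (nat_lit 491)) (M (nat_lit 362) (B (lo19_11_0 (nat_lit 361)) (lo111_14_7 (nat_lit 330)))))) (M (nat_lit 426) (B (lo19_13_2 (nat_lit 425)) (M (nat_lit 331) (B (lo111_10_5 (nat_lit 458)) (lo111_9_4 (nat_lit 299)))))))) (M (nat_lit 365) (B (M (nat_lit 394) (B (lo19_12_2 (nat_lit 393)) (lo114_11_1 (nat_lit 366)))) (M (nat_lit 333) (B (lo113_9_5 (nat_lit 301)) (M (nat_lit 362) (B (lo19_11_0 (nat_lit 361)) (lo110_11_2 (nat_lit 334)))))))))))))))))))))))))))))))))))))) (B (M (nat_lit 427) (B (M (nat_lit 426) (B (M (nat_lit 461) (B (lo110_13_0 (nat_lit 462)) (M (nat_lit 425) (B (lo19_13_0 (nat_lit 460)) (M (nat_lit 457) (B (lo112_13_1 (nat_lit 456)) (lo113_13_1 (nat_lit 458)))))))) (B (M (nat_lit 461) (B (lo110_13_0 (nat_lit 462)) (M (nat_lit 425) (B (lo19_13_0 (nat_lit 460)) (M (nat_lit 393) (B (lo112_13_3 (nat_lit 392)) (lo113_13_3 (nat_lit 394)))))))) (B (M (nat_lit 461) (B (lo110_13_0 (nat_lit 462)) (M (nat_lit 397) (B (lo110_13_2 (nat_lit 398)) (M (nat_lit 365) (B (lo113_14_7 (nat_lit 332)) (M (nat_lit 460) (B (lo113_10_5 (nat_lit 333)) (lo113_11_5 (nat_lit 492)))))))))) (K _ _ _ o1_s55685))))) (B (M (nat_lit 397) (B (K _ _ _ o1_s55690) (B (K _ _ _ o1_s55712) (B (K _ _ _ o1_s55718) (B (K _ _ _ o1_s55728) (B (M (nat_lit 426) (B (lo110_13_2 (nat_lit 398)) (M (nat_lit 425) (B (M (nat_lit 457) (B (lo112_13_1 (nat_lit 456)) (lo113_13_1 (nat_lit 458)))) (M (nat_lit 461) (B (lo19_13_0 (nat_lit 460)) (lo110_13_0 (nat_lit 462)))))))) (K _ _ _ o1_s55738))))))) (B (M (nat_lit 397) (B (K _ _ _ o1_s55690) (B (K _ _ _ o1_s55712) (B (K _ _ _ o1_s55718) (B (K _ _ _ o1_s55728) (B (M (nat_lit 426) (B (lo110_13_2 (nat_lit 398)) (M (nat_lit 425) (B (M (nat_lit 393) (B (lo112_13_3 (nat_lit 392)) (lo113_13_3 (nat_lit 394)))) (M (nat_lit 461) (B (lo19_13_0 (nat_lit 460)) (lo110_13_0 (nat_lit 462)))))))) (K _ _ _ o1_s55738))))))) (B (M (nat_lit 363) (B (M (nat_lit 397) (B (M (nat_lit 398) (B (lo110_13_2 (nat_lit 426)) (M (nat_lit 399) (B (lo116_12_1 (nat_lit 400)) (M (nat_lit 365) (B (lo110_11_0 (nat_lit 362)) (lo111_11_0 (nat_lit 366)))))))) (B (M (nat_lit 395) (B (M (nat_lit 426) (B (lo110_13_2 (nat_lit 398)) (M (nat_lit 331) (B (lo111_10_5 (nat_lit 458)) (lo111_10_4 (nat_lit 460)))))) (B (M (nat_lit 460) (B (lo111_10_4 (nat_lit 331)) (M (nat_lit 459) (B (lo111_14_6 (nat_lit 332)) (lo111_11_4 (nat_lit 492)))))) (M (nat_lit 458) (B (M (nat_lit 426) (B (lo113_13_1 (nat_lit 457)) (lo110_13_2 (nat_lit 398)))) (M (nat_lit 459) (B (lo111_11_5 (nat_lit 490)) (lo111_14_6 (nat_lit 332))))))))) (M (nat_lit 460) (B (M (nat_lit 492) (B (lo112_16_6 (nat_lit 524)) (M (nat_lit 365) (B (lo113_10_5 (nat_lit 333)) (lo113_11_5 (nat_lit 461)))))) (B (M (nat_lit 332) (B (M (nat_lit 395) (B (lo111_10_4 (nat_lit 331)) (lo111_14_6 (nat_lit 459)))) (M (nat_lit 365) (B (lo113_14_7 (nat_lit 461)) (lo113_10_5 (nat_lit 333)))))) (M (nat_lit 492) (B (lo112_16_6 (nat_lit 524)) (M (nat_lit 395) (B (lo111_10_4 (nat_lit 331)) (lo111_11_4 (nat_lit 459)))))))))))) (B (M (nat_lit 395) (B (M (nat_lit 332) (B (lo111_14_6 (nat_lit 459)) (M (nat_lit 331) (B (lo111_13_6 (nat_lit 300)) (lo111_10_4 (nat_lit 460)))))) (B (K _ _ _ o1_s22775) (M (nat_lit 365) (B (M (nat_lit 394) (B (lo114_11_1 (nat_lit 366)) (M (nat_lit 393) (B (lo18_12_2 (nat_lit 392)) (lo113_13_3 (nat_lit 426)))))) (B (M (nat_lit 394) (B (lo114_11_1 (nat_lit 366)) (M (nat_lit 393) (B (lo113_11_1 (nat_lit 362)) (lo113_13_3 (nat_lit 426)))))) (B (M (nat_lit 397) (B (M (nat_lit 398) (B (lo110_11_0 (nat_lit 362)) (lo110_13_2 (nat_lit 426)))) (M (nat_lit 460) (B (lo111_10_4 (nat_lit 331)) (lo113_10_5 (nat_lit 333)))))) (M (nat_lit 394) (B (lo114_11_1 (nat_lit 366)) (M (nat_lit 393) (B (lo18_12_2 (nat_lit 392)) (lo113_11_1 (nat_lit 362))))))))))))) (B (M (nat_lit 395) (B (M (nat_lit 459) (B (lo111_14_6 (nat_lit 332)) (M (nat_lit 460) (B (lo111_10_4 (nat_lit 331)) (lo111_11_4 (nat_lit 492)))))) (B (M (nat_lit 459) (B (lo111_14_6 (nat_lit 332)) (M (nat_lit 460) (B (lo111_11_4 (nat_lit 492)) (M (nat_lit 458) (B (lo19_14_2 (nat_lit 457)) (lo111_11_5 (nat_lit 490)))))))) (B (M (nat_lit 331) (B (lo111_10_4 (nat_lit 460)) (M (nat_lit 426) (B (lo111_10_5 (nat_lit 458)) (M (nat_lit 394) (B (lo113_13_3 (nat_lit 393)) (lo111_9_5 (nat_lit 299)))))))) (M (nat_lit 458) (B (M (nat_lit 426) (B (lo113_13_1 (nat_lit 457)) (lo111_10_5 (nat_lit 331)))) (M (nat_lit 459) (B (lo111_11_5 (nat_lit 490)) (lo111_14_6 (nat_lit 332)))))))))) (B (M (nat_lit 395) (B (M (nat_lit 332) (B (lo111_14_6 (nat_lit 459)) (M (nat_lit 331) (B (lo111_13_6 (nat_lit 300)) (lo111_10_4 (nat_lit 460)))))) (B (M (nat_lit 459) (B (lo111_14_6 (nat_lit 332)) (M (nat_lit 460) (B (lo111_11_4 (nat_lit 492)) (M (nat_lit 458) (B (lo19_14_2 (nat_lit 457)) (lo111_11_5 (nat_lit 490)))))))) (B (M (nat_lit 331) (B (lo111_10_4 (nat_lit 460)) (M (nat_lit 298) (B (lo111_13_7 (nat_lit 330)) (M (nat_lit 300) (B (lo111_13_6 (nat_lit 332)) (M (nat_lit 299) (B (lo111_12_7 (nat_lit 266)) (lo111_12_6 (nat_lit 268)))))))))) (B (M (nat_lit 460) (B (lo111_10_4 (nat_lit 331)) (M (nat_lit 492) (B (lo111_11_4 (nat_lit 459)) (lo112_16_7 (nat_lit 524)))))) (M (nat_lit 332) (B (lo111_14_6 (nat_lit 459)) (M (nat_lit 300) (B (lo111_13_6 (nat_lit 331)) (lo112_8_5 (nat_lit 268))))))))))) (B (M (nat_lit 395) (B (M (nat_lit 460) (B (lo111_10_4 (nat_lit 331)) (M (nat_lit 459) (B (lo111_14_6 (nat_lit 332)) (lo111_11_4 (nat_lit 492)))))) (B (M (nat_lit 459) (B (lo111_14_6 (nat_lit 332)) (M (nat_lit 394) (B (M (nat_lit 393) (B (lo18_12_2 (nat_lit 392)) (lo113_13_3 (nat_lit 426)))) (M (nat_lit 362) (B (lo111_14_7 (nat_lit 330)) (lo111_15_7 (nat_lit 491)))))))) (M (nat_lit 365) (B (M (nat_lit 394) (B (lo114_11_1 (nat_lit 366)) (M (nat_lit 393) (B (lo18_12_2 (nat_lit 392)) (lo113_11_1 (nat_lit 362)))))) (B (M (nat_lit 394) (B (lo114_11_1 (nat_lit 366)) (M (nat_lit 393) (B (lo113_11_1 (nat_lit 362)) (lo113_13_3 (nat_lit 426)))))) (B (M (nat_lit 366) (B (lo114_11_1 (nat_lit 394)) (M (nat_lit 331) (B (lo114_11_3 (nat_lit 330)) (lo111_10_4 (nat_lit 460)))))) (B (M (nat_lit 331) (B (lo111_10_4 (nat_lit 460)) (M (nat_lit 330) (B (lo111_13_7 (nat_lit 298)) (lo114_11_3 (nat_lit 366)))))) (M (nat_lit 397) (B (M (nat_lit 398) (B (lo110_11_0 (nat_lit 362)) (lo110_13_2 (nat_lit 426)))) (M (nat_lit 460) (B (lo111_10_4 (nat_lit 331)) (lo113_10_5 (nat_lit 333)))))))))))))) (B (M (nat_lit 365) (B (K _ _ _ o1_s55810) (B (K _ _ _ o1_s55824) (B (K _ _ _ o1_s55825) (B (K _ _ _ o1_s55831) (B (K _ _ _ o1_s55836) (K _ _ _ o1_s55838))))))) (B (M (nat_lit 365) (B (K _ _ _ o1_s55810) (B (K _ _ _ o1_s55824) (B (K _ _ _ o1_s55825) (B (K _ _ _ o1_s55831) (B (K _ _ _ o1_s55843) (K _ _ _ o1_s55838))))))) (B (K _ _ _ o1_s29931) (M (nat_lit 365) (B (K _ _ _ o1_s55831) (B (M (nat_lit 426) (B (M (nat_lit 461) (B (lo110_13_0 (nat_lit 462)) (M (nat_lit 397) (B (lo110_13_2 (nat_lit 398)) (lo113_14_7 (nat_lit 332)))))) (M (nat_lit 395) (B (M (nat_lit 394) (B (lo113_13_3 (nat_lit 393)) (lo114_11_1 (nat_lit 366)))) (M (nat_lit 458) (B (lo113_13_1 (nat_lit 457)) (lo111_10_5 (nat_lit 331)))))))) (B (K _ _ _ o1_s55857) (B (M (nat_lit 398) (B (M (nat_lit 397) (B (lo110_11_0 (nat_lit 362)) (lo110_13_2 (nat_lit 426)))) (B (M (nat_lit 397) (B (lo110_13_2 (nat_lit 426)) (M (nat_lit 399) (B (lo111_11_0 (nat_lit 366)) (lo116_12_3 (nat_lit 400)))))) (B (M (nat_lit 397) (B (lo110_11_0 (nat_lit 362)) (M (nat_lit 399) (B (lo111_11_0 (nat_lit 366)) (lo116_12_3 (nat_lit 400)))))) (M (nat_lit 394) (B (M (nat_lit 393) (B (lo113_11_1 (nat_lit 362)) (lo113_13_3 (nat_lit 426)))) (M (nat_lit 366) (B (lo114_11_1 (nat_lit 395)) (lo111_11_0 (nat_lit 399)))))))))) (B (M (nat_lit 395) (B (M (nat_lit 394) (B (lo114_11_1 (nat_lit 366)) (M (nat_lit 393) (B (lo18_12_2 (nat_lit 392)) (lo113_11_1 (nat_lit 362)))))) (B (M (nat_lit 394) (B (lo114_11_1 (nat_lit 366)) (M (nat_lit 393) (B (lo113_11_1 (nat_lit 362)) (lo113_13_3 (nat_lit 426)))))) (M (nat_lit 458) (B (M (nat_lit 426) (B (lo113_13_1 (nat_lit 457)) (lo111_10_5 (nat_lit 331)))) (M (nat_lit 459) (B (lo111_11_5 (nat_lit 490)) (lo111_14_6 (nat_lit 332))))))))) (M (nat_lit 397) (B (M (nat_lit 398) (B (lo110_11_0 (nat_lit 362)) (lo110_13_2 (nat_lit 426)))) (M (nat_lit 332) (B (lo113_14_7 (nat_lit 461)) (M (nat_lit 300) (B (lo112_8_4 (nat_lit 268)) (lo113_13_7 (nat_lit 333))))))))))))))))))))))) (B (M (nat_lit 365) (B (M (nat_lit 397) (B (M (nat_lit 461) (B (lo113_14_7 (nat_lit 332)) (M (nat_lit 460) (B (lo113_10_5 (nat_lit 333)) (lo113_11_5 (nat_lit 492)))))) (B (M (nat_lit 460) (B (lo113_10_5 (nat_lit 333)) (M (nat_lit 492) (B (lo112_16_6 (nat_lit 524)) (lo113_11_5 (nat_lit 461)))))) (B (M (nat_lit 332) (B (lo113_14_7 (nat_lit 461)) (M (nat_lit 300) (B (lo112_8_4 (nat_lit 268)) (lo113_13_7 (nat_lit 333)))))) (B (M (nat_lit 461) (B (lo113_14_7 (nat_lit 332)) (M (nat_lit 460) (B (lo113_11_5 (nat_lit 492)) (M (nat_lit 462) (B (lo115_14_3 (nat_lit 463)) (lo113_11_4 (nat_lit 494)))))))) (M (nat_lit 460) (B (lo113_10_5 (nat_lit 333)) (K _ _ _ o1_s55879)))))))) (B (M (nat_lit 397) (B (M (nat_lit 332) (B (lo113_14_7 (nat_lit 461)) (M (nat_lit 300) (B (lo112_8_4 (nat_lit 268)) (lo113_13_7 (nat_lit 333)))))) (B (M (nat_lit 332) (B (lo113_14_7 (nat_lit 461)) (M (nat_lit 333) (B (lo113_13_7 (nat_lit 300)) (lo113_10_5 (nat_lit 460)))))) (B (M (nat_lit 460) (B (lo113_10_5 (nat_lit 333)) (M (nat_lit 492) (B (lo112_16_6 (nat_lit 524)) (lo113_11_5 (nat_lit 461)))))) (B (M (nat_lit 461) (B (lo113_14_7 (nat_lit 332)) (M (nat_lit 460) (B (lo113_11_5 (nat_lit 492)) (M (nat_lit 462) (B (lo115_14_3 (nat_lit 463)) (lo113_11_4 (nat_lit 494)))))))) (K _ _ _ o1_s55711)))))) (B (M (nat_lit 363) (B (K _ _ _ o1_s55825) (B (M (nat_lit 460) (B (M (nat_lit 397) (B (lo113_10_5 (nat_lit 333)) (M (nat_lit 492) (B (lo112_16_6 (nat_lit 524)) (lo113_11_5 (nat_lit 461)))))) (B (M (nat_lit 332) (B (M (nat_lit 395) (B (lo111_10_4 (nat_lit 331)) (lo111_14_6 (nat_lit 459)))) (M (nat_lit 397) (B (lo113_14_7 (nat_lit 461)) (lo113_10_5 (nat_lit 333)))))) (M (nat_lit 395) (B (lo111_10_4 (nat_lit 331)) (M (nat_lit 459) (B (lo111_14_6 (nat_lit 332)) (lo111_11_4 (nat_lit 492))))))))) (B (M (nat_lit 366) (B (M (nat_lit 332) (B (M (nat_lit 331) (B (lo114_11_3 (nat_lit 330)) (lo115_11_3 (nat_lit 367)))) (M (nat_lit 395) (B (lo114_11_1 (nat_lit 394)) (lo111_14_6 (nat_lit 459)))))) (B (M (nat_lit 397) (B (M (nat_lit 398) (B (lo110_11_0 (nat_lit 362)) (lo111_11_0 (nat_lit 399)))) (M (nat_lit 461) (B (lo113_14_7 (nat_lit 332)) (lo113_14_6 (nat_lit 334)))))) (M (nat_lit 397) (B (M (nat_lit 398) (B (lo110_11_0 (nat_lit 362)) (lo111_11_0 (nat_lit 399)))) (M (nat_lit 334) (B (lo111_11_2 (nat_lit 335)) (lo113_14_6 (nat_lit 461))))))))) (K _ _ _ o1_s55911))))) (B (M (nat_lit 363) (B (K _ _ _ o1_s55825) (B (M (nat_lit 366) (B (M (nat_lit 395) (B (lo114_11_1 (nat_lit 394)) (M (nat_lit 331) (B (lo114_11_3 (nat_lit 330)) (lo111_10_4 (nat_lit 460)))))) (M (nat_lit 399) (B (lo111_11_0 (nat_lit 398)) (M (nat_lit 367) (B (lo112_11_0 (nat_lit 400)) (M (nat_lit 335) (B (lo111_11_2 (nat_lit 334)) (lo112_11_2 (nat_lit 336)))))))))) (B (M (nat_lit 366) (B (M (nat_lit 362) (B (M (nat_lit 330) (B (lo113_11_3 (nat_lit 329)) (lo114_11_3 (nat_lit 331)))) (M (nat_lit 394) (B (lo113_11_1 (nat_lit 393)) (lo114_11_1 (nat_lit 395)))))) (B (M (nat_lit 397) (B (M (nat_lit 398) (B (lo110_11_0 (nat_lit 362)) (lo111_11_0 (nat_lit 399)))) (M (nat_lit 334) (B (lo111_11_2 (nat_lit 335)) (lo113_14_6 (nat_lit 461)))))) (M (nat_lit 367) (B (M (nat_lit 335) (B (lo111_11_2 (nat_lit 334)) (lo112_11_2 (nat_lit 336)))) (M (nat_lit 399) (B (lo111_11_0 (nat_lit 398)) (lo112_11_0 (nat_lit 400))))))))) (B (M (nat_lit 362) (B (M (nat_lit 397) (B (lo110_11_0 (nat_lit 398)) (M (nat_lit 333) (B (lo110_11_2 (nat_lit 334)) (lo113_10_5 (nat_lit 460)))))) (M (nat_lit 361) (B (M (nat_lit 329) (B (lo112_11_3 (nat_lit 328)) (lo113_11_3 (nat_lit 330)))) (M (nat_lit 393) (B (lo112_11_1 (nat_lit 392)) (lo113_11_1 (nat_lit 394)))))))) (K _ _ _ o1_s55911)))))) (B (K _ _ _ o1_s55939) (B (M (nat_lit 397) (B (M (nat_lit 461) (B (lo113_14_7 (nat_lit 332)) (M (nat_lit 460) (B (lo113_11_5 (nat_lit 492)) (M (nat_lit 462) (B (lo115_14_3 (nat_lit 463)) (lo113_11_4 (nat_lit 494)))))))) (B (M (nat_lit 460) (B (M (nat_lit 492) (B (lo112_16_6 (nat_lit 524)) (lo113_11_5 (nat_lit 461)))) (B (M (nat_lit 366) (B (M (nat_lit 461) (B (lo113_14_6 (nat_lit 334)) (M (nat_lit 462) (B (lo115_14_3 (nat_lit 463)) (lo113_11_4 (nat_lit 494)))))) (M (nat_lit 363) (B (M (nat_lit 331) (B (lo114_11_3 (nat_lit 330)) (lo111_10_4 (nat_lit 395)))) (M (nat_lit 398) (B (lo110_11_0 (nat_lit 362)) (lo111_11_0 (nat_lit 399)))))))) (K _ _ _ o1_s55879)))) (B (M (nat_lit 332) (B (lo113_14_7 (nat_lit 461)) (M (nat_lit 363) (B (M (nat_lit 395) (B (lo111_14_6 (nat_lit 459)) (M (nat_lit 300) (B (lo111_13_6 (nat_lit 331)) (lo112_8_5 (nat_lit 268)))))) (M (nat_lit 398) (B (lo110_11_0 (nat_lit 362)) (M (nat_lit 399) (B (lo111_11_0 (nat_lit 366)) (lo116_12_3 (nat_lit 400)))))))))) (M (nat_lit 363) (B (M (nat_lit 398) (B (lo110_11_0 (nat_lit 362)) (M (nat_lit 399) (B (lo111_11_0 (nat_lit 366)) (lo116_12_3 (nat_lit 400)))))) (B (M (nat_lit 366) (B (M (nat_lit 398) (B (lo111_11_0 (nat_lit 399)) (M (nat_lit 334) (B (lo111_11_2 (nat_lit 335)) (lo114_9_5 (nat_lit 302)))))) (M (nat_lit 395) (B (lo114_11_1 (nat_lit 394)) (M (nat_lit 331) (B (lo114_11_3 (nat_lit 330)) (lo111_10_4 (nat_lit 460)))))))) (B (M (nat_lit 395) (B (M (nat_lit 460) (B (lo111_10_4 (nat_lit 331)) (M (nat_lit 459) (B (lo111_14_6 (nat_lit 332)) (lo111_11_4 (nat_lit 492)))))) (B (M (nat_lit 459) (B (lo111_14_6 (nat_lit 332)) (M (nat_lit 362) (B (lo111_14_7 (nat_lit 330)) (lo110_11_0 (nat_lit 398)))))) (M (nat_lit 330) (B (M (nat_lit 362) (B (lo113_11_3 (nat_lit 329)) (lo110_11_0 (nat_lit 398)))) (M (nat_lit 331) (B (lo111_13_7 (nat_lit 298)) (lo111_10_4 (nat_lit 460))))))))) (M (nat_lit 395) (B (M (nat_lit 460) (B (lo111_10_4 (nat_lit 331)) (M (nat_lit 459) (B (lo111_14_6 (nat_lit 332)) (lo111_11_4 (nat_lit 492)))))) (M (nat_lit 394) (B (lo114_11_1 (nat_lit 366)) (M (nat_lit 393) (B (lo18_12_2 (nat_lit 392)) (lo113_11_1 (nat_lit 362)))))))))))))))) (M (nat_lit 363) (B (M (nat_lit 395) (B (M (nat_lit 332) (B (lo111_14_6 (nat_lit 459)) (M (nat_lit 300) (B (lo111_13_6 (nat_lit 331)) (lo112_8_5 (nat_lit 268)))))) (M (nat_lit 394) (B (lo114_11_1 (nat_lit 366)) (M (nat_lit 393) (B (lo18_12_2 (nat_lit 392)) (lo113_11_1 (nat_lit 362)))))))) (B (M (nat_lit 395) (B (M (nat_lit 460) (B (lo111_10_4 (nat_lit 331)) (M (nat_lit 459) (B (lo111_14_6 (nat_lit 332)) (lo111_11_4 (nat_lit 492)))))) (B (M (nat_lit 459) (B (lo111_14_6 (nat_lit 332)) (M (nat_lit 460) (B (lo111_11_4 (nat_lit 492)) (M (nat_lit 458) (B (lo19_14_2 (nat_lit 457)) (lo111_11_5 (nat_lit 490)))))))) (B (M (nat_lit 366) (B (lo114_11_1 (nat_lit 394)) (M (nat_lit 331) (B (lo114_11_3 (nat_lit 330)) (lo111_10_4 (nat_lit 460)))))) (M (nat_lit 330) (B (M (nat_lit 362) (B (lo113_11_3 (nat_lit 329)) (lo111_14_7 (nat_lit 459)))) (M (nat_lit 331) (B (lo111_13_7 (nat_lit 298)) (lo114_11_3 (nat_lit 366)))))))))) (B (M (nat_lit 395) (B (M (nat_lit 366) (B (lo114_11_1 (nat_lit 394)) (M (nat_lit 331) (B (lo114_11_3 (nat_lit 330)) (lo111_10_4 (nat_lit 460)))))) (B (M (nat_lit 460) (B (lo111_10_4 (nat_lit 331)) (M (nat_lit 459) (B (lo111_14_6 (nat_lit 332)) (lo111_11_4 (nat_lit 492)))))) (B (M (nat_lit 459) (B (lo111_14_6 (nat_lit 332)) (M (nat_lit 460) (B (lo111_11_4 (nat_lit 492)) (M (nat_lit 458) (B (lo19_14_2 (nat_lit 457)) (lo111_11_5 (nat_lit 490)))))))) (M (nat_lit 331) (B (M (nat_lit 366) (B (lo114_11_3 (nat_lit 330)) (lo114_11_1 (nat_lit 394)))) (M (nat_lit 332) (B (lo111_13_6 (nat_lit 300)) (lo111_14_6 (nat_lit 459)))))))))) (B (M (nat_lit 395) (B (M (nat_lit 460) (B (lo111_10_4 (nat_lit 331)) (M (nat_lit 459) (B (lo111_14_6 (nat_lit 332)) (lo111_11_4 (nat_lit 492)))))) (B (M (nat_lit 459) (B (lo111_14_6 (nat_lit 332)) (M (nat_lit 460) (B (lo111_11_4 (nat_lit 492)) (M (nat_lit 458) (B (lo19_14_2 (nat_lit 457)) (lo111_11_5 (nat_lit 490)))))))) (B (M (nat_lit 331) (B (lo111_10_4 (nat_lit 460)) (M (nat_lit 366) (B (lo114_11_3 (nat_lit 330)) (M (nat_lit 332) (B (lo111_13_6 (nat_lit 300)) (lo115_11_3 (nat_lit 367)))))))) (B (M (nat_lit 460) (B (lo111_10_4 (nat_lit 331)) (M (nat_lit 459) (B (lo111_11_4 (nat_lit 492)) (M (nat_lit 458) (B (lo19_14_2 (nat_lit 457)) (lo111_11_5 (nat_lit 490)))))))) (M (nat_lit 332) (B (lo111_14_6 (nat_lit 459)) (M (nat_lit 300) (B (lo111_13_6 (nat_lit 331)) (lo112_8_5 (nat_lit 268))))))))))) (B (M (nat_lit 395) (B (M (nat_lit 394) (B (lo114_11_1 (nat_lit 366)) (M (nat_lit 393) (B (lo18_12_2 (nat_lit 392)) (lo113_11_1 (nat_lit 362)))))) (M (nat_lit 459) (B (lo111_14_6 (nat_lit 332)) (M (nat_lit 460) (B (lo111_11_4 (nat_lit 492)) (M (nat_lit 458) (B (lo19_14_2 (nat_lit 457)) (lo111_11_5 (nat_lit 490)))))))))) (B (K _ _ _ o1_s55843) (B (K _ _ _ o1_s55911) (M (nat_lit 395) (B (M (nat_lit 460) (B (lo111_10_4 (nat_lit 331)) (M (nat_lit 459) (B (lo111_14_6 (nat_lit 332)) (lo111_11_4 (nat_lit 492)))))) (B (M (nat_lit 459) (B (lo111_14_6 (nat_lit 332)) (M (nat_lit 460) (B (lo111_11_4 (nat_lit 492)) (M (nat_lit 458) (B (lo19_14_2 (nat_lit 457)) (lo111_11_5 (nat_lit 490)))))))) (B (M (nat_lit 331) (B (lo111_10_4 (nat_lit 460)) (M (nat_lit 330) (B (lo111_13_7 (nat_lit 298)) (M (nat_lit 332) (B (lo19_10_0 (nat_lit 329)) (lo111_13_6 (nat_lit 300)))))))) (B (M (nat_lit 460) (B (lo111_10_4 (nat_lit 331)) (M (nat_lit 459) (B (lo111_11_4 (nat_lit 492)) (M (nat_lit 458) (B (lo19_14_2 (nat_lit 457)) (lo111_11_5 (nat_lit 490)))))))) (M (nat_lit 332) (B (lo111_14_6 (nat_lit 459)) (M (nat_lit 300) (B (lo111_13_6 (nat_lit 331)) (lo112_8_5 (nat_lit 268)))))))))))))))))))))))))) (B (M (nat_lit 426) (B (M (nat_lit 461) (B (lo110_13_0 (nat_lit 462)) (M (nat_lit 425) (B (lo19_13_0 (nat_lit 460)) (M (nat_lit 457) (B (lo112_13_1 (nat_lit 456)) (lo113_13_1 (nat_lit 458)))))))) (B (M (nat_lit 461) (B (lo110_13_0 (nat_lit 462)) (M (nat_lit 425) (B (lo19_13_0 (nat_lit 460)) (M (nat_lit 393) (B (lo112_13_3 (nat_lit 392)) (lo113_13_3 (nat_lit 394)))))))) (B (M (nat_lit 365) (B (M (nat_lit 461) (B (lo110_13_0 (nat_lit 462)) (M (nat_lit 397) (B (lo110_13_2 (nat_lit 398)) (M (nat_lit 460) (B (lo113_10_5 (nat_lit 333)) (lo113_11_5 (nat_lit 492)))))))) (B (M (nat_lit 394) (B (lo113_13_3 (nat_lit 393)) (M (nat_lit 363) (B (M (nat_lit 398) (B (lo110_13_2 (nat_lit 397)) (M (nat_lit 366) (B (lo114_11_1 (nat_lit 395)) (lo111_11_0 (nat_lit 399)))))) (M (nat_lit 362) (B (M (nat_lit 330) (B (lo113_11_3 (nat_lit 329)) (lo110_10_4 (nat_lit 459)))) (M (nat_lit 458) (B (lo113_13_1 (nat_lit 457)) (lo110_14_6 (nat_lit 331)))))))))) (M (nat_lit 394) (B (lo113_13_3 (nat_lit 393)) (M (nat_lit 363) (B (M (nat_lit 395) (B (lo114_11_1 (nat_lit 366)) (M (nat_lit 458) (B (lo113_13_1 (nat_lit 457)) (lo110_15_6 (nat_lit 490)))))) (B (M (nat_lit 395) (B (lo114_11_1 (nat_lit 366)) (M (nat_lit 458) (B (lo110_15_6 (nat_lit 490)) (lo111_10_5 (nat_lit 331)))))) (B (M (nat_lit 395) (B (lo114_11_1 (nat_lit 366)) (M (nat_lit 331) (B (lo111_9_5 (nat_lit 299)) (lo111_10_4 (nat_lit 460)))))) (M (nat_lit 362) (B (M (nat_lit 330) (B (lo113_11_3 (nat_lit 329)) (lo110_10_4 (nat_lit 459)))) (M (nat_lit 458) (B (lo113_13_1 (nat_lit 457)) (lo110_14_6 (nat_lit 331))))))))))))))) (K _ _ _ o1_s55685))))) (B (M (nat_lit 365) (B (M (nat_lit 397) (B (M (nat_lit 461) (B (lo113_14_7 (nat_lit 332)) (M (nat_lit 426) (B (lo110_13_2 (nat_lit 398)) (lo110_13_0 (nat_lit 462)))))) (B (M (nat_lit 332) (B (lo113_14_7 (nat_lit 461)) (M (nat_lit 300) (B (lo112_8_4 (nat_lit 268)) (lo113_13_7 (nat_lit 333)))))) (M (nat_lit 398) (B (lo110_13_2 (nat_lit 426)) (M (nat_lit 399) (B (lo116_12_3 (nat_lit 400)) (M (nat_lit 363) (B (lo110_11_0 (nat_lit 362)) (lo111_11_0 (nat_lit 366))))))))))) (B (M (nat_lit 397) (B (M (nat_lit 332) (B (lo113_14_7 (nat_lit 461)) (M (nat_lit 300) (B (lo112_8_4 (nat_lit 268)) (lo113_13_7 (nat_lit 333)))))) (B (M (nat_lit 461) (B (lo113_14_7 (nat_lit 332)) (M (nat_lit 398) (B (lo110_13_2 (nat_lit 426)) (M (nat_lit 366) (B (lo113_14_6 (nat_lit 334)) (lo113_15_6 (nat_lit 493)))))))) (B (M (nat_lit 398) (B (lo110_13_2 (nat_lit 426)) (M (nat_lit 366) (B (M (nat_lit 399) (B (lo111_11_0 (nat_lit 363)) (lo116_12_3 (nat_lit 400)))) (M (nat_lit 461) (B (lo113_14_6 (nat_lit 334)) (lo113_15_6 (nat_lit 493)))))))) (K _ _ _ o1_s56034))))) (B (K _ _ _ o1_s55939) (B (M (nat_lit 461) (B (M (nat_lit 397) (B (lo113_14_7 (nat_lit 332)) (M (nat_lit 426) (B (lo110_13_2 (nat_lit 398)) (lo110_13_0 (nat_lit 462)))))) (B (M (nat_lit 397) (B (lo113_14_7 (nat_lit 332)) (M (nat_lit 493) (B (M (nat_lit 366) (B (lo113_14_6 (nat_lit 334)) (lo113_15_6 (nat_lit 398)))) (M (nat_lit 494) (B (lo113_11_4 (nat_lit 462)) (lo113_12_4 (nat_lit 526)))))))) (B (M (nat_lit 397) (B (M (nat_lit 426) (B (lo110_13_2 (nat_lit 398)) (lo110_13_0 (nat_lit 462)))) (B (M (nat_lit 493) (B (M (nat_lit 366) (B (lo113_14_6 (nat_lit 334)) (lo113_15_6 (nat_lit 398)))) (M (nat_lit 494) (B (lo113_11_4 (nat_lit 462)) (lo113_12_4 (nat_lit 526)))))) (B (M (nat_lit 462) (B (lo110_13_0 (nat_lit 426)) (lo113_11_4 (nat_lit 494)))) (M (nat_lit 398) (B (lo110_13_2 (nat_lit 426)) (M (nat_lit 366) (B (lo113_14_6 (nat_lit 334)) (lo113_15_6 (nat_lit 493)))))))))) (B (M (nat_lit 426) (B (lo110_13_0 (nat_lit 462)) (M (nat_lit 425) (B (M (nat_lit 393) (B (lo112_13_3 (nat_lit 392)) (lo113_13_3 (nat_lit 394)))) (M (nat_lit 457) (B (lo112_13_1 (nat_lit 456)) (lo113_13_1 (nat_lit 458)))))))) (M (nat_lit 397) (B (lo113_14_7 (nat_lit 332)) (M (nat_lit 398) (B (lo110_13_2 (nat_lit 426)) (M (nat_lit 366) (B (lo113_14_6 (nat_lit 334)) (lo113_15_6 (nat_lit 493))))))))))))) (B (M (nat_lit 366) (B (M (nat_lit 426) (B (M (nat_lit 461) (B (lo110_13_0 (nat_lit 462)) (M (nat_lit 397) (B (lo110_13_2 (nat_lit 398)) (lo113_14_6 (nat_lit 334)))))) (M (nat_lit 425) (B (M (nat_lit 393) (B (lo112_13_3 (nat_lit 392)) (lo113_13_3 (nat_lit 394)))) (M (nat_lit 457) (B (lo112_13_1 (nat_lit 456)) (lo113_13_1 (nat_lit 458)))))))) (B (M (nat_lit 397) (B (M (nat_lit 461) (B (lo113_14_6 (nat_lit 334)) (M (nat_lit 426) (B (lo110_13_2 (nat_lit 398)) (lo110_13_0 (nat_lit 462)))))) (B (M (nat_lit 334) (B (lo113_14_6 (nat_lit 461)) (M (nat_lit 302) (B (lo113_13_6 (nat_lit 333)) (lo114_8_5 (nat_lit 270)))))) (M (nat_lit 398) (B (lo110_13_2 (nat_lit 426)) (M (nat_lit 363) (B (lo110_11_0 (nat_lit 362)) (lo111_11_0 (nat_lit 399))))))))) (B (K _ _ _ o1_s56086) (B (M (nat_lit 363) (B (M (nat_lit 394) (B (lo114_11_1 (nat_lit 395)) (M (nat_lit 393) (B (lo113_11_1 (nat_lit 362)) (lo113_13_3 (nat_lit 426)))))) (M (nat_lit 399) (B (lo111_11_0 (nat_lit 398)) (M (nat_lit 367) (B (lo112_11_0 (nat_lit 400)) (M (nat_lit 335) (B (lo111_11_2 (nat_lit 334)) (lo112_11_2 (nat_lit 336)))))))))) (M (nat_lit 363) (B (M (nat_lit 394) (B (lo114_11_1 (nat_lit 395)) (M (nat_lit 393) (B (lo113_11_1 (nat_lit 362)) (lo113_13_3 (nat_lit 426)))))) (B (M (nat_lit 398) (B (lo111_11_0 (nat_lit 399)) (M (nat_lit 397) (B (lo110_11_0 (nat_lit 362)) (lo110_13_2 (nat_lit 426)))))) (B (M (nat_lit 426) (B (M (nat_lit 394) (B (lo113_13_3 (nat_lit 393)) (lo114_11_1 (nat_lit 395)))) (M (nat_lit 398) (B (lo110_13_2 (nat_lit 397)) (lo111_11_0 (nat_lit 399)))))) (M (nat_lit 362) (B (M (nat_lit 330) (B (lo113_11_3 (nat_lit 329)) (lo114_11_3 (nat_lit 331)))) (M (nat_lit 394) (B (lo113_11_1 (nat_lit 393)) (lo114_11_1 (nat_lit 395))))))))))))))) (B (M (nat_lit 363) (B (M (nat_lit 395) (B (M (nat_lit 394) (B (lo114_11_1 (nat_lit 366)) (M (nat_lit 393) (B (lo18_12_2 (nat_lit 392)) (lo113_13_3 (nat_lit 426)))))) (M (nat_lit 332) (B (lo111_14_6 (nat_lit 459)) (M (nat_lit 300) (B (lo111_13_6 (nat_lit 331)) (lo112_8_5 (nat_lit 268)))))))) (B (M (nat_lit 395) (B (M (nat_lit 332) (B (lo111_14_6 (nat_lit 459)) (M (nat_lit 300) (B (lo111_13_6 (nat_lit 331)) (lo112_8_5 (nat_lit 268)))))) (M (nat_lit 394) (B (lo114_11_1 (nat_lit 366)) (M (nat_lit 393) (B (lo113_11_1 (nat_lit 362)) (lo113_13_3 (nat_lit 426)))))))) (B (M (nat_lit 366) (B (M (nat_lit 332) (B (M (nat_lit 331) (B (lo114_11_3 (nat_lit 330)) (lo115_11_3 (nat_lit 367)))) (M (nat_lit 395) (B (lo114_11_1 (nat_lit 394)) (lo111_14_6 (nat_lit 459)))))) (B (M (nat_lit 399) (B (lo111_11_0 (nat_lit 398)) (M (nat_lit 367) (B (lo112_11_0 (nat_lit 400)) (M (nat_lit 335) (B (lo111_11_2 (nat_lit 334)) (lo112_11_2 (nat_lit 336)))))))) (M (nat_lit 362) (B (M (nat_lit 330) (B (lo113_11_3 (nat_lit 329)) (lo114_11_3 (nat_lit 331)))) (M (nat_lit 334) (B (lo110_11_2 (nat_lit 333)) (lo111_11_2 (nat_lit 335))))))))) (B (K _ _ _ o1_s55843) (B (M (nat_lit 395) (B (M (nat_lit 394) (B (lo114_11_1 (nat_lit 366)) (M (nat_lit 393) (B (lo18_12_2 (nat_lit 392)) (lo113_13_3 (nat_lit 426)))))) (B (M (nat_lit 394) (B (lo114_11_1 (nat_lit 366)) (M (nat_lit 393) (B (lo113_11_1 (nat_lit 362)) (lo113_13_3 (nat_lit 426)))))) (B (M (nat_lit 459) (B (lo111_14_6 (nat_lit 332)) (M (nat_lit 458) (B (lo111_11_5 (nat_lit 490)) (M (nat_lit 457) (B (lo18_14_2 (nat_lit 456)) (lo113_13_1 (nat_lit 426)))))))) (M (nat_lit 394) (B (lo114_11_1 (nat_lit 366)) (M (nat_lit 393) (B (lo18_12_2 (nat_lit 392)) (lo113_11_1 (nat_lit 362)))))))))) (B (K _ _ _ o1_s55836) (M (nat_lit 426) (B (M (nat_lit 458) (B (lo113_13_1 (nat_lit 457)) (M (nat_lit 395) (B (lo111_10_5 (nat_lit 331)) (M (nat_lit 394) (B (lo113_13_3 (nat_lit 393)) (lo110_15_6 (nat_lit 490)))))))) (B (M (nat_lit 458) (B (lo113_13_1 (nat_lit 457)) (M (nat_lit 395) (B (lo111_10_5 (nat_lit 331)) (M (nat_lit 490) (B (lo110_15_6 (nat_lit 394)) (lo110_16_6 (nat_lit 522)))))))) (B (K _ _ _ o1_s56124) (M (nat_lit 458) (B (lo113_13_1 (nat_lit 457)) (M (nat_lit 395) (B (lo111_10_5 (nat_lit 331)) (M (nat_lit 490) (B (lo110_16_6 (nat_lit 522)) (lo111_11_5 (nat_lit 459))))))))))))))))))) (B (M (nat_lit 397) (B (M (nat_lit 332) (B (lo113_14_7 (nat_lit 461)) (M (nat_lit 300) (B (lo112_8_4 (nat_lit 268)) (lo113_13_7 (nat_lit 333)))))) (K _ _ _ o1_s56034))) (M (nat_lit 366) (B (M (nat_lit 426) (B (M (nat_lit 461) (B (lo110_13_0 (nat_lit 462)) (M (nat_lit 397) (B (lo113_14_7 (nat_lit 332)) (lo113_14_6 (nat_lit 334)))))) (M (nat_lit 425) (B (M (nat_lit 393) (B (lo112_13_3 (nat_lit 392)) (lo113_13_3 (nat_lit 394)))) (M (nat_lit 457) (B (lo112_13_1 (nat_lit 456)) (lo113_13_1 (nat_lit 458)))))))) (B (M (nat_lit 363) (B (M (nat_lit 394) (B (lo114_11_1 (nat_lit 395)) (M (nat_lit 393) (B (lo113_11_1 (nat_lit 362)) (lo113_13_3 (nat_lit 426)))))) (M (nat_lit 367) (B (M (nat_lit 331) (B (lo114_11_3 (nat_lit 330)) (lo115_11_3 (nat_lit 332)))) (M (nat_lit 335) (B (lo111_11_2 (nat_lit 334)) (lo112_11_2 (nat_lit 336)))))))) (B (M (nat_lit 332) (B (M (nat_lit 331) (B (lo115_11_3 (nat_lit 367)) (M (nat_lit 330) (B (lo19_10_0 (nat_lit 329)) (lo110_10_0 (nat_lit 333)))))) (B (M (nat_lit 331) (B (lo115_11_3 (nat_lit 367)) (M (nat_lit 330) (B (lo114_11_3 (nat_lit 363)) (lo110_10_0 (nat_lit 333)))))) (B (M (nat_lit 397) (B (lo113_14_7 (nat_lit 461)) (M (nat_lit 300) (B (lo112_8_4 (nat_lit 268)) (lo113_13_7 (nat_lit 333)))))) (M (nat_lit 331) (B (lo115_11_3 (nat_lit 367)) (M (nat_lit 330) (B (lo19_10_0 (nat_lit 329)) (lo114_11_3 (nat_lit 363)))))))))) (K _ _ _ o1_s56086))))))))))))) (B (M (nat_lit 426) (B (M (nat_lit 457) (B (lo113_13_1 (nat_lit 458)) (M (nat_lit 425) (B (lo112_13_1 (nat_lit 456)) (M (nat_lit 393) (B (lo112_13_3 (nat_lit 392)) (lo113_13_3 (nat_lit 394)))))))) (B (M (nat_lit 461) (B (lo110_13_0 (nat_lit 462)) (M (nat_lit 425) (B (lo19_13_0 (nat_lit 460)) (M (nat_lit 457) (B (lo112_13_1 (nat_lit 456)) (lo113_13_1 (nat_lit 458)))))))) (B (M (nat_lit 461) (B (lo110_13_0 (nat_lit 462)) (M (nat_lit 425) (B (lo19_13_0 (nat_lit 460)) (M (nat_lit 393) (B (lo112_13_3 (nat_lit 392)) (lo113_13_3 (nat_lit 394)))))))) (M (nat_lit 365) (B (M (nat_lit 461) (B (lo110_13_0 (nat_lit 462)) (M (nat_lit 397) (B (lo110_13_2 (nat_lit 398)) (lo113_14_7 (nat_lit 332)))))) (M (nat_lit 394) (B (lo113_13_3 (nat_lit 393)) (M (nat_lit 363) (B (M (nat_lit 395) (B (lo114_11_1 (nat_lit 366)) (M (nat_lit 458) (B (lo113_13_1 (nat_lit 457)) (lo110_15_6 (nat_lit 490)))))) (B (M (nat_lit 395) (B (lo114_11_1 (nat_lit 366)) (M (nat_lit 458) (B (lo110_15_6 (nat_lit 490)) (lo111_10_5 (nat_lit 331)))))) (B (M (nat_lit 330) (B (M (nat_lit 362) (B (lo113_11_3 (nat_lit 329)) (lo110_10_4 (nat_lit 459)))) (M (nat_lit 366) (B (lo114_11_3 (nat_lit 331)) (lo114_11_1 (nat_lit 395)))))) (M (nat_lit 362) (B (M (nat_lit 330) (B (lo113_11_3 (nat_lit 329)) (lo110_10_4 (nat_lit 459)))) (M (nat_lit 458) (B (lo113_13_1 (nat_lit 457)) (lo110_14_6 (nat_lit 331)))))))))))))))))) (B (M (nat_lit 426) (B (M (nat_lit 425) (B (M (nat_lit 457) (B (lo112_13_1 (nat_lit 456)) (lo113_13_1 (nat_lit 458)))) (M (nat_lit 461) (B (lo19_13_0 (nat_lit 460)) (lo110_13_0 (nat_lit 462)))))) (B (M (nat_lit 425) (B (M (nat_lit 393) (B (lo112_13_3 (nat_lit 392)) (lo113_13_3 (nat_lit 394)))) (M (nat_lit 461) (B (lo19_13_0 (nat_lit 460)) (lo110_13_0 (nat_lit 462)))))) (M (nat_lit 394) (B (lo113_13_3 (nat_lit 393)) (M (nat_lit 458) (B (lo113_13_1 (nat_lit 457)) (M (nat_lit 362) (B (M (nat_lit 459) (B (lo110_10_4 (nat_lit 330)) (lo110_11_4 (nat_lit 491)))) (B (M (nat_lit 490) (B (M (nat_lit 363) (B (lo110_14_6 (nat_lit 331)) (lo110_15_6 (nat_lit 395)))) (M (nat_lit 491) (B (lo110_11_4 (nat_lit 459)) (lo110_12_4 (nat_lit 523)))))) (M (nat_lit 330) (B (M (nat_lit 329) (B (lo110_13_7 (nat_lit 297)) (lo110_14_7 (nat_lit 361)))) (M (nat_lit 331) (B (lo110_13_6 (nat_lit 299)) (lo110_14_6 (nat_lit 363)))))))))))))))) (M (nat_lit 426) (B (M (nat_lit 457) (B (lo113_13_1 (nat_lit 458)) (M (nat_lit 425) (B (lo112_13_1 (nat_lit 456)) (M (nat_lit 393) (B (lo112_13_3 (nat_lit 392)) (lo113_13_3 (nat_lit 394)))))))) (B (M (nat_lit 395) (B (M (nat_lit 394) (B (lo113_13_3 (nat_lit 393)) (M (nat_lit 458) (B (lo113_13_1 (nat_lit 457)) (M (nat_lit 363) (B (lo110_15_6 (nat_lit 490)) (lo111_10_5 (nat_lit 331)))))))) (B (M (nat_lit 458) (B (lo113_13_1 (nat_lit 457)) (M (nat_lit 363) (B (lo111_10_5 (nat_lit 331)) (M (nat_lit 490) (B (lo110_15_6 (nat_lit 394)) (lo110_16_6 (nat_lit 522)))))))) (B (M (nat_lit 459) (B (M (nat_lit 394) (B (lo113_13_3 (nat_lit 393)) (M (nat_lit 362) (B (lo110_10_4 (nat_lit 330)) (lo111_15_7 (nat_lit 491)))))) (M (nat_lit 363) (B (lo111_14_6 (nat_lit 332)) (M (nat_lit 331) (B (lo111_10_5 (nat_lit 458)) (lo111_10_4 (nat_lit 460)))))))) (B (M (nat_lit 458) (B (lo113_13_1 (nat_lit 457)) (M (nat_lit 490) (B (lo110_16_6 (nat_lit 522)) (M (nat_lit 363) (B (lo111_10_5 (nat_lit 331)) (lo111_11_5 (nat_lit 459)))))))) (B (M (nat_lit 459) (B (M (nat_lit 394) (B (lo113_13_3 (nat_lit 393)) (M (nat_lit 362) (B (lo110_10_4 (nat_lit 330)) (lo111_15_7 (nat_lit 491)))))) (M (nat_lit 363) (B (lo111_14_6 (nat_lit 332)) (M (nat_lit 460) (B (lo111_10_4 (nat_lit 331)) (lo111_11_4 (nat_lit 492)))))))) (B (M (nat_lit 458) (B (lo113_13_1 (nat_lit 457)) (M (nat_lit 394) (B (lo113_13_3 (nat_lit 393)) (M (nat_lit 490) (B (lo110_15_6 (nat_lit 363)) (lo110_16_6 (nat_lit 522)))))))) (M (nat_lit 394) (B (lo113_13_3 (nat_lit 393)) (M (nat_lit 459) (B (M (nat_lit 362) (B (lo110_10_4 (nat_lit 330)) (lo111_15_7 (nat_lit 491)))) (M (nat_lit 425) (B (M (nat_lit 424) (B (lo17_13_2 (nat_lit 423)) (lo18_13_0 (nat_lit 460)))) (M (nat_lit 457) (B (lo112_13_1 (nat_lit 456)) (lo113_13_1 (nat_lit 458))))))))))))))))) (B (M (nat_lit 458) (B (lo113_13_1 (nat_lit 457)) (M (nat_lit 394) (B (lo113_13_3 (nat_lit 393)) (M (nat_lit 363) (B (M (nat_lit 331) (B (lo110_14_6 (nat_lit 362)) (lo111_10_5 (nat_lit 395)))) (B (M (nat_lit 395) (B (lo110_15_6 (nat_lit 490)) (lo111_10_5 (nat_lit 331)))) (B (M (nat_lit 459) (B (M (nat_lit 362) (B (lo110_10_4 (nat_lit 330)) (lo110_11_4 (nat_lit 491)))) (M (nat_lit 395) (B (lo110_15_6 (nat_lit 490)) (lo111_14_6 (nat_lit 332)))))) (M (nat_lit 362) (B (lo110_14_6 (nat_lit 331)) (M (nat_lit 459) (B (lo110_10_4 (nat_lit 330)) (lo110_11_4 (nat_lit 491)))))))))))))) (B (M (nat_lit 363) (B (M (nat_lit 397) (B (lo110_13_2 (nat_lit 398)) (M (nat_lit 458) (B (lo113_13_1 (nat_lit 457)) (M (nat_lit 395) (B (lo111_10_5 (nat_lit 331)) (M (nat_lit 490) (B (lo110_15_6 (nat_lit 394)) (lo110_16_6 (nat_lit 522)))))))))) (B (M (nat_lit 395) (B (M (nat_lit 331) (B (lo111_10_5 (nat_lit 458)) (lo111_10_4 (nat_lit 460)))) (B (M (nat_lit 460) (B (lo111_10_4 (nat_lit 331)) (M (nat_lit 459) (B (lo111_14_6 (nat_lit 332)) (lo111_11_4 (nat_lit 492)))))) (B (K _ _ _ o1_s56267) (M (nat_lit 458) (B (lo111_10_5 (nat_lit 331)) (M (nat_lit 490) (B (lo110_15_6 (nat_lit 394)) (lo110_16_6 (nat_lit 522)))))))))) (B (M (nat_lit 395) (B (M (nat_lit 458) (B (lo113_13_1 (nat_lit 457)) (lo111_10_5 (nat_lit 331)))) (B (M (nat_lit 458) (B (lo111_10_5 (nat_lit 331)) (M (nat_lit 490) (B (lo110_16_6 (nat_lit 522)) (lo111_11_5 (nat_lit 459)))))) (B (M (nat_lit 332) (B (lo111_14_6 (nat_lit 459)) (M (nat_lit 300) (B (lo111_13_6 (nat_lit 331)) (lo112_8_5 (nat_lit 268)))))) (M (nat_lit 458) (B (lo113_13_1 (nat_lit 457)) (M (nat_lit 490) (B (lo110_16_6 (nat_lit 522)) (lo111_11_5 (nat_lit 459)))))))))) (B (M (nat_lit 395) (B (M (nat_lit 460) (B (lo111_10_4 (nat_lit 331)) (M (nat_lit 459) (B (lo111_14_6 (nat_lit 332)) (lo111_11_4 (nat_lit 492)))))) (B (K _ _ _ o1_s56267) (B (M (nat_lit 365) (B (M (nat_lit 460) (B (lo111_10_4 (nat_lit 331)) (M (nat_lit 397) (B (lo110_13_2 (nat_lit 398)) (lo113_10_5 (nat_lit 333)))))) (B (M (nat_lit 398) (B (lo110_13_2 (nat_lit 397)) (M (nat_lit 366) (B (lo114_11_1 (nat_lit 394)) (lo111_11_0 (nat_lit 399)))))) (M (nat_lit 394) (B (lo114_11_1 (nat_lit 366)) (M (nat_lit 331) (B (lo111_9_5 (nat_lit 299)) (lo111_10_4 (nat_lit 460))))))))) (M (nat_lit 397) (B (lo110_13_2 (nat_lit 398)) (M (nat_lit 332) (B (lo111_14_6 (nat_lit 459)) (M (nat_lit 300) (B (lo111_13_6 (nat_lit 331)) (lo112_8_5 (nat_lit 268)))))))))))) (B (M (nat_lit 395) (B (M (nat_lit 458) (B (lo113_13_1 (nat_lit 457)) (M (nat_lit 490) (B (lo110_15_6 (nat_lit 394)) (lo110_16_6 (nat_lit 522)))))) (B (K _ _ _ o1_s56267) (M (nat_lit 458) (B (lo113_13_1 (nat_lit 457)) (M (nat_lit 490) (B (lo110_16_6 (nat_lit 522)) (lo111_11_5 (nat_lit 459))))))))) (M (nat_lit 362) (B (M (nat_lit 458) (B (lo113_13_1 (nat_lit 457)) (M (nat_lit 394) (B (lo110_14_6 (nat_lit 331)) (M (nat_lit 459) (B (lo110_10_4 (nat_lit 330)) (lo110_11_4 (nat_lit 491)))))))) (B (M (nat_lit 365) (B (M (nat_lit 397) (B (lo110_11_0 (nat_lit 398)) (M (nat_lit 333) (B (lo110_11_2 (nat_lit 334)) (lo113_10_5 (nat_lit 460)))))) (B (M (nat_lit 366) (B (M (nat_lit 330) (B (lo113_11_3 (nat_lit 329)) (lo114_11_3 (nat_lit 331)))) (M (nat_lit 398) (B (lo110_11_0 (nat_lit 397)) (lo111_11_0 (nat_lit 399)))))) (M (nat_lit 366) (B (M (nat_lit 330) (B (lo113_11_3 (nat_lit 329)) (lo114_11_3 (nat_lit 331)))) (M (nat_lit 334) (B (lo110_11_2 (nat_lit 333)) (lo111_11_2 (nat_lit 335))))))))) (B (M (nat_lit 361) (B (M (nat_lit 458) (B (lo113_13_1 (nat_lit 457)) (M (nat_lit 329) (B (lo112_11_3 (nat_lit 328)) (lo110_14_7 (nat_lit 394)))))) (B (M (nat_lit 458) (B (lo113_13_1 (nat_lit 457)) (M (nat_lit 394) (B (lo110_14_7 (nat_lit 329)) (lo110_14_6 (nat_lit 331)))))) (B (M (nat_lit 331) (B (M (nat_lit 332) (B (lo18_11_2 (nat_lit 360)) (lo19_11_2 (nat_lit 333)))) (M (nat_lit 458) (B (lo113_13_1 (nat_lit 457)) (lo110_14_6 (nat_lit 394)))))) (M (nat_lit 360) (B (M (nat_lit 328) (B (lo111_11_3 (nat_lit 327)) (lo112_11_3 (nat_lit 329)))) (M (nat_lit 332) (B (lo18_11_2 (nat_lit 331)) (lo19_11_2 (nat_lit 333)))))))))) (M (nat_lit 330) (B (M (nat_lit 329) (B (lo113_11_3 (nat_lit 365)) (M (nat_lit 394) (B (lo110_13_7 (nat_lit 297)) (lo110_10_4 (nat_lit 459)))))) (B (M (nat_lit 329) (B (lo113_11_3 (nat_lit 365)) (M (nat_lit 328) (B (lo17_10_0 (nat_lit 327)) (lo112_11_3 (nat_lit 361)))))) (M (nat_lit 394) (B (lo110_10_4 (nat_lit 459)) (M (nat_lit 457) (B (lo110_10_5 (nat_lit 425)) (lo113_13_1 (nat_lit 458))))))))))))))))))) (B (M (nat_lit 365) (B (K _ _ _ o1_s56344) (B (M (nat_lit 363) (B (M (nat_lit 397) (B (lo110_13_2 (nat_lit 398)) (M (nat_lit 333) (B (lo113_10_5 (nat_lit 460)) (M (nat_lit 334) (B (lo110_11_2 (nat_lit 362)) (lo113_13_6 (nat_lit 302)))))))) (B (M (nat_lit 395) (B (M (nat_lit 394) (B (lo113_13_3 (nat_lit 393)) (lo114_11_1 (nat_lit 366)))) (M (nat_lit 331) (B (lo111_10_5 (nat_lit 458)) (lo111_10_4 (nat_lit 460)))))) (M (nat_lit 394) (B (lo113_13_3 (nat_lit 393)) (M (nat_lit 395) (B (lo114_11_1 (nat_lit 366)) (M (nat_lit 458) (B (lo110_15_6 (nat_lit 490)) (lo111_10_5 (nat_lit 331))))))))))) (B (M (nat_lit 363) (B (M (nat_lit 398) (B (lo110_13_2 (nat_lit 397)) (M (nat_lit 394) (B (lo113_13_3 (nat_lit 393)) (M (nat_lit 366) (B (lo114_11_1 (nat_lit 395)) (lo111_11_0 (nat_lit 399)))))))) (B (M (nat_lit 395) (B (M (nat_lit 458) (B (lo111_10_5 (nat_lit 331)) (M (nat_lit 394) (B (lo110_15_6 (nat_lit 490)) (lo114_11_1 (nat_lit 366)))))) (B (M (nat_lit 458) (B (lo111_10_5 (nat_lit 331)) (M (nat_lit 459) (B (lo111_11_5 (nat_lit 490)) (lo111_14_6 (nat_lit 332)))))) (M (nat_lit 398) (B (lo110_13_2 (nat_lit 397)) (M (nat_lit 366) (B (lo114_11_1 (nat_lit 394)) (lo111_11_0 (nat_lit 399))))))))) (B (K _ _ _ o1_s56375) (B (M (nat_lit 394) (B (lo113_13_3 (nat_lit 393)) (M (nat_lit 395) (B (lo114_11_1 (nat_lit 366)) (M (nat_lit 458) (B (lo110_15_6 (nat_lit 490)) (lo111_10_5 (nat_lit 331)))))))) (K _ _ _ o1_s56124)))))) (B (M (nat_lit 363) (B (M (nat_lit 398) (B (lo110_13_2 (nat_lit 397)) (M (nat_lit 394) (B (lo113_13_3 (nat_lit 393)) (M (nat_lit 366) (B (lo114_11_1 (nat_lit 395)) (lo111_11_0 (nat_lit 399)))))))) (B (M (nat_lit 395) (B (M (nat_lit 458) (B (lo111_10_5 (nat_lit 331)) (M (nat_lit 394) (B (lo110_15_6 (nat_lit 490)) (lo114_11_1 (nat_lit 366)))))) (B (M (nat_lit 458) (B (lo111_10_5 (nat_lit 331)) (M (nat_lit 490) (B (lo110_16_6 (nat_lit 522)) (lo111_11_5 (nat_lit 459)))))) (M (nat_lit 398) (B (lo110_13_2 (nat_lit 397)) (M (nat_lit 366) (B (lo114_11_1 (nat_lit 394)) (lo111_11_0 (nat_lit 399))))))))) (B (M (nat_lit 398) (B (lo110_13_2 (nat_lit 397)) (M (nat_lit 331) (B (M (nat_lit 366) (B (lo114_11_3 (nat_lit 330)) (lo111_11_0 (nat_lit 399)))) (M (nat_lit 395) (B (lo111_10_5 (nat_lit 458)) (lo111_10_4 (nat_lit 460)))))))) (B (K _ _ _ o1_s56375) (B (M (nat_lit 395) (B (M (nat_lit 394) (B (lo113_13_3 (nat_lit 393)) (lo114_11_1 (nat_lit 366)))) (M (nat_lit 331) (B (lo111_10_5 (nat_lit 458)) (lo111_10_4 (nat_lit 460)))))) (K _ _ _ o1_s56399))))))) (B (M (nat_lit 363) (B (M (nat_lit 394) (B (lo113_13_3 (nat_lit 393)) (M (nat_lit 395) (B (lo114_11_1 (nat_lit 366)) (M (nat_lit 458) (B (lo110_15_6 (nat_lit 490)) (lo111_10_5 (nat_lit 331)))))))) (B (M (nat_lit 366) (B (M (nat_lit 395) (B (lo114_11_1 (nat_lit 394)) (M (nat_lit 331) (B (lo114_11_3 (nat_lit 330)) (lo111_10_5 (nat_lit 458)))))) (M (nat_lit 367) (B (M (nat_lit 335) (B (lo111_11_2 (nat_lit 334)) (lo112_11_2 (nat_lit 336)))) (M (nat_lit 399) (B (lo111_11_0 (nat_lit 398)) (lo112_11_0 (nat_lit 400)))))))) (B (M (nat_lit 366) (B (M (nat_lit 331) (B (lo114_11_3 (nat_lit 330)) (M (nat_lit 395) (B (lo111_10_5 (nat_lit 458)) (lo111_10_4 (nat_lit 460)))))) (M (nat_lit 367) (B (M (nat_lit 335) (B (lo111_11_2 (nat_lit 334)) (lo112_11_2 (nat_lit 336)))) (M (nat_lit 399) (B (lo111_11_0 (nat_lit 398)) (lo112_11_0 (nat_lit 400)))))))) (B (M (nat_lit 394) (B (lo113_13_3 (nat_lit 393)) (M (nat_lit 330) (B (M (nat_lit 362) (B (lo113_11_3 (nat_lit 329)) (lo110_10_4 (nat_lit 459)))) (M (nat_lit 366) (B (lo114_11_3 (nat_lit 331)) (lo114_11_1 (nat_lit 395)))))))) (B (M (nat_lit 366) (B (M (nat_lit 394) (B (lo113_13_3 (nat_lit 393)) (lo114_11_1 (nat_lit 395)))) (M (nat_lit 367) (B (M (nat_lit 335) (B (lo111_11_2 (nat_lit 334)) (lo112_11_2 (nat_lit 336)))) (M (nat_lit 399) (B (lo111_11_0 (nat_lit 398)) (lo112_11_0 (nat_lit 400)))))))) (B (M (nat_lit 362) (B (M (nat_lit 393) (B (lo113_11_1 (nat_lit 394)) (M (nat_lit 392) (B (lo112_11_1 (nat_lit 361)) (lo112_13_3 (nat_lit 425)))))) (B (M (nat_lit 394) (B (lo113_11_1 (nat_lit 393)) (M (nat_lit 330) (B (lo113_11_3 (nat_lit 329)) (lo110_10_4 (nat_lit 459)))))) (M (nat_lit 366) (B (M (nat_lit 330) (B (lo113_11_3 (nat_lit 329)) (lo114_11_3 (nat_lit 331)))) (M (nat_lit 334) (B (lo110_11_2 (nat_lit 333)) (lo111_11_2 (nat_lit 335))))))))) (K _ _ _ o1_s56399)))))))) (B (M (nat_lit 363) (B (M (nat_lit 398) (B (lo110_13_2 (nat_lit 397)) (M (nat_lit 394) (B (lo113_13_3 (nat_lit 393)) (M (nat_lit 366) (B (lo114_11_1 (nat_lit 395)) (lo111_11_0 (nat_lit 399)))))))) (B (M (nat_lit 460) (B (M (nat_lit 397) (B (lo110_13_2 (nat_lit 398)) (lo113_10_5 (nat_lit 333)))) (M (nat_lit 395) (B (lo111_10_4 (nat_lit 331)) (M (nat_lit 459) (B (lo111_14_6 (nat_lit 332)) (lo111_11_4 (nat_lit 492)))))))) (B (M (nat_lit 362) (B (M (nat_lit 393) (B (lo113_11_1 (nat_lit 394)) (M (nat_lit 392) (B (lo112_11_1 (nat_lit 361)) (lo112_13_3 (nat_lit 425)))))) (B (M (nat_lit 394) (B (lo113_11_1 (nat_lit 393)) (M (nat_lit 330) (B (lo113_11_3 (nat_lit 329)) (lo110_10_4 (nat_lit 459)))))) (M (nat_lit 366) (B (M (nat_lit 330) (B (lo113_11_3 (nat_lit 329)) (lo114_11_3 (nat_lit 331)))) (M (nat_lit 398) (B (lo110_11_0 (nat_lit 397)) (lo111_11_0 (nat_lit 399))))))))) (M (nat_lit 395) (B (M (nat_lit 394) (B (lo113_13_3 (nat_lit 393)) (lo114_11_1 (nat_lit 366)))) (M (nat_lit 331) (B (lo111_10_5 (nat_lit 458)) (lo111_10_4 (nat_lit 460)))))))))) (M (nat_lit 363) (B (M (nat_lit 394) (B (lo113_13_3 (nat_lit 393)) (M (nat_lit 395) (B (lo114_11_1 (nat_lit 366)) (M (nat_lit 458) (B (lo110_15_6 (nat_lit 490)) (lo111_10_5 (nat_lit 331)))))))) (B (M (nat_lit 332) (B (M (nat_lit 395) (B (lo111_14_6 (nat_lit 459)) (M (nat_lit 331) (B (lo111_10_5 (nat_lit 458)) (lo111_10_4 (nat_lit 460)))))) (B (M (nat_lit 395) (B (lo111_14_6 (nat_lit 459)) (M (nat_lit 331) (B (lo111_13_6 (nat_lit 300)) (lo111_10_4 (nat_lit 460)))))) (B (M (nat_lit 333) (B (M (nat_lit 362) (B (lo19_11_2 (nat_lit 361)) (lo110_11_2 (nat_lit 334)))) (M (nat_lit 397) (B (lo113_13_7 (nat_lit 300)) (lo113_10_5 (nat_lit 460)))))) (M (nat_lit 395) (B (lo111_14_6 (nat_lit 459)) (M (nat_lit 331) (B (lo111_10_5 (nat_lit 458)) (lo111_13_6 (nat_lit 300)))))))))) (B (K _ _ _ o1_s56449) (B (M (nat_lit 332) (B (M (nat_lit 395) (B (lo111_14_6 (nat_lit 459)) (M (nat_lit 394) (B (lo113_13_3 (nat_lit 393)) (lo114_11_1 (nat_lit 366)))))) (M (nat_lit 333) (B (M (nat_lit 362) (B (lo19_11_2 (nat_lit 361)) (lo110_11_2 (nat_lit 334)))) (M (nat_lit 397) (B (lo113_13_7 (nat_lit 300)) (lo113_10_5 (nat_lit 460)))))))) (M (nat_lit 362) (B (M (nat_lit 393) (B (lo113_11_1 (nat_lit 394)) (M (nat_lit 392) (B (lo112_11_1 (nat_lit 361)) (lo112_13_3 (nat_lit 425)))))) (M (nat_lit 366) (B (M (nat_lit 330) (B (lo113_11_3 (nat_lit 329)) (lo114_11_3 (nat_lit 331)))) (M (nat_lit 334) (B (lo110_11_2 (nat_lit 333)) (lo111_11_2 (nat_lit 335)))))))))))))))))))) (B (M (nat_lit 397) (B (lo110_13_2 (nat_lit 398)) (M (nat_lit 425) (B (M (nat_lit 457) (B (lo112_13_1 (nat_lit 456)) (lo113_13_1 (nat_lit 458)))) (B (M (nat_lit 458) (B (lo113_13_1 (nat_lit 457)) (M (nat_lit 424) (B (M (nat_lit 392) (B (lo111_13_3 (nat_lit 391)) (lo112_13_3 (nat_lit 393)))) (M (nat_lit 459) (B (lo17_13_0 (nat_lit 423)) (lo18_13_0 (nat_lit 460)))))))) (B (M (nat_lit 424) (B (M (nat_lit 392) (B (lo111_13_3 (nat_lit 391)) (lo112_13_3 (nat_lit 393)))) (M (nat_lit 423) (B (M (nat_lit 455) (B (lo110_13_1 (nat_lit 454)) (lo111_13_1 (nat_lit 456)))) (M (nat_lit 459) (B (lo17_13_0 (nat_lit 458)) (lo18_13_0 (nat_lit 460)))))))) (M (nat_lit 392) (B (lo112_13_3 (nat_lit 393)) (M (nat_lit 424) (B (lo111_13_3 (nat_lit 391)) (M (nat_lit 456) (B (lo111_13_1 (nat_lit 455)) (lo112_13_1 (nat_lit 457)))))))))))))) (M (nat_lit 365) (B (M (nat_lit 460) (B (M (nat_lit 397) (B (lo110_13_2 (nat_lit 398)) (lo113_10_5 (nat_lit 333)))) (M (nat_lit 425) (B (M (nat_lit 393) (B (lo112_13_3 (nat_lit 392)) (lo113_13_3 (nat_lit 394)))) (M (nat_lit 424) (B (lo18_13_0 (nat_lit 459)) (M (nat_lit 456) (B (lo111_13_1 (nat_lit 455)) (lo112_13_1 (nat_lit 457)))))))))) (B (K _ _ _ o1_s56344) (B (M (nat_lit 363) (B (M (nat_lit 398) (B (lo110_13_2 (nat_lit 397)) (M (nat_lit 394) (B (lo113_13_3 (nat_lit 393)) (M (nat_lit 366) (B (lo114_11_1 (nat_lit 395)) (lo111_11_0 (nat_lit 399)))))))) (B (M (nat_lit 395) (B (M (nat_lit 398) (B (lo110_13_2 (nat_lit 397)) (M (nat_lit 366) (B (lo114_11_1 (nat_lit 394)) (lo111_11_0 (nat_lit 399)))))) (M (nat_lit 332) (B (lo111_14_6 (nat_lit 459)) (M (nat_lit 300) (B (lo111_13_6 (nat_lit 331)) (lo112_8_5 (nat_lit 268)))))))) (B (K _ _ _ o1_s56375) (B (M (nat_lit 395) (B (M (nat_lit 394) (B (lo113_13_3 (nat_lit 393)) (lo114_11_1 (nat_lit 366)))) (M (nat_lit 332) (B (lo111_14_6 (nat_lit 459)) (M (nat_lit 300) (B (lo111_13_6 (nat_lit 331)) (lo112_8_5 (nat_lit 268)))))))) (K _ _ _ o1_s56124)))))) (B (M (nat_lit 363) (B (M (nat_lit 398) (B (lo110_13_2 (nat_lit 397)) (M (nat_lit 394) (B (lo113_13_3 (nat_lit 393)) (M (nat_lit 366) (B (lo114_11_1 (nat_lit 395)) (lo111_11_0 (nat_lit 399)))))))) (B (M (nat_lit 395) (B (M (nat_lit 398) (B (lo110_13_2 (nat_lit 397)) (M (nat_lit 366) (B (lo114_11_1 (nat_lit 394)) (lo111_11_0 (nat_lit 399)))))) (B (M (nat_lit 366) (B (M (nat_lit 331) (B (lo114_11_3 (nat_lit 330)) (lo111_10_4 (nat_lit 460)))) (M (nat_lit 398) (B (lo110_13_2 (nat_lit 397)) (lo111_11_0 (nat_lit 399)))))) (B (M (nat_lit 366) (B (lo114_11_1 (nat_lit 394)) (M (nat_lit 331) (B (lo114_11_3 (nat_lit 330)) (lo111_10_4 (nat_lit 460)))))) (M (nat_lit 332) (B (lo111_14_6 (nat_lit 459)) (M (nat_lit 331) (B (lo111_13_6 (nat_lit 300)) (lo111_10_4 (nat_lit 460)))))))))) (B (K _ _ _ o1_s56375) (B (K _ _ _ o1_s56449) (M (nat_lit 330) (B (M (nat_lit 394) (B (lo113_13_3 (nat_lit 393)) (M (nat_lit 362) (B (lo113_11_3 (nat_lit 329)) (lo110_10_4 (nat_lit 459)))))) (B (M (nat_lit 395) (B (M (nat_lit 331) (B (lo111_13_7 (nat_lit 298)) (lo111_10_4 (nat_lit 460)))) (M (nat_lit 459) (B (lo111_14_7 (nat_lit 362)) (lo111_14_6 (nat_lit 332)))))) (M (nat_lit 331) (B (M (nat_lit 329) (B (lo18_10_0 (nat_lit 328)) (lo19_10_0 (nat_lit 332)))) (M (nat_lit 395) (B (lo111_13_7 (nat_lit 298)) (lo111_10_4 (nat_lit 460)))))))))))))) (M (nat_lit 363) (B (M (nat_lit 394) (B (lo113_13_3 (nat_lit 393)) (M (nat_lit 395) (B (lo114_11_1 (nat_lit 366)) (M (nat_lit 331) (B (lo111_9_5 (nat_lit 299)) (lo111_10_4 (nat_lit 460)))))))) (B (M (nat_lit 331) (B (M (nat_lit 395) (B (lo111_10_4 (nat_lit 460)) (M (nat_lit 330) (B (lo111_13_7 (nat_lit 298)) (lo114_11_3 (nat_lit 366)))))) (B (M (nat_lit 395) (B (lo111_10_4 (nat_lit 460)) (M (nat_lit 394) (B (lo111_9_5 (nat_lit 299)) (lo114_11_1 (nat_lit 366)))))) (B (M (nat_lit 330) (B (lo114_11_3 (nat_lit 366)) (M (nat_lit 329) (B (lo18_10_0 (nat_lit 328)) (lo19_10_0 (nat_lit 332)))))) (M (nat_lit 395) (B (lo111_10_4 (nat_lit 460)) (M (nat_lit 332) (B (lo111_13_6 (nat_lit 300)) (lo111_14_6 (nat_lit 459)))))))))) (B (M (nat_lit 331) (B (M (nat_lit 395) (B (lo111_10_4 (nat_lit 460)) (M (nat_lit 330) (B (lo111_13_7 (nat_lit 298)) (lo114_11_3 (nat_lit 366)))))) (B (M (nat_lit 395) (B (lo111_10_4 (nat_lit 460)) (M (nat_lit 332) (B (lo111_13_6 (nat_lit 300)) (lo111_14_6 (nat_lit 459)))))) (M (nat_lit 330) (B (lo114_11_3 (nat_lit 366)) (M (nat_lit 329) (B (lo18_10_0 (nat_lit 328)) (lo19_10_0 (nat_lit 332))))))))) (K _ _ _ o1_s56124))))))))))))))))))))))))))) (B (M (nat_lit 332) (B (M (nat_lit 396) (B (lo112_10_4 (nat_lit 461)) (M (nat_lit 300) (B (lo112_9_4 (nat_lit 397)) (M (nat_lit 301) (B (lo112_12_6 (nat_lit 269)) (lo112_13_6 (nat_lit 333)))))))) (B (M (nat_lit 396) (B (lo112_10_4 (nat_lit 461)) (K _ _ _ o1_s56563))) (B (M (nat_lit 365) (B (M (nat_lit 397) (B (lo113_14_7 (nat_lit 461)) (M (nat_lit 300) (B (lo112_8_4 (nat_lit 268)) (lo113_13_7 (nat_lit 333)))))) (B (K _ _ _ o1_s30681) (B (M (nat_lit 397) (B (lo113_14_7 (nat_lit 461)) (M (nat_lit 363) (B (M (nat_lit 398) (B (lo110_11_0 (nat_lit 362)) (M (nat_lit 399) (B (lo111_11_0 (nat_lit 366)) (lo116_12_3 (nat_lit 400)))))) (B (M (nat_lit 366) (B (M (nat_lit 331) (B (lo114_11_3 (nat_lit 330)) (lo115_11_3 (nat_lit 367)))) (M (nat_lit 334) (B (lo111_11_2 (nat_lit 335)) (M (nat_lit 302) (B (lo114_8_5 (nat_lit 270)) (lo114_9_5 (nat_lit 398)))))))) (B (M (nat_lit 362) (B (lo110_11_0 (nat_lit 398)) (M (nat_lit 333) (B (lo19_11_2 (nat_lit 361)) (lo110_11_2 (nat_lit 334)))))) (M (nat_lit 394) (B (M (nat_lit 366) (B (lo114_11_1 (nat_lit 395)) (M (nat_lit 331) (B (lo114_11_3 (nat_lit 330)) (lo115_11_3 (nat_lit 367)))))) (M (nat_lit 362) (B (lo113_11_1 (nat_lit 393)) (M (nat_lit 333) (B (lo19_11_2 (nat_lit 361)) (lo110_11_2 (nat_lit 334)))))))))))))) (B (M (nat_lit 397) (B (lo113_14_7 (nat_lit 461)) (M (nat_lit 363) (B (M (nat_lit 398) (B (lo110_11_0 (nat_lit 362)) (M (nat_lit 399) (B (lo111_11_0 (nat_lit 366)) (lo116_12_3 (nat_lit 400)))))) (B (M (nat_lit 427) (B (M (nat_lit 395) (B (lo111_14_6 (nat_lit 459)) (M (nat_lit 300) (B (lo111_13_6 (nat_lit 331)) (lo112_8_5 (nat_lit 268)))))) (M (nat_lit 398) (B (lo110_13_2 (nat_lit 426)) (M (nat_lit 399) (B (lo111_11_0 (nat_lit 366)) (lo116_12_3 (nat_lit 400)))))))) (B (M (nat_lit 300) (B (lo112_8_4 (nat_lit 268)) (M (nat_lit 427) (B (M (nat_lit 398) (B (lo110_11_0 (nat_lit 362)) (lo110_13_2 (nat_lit 426)))) (M (nat_lit 395) (B (lo111_13_6 (nat_lit 331)) (lo111_14_6 (nat_lit 459)))))))) (M (nat_lit 395) (B (M (nat_lit 394) (B (lo114_11_1 (nat_lit 366)) (M (nat_lit 393) (B (lo18_12_2 (nat_lit 392)) (lo113_11_1 (nat_lit 362)))))) (B (M (nat_lit 366) (B (lo114_11_1 (nat_lit 394)) (M (nat_lit 331) (B (lo114_11_3 (nat_lit 330)) (lo115_11_3 (nat_lit 367)))))) (M (nat_lit 427) (B (lo111_14_6 (nat_lit 459)) (M (nat_lit 300) (B (lo111_13_6 (nat_lit 331)) (lo112_8_5 (nat_lit 268))))))))))))))) (M (nat_lit 366) (B (M (nat_lit 331) (B (lo115_11_3 (nat_lit 367)) (M (nat_lit 330) (B (lo19_10_0 (nat_lit 329)) (lo110_10_0 (nat_lit 333)))))) (B (M (nat_lit 363) (B (M (nat_lit 331) (B (lo114_11_3 (nat_lit 330)) (lo115_11_3 (nat_lit 367)))) (B (M (nat_lit 395) (B (lo114_11_1 (nat_lit 394)) (M (nat_lit 427) (B (lo111_14_6 (nat_lit 459)) (M (nat_lit 331) (B (lo111_13_6 (nat_lit 300)) (lo115_11_3 (nat_lit 367)))))))) (M (nat_lit 394) (B (lo114_11_1 (nat_lit 395)) (M (nat_lit 362) (B (lo113_11_1 (nat_lit 393)) (M (nat_lit 334) (B (lo110_11_2 (nat_lit 333)) (lo111_11_2 (nat_lit 335))))))))))) (B (M (nat_lit 363) (B (M (nat_lit 394) (B (lo114_11_1 (nat_lit 395)) (M (nat_lit 362) (B (lo113_11_1 (nat_lit 393)) (M (nat_lit 334) (B (lo110_11_2 (nat_lit 333)) (lo111_11_2 (nat_lit 335)))))))) (B (M (nat_lit 395) (B (lo114_11_1 (nat_lit 394)) (M (nat_lit 427) (B (lo111_14_6 (nat_lit 459)) (M (nat_lit 331) (B (lo111_13_6 (nat_lit 300)) (lo115_11_3 (nat_lit 367)))))))) (M (nat_lit 333) (B (M (nat_lit 362) (B (lo19_11_2 (nat_lit 361)) (lo110_11_2 (nat_lit 334)))) (M (nat_lit 367) (B (lo115_11_3 (nat_lit 331)) (lo116_11_3 (nat_lit 368))))))))) (B (M (nat_lit 363) (B (M (nat_lit 394) (B (lo114_11_1 (nat_lit 395)) (M (nat_lit 362) (B (lo113_11_1 (nat_lit 393)) (M (nat_lit 334) (B (lo110_11_2 (nat_lit 333)) (lo111_11_2 (nat_lit 335)))))))) (B (M (nat_lit 399) (B (lo111_11_0 (nat_lit 398)) (M (nat_lit 367) (B (lo112_11_0 (nat_lit 400)) (M (nat_lit 335) (B (lo111_11_2 (nat_lit 334)) (lo112_11_2 (nat_lit 336)))))))) (M (nat_lit 333) (B (M (nat_lit 399) (B (lo111_11_0 (nat_lit 398)) (M (nat_lit 367) (B (lo116_11_3 (nat_lit 368)) (lo112_11_0 (nat_lit 400)))))) (M (nat_lit 394) (B (lo114_11_1 (nat_lit 395)) (M (nat_lit 362) (B (lo19_11_2 (nat_lit 361)) (lo113_11_1 (nat_lit 393))))))))))) (B (M (nat_lit 331) (B (lo115_11_3 (nat_lit 367)) (M (nat_lit 330) (B (lo19_10_0 (nat_lit 329)) (lo114_11_3 (nat_lit 363)))))) (M (nat_lit 363) (B (M (nat_lit 395) (B (lo114_11_1 (nat_lit 394)) (M (nat_lit 427) (B (lo111_14_6 (nat_lit 459)) (M (nat_lit 331) (B (lo114_11_3 (nat_lit 330)) (lo111_13_6 (nat_lit 300)))))))) (B (M (nat_lit 394) (B (lo114_11_1 (nat_lit 395)) (M (nat_lit 362) (B (lo113_11_1 (nat_lit 393)) (M (nat_lit 334) (B (lo110_11_2 (nat_lit 333)) (lo111_11_2 (nat_lit 335)))))))) (M (nat_lit 398) (B (lo111_11_0 (nat_lit 399)) (M (nat_lit 362) (B (M (nat_lit 330) (B (lo113_11_3 (nat_lit 329)) (lo114_11_3 (nat_lit 331)))) (M (nat_lit 334) (B (lo110_11_2 (nat_lit 333)) (lo111_11_2 (nat_lit 335)))))))))))))))))))))) (B (M (nat_lit 396) (B (lo112_10_4 (nat_lit 461)) (M (nat_lit 300) (B (lo112_9_4 (nat_lit 397)) (M (nat_lit 299) (B (lo112_12_7 (nat_lit 267)) (lo112_13_7 (nat_lit 331)))))))) (B (K _ _ _ o1_s30779) (M (nat_lit 396) (B (M (nat_lit 300) (B (lo112_9_4 (nat_lit 397)) (M (nat_lit 299) (B (lo112_12_7 (nat_lit 267)) (lo112_13_7 (nat_lit 331)))))) (B (M (nat_lit 300) (B (lo112_9_4 (nat_lit 397)) (M (nat_lit 301) (B (lo112_12_6 (nat_lit 269)) (lo112_13_6 (nat_lit 333)))))) (B (K _ _ _ o1_s56563) (M (nat_lit 300) (B (M (nat_lit 299) (B (lo112_12_7 (nat_lit 267)) (lo112_13_7 (nat_lit 331)))) (M (nat_lit 427) (B (lo112_9_5 (nat_lit 395)) (lo112_10_5 (nat_lit 459)))))))))))))))) (B (M (nat_lit 396) (B (M (nat_lit 461) (B (lo112_10_4 (nat_lit 332)) (M (nat_lit 493) (B (lo112_11_4 (nat_lit 460)) (lo113_15_7 (nat_lit 397)))))) (B (M (nat_lit 426) (B (M (nat_lit 461) (B (M (nat_lit 493) (B (lo112_11_4 (nat_lit 460)) (lo113_15_7 (nat_lit 397)))) (B (M (nat_lit 427) (B (lo110_13_0 (nat_lit 462)) (M (nat_lit 397) (B (lo19_13_2 (nat_lit 425)) (lo110_13_2 (nat_lit 398)))))) (M (nat_lit 460) (B (lo112_11_4 (nat_lit 493)) (M (nat_lit 427) (B (lo19_13_0 (nat_lit 425)) (lo110_13_0 (nat_lit 462))))))))) (B (M (nat_lit 397) (B (M (nat_lit 461) (B (lo113_15_7 (nat_lit 493)) (M (nat_lit 427) (B (lo110_13_2 (nat_lit 398)) (lo110_13_0 (nat_lit 462)))))) (B (M (nat_lit 365) (B (M (nat_lit 460) (B (lo112_14_6 (nat_lit 333)) (lo112_15_6 (nat_lit 492)))) (M (nat_lit 366) (B (M (nat_lit 395) (B (lo110_12_2 (nat_lit 394)) (lo115_11_1 (nat_lit 367)))) (M (nat_lit 461) (B (lo113_15_7 (nat_lit 493)) (lo113_14_6 (nat_lit 334)))))))) (M (nat_lit 460) (B (M (nat_lit 492) (B (lo112_15_6 (nat_lit 365)) (M (nat_lit 491) (B (lo112_11_5 (nat_lit 459)) (lo112_12_5 (nat_lit 523)))))) (B (M (nat_lit 492) (B (lo112_15_6 (nat_lit 365)) (M (nat_lit 363) (B (lo112_14_7 (nat_lit 331)) (lo112_15_7 (nat_lit 395)))))) (M (nat_lit 398) (B (lo110_13_2 (nat_lit 427)) (M (nat_lit 363) (B (lo112_14_7 (nat_lit 331)) (lo115_12_3 (nat_lit 399)))))))))))) (B (M (nat_lit 460) (B (M (nat_lit 461) (B (lo112_11_4 (nat_lit 493)) (M (nat_lit 459) (B (lo112_11_5 (nat_lit 491)) (M (nat_lit 458) (B (lo113_14_3 (nat_lit 425)) (lo19_14_2 (nat_lit 457)))))))) (M (nat_lit 492) (B (M (nat_lit 363) (B (lo112_14_7 (nat_lit 331)) (lo112_15_7 (nat_lit 395)))) (M (nat_lit 365) (B (lo112_14_6 (nat_lit 333)) (lo112_15_6 (nat_lit 397)))))))) (B (M (nat_lit 427) (B (M (nat_lit 397) (B (lo19_13_2 (nat_lit 425)) (lo110_13_2 (nat_lit 398)))) (B (M (nat_lit 461) (B (lo110_13_0 (nat_lit 462)) (M (nat_lit 397) (B (lo110_13_2 (nat_lit 398)) (lo113_15_7 (nat_lit 493)))))) (M (nat_lit 457) (B (lo113_13_1 (nat_lit 458)) (M (nat_lit 425) (B (lo112_13_1 (nat_lit 456)) (M (nat_lit 393) (B (lo112_13_3 (nat_lit 392)) (lo113_13_3 (nat_lit 394))))))))))) (B (M (nat_lit 460) (B (M (nat_lit 461) (B (lo112_11_4 (nat_lit 493)) (M (nat_lit 427) (B (lo19_13_0 (nat_lit 425)) (lo110_13_0 (nat_lit 462)))))) (M (nat_lit 492) (B (M (nat_lit 363) (B (lo112_14_7 (nat_lit 331)) (lo112_15_7 (nat_lit 395)))) (M (nat_lit 491) (B (lo112_11_5 (nat_lit 459)) (lo112_12_5 (nat_lit 523)))))))) (M (nat_lit 397) (B (M (nat_lit 427) (B (lo19_13_2 (nat_lit 425)) (lo110_13_2 (nat_lit 398)))) (B (M (nat_lit 398) (B (lo110_13_2 (nat_lit 427)) (M (nat_lit 363) (B (lo115_12_3 (nat_lit 399)) (M (nat_lit 362) (B (lo19_11_0 (nat_lit 361)) (lo110_11_0 (nat_lit 365)))))))) (B (M (nat_lit 395) (B (M (nat_lit 394) (B (lo19_12_0 (nat_lit 393)) (lo113_12_1 (nat_lit 425)))) (M (nat_lit 363) (B (M (nat_lit 362) (B (lo19_11_0 (nat_lit 361)) (lo114_12_3 (nat_lit 398)))) (M (nat_lit 331) (B (lo111_9_4 (nat_lit 299)) (lo112_14_7 (nat_lit 460)))))))) (M (nat_lit 460) (B (M (nat_lit 492) (B (lo112_15_6 (nat_lit 365)) (M (nat_lit 491) (B (lo112_11_5 (nat_lit 459)) (lo112_12_5 (nat_lit 523)))))) (M (nat_lit 394) (B (M (nat_lit 427) (B (lo113_13_3 (nat_lit 393)) (lo19_13_2 (nat_lit 425)))) (B (M (nat_lit 425) (B (lo113_12_1 (nat_lit 395)) (lo19_13_2 (nat_lit 427)))) (B (M (nat_lit 393) (B (lo113_13_3 (nat_lit 427)) (lo19_12_0 (nat_lit 395)))) (M (nat_lit 395) (B (lo19_12_0 (nat_lit 393)) (lo113_12_1 (nat_lit 425)))))))))))))))))))) (B (M (nat_lit 427) (B (M (nat_lit 332) (B (lo112_10_5 (nat_lit 459)) (lo112_10_4 (nat_lit 461)))) (B (M (nat_lit 332) (B (lo112_10_4 (nat_lit 461)) (M (nat_lit 300) (B (lo112_9_5 (nat_lit 395)) (lo112_9_4 (nat_lit 397)))))) (B (M (nat_lit 426) (B (M (nat_lit 397) (B (lo19_13_2 (nat_lit 425)) (lo110_13_2 (nat_lit 398)))) (B (M (nat_lit 461) (B (lo110_13_0 (nat_lit 462)) (M (nat_lit 397) (B (lo110_13_2 (nat_lit 398)) (lo113_15_7 (nat_lit 493)))))) (M (nat_lit 457) (B (lo113_13_1 (nat_lit 458)) (M (nat_lit 425) (B (lo112_13_1 (nat_lit 456)) (M (nat_lit 393) (B (lo112_13_3 (nat_lit 392)) (lo113_13_3 (nat_lit 394))))))))))) (M (nat_lit 332) (B (lo112_10_5 (nat_lit 459)) (M (nat_lit 300) (B (lo112_9_5 (nat_lit 395)) (lo112_9_4 (nat_lit 397)))))))))) (B (K _ _ _ o1_s56749) (K _ _ _ o1_s47011)))))) (B (M (nat_lit 396) (B (M (nat_lit 461) (B (lo112_10_4 (nat_lit 332)) (M (nat_lit 493) (B (lo112_11_4 (nat_lit 460)) (lo113_15_7 (nat_lit 397)))))) (B (M (nat_lit 461) (B (M (nat_lit 493) (B (lo112_11_4 (nat_lit 460)) (lo113_15_7 (nat_lit 397)))) (B (K _ _ _ o1_s54541) (B (K _ _ _ o1_s54432) (M (nat_lit 460) (B (M (nat_lit 492) (B (M (nat_lit 363) (B (lo112_14_7 (nat_lit 331)) (lo112_15_7 (nat_lit 395)))) (M (nat_lit 491) (B (lo112_11_5 (nat_lit 459)) (lo112_12_5 (nat_lit 523)))))) (B (M (nat_lit 492) (B (M (nat_lit 491) (B (lo112_11_5 (nat_lit 459)) (lo112_12_5 (nat_lit 523)))) (M (nat_lit 397) (B (lo112_15_6 (nat_lit 365)) (lo112_16_6 (nat_lit 524)))))) (B (M (nat_lit 492) (B (M (nat_lit 363) (B (lo112_14_7 (nat_lit 331)) (lo112_15_7 (nat_lit 395)))) (M (nat_lit 397) (B (lo112_15_6 (nat_lit 365)) (lo112_16_6 (nat_lit 524)))))) (M (nat_lit 397) (B (K _ _ _ o1_s46927) (B (M (nat_lit 459) (B (lo112_11_5 (nat_lit 491)) (M (nat_lit 462) (B (M (nat_lit 463) (B (lo115_14_3 (nat_lit 427)) (lo116_14_3 (nat_lit 464)))) (M (nat_lit 494) (B (lo111_14_0 (nat_lit 495)) (lo113_11_4 (nat_lit 365)))))))) (M (nat_lit 365) (B (M (nat_lit 366) (B (lo113_14_6 (nat_lit 334)) (M (nat_lit 395) (B (lo110_12_2 (nat_lit 394)) (lo115_11_1 (nat_lit 367)))))) (M (nat_lit 363) (B (lo112_14_7 (nat_lit 331)) (M (nat_lit 362) (B (lo19_11_0 (nat_lit 361)) (lo110_11_0 (nat_lit 398))))))))))))))))))) (B (M (nat_lit 461) (B (lo112_10_4 (nat_lit 332)) (K _ _ _ o1_s54541))) (B (K _ _ _ o1_s56749) (K _ _ _ o1_s56764)))))) (B (M (nat_lit 396) (B (M (nat_lit 461) (B (lo112_10_4 (nat_lit 332)) (M (nat_lit 493) (B (lo112_11_4 (nat_lit 460)) (lo113_15_7 (nat_lit 397)))))) (B (M (nat_lit 460) (B (M (nat_lit 492) (B (M (nat_lit 363) (B (lo112_14_7 (nat_lit 331)) (lo112_15_7 (nat_lit 395)))) (M (nat_lit 491) (B (lo112_11_5 (nat_lit 459)) (lo112_12_5 (nat_lit 523)))))) (B (K _ _ _ o1_s54375) (B (M (nat_lit 461) (B (lo112_11_4 (nat_lit 493)) (M (nat_lit 492) (B (M (nat_lit 363) (B (lo112_14_7 (nat_lit 331)) (lo112_15_7 (nat_lit 395)))) (M (nat_lit 524) (B (lo112_16_6 (nat_lit 397)) (lo112_17_6 (nat_lit 556)))))))) (M (nat_lit 461) (B (lo112_11_4 (nat_lit 493)) (M (nat_lit 459) (B (lo112_11_5 (nat_lit 491)) (K _ _ _ o1_s46647))))))))) (B (M (nat_lit 332) (B (lo112_10_4 (nat_lit 461)) (M (nat_lit 300) (B (lo112_9_4 (nat_lit 397)) (M (nat_lit 301) (B (lo112_12_6 (nat_lit 269)) (lo112_13_6 (nat_lit 333)))))))) (B (K _ _ _ o1_s56749) (K _ _ _ o1_s56786)))))) (B (M (nat_lit 396) (B (K _ _ _ o1_s56749) (B (K _ _ _ o1_s54299) (B (M (nat_lit 460) (B (M (nat_lit 461) (B (lo112_10_4 (nat_lit 332)) (lo112_11_4 (nat_lit 493)))) (B (K _ _ _ o1_s56791) (M (nat_lit 332) (B (M (nat_lit 459) (B (lo112_10_5 (nat_lit 427)) (lo112_11_5 (nat_lit 491)))) (M (nat_lit 333) (B (lo112_13_6 (nat_lit 301)) (lo112_14_6 (nat_lit 365))))))))) (B (K _ _ _ o1_s46722) (B (M (nat_lit 460) (B (M (nat_lit 492) (B (M (nat_lit 363) (B (lo112_14_7 (nat_lit 331)) (lo112_15_7 (nat_lit 395)))) (M (nat_lit 491) (B (lo112_11_5 (nat_lit 459)) (lo112_12_5 (nat_lit 523)))))) (B (K _ _ _ o1_s56791) (B (M (nat_lit 461) (B (lo112_11_4 (nat_lit 493)) (M (nat_lit 492) (B (M (nat_lit 491) (B (lo112_11_5 (nat_lit 459)) (lo112_12_5 (nat_lit 523)))) (M (nat_lit 427) (B (M (nat_lit 426) (B (lo19_13_0 (nat_lit 425)) (lo110_13_0 (nat_lit 462)))) (M (nat_lit 524) (B (lo112_16_7 (nat_lit 395)) (lo112_17_6 (nat_lit 556)))))))))) (B (M (nat_lit 461) (B (lo112_11_4 (nat_lit 493)) (M (nat_lit 426) (B (M (nat_lit 427) (B (lo19_13_0 (nat_lit 425)) (lo110_13_0 (nat_lit 462)))) (B (M (nat_lit 462) (B (lo110_13_0 (nat_lit 427)) (M (nat_lit 491) (B (lo112_11_5 (nat_lit 459)) (M (nat_lit 492) (B (lo112_12_5 (nat_lit 523)) (lo115_14_1 (nat_lit 463)))))))) (M (nat_lit 459) (B (lo112_11_5 (nat_lit 491)) (M (nat_lit 458) (B (lo113_14_3 (nat_lit 425)) (lo19_14_2 (nat_lit 457))))))))))) (B (M (nat_lit 492) (B (M (nat_lit 363) (B (lo112_14_7 (nat_lit 331)) (lo112_15_7 (nat_lit 395)))) (B (M (nat_lit 461) (B (lo112_11_4 (nat_lit 493)) (M (nat_lit 395) (B (lo112_15_7 (nat_lit 363)) (M (nat_lit 524) (B (lo112_16_7 (nat_lit 427)) (lo112_17_6 (nat_lit 556)))))))) (M (nat_lit 524) (B (M (nat_lit 523) (B (lo112_12_5 (nat_lit 491)) (lo112_13_5 (nat_lit 555)))) (M (nat_lit 461) (B (lo112_11_4 (nat_lit 493)) (lo112_17_6 (nat_lit 556))))))))) (B (M (nat_lit 459) (B (M (nat_lit 461) (B (lo112_11_4 (nat_lit 493)) (K _ _ _ o1_s46647))) (M (nat_lit 365) (B (lo112_14_6 (nat_lit 333)) (M (nat_lit 363) (B (lo112_14_7 (nat_lit 331)) (M (nat_lit 395) (B (lo112_15_7 (nat_lit 492)) (M (nat_lit 394) (B (lo19_12_2 (nat_lit 393)) (lo114_11_1 (nat_lit 366)))))))))))) (M (nat_lit 461) (B (lo112_11_4 (nat_lit 493)) (M (nat_lit 459) (B (lo112_11_5 (nat_lit 491)) (K _ _ _ o1_s46647)))))))))))) (K _ _ _ o1_s31232))))))) (M (nat_lit 396) (B (M (nat_lit 460) (B (M (nat_lit 365) (B (lo112_14_6 (nat_lit 333)) (M (nat_lit 492) (B (lo112_15_6 (nat_lit 397)) (M (nat_lit 363) (B (lo112_14_7 (nat_lit 331)) (lo112_15_7 (nat_lit 395)))))))) (B (M (nat_lit 492) (B (M (nat_lit 491) (B (lo112_11_5 (nat_lit 459)) (lo112_12_5 (nat_lit 523)))) (M (nat_lit 365) (B (lo112_14_6 (nat_lit 333)) (lo112_15_6 (nat_lit 397)))))) (B (M (nat_lit 332) (B (M (nat_lit 331) (B (lo112_13_7 (nat_lit 299)) (lo112_14_7 (nat_lit 363)))) (M (nat_lit 333) (B (lo112_13_6 (nat_lit 301)) (lo112_14_6 (nat_lit 365)))))) (M (nat_lit 332) (B (M (nat_lit 331) (B (lo112_13_7 (nat_lit 299)) (lo112_14_7 (nat_lit 363)))) (M (nat_lit 459) (B (lo112_10_5 (nat_lit 427)) (lo112_11_5 (nat_lit 491)))))))))) (B (K _ _ _ o1_s29144) (B (K _ _ _ o1_s54367) (B (K _ _ _ o1_s46019) (B (K _ _ _ o1_s54451) (B (K _ _ _ o1_s28837) (B (M (nat_lit 365) (B (M (nat_lit 333) (B (lo112_14_6 (nat_lit 460)) (M (nat_lit 301) (B (lo113_8_5 (nat_lit 269)) (lo113_9_5 (nat_lit 397)))))) (B (M (nat_lit 363) (B (K _ _ _ o1_s56829) (B (K _ _ _ o1_s56831) (B (K _ _ _ o1_s56832) (B (K _ _ _ o1_s56835) (B (K _ _ _ o1_s56836) (K _ _ _ o1_s46748))))))) (B (M (nat_lit 460) (B (lo112_14_6 (nat_lit 333)) (M (nat_lit 492) (B (lo112_15_6 (nat_lit 397)) (M (nat_lit 491) (B (lo112_11_5 (nat_lit 459)) (lo112_12_5 (nat_lit 523)))))))) (B (M (nat_lit 363) (B (M (nat_lit 460) (B (lo112_14_7 (nat_lit 331)) (M (nat_lit 492) (B (lo112_15_7 (nat_lit 395)) (lo112_15_6 (nat_lit 397)))))) (B (M (nat_lit 366) (B (M (nat_lit 395) (B (lo114_11_1 (nat_lit 394)) (lo115_11_1 (nat_lit 367)))) (B (M (nat_lit 367) (B (lo115_11_1 (nat_lit 395)) (M (nat_lit 335) (B (lo111_11_2 (nat_lit 334)) (lo112_11_2 (nat_lit 336)))))) (B (M (nat_lit 367) (B (M (nat_lit 335) (B (lo111_11_2 (nat_lit 334)) (lo112_11_2 (nat_lit 336)))) (M (nat_lit 399) (B (lo111_11_0 (nat_lit 398)) (lo112_11_0 (nat_lit 400)))))) (M (nat_lit 362) (B (M (nat_lit 394) (B (lo113_11_1 (nat_lit 393)) (lo114_11_1 (nat_lit 395)))) (M (nat_lit 398) (B (lo110_11_0 (nat_lit 397)) (lo111_11_0 (nat_lit 399)))))))))) (B (M (nat_lit 397) (B (M (nat_lit 398) (B (lo110_11_0 (nat_lit 362)) (lo115_12_3 (nat_lit 399)))) (M (nat_lit 460) (B (lo112_14_7 (nat_lit 331)) (lo112_15_6 (nat_lit 492)))))) (M (nat_lit 395) (B (M (nat_lit 394) (B (lo19_12_2 (nat_lit 393)) (lo114_11_1 (nat_lit 366)))) (M (nat_lit 460) (B (lo112_14_7 (nat_lit 331)) (lo112_15_7 (nat_lit 492)))))))))) (M (nat_lit 460) (B (lo112_14_6 (nat_lit 333)) (M (nat_lit 492) (B (M (nat_lit 363) (B (lo112_14_7 (nat_lit 331)) (lo112_15_7 (nat_lit 395)))) (M (nat_lit 491) (B (lo112_11_5 (nat_lit 459)) (lo112_12_5 (nat_lit 523))))))))))))) (B (M (nat_lit 363) (B (K _ _ _ o1_s31282) (B (K _ _ _ o1_s31257) (B (M (nat_lit 397) (B (M (nat_lit 398) (B (lo115_12_3 (nat_lit 399)) (M (nat_lit 362) (B (lo19_11_0 (nat_lit 361)) (lo114_12_3 (nat_lit 395)))))) (B (M (nat_lit 398) (B (lo115_12_3 (nat_lit 399)) (M (nat_lit 362) (B (lo114_12_3 (nat_lit 395)) (lo110_11_0 (nat_lit 365)))))) (B (M (nat_lit 427) (B (M (nat_lit 398) (B (lo110_13_2 (nat_lit 426)) (lo115_12_3 (nat_lit 399)))) (M (nat_lit 332) (B (lo112_10_5 (nat_lit 459)) (lo112_9_4 (nat_lit 300)))))) (K _ _ _ o1_s56866))))) (B (M (nat_lit 397) (B (M (nat_lit 398) (B (lo115_12_3 (nat_lit 399)) (M (nat_lit 362) (B (lo19_11_0 (nat_lit 361)) (lo110_11_0 (nat_lit 365)))))) (B (M (nat_lit 427) (B (M (nat_lit 426) (B (lo19_13_2 (nat_lit 425)) (lo110_13_2 (nat_lit 398)))) (M (nat_lit 332) (B (lo112_10_5 (nat_lit 459)) (lo112_9_4 (nat_lit 300)))))) (K _ _ _ o1_s56866)))) (B (K _ _ _ o1_s46760) (B (M (nat_lit 333) (B (M (nat_lit 301) (B (lo112_13_6 (nat_lit 332)) (M (nat_lit 365) (B (lo113_8_5 (nat_lit 269)) (lo113_9_5 (nat_lit 397)))))) (B (M (nat_lit 365) (B (M (nat_lit 301) (B (lo113_8_5 (nat_lit 269)) (lo113_9_5 (nat_lit 397)))) (M (nat_lit 366) (B (M (nat_lit 334) (B (lo110_11_2 (nat_lit 362)) (lo111_11_2 (nat_lit 335)))) (M (nat_lit 395) (B (lo114_11_1 (nat_lit 394)) (lo115_11_1 (nat_lit 367)))))))) (B (M (nat_lit 397) (B (M (nat_lit 301) (B (lo112_13_6 (nat_lit 332)) (lo113_9_5 (nat_lit 365)))) (B (M (nat_lit 365) (B (lo113_9_5 (nat_lit 301)) (M (nat_lit 362) (B (lo19_11_0 (nat_lit 361)) (lo110_11_0 (nat_lit 398)))))) (B (M (nat_lit 398) (B (lo115_12_3 (nat_lit 399)) (M (nat_lit 362) (B (lo19_11_0 (nat_lit 361)) (lo110_11_0 (nat_lit 365)))))) (M (nat_lit 398) (B (lo115_12_3 (nat_lit 399)) (M (nat_lit 362) (B (lo19_11_0 (nat_lit 361)) (lo114_12_3 (nat_lit 395)))))))))) (B (M (nat_lit 362) (B (M (nat_lit 361) (B (lo19_11_2 (nat_lit 332)) (lo19_11_0 (nat_lit 397)))) (B (M (nat_lit 334) (B (lo110_11_2 (nat_lit 365)) (M (nat_lit 332) (B (lo114_10_1 (nat_lit 331)) (lo115_10_1 (nat_lit 335)))))) (M (nat_lit 397) (B (lo19_11_0 (nat_lit 361)) (M (nat_lit 365) (B (lo110_11_2 (nat_lit 334)) (lo110_11_0 (nat_lit 398))))))))) (M (nat_lit 332) (B (lo112_13_6 (nat_lit 301)) (M (nat_lit 362) (B (lo19_11_2 (nat_lit 361)) (M (nat_lit 331) (B (lo114_10_1 (nat_lit 334)) (lo112_13_7 (nat_lit 299))))))))))))) (B (M (nat_lit 365) (B (K _ _ _ o1_s56829) (B (K _ _ _ o1_s56831) (B (K _ _ _ o1_s56832) (B (K _ _ _ o1_s56835) (B (K _ _ _ o1_s56836) (K _ _ _ o1_s46748))))))) (K _ _ _ o1_s31334))))))))) (B (K _ _ _ o1_s47011) (B (K _ _ _ o1_s56764) (B (K _ _ _ o1_s56786) (K _ _ _ o1_s31232)))))))))))))))))))))))))))) _ _ _ (by decide +kernel)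
theorem o1_s57366 : Sem (nat_lit 2977131416794308094280641461793077210819827790952582581444846287221758209573443874798297761003556369114987972072309673036810407142536249344) (nat_lit 2532663311910144709634875441163925323819408358314429770687214958901214513887808293968580959467427059084413459927465093102460562204647777678193991320188165215911255136210929057792) (nat_lit 2532663311910144709634875441163925323819408358314429770687214958901214513887808293968580959467427059084413459927465093102460562204647777678193991320188165215911255136210929057792) := sem_of_chk (M (nat_lit 492) (B (M (nat_lit 397) (B (lo112_16_6 (nat_lit 524)) (M (nat_lit 365) (B (lo113_11_5 (nat_lit 461)) (lo113_10_5 (nat_lit 333)))))) (B (M (nat_lit 397) (B (lo112_16_6 (nat_lit 524)) (M (nat_lit 365) (B (lo113_10_5 (nat_lit 333)) (lo112_15_6 (nat_lit 396)))))) (B (M (nat_lit 524) (B (M (nat_lit 557) (B (lo112_13_4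 (nat_lit 525)) (M (nat_lit 556) (B (lo112_14_4 (nat_lit 589)) (lo112_17_6 (nat_lit 461)))))) (B (M (nat_lit 556) (B (lo112_17_6 (nat_lit 461)) (M (nat_lit 555) (B (lo112_14_5 (nat_lit 587)) (lo112_13_5 (nat_lit 523)))))) (B (M (nat_lit 556) (B (M (nat_lit 557) (B (lo112_14_4 (nat_lit 589)) (lo112_13_4 (nat_lit 525)))) (M (nat_lit 555) (B (lo112_14_5 (nat_lit 587)) (lo112_13_5 (nat_lit 523)))))) (K _ _ _ o1_s48782))))) (M (nat_lit 396) (B (M (nat_lit 364) (B (M (nat_lit 493) (B (lo112_12_4 (nat_lit 525)) (lo112_11_4 (nat_lit 461)))) (M (nat_lit 365) (B (lo112_15_6 (nat_lit 397)) (lo112_14_6 (nat_lit 333)))))) (B (M (nat_lit 364) (B (M (nat_lit 461) (B (lo112_11_4 (nat_lit 493)) (lo112_10_4 (nat_lit 332)))) (M (nat_lit 365) (B (lo112_15_6 (nat_lit 397)) (lo112_14_6 (nat_lit 333)))))) (B (K _ _ _ o1_s57341) (B (K _ _ _ o1_s57351) (B (K _ _ _ o1_s57352) (B (M (nat_lit 364) (B (M (nat_lit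 493) (B (lo112_12_4 (nat_lit 525)) (lo112_11_4 (nat_lit 461)))) (B (M (nat_lit 461) (B (lo112_11_4 (nat_lit 493)) (lo112_10_4 (nat_lit 332)))) (B (M (nat_lit 332) (B (lo112_10_4 (nat_lit 461)) (M (nat_lit 331) (B (lo112_14_7 (nat_lit 363)) (lo112_13_7 (nat_lit 299)))))) (K _ _ _ o1_s57348))))) (B (M (nat_lit 364) (B (M (nat_lit 493) (B (lo112_12_4 (nat_lit 525)) (lo112_11_4 (nat_lit 461)))) (B (M (nat_lit 461) (B (lo112_11_4 (nat_lit 493)) (lo112_10_4 (nat_lit 332)))) (B (M (nat_lit 397) (B (lo112_15_6 (nat_lit 365)) (M (nat_lit 332) (B (lo112_10_4 (nat_lit 461)) (lo112_9_4 (nat_lit 300)))))) (M (nat_lit 332) (B (M (nat_lit 397) (B (lo112_9_4 (nat_lit 300)) (lo112_15_6 (nat_lit 365)))) (M (nat_lit 331) (B (lo112_14_7 (nat_lit 363)) (lo112_13_7 (nat_lit 299)))))))))) (M (nat_lit 397) (B (lo112_15_6 (nat_lit 365)) (M (nat_lit 493) (B (lo112_12_4 (nat_lit 525)) (M (nat_lit 461) (B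 (M (nat_lit 398) (B (lo113_15_6 (nat_lit 366)) (M (nat_lit 399) (B (lo116_12_1 (nat_lit 400)) (lo115_12_1 (nat_lit 427)))))) (M (nat_lit 494) (B (lo113_12_4 (nat_lit 526)) (M (nat_lit 459) (B (lo115_15_3 (nat_lit 495)) (lo110_14_0 (nat_lit 458)))))))))))))))))))))))) _ _ _ (by decide +kernel)
theorem o1_s57412 : Sem (nat_lit 2977131416794308094280641461793077210819827790952582581444846287221758209573443874798297761003556369114987972072309673036810407142536249344) (nat_lit 2532663311910144709401472320577232755578900274243888897659831755006595126164754804747392004914165011449200022570699082884153540742628055492336457423720641331181142206356104675328) (nat_lit 2532663311910144709401472320577232755578900274243888897659831755006595126164754804747392004914165011449200022570699082884153540742628055492336457423720641331181142206356104675328) := sem_of_chk (M (nat_lit 492) (B (M (nat_lit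 397) (B (lo112_16_6 (nat_lit 524)) (M (nat_lit 365) (B (lo113_11_5 (nat_lit 461)) (lo113_10_5 (nat_lit 333)))))) (B (M (nat_lit 397) (B (lo112_16_6 (nat_lit 524)) (M (nat_lit 365) (B (lo113_10_5 (nat_lit 333)) (lo112_15_6 (nat_lit 396)))))) (B (K _ _ _ o1_s47938) (M (nat_lit 396) (B (M (nat_lit 364) (B (M (nat_lit 493) (B (lo112_12_4 (nat_lit 525)) (lo112_11_4 (nat_lit 461)))) (M (nat_lit 365) (B (lo112_15_6 (nat_lit 397)) (lo112_14_6 (nat_lit 333)))))) (B (M (nat_lit 364) (B (M (nat_lit 461) (B (lo112_11_4 (nat_lit 493)) (lo112_10_4 (nat_lit 332)))) (M (nat_lit 365) (B (lo112_15_6 (nat_lit 397)) (lo112_14_6 (nat_lit 333)))))) (B (K _ _ _ o1_s57341) (B (K _ _ _ o1_s57351) (B (K _ _ _ o1_s57352) (B (M (nat_lit 493) (B (lo112_12_4 (nat_lit 525)) (M (nat_lit 461) (B (lo112_11_4 (nat_lit 364)) (M (nat_lit 491) (B (lo112_12_5 (nat_lit 523)) (M (nat_lit 490) (B (lo110_15_2 (nat_lit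 462)) (lo19_15_2 (nat_lit 489)))))))))) (M (nat_lit 397) (B (lo112_15_6 (nat_lit 365)) (M (nat_lit 493) (B (lo112_12_4 (nat_lit 525)) (M (nat_lit 461) (B (M (nat_lit 398) (B (lo113_15_6 (nat_lit 366)) (M (nat_lit 399) (B (lo116_12_1 (nat_lit 400)) (lo115_12_1 (nat_lit 427)))))) (M (nat_lit 491) (B (lo112_12_5 (nat_lit 523)) (M (nat_lit 490) (B (lo110_15_2 (nat_lit 462)) (lo19_15_2 (nat_lit 489))))))))))))))))))))))) _ _ _ (by decide +kernel)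
theorem o1_s57946 : Sem (nat_lit 2079502270752001762064242424960807725827516048677469043429686155012882190638009693656033379242457518153052022685796627120027336704) (nat_lit 2026130649693226623645563157575347032936471409304031150771491022423113085818038718726522378483797274617478076248382878695845913896453229847019000516497175007571950840441850560512) (nat_lit 2026130649693226623645563157575347032936471409304031150771491022423113085818038718726522378483797274617478076248382878695845913896453229847019000516497175007571950840441850560512) := sem_of_chk (M (nat_lit 364) (B (M (nat_lit 461) (B (lo112_10_4 (nat_lit 332)) (M (nat_lit 493) (B (lo113_15_7 (nat_lit 397)) (lo113_16_7 (nat_lit 525)))))) (B (M (nat_lit 461) (B (lo112_10_4 (nat_lit 332)) (M (nat_lit 493) (B (lo113_16_7 (nat_lit 525)) (lo112_11_4 (nat_lit 460)))))) (B (M (nat_lit 332) (B (M (nat_lit 301) (B (lo112_13_6 (nat_lit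 333)) (M (nat_lit 300) (B (lo112_12_6 (nat_lit 269)) (lo112_9_4 (nat_lit 397)))))) (B (M (nat_lit 300) (B (lo112_9_4 (nat_lit 397)) (M (nat_lit 299) (B (lo112_12_7 (nat_lit 267)) (lo112_13_7 (nat_lit 331)))))) (B (M (nat_lit 300) (B (M (nat_lit 301) (B (lo112_12_6 (nat_lit 269)) (lo112_13_6 (nat_lit 333)))) (M (nat_lit 299) (B (lo112_12_7 (nat_lit 267)) (lo112_13_7 (nat_lit 331)))))) (K _ _ _ o1_s50322))))) (M (nat_lit 460) (B (M (nat_lit 492) (B (M (nat_lit 365) (B (lo112_14_6 (nat_lit 333)) (lo112_15_6 (nat_lit 397)))) (M (nat_lit 493) (B (lo112_11_4 (nat_lit 461)) (lo112_12_4 (nat_lit 525)))))) (B (M (nat_lit 492) (B (M (nat_lit 397) (B (lo112_15_6 (nat_lit 365)) (lo112_16_6 (nat_lit 524)))) (M (nat_lit 493) (B (lo112_11_4 (nat_lit 461)) (lo112_12_4 (nat_lit 525)))))) (B (K _ _ _ o1_s57927) (B (K _ _ _ o1_s57935) (B (K _ _ _ o1_s57936) (B (M (nat_lit 492) (B (M (nat_lit 365)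 (B (lo112_14_6 (nat_lit 333)) (lo112_15_6 (nat_lit 397)))) (B (M (nat_lit 397) (B (lo112_15_6 (nat_lit 365)) (lo112_16_6 (nat_lit 524)))) (B (M (nat_lit 524) (B (lo112_16_6 (nat_lit 397)) (M (nat_lit 523) (B (lo112_12_5 (nat_lit 491)) (lo112_13_5 (nat_lit 555)))))) (K _ _ _ o1_s57932))))) (B (M (nat_lit 492) (B (M (nat_lit 365) (B (lo112_14_6 (nat_lit 333)) (lo112_15_6 (nat_lit 397)))) (B (M (nat_lit 397) (B (lo112_15_6 (nat_lit 365)) (lo112_16_6 (nat_lit 524)))) (B (M (nat_lit 461) (B (lo112_11_4 (nat_lit 493)) (M (nat_lit 524) (B (lo112_16_6 (nat_lit 397)) (lo112_17_6 (nat_lit 556)))))) (M (nat_lit 524) (B (M (nat_lit 461) (B (lo112_17_6 (nat_lit 556)) (lo112_11_4 (nat_lit 493)))) (M (nat_lit 523) (B (lo112_12_5 (nat_lit 491)) (lo112_13_5 (nat_lit 555)))))))))) (M (nat_lit 461) (B (lo112_11_4 (nat_lit 493)) (M (nat_lit 365) (B (lo112_14_6 (nat_lit 333)) (M (nat_lit 397) (B (M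 (nat_lit 462) (B (lo113_11_4 (nat_lit 494)) (M (nat_lit 463) (B (lo116_14_3 (nat_lit 464)) (lo115_14_3 (nat_lit 427)))))) (M (nat_lit 366) (B (lo113_14_6 (nat_lit 334)) (M (nat_lit 395) (B (lo115_11_1 (nat_lit 367)) (lo110_12_2 (nat_lit 394)))))))))))))))))))))))) _ _ _ (by decide +kernel)
theorem o1_s58045 : Sem (nat_lit 2977131416794308094603422696553940784526817687452959065736059511325411148677276294365878713755661518443693641232326901966298303639129686016) (nat_lit 192214334528410459257291065480136399508138451939232351957796003418431021119570977212775283056507806188818692880691795727499530081351888892161221397958604357632) (nat_lit 192214334528410459257291065480136399508138451939232351957796003418431021119570977212775283056507806188818692880691795727499530081351888892161221397958604357632) := sem_of_chk (M (nat_lit 396) (B (K _ _ _ o1_s57997) (B (K _ _ _ o1_s58001) (B (K _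 _ _ o1_s58015) (B (K _ _ _ o1_s58027) (B (K _ _ _ o1_s58037) (M (nat_lit 398) (B (M (nat_lit 399) (B (lo116_12_1 (nat_lit 400)) (lo115_12_1 (nat_lit 427)))) (B (M (nat_lit 427) (B (lo115_12_1 (nat_lit 399)) (lo110_13_2 (nat_lit 426)))) (B (K _ _ _ o1_s58008) (M (nat_lit 399) (B (lo116_12_1 (nat_lit 400)) (M (nat_lit 395) (B (M (nat_lit 367) (B (lo112_12_2 (nat_lit 368)) (lo111_12_2 (nat_lit 366)))) (M (nat_lit 492) (B (lo112_16_6 (nat_lit 524)) (lo112_15_7 (nat_lit 363)))))))))))))))))) _ _ _ (by decide +kernel)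
theorem o1_s58775 : Sem (nat_lit 5954262831509113918132062396282775570385837752578025598503436755117483203237837978526166781103184508316224095151584552317312083661638598656) (nat_lit 54918381658251998640578980710163647687961497926155157931500921298939273468510482293774399251811423204903732242698994942147032890885204567828714355941632376832) (nat_lit 54918381658251998640578980710163647687961497926155157931500921298939273468510482293774399251811423204903732242698994942147032890885204567828714355941632376832) := sem_of_chk (M (nat_lit 460) (B (K _ _ _ o1_s58733) (B (K _ _ _ o1_s58737) (B (K _ _ _ o1_s58751) (B (K _ _ _ o1_s58762) (B (K _ _ _ o1_s58768) (M (nat_lit 462) (B (M (nat_lit 463) (B (lo116_14_3 (nat_lit 464)) (lo115_14_3 (nat_lit 427)))) (B (M (nat_lit 427) (B (lo115_14_3 (nat_lit 463)) (lo110_13_0 (nat_lit 426)))) (B (K _ _ _ o1_s58744) (M (nat_lit 463) (B (lo116_14_3 (nat_lit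 464)) (M (nat_lit 459) (B (M (nat_lit 495) (B (lo112_14_0 (nat_lit 496)) (lo111_14_0 (nat_lit 494)))) (M (nat_lit 364) (B (lo112_10_4 (nat_lit 332)) (lo112_11_5 (nat_lit 491)))))))))))))))))) _ _ _ (by decide +kernel)

end Vale.Agent.Lib.P062.Data
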