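import Vale.Agent.Lib.P062.Data.o1_lines
import Vale.Agent.Lib.P062.Data.o1_0_0
import Vale.Agent.Lib.P062.Data.o1_0_1
import Vale.Agent.Lib.P062.Data.o1_1_0
import Vale.Agent.Lib.P062.Data.o1_2_0
import Vale.Agent.Lib.P062.Data.o1_2_1

namespace Vale.Agent.Lib.P062.Data

theorem o1_s9095 : Sem (nat_lit 2426085982355713002131112411125198240506882440953839503274169633037793644329922420159977605341122130835217309591228125350352388096) (nat_lit 107727583503246487860655919547581676860539741103717319341750370192428509774147177571675874363678952097759574615085688658402288604050292997367242937694260053452445415052078640662346117962769749703600884603171815555072) (nat_lit 107727583503246487860655919547581676860539741103717319341750370192428509774147177571675874363678952097759574615085688658402288604050292997367242937694260053452445415052078640662346117962769749703600884603171815555072)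 := sem_of_chk (M (nat_lit 426) (B (M (nat_lit 330) (B (M (nat_lit 332) (B (K _ _ _ o1_s3865) (B (M (nat_lit 331) (B (M (nat_lit 333) (B (M (nat_lit 298) (B (M (nat_lit 301) (B (M (nat_lit 269) (B (M (nat_lit 234) (B (M (nat_lit 266) (B (lo110_7_4 (nat_lit 363)) (M (nat_lit 202) (B (lo110_6_4 (nat_lit 299)) (M (nat_lit 203) (B (lo110_9_6 (nat_lit 171)) (lo110_10_6 (nat_lit 235)))))))) (B (M (nat_lit 266) (B (lo110_7_4 (nat_lit 363)) (M (nat_lit 202) (B (lo110_6_4 (nat_lit 299)) (M (nat_lit 201) (B (lo110_9_7 (nat_lit 169)) (lo110_10_7 (nat_lit 233)))))))) (B (M (nat_lit 266) (B (lo110_7_4 (nat_lit 363)) (M (nat_lit 202) (B (M (nat_lit 203) (B (lo110_9_6 (nat_lit 171)) (lo110_10_6 (nat_lit 235)))) (M (nat_lit 201) (B (lo110_9_7 (nat_lit 169)) (lo110_10_7 (nat_lit 233)))))))) (M (nat_lit 236) (B (M (nat_lit 365) (B (lo110_10_0 (nat_lit 366)) (lo113_11_7 (nat_lit 268)))) (M (nat_lit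 237) (B (lo113_10_7 (nat_lit 204)) (M (nat_lit 206) (B (lo113_10_6 (nat_lit 238)) (M (nat_lit 205) (B (lo113_9_6 (nat_lit 174)) (lo110_7_2 (nat_lit 235)))))))))))))) (B (M (nat_lit 237) (B (lo113_7_5 (nat_lit 364)) (M (nat_lit 206) (B (lo113_10_6 (nat_lit 238)) (M (nat_lit 204) (B (lo113_10_7 (nat_lit 236)) (M (nat_lit 205) (B (lo113_9_6 (nat_lit 174)) (lo113_9_7 (nat_lit 172)))))))))) (M (nat_lit 365) (B (M (nat_lit 397) (B (M (nat_lit 461) (B (lo110_13_0 (nat_lit 462)) (lo113_14_7 (nat_lit 364)))) (lo110_13_2 (nat_lit 398)))) (lo110_10_0 (nat_lit 366))))))) (lo110_10_2 (nat_lit 302)))) (lo113_10_3 (nat_lit 297)))) (B (M (nat_lit 334) (B (M (nat_lit 302) (B (lo111_10_2 (nat_lit 303)) (lo110_10_2 (nat_lit 301)))) (M (nat_lit 362) (B (lo114_10_1 (nat_lit 363)) (lo113_10_1 (nat_lit 361)))))) (M (nat_lit 334) (B (M (nat_lit 366) (B (lo111_10_0 (nat_lit 367)) (lo110_10_0 (nat_lit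 365)))) (M (nat_lit 298) (B (lo114_10_3 (nat_lit 299)) (lo113_10_3 (nat_lit 297))))))))) (B (M (nat_lit 329) (B (M (nat_lit 361) (B (M (nat_lit 297) (B (M (nat_lit 265) (B (M (nat_lit 233) (B (M (nat_lit 232) (B (lo19_10_7 (nat_lit 200)) (lo19_11_7 (nat_lit 264)))) (M (nat_lit 234) (B (lo19_10_6 (nat_lit 202)) (lo19_11_6 (nat_lit 266)))))) (B (M (nat_lit 266) (B (lo19_11_6 (nat_lit 234)) (M (nat_lit 298) (B (lo19_12_6 (nat_lit 393)) (M (nat_lit 264) (B (lo19_11_7 (nat_lit 232)) (M (nat_lit 263) (B (lo16_8_0 (nat_lit 262)) (lo17_8_0 (nat_lit 299)))))))))) (B (M (nat_lit 233) (B (M (nat_lit 234) (B (lo19_10_6 (nat_lit 202)) (lo19_11_6 (nat_lit 266)))) (B (M (nat_lit 298) (B (lo19_6_4 (nat_lit 201)) (M (nat_lit 266) (B (lo19_11_6 (nat_lit 234)) (lo19_12_6 (nat_lit 393)))))) (M (nat_lit 201) (B (lo19_6_4 (nat_lit 298)) (M (nat_lit 169) (B (M (nat_lit 168) (B (lo19_8_7 (nat_lit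 136)) (lo19_9_7 (nat_lit 200)))) (M (nat_lit 170) (B (lo19_8_6 (nat_lit 138)) (lo19_9_6 (nat_lit 202))))))))))) (B (M (nat_lit 233) (B (M (nat_lit 232) (B (lo19_10_7 (nat_lit 200)) (lo19_11_7 (nat_lit 264)))) (lo19_7_4 (nat_lit 362)))) (M (nat_lit 233) (B (M (nat_lit 232) (B (lo19_10_7 (nat_lit 200)) (lo19_11_7 (nat_lit 264)))) (M (nat_lit 201) (B (M (nat_lit 202) (B (lo19_9_6 (nat_lit 170)) (lo19_10_6 (nat_lit 234)))) (lo19_6_4 (nat_lit 298))))))))))) (lo112_10_3 (nat_lit 296)))) (lo112_10_1 (nat_lit 360)))) (B (K _ _ _ o1_s3770) (B (K _ _ _ o1_s3671) (B (M (nat_lit 296) (B (M (nat_lit 295) (B (lo111_10_3 (nat_lit 328)) (M (nat_lit 297) (B (lo17_9_0 (nat_lit 298)) (lo112_10_3 (nat_lit 332)))))) (B (M (nat_lit 361) (B (lo112_10_3 (nat_lit 297)) (B (M (nat_lit 360) (B (lo112_10_1 (nat_lit 332)) (M (nat_lit 359) (B (lo111_10_1 (nat_lit 328)) (lo16_11_2 (nat_lit 358)))))) (B (M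 (nat_lit 393) (B (M (nat_lit 425) (B (lo19_13_7 (nat_lit 328)) (lo19_13_6 (nat_lit 298)))) (B (M (nat_lit 264) (B (lo19_12_7 (nat_lit 297)) (M (nat_lit 328) (B (lo18_7_4 (nat_lit 232)) (lo19_13_7 (nat_lit 425)))))) (B (M (nat_lit 297) (B (lo19_12_7 (nat_lit 264)) (M (nat_lit 298) (B (lo19_12_6 (nat_lit 266)) (lo19_13_6 (nat_lit 425)))))) (M (nat_lit 264) (B (lo19_12_7 (nat_lit 297)) (M (nat_lit 328) (B (lo18_7_4 (nat_lit 232)) (lo18_8_4 (nat_lit 360)))))))))) (M (nat_lit 393) (B (M (nat_lit 297) (B (lo19_12_7 (nat_lit 264)) (lo112_10_3 (nat_lit 332)))) (M (nat_lit 425) (B (lo19_13_7 (nat_lit 328)) (lo19_13_6 (nat_lit 298)))))))))) (B (M (nat_lit 328) (B (lo111_10_3 (nat_lit 295)) (M (nat_lit 360) (B (lo111_10_1 (nat_lit 359)) (M (nat_lit 361) (B (lo112_10_1 (nat_lit 332)) (M (nat_lit 393) (B (lo18_8_4 (nat_lit 264)) (lo19_13_7 (nat_lit 425)))))))))) (B (M (nat_lit 297) (B (lo112_10_3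 (nat_lit 332)) (M (nat_lit 295) (B (lo16_9_0 (nat_lit 294)) (lo17_9_0 (nat_lit 298)))))) (M (nat_lit 295) (B (lo111_10_3 (nat_lit 328)) (M (nat_lit 297) (B (lo16_9_0 (nat_lit 294)) (lo17_9_0 (nat_lit 298))))))))))) (M (nat_lit 328) (B (M (nat_lit 327) (B (M (nat_lit 363) (B (lo18_10_0 (nat_lit 364)) (lo17_10_0 (nat_lit 362)))) (M (nat_lit 295) (B (lo111_10_3 (nat_lit 296)) (lo110_10_3 (nat_lit 294)))))) (B (M (nat_lit 359) (B (lo111_10_1 (nat_lit 360)) (M (nat_lit 327) (B (lo110_10_1 (nat_lit 358)) (M (nat_lit 295) (B (lo111_10_3 (nat_lit 296)) (lo110_10_3 (nat_lit 294)))))))) (B (M (nat_lit 327) (B (M (nat_lit 363) (B (lo18_10_0 (nat_lit 364)) (lo17_10_0 (nat_lit 362)))) (M (nat_lit 359) (B (lo111_10_1 (nat_lit 360)) (lo110_10_1 (nat_lit 358)))))) (M (nat_lit 364) (B (lo19_10_0 (nat_lit 365)) (lo18_10_0 (nat_lit 363))))))))))))) (B (M (nat_lit 333) (B (M (nat_lit 334) (B (M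 (nat_lit 362) (B (lo113_10_1 (nat_lit 361)) (lo114_10_1 (nat_lit 363)))) (M (nat_lit 302) (B (lo110_10_2 (nat_lit 301)) (lo111_10_2 (nat_lit 303)))))) (B (M (nat_lit 366) (B (lo110_10_0 (nat_lit 365)) (M (nat_lit 334) (B (lo111_10_0 (nat_lit 367)) (M (nat_lit 302) (B (lo110_10_2 (nat_lit 301)) (lo111_10_2 (nat_lit 303)))))))) (B (M (nat_lit 334) (B (M (nat_lit 362) (B (lo113_10_1 (nat_lit 361)) (lo114_10_1 (nat_lit 363)))) (M (nat_lit 366) (B (lo110_10_0 (nat_lit 365)) (lo111_10_0 (nat_lit 367)))))) (M (nat_lit 329) (B (M (nat_lit 361) (B (lo112_10_1 (nat_lit 360)) (lo113_10_1 (nat_lit 362)))) (M (nat_lit 365) (B (lo19_10_0 (nat_lit 364)) (lo110_10_0 (nat_lit 366)))))))))) (B (M (nat_lit 333) (B (M (nat_lit 334) (B (M (nat_lit 298) (B (lo113_10_3 (nat_lit 297)) (lo114_10_3 (nat_lit 299)))) (M (nat_lit 302) (B (lo110_10_2 (nat_lit 301)) (lo111_10_2 (nat_lit 303)))))) (B (M (nat_lit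 334) (B (M (nat_lit 362) (B (lo113_10_1 (nat_lit 361)) (lo114_10_1 (nat_lit 363)))) (M (nat_lit 302) (B (lo110_10_2 (nat_lit 301)) (lo111_10_2 (nat_lit 303)))))) (B (M (nat_lit 334) (B (M (nat_lit 362) (B (lo113_10_1 (nat_lit 361)) (lo114_10_1 (nat_lit 363)))) (M (nat_lit 298) (B (lo113_10_3 (nat_lit 297)) (lo114_10_3 (nat_lit 299)))))) (M (nat_lit 361) (B (lo113_10_1 (nat_lit 362)) (M (nat_lit 329) (B (lo112_10_1 (nat_lit 360)) (M (nat_lit 297) (B (lo112_10_3 (nat_lit 296)) (lo113_10_3 (nat_lit 298)))))))))))) (M (nat_lit 333) (B (M (nat_lit 366) (B (lo110_10_0 (nat_lit 365)) (M (nat_lit 334) (B (lo111_10_0 (nat_lit 367)) (M (nat_lit 302) (B (lo110_10_2 (nat_lit 301)) (lo111_10_2 (nat_lit 303)))))))) (B (M (nat_lit 334) (B (M (nat_lit 298) (B (lo113_10_3 (nat_lit 297)) (lo114_10_3 (nat_lit 299)))) (M (nat_lit 302) (B (lo110_10_2 (nat_lit 301)) (lo111_10_2 (nat_lit 303))))))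 (B (M (nat_lit 334) (B (M (nat_lit 298) (B (lo113_10_3 (nat_lit 297)) (lo114_10_3 (nat_lit 299)))) (M (nat_lit 366) (B (lo110_10_0 (nat_lit 365)) (lo111_10_0 (nat_lit 367)))))) (M (nat_lit 329) (B (M (nat_lit 297) (B (lo112_10_3 (nat_lit 296)) (lo113_10_3 (nat_lit 298)))) (M (nat_lit 365) (B (lo19_10_0 (nat_lit 364)) (lo110_10_0 (nat_lit 366))))))))))))))) (B (M (nat_lit 331) (B (M (nat_lit 333) (B (M (nat_lit 298) (B (M (nat_lit 266) (B (M (nat_lit 363) (B (lo110_7_4 (nat_lit 234)) (M (nat_lit 395) (B (lo110_8_4 (nat_lit 362)) (lo111_13_7 (nat_lit 427)))))) (B (M (nat_lit 267) (B (M (nat_lit 235) (B (lo110_11_6 (nat_lit 362)) (M (nat_lit 203) (B (lo111_5_5 (nat_lit 171)) (lo111_6_5 (nat_lit 299)))))) (B (M (nat_lit 300) (B (M (nat_lit 301) (B (M (nat_lit 265) (B (lo113_9_3 (nat_lit 299)) (lo19_8_0 (nat_lit 268)))) (B (M (nat_lit 302) (B (lo114_9_3 (nat_lit 299)) (lo110_10_2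 (nat_lit 333)))) (M (nat_lit 302) (B (lo110_10_2 (nat_lit 333)) (lo115_9_1 (nat_lit 303))))))) (B (M (nat_lit 235) (B (M (nat_lit 203) (B (lo111_5_5 (nat_lit 171)) (lo111_6_5 (nat_lit 299)))) (B (M (nat_lit 299) (B (lo111_6_5 (nat_lit 203)) (lo111_7_4 (nat_lit 364)))) (B (M (nat_lit 364) (B (lo111_7_4 (nat_lit 299)) (lo112_11_7 (nat_lit 268)))) (M (nat_lit 203) (B (lo111_5_5 (nat_lit 171)) (M (nat_lit 268) (B (lo112_10_7 (nat_lit 236)) (lo112_11_7 (nat_lit 364)))))))))) (B (M (nat_lit 268) (B (M (nat_lit 363) (B (lo112_7_5 (nat_lit 236)) (M (nat_lit 395) (B (lo111_13_7 (nat_lit 427)) (lo112_8_5 (nat_lit 364)))))) (M (nat_lit 301) (B (lo19_8_0 (nat_lit 265)) (M (nat_lit 302) (B (lo110_8_0 (nat_lit 269)) (lo110_10_2 (nat_lit 333)))))))) (M (nat_lit 299) (B (M (nat_lit 301) (B (lo113_9_3 (nat_lit 265)) (lo114_9_3 (nat_lit 302)))) (M (nat_lit 235) (B (lo111_6_5 (nat_lit 203)) (lo111_7_4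 (nat_lit 364)))))))))) (B (M (nat_lit 235) (B (lo110_11_6 (nat_lit 362)) (M (nat_lit 299) (B (lo111_6_5 (nat_lit 203)) (lo111_7_4 (nat_lit 364)))))) (B (M (nat_lit 235) (B (lo110_11_6 (nat_lit 362)) (M (nat_lit 300) (B (M (nat_lit 364) (B (lo111_7_4 (nat_lit 299)) (lo112_11_7 (nat_lit 268)))) (B (M (nat_lit 301) (B (M (nat_lit 268) (B (lo19_8_0 (nat_lit 265)) (lo112_11_7 (nat_lit 364)))) (M (nat_lit 302) (B (lo110_10_2 (nat_lit 333)) (lo115_9_1 (nat_lit 303)))))) (B (M (nat_lit 299) (B (lo111_7_4 (nat_lit 364)) (M (nat_lit 265) (B (lo18_8_0 (nat_lit 264)) (lo113_9_3 (nat_lit 301)))))) (M (nat_lit 301) (B (M (nat_lit 265) (B (lo113_9_3 (nat_lit 299)) (lo19_8_0 (nat_lit 268)))) (B (M (nat_lit 302) (B (lo114_9_3 (nat_lit 299)) (lo110_10_2 (nat_lit 333)))) (M (nat_lit 302) (B (lo110_10_2 (nat_lit 333)) (lo115_9_1 (nat_lit 303))))))))))))) (B (M (nat_lit 268) (B (M (nat_lit 363)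 (B (M (nat_lit 395) (B (lo110_8_4 (nat_lit 362)) (lo111_12_7 (nat_lit 299)))) (B (M (nat_lit 395) (B (lo111_12_7 (nat_lit 299)) (lo111_13_7 (nat_lit 427)))) (B (M (nat_lit 395) (B (lo110_8_4 (nat_lit 362)) (lo111_13_7 (nat_lit 427)))) (M (nat_lit 236) (B (lo111_11_6 (nat_lit 299)) (lo112_7_5 (nat_lit 300)))))))) (B (M (nat_lit 363) (B (M (nat_lit 395) (B (lo111_12_7 (nat_lit 299)) (lo111_13_7 (nat_lit 427)))) (B (M (nat_lit 395) (B (lo111_13_7 (nat_lit 427)) (M (nat_lit 300) (B (lo112_7_5 (nat_lit 236)) (lo112_8_5 (nat_lit 364)))))) (M (nat_lit 236) (B (lo111_11_6 (nat_lit 299)) (lo112_7_5 (nat_lit 300))))))) (B (M (nat_lit 363) (B (M (nat_lit 395) (B (lo110_8_4 (nat_lit 362)) (lo111_13_7 (nat_lit 427)))) (B (M (nat_lit 395) (B (lo111_13_7 (nat_lit 427)) (M (nat_lit 300) (B (lo112_7_5 (nat_lit 236)) (lo112_8_5 (nat_lit 364)))))) (M (nat_lit 265) (B (M (nat_lit 233) (B (lo112_8_3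 (nat_lit 232)) (lo110_11_7 (nat_lit 362)))) (M (nat_lit 300) (B (lo19_8_0 (nat_lit 301)) (lo112_7_5 (nat_lit 236))))))))) (B (K _ _ _ o1_s4159) (M (nat_lit 363) (B (M (nat_lit 395) (B (lo110_8_4 (nat_lit 362)) (lo111_12_7 (nat_lit 299)))) (B (M (nat_lit 299) (B (lo111_12_7 (nat_lit 395)) (lo111_11_6 (nat_lit 236)))) (B (M (nat_lit 395) (B (lo110_8_4 (nat_lit 362)) (lo111_13_7 (nat_lit 427)))) (M (nat_lit 265) (B (M (nat_lit 233) (B (lo112_8_3 (nat_lit 232)) (lo110_11_7 (nat_lit 362)))) (M (nat_lit 236) (B (lo19_8_2 (nat_lit 237)) (lo111_11_6 (nat_lit 299))))))))))))))) (M (nat_lit 268) (B (M (nat_lit 235) (B (lo110_11_6 (nat_lit 362)) (M (nat_lit 300) (B (lo112_11_7 (nat_lit 364)) (M (nat_lit 203) (B (lo111_5_5 (nat_lit 171)) (lo112_10_7 (nat_lit 236)))))))) (B (M (nat_lit 300) (B (M (nat_lit 301) (B (lo19_8_0 (nat_lit 265)) (M (nat_lit 302) (B (lo110_8_0 (nat_lit 269)) (lo110_10_2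 (nat_lit 333)))))) (M (nat_lit 236) (B (lo112_7_5 (nat_lit 363)) (M (nat_lit 235) (B (lo112_10_7 (nat_lit 203)) (lo112_11_7 (nat_lit 364)))))))) (B (M (nat_lit 265) (B (M (nat_lit 233) (B (lo112_8_3 (nat_lit 232)) (lo110_11_7 (nat_lit 362)))) (B (M (nat_lit 362) (B (lo110_11_7 (nat_lit 233)) (lo110_11_6 (nat_lit 235)))) (B (M (nat_lit 235) (B (lo110_11_6 (nat_lit 362)) (M (nat_lit 236) (B (lo18_8_2 (nat_lit 264)) (lo19_8_2 (nat_lit 237)))))) (M (nat_lit 264) (B (M (nat_lit 232) (B (lo111_8_3 (nat_lit 231)) (lo112_8_3 (nat_lit 233)))) (M (nat_lit 236) (B (lo18_8_2 (nat_lit 235)) (lo19_8_2 (nat_lit 237)))))))))) (K _ _ _ o1_s4159))))))))))) (B (M (nat_lit 363) (B (lo110_7_4 (nat_lit 234)) (M (nat_lit 395) (B (lo111_12_7 (nat_lit 299)) (lo111_13_7 (nat_lit 427)))))) (M (nat_lit 234) (B (M (nat_lit 202) (B (lo110_6_4 (nat_lit 299)) (M (nat_lit 203) (B (lo110_9_6 (nat_lit 171))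 (lo110_10_6 (nat_lit 235)))))) (B (M (nat_lit 362) (B (M (nat_lit 233) (B (lo110_10_7 (nat_lit 201)) (lo110_11_7 (nat_lit 265)))) (M (nat_lit 235) (B (lo110_10_6 (nat_lit 203)) (lo110_11_6 (nat_lit 267)))))) (M (nat_lit 202) (B (lo110_6_4 (nat_lit 299)) (M (nat_lit 201) (B (lo110_9_7 (nat_lit 169)) (lo110_10_7 (nat_lit 233))))))))))))) (lo113_10_3 (nat_lit 297)))) (B (M (nat_lit 363) (B (M (nat_lit 395) (B (lo111_13_6 (nat_lit 300)) (lo111_13_7 (nat_lit 298)))) (M (nat_lit 362) (B (lo113_10_1 (nat_lit 361)) (lo114_10_1 (nat_lit 334)))))) (B (M (nat_lit 334) (B (M (nat_lit 302) (B (lo111_10_2 (nat_lit 303)) (lo110_10_2 (nat_lit 301)))) (M (nat_lit 362) (B (lo114_10_1 (nat_lit 363)) (lo113_10_1 (nat_lit 361)))))) (M (nat_lit 334) (B (M (nat_lit 298) (B (lo113_10_3 (nat_lit 297)) (lo114_10_3 (nat_lit 299)))) (M (nat_lit 302) (B (lo110_10_2 (nat_lit 301)) (lo111_10_2 (nat_lit 303))))))))))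 (B (M (nat_lit 363) (B (M (nat_lit 298) (B (M (nat_lit 395) (B (lo111_13_7 (nat_lit 427)) (M (nat_lit 266) (B (lo110_7_4 (nat_lit 234)) (lo110_8_4 (nat_lit 362)))))) (M (nat_lit 297) (B (lo113_10_3 (nat_lit 333)) (M (nat_lit 296) (B (lo17_9_0 (nat_lit 295)) (lo112_10_3 (nat_lit 329)))))))) (B (M (nat_lit 300) (B (M (nat_lit 301) (B (lo19_10_2 (nat_lit 329)) (M (nat_lit 302) (B (lo110_10_2 (nat_lit 333)) (lo115_9_1 (nat_lit 303)))))) (M (nat_lit 395) (B (lo111_13_6 (nat_lit 427)) (M (nat_lit 268) (B (lo112_7_5 (nat_lit 236)) (lo112_8_5 (nat_lit 364)))))))) (B (M (nat_lit 333) (B (M (nat_lit 334) (B (lo114_10_1 (nat_lit 362)) (M (nat_lit 302) (B (lo110_10_2 (nat_lit 301)) (lo111_10_2 (nat_lit 303)))))) (B (M (nat_lit 334) (B (M (nat_lit 302) (B (lo110_10_2 (nat_lit 301)) (lo111_10_2 (nat_lit 303)))) (M (nat_lit 335) (B (lo115_10_1 (nat_lit 364)) (M (nat_lit 367) (B (lo111_10_0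 (nat_lit 366)) (lo112_10_0 (nat_lit 368)))))))) (B (M (nat_lit 334) (B (lo114_10_1 (nat_lit 362)) (M (nat_lit 335) (B (lo115_10_1 (nat_lit 364)) (M (nat_lit 367) (B (lo111_10_0 (nat_lit 366)) (lo112_10_0 (nat_lit 368)))))))) (M (nat_lit 298) (B (lo113_10_3 (nat_lit 297)) (M (nat_lit 266) (B (lo110_7_4 (nat_lit 234)) (M (nat_lit 395) (B (lo110_8_4 (nat_lit 362)) (lo111_13_7 (nat_lit 427)))))))))))) (B (M (nat_lit 333) (B (M (nat_lit 334) (B (lo114_10_1 (nat_lit 362)) (M (nat_lit 335) (B (lo115_10_1 (nat_lit 364)) (M (nat_lit 367) (B (lo111_10_0 (nat_lit 366)) (lo112_10_0 (nat_lit 368)))))))) (M (nat_lit 329) (B (M (nat_lit 297) (B (lo112_10_3 (nat_lit 296)) (lo113_10_3 (nat_lit 298)))) (M (nat_lit 301) (B (lo19_10_2 (nat_lit 300)) (lo110_10_2 (nat_lit 302)))))))) (M (nat_lit 329) (B (M (nat_lit 328) (B (lo18_10_0 (nat_lit 364)) (M (nat_lit 296) (B (lo111_10_3 (nat_lit 295))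 (lo112_10_3 (nat_lit 297)))))) (B (M (nat_lit 328) (B (lo18_10_0 (nat_lit 364)) (M (nat_lit 327) (B (lo17_10_0 (nat_lit 362)) (M (nat_lit 359) (B (lo110_10_1 (nat_lit 358)) (lo111_10_1 (nat_lit 360)))))))) (B (M (nat_lit 300) (B (lo19_10_2 (nat_lit 301)) (M (nat_lit 395) (B (lo111_13_6 (nat_lit 427)) (M (nat_lit 268) (B (lo112_7_5 (nat_lit 236)) (lo112_8_5 (nat_lit 364)))))))) (M (nat_lit 328) (B (M (nat_lit 296) (B (lo111_10_3 (nat_lit 295)) (lo112_10_3 (nat_lit 297)))) (M (nat_lit 327) (B (lo17_10_0 (nat_lit 362)) (M (nat_lit 359) (B (lo110_10_1 (nat_lit 358)) (lo111_10_1 (nat_lit 360))))))))))))))))) (B (K _ _ _ o1_s4296) (B (K _ _ _ o1_s4311) (B (K _ _ _ o1_s4359) (B (K _ _ _ o1_s4367) (M (nat_lit 329) (B (M (nat_lit 328) (B (M (nat_lit 300) (B (lo19_10_2 (nat_lit 301)) (lo18_10_2 (nat_lit 299)))) (M (nat_lit 360) (B (lo112_10_1 (nat_lit 361)) (lo111_10_1 (nat_lit 359))))))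 (B (M (nat_lit 296) (B (lo112_10_3 (nat_lit 297)) (M (nat_lit 328) (B (lo111_10_3 (nat_lit 295)) (M (nat_lit 360) (B (lo112_10_1 (nat_lit 361)) (lo111_10_1 (nat_lit 359)))))))) (B (M (nat_lit 328) (B (M (nat_lit 300) (B (lo19_10_2 (nat_lit 301)) (lo18_10_2 (nat_lit 299)))) (M (nat_lit 296) (B (lo112_10_3 (nat_lit 297)) (lo111_10_3 (nat_lit 295)))))) (M (nat_lit 333) (B (M (nat_lit 301) (B (lo110_10_2 (nat_lit 302)) (lo19_10_2 (nat_lit 300)))) (M (nat_lit 297) (B (lo113_10_3 (nat_lit 298)) (lo112_10_3 (nat_lit 296))))))))))))))))) (B (M (nat_lit 331) (B (K _ _ _ o1_s4296) (B (M (nat_lit 333) (B (M (nat_lit 329) (B (M (nat_lit 365) (B (lo110_10_0 (nat_lit 366)) (lo19_10_0 (nat_lit 364)))) (M (nat_lit 361) (B (lo113_10_1 (nat_lit 362)) (lo112_10_1 (nat_lit 360)))))) (B (M (nat_lit 329) (B (M (nat_lit 361) (B (lo113_10_1 (nat_lit 362)) (lo112_10_1 (nat_lit 360)))) (B (M (nat_lit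 328) (B (M (nat_lit 300) (B (lo19_10_2 (nat_lit 301)) (lo18_10_2 (nat_lit 299)))) (M (nat_lit 360) (B (lo112_10_1 (nat_lit 361)) (lo111_10_1 (nat_lit 359)))))) (M (nat_lit 300) (B (lo19_10_2 (nat_lit 301)) (M (nat_lit 299) (B (lo18_10_2 (nat_lit 328)) (M (nat_lit 334) (B (lo115_10_3 (nat_lit 335)) (lo114_10_3 (nat_lit 298))))))))))) (B (M (nat_lit 329) (B (M (nat_lit 365) (B (lo110_10_0 (nat_lit 366)) (lo19_10_0 (nat_lit 364)))) (M (nat_lit 328) (B (M (nat_lit 300) (B (lo19_10_2 (nat_lit 301)) (lo18_10_2 (nat_lit 299)))) (M (nat_lit 360) (B (lo112_10_1 (nat_lit 361)) (lo111_10_1 (nat_lit 359)))))))) (B (M (nat_lit 300) (B (M (nat_lit 329) (B (lo19_10_2 (nat_lit 301)) (M (nat_lit 365) (B (lo110_10_0 (nat_lit 366)) (lo19_10_0 (nat_lit 364)))))) (B (M (nat_lit 299) (B (M (nat_lit 334) (B (lo115_10_3 (nat_lit 335)) (lo114_10_3 (nat_lit 298)))) (M (nat_lit 329) (B (lo19_10_2 (nat_lit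 301)) (lo18_10_2 (nat_lit 328)))))) (M (nat_lit 334) (B (M (nat_lit 366) (B (lo111_10_0 (nat_lit 367)) (lo110_10_0 (nat_lit 365)))) (M (nat_lit 299) (B (lo115_10_3 (nat_lit 335)) (lo114_10_3 (nat_lit 298))))))))) (M (nat_lit 334) (B (M (nat_lit 366) (B (lo111_10_0 (nat_lit 367)) (lo110_10_0 (nat_lit 365)))) (B (M (nat_lit 335) (B (M (nat_lit 299) (B (lo115_10_3 (nat_lit 300)) (lo114_10_3 (nat_lit 298)))) (M (nat_lit 336) (B (M (nat_lit 304) (B (lo113_10_2 (nat_lit 305)) (lo112_10_2 (nat_lit 303)))) (M (nat_lit 365) (B (lo116_10_1 (nat_lit 364)) (lo110_10_0 (nat_lit 366)))))))) (M (nat_lit 335) (B (M (nat_lit 299) (B (lo115_10_3 (nat_lit 300)) (lo114_10_3 (nat_lit 298)))) (M (nat_lit 336) (B (M (nat_lit 368) (B (lo113_10_0 (nat_lit 369)) (lo112_10_0 (nat_lit 367)))) (M (nat_lit 304) (B (lo113_10_2 (nat_lit 305)) (lo112_10_2 (nat_lit 303)))))))))))))))) (B (M (nat_lit 329) (B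 (M (nat_lit 333) (B (M (nat_lit 365) (B (lo110_10_0 (nat_lit 366)) (lo19_10_0 (nat_lit 364)))) (M (nat_lit 297) (B (lo113_10_3 (nat_lit 298)) (lo112_10_3 (nat_lit 296)))))) (B (M (nat_lit 328) (B (M (nat_lit 300) (B (lo19_10_2 (nat_lit 301)) (lo18_10_2 (nat_lit 299)))) (M (nat_lit 296) (B (lo112_10_3 (nat_lit 297)) (lo111_10_3 (nat_lit 295)))))) (B (M (nat_lit 328) (B (M (nat_lit 300) (B (lo19_10_2 (nat_lit 301)) (lo18_10_2 (nat_lit 299)))) (M (nat_lit 327) (B (M (nat_lit 295) (B (lo111_10_3 (nat_lit 296)) (lo110_10_3 (nat_lit 294)))) (M (nat_lit 359) (B (lo111_10_1 (nat_lit 360)) (lo110_10_1 (nat_lit 358)))))))) (M (nat_lit 333) (B (M (nat_lit 365) (B (lo110_10_0 (nat_lit 366)) (lo19_10_0 (nat_lit 364)))) (M (nat_lit 299) (B (M (nat_lit 298) (B (lo114_10_3 (nat_lit 334)) (lo113_10_3 (nat_lit 297)))) (M (nat_lit 300) (B (lo19_10_2 (nat_lit 301)) (lo18_10_2 (nat_lit 328))))))))))))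 (B (M (nat_lit 363) (B (M (nat_lit 298) (B (M (nat_lit 297) (B (lo113_10_3 (nat_lit 333)) (M (nat_lit 296) (B (lo18_9_0 (nat_lit 299)) (lo17_9_0 (nat_lit 295)))))) (B (M (nat_lit 333) (B (lo113_10_3 (nat_lit 297)) (M (nat_lit 362) (B (lo114_10_1 (nat_lit 334)) (lo113_10_1 (nat_lit 361)))))) (M (nat_lit 395) (B (lo111_13_7 (nat_lit 427)) (M (nat_lit 266) (B (lo111_12_7 (nat_lit 299)) (lo110_8_4 (nat_lit 362))))))))) (B (M (nat_lit 333) (B (M (nat_lit 397) (B (M (nat_lit 365) (B (lo110_10_0 (nat_lit 366)) (lo113_13_7 (nat_lit 300)))) (lo110_13_2 (nat_lit 398)))) (M (nat_lit 362) (B (lo113_10_1 (nat_lit 361)) (lo114_10_1 (nat_lit 334)))))) (M (nat_lit 395) (B (lo111_13_6 (nat_lit 300)) (lo111_13_7 (nat_lit 298))))))) (B (M (nat_lit 329) (B (M (nat_lit 328) (B (M (nat_lit 300) (B (lo19_10_2 (nat_lit 301)) (lo18_10_2 (nat_lit 299)))) (M (nat_lit 296) (B (lo112_10_3 (nat_lit 297))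 (lo111_10_3 (nat_lit 295)))))) (B (M (nat_lit 328) (B (M (nat_lit 364) (B (lo19_10_0 (nat_lit 365)) (lo18_10_0 (nat_lit 363)))) (M (nat_lit 296) (B (lo112_10_3 (nat_lit 297)) (lo111_10_3 (nat_lit 295)))))) (B (M (nat_lit 328) (B (M (nat_lit 364) (B (lo19_10_0 (nat_lit 365)) (lo18_10_0 (nat_lit 363)))) (M (nat_lit 300) (B (lo19_10_2 (nat_lit 301)) (lo18_10_2 (nat_lit 299)))))) (M (nat_lit 333) (B (M (nat_lit 365) (B (lo110_10_0 (nat_lit 366)) (lo19_10_0 (nat_lit 364)))) (M (nat_lit 361) (B (lo113_10_1 (nat_lit 362)) (lo112_10_1 (nat_lit 360)))))))))) (M (nat_lit 329) (B (M (nat_lit 296) (B (lo112_10_3 (nat_lit 297)) (M (nat_lit 328) (B (lo111_10_3 (nat_lit 295)) (M (nat_lit 360) (B (lo112_10_1 (nat_lit 361)) (lo111_10_1 (nat_lit 359)))))))) (B (M (nat_lit 328) (B (M (nat_lit 364) (B (lo19_10_0 (nat_lit 365)) (lo18_10_0 (nat_lit 363)))) (M (nat_lit 360) (B (lo112_10_1 (nat_lit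 361)) (lo111_10_1 (nat_lit 359)))))) (B (M (nat_lit 328) (B (M (nat_lit 364) (B (lo19_10_0 (nat_lit 365)) (lo18_10_0 (nat_lit 363)))) (M (nat_lit 296) (B (lo112_10_3 (nat_lit 297)) (lo111_10_3 (nat_lit 295)))))) (M (nat_lit 333) (B (M (nat_lit 365) (B (lo110_10_0 (nat_lit 366)) (lo19_10_0 (nat_lit 364)))) (M (nat_lit 297) (B (lo113_10_3 (nat_lit 298)) (lo112_10_3 (nat_lit 296)))))))))))))))) (B (M (nat_lit 331) (B (K _ _ _ o1_s4296) (B (M (nat_lit 333) (B (M (nat_lit 298) (B (lo113_10_3 (nat_lit 297)) (M (nat_lit 301) (B (lo110_10_2 (nat_lit 302)) (M (nat_lit 266) (B (M (nat_lit 362) (B (lo113_10_1 (nat_lit 361)) (M (nat_lit 363) (B (lo110_7_4 (nat_lit 234)) (lo110_8_4 (nat_lit 395)))))) (B (M (nat_lit 363) (B (lo110_7_4 (nat_lit 234)) (M (nat_lit 395) (B (lo110_8_4 (nat_lit 362)) (lo111_12_7 (nat_lit 299)))))) (B (M (nat_lit 300) (B (M (nat_lit 362) (B (lo113_10_1 (nat_lit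 361)) (M (nat_lit 265) (B (lo110_11_7 (nat_lit 233)) (lo113_9_3 (nat_lit 299)))))) (M (nat_lit 365) (B (lo110_10_0 (nat_lit 366)) (M (nat_lit 268) (B (lo112_7_4 (nat_lit 236)) (lo113_12_7 (nat_lit 397)))))))) (M (nat_lit 363) (B (lo110_7_4 (nat_lit 234)) (M (nat_lit 395) (B (lo111_12_7 (nat_lit 299)) (lo111_13_7 (nat_lit 427)))))))))))))) (B (M (nat_lit 363) (B (M (nat_lit 395) (B (lo111_13_6 (nat_lit 300)) (lo111_13_7 (nat_lit 298)))) (M (nat_lit 362) (B (lo113_10_1 (nat_lit 361)) (lo114_10_1 (nat_lit 334)))))) (B (M (nat_lit 334) (B (M (nat_lit 302) (B (lo111_10_2 (nat_lit 303)) (lo110_10_2 (nat_lit 301)))) (M (nat_lit 362) (B (lo114_10_1 (nat_lit 363)) (lo113_10_1 (nat_lit 361)))))) (M (nat_lit 334) (B (M (nat_lit 298) (B (lo113_10_3 (nat_lit 297)) (lo114_10_3 (nat_lit 299)))) (M (nat_lit 302) (B (lo110_10_2 (nat_lit 301)) (lo111_10_2 (nat_lit 303)))))))))) (B (K _ _ _ o1_s4311)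 (B (K _ _ _ o1_s4359) (B (K _ _ _ o1_s4367) (M (nat_lit 333) (B (M (nat_lit 334) (B (M (nat_lit 298) (B (lo113_10_3 (nat_lit 297)) (lo114_10_3 (nat_lit 299)))) (M (nat_lit 366) (B (lo110_10_0 (nat_lit 365)) (lo111_10_0 (nat_lit 367)))))) (B (M (nat_lit 302) (B (lo110_10_2 (nat_lit 301)) (M (nat_lit 334) (B (lo111_10_2 (nat_lit 303)) (M (nat_lit 366) (B (lo110_10_0 (nat_lit 365)) (lo111_10_0 (nat_lit 367)))))))) (B (M (nat_lit 334) (B (M (nat_lit 298) (B (lo113_10_3 (nat_lit 297)) (lo114_10_3 (nat_lit 299)))) (M (nat_lit 302) (B (lo110_10_2 (nat_lit 301)) (lo111_10_2 (nat_lit 303)))))) (M (nat_lit 329) (B (M (nat_lit 297) (B (lo112_10_3 (nat_lit 296)) (lo113_10_3 (nat_lit 298)))) (M (nat_lit 301) (B (lo19_10_2 (nat_lit 300)) (lo110_10_2 (nat_lit 302)))))))))))))))) (M (nat_lit 397) (B (M (nat_lit 461) (B (M (nat_lit 365) (B (lo113_14_7 (nat_lit 364)) (M (nat_lit 333) (B (lo113_13_7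 (nat_lit 300)) (M (nat_lit 334) (B (lo113_13_6 (nat_lit 302)) (lo113_14_6 (nat_lit 366)))))))) (lo110_13_0 (nat_lit 462)))) (lo110_13_2 (nat_lit 398)))))))))) (B (M (nat_lit 362) (B (M (nat_lit 397) (B (M (nat_lit 363) (B (M (nat_lit 329) (B (M (nat_lit 332) (B (M (nat_lit 300) (B (M (nat_lit 268) (B (M (nat_lit 267) (B (M (nat_lit 235) (B (lo112_11_7 (nat_lit 364)) (M (nat_lit 203) (B (lo111_6_4 (nat_lit 299)) (lo111_5_4 (nat_lit 171)))))) (B (M (nat_lit 266) (B (M (nat_lit 301) (B (lo19_8_0 (nat_lit 265)) (M (nat_lit 302) (B (lo115_9_3 (nat_lit 303)) (lo110_8_0 (nat_lit 269)))))) (B (M (nat_lit 301) (B (lo19_8_0 (nat_lit 265)) (M (nat_lit 302) (B (lo114_9_3 (nat_lit 299)) (lo110_8_0 (nat_lit 269)))))) (B (M (nat_lit 265) (B (lo19_8_0 (nat_lit 301)) (M (nat_lit 264) (B (lo18_8_0 (nat_lit 299)) (M (nat_lit 296) (B (lo112_8_1 (nat_lit 297)) (lo111_8_1 (nat_lit 295)))))))) (B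 (M (nat_lit 269) (B (M (nat_lit 234) (B (lo113_8_3 (nat_lit 233)) (M (nat_lit 270) (B (lo114_8_3 (nat_lit 235)) (M (nat_lit 238) (B (lo111_8_2 (nat_lit 239)) (lo110_8_2 (nat_lit 237)))))))) (B (K _ _ _ o1_s4547) (M (nat_lit 270) (B (M (nat_lit 238) (B (lo111_8_2 (nat_lit 239)) (lo110_8_2 (nat_lit 237)))) (M (nat_lit 271) (B (lo115_8_1 (nat_lit 299)) (M (nat_lit 303) (B (lo112_8_0 (nat_lit 304)) (lo111_8_0 (nat_lit 302))))))))))) (M (nat_lit 269) (B (M (nat_lit 237) (B (lo110_8_2 (nat_lit 238)) (M (nat_lit 301) (B (lo113_6_5 (nat_lit 205)) (lo110_8_0 (nat_lit 302)))))) (B (M (nat_lit 234) (B (lo113_8_3 (nat_lit 233)) (M (nat_lit 270) (B (lo114_8_3 (nat_lit 235)) (M (nat_lit 238) (B (lo111_8_2 (nat_lit 239)) (lo110_8_2 (nat_lit 237)))))))) (M (nat_lit 270) (B (M (nat_lit 302) (B (lo111_8_0 (nat_lit 303)) (lo110_8_0 (nat_lit 301)))) (M (nat_lit 234) (B (lo114_8_3 (nat_lit 235))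 (lo113_8_3 (nat_lit 233)))))))))))))) (B (M (nat_lit 269) (B (M (nat_lit 364) (B (lo112_11_6 (nat_lit 237)) (lo112_11_7 (nat_lit 235)))) (B (M (nat_lit 266) (B (M (nat_lit 301) (B (lo110_8_0 (nat_lit 302)) (lo19_8_0 (nat_lit 265)))) (M (nat_lit 234) (B (lo113_8_3 (nat_lit 233)) (M (nat_lit 270) (B (lo114_8_3 (nat_lit 235)) (M (nat_lit 238) (B (lo111_8_2 (nat_lit 239)) (lo110_8_2 (nat_lit 237)))))))))) (B (M (nat_lit 270) (B (M (nat_lit 235) (B (lo112_11_7 (nat_lit 364)) (lo114_8_3 (nat_lit 234)))) (M (nat_lit 271) (B (M (nat_lit 303) (B (lo112_8_0 (nat_lit 304)) (lo111_8_0 (nat_lit 302)))) (M (nat_lit 239) (B (lo112_8_2 (nat_lit 240)) (lo111_8_2 (nat_lit 238)))))))) (M (nat_lit 237) (B (lo112_11_6 (nat_lit 364)) (M (nat_lit 205) (B (lo113_6_5 (nat_lit 301)) (lo113_5_5 (nat_lit 173)))))))))) (M (nat_lit 269) (B (M (nat_lit 237) (B (lo112_11_6 (nat_lit 364)) (M (nat_lit 205)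 (B (lo113_6_5 (nat_lit 301)) (lo113_5_5 (nat_lit 173)))))) (B (M (nat_lit 270) (B (M (nat_lit 271) (B (lo115_8_1 (nat_lit 299)) (M (nat_lit 303) (B (lo112_8_0 (nat_lit 304)) (lo111_8_0 (nat_lit 302)))))) (B (M (nat_lit 271) (B (lo115_8_1 (nat_lit 299)) (M (nat_lit 239) (B (lo112_8_2 (nat_lit 240)) (lo111_8_2 (nat_lit 238)))))) (M (nat_lit 266) (B (M (nat_lit 302) (B (lo111_8_0 (nat_lit 303)) (lo110_8_0 (nat_lit 301)))) (M (nat_lit 238) (B (lo111_8_2 (nat_lit 239)) (lo110_8_2 (nat_lit 237))))))))) (B (M (nat_lit 237) (B (lo112_11_6 (nat_lit 364)) (M (nat_lit 238) (B (lo110_8_2 (nat_lit 266)) (M (nat_lit 239) (B (lo111_8_2 (nat_lit 270)) (lo116_7_1 (nat_lit 240)))))))) (M (nat_lit 266) (B (M (nat_lit 301) (B (lo110_8_0 (nat_lit 302)) (lo19_8_0 (nat_lit 265)))) (B (M (nat_lit 265) (B (lo19_8_0 (nat_lit 301)) (M (nat_lit 233) (B (lo113_8_3 (nat_lit 234)) (lo112_8_3 (nat_lit 232))))))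 (B (K _ _ _ o1_s4547) (M (nat_lit 270) (B (M (nat_lit 302) (B (lo111_8_0 (nat_lit 303)) (lo110_8_0 (nat_lit 301)))) (M (nat_lit 271) (B (lo115_8_1 (nat_lit 299)) (M (nat_lit 239) (B (lo112_8_2 (nat_lit 240)) (lo111_8_2 (nat_lit 238)))))))))))))))))))) (B (M (nat_lit 364) (B (M (nat_lit 365) (B (lo19_10_0 (nat_lit 331)) (lo112_8_4 (nat_lit 397)))) (M (nat_lit 236) (B (M (nat_lit 235) (B (lo112_10_7 (nat_lit 203)) (lo112_11_7 (nat_lit 267)))) (M (nat_lit 237) (B (lo112_10_6 (nat_lit 205)) (lo112_11_6 (nat_lit 269)))))))) (M (nat_lit 331) (B (lo19_10_2 (nat_lit 301)) (lo112_7_5 (nat_lit 236))))))) (B (M (nat_lit 395) (B (M (nat_lit 364) (B (lo113_11_3 (nat_lit 365)) (lo112_8_5 (nat_lit 268)))) (lo111_14_7 (nat_lit 459)))) (M (nat_lit 395) (B (lo111_13_6 (nat_lit 331)) (lo111_14_7 (nat_lit 459))))))) (B (M (nat_lit 331) (B (M (nat_lit 333) (B (lo114_10_1 (nat_lit 334)) (lo113_10_1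 (nat_lit 361)))) (M (nat_lit 300) (B (lo19_10_2 (nat_lit 301)) (M (nat_lit 268) (B (lo112_7_5 (nat_lit 236)) (M (nat_lit 395) (B (lo111_13_6 (nat_lit 427)) (lo111_12_6 (nat_lit 299)))))))))) (B (M (nat_lit 365) (B (M (nat_lit 461) (B (lo110_13_0 (nat_lit 462)) (lo113_14_7 (nat_lit 364)))) (B (M (nat_lit 333) (B (lo113_13_7 (nat_lit 300)) (M (nat_lit 364) (B (lo110_11_2 (nat_lit 334)) (lo113_14_7 (nat_lit 461)))))) (B (M (nat_lit 333) (B (lo113_13_7 (nat_lit 300)) (M (nat_lit 334) (B (lo113_13_6 (nat_lit 302)) (lo110_11_2 (nat_lit 364)))))) (M (nat_lit 334) (B (M (nat_lit 333) (B (lo113_13_6 (nat_lit 302)) (lo113_13_7 (nat_lit 300)))) (M (nat_lit 461) (B (lo113_14_6 (nat_lit 366)) (lo110_13_0 (nat_lit 462)))))))))) (M (nat_lit 364) (B (lo113_11_3 (nat_lit 365)) (M (nat_lit 333) (B (lo19_11_2 (nat_lit 361)) (M (nat_lit 334) (B (lo114_10_1 (nat_lit 331)) (lo115_10_1 (nat_lit 335))))))))))))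 (B (M (nat_lit 331) (B (M (nat_lit 332) (B (M (nat_lit 333) (B (lo113_10_1 (nat_lit 361)) (M (nat_lit 334) (B (lo114_10_1 (nat_lit 363)) (M (nat_lit 366) (B (lo110_10_0 (nat_lit 365)) (lo111_10_0 (nat_lit 367)))))))) (M (nat_lit 328) (B (M (nat_lit 296) (B (lo111_10_3 (nat_lit 295)) (lo112_10_3 (nat_lit 297)))) (M (nat_lit 300) (B (lo18_10_2 (nat_lit 299)) (lo19_10_2 (nat_lit 301)))))))) (B (M (nat_lit 328) (B (lo17_10_0 (nat_lit 327)) (M (nat_lit 360) (B (lo111_10_1 (nat_lit 359)) (M (nat_lit 392) (B (M (nat_lit 296) (B (lo111_10_3 (nat_lit 295)) (M (nat_lit 297) (B (lo18_13_6 (nat_lit 424)) (lo18_12_6 (nat_lit 265)))))) (B (M (nat_lit 297) (B (lo18_13_6 (nat_lit 424)) (M (nat_lit 361) (B (lo111_11_1 (nat_lit 391)) (lo19_8_5 (nat_lit 265)))))) (M (nat_lit 296) (B (lo111_10_3 (nat_lit 295)) (M (nat_lit 391) (B (lo18_9_5 (nat_lit 423)) (lo111_11_1 (nat_lit 361))))))))))))) (B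 (M (nat_lit 328) (B (M (nat_lit 359) (B (lo111_10_1 (nat_lit 360)) (M (nat_lit 327) (B (lo110_10_1 (nat_lit 358)) (lo17_10_0 (nat_lit 363)))))) (M (nat_lit 296) (B (lo111_10_3 (nat_lit 295)) (M (nat_lit 332) (B (lo112_10_3 (nat_lit 297)) (M (nat_lit 300) (B (lo18_10_2 (nat_lit 299)) (lo19_10_2 (nat_lit 301)))))))))) (M (nat_lit 332) (B (M (nat_lit 361) (B (lo113_10_1 (nat_lit 333)) (lo112_10_1 (nat_lit 360)))) (M (nat_lit 395) (B (lo111_13_6 (nat_lit 300)) (lo111_14_7 (nat_lit 459)))))))))) (B (M (nat_lit 328) (B (lo17_10_0 (nat_lit 327)) (M (nat_lit 331) (B (lo18_10_0 (nat_lit 364)) (M (nat_lit 332) (B (M (nat_lit 300) (B (lo19_10_2 (nat_lit 301)) (lo18_10_2 (nat_lit 299)))) (M (nat_lit 296) (B (lo112_10_3 (nat_lit 297)) (lo111_10_3 (nat_lit 295)))))))))) (M (nat_lit 364) (B (M (nat_lit 328) (B (lo112_11_3 (nat_lit 361)) (lo17_10_0 (nat_lit 327)))) (lo113_11_3 (nat_lit 365))))))))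 (B (M (nat_lit 365) (B (M (nat_lit 333) (B (M (nat_lit 300) (B (M (nat_lit 298) (B (M (nat_lit 301) (B (lo113_12_7 (nat_lit 268)) (M (nat_lit 270) (B (lo113_12_6 (nat_lit 302)) (M (nat_lit 269) (B (lo113_11_6 (nat_lit 238)) (lo110_9_2 (nat_lit 299)))))))) (M (nat_lit 395) (B (lo111_14_7 (nat_lit 459)) (lo110_8_4 (nat_lit 266)))))) (lo113_13_7 (nat_lit 332)))) (B (M (nat_lit 300) (B (M (nat_lit 298) (B (M (nat_lit 301) (B (M (nat_lit 299) (B (lo110_9_0 (nat_lit 334)) (lo113_9_1 (nat_lit 329)))) (lo113_12_7 (nat_lit 268)))) (M (nat_lit 395) (B (lo111_14_7 (nat_lit 459)) (lo110_8_4 (nat_lit 266)))))) (lo113_13_7 (nat_lit 332)))) (M (nat_lit 461) (B (M (nat_lit 334) (B (lo113_14_6 (nat_lit 366)) (lo113_13_6 (nat_lit 302)))) (lo110_13_0 (nat_lit 462))))))) (B (M (nat_lit 333) (B (M (nat_lit 300) (B (lo113_13_7 (nat_lit 332)) (M (nat_lit 301) (B (lo113_12_7 (nat_lit 268)) (M (nat_lit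 302) (B (lo113_12_6 (nat_lit 270)) (lo113_13_6 (nat_lit 334)))))))) (B (M (nat_lit 364) (B (M (nat_lit 332) (B (lo19_11_2 (nat_lit 361)) (lo113_13_7 (nat_lit 300)))) (lo113_11_3 (nat_lit 329)))) (M (nat_lit 364) (B (lo113_11_3 (nat_lit 329)) (lo110_11_2 (nat_lit 334))))))) (B (M (nat_lit 461) (B (lo110_13_0 (nat_lit 462)) (M (nat_lit 333) (B (M (nat_lit 334) (B (lo113_13_6 (nat_lit 302)) (lo113_14_6 (nat_lit 366)))) (M (nat_lit 332) (B (lo113_13_7 (nat_lit 300)) (lo113_14_7 (nat_lit 364)))))))) (B (M (nat_lit 334) (B (M (nat_lit 364) (B (lo110_11_2 (nat_lit 333)) (lo113_11_3 (nat_lit 329)))) (M (nat_lit 461) (B (lo110_13_0 (nat_lit 462)) (lo113_14_6 (nat_lit 366)))))) (M (nat_lit 461) (B (M (nat_lit 364) (B (lo113_14_7 (nat_lit 332)) (lo113_11_3 (nat_lit 329)))) (lo110_13_0 (nat_lit 462))))))))) (B (M (nat_lit 365) (B (M (nat_lit 333) (B (M (nat_lit 332) (B (lo113_13_7 (nat_lit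 300)) (M (nat_lit 331) (B (lo113_10_1 (nat_lit 361)) (M (nat_lit 298) (B (lo113_10_3 (nat_lit 297)) (M (nat_lit 334) (B (lo114_10_3 (nat_lit 299)) (lo113_13_6 (nat_lit 302)))))))))) (B (M (nat_lit 461) (B (M (nat_lit 334) (B (lo113_14_6 (nat_lit 366)) (lo113_13_6 (nat_lit 302)))) (lo110_13_0 (nat_lit 462)))) (M (nat_lit 332) (B (M (nat_lit 331) (B (lo110_10_0 (nat_lit 366)) (lo113_10_1 (nat_lit 361)))) (lo113_13_7 (nat_lit 300))))))) (B (M (nat_lit 364) (B (lo113_11_3 (nat_lit 329)) (M (nat_lit 366) (B (lo114_11_3 (nat_lit 331)) (M (nat_lit 334) (B (lo111_11_2 (nat_lit 335)) (lo110_11_2 (nat_lit 333)))))))) (M (nat_lit 461) (B (M (nat_lit 364) (B (lo113_14_7 (nat_lit 332)) (lo113_11_3 (nat_lit 329)))) (lo110_13_0 (nat_lit 462))))))) (M (nat_lit 395) (B (M (nat_lit 298) (B (lo110_8_4 (nat_lit 266)) (lo111_13_7 (nat_lit 331)))) (lo111_14_7 (nat_lit 459)))))))) (lo110_13_2 (nat_lit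 398)))) (B (M (nat_lit 394) (B (M (nat_lit 331) (B (M (nat_lit 299) (B (lo110_13_6 (nat_lit 426)) (M (nat_lit 267) (B (lo111_8_5 (nat_lit 363)) (lo111_7_5 (nat_lit 235)))))) (B (M (nat_lit 332) (B (M (nat_lit 361) (B (lo113_10_1 (nat_lit 333)) (M (nat_lit 360) (B (lo17_11_2 (nat_lit 359)) (lo112_10_1 (nat_lit 329)))))) (B (M (nat_lit 361) (B (lo113_10_1 (nat_lit 333)) (M (nat_lit 360) (B (lo18_11_2 (nat_lit 363)) (lo112_10_1 (nat_lit 329)))))) (B (M (nat_lit 333) (B (lo113_10_1 (nat_lit 361)) (M (nat_lit 334) (B (lo114_10_1 (nat_lit 363)) (M (nat_lit 366) (B (lo110_10_0 (nat_lit 365)) (lo111_10_0 (nat_lit 367)))))))) (B (M (nat_lit 329) (B (M (nat_lit 300) (B (lo19_10_2 (nat_lit 301)) (M (nat_lit 328) (B (lo18_10_2 (nat_lit 299)) (M (nat_lit 296) (B (lo111_10_3 (nat_lit 295)) (lo112_10_3 (nat_lit 297)))))))) (B (K _ _ _ o1_s4864) (M (nat_lit 328) (B (M (nat_lit 296) (B (lo111_10_3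 (nat_lit 295)) (lo112_10_3 (nat_lit 297)))) (M (nat_lit 327) (B (lo17_10_0 (nat_lit 363)) (M (nat_lit 359) (B (lo110_10_1 (nat_lit 358)) (lo111_10_1 (nat_lit 360))))))))))) (M (nat_lit 329) (B (M (nat_lit 297) (B (lo112_10_3 (nat_lit 296)) (M (nat_lit 361) (B (lo19_8_4 (nat_lit 265)) (lo112_10_1 (nat_lit 360)))))) (B (M (nat_lit 300) (B (lo19_10_2 (nat_lit 301)) (M (nat_lit 328) (B (lo18_10_2 (nat_lit 299)) (M (nat_lit 296) (B (lo111_10_3 (nat_lit 295)) (lo112_10_3 (nat_lit 297)))))))) (M (nat_lit 328) (B (M (nat_lit 360) (B (lo111_10_1 (nat_lit 359)) (lo112_10_1 (nat_lit 361)))) (M (nat_lit 300) (B (lo18_10_2 (nat_lit 299)) (lo19_10_2 (nat_lit 301)))))))))))))) (B (M (nat_lit 329) (B (lo110_13_7 (nat_lit 297)) (B (M (nat_lit 332) (B (M (nat_lit 361) (B (lo112_10_1 (nat_lit 360)) (lo113_10_1 (nat_lit 333)))) (M (nat_lit 300) (B (lo19_10_2 (nat_lit 301)) (M (nat_lit 328) (B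 (lo18_10_2 (nat_lit 299)) (M (nat_lit 296) (B (lo111_10_3 (nat_lit 295)) (lo112_10_3 (nat_lit 297)))))))))) (B (M (nat_lit 328) (B (M (nat_lit 299) (B (lo110_13_6 (nat_lit 426)) (lo18_10_2 (nat_lit 300)))) (M (nat_lit 327) (B (M (nat_lit 359) (B (lo110_10_1 (nat_lit 358)) (lo111_10_1 (nat_lit 360)))) (M (nat_lit 295) (B (lo110_10_3 (nat_lit 294)) (lo111_10_3 (nat_lit 296)))))))) (M (nat_lit 297) (B (lo110_13_7 (nat_lit 426)) (M (nat_lit 265) (B (lo19_8_4 (nat_lit 361)) (lo19_7_4 (nat_lit 233)))))))))) (M (nat_lit 329) (B (M (nat_lit 297) (B (lo110_13_7 (nat_lit 426)) (M (nat_lit 265) (B (lo19_8_4 (nat_lit 361)) (lo19_7_4 (nat_lit 233)))))) (B (M (nat_lit 328) (B (M (nat_lit 327) (B (lo17_10_0 (nat_lit 363)) (M (nat_lit 359) (B (lo110_10_1 (nat_lit 358)) (lo111_10_1 (nat_lit 360)))))) (B (M (nat_lit 327) (B (lo17_10_0 (nat_lit 363)) (M (nat_lit 295) (B (lo110_10_3 (nat_lit 294))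 (lo111_10_3 (nat_lit 296)))))) (M (nat_lit 332) (B (M (nat_lit 360) (B (lo111_10_1 (nat_lit 359)) (lo112_10_1 (nat_lit 361)))) (M (nat_lit 296) (B (lo111_10_3 (nat_lit 295)) (lo112_10_3 (nat_lit 297))))))))) (B (M (nat_lit 297) (B (lo110_13_7 (nat_lit 426)) (M (nat_lit 296) (B (lo112_10_3 (nat_lit 332)) (M (nat_lit 295) (B (lo111_10_3 (nat_lit 328)) (lo16_9_0 (nat_lit 294)))))))) (M (nat_lit 332) (B (M (nat_lit 361) (B (lo112_10_1 (nat_lit 360)) (lo113_10_1 (nat_lit 333)))) (B (M (nat_lit 333) (B (lo113_10_1 (nat_lit 361)) (M (nat_lit 301) (B (lo19_10_2 (nat_lit 300)) (lo110_10_2 (nat_lit 302)))))) (B (K _ _ _ o1_s4864) (M (nat_lit 328) (B (M (nat_lit 360) (B (lo111_10_1 (nat_lit 359)) (lo112_10_1 (nat_lit 361)))) (M (nat_lit 327) (B (lo17_10_0 (nat_lit 363)) (M (nat_lit 295) (B (lo110_10_3 (nat_lit 294)) (lo111_10_3 (nat_lit 296)))))))))))))))))))) (lo110_10_4 (nat_lit 459))))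 (B (M (nat_lit 394) (B (M (nat_lit 329) (B (lo110_13_7 (nat_lit 297)) (M (nat_lit 331) (B (lo110_13_6 (nat_lit 299)) (M (nat_lit 328) (B (M (nat_lit 363) (B (lo17_10_0 (nat_lit 327)) (lo18_10_0 (nat_lit 364)))) (B (M (nat_lit 332) (B (M (nat_lit 360) (B (lo111_10_1 (nat_lit 359)) (lo112_10_1 (nat_lit 361)))) (M (nat_lit 364) (B (lo18_10_0 (nat_lit 363)) (lo19_10_0 (nat_lit 365)))))) (M (nat_lit 327) (B (M (nat_lit 295) (B (lo110_10_3 (nat_lit 294)) (lo111_10_3 (nat_lit 296)))) (M (nat_lit 359) (B (lo110_10_1 (nat_lit 358)) (lo111_10_1 (nat_lit 360))))))))))))) (B (M (nat_lit 298) (B (M (nat_lit 297) (B (lo110_12_7 (nat_lit 265)) (lo110_13_7 (nat_lit 329)))) (B (M (nat_lit 266) (B (M (nat_lit 395) (B (lo110_8_4 (nat_lit 363)) (lo110_9_4 (nat_lit 427)))) (M (nat_lit 234) (B (M (nat_lit 235) (B (lo110_10_6 (nat_lit 203)) (lo110_11_6 (nat_lit 267)))) (M (nat_lit 329) (B (lo110_7_5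 (nat_lit 361)) (lo110_13_7 (nat_lit 297)))))))) (M (nat_lit 266) (B (M (nat_lit 395) (B (lo110_8_4 (nat_lit 363)) (lo110_9_4 (nat_lit 427)))) (M (nat_lit 234) (B (M (nat_lit 233) (B (lo110_10_7 (nat_lit 201)) (lo110_11_7 (nat_lit 265)))) (M (nat_lit 235) (B (lo110_10_6 (nat_lit 203)) (lo110_11_6 (nat_lit 267))))))))))) (M (nat_lit 298) (B (M (nat_lit 299) (B (lo110_12_6 (nat_lit 267)) (lo110_13_6 (nat_lit 331)))) (lo110_9_4 (nat_lit 395))))))) (B (M (nat_lit 394) (B (lo110_10_4 (nat_lit 459)) (M (nat_lit 298) (B (lo110_9_4 (nat_lit 395)) (M (nat_lit 297) (B (lo110_12_7 (nat_lit 265)) (lo110_13_7 (nat_lit 329)))))))) (M (nat_lit 394) (B (lo110_10_4 (nat_lit 459)) (M (nat_lit 298) (B (lo110_9_4 (nat_lit 395)) (M (nat_lit 299) (B (lo110_13_6 (nat_lit 331)) (lo110_12_6 (nat_lit 267))))))))))))) (B (M (nat_lit 461) (B (M (nat_lit 393) (B (M (nat_lit 425) (B (M (nat_lit 329) (B (M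 (nat_lit 328) (B (M (nat_lit 327) (B (M (nat_lit 294) (B (lo110_10_3 (nat_lit 295)) (M (nat_lit 326) (B (lo19_10_3 (nat_lit 293)) (M (nat_lit 358) (B (lo19_10_1 (nat_lit 357)) (lo110_10_1 (nat_lit 359)))))))) (B (M (nat_lit 326) (B (M (nat_lit 294) (B (lo19_10_3 (nat_lit 293)) (lo110_10_3 (nat_lit 295)))) (M (nat_lit 298) (B (lo16_10_2 (nat_lit 297)) (lo17_10_2 (nat_lit 299)))))) (B (M (nat_lit 295) (B (lo110_10_3 (nat_lit 294)) (M (nat_lit 263) (B (M (nat_lit 231) (B (lo17_7_4 (nat_lit 360)) (M (nat_lit 199) (B (lo17_6_4 (nat_lit 296)) (M (nat_lit 198) (B (lo17_10_7 (nat_lit 230)) (lo17_9_7 (nat_lit 166)))))))) (B (M (nat_lit 231) (B (M (nat_lit 359) (B (lo110_10_1 (nat_lit 358)) (M (nat_lit 230) (B (lo17_11_7 (nat_lit 262)) (lo17_10_7 (nat_lit 198)))))) (B (M (nat_lit 199) (B (lo17_6_4 (nat_lit 296)) (M (nat_lit 198) (B (lo17_10_7 (nat_lit 230)) (lo17_9_7 (nat_lit 166))))))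 (M (nat_lit 359) (B (lo110_10_1 (nat_lit 358)) (M (nat_lit 232) (B (lo17_11_6 (nat_lit 264)) (lo17_10_6 (nat_lit 200))))))))) (B (M (nat_lit 231) (B (lo17_7_4 (nat_lit 360)) (M (nat_lit 359) (B (lo110_10_1 (nat_lit 358)) (M (nat_lit 232) (B (lo17_11_6 (nat_lit 264)) (lo17_10_6 (nat_lit 200)))))))) (M (nat_lit 359) (B (lo110_10_1 (nat_lit 358)) (M (nat_lit 296) (B (M (nat_lit 264) (B (lo17_12_6 (nat_lit 391)) (lo18_7_5 (nat_lit 232)))) (M (nat_lit 298) (B (lo17_10_2 (nat_lit 299)) (M (nat_lit 262) (B (lo17_11_7 (nat_lit 230)) (lo110_9_3 (nat_lit 297)))))))))))))))) (M (nat_lit 326) (B (M (nat_lit 358) (B (lo19_10_1 (nat_lit 357)) (lo110_10_1 (nat_lit 359)))) (M (nat_lit 298) (B (lo16_10_2 (nat_lit 297)) (lo17_10_2 (nat_lit 299)))))))))) (B (M (nat_lit 331) (B (M (nat_lit 299) (B (lo18_10_2 (nat_lit 300)) (M (nat_lit 363) (B (lo18_10_0 (nat_lit 364)) (M (nat_lit 267) (B (M (nat_lit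 234) (B (lo111_11_7 (nat_lit 266)) (M (nat_lit 235) (B (lo111_10_7 (nat_lit 202)) (M (nat_lit 236) (B (lo111_10_6 (nat_lit 204)) (lo111_11_6 (nat_lit 268)))))))) (B (M (nat_lit 298) (B (M (nat_lit 266) (B (lo111_11_7 (nat_lit 234)) (lo111_12_7 (nat_lit 395)))) (B (M (nat_lit 395) (B (lo111_12_7 (nat_lit 266)) (lo111_13_7 (nat_lit 427)))) (M (nat_lit 296) (B (lo111_10_3 (nat_lit 295)) (M (nat_lit 268) (B (lo111_11_6 (nat_lit 236)) (lo18_9_2 (nat_lit 297))))))))) (B (M (nat_lit 235) (B (M (nat_lit 234) (B (lo111_10_7 (nat_lit 202)) (lo111_11_7 (nat_lit 266)))) (B (M (nat_lit 298) (B (lo111_6_5 (nat_lit 203)) (M (nat_lit 266) (B (lo111_11_7 (nat_lit 234)) (lo111_12_7 (nat_lit 395)))))) (B (M (nat_lit 298) (B (lo111_6_5 (nat_lit 203)) (M (nat_lit 395) (B (lo111_12_7 (nat_lit 266)) (lo111_13_7 (nat_lit 427)))))) (M (nat_lit 203) (B (lo111_6_5 (nat_lit 298)) (M (nat_lit 202) (B (lo111_9_7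 (nat_lit 170)) (lo111_10_7 (nat_lit 234)))))))))) (B (M (nat_lit 298) (B (M (nat_lit 395) (B (lo111_12_7 (nat_lit 266)) (lo111_13_7 (nat_lit 427)))) (M (nat_lit 296) (B (lo111_10_3 (nat_lit 295)) (M (nat_lit 268) (B (lo111_11_6 (nat_lit 236)) (lo18_9_2 (nat_lit 297)))))))) (M (nat_lit 235) (B (M (nat_lit 236) (B (lo111_10_6 (nat_lit 204)) (lo111_11_6 (nat_lit 268)))) (M (nat_lit 203) (B (lo111_6_5 (nat_lit 298)) (M (nat_lit 202) (B (lo111_9_7 (nat_lit 170)) (lo111_10_7 (nat_lit 234))))))))))))))))) (B (M (nat_lit 332) (B (M (nat_lit 364) (B (lo18_10_0 (nat_lit 363)) (lo19_10_0 (nat_lit 365)))) (M (nat_lit 300) (B (lo18_10_2 (nat_lit 299)) (lo19_10_2 (nat_lit 301)))))) (B (M (nat_lit 332) (B (M (nat_lit 296) (B (lo111_10_3 (nat_lit 295)) (lo112_10_3 (nat_lit 297)))) (M (nat_lit 300) (B (lo18_10_2 (nat_lit 299)) (lo19_10_2 (nat_lit 301)))))) (M (nat_lit 332) (B (M (nat_lit 364)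 (B (lo19_10_0 (nat_lit 365)) (lo18_10_0 (nat_lit 363)))) (M (nat_lit 296) (B (lo112_10_3 (nat_lit 297)) (lo111_10_3 (nat_lit 295)))))))))) (B (M (nat_lit 331) (B (M (nat_lit 363) (B (lo18_10_0 (nat_lit 364)) (M (nat_lit 327) (B (M (nat_lit 359) (B (lo111_10_1 (nat_lit 360)) (lo110_10_1 (nat_lit 358)))) (M (nat_lit 326) (B (M (nat_lit 298) (B (lo111_13_7 (nat_lit 395)) (lo16_10_2 (nat_lit 297)))) (M (nat_lit 294) (B (lo110_10_3 (nat_lit 295)) (lo19_10_3 (nat_lit 293)))))))))) (B (M (nat_lit 332) (B (M (nat_lit 364) (B (lo18_10_0 (nat_lit 363)) (lo19_10_0 (nat_lit 365)))) (M (nat_lit 333) (B (M (nat_lit 297) (B (lo112_10_3 (nat_lit 296)) (lo113_10_3 (nat_lit 298)))) (M (nat_lit 301) (B (lo19_10_2 (nat_lit 300)) (lo110_10_2 (nat_lit 302)))))))) (M (nat_lit 295) (B (lo111_10_3 (nat_lit 296)) (M (nat_lit 327) (B (lo110_10_3 (nat_lit 294)) (M (nat_lit 359) (B (lo110_10_1 (nat_lit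 358)) (lo111_10_1 (nat_lit 360))))))))))) (B (M (nat_lit 331) (B (M (nat_lit 332) (B (M (nat_lit 364) (B (lo19_10_0 (nat_lit 365)) (lo18_10_0 (nat_lit 363)))) (M (nat_lit 300) (B (lo19_10_2 (nat_lit 301)) (lo18_10_2 (nat_lit 299)))))) (B (M (nat_lit 327) (B (M (nat_lit 299) (B (lo18_10_2 (nat_lit 300)) (lo17_10_2 (nat_lit 298)))) (M (nat_lit 359) (B (lo111_10_1 (nat_lit 360)) (lo110_10_1 (nat_lit 358)))))) (B (M (nat_lit 298) (B (M (nat_lit 359) (B (lo111_10_1 (nat_lit 360)) (M (nat_lit 327) (B (lo17_10_2 (nat_lit 299)) (lo110_10_1 (nat_lit 358)))))) (M (nat_lit 332) (B (M (nat_lit 364) (B (lo19_10_0 (nat_lit 365)) (lo18_10_0 (nat_lit 363)))) (M (nat_lit 297) (B (lo113_10_3 (nat_lit 333)) (lo112_10_3 (nat_lit 296)))))))) (M (nat_lit 332) (B (M (nat_lit 364) (B (lo19_10_0 (nat_lit 365)) (lo18_10_0 (nat_lit 363)))) (M (nat_lit 333) (B (M (nat_lit 301) (B (lo110_10_2 (nat_lit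 302)) (lo19_10_2 (nat_lit 300)))) (M (nat_lit 297) (B (lo113_10_3 (nat_lit 298)) (lo112_10_3 (nat_lit 296)))))))))))) (B (M (nat_lit 331) (B (M (nat_lit 295) (B (lo111_10_3 (nat_lit 296)) (M (nat_lit 327) (B (lo110_10_3 (nat_lit 294)) (M (nat_lit 359) (B (lo110_10_1 (nat_lit 358)) (lo111_10_1 (nat_lit 360)))))))) (M (nat_lit 300) (B (lo18_10_2 (nat_lit 299)) (M (nat_lit 332) (B (lo19_10_2 (nat_lit 301)) (M (nat_lit 364) (B (lo18_10_0 (nat_lit 363)) (lo19_10_0 (nat_lit 365)))))))))) (M (nat_lit 327) (B (M (nat_lit 358) (B (lo110_10_1 (nat_lit 359)) (M (nat_lit 326) (B (lo19_10_1 (nat_lit 357)) (M (nat_lit 294) (B (lo110_10_3 (nat_lit 295)) (lo19_10_3 (nat_lit 293)))))))) (B (M (nat_lit 326) (B (M (nat_lit 298) (B (lo17_10_2 (nat_lit 299)) (lo16_10_2 (nat_lit 297)))) (M (nat_lit 294) (B (lo110_10_3 (nat_lit 295)) (lo19_10_3 (nat_lit 293)))))) (B (M (nat_lit 326) (B (M (nat_lit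 298) (B (lo17_10_2 (nat_lit 299)) (lo16_10_2 (nat_lit 297)))) (M (nat_lit 358) (B (lo110_10_1 (nat_lit 359)) (lo19_10_1 (nat_lit 357)))))) (M (nat_lit 331) (B (M (nat_lit 299) (B (lo18_10_2 (nat_lit 300)) (lo17_10_2 (nat_lit 298)))) (M (nat_lit 359) (B (lo111_10_1 (nat_lit 360)) (lo110_10_1 (nat_lit 358)))))))))))))))) (M (nat_lit 456) (B (M (nat_lit 424) (B (lo19_10_5 (nat_lit 361)) (lo111_13_1 (nat_lit 455)))) (lo112_13_1 (nat_lit 457)))))) (lo112_13_3 (nat_lit 392)))) (lo113_13_3 (nat_lit 394)))) (lo110_13_0 (nat_lit 462)))) (B (M (nat_lit 394) (B (M (nat_lit 362) (B (lo110_10_4 (nat_lit 459)) (M (nat_lit 331) (B (lo110_13_6 (nat_lit 299)) (M (nat_lit 329) (B (lo110_13_7 (nat_lit 297)) (M (nat_lit 363) (B (M (nat_lit 364) (B (lo113_11_3 (nat_lit 365)) (lo18_10_0 (nat_lit 328)))) (M (nat_lit 332) (B (M (nat_lit 361) (B (lo18_11_2 (nat_lit 360)) (lo113_10_1 (nat_lit 333))))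 (M (nat_lit 300) (B (lo111_13_6 (nat_lit 395)) (lo19_10_2 (nat_lit 301)))))))))))))) (lo113_13_3 (nat_lit 393)))) (B (M (nat_lit 394) (B (M (nat_lit 362) (B (lo110_10_4 (nat_lit 459)) (M (nat_lit 298) (B (M (nat_lit 299) (B (lo110_12_6 (nat_lit 267)) (lo110_13_6 (nat_lit 331)))) (M (nat_lit 297) (B (lo110_12_7 (nat_lit 265)) (lo110_13_7 (nat_lit 329)))))))) (lo113_13_3 (nat_lit 393)))) (B (M (nat_lit 394) (B (M (nat_lit 362) (B (lo110_10_4 (nat_lit 459)) (M (nat_lit 298) (B (lo110_9_4 (nat_lit 395)) (M (nat_lit 297) (B (lo110_12_7 (nat_lit 265)) (lo110_13_7 (nat_lit 329)))))))) (lo113_13_3 (nat_lit 393)))) (M (nat_lit 394) (B (M (nat_lit 362) (B (lo110_10_4 (nat_lit 459)) (M (nat_lit 298) (B (lo110_9_4 (nat_lit 395)) (M (nat_lit 299) (B (lo110_12_6 (nat_lit 267)) (lo110_13_6 (nat_lit 331)))))))) (lo113_13_3 (nat_lit 393))))))))))) (B (M (nat_lit 461) (B (M (nat_lit 522) (B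 (M (nat_lit 524) (B (K _ _ _ o1_s7957) (B (M (nat_lit 523) (B (M (nat_lit 491) (B (M (nat_lit 525) (B (M (nat_lit 554) (B (lo113_16_1 (nat_lit 553)) (M (nat_lit 586) (B (lo110_19_6 (nat_lit 618)) (M (nat_lit 587) (B (M (nat_lit 490) (B (lo110_15_4 (nat_lit 619)) (lo113_16_3 (nat_lit 489)))) (B (M (nat_lit 557) (B (lo110_16_0 (nat_lit 558)) (M (nat_lit 585) (B (M (nat_lit 490) (B (lo110_15_5 (nat_lit 617)) (lo113_16_3 (nat_lit 489)))) (M (nat_lit 556) (B (lo19_18_2 (nat_lit 588)) (lo113_17_1 (nat_lit 555)))))))) (M (nat_lit 556) (B (M (nat_lit 557) (B (lo110_16_0 (nat_lit 558)) (M (nat_lit 588) (B (lo112_19_7 (nat_lit 620)) (lo19_18_2 (nat_lit 585)))))) (B (M (nat_lit 557) (B (lo110_16_0 (nat_lit 558)) (M (nat_lit 585) (B (lo19_18_2 (nat_lit 588)) (lo113_17_1 (nat_lit 555)))))) (B (M (nat_lit 555) (B (M (nat_lit 619) (B (lo111_20_6 (nat_lit 651)) (lo111_19_6 (nat_lit 492))))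 (M (nat_lit 557) (B (lo114_17_1 (nat_lit 558)) (lo113_17_1 (nat_lit 585)))))) (M (nat_lit 619) (B (M (nat_lit 651) (B (lo111_21_7 (nat_lit 683)) (lo111_20_6 (nat_lit 555)))) (B (M (nat_lit 555) (B (lo111_20_6 (nat_lit 651)) (lo111_19_6 (nat_lit 492)))) (B (M (nat_lit 492) (B (lo112_15_5 (nat_lit 588)) (lo111_19_6 (nat_lit 555)))) (M (nat_lit 588) (B (lo112_19_7 (nat_lit 620)) (lo112_15_5 (nat_lit 492))))))))))))))))))) (B (M (nat_lit 526) (B (M (nat_lit 558) (B (lo110_16_0 (nat_lit 557)) (lo111_16_0 (nat_lit 559)))) (M (nat_lit 495) (B (lo111_16_2 (nat_lit 494)) (M (nat_lit 527) (B (lo115_16_3 (nat_lit 492)) (lo112_16_2 (nat_lit 496)))))))) (M (nat_lit 490) (B (lo113_16_3 (nat_lit 489)) (lo114_16_3 (nat_lit 526))))))) (B (M (nat_lit 525) (B (M (nat_lit 554) (B (lo113_16_1 (nat_lit 553)) (lo111_13_5 (nat_lit 459)))) (M (nat_lit 490) (B (lo113_16_3 (nat_lit 489)) (lo114_16_3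 (nat_lit 526)))))) (B (M (nat_lit 459) (B (M (nat_lit 395) (B (lo111_12_4 (nat_lit 492)) (lo111_12_5 (nat_lit 490)))) (lo111_13_4 (nat_lit 556)))) (M (nat_lit 459) (B (lo111_13_4 (nat_lit 556)) (lo111_13_5 (nat_lit 554)))))))) (B (M (nat_lit 491) (B (M (nat_lit 554) (B (M (nat_lit 459) (B (lo111_13_5 (nat_lit 427)) (M (nat_lit 586) (B (lo110_19_6 (nat_lit 618)) (lo110_18_6 (nat_lit 490)))))) (M (nat_lit 553) (B (lo113_16_1 (nat_lit 525)) (M (nat_lit 552) (B (lo17_17_2 (nat_lit 551)) (lo112_16_1 (nat_lit 521)))))))) (B (M (nat_lit 556) (B (M (nat_lit 557) (B (lo19_16_0 (nat_lit 521)) (M (nat_lit 558) (B (lo110_16_0 (nat_lit 525)) (lo115_17_3 (nat_lit 559)))))) (M (nat_lit 459) (B (lo111_13_4 (nat_lit 427)) (M (nat_lit 588) (B (lo112_19_7 (nat_lit 620)) (lo112_18_7 (nat_lit 492)))))))) (B (M (nat_lit 525) (B (M (nat_lit 526) (B (lo114_16_3 (nat_lit 490)) (M (nat_lit 558) (B (lo110_16_0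 (nat_lit 557)) (lo111_16_0 (nat_lit 559)))))) (B (M (nat_lit 526) (B (M (nat_lit 558) (B (lo110_16_0 (nat_lit 557)) (lo111_16_0 (nat_lit 559)))) (M (nat_lit 527) (B (lo115_16_3 (nat_lit 492)) (M (nat_lit 495) (B (lo111_16_2 (nat_lit 494)) (lo112_16_2 (nat_lit 496)))))))) (B (M (nat_lit 526) (B (lo114_16_3 (nat_lit 490)) (M (nat_lit 527) (B (lo115_16_3 (nat_lit 492)) (M (nat_lit 495) (B (lo111_16_2 (nat_lit 494)) (lo112_16_2 (nat_lit 496)))))))) (M (nat_lit 554) (B (lo113_16_1 (nat_lit 553)) (M (nat_lit 586) (B (lo110_19_6 (nat_lit 618)) (M (nat_lit 459) (B (lo110_18_6 (nat_lit 490)) (lo111_13_5 (nat_lit 427)))))))))))) (B (M (nat_lit 525) (B (M (nat_lit 526) (B (lo114_16_3 (nat_lit 490)) (M (nat_lit 527) (B (lo115_16_3 (nat_lit 492)) (M (nat_lit 495) (B (lo111_16_2 (nat_lit 494)) (lo112_16_2 (nat_lit 496)))))))) (M (nat_lit 521) (B (M (nat_lit 553) (B (lo112_16_1 (nat_lit 552))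 (lo113_16_1 (nat_lit 554)))) (M (nat_lit 557) (B (lo19_16_0 (nat_lit 556)) (lo110_16_0 (nat_lit 558)))))))) (M (nat_lit 521) (B (M (nat_lit 520) (B (lo18_16_2 (nat_lit 492)) (M (nat_lit 552) (B (lo111_16_1 (nat_lit 551)) (lo112_16_1 (nat_lit 553)))))) (B (M (nat_lit 520) (B (lo18_16_2 (nat_lit 492)) (M (nat_lit 519) (B (lo17_16_2 (nat_lit 490)) (M (nat_lit 487) (B (lo110_16_3 (nat_lit 486)) (lo111_16_3 (nat_lit 488)))))))) (B (M (nat_lit 556) (B (lo19_16_0 (nat_lit 557)) (M (nat_lit 459) (B (lo111_13_4 (nat_lit 427)) (M (nat_lit 588) (B (lo112_19_7 (nat_lit 620)) (lo112_18_7 (nat_lit 492)))))))) (M (nat_lit 520) (B (M (nat_lit 552) (B (lo111_16_1 (nat_lit 551)) (lo112_16_1 (nat_lit 553)))) (M (nat_lit 519) (B (lo17_16_2 (nat_lit 490)) (M (nat_lit 487) (B (lo110_16_3 (nat_lit 486)) (lo111_16_3 (nat_lit 488))))))))))))))))) (B (K _ _ _ o1_s8121) (B (M (nat_lit 521) (B (M (nat_lit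 520) (B (M (nat_lit 488) (B (lo111_16_3 (nat_lit 487)) (lo112_16_3 (nat_lit 489)))) (M (nat_lit 556) (B (lo18_16_0 (nat_lit 555)) (lo19_16_0 (nat_lit 557)))))) (B (M (nat_lit 525) (B (M (nat_lit 489) (B (lo112_16_3 (nat_lit 488)) (lo113_16_3 (nat_lit 490)))) (M (nat_lit 557) (B (lo19_16_0 (nat_lit 556)) (lo110_16_0 (nat_lit 558)))))) (B (M (nat_lit 520) (B (M (nat_lit 556) (B (lo18_16_0 (nat_lit 555)) (lo19_16_0 (nat_lit 557)))) (M (nat_lit 519) (B (M (nat_lit 491) (B (lo17_16_2 (nat_lit 490)) (lo18_16_2 (nat_lit 492)))) (M (nat_lit 551) (B (lo110_16_1 (nat_lit 550)) (lo111_16_1 (nat_lit 552)))))))) (M (nat_lit 520) (B (M (nat_lit 488) (B (lo111_16_3 (nat_lit 487)) (lo112_16_3 (nat_lit 489)))) (M (nat_lit 519) (B (M (nat_lit 491) (B (lo17_16_2 (nat_lit 490)) (lo18_16_2 (nat_lit 492)))) (M (nat_lit 551) (B (lo110_16_1 (nat_lit 550)) (lo111_16_1 (nat_lit 552)))))))))))) (B (K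 _ _ _ o1_s8181) (M (nat_lit 521) (B (M (nat_lit 520) (B (M (nat_lit 556) (B (lo19_16_0 (nat_lit 557)) (lo18_16_0 (nat_lit 555)))) (M (nat_lit 488) (B (lo112_16_3 (nat_lit 489)) (lo111_16_3 (nat_lit 487)))))) (B (M (nat_lit 552) (B (lo112_16_1 (nat_lit 553)) (M (nat_lit 520) (B (lo111_16_1 (nat_lit 551)) (M (nat_lit 488) (B (lo112_16_3 (nat_lit 489)) (lo111_16_3 (nat_lit 487)))))))) (B (M (nat_lit 520) (B (M (nat_lit 556) (B (lo19_16_0 (nat_lit 557)) (lo18_16_0 (nat_lit 555)))) (M (nat_lit 552) (B (lo112_16_1 (nat_lit 553)) (lo111_16_1 (nat_lit 551)))))) (M (nat_lit 525) (B (M (nat_lit 557) (B (lo110_16_0 (nat_lit 558)) (lo19_16_0 (nat_lit 556)))) (M (nat_lit 553) (B (lo113_16_1 (nat_lit 554)) (lo112_16_1 (nat_lit 552)))))))))))))))) (B (M (nat_lit 523) (B (K _ _ _ o1_s8121) (B (K _ _ _ o1_s8181) (B (M (nat_lit 525) (B (M (nat_lit 491) (B (M (nat_lit 490) (B (lo113_16_3 (nat_lit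 489)) (lo114_16_3 (nat_lit 526)))) (M (nat_lit 554) (B (lo111_13_5 (nat_lit 459)) (lo113_16_1 (nat_lit 553)))))) (M (nat_lit 557) (B (lo110_16_0 (nat_lit 558)) (M (nat_lit 493) (B (lo110_16_2 (nat_lit 494)) (M (nat_lit 556) (B (lo113_13_5 (nat_lit 429)) (lo113_14_5 (nat_lit 588)))))))))) (B (M (nat_lit 525) (B (M (nat_lit 558) (B (lo110_16_0 (nat_lit 557)) (M (nat_lit 526) (B (lo111_16_0 (nat_lit 559)) (M (nat_lit 494) (B (lo110_16_2 (nat_lit 493)) (lo111_16_2 (nat_lit 495)))))))) (B (M (nat_lit 526) (B (M (nat_lit 490) (B (lo113_16_3 (nat_lit 489)) (lo114_16_3 (nat_lit 491)))) (M (nat_lit 494) (B (lo110_16_2 (nat_lit 493)) (lo111_16_2 (nat_lit 495)))))) (B (M (nat_lit 526) (B (M (nat_lit 490) (B (lo113_16_3 (nat_lit 489)) (lo114_16_3 (nat_lit 491)))) (M (nat_lit 558) (B (lo110_16_0 (nat_lit 557)) (lo111_16_0 (nat_lit 559)))))) (M (nat_lit 521) (B (M (nat_lit 489) (B (lo112_16_3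 (nat_lit 488)) (lo113_16_3 (nat_lit 490)))) (M (nat_lit 557) (B (lo19_16_0 (nat_lit 556)) (lo110_16_0 (nat_lit 558)))))))))) (M (nat_lit 525) (B (M (nat_lit 493) (B (lo113_13_5 (nat_lit 556)) (lo110_16_2 (nat_lit 494)))) (B (M (nat_lit 558) (B (lo110_16_0 (nat_lit 557)) (M (nat_lit 526) (B (lo111_16_0 (nat_lit 559)) (lo113_13_4 (nat_lit 493)))))) (M (nat_lit 521) (B (M (nat_lit 553) (B (lo112_16_1 (nat_lit 552)) (lo113_16_1 (nat_lit 554)))) (M (nat_lit 557) (B (lo19_16_0 (nat_lit 556)) (lo110_16_0 (nat_lit 558)))))))))))))) (B (M (nat_lit 523) (B (K _ _ _ o1_s8121) (B (M (nat_lit 521) (B (M (nat_lit 552) (B (lo112_16_1 (nat_lit 553)) (M (nat_lit 520) (B (lo111_16_1 (nat_lit 551)) (M (nat_lit 488) (B (lo112_16_3 (nat_lit 489)) (lo111_16_3 (nat_lit 487)))))))) (B (M (nat_lit 520) (B (M (nat_lit 492) (B (lo19_16_2 (nat_lit 493)) (lo18_16_2 (nat_lit 491)))) (M (nat_lit 488) (B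 (lo112_16_3 (nat_lit 489)) (lo111_16_3 (nat_lit 487)))))) (B (M (nat_lit 520) (B (M (nat_lit 492) (B (lo19_16_2 (nat_lit 493)) (lo18_16_2 (nat_lit 491)))) (M (nat_lit 552) (B (lo112_16_1 (nat_lit 553)) (lo111_16_1 (nat_lit 551)))))) (M (nat_lit 525) (B (M (nat_lit 493) (B (lo110_16_2 (nat_lit 494)) (lo19_16_2 (nat_lit 492)))) (M (nat_lit 553) (B (lo113_16_1 (nat_lit 554)) (lo112_16_1 (nat_lit 552)))))))))) (M (nat_lit 493) (B (M (nat_lit 397) (B (lo113_12_5 (nat_lit 492)) (lo110_13_2 (nat_lit 398)))) (M (nat_lit 525) (B (lo113_13_5 (nat_lit 556)) (lo110_16_2 (nat_lit 494))))))))) (B (M (nat_lit 525) (B (M (nat_lit 523) (B (K _ _ _ o1_s8292) (B (M (nat_lit 526) (B (M (nat_lit 558) (B (lo111_16_0 (nat_lit 559)) (lo110_16_0 (nat_lit 557)))) (M (nat_lit 490) (B (lo114_16_3 (nat_lit 491)) (lo113_16_3 (nat_lit 489)))))) (M (nat_lit 526) (B (M (nat_lit 554) (B (lo113_16_1 (nat_lit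 553)) (lo114_16_1 (nat_lit 555)))) (M (nat_lit 558) (B (lo110_16_0 (nat_lit 557)) (lo111_16_0 (nat_lit 559))))))))) (B (M (nat_lit 523) (B (K _ _ _ o1_s8292) (M (nat_lit 397) (B (M (nat_lit 493) (B (lo113_12_5 (nat_lit 492)) (lo110_16_2 (nat_lit 494)))) (lo110_13_2 (nat_lit 398)))))) (M (nat_lit 397) (B (M (nat_lit 493) (B (M (nat_lit 526) (B (lo113_12_4 (nat_lit 494)) (lo113_13_4 (nat_lit 558)))) (lo113_12_5 (nat_lit 492)))) (lo110_13_2 (nat_lit 398))))))) (M (nat_lit 397) (B (M (nat_lit 493) (B (lo113_12_5 (nat_lit 492)) (M (nat_lit 525) (B (lo113_13_5 (nat_lit 556)) (M (nat_lit 526) (B (lo113_13_4 (nat_lit 558)) (lo113_12_4 (nat_lit 494)))))))) (lo110_13_2 (nat_lit 398)))))))))) (B (M (nat_lit 457) (B (M (nat_lit 425) (B (M (nat_lit 521) (B (M (nat_lit 520) (B (M (nat_lit 519) (B (M (nat_lit 550) (B (lo110_16_1 (nat_lit 551)) (M (nat_lit 518) (B (lo19_16_1 (nat_lit 549))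 (M (nat_lit 486) (B (lo19_16_3 (nat_lit 485)) (lo110_16_3 (nat_lit 487)))))))) (B (M (nat_lit 518) (B (M (nat_lit 550) (B (lo19_16_1 (nat_lit 549)) (lo110_16_1 (nat_lit 551)))) (M (nat_lit 554) (B (lo16_16_0 (nat_lit 553)) (lo17_16_0 (nat_lit 555)))))) (B (M (nat_lit 551) (B (lo110_16_1 (nat_lit 550)) (M (nat_lit 583) (B (M (nat_lit 615) (B (lo17_19_6 (nat_lit 488)) (M (nat_lit 647) (B (lo17_20_6 (nat_lit 552)) (M (nat_lit 646) (B (lo17_16_5 (nat_lit 614)) (lo17_17_5 (nat_lit 678)))))))) (B (M (nat_lit 615) (B (M (nat_lit 487) (B (lo110_16_3 (nat_lit 486)) (M (nat_lit 614) (B (lo17_15_5 (nat_lit 582)) (lo17_16_5 (nat_lit 646)))))) (B (M (nat_lit 647) (B (lo17_20_6 (nat_lit 552)) (M (nat_lit 646) (B (lo17_16_5 (nat_lit 614)) (lo17_17_5 (nat_lit 678)))))) (M (nat_lit 487) (B (lo110_16_3 (nat_lit 486)) (M (nat_lit 616) (B (lo17_15_4 (nat_lit 584)) (lo17_16_4 (nat_lit 648)))))))))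 (B (M (nat_lit 615) (B (lo17_19_6 (nat_lit 488)) (M (nat_lit 487) (B (lo110_16_3 (nat_lit 486)) (M (nat_lit 616) (B (lo17_15_4 (nat_lit 584)) (lo17_16_4 (nat_lit 648)))))))) (M (nat_lit 487) (B (lo110_16_3 (nat_lit 486)) (M (nat_lit 552) (B (M (nat_lit 584) (B (lo17_14_4 (nat_lit 455)) (lo18_19_7 (nat_lit 616)))) (M (nat_lit 554) (B (lo17_16_0 (nat_lit 555)) (M (nat_lit 582) (B (lo17_15_5 (nat_lit 614)) (lo110_17_1 (nat_lit 553)))))))))))))))) (M (nat_lit 518) (B (M (nat_lit 486) (B (lo19_16_3 (nat_lit 485)) (lo110_16_3 (nat_lit 487)))) (M (nat_lit 554) (B (lo16_16_0 (nat_lit 553)) (lo17_16_0 (nat_lit 555)))))))))) (B (M (nat_lit 523) (B (M (nat_lit 555) (B (lo18_16_0 (nat_lit 556)) (M (nat_lit 491) (B (lo18_16_2 (nat_lit 492)) (M (nat_lit 587) (B (M (nat_lit 618) (B (lo111_15_5 (nat_lit 586)) (M (nat_lit 619) (B (lo111_16_5 (nat_lit 650)) (M (nat_lit 620) (B (lo111_16_4 (nat_lit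 652)) (lo111_15_4 (nat_lit 588)))))))) (B (M (nat_lit 554) (B (M (nat_lit 586) (B (lo111_15_5 (nat_lit 618)) (lo111_14_5 (nat_lit 459)))) (B (M (nat_lit 459) (B (lo111_14_5 (nat_lit 586)) (lo111_13_5 (nat_lit 427)))) (M (nat_lit 552) (B (lo111_16_1 (nat_lit 551)) (M (nat_lit 588) (B (lo111_15_4 (nat_lit 620)) (lo18_17_0 (nat_lit 553))))))))) (B (M (nat_lit 619) (B (M (nat_lit 618) (B (lo111_16_5 (nat_lit 650)) (lo111_15_5 (nat_lit 586)))) (B (M (nat_lit 554) (B (lo111_20_7 (nat_lit 651)) (M (nat_lit 586) (B (lo111_15_5 (nat_lit 618)) (lo111_14_5 (nat_lit 459)))))) (B (M (nat_lit 554) (B (lo111_20_7 (nat_lit 651)) (M (nat_lit 459) (B (lo111_14_5 (nat_lit 586)) (lo111_13_5 (nat_lit 427)))))) (M (nat_lit 651) (B (lo111_20_7 (nat_lit 554)) (M (nat_lit 650) (B (lo111_17_5 (nat_lit 682)) (lo111_16_5 (nat_lit 618)))))))))) (B (M (nat_lit 554) (B (M (nat_lit 459) (B (lo111_14_5 (nat_lit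 586)) (lo111_13_5 (nat_lit 427)))) (M (nat_lit 552) (B (lo111_16_1 (nat_lit 551)) (M (nat_lit 588) (B (lo111_15_4 (nat_lit 620)) (lo18_17_0 (nat_lit 553)))))))) (M (nat_lit 619) (B (M (nat_lit 620) (B (lo111_16_4 (nat_lit 652)) (lo111_15_4 (nat_lit 588)))) (M (nat_lit 651) (B (lo111_20_7 (nat_lit 554)) (M (nat_lit 650) (B (lo111_17_5 (nat_lit 682)) (lo111_16_5 (nat_lit 618))))))))))))))))) (B (M (nat_lit 524) (B (M (nat_lit 492) (B (lo18_16_2 (nat_lit 491)) (lo19_16_2 (nat_lit 493)))) (M (nat_lit 556) (B (lo18_16_0 (nat_lit 555)) (lo19_16_0 (nat_lit 557)))))) (B (M (nat_lit 524) (B (M (nat_lit 552) (B (lo111_16_1 (nat_lit 551)) (lo112_16_1 (nat_lit 553)))) (M (nat_lit 556) (B (lo18_16_0 (nat_lit 555)) (lo19_16_0 (nat_lit 557)))))) (M (nat_lit 524) (B (M (nat_lit 492) (B (lo19_16_2 (nat_lit 493)) (lo18_16_2 (nat_lit 491)))) (M (nat_lit 552) (B (lo112_16_1 (nat_lit 553)) (lo111_16_1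 (nat_lit 551)))))))))) (B (M (nat_lit 523) (B (M (nat_lit 491) (B (lo18_16_2 (nat_lit 492)) (M (nat_lit 519) (B (M (nat_lit 487) (B (lo111_16_3 (nat_lit 488)) (lo110_16_3 (nat_lit 486)))) (M (nat_lit 518) (B (M (nat_lit 554) (B (lo111_13_5 (nat_lit 459)) (lo16_16_0 (nat_lit 553)))) (M (nat_lit 550) (B (lo110_16_1 (nat_lit 551)) (lo19_16_1 (nat_lit 549)))))))))) (B (M (nat_lit 524) (B (M (nat_lit 492) (B (lo18_16_2 (nat_lit 491)) (lo19_16_2 (nat_lit 493)))) (M (nat_lit 525) (B (M (nat_lit 553) (B (lo112_16_1 (nat_lit 552)) (lo113_16_1 (nat_lit 554)))) (M (nat_lit 557) (B (lo19_16_0 (nat_lit 556)) (lo110_16_0 (nat_lit 558)))))))) (M (nat_lit 487) (B (lo111_16_3 (nat_lit 488)) (M (nat_lit 519) (B (lo110_16_3 (nat_lit 486)) (M (nat_lit 551) (B (lo110_16_1 (nat_lit 550)) (lo111_16_1 (nat_lit 552))))))))))) (B (M (nat_lit 523) (B (M (nat_lit 524) (B (M (nat_lit 492) (B (lo19_16_2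 (nat_lit 493)) (lo18_16_2 (nat_lit 491)))) (M (nat_lit 556) (B (lo19_16_0 (nat_lit 557)) (lo18_16_0 (nat_lit 555)))))) (B (M (nat_lit 519) (B (M (nat_lit 555) (B (lo18_16_0 (nat_lit 556)) (lo17_16_0 (nat_lit 554)))) (M (nat_lit 487) (B (lo111_16_3 (nat_lit 488)) (lo110_16_3 (nat_lit 486)))))) (B (M (nat_lit 554) (B (M (nat_lit 487) (B (lo111_16_3 (nat_lit 488)) (M (nat_lit 519) (B (lo17_16_0 (nat_lit 555)) (lo110_16_3 (nat_lit 486)))))) (M (nat_lit 524) (B (M (nat_lit 492) (B (lo19_16_2 (nat_lit 493)) (lo18_16_2 (nat_lit 491)))) (M (nat_lit 553) (B (lo113_16_1 (nat_lit 525)) (lo112_16_1 (nat_lit 552)))))))) (M (nat_lit 524) (B (M (nat_lit 492) (B (lo19_16_2 (nat_lit 493)) (lo18_16_2 (nat_lit 491)))) (M (nat_lit 525) (B (M (nat_lit 557) (B (lo110_16_0 (nat_lit 558)) (lo19_16_0 (nat_lit 556)))) (M (nat_lit 553) (B (lo113_16_1 (nat_lit 554)) (lo112_16_1 (nat_lit 552))))))))))))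 (B (M (nat_lit 523) (B (M (nat_lit 487) (B (lo111_16_3 (nat_lit 488)) (M (nat_lit 519) (B (lo110_16_3 (nat_lit 486)) (M (nat_lit 551) (B (lo110_16_1 (nat_lit 550)) (lo111_16_1 (nat_lit 552)))))))) (M (nat_lit 492) (B (lo18_16_2 (nat_lit 491)) (M (nat_lit 524) (B (lo19_16_2 (nat_lit 493)) (M (nat_lit 556) (B (lo18_16_0 (nat_lit 555)) (lo19_16_0 (nat_lit 557)))))))))) (M (nat_lit 519) (B (M (nat_lit 486) (B (lo110_16_3 (nat_lit 487)) (M (nat_lit 518) (B (lo19_16_3 (nat_lit 485)) (M (nat_lit 550) (B (lo110_16_1 (nat_lit 551)) (lo19_16_1 (nat_lit 549)))))))) (B (M (nat_lit 518) (B (M (nat_lit 554) (B (lo17_16_0 (nat_lit 555)) (lo16_16_0 (nat_lit 553)))) (M (nat_lit 550) (B (lo110_16_1 (nat_lit 551)) (lo19_16_1 (nat_lit 549)))))) (B (M (nat_lit 518) (B (M (nat_lit 554) (B (lo17_16_0 (nat_lit 555)) (lo16_16_0 (nat_lit 553)))) (M (nat_lit 486) (B (lo110_16_3 (nat_lit 487)) (lo19_16_3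 (nat_lit 485)))))) (M (nat_lit 523) (B (M (nat_lit 555) (B (lo18_16_0 (nat_lit 556)) (lo17_16_0 (nat_lit 554)))) (M (nat_lit 487) (B (lo111_16_3 (nat_lit 488)) (lo110_16_3 (nat_lit 486)))))))))))))))) (M (nat_lit 392) (B (M (nat_lit 424) (B (lo19_16_7 (nat_lit 489)) (lo111_13_3 (nat_lit 391)))) (lo112_13_3 (nat_lit 393)))))) (lo112_13_1 (nat_lit 456)))) (lo113_13_1 (nat_lit 458)))) (B (M (nat_lit 490) (B (M (nat_lit 458) (B (K _ _ _ o1_s8534) (B (M (nat_lit 554) (B (M (nat_lit 553) (B (lo110_14_5 (nat_lit 585)) (lo110_13_5 (nat_lit 521)))) (B (M (nat_lit 586) (B (M (nat_lit 459) (B (lo110_18_6 (nat_lit 491)) (lo110_17_6 (nat_lit 427)))) (M (nat_lit 618) (B (M (nat_lit 619) (B (lo110_16_4 (nat_lit 651)) (lo110_15_4 (nat_lit 587)))) (M (nat_lit 521) (B (lo110_19_7 (nat_lit 489)) (lo110_13_5 (nat_lit 553)))))))) (M (nat_lit 586) (B (M (nat_lit 459) (B (lo110_18_6 (nat_lit 491))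 (lo110_17_6 (nat_lit 427)))) (M (nat_lit 618) (B (M (nat_lit 617) (B (lo110_16_5 (nat_lit 649)) (lo110_15_5 (nat_lit 585)))) (M (nat_lit 619) (B (lo110_16_4 (nat_lit 651)) (lo110_15_4 (nat_lit 587))))))))))) (B (M (nat_lit 553) (B (lo110_13_5 (nat_lit 521)) (M (nat_lit 554) (B (lo110_14_5 (nat_lit 585)) (M (nat_lit 555) (B (lo110_14_4 (nat_lit 587)) (lo110_13_4 (nat_lit 523)))))))) (M (nat_lit 554) (B (M (nat_lit 555) (B (lo110_14_4 (nat_lit 587)) (lo110_13_4 (nat_lit 523)))) (lo110_17_6 (nat_lit 459)))))))) (B (M (nat_lit 397) (B (M (nat_lit 493) (B (M (nat_lit 525) (B (M (nat_lit 524) (B (lo113_13_5 (nat_lit 556)) (M (nat_lit 523) (B (lo113_16_3 (nat_lit 489)) (M (nat_lit 554) (B (lo113_16_1 (nat_lit 553)) (M (nat_lit 526) (B (lo114_16_1 (nat_lit 555)) (lo113_13_4 (nat_lit 558)))))))))) (B (M (nat_lit 524) (B (M (nat_lit 523) (B (lo110_16_2 (nat_lit 494)) (lo113_16_3 (nat_lit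 489)))) (lo113_13_5 (nat_lit 556)))) (M (nat_lit 526) (B (lo113_12_4 (nat_lit 494)) (lo113_13_4 (nat_lit 558))))))) (B (M (nat_lit 526) (B (M (nat_lit 525) (B (M (nat_lit 491) (B (M (nat_lit 459) (B (M (nat_lit 554) (B (lo111_13_5 (nat_lit 523)) (lo110_18_6 (nat_lit 586)))) (lo111_12_5 (nat_lit 395)))) (lo110_15_0 (nat_lit 492)))) (lo113_13_4 (nat_lit 558)))) (lo113_12_4 (nat_lit 494)))) (B (M (nat_lit 491) (B (M (nat_lit 459) (B (M (nat_lit 554) (B (lo111_13_5 (nat_lit 523)) (lo110_18_6 (nat_lit 586)))) (lo111_12_5 (nat_lit 395)))) (M (nat_lit 492) (B (lo113_12_5 (nat_lit 524)) (lo113_15_1 (nat_lit 521)))))) (M (nat_lit 525) (B (M (nat_lit 526) (B (lo113_12_4 (nat_lit 494)) (lo113_13_4 (nat_lit 558)))) (M (nat_lit 524) (B (lo113_12_5 (nat_lit 492)) (lo113_13_5 (nat_lit 556)))))))))) (lo110_13_2 (nat_lit 398)))) (B (M (nat_lit 458) (B (K _ _ _ o1_s8534) (lo110_16_6 (nat_lit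 395)))) (B (M (nat_lit 458) (B (lo110_16_6 (nat_lit 395)) (M (nat_lit 554) (B (M (nat_lit 555) (B (lo110_14_4 (nat_lit 587)) (lo110_13_4 (nat_lit 523)))) (M (nat_lit 553) (B (lo110_14_5 (nat_lit 585)) (lo110_13_5 (nat_lit 521)))))))) (B (M (nat_lit 458) (B (lo110_16_6 (nat_lit 395)) (M (nat_lit 554) (B (lo110_17_6 (nat_lit 459)) (M (nat_lit 553) (B (lo110_14_5 (nat_lit 585)) (lo110_13_5 (nat_lit 521)))))))) (M (nat_lit 458) (B (lo110_16_6 (nat_lit 395)) (M (nat_lit 554) (B (lo110_17_6 (nat_lit 459)) (M (nat_lit 555) (B (lo110_13_4 (nat_lit 523)) (lo110_14_4 (nat_lit 587)))))))))))))) (B (M (nat_lit 458) (B (M (nat_lit 490) (B (lo110_16_6 (nat_lit 395)) (M (nat_lit 523) (B (lo110_13_4 (nat_lit 555)) (M (nat_lit 521) (B (lo110_13_5 (nat_lit 553)) (M (nat_lit 491) (B (M (nat_lit 492) (B (lo113_15_1 (nat_lit 493)) (lo18_16_2 (nat_lit 520)))) (M (nat_lit 524) (B (M (nat_lit 489)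 (B (lo18_15_0 (nat_lit 488)) (lo113_16_3 (nat_lit 525)))) (M (nat_lit 556) (B (lo111_13_4 (nat_lit 459)) (lo19_16_0 (nat_lit 557)))))))))))))) (lo113_13_1 (nat_lit 457)))) (B (M (nat_lit 458) (B (M (nat_lit 490) (B (lo110_16_6 (nat_lit 395)) (M (nat_lit 554) (B (M (nat_lit 555) (B (lo110_14_4 (nat_lit 587)) (lo110_13_4 (nat_lit 523)))) (M (nat_lit 553) (B (lo110_14_5 (nat_lit 585)) (lo110_13_5 (nat_lit 521)))))))) (lo113_13_1 (nat_lit 457)))) (B (M (nat_lit 458) (B (M (nat_lit 490) (B (lo110_16_6 (nat_lit 395)) (M (nat_lit 554) (B (lo110_17_6 (nat_lit 459)) (M (nat_lit 553) (B (lo110_14_5 (nat_lit 585)) (lo110_13_5 (nat_lit 521)))))))) (lo113_13_1 (nat_lit 457)))) (M (nat_lit 458) (B (M (nat_lit 490) (B (lo110_16_6 (nat_lit 395)) (M (nat_lit 554) (B (lo110_17_6 (nat_lit 459)) (M (nat_lit 555) (B (lo110_14_4 (nat_lit 587)) (lo110_13_4 (nat_lit 523)))))))) (lo113_13_1 (nat_lit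 457))))))))))) (lo110_13_0 (nat_lit 462)))) (B (M (nat_lit 397) (B (M (nat_lit 461) (B (M (nat_lit 365) (B (M (nat_lit 394) (B (M (nat_lit 362) (B (M (nat_lit 458) (B (M (nat_lit 333) (B (M (nat_lit 300) (B (lo113_13_7 (nat_lit 332)) (M (nat_lit 301) (B (lo113_12_7 (nat_lit 268)) (M (nat_lit 302) (B (lo113_12_6 (nat_lit 270)) (lo113_13_6 (nat_lit 334)))))))) (B (M (nat_lit 363) (B (M (nat_lit 334) (B (lo110_11_2 (nat_lit 364)) (lo113_13_6 (nat_lit 302)))) (lo110_14_6 (nat_lit 331)))) (M (nat_lit 332) (B (lo113_14_7 (nat_lit 364)) (lo113_13_7 (nat_lit 300))))))) (K _ _ _ o1_s8675))) (B (K _ _ _ o1_s8724) (M (nat_lit 459) (B (M (nat_lit 491) (B (lo111_15_7 (nat_lit 395)) (lo111_16_7 (nat_lit 523)))) (lo110_10_4 (nat_lit 330))))))) (lo113_13_3 (nat_lit 393)))) (B (M (nat_lit 394) (B (M (nat_lit 362) (B (M (nat_lit 458) (B (K _ _ _ o1_s8675) (M (nat_lit 361) (B (M (nat_lit 363)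 (B (M (nat_lit 364) (B (M (nat_lit 366) (B (lo114_11_1 (nat_lit 395)) (lo113_14_6 (nat_lit 334)))) (lo113_14_7 (nat_lit 332)))) (lo110_14_6 (nat_lit 331)))) (lo110_14_7 (nat_lit 329)))))) (B (K _ _ _ o1_s8724) (B (M (nat_lit 330) (B (M (nat_lit 329) (B (lo110_13_7 (nat_lit 297)) (M (nat_lit 458) (B (lo110_14_7 (nat_lit 361)) (M (nat_lit 331) (B (lo110_13_6 (nat_lit 299)) (lo110_14_6 (nat_lit 363)))))))) (B (M (nat_lit 458) (B (M (nat_lit 329) (B (lo110_13_7 (nat_lit 297)) (lo110_14_7 (nat_lit 361)))) (M (nat_lit 459) (B (lo110_10_4 (nat_lit 427)) (lo110_11_4 (nat_lit 491)))))) (B (M (nat_lit 458) (B (M (nat_lit 331) (B (lo110_13_6 (nat_lit 299)) (lo110_14_6 (nat_lit 363)))) (M (nat_lit 459) (B (lo110_10_4 (nat_lit 427)) (lo110_11_4 (nat_lit 491)))))) (M (nat_lit 298) (B (M (nat_lit 299) (B (lo110_12_6 (nat_lit 267)) (lo110_13_6 (nat_lit 331)))) (M (nat_lit 297) (B (lo110_12_7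 (nat_lit 265)) (lo110_13_7 (nat_lit 329)))))))))) (M (nat_lit 459) (B (M (nat_lit 491) (B (lo111_15_7 (nat_lit 395)) (lo111_16_7 (nat_lit 523)))) (lo110_10_4 (nat_lit 330)))))))) (lo113_13_3 (nat_lit 393)))) (B (M (nat_lit 394) (B (M (nat_lit 362) (B (K _ _ _ o1_s8724) (B (M (nat_lit 458) (B (K _ _ _ o1_s8675) (M (nat_lit 334) (B (M (nat_lit 363) (B (M (nat_lit 333) (B (lo110_11_2 (nat_lit 364)) (lo113_13_6 (nat_lit 302)))) (lo110_14_6 (nat_lit 331)))) (lo113_14_6 (nat_lit 366)))))) (M (nat_lit 459) (B (M (nat_lit 491) (B (lo111_15_7 (nat_lit 395)) (lo111_16_7 (nat_lit 523)))) (lo110_10_4 (nat_lit 330))))))) (lo113_13_3 (nat_lit 393)))) (B (M (nat_lit 333) (B (M (nat_lit 332) (B (K _ _ _ o1_s8815) (lo113_13_7 (nat_lit 300)))) (B (M (nat_lit 300) (B (lo113_13_7 (nat_lit 332)) (M (nat_lit 301) (B (lo113_12_7 (nat_lit 268)) (M (nat_lit 302) (B (lo113_12_6 (nat_lit 270)) (lo113_13_6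 (nat_lit 334)))))))) (M (nat_lit 334) (B (lo113_14_6 (nat_lit 366)) (lo113_13_6 (nat_lit 302))))))) (B (M (nat_lit 332) (B (M (nat_lit 333) (B (K _ _ _ o1_s8815) (lo113_13_7 (nat_lit 300)))) (lo113_14_7 (nat_lit 364)))) (M (nat_lit 333) (B (M (nat_lit 334) (B (lo113_14_6 (nat_lit 366)) (lo113_13_6 (nat_lit 302)))) (M (nat_lit 332) (B (lo113_13_7 (nat_lit 300)) (lo113_14_7 (nat_lit 364)))))))))))) (lo110_13_0 (nat_lit 462)))) (lo110_13_2 (nat_lit 398)))) (B (M (nat_lit 397) (B (M (nat_lit 461) (B (M (nat_lit 493) (B (M (nat_lit 458) (B (M (nat_lit 490) (B (M (nat_lit 394) (B (M (nat_lit 525) (B (M (nat_lit 556) (B (lo113_13_5 (nat_lit 524)) (M (nat_lit 557) (B (lo113_14_5 (nat_lit 588)) (M (nat_lit 558) (B (lo113_14_4 (nat_lit 590)) (lo113_13_4 (nat_lit 526)))))))) (B (M (nat_lit 491) (B (M (nat_lit 526) (B (lo110_15_0 (nat_lit 492)) (lo113_13_4 (nat_lit 558)))) (lo110_12_4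 (nat_lit 523)))) (M (nat_lit 524) (B (lo113_12_5 (nat_lit 492)) (lo113_13_5 (nat_lit 556))))))) (K _ _ _ o1_s8876))) (B (K _ _ _ o1_s8894) (M (nat_lit 395) (B (M (nat_lit 363) (B (lo111_11_5 (nat_lit 459)) (lo111_10_5 (nat_lit 331)))) (lo110_16_6 (nat_lit 522))))))) (lo113_13_1 (nat_lit 457)))) (B (M (nat_lit 458) (B (M (nat_lit 490) (B (M (nat_lit 394) (B (K _ _ _ o1_s8876) (M (nat_lit 526) (B (M (nat_lit 491) (B (M (nat_lit 525) (B (lo110_15_0 (nat_lit 492)) (lo113_13_4 (nat_lit 558)))) (lo110_12_4 (nat_lit 523)))) (lo113_12_4 (nat_lit 494)))))) (B (K _ _ _ o1_s8894) (M (nat_lit 395) (B (M (nat_lit 363) (B (lo111_11_5 (nat_lit 459)) (lo111_10_5 (nat_lit 331)))) (lo110_16_6 (nat_lit 522))))))) (lo113_13_1 (nat_lit 457)))) (B (M (nat_lit 525) (B (M (nat_lit 524) (B (K _ _ _ o1_s8950) (lo113_13_5 (nat_lit 556)))) (B (M (nat_lit 556) (B (lo113_13_5 (nat_lit 524)) (M (nat_lit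 557) (B (lo113_14_5 (nat_lit 588)) (M (nat_lit 558) (B (lo113_14_4 (nat_lit 590)) (lo113_13_4 (nat_lit 526)))))))) (M (nat_lit 526) (B (lo113_12_4 (nat_lit 494)) (lo113_13_4 (nat_lit 558))))))) (B (M (nat_lit 524) (B (M (nat_lit 525) (B (K _ _ _ o1_s8950) (lo113_13_5 (nat_lit 556)))) (lo113_12_5 (nat_lit 492)))) (B (M (nat_lit 458) (B (M (nat_lit 522) (B (M (nat_lit 490) (B (lo110_16_6 (nat_lit 395)) (M (nat_lit 554) (B (M (nat_lit 555) (B (lo110_14_4 (nat_lit 587)) (lo110_13_4 (nat_lit 523)))) (M (nat_lit 553) (B (lo110_14_5 (nat_lit 585)) (lo110_13_5 (nat_lit 521)))))))) (B (M (nat_lit 492) (B (lo113_12_5 (nat_lit 524)) (M (nat_lit 494) (B (lo113_12_4 (nat_lit 526)) (M (nat_lit 491) (B (lo114_15_1 (nat_lit 523)) (lo114_15_3 (nat_lit 459)))))))) (M (nat_lit 490) (B (lo110_16_6 (nat_lit 395)) (M (nat_lit 554) (B (lo110_17_6 (nat_lit 459)) (M (nat_lit 553) (B (lo110_14_5 (nat_lit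 585)) (lo110_13_5 (nat_lit 521))))))))))) (lo113_13_1 (nat_lit 457)))) (M (nat_lit 525) (B (M (nat_lit 526) (B (lo113_12_4 (nat_lit 494)) (lo113_13_4 (nat_lit 558)))) (M (nat_lit 524) (B (lo113_12_5 (nat_lit 492)) (lo113_13_5 (nat_lit 556)))))))))))) (lo110_13_0 (nat_lit 462)))) (lo110_13_2 (nat_lit 398)))) (B (K _ _ _ o1_s9087) (M (nat_lit 425) (B (M (nat_lit 457) (B (lo112_13_1 (nat_lit 456)) (lo113_13_1 (nat_lit 458)))) (M (nat_lit 393) (B (lo112_13_3 (nat_lit 392)) (lo113_13_3 (nat_lit 394)))))))))))) _ _ _ (by decide +kernel)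
theorem o1_s10012 : Sem (nat_lit 2426085982355713002131112411125198240506882440953839503274169633037793644329922420159977605341122130835217309591228125350352388096) (nat_lit 379899497127062848814316970145566176011656979825152576693950507915546161523045978159298272713990581875401143996546357184821216609265457770789851081371684534546883690946929623040) (nat_lit 379899497127062848814316970145566176011656979825152576693950507915546161523045978159298272713990581875401143996546357184821216609265457770789851081371684534546883690946929623040) := sem_of_chk (M (nat_lit 426) (B (M (nat_lit 395) (B (M (nat_lit 425) (B (K _ _ _ o1_s9332) (B (K _ _ _ o1_s9439) (B (K _ _ _ o1_s9471) (K _ _ _ o1_s9480))))) (B (M (nat_lit 459) (B (K _ _ _ o1_s9524) (B (M (nat_lit 491) (B (K _ _ _ o1_s9550) (B (M (nat_lit 523) (B (M (nat_lit 524) (B (lo111_12_4 (nat_lit 492)) (lo111_13_4 (nat_lit 556)))) (M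 (nat_lit 554) (B (lo111_13_5 (nat_lit 522)) (M (nat_lit 555) (B (lo111_17_7 (nat_lit 458)) (lo111_14_5 (nat_lit 586)))))))) (M (nat_lit 396) (B (lo111_15_6 (nat_lit 364)) (lo111_16_6 (nat_lit 523))))))) (B (K _ _ _ o1_s9576) (B (K _ _ _ o1_s9594) (K _ _ _ o1_s9605)))))) (B (M (nat_lit 363) (B (K _ _ _ o1_s9636) (B (M (nat_lit 331) (B (M (nat_lit 394) (B (lo111_9_5 (nat_lit 299)) (M (nat_lit 458) (B (lo111_10_5 (nat_lit 427)) (lo110_15_6 (nat_lit 490)))))) (B (M (nat_lit 458) (B (lo111_10_5 (nat_lit 427)) (M (nat_lit 394) (B (lo110_14_6 (nat_lit 362)) (lo110_15_6 (nat_lit 490)))))) (B (M (nat_lit 299) (B (lo111_10_5 (nat_lit 458)) (B (lo111_10_5 (nat_lit 458)) (M (nat_lit 267) (B (M (nat_lit 266) (B (lo111_11_7 (nat_lit 234)) (lo111_12_7 (nat_lit 298)))) (M (nat_lit 268) (B (lo111_11_6 (nat_lit 236)) (lo111_12_6 (nat_lit 300))))))))) (B (M (nat_lit 394) (B (lo111_9_5 (nat_lit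 299)) (M (nat_lit 458) (B (lo110_14_6 (nat_lit 362)) (lo110_15_6 (nat_lit 490)))))) (M (nat_lit 299) (B (lo111_9_5 (nat_lit 394)) (M (nat_lit 267) (B (M (nat_lit 266) (B (lo111_11_7 (nat_lit 234)) (lo111_12_7 (nat_lit 298)))) (M (nat_lit 268) (B (lo111_11_6 (nat_lit 236)) (lo111_12_6 (nat_lit 300))))))))))))) (B (K _ _ _ o1_s9669) (M (nat_lit 458) (B (M (nat_lit 490) (B (lo111_11_5 (nat_lit 459)) (lo110_16_6 (nat_lit 522)))) (lo111_10_5 (nat_lit 331)))))))) (B (K _ _ _ o1_s9706) (K _ _ _ o1_s9725)))))) (B (M (nat_lit 425) (B (M (nat_lit 395) (B (K _ _ _ o1_s9860) (B (M (nat_lit 363) (B (M (nat_lit 459) (B (M (nat_lit 362) (B (M (nat_lit 364) (B (M (nat_lit 361) (B (K _ _ _ o1_s9869) (B (M (nat_lit 360) (B (lo18_11_0 (nat_lit 396)) (M (nat_lit 359) (B (lo17_11_0 (nat_lit 394)) (M (nat_lit 391) (B (lo110_11_1 (nat_lit 390)) (lo111_11_1 (nat_lit 392)))))))) (K _ _ _ o1_s9882))))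 (lo111_14_6 (nat_lit 332)))) (lo111_14_7 (nat_lit 330)))) (B (K _ _ _ o1_s9370) (K _ _ _ o1_s9890)))) (B (K _ _ _ o1_s9859) (B (K _ _ _ o1_s9436) (M (nat_lit 458) (B (M (nat_lit 490) (B (lo111_11_5 (nat_lit 459)) (lo110_16_6 (nat_lit 522)))) (lo111_10_5 (nat_lit 331)))))))) (B (K _ _ _ o1_s9480) (M (nat_lit 424) (B (lo18_13_2 (nat_lit 396)) (M (nat_lit 423) (B (lo17_13_2 (nat_lit 394)) (M (nat_lit 455) (B (lo111_13_1 (nat_lit 456)) (lo110_13_1 (nat_lit 454)))))))))))) (B (K _ _ _ o1_s9949) (B (K _ _ _ o1_s9966) (M (nat_lit 457) (B (lo112_13_1 (nat_lit 456)) (lo113_13_1 (nat_lit 458)))))))) (B (M (nat_lit 425) (B (M (nat_lit 395) (B (K _ _ _ o1_s9332) (B (K _ _ _ o1_s9439) (B (K _ _ _ o1_s9471) (K _ _ _ o1_s9480))))) (B (K _ _ _ o1_s9975) (B (M (nat_lit 392) (B (lo112_13_3 (nat_lit 393)) (M (nat_lit 424) (B (lo111_13_3 (nat_lit 391)) (M (nat_lit 456) (B (lo111_13_1 (nat_lit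 455)) (lo112_13_1 (nat_lit 457)))))))) (M (nat_lit 457) (B (lo112_13_1 (nat_lit 456)) (lo113_13_1 (nat_lit 458)))))))) (B (M (nat_lit 394) (B (lo113_13_3 (nat_lit 393)) (M (nat_lit 458) (B (lo113_13_1 (nat_lit 457)) (M (nat_lit 362) (B (M (nat_lit 459) (B (lo110_10_4 (nat_lit 330)) (lo110_11_4 (nat_lit 491)))) (B (M (nat_lit 490) (B (M (nat_lit 363) (B (lo110_14_6 (nat_lit 331)) (lo110_15_6 (nat_lit 395)))) (M (nat_lit 491) (B (lo110_11_4 (nat_lit 459)) (lo110_12_4 (nat_lit 523)))))) (M (nat_lit 330) (B (M (nat_lit 329) (B (lo110_13_7 (nat_lit 297)) (lo110_14_7 (nat_lit 361)))) (M (nat_lit 331) (B (lo110_13_6 (nat_lit 299)) (lo110_14_6 (nat_lit 363))))))))))))) (B (K _ _ _ o1_s10011) (M (nat_lit 425) (B (M (nat_lit 457) (B (lo112_13_1 (nat_lit 456)) (lo113_13_1 (nat_lit 458)))) (M (nat_lit 393) (B (lo112_13_3 (nat_lit 392)) (lo113_13_3 (nat_lit 394)))))))))))) _ _ _ (by decide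 +kernel)
theorem o1_s14212 : Sem (nat_lit 2599377838318959239544979191060888446096753879237631345248237841602165580959669259788002293054807271756308567508687822713811632128) (nat_lit 1171356781840997356160373598797877511664753011588968160745159466125031626742779951575889099315711191250173582812435551820463587890295548918112749244042335492970249448973861388288) (nat_lit 1171356781840997356160373598797877511664753011588968160745159466125031626742779951575889099315711191250173582812435551820463587890295548918112749244042335492970249448973861388288) := sem_of_chk (M (nat_lit 459) (B (K _ _ _ o1_s14157) (B (M (nat_lit 491) (B (K _ _ _ o1_s14172) (M (nat_lit 523) (B (M (nat_lit 522) (B (lo111_12_5 (nat_lit 490)) (lo111_13_5 (nat_lit 554)))) (M (nat_lit 524) (B (lo111_12_4 (nat_lit 492)) (lo111_13_4 (nat_lit 556)))))))) (B (K _ _ _ o1_s14186) (B (K _ _ _ o1_s14189) (M (nat_lit 363)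 (B (K _ _ _ o1_s14207) (B (M (nat_lit 331) (B (M (nat_lit 332) (B (lo111_13_6 (nat_lit 300)) (lo111_14_6 (nat_lit 364)))) (M (nat_lit 330) (B (lo111_13_7 (nat_lit 298)) (lo111_14_7 (nat_lit 362)))))) (B (M (nat_lit 331) (B (M (nat_lit 330) (B (lo111_13_7 (nat_lit 298)) (lo111_14_7 (nat_lit 362)))) (lo111_10_4 (nat_lit 460)))) (M (nat_lit 331) (B (M (nat_lit 332) (B (lo111_13_6 (nat_lit 300)) (lo111_14_6 (nat_lit 364)))) (lo111_10_4 (nat_lit 460))))))))))))) _ _ _ (by decide +kernel)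
theorem o1_s26149 : Sem (nat_lit 2079502270590611144683810638107312777577327806531862431377859685460965980854219217279980804578104683573043408221052678871730618368) (nat_lit 7614394273062379154595989822950352343897941623932668532352380337711756943626311235156791806073494610590183944890887077071960154243417599899829346464559261650859766785160282652180050083840) (nat_lit 7614394273062379154595989822950352343897941623932668532352380337711756943626311235156791806073494610590183944890887077071960154243417599899829346464559261650859766785160282652180050083840) := sem_of_chk (M (nat_lit 427) (B (M (nat_lit 461) (B (M (nat_lit 462) (B (lo110_13_0 (nat_lit 426)) (M (nat_lit 463) (B (lo116_14_3 (nat_lit 464)) (lo115_14_3 (nat_lit 460)))))) (B (M (nat_lit 426) (B (lo110_13_0 (nat_lit 462)) (M (nat_lit 425) (B (M (nat_lit 393) (B (lo113_13_3 (nat_lit 394)) (lo112_13_3 (nat_lit 392)))) (B (M (nat_lit 424) (B (M (nat_lit 392) (B (lo112_13_3 (nat_lit 393)) (lo111_13_3 (nat_lit 391)))) (M (nat_lit 456) (B (lo112_13_1 (nat_lit 457)) (lo111_13_1 (nat_lit 455)))))) (B (M (nat_lit 424) (B (M (nat_lit 456) (B (lo112_13_1 (nat_lit 457)) (lo111_13_1 (nat_lit 455)))) (M (nat_lit 423) (B (M (nat_lit 395) (B (lo18_13_2 (nat_lit 396)) (lo17_13_2 (nat_lit 394)))) (M (nat_lit 391) (B (lo111_13_3 (nat_lit 392)) (lo110_13_3 (nat_lit 390)))))))) (M (nat_lit 424) (B (M (nat_lit 456) (B (lo112_13_1 (nat_lit 457)) (lo111_13_1 (nat_lit 455)))) (M (nat_lit 395) (B (lo18_13_2 (nat_lit 396)) (M (nat_lit 394) (B (lo113_13_3 (nat_lit 393)) (lo17_13_2 (nat_lit 423)))))))))))))) (B (M (nat_lit 396) (B (M (nat_lit 364) (B (lo112_10_4 (nat_lit 332)) (M (nat_lit 493) (B (lo113_16_7 (nat_lit 525)) (lo112_11_4 (nat_lit 460)))))) (B (M (nat_lit 493) (B (lo113_16_7 (nat_lit 525)) (K _ _ _ o1_s19820))) (B (M (nat_lit 493) (B (lo113_16_7 (nat_lit 525)) (M (nat_lit 491) (B (M (nat_lit 364) (B (lo112_11_4 (nat_lit 460)) (M (nat_lit 459) (B (lo111_15_6 (nat_lit 395)) (lo111_16_6 (nat_lit 523)))))) (B (M (nat_lit 523) (B (lo111_16_6 (nat_lit 459)) (M (nat_lit 492) (B (lo112_12_5 (nat_lit 460)) (M (nat_lit 522) (B (lo114_15_1 (nat_lit 494)) (M (nat_lit 521) (B (lo19_16_2 (nat_lit 524)) (lo113_15_1 (nat_lit 490)))))))))) (B (M (nat_lit 459) (B (lo111_16_6 (nat_lit 523)) (M (nat_lit 395) (B (lo111_15_6 (nat_lit 364)) (M (nat_lit 394) (B (lo19_12_0 (nat_lit 393)) (lo111_15_7 (nat_lit 362)))))))) (B (M (nat_lit 460) (B (lo112_11_4 (nat_lit 364)) (M (nat_lit 492) (B (lo112_12_5 (nat_lit 523)) (M (nat_lit 395) (B (lo112_15_7 (nat_lit 363)) (lo112_16_7 (nat_lit 524)))))))) (M (nat_lit 395) (B (M (nat_lit 364) (B (lo112_11_4 (nat_lit 460)) (lo111_15_6 (nat_lit 459)))) (B (M (nat_lit 492) (B (M (nat_lit 460) (B (lo112_15_7 (nat_lit 363)) (lo112_16_7 (nat_lit 524)))) (B (M (nat_lit 459) (B (lo111_12_4 (nat_lit 524)) (M (nat_lit 394) (B (lo19_12_0 (nat_lit 393)) (lo111_15_7 (nat_lit 362)))))) (M (nat_lit 490) (B (M (nat_lit 460) (B (lo19_15_2 (nat_lit 489)) (lo112_15_7 (nat_lit 363)))) (M (nat_lit 522) (B (lo113_15_1 (nat_lit 521)) (lo111_12_5 (nat_lit 459))))))))) (B (M (nat_lit 459) (B (lo111_15_6 (nat_lit 364)) (M (nat_lit 394) (B (lo19_12_0 (nat_lit 393)) (lo111_15_7 (nat_lit 362)))))) (M (nat_lit 460) (B (lo112_11_4 (nat_lit 364)) (M (nat_lit 492) (B (lo112_15_7 (nat_lit 363)) (lo112_16_7 (nat_lit 524))))))))))))))))) (M (nat_lit 393) (B (M (nat_lit 394) (B (lo19_12_0 (nat_lit 395)) (lo113_13_3 (nat_lit 426)))) (B (M (nat_lit 425) (B (M (nat_lit 426) (B (lo113_13_3 (nat_lit 394)) (lo112_13_3 (nat_lit 392)))) (B (K _ _ _ o1_s19916) (B (M (nat_lit 361) (B (M (nat_lit 329) (B (M (nat_lit 296) (B (lo19_13_7 (nat_lit 328)) (M (nat_lit 297) (B (lo19_12_7 (nat_lit 264)) (M (nat_lit 424) (B (lo19_9_5 (nat_lit 392)) (lo19_10_5 (nat_lit 456)))))))) (B (M (nat_lit 457) (B (M (nat_lit 330) (B (lo19_13_6 (nat_lit 298)) (lo19_14_6 (nat_lit 362)))) (M (nat_lit 456) (B (lo19_10_5 (nat_lit 424)) (lo19_11_5 (nat_lit 488)))))) (M (nat_lit 457) (B (M (nat_lit 330) (B (lo19_13_6 (nat_lit 298)) (lo19_14_6 (nat_lit 362)))) (M (nat_lit 328) (B (lo19_13_7 (nat_lit 296)) (lo19_14_7 (nat_lit 360))))))))) (B (M (nat_lit 457) (B (M (nat_lit 489) (B (M (nat_lit 362) (B (lo19_14_6 (nat_lit 330)) (lo19_15_6 (nat_lit 394)))) (M (nat_lit 360) (B (lo19_14_7 (nat_lit 328)) (lo19_15_7 (nat_lit 392)))))) (B (M (nat_lit 489) (B (M (nat_lit 360) (B (lo19_14_7 (nat_lit 328)) (lo19_15_7 (nat_lit 392)))) (M (nat_lit 488) (B (lo19_11_5 (nat_lit 456)) (lo19_12_5 (nat_lit 520)))))) (B (M (nat_lit 329) (B (M (nat_lit 328) (B (lo19_13_7 (nat_lit 296)) (lo19_14_7 (nat_lit 360)))) (M (nat_lit 456) (B (lo19_10_5 (nat_lit 424)) (lo19_11_5 (nat_lit 488)))))) (M (nat_lit 489) (B (M (nat_lit 362) (B (lo19_14_6 (nat_lit 330)) (lo19_15_6 (nat_lit 394)))) (M (nat_lit 488) (B (lo19_11_5 (nat_lit 456)) (lo19_12_5 (nat_lit 520)))))))))) (B (M (nat_lit 329) (B (M (nat_lit 328) (B (lo19_13_7 (nat_lit 296)) (M (nat_lit 457) (B (lo19_14_7 (nat_lit 360)) (M (nat_lit 456) (B (lo19_10_5 (nat_lit 424)) (lo19_11_5 (nat_lit 488)))))))) (B (M (nat_lit 296) (B (lo19_13_7 (nat_lit 328)) (M (nat_lit 297) (B (lo19_12_7 (nat_lit 264)) (M (nat_lit 424) (B (lo19_9_5 (nat_lit 392)) (lo19_10_5 (nat_lit 456)))))))) (B (M (nat_lit 457) (B (M (nat_lit 456) (B (lo19_10_5 (nat_lit 424)) (lo19_11_5 (nat_lit 488)))) (B (M (nat_lit 489) (B (M (nat_lit 360) (B (lo19_14_7 (nat_lit 328)) (lo19_15_7 (nat_lit 392)))) (M (nat_lit 488) (B (lo19_11_5 (nat_lit 456)) (lo19_12_5 (nat_lit 520)))))) (M (nat_lit 360) (B (lo19_14_7 (nat_lit 328)) (M (nat_lit 392) (B (lo19_15_7 (nat_lit 489)) (M (nat_lit 297) (B (lo19_8_5 (nat_lit 265)) (lo19_9_5 (nat_lit 424))))))))))) (B (K _ _ _ o1_s19964) (M (nat_lit 297) (B (M (nat_lit 296) (B (lo19_12_7 (nat_lit 264)) (lo19_13_7 (nat_lit 328)))) (B (M (nat_lit 362) (B (M (nat_lit 364) (B (lo112_10_4 (nat_lit 332)) (M (nat_lit 328) (B (lo112_11_3 (nat_lit 363)) (lo19_13_7 (nat_lit 296)))))) (M (nat_lit 266) (B (lo19_12_6 (nat_lit 298)) (M (nat_lit 265) (B (lo19_11_6 (nat_lit 234)) (lo19_8_4 (nat_lit 394)))))))) (B (M (nat_lit 362) (B (M (nat_lit 364) (B (lo112_10_4 (nat_lit 332)) (M (nat_lit 363) (B (lo112_11_3 (nat_lit 328)) (lo112_11_1 (nat_lit 392)))))) (M (nat_lit 266) (B (lo19_12_6 (nat_lit 298)) (M (nat_lit 265) (B (lo19_11_6 (nat_lit 234)) (lo19_8_4 (nat_lit 394)))))))) (M (nat_lit 265) (B (M (nat_lit 266) (B (lo19_11_6 (nat_lit 234)) (lo19_12_6 (nat_lit 298)))) (M (nat_lit 264) (B (lo19_11_7 (nat_lit 232)) (lo19_12_7 (nat_lit 296))))))))))))))) (B (M (nat_lit 329) (B (M (nat_lit 297) (B (M (nat_lit 296) (B (lo19_12_7 (nat_lit 264)) (lo19_13_7 (nat_lit 328)))) (M (nat_lit 424) (B (lo19_9_5 (nat_lit 392)) (lo19_10_5 (nat_lit 456)))))) (B (M (nat_lit 457) (B (M (nat_lit 328) (B (lo19_13_7 (nat_lit 296)) (lo19_14_7 (nat_lit 360)))) (M (nat_lit 456) (B (lo19_10_5 (nat_lit 424)) (lo19_11_5 (nat_lit 488)))))) (B (M (nat_lit 297) (B (M (nat_lit 298) (B (lo19_12_6 (nat_lit 266)) (lo19_13_6 (nat_lit 330)))) (M (nat_lit 424) (B (lo19_9_5 (nat_lit 392)) (lo19_10_5 (nat_lit 456)))))) (M (nat_lit 296) (B (lo19_13_7 (nat_lit 328)) (M (nat_lit 297) (B (lo19_12_7 (nat_lit 264)) (M (nat_lit 298) (B (lo19_12_6 (nat_lit 266)) (lo19_13_6 (nat_lit 330)))))))))))) (B (M (nat_lit 362) (B (M (nat_lit 330) (B (lo19_14_6 (nat_lit 457)) (M (nat_lit 298) (B (lo110_8_5 (nat_lit 266)) (lo110_9_5 (nat_lit 394)))))) (B (M (nat_lit 457) (B (lo19_14_6 (nat_lit 330)) (M (nat_lit 360) (B (lo19_14_7 (nat_lit 328)) (M (nat_lit 489) (B (lo19_15_6 (nat_lit 394)) (lo19_15_7 (nat_lit 392)))))))) (B (M (nat_lit 360) (B (M (nat_lit 457) (B (lo19_14_7 (nat_lit 328)) (M (nat_lit 489) (B (lo19_15_6 (nat_lit 394)) (lo19_15_7 (nat_lit 392)))))) (B (M (nat_lit 392) (B (M (nat_lit 364) (B (lo112_10_4 (nat_lit 332)) (lo112_11_1 (nat_lit 363)))) (M (nat_lit 328) (B (lo19_14_7 (nat_lit 457)) (lo18_9_4 (nat_lit 296)))))) (B (M (nat_lit 363) (B (M (nat_lit 332) (B (lo112_10_4 (nat_lit 364)) (lo18_11_2 (nat_lit 331)))) (B (M (nat_lit 392) (B (lo112_11_1 (nat_lit 364)) (lo111_11_1 (nat_lit 391)))) (M (nat_lit 392) (B (lo111_11_1 (nat_lit 391)) (M (nat_lit 328) (B (lo111_11_3 (nat_lit 327)) (lo18_9_4 (nat_lit 296))))))))) (B (M (nat_lit 359) (B (M (nat_lit 326) (B (lo110_11_3 (nat_lit 327)) (M (nat_lit 358) (B (lo16_11_0 (nat_lit 394)) (lo19_11_3 (nat_lit 325)))))) (M (nat_lit 363) (B (M (nat_lit 332) (B (lo112_10_4 (nat_lit 364)) (lo18_11_2 (nat_lit 331)))) (B (M (nat_lit 392) (B (lo112_11_1 (nat_lit 364)) (lo111_11_1 (nat_lit 391)))) (M (nat_lit 391) (B (lo111_11_1 (nat_lit 392)) (lo110_11_1 (nat_lit 390))))))))) (M (nat_lit 363) (B (M (nat_lit 332) (B (lo112_10_4 (nat_lit 364)) (lo18_11_2 (nat_lit 331)))) (M (nat_lit 328) (B (lo111_11_3 (nat_lit 327)) (lo19_14_7 (nat_lit 457))))))))))) (B (K _ _ _ o1_s20054) (M (nat_lit 360) (B (M (nat_lit 332) (B (lo112_10_4 (nat_lit 364)) (M (nat_lit 331) (B (lo18_11_2 (nat_lit 363)) (M (nat_lit 330) (B (lo113_10_1 (nat_lit 333)) (lo17_11_2 (nat_lit 359)))))))) (B (M (nat_lit 332) (B (lo112_10_4 (nat_lit 364)) (M (nat_lit 330) (B (M (nat_lit 331) (B (lo18_11_2 (nat_lit 363)) (lo17_11_2 (nat_lit 359)))) (M (nat_lit 298) (B (lo110_8_5 (nat_lit 266)) (lo110_9_5 (nat_lit 394)))))))) (B (M (nat_lit 328) (B (M (nat_lit 296) (B (lo18_8_4 (nat_lit 264)) (lo18_9_4 (nat_lit 392)))) (M (nat_lit 327) (B (lo111_11_3 (nat_lit 363)) (M (nat_lit 326) (B (lo110_11_3 (nat_lit 359)) (lo15_10_0 (nat_lit 325)))))))) (B (M (nat_lit 330) (B (M (nat_lit 298) (B (lo110_8_5 (nat_lit 266)) (lo110_9_5 (nat_lit 394)))) (M (nat_lit 332) (B (lo112_10_4 (nat_lit 364)) (M (nat_lit 331) (B (lo113_10_1 (nat_lit 333)) (lo17_11_2 (nat_lit 359)))))))) (M (nat_lit 330) (B (M (nat_lit 298) (B (lo110_8_5 (nat_lit 266)) (lo110_9_5 (nat_lit 394)))) (M (nat_lit 332) (B (lo112_10_4 (nat_lit 364)) (M (nat_lit 331) (B (lo113_10_1 (nat_lit 333)) (lo18_11_2 (nat_lit 363)))))))))))))))))) (B (K _ _ _ o1_s20099) (B (M (nat_lit 457) (B (M (nat_lit 489) (B (M (nat_lit 362) (B (lo19_14_6 (nat_lit 330)) (lo19_15_6 (nat_lit 394)))) (M (nat_lit 360) (B (lo19_14_7 (nat_lit 328)) (lo19_15_7 (nat_lit 392)))))) (B (M (nat_lit 489) (B (M (nat_lit 360) (B (lo19_14_7 (nat_lit 328)) (lo19_15_7 (nat_lit 392)))) (M (nat_lit 488) (B (lo19_11_5 (nat_lit 456)) (lo19_12_5 (nat_lit 520)))))) (M (nat_lit 329) (B (M (nat_lit 330) (B (lo19_13_6 (nat_lit 298)) (lo19_14_6 (nat_lit 362)))) (M (nat_lit 456) (B (lo19_10_5 (nat_lit 424)) (lo19_11_5 (nat_lit 488))))))))) (B (M (nat_lit 457) (B (M (nat_lit 329) (B (M (nat_lit 330) (B (lo19_13_6 (nat_lit 298)) (lo19_14_6 (nat_lit 362)))) (M (nat_lit 456) (B (lo19_10_5 (nat_lit 424)) (lo19_11_5 (nat_lit 488)))))) (B (M (nat_lit 489) (B (M (nat_lit 362) (B (lo19_14_6 (nat_lit 330)) (lo19_15_6 (nat_lit 394)))) (M (nat_lit 488) (B (lo19_11_5 (nat_lit 456)) (lo19_12_5 (nat_lit 520)))))) (B (K _ _ _ o1_s20108) (B (M (nat_lit 489) (B (M (nat_lit 362) (B (lo19_14_6 (nat_lit 330)) (lo19_15_6 (nat_lit 394)))) (M (nat_lit 521) (B (M (nat_lit 522) (B (lo19_12_4 (nat_lit 490)) (lo19_13_4 (nat_lit 554)))) (M (nat_lit 520) (B (lo19_12_5 (nat_lit 488)) (lo19_13_5 (nat_lit 552)))))))) (M (nat_lit 489) (B (M (nat_lit 362) (B (lo19_14_6 (nat_lit 330)) (lo19_15_6 (nat_lit 394)))) (M (nat_lit 521) (B (M (nat_lit 522) (B (lo19_12_4 (nat_lit 490)) (lo19_13_4 (nat_lit 554)))) (M (nat_lit 392) (B (lo19_15_7 (nat_lit 360)) (lo19_16_7 (nat_lit 424))))))))))))) (B (M (nat_lit 457) (B (M (nat_lit 329) (B (M (nat_lit 328) (B (lo19_13_7 (nat_lit 296)) (lo19_14_7 (nat_lit 360)))) (M (nat_lit 456) (B (lo19_10_5 (nat_lit 424)) (lo19_11_5 (nat_lit 488)))))) (B (M (nat_lit 489) (B (M (nat_lit 362) (B (lo19_14_6 (nat_lit 330)) (lo19_15_6 (nat_lit 394)))) (M (nat_lit 488) (B (lo19_11_5 (nat_lit 456)) (lo19_12_5 (nat_lit 520)))))) (M (nat_lit 329) (B (M (nat_lit 330) (B (lo19_13_6 (nat_lit 298)) (lo19_14_6 (nat_lit 362)))) (M (nat_lit 328) (B (lo19_13_7 (nat_lit 296)) (lo19_14_7 (nat_lit 360))))))))) (K _ _ _ o1_s20141))))))))))) (M (nat_lit 457) (B (M (nat_lit 426) (B (lo113_13_3 (nat_lit 394)) (lo112_13_1 (nat_lit 456)))) (B (M (nat_lit 456) (B (lo112_13_1 (nat_lit 426)) (M (nat_lit 488) (B (lo19_11_5 (nat_lit 361)) (M (nat_lit 520) (B (lo19_12_5 (nat_lit 489)) (lo18_16_6 (nat_lit 424)))))))) (B (M (nat_lit 361) (B (M (nat_lit 329) (B (M (nat_lit 328) (B (lo19_13_7 (nat_lit 296)) (lo19_14_7 (nat_lit 360)))) (M (nat_lit 456) (B (lo19_10_5 (nat_lit 424)) (lo19_11_5 (nat_lit 488)))))) (B (M (nat_lit 489) (B (M (nat_lit 362) (B (lo19_14_6 (nat_lit 330)) (lo19_15_6 (nat_lit 394)))) (M (nat_lit 488) (B (lo19_11_5 (nat_lit 456)) (lo19_12_5 (nat_lit 520)))))) (M (nat_lit 329) (B (M (nat_lit 330) (B (lo19_13_6 (nat_lit 298)) (lo19_14_6 (nat_lit 362)))) (M (nat_lit 328) (B (lo19_13_7 (nat_lit 296)) (lo19_14_7 (nat_lit 360))))))))) (M (nat_lit 394) (B (lo113_13_3 (nat_lit 426)) (M (nat_lit 362) (B (lo19_15_6 (nat_lit 489)) (M (nat_lit 330) (B (lo110_9_5 (nat_lit 298)) (lo19_14_6 (nat_lit 361)))))))))))))))) (B (M (nat_lit 425) (B (M (nat_lit 426) (B (lo112_13_3 (nat_lit 392)) (M (nat_lit 456) (B (lo112_13_1 (nat_lit 457)) (M (nat_lit 424) (B (lo18_13_2 (nat_lit 395)) (lo111_13_1 (nat_lit 455)))))))) (B (K _ _ _ o1_s19916) (B (M (nat_lit 361) (B (K _ _ _ o1_s20161) (B (M (nat_lit 457) (B (M (nat_lit 329) (B (M (nat_lit 330) (B (lo19_13_6 (nat_lit 298)) (lo19_14_6 (nat_lit 362)))) (M (nat_lit 456) (B (lo19_10_5 (nat_lit 424)) (lo19_11_5 (nat_lit 488)))))) (B (M (nat_lit 329) (B (M (nat_lit 328) (B (lo19_13_7 (nat_lit 296)) (lo19_14_7 (nat_lit 360)))) (M (nat_lit 456) (B (lo19_10_5 (nat_lit 424)) (lo19_11_5 (nat_lit 488)))))) (B (M (nat_lit 489) (B (M (nat_lit 360) (B (lo19_14_7 (nat_lit 328)) (lo19_15_7 (nat_lit 392)))) (M (nat_lit 488) (B (lo19_11_5 (nat_lit 456)) (lo19_12_5 (nat_lit 520)))))) (M (nat_lit 329) (B (M (nat_lit 330) (B (lo19_13_6 (nat_lit 298)) (lo19_14_6 (nat_lit 362)))) (M (nat_lit 328) (B (lo19_13_7 (nat_lit 296)) (lo19_14_7 (nat_lit 360)))))))))) (B (M (nat_lit 457) (B (M (nat_lit 329) (B (M (nat_lit 328) (B (lo19_13_7 (nat_lit 296)) (lo19_14_7 (nat_lit 360)))) (M (nat_lit 456) (B (lo19_10_5 (nat_lit 424)) (lo19_11_5 (nat_lit 488)))))) (B (M (nat_lit 489) (B (M (nat_lit 360) (B (lo19_14_7 (nat_lit 328)) (lo19_15_7 (nat_lit 392)))) (M (nat_lit 488) (B (lo19_11_5 (nat_lit 456)) (lo19_12_5 (nat_lit 520)))))) (B (K _ _ _ o1_s20108) (B (M (nat_lit 364) (B (lo112_10_4 (nat_lit 332)) (M (nat_lit 329) (B (M (nat_lit 456) (B (lo19_10_5 (nat_lit 424)) (lo19_11_5 (nat_lit 488)))) (M (nat_lit 362) (B (lo19_14_6 (nat_lit 330)) (M (nat_lit 363) (B (lo112_11_3 (nat_lit 328)) (lo112_11_1 (nat_lit 392)))))))))) (B (K _ _ _ o1_s20174) (K _ _ _ o1_s20183))))))) (B (M (nat_lit 457) (B (M (nat_lit 329) (B (M (nat_lit 328) (B (lo19_13_7 (nat_lit 296)) (lo19_14_7 (nat_lit 360)))) (M (nat_lit 456) (B (lo19_10_5 (nat_lit 424)) (lo19_11_5 (nat_lit 488)))))) (B (M (nat_lit 489) (B (M (nat_lit 360) (B (lo19_14_7 (nat_lit 328)) (lo19_15_7 (nat_lit 392)))) (M (nat_lit 488) (B (lo19_11_5 (nat_lit 456)) (lo19_12_5 (nat_lit 520)))))) (B (K _ _ _ o1_s20108) (B (M (nat_lit 489) (B (M (nat_lit 488) (B (lo19_11_5 (nat_lit 456)) (lo19_12_5 (nat_lit 520)))) (B (M (nat_lit 521) (B (M (nat_lit 522) (B (lo19_12_4 (nat_lit 490)) (lo19_13_4 (nat_lit 554)))) (M (nat_lit 520) (B (lo19_12_5 (nat_lit 488)) (lo19_13_5 (nat_lit 552)))))) (M (nat_lit 521) (B (M (nat_lit 522) (B (lo19_12_4 (nat_lit 490)) (lo19_13_4 (nat_lit 554)))) (M (nat_lit 424) (B (lo19_16_7 (nat_lit 392)) (M (nat_lit 456) (B (lo19_10_5 (nat_lit 329)) (lo19_17_7 (nat_lit 553))))))))))) (B (K _ _ _ o1_s20174) (M (nat_lit 329) (B (M (nat_lit 328) (B (lo19_13_7 (nat_lit 296)) (lo19_14_7 (nat_lit 360)))) (B (M (nat_lit 392) (B (M (nat_lit 424) (B (lo19_9_5 (nat_lit 297)) (lo19_10_5 (nat_lit 456)))) (M (nat_lit 360) (B (lo19_14_7 (nat_lit 328)) (lo19_15_7 (nat_lit 489)))))) (M (nat_lit 297) (B (M (nat_lit 424) (B (lo19_9_5 (nat_lit 392)) (lo19_10_5 (nat_lit 456)))) (M (nat_lit 265) (B (M (nat_lit 266) (B (lo19_11_6 (nat_lit 234)) (lo19_12_6 (nat_lit 298)))) (M (nat_lit 264) (B (lo19_11_7 (nat_lit 232)) (lo19_12_7 (nat_lit 296))))))))))))))))) (B (M (nat_lit 362) (B (K _ _ _ o1_s20218) (B (K _ _ _ o1_s20054) (B (M (nat_lit 360) (B (M (nat_lit 328) (B (lo19_14_7 (nat_lit 457)) (M (nat_lit 363) (B (lo18_11_0 (nat_lit 395)) (lo111_11_3 (nat_lit 327)))))) (B (M (nat_lit 328) (B (lo19_14_7 (nat_lit 457)) (M (nat_lit 296) (B (lo18_8_4 (nat_lit 264)) (lo18_9_4 (nat_lit 392)))))) (M (nat_lit 363) (B (lo18_11_0 (nat_lit 395)) (M (nat_lit 364) (B (lo112_10_4 (nat_lit 332)) (lo112_11_1 (nat_lit 392))))))))) (B (M (nat_lit 363) (B (M (nat_lit 364) (B (lo112_10_4 (nat_lit 332)) (lo112_11_1 (nat_lit 392)))) (B (M (nat_lit 360) (B (lo18_11_0 (nat_lit 395)) (M (nat_lit 328) (B (lo111_11_3 (nat_lit 327)) (M (nat_lit 296) (B (lo18_8_4 (nat_lit 264)) (lo18_9_4 (nat_lit 392)))))))) (M (nat_lit 360) (B (lo18_11_0 (nat_lit 395)) (M (nat_lit 332) (B (lo112_10_4 (nat_lit 364)) (lo18_11_2 (nat_lit 331))))))))) (B (M (nat_lit 363) (B (M (nat_lit 364) (B (lo112_10_4 (nat_lit 332)) (lo112_11_1 (nat_lit 392)))) (M (nat_lit 330) (B (lo19_14_6 (nat_lit 457)) (M (nat_lit 395) (B (lo111_14_7 (nat_lit 459)) (M (nat_lit 298) (B (lo111_13_7 (nat_lit 331)) (lo110_8_4 (nat_lit 266)))))))))) (M (nat_lit 332) (B (lo112_10_4 (nat_lit 364)) (M (nat_lit 360) (B (M (nat_lit 363) (B (lo18_11_2 (nat_lit 331)) (lo18_11_0 (nat_lit 395)))) (M (nat_lit 457) (B (lo19_14_6 (nat_lit 330)) (lo19_14_7 (nat_lit 328)))))))))))))) (B (K _ _ _ o1_s20099) (B (M (nat_lit 457) (B (M (nat_lit 329) (B (M (nat_lit 330) (B (lo19_13_6 (nat_lit 298)) (lo19_14_6 (nat_lit 362)))) (M (nat_lit 456) (B (lo19_10_5 (nat_lit 424)) (lo19_11_5 (nat_lit 488)))))) (B (M (nat_lit 489) (B (M (nat_lit 360) (B (lo19_14_7 (nat_lit 328)) (lo19_15_7 (nat_lit 392)))) (M (nat_lit 488) (B (lo19_11_5 (nat_lit 456)) (lo19_12_5 (nat_lit 520)))))) (K _ _ _ o1_s20183)))) (B (M (nat_lit 329) (B (M (nat_lit 457) (B (M (nat_lit 330) (B (lo19_13_6 (nat_lit 298)) (lo19_14_6 (nat_lit 362)))) (M (nat_lit 456) (B (lo19_10_5 (nat_lit 424)) (lo19_11_5 (nat_lit 488)))))) (B (M (nat_lit 330) (B (M (nat_lit 457) (B (lo19_14_6 (nat_lit 362)) (M (nat_lit 456) (B (lo19_10_5 (nat_lit 424)) (lo19_11_5 (nat_lit 488)))))) (B (M (nat_lit 332) (B (lo112_10_4 (nat_lit 364)) (M (nat_lit 297) (B (M (nat_lit 331) (B (lo112_10_3 (nat_lit 296)) (lo112_10_1 (nat_lit 360)))) (M (nat_lit 424) (B (lo19_9_5 (nat_lit 392)) (lo19_10_5 (nat_lit 456)))))))) (M (nat_lit 332) (B (lo112_10_4 (nat_lit 364)) (M (nat_lit 331) (B (lo112_10_1 (nat_lit 360)) (M (nat_lit 362) (B (lo113_10_1 (nat_lit 333)) (lo19_14_6 (nat_lit 457))))))))))) (B (K _ _ _ o1_s19964) (M (nat_lit 330) (B (lo19_13_6 (nat_lit 298)) (M (nat_lit 332) (B (lo112_10_4 (nat_lit 364)) (M (nat_lit 331) (B (lo112_10_1 (nat_lit 360)) (M (nat_lit 362) (B (lo113_10_1 (nat_lit 333)) (lo19_14_6 (nat_lit 457)))))))))))))) (K _ _ _ o1_s20141)))))))))) (B (M (nat_lit 361) (B (M (nat_lit 426) (B (lo112_13_3 (nat_lit 392)) (M (nat_lit 424) (B (lo18_13_2 (nat_lit 395)) (M (nat_lit 456) (B (lo111_13_1 (nat_lit 455)) (lo19_10_5 (nat_lit 329)))))))) (B (M (nat_lit 329) (B (M (nat_lit 297) (B (M (nat_lit 298) (B (lo19_12_6 (nat_lit 266)) (lo19_13_6 (nat_lit 330)))) (M (nat_lit 296) (B (lo19_12_7 (nat_lit 264)) (lo19_13_7 (nat_lit 328)))))) (B (M (nat_lit 392) (B (lo112_13_3 (nat_lit 426)) (M (nat_lit 297) (B (lo19_9_5 (nat_lit 424)) (M (nat_lit 296) (B (lo19_12_7 (nat_lit 264)) (lo19_13_7 (nat_lit 328)))))))) (B (K _ _ _ o1_s20098) (M (nat_lit 298) (B (lo19_13_6 (nat_lit 330)) (M (nat_lit 297) (B (lo19_12_6 (nat_lit 266)) (M (nat_lit 392) (B (lo112_13_3 (nat_lit 426)) (lo19_9_5 (nat_lit 424)))))))))))) (B (K _ _ _ o1_s20099) (B (M (nat_lit 395) (B (M (nat_lit 426) (B (lo18_13_2 (nat_lit 424)) (lo112_13_3 (nat_lit 392)))) (M (nat_lit 363) (B (M (nat_lit 332) (B (lo112_10_4 (nat_lit 364)) (M (nat_lit 331) (B (lo111_13_6 (nat_lit 300)) (lo111_9_4 (nat_lit 299)))))) (B (M (nat_lit 459) (B (M (nat_lit 364) (B (lo112_10_4 (nat_lit 332)) (lo111_15_6 (nat_lit 491)))) (M (nat_lit 362) (B (lo18_11_0 (nat_lit 360)) (lo111_14_7 (nat_lit 330)))))) (B (M (nat_lit 459) (B (M (nat_lit 491) (B (lo111_15_6 (nat_lit 364)) (lo111_16_6 (nat_lit 523)))) (M (nat_lit 362) (B (lo18_11_0 (nat_lit 360)) (lo111_14_7 (nat_lit 330)))))) (M (nat_lit 330) (B (M (nat_lit 331) (B (lo111_9_4 (nat_lit 299)) (lo111_13_7 (nat_lit 298)))) (M (nat_lit 362) (B (lo18_11_0 (nat_lit 360)) (lo111_14_7 (nat_lit 459)))))))))))) (B (K _ _ _ o1_s20361) (K _ _ _ o1_s20416))))))) (B (M (nat_lit 361) (B (K _ _ _ o1_s20421) (B (M (nat_lit 456) (B (M (nat_lit 457) (B (lo112_13_1 (nat_lit 426)) (lo19_11_5 (nat_lit 488)))) (B (M (nat_lit 424) (B (lo19_10_5 (nat_lit 329)) (M (nat_lit 488) (B (lo19_11_5 (nat_lit 457)) (lo18_16_6 (nat_lit 520)))))) (M (nat_lit 424) (B (lo19_10_5 (nat_lit 329)) (M (nat_lit 426) (B (lo18_13_2 (nat_lit 395)) (lo111_13_1 (nat_lit 455))))))))) (B (K _ _ _ o1_s20161) (B (M (nat_lit 332) (B (lo112_10_4 (nat_lit 364)) (M (nat_lit 457) (B (M (nat_lit 456) (B (lo112_13_1 (nat_lit 426)) (lo19_11_5 (nat_lit 488)))) (M (nat_lit 362) (B (lo19_14_6 (nat_lit 330)) (M (nat_lit 360) (B (lo19_14_7 (nat_lit 328)) (M (nat_lit 363) (B (lo18_11_2 (nat_lit 331)) (lo18_11_0 (nat_lit 395)))))))))))) (B (K _ _ _ o1_s20361) (M (nat_lit 332) (B (lo112_10_4 (nat_lit 364)) (M (nat_lit 330) (B (M (nat_lit 362) (B (lo19_14_6 (nat_lit 457)) (M (nat_lit 298) (B (lo110_8_5 (nat_lit 266)) (lo19_13_6 (nat_lit 329)))))) (B (M (nat_lit 331) (B (M (nat_lit 362) (B (lo113_10_1 (nat_lit 333)) (lo19_14_6 (nat_lit 457)))) (M (nat_lit 329) (B (lo112_10_1 (nat_lit 360)) (lo19_13_6 (nat_lit 298)))))) (B (M (nat_lit 362) (B (lo19_14_6 (nat_lit 457)) (M (nat_lit 331) (B (lo113_10_1 (nat_lit 333)) (M (nat_lit 360) (B (lo18_11_2 (nat_lit 363)) (lo17_11_2 (nat_lit 359)))))))) (M (nat_lit 329) (B (lo19_13_6 (nat_lit 298)) (M (nat_lit 296) (B (lo19_13_7 (nat_lit 328)) (M (nat_lit 331) (B (lo112_10_3 (nat_lit 297)) (lo112_10_1 (nat_lit 360)))))))))))))))))))) (B (M (nat_lit 361) (B (M (nat_lit 426) (B (lo112_13_3 (nat_lit 392)) (M (nat_lit 457) (B (lo112_13_1 (nat_lit 456)) (M (nat_lit 328) (B (lo19_14_7 (nat_lit 360)) (M (nat_lit 330) (B (lo19_14_6 (nat_lit 362)) (M (nat_lit 329) (B (lo19_13_6 (nat_lit 298)) (lo19_13_7 (nat_lit 296)))))))))))) (B (M (nat_lit 457) (B (M (nat_lit 426) (B (lo112_13_3 (nat_lit 392)) (lo112_13_1 (nat_lit 456)))) (B (M (nat_lit 489) (B (M (nat_lit 360) (B (lo19_14_7 (nat_lit 328)) (lo19_15_7 (nat_lit 392)))) (M (nat_lit 488) (B (lo19_11_5 (nat_lit 456)) (lo19_12_5 (nat_lit 520)))))) (B (M (nat_lit 456) (B (lo112_13_1 (nat_lit 426)) (lo19_11_5 (nat_lit 488)))) (M (nat_lit 360) (B (lo19_14_7 (nat_lit 328)) (M (nat_lit 392) (B (lo112_13_3 (nat_lit 426)) (lo19_15_7 (nat_lit 489)))))))))) (B (M (nat_lit 328) (B (M (nat_lit 296) (B (lo19_13_7 (nat_lit 329)) (M (nat_lit 360) (B (lo19_14_7 (nat_lit 457)) (lo18_8_4 (nat_lit 264)))))) (B (M (nat_lit 360) (B (lo19_14_7 (nat_lit 457)) (M (nat_lit 296) (B (lo18_8_4 (nat_lit 264)) (lo18_9_4 (nat_lit 392)))))) (B (M (nat_lit 296) (B (lo19_13_7 (nat_lit 329)) (M (nat_lit 360) (B (lo18_8_4 (nat_lit 264)) (lo18_9_4 (nat_lit 392)))))) (B (M (nat_lit 296) (B (lo19_13_7 (nat_lit 329)) (M (nat_lit 360) (B (lo19_14_7 (nat_lit 457)) (lo18_9_4 (nat_lit 392)))))) (B (M (nat_lit 362) (B (M (nat_lit 457) (B (lo19_14_6 (nat_lit 330)) (lo19_14_7 (nat_lit 360)))) (M (nat_lit 364) (B (lo112_10_4 (nat_lit 332)) (M (nat_lit 363) (B (lo112_11_3 (nat_lit 329)) (lo112_11_1 (nat_lit 392)))))))) (M (nat_lit 329) (B (lo19_13_7 (nat_lit 296)) (M (nat_lit 362) (B (M (nat_lit 364) (B (lo112_10_4 (nat_lit 332)) (lo112_11_3 (nat_lit 363)))) (M (nat_lit 330) (B (lo19_13_6 (nat_lit 298)) (lo19_14_6 (nat_lit 457)))))))))))))) (B (K _ _ _ o1_s20416) (B (K _ _ _ o1_s20522) (K _ _ _ o1_s20421))))))) (M (nat_lit 361) (B (K _ _ _ o1_s20522) (B (M (nat_lit 392) (B (lo112_13_3 (nat_lit 426)) (M (nat_lit 362) (B (M (nat_lit 363) (B (lo112_11_1 (nat_lit 364)) (M (nat_lit 360) (B (lo18_11_0 (nat_lit 395)) (lo111_11_1 (nat_lit 391)))))) (M (nat_lit 330) (B (lo19_14_6 (nat_lit 457)) (M (nat_lit 298) (B (lo110_8_5 (nat_lit 266)) (lo19_13_6 (nat_lit 329)))))))))) (B (M (nat_lit 392) (B (lo112_13_3 (nat_lit 426)) (M (nat_lit 329) (B (M (nat_lit 297) (B (lo19_9_5 (nat_lit 424)) (M (nat_lit 296) (B (lo19_12_7 (nat_lit 264)) (lo19_13_7 (nat_lit 328)))))) (B (M (nat_lit 457) (B (M (nat_lit 330) (B (lo19_13_6 (nat_lit 298)) (lo19_14_6 (nat_lit 362)))) (M (nat_lit 328) (B (lo19_13_7 (nat_lit 296)) (lo19_14_7 (nat_lit 360)))))) (M (nat_lit 298) (B (lo19_13_6 (nat_lit 330)) (M (nat_lit 297) (B (lo19_12_6 (nat_lit 266)) (lo19_9_5 (nat_lit 424))))))))))) (B (M (nat_lit 364) (B (lo112_10_4 (nat_lit 332)) (M (nat_lit 392) (B (lo112_13_3 (nat_lit 426)) (M (nat_lit 457) (B (M (nat_lit 362) (B (lo112_11_1 (nat_lit 363)) (lo19_14_6 (nat_lit 330)))) (M (nat_lit 360) (B (lo19_14_7 (nat_lit 328)) (lo19_15_7 (nat_lit 489)))))))))) (B (M (nat_lit 332) (B (lo112_10_4 (nat_lit 364)) (M (nat_lit 360) (B (M (nat_lit 328) (B (lo19_14_7 (nat_lit 457)) (M (nat_lit 296) (B (lo19_13_7 (nat_lit 329)) (lo18_8_4 (nat_lit 264)))))) (B (M (nat_lit 328) (B (lo19_14_7 (nat_lit 457)) (M (nat_lit 296) (B (lo18_8_4 (nat_lit 264)) (lo18_9_4 (nat_lit 392)))))) (M (nat_lit 363) (B (M (nat_lit 362) (B (lo18_11_2 (nat_lit 331)) (lo18_11_0 (nat_lit 395)))) (B (M (nat_lit 395) (B (lo18_11_0 (nat_lit 362)) (M (nat_lit 426) (B (lo18_13_2 (nat_lit 424)) (lo112_13_3 (nat_lit 392)))))) (B (M (nat_lit 362) (B (lo18_11_2 (nat_lit 331)) (M (nat_lit 392) (B (lo112_13_3 (nat_lit 426)) (lo111_11_1 (nat_lit 391)))))) (M (nat_lit 395) (B (M (nat_lit 331) (B (lo111_13_6 (nat_lit 300)) (lo111_9_4 (nat_lit 299)))) (M (nat_lit 426) (B (lo18_13_2 (nat_lit 424)) (lo112_13_3 (nat_lit 392))))))))))))))) (B (M (nat_lit 329) (B (M (nat_lit 297) (B (M (nat_lit 298) (B (lo19_12_6 (nat_lit 266)) (lo19_13_6 (nat_lit 330)))) (M (nat_lit 296) (B (lo19_12_7 (nat_lit 264)) (lo19_13_7 (nat_lit 328)))))) (B (M (nat_lit 392) (B (lo112_13_3 (nat_lit 426)) (M (nat_lit 297) (B (lo19_9_5 (nat_lit 424)) (M (nat_lit 296) (B (lo19_12_7 (nat_lit 264)) (lo19_13_7 (nat_lit 328)))))))) (B (M (nat_lit 332) (B (lo112_10_4 (nat_lit 364)) (M (nat_lit 360) (B (M (nat_lit 330) (B (lo112_10_1 (nat_lit 331)) (lo19_13_6 (nat_lit 298)))) (M (nat_lit 328) (B (lo19_13_7 (nat_lit 296)) (lo19_14_7 (nat_lit 457)))))))) (M (nat_lit 298) (B (lo19_13_6 (nat_lit 330)) (M (nat_lit 297) (B (lo19_12_6 (nat_lit 266)) (M (nat_lit 392) (B (lo112_13_3 (nat_lit 426)) (lo19_9_5 (nat_lit 424)))))))))))) (B (M (nat_lit 362) (B (M (nat_lit 330) (B (lo19_14_6 (nat_lit 457)) (M (nat_lit 298) (B (lo110_8_5 (nat_lit 266)) (lo19_13_6 (nat_lit 329)))))) (B (K _ _ _ o1_s20218) (B (M (nat_lit 328) (B (M (nat_lit 296) (B (lo19_13_7 (nat_lit 329)) (M (nat_lit 360) (B (lo19_14_7 (nat_lit 457)) (lo18_8_4 (nat_lit 264)))))) (B (M (nat_lit 360) (B (lo19_14_7 (nat_lit 457)) (M (nat_lit 363) (B (lo18_11_0 (nat_lit 395)) (lo111_11_3 (nat_lit 327)))))) (M (nat_lit 364) (B (lo112_10_4 (nat_lit 332)) (M (nat_lit 329) (B (lo112_11_3 (nat_lit 363)) (lo19_13_7 (nat_lit 296))))))))) (M (nat_lit 328) (B (M (nat_lit 364) (B (lo112_10_4 (nat_lit 332)) (M (nat_lit 329) (B (lo112_11_3 (nat_lit 363)) (lo19_13_7 (nat_lit 296)))))) (B (M (nat_lit 296) (B (lo19_13_7 (nat_lit 329)) (M (nat_lit 360) (B (lo18_8_4 (nat_lit 264)) (lo18_9_4 (nat_lit 392)))))) (B (M (nat_lit 360) (B (M (nat_lit 363) (B (lo18_11_0 (nat_lit 395)) (lo111_11_3 (nat_lit 327)))) (M (nat_lit 296) (B (lo18_8_4 (nat_lit 264)) (lo18_9_4 (nat_lit 392)))))) (M (nat_lit 364) (B (lo112_10_4 (nat_lit 332)) (M (nat_lit 363) (B (lo112_11_3 (nat_lit 329)) (lo112_11_1 (nat_lit 392)))))))))))))) (B (M (nat_lit 395) (B (M (nat_lit 426) (B (lo18_13_2 (nat_lit 424)) (lo112_13_3 (nat_lit 392)))) (M (nat_lit 363) (B (M (nat_lit 332) (B (lo112_10_4 (nat_lit 364)) (M (nat_lit 331) (B (lo111_13_6 (nat_lit 300)) (lo111_9_4 (nat_lit 299)))))) (B (M (nat_lit 459) (B (M (nat_lit 364) (B (lo112_10_4 (nat_lit 332)) (lo111_15_6 (nat_lit 491)))) (M (nat_lit 362) (B (lo18_11_0 (nat_lit 360)) (lo111_14_7 (nat_lit 330)))))) (M (nat_lit 330) (B (M (nat_lit 331) (B (lo111_9_4 (nat_lit 299)) (lo111_13_7 (nat_lit 298)))) (M (nat_lit 362) (B (lo18_11_0 (nat_lit 360)) (lo111_14_7 (nat_lit 459))))))))))) (M (nat_lit 332) (B (lo112_10_4 (nat_lit 364)) (M (nat_lit 360) (B (M (nat_lit 328) (B (lo19_14_7 (nat_lit 457)) (M (nat_lit 296) (B (lo19_13_7 (nat_lit 329)) (lo18_8_4 (nat_lit 264)))))) (B (M (nat_lit 362) (B (M (nat_lit 363) (B (lo18_11_2 (nat_lit 331)) (lo18_11_0 (nat_lit 395)))) (M (nat_lit 457) (B (lo19_14_6 (nat_lit 330)) (lo19_14_7 (nat_lit 328)))))) (B (M (nat_lit 362) (B (M (nat_lit 363) (B (lo18_11_2 (nat_lit 331)) (lo18_11_0 (nat_lit 395)))) (B (M (nat_lit 328) (B (M (nat_lit 363) (B (lo18_11_0 (nat_lit 395)) (lo111_11_3 (nat_lit 327)))) (M (nat_lit 296) (B (lo19_13_7 (nat_lit 329)) (lo18_8_4 (nat_lit 264)))))) (M (nat_lit 330) (B (M (nat_lit 331) (B (lo113_10_1 (nat_lit 333)) (lo112_10_1 (nat_lit 329)))) (B (M (nat_lit 331) (B (lo112_10_1 (nat_lit 329)) (lo17_11_2 (nat_lit 359)))) (B (M (nat_lit 298) (B (lo110_8_5 (nat_lit 266)) (lo19_13_6 (nat_lit 329)))) (M (nat_lit 331) (B (lo113_10_1 (nat_lit 333)) (lo17_11_2 (nat_lit 359))))))))))) (M (nat_lit 362) (B (M (nat_lit 363) (B (lo18_11_2 (nat_lit 331)) (lo18_11_0 (nat_lit 395)))) (M (nat_lit 330) (B (lo19_14_6 (nat_lit 457)) (M (nat_lit 298) (B (lo110_8_5 (nat_lit 266)) (lo19_13_6 (nat_lit 329)))))))))))))))))))))))))))))) (M (nat_lit 395) (B (lo19_12_0 (nat_lit 394)) (M (nat_lit 363) (B (M (nat_lit 332) (B (lo112_10_4 (nat_lit 364)) (M (nat_lit 331) (B (lo111_13_6 (nat_lit 300)) (lo111_9_4 (nat_lit 299)))))) (B (M (nat_lit 364) (B (lo112_10_4 (nat_lit 332)) (M (nat_lit 362) (B (M (nat_lit 361) (B (lo112_11_1 (nat_lit 392)) (lo18_11_0 (nat_lit 360)))) (M (nat_lit 459) (B (lo111_15_6 (nat_lit 491)) (lo111_14_7 (nat_lit 330)))))))) (B (M (nat_lit 331) (B (lo111_9_4 (nat_lit 299)) (M (nat_lit 330) (B (lo111_13_7 (nat_lit 298)) (M (nat_lit 362) (B (lo111_14_7 (nat_lit 459)) (M (nat_lit 364) (B (M (nat_lit 329) (B (lo113_11_3 (nat_lit 365)) (lo18_10_0 (nat_lit 328)))) (M (nat_lit 361) (B (lo112_11_1 (nat_lit 392)) (lo18_11_0 (nat_lit 360)))))))))))) (M (nat_lit 331) (B (lo111_9_4 (nat_lit 299)) (M (nat_lit 330) (B (lo111_13_7 (nat_lit 298)) (M (nat_lit 362) (B (lo111_14_7 (nat_lit 459)) (M (nat_lit 332) (B (lo111_13_6 (nat_lit 300)) (M (nat_lit 361) (B (lo113_10_1 (nat_lit 333)) (lo18_11_2 (nat_lit 360)))))))))))))))))))))))))) (M (nat_lit 493) (B (M (nat_lit 396) (B (lo113_16_7 (nat_lit 525)) (M (nat_lit 364) (B (lo112_10_4 (nat_lit 332)) (lo112_11_4 (nat_lit 460)))))) (B (M (nat_lit 491) (B (M (nat_lit 492) (B (M (nat_lit 462) (B (lo110_15_2 (nat_lit 490)) (M (nat_lit 463) (B (lo116_14_3 (nat_lit 464)) (lo115_14_3 (nat_lit 460)))))) (B (M (nat_lit 462) (B (lo110_15_2 (nat_lit 490)) (M (nat_lit 463) (B (lo111_15_2 (nat_lit 494)) (lo115_14_3 (nat_lit 460)))))) (B (M (nat_lit 460) (B (M (nat_lit 396) (B (lo112_11_4 (nat_lit 364)) (lo112_12_5 (nat_lit 523)))) (M (nat_lit 524) (B (lo112_17_6 (nat_lit 556)) (lo112_16_7 (nat_lit 395)))))) (M (nat_lit 462) (B (lo110_15_2 (nat_lit 490)) (M (nat_lit 463) (B (lo116_14_3 (nat_lit 464)) (lo111_15_2 (nat_lit 494)))))))))) (B (M (nat_lit 460) (B (M (nat_lit 396) (B (lo112_11_4 (nat_lit 364)) (M (nat_lit 523) (B (lo112_12_5 (nat_lit 492)) (lo111_16_6 (nat_lit 459)))))) (B (M (nat_lit 462) (B (lo115_14_3 (nat_lit 463)) (M (nat_lit 490) (B (lo110_15_2 (nat_lit 492)) (lo114_14_1 (nat_lit 459)))))) (B (M (nat_lit 459) (B (M (nat_lit 462) (B (lo115_14_3 (nat_lit 463)) (lo114_14_1 (nat_lit 490)))) (M (nat_lit 396) (B (lo112_11_4 (nat_lit 364)) (lo111_16_6 (nat_lit 523)))))) (M (nat_lit 492) (B (M (nat_lit 462) (B (lo115_14_3 (nat_lit 463)) (lo110_15_2 (nat_lit 490)))) (M (nat_lit 396) (B (lo112_11_4 (nat_lit 364)) (lo112_12_5 (nat_lit 523)))))))))) (B (M (nat_lit 459) (B (M (nat_lit 396) (B (lo111_16_6 (nat_lit 523)) (M (nat_lit 364) (B (lo112_10_4 (nat_lit 332)) (lo111_15_6 (nat_lit 395)))))) (B (M (nat_lit 396) (B (lo111_16_6 (nat_lit 523)) (M (nat_lit 364) (B (lo112_11_4 (nat_lit 460)) (lo111_15_6 (nat_lit 395)))))) (B (M (nat_lit 492) (B (M (nat_lit 524) (B (lo111_12_4 (nat_lit 395)) (M (nat_lit 556) (B (lo112_17_6 (nat_lit 460)) (lo112_18_6 (nat_lit 588)))))) (B (M (nat_lit 524) (B (lo111_12_4 (nat_lit 395)) (M (nat_lit 556) (B (lo112_18_6 (nat_lit 588)) (lo111_13_4 (nat_lit 523)))))) (M (nat_lit 523) (B (lo111_16_6 (nat_lit 396)) (M (nat_lit 522) (B (lo114_15_1 (nat_lit 494)) (lo111_13_5 (nat_lit 554))))))))) (B (M (nat_lit 492) (B (M (nat_lit 524) (B (lo111_12_4 (nat_lit 395)) (M (nat_lit 556) (B (lo112_17_6 (nat_lit 460)) (lo112_18_6 (nat_lit 588)))))) (B (M (nat_lit 524) (B (lo111_12_4 (nat_lit 395)) (M (nat_lit 556) (B (lo112_18_6 (nat_lit 588)) (lo111_13_4 (nat_lit 523)))))) (B (M (nat_lit 490) (B (lo110_15_2 (nat_lit 462)) (M (nat_lit 522) (B (lo113_15_1 (nat_lit 521)) (lo111_12_5 (nat_lit 395)))))) (M (nat_lit 522) (B (M (nat_lit 490) (B (lo110_15_2 (nat_lit 462)) (lo113_15_1 (nat_lit 521)))) (M (nat_lit 523) (B (lo114_15_1 (nat_lit 494)) (lo111_13_5 (nat_lit 554)))))))))) (B (M (nat_lit 396) (B (lo111_16_6 (nat_lit 523)) (M (nat_lit 364) (B (lo112_10_4 (nat_lit 332)) (lo112_11_4 (nat_lit 460)))))) (K _ _ _ o1_s20737))))))) (B (M (nat_lit 459) (B (M (nat_lit 396) (B (lo111_16_6 (nat_lit 523)) (M (nat_lit 364) (B (lo112_10_4 (nat_lit 332)) (lo111_15_6 (nat_lit 395)))))) (B (M (nat_lit 396) (B (lo111_16_6 (nat_lit 523)) (M (nat_lit 364) (B (lo112_11_4 (nat_lit 460)) (lo111_15_6 (nat_lit 395)))))) (B (M (nat_lit 523) (B (lo111_16_6 (nat_lit 396)) (M (nat_lit 555) (B (lo111_17_6 (nat_lit 460)) (M (nat_lit 556) (B (lo111_13_4 (nat_lit 524)) (lo111_14_4 (nat_lit 588)))))))) (B (M (nat_lit 523) (B (M (nat_lit 555) (B (lo111_17_6 (nat_lit 460)) (M (nat_lit 556) (B (lo111_13_4 (nat_lit 524)) (lo111_14_4 (nat_lit 588)))))) (B (M (nat_lit 395) (B (M (nat_lit 524) (B (lo111_12_4 (nat_lit 492)) (lo111_13_4 (nat_lit 556)))) (M (nat_lit 522) (B (lo111_12_5 (nat_lit 490)) (lo111_13_5 (nat_lit 554)))))) (M (nat_lit 555) (B (lo111_17_6 (nat_lit 460)) (M (nat_lit 554) (B (lo111_13_5 (nat_lit 522)) (lo111_14_5 (nat_lit 586))))))))) (K _ _ _ o1_s20769)))))) (B (M (nat_lit 459) (B (M (nat_lit 523) (B (lo111_16_6 (nat_lit 396)) (M (nat_lit 555) (B (lo111_17_6 (nat_lit 460)) (M (nat_lit 554) (B (lo111_13_5 (nat_lit 522)) (lo111_14_5 (nat_lit 586)))))))) (B (K _ _ _ o1_s20775) (M (nat_lit 492) (B (M (nat_lit 462) (B (lo110_15_2 (nat_lit 490)) (M (nat_lit 463) (B (lo116_14_3 (nat_lit 464)) (lo111_15_2 (nat_lit 494)))))) (M (nat_lit 524) (B (lo111_12_4 (nat_lit 395)) (M (nat_lit 556) (B (lo112_17_6 (nat_lit 460)) (lo112_18_6 (nat_lit 588))))))))))) (B (M (nat_lit 492) (B (M (nat_lit 462) (B (lo110_15_2 (nat_lit 490)) (M (nat_lit 463) (B (lo116_14_3 (nat_lit 464)) (lo115_14_3 (nat_lit 460)))))) (B (M (nat_lit 462) (B (lo110_15_2 (nat_lit 490)) (M (nat_lit 463) (B (lo111_15_2 (nat_lit 494)) (lo115_14_3 (nat_lit 460)))))) (B (M (nat_lit 524) (B (M (nat_lit 556) (B (lo112_17_6 (nat_lit 460)) (lo112_18_6 (nat_lit 588)))) (B (M (nat_lit 556) (B (lo112_18_6 (nat_lit 588)) (M (nat_lit 459) (B (lo111_12_4 (nat_lit 395)) (lo111_13_4 (nat_lit 523)))))) (M (nat_lit 395) (B (lo112_16_7 (nat_lit 460)) (lo111_12_4 (nat_lit 459))))))) (M (nat_lit 462) (B (lo110_15_2 (nat_lit 490)) (M (nat_lit 463) (B (lo116_14_3 (nat_lit 464)) (lo111_15_2 (nat_lit 494)))))))))) (B (M (nat_lit 459) (B (M (nat_lit 396) (B (lo111_16_6 (nat_lit 523)) (M (nat_lit 364) (B (lo112_10_4 (nat_lit 332)) (lo111_15_6 (nat_lit 395)))))) (B (M (nat_lit 396) (B (lo111_16_6 (nat_lit 523)) (M (nat_lit 395) (B (lo111_15_6 (nat_lit 364)) (M (nat_lit 394) (B (lo19_12_0 (nat_lit 393)) (lo111_15_7 (nat_lit 362)))))))) (B (M (nat_lit 523) (B (lo111_16_6 (nat_lit 396)) (M (nat_lit 555) (B (M (nat_lit 556) (B (lo111_13_4 (nat_lit 524)) (lo111_14_4 (nat_lit 588)))) (M (nat_lit 554) (B (lo111_13_5 (nat_lit 522)) (lo111_14_5 (nat_lit 586)))))))) (B (K _ _ _ o1_s20775) (K _ _ _ o1_s20737)))))) (B (M (nat_lit 459) (B (M (nat_lit 396) (B (lo111_16_6 (nat_lit 523)) (M (nat_lit 364) (B (lo112_10_4 (nat_lit 332)) (lo111_15_6 (nat_lit 395)))))) (B (M (nat_lit 396) (B (lo111_16_6 (nat_lit 523)) (M (nat_lit 364) (B (lo112_11_4 (nat_lit 460)) (lo111_15_6 (nat_lit 395)))))) (B (M (nat_lit 460) (B (M (nat_lit 462) (B (lo115_14_3 (nat_lit 463)) (lo114_14_1 (nat_lit 490)))) (M (nat_lit 523) (B (lo111_16_6 (nat_lit 396)) (lo111_17_6 (nat_lit 555)))))) (B (M (nat_lit 523) (B (M (nat_lit 555) (B (lo111_17_6 (nat_lit 460)) (M (nat_lit 556) (B (lo111_13_4 (nat_lit 524)) (lo111_14_4 (nat_lit 588)))))) (B (M (nat_lit 555) (B (M (nat_lit 556) (B (lo111_13_4 (nat_lit 524)) (lo111_14_4 (nat_lit 588)))) (M (nat_lit 554) (B (lo111_13_5 (nat_lit 522)) (lo111_14_5 (nat_lit 586)))))) (B (M (nat_lit 555) (B (lo111_17_6 (nat_lit 460)) (M (nat_lit 554) (B (lo111_13_5 (nat_lit 522)) (lo111_14_5 (nat_lit 586)))))) (M (nat_lit 395) (B (M (nat_lit 522) (B (lo111_12_5 (nat_lit 490)) (lo111_13_5 (nat_lit 554)))) (M (nat_lit 363) (B (M (nat_lit 362) (B (lo111_14_7 (nat_lit 330)) (lo111_15_7 (nat_lit 394)))) (M (nat_lit 332) (B (lo111_14_6 (nat_lit 364)) (M (nat_lit 331) (B (lo111_13_6 (nat_lit 300)) (lo111_10_4 (nat_lit 460)))))))))))))) (M (nat_lit 395) (B (M (nat_lit 396) (B (lo111_15_6 (nat_lit 364)) (M (nat_lit 394) (B (lo19_12_0 (nat_lit 393)) (lo111_15_7 (nat_lit 362)))))) (B (M (nat_lit 362) (B (lo111_15_7 (nat_lit 394)) (M (nat_lit 460) (B (M (nat_lit 490) (B (lo114_14_1 (nat_lit 462)) (lo111_12_5 (nat_lit 522)))) (M (nat_lit 363) (B (lo111_10_4 (nat_lit 331)) (lo111_14_7 (nat_lit 330)))))))) (M (nat_lit 364) (B (lo111_15_6 (nat_lit 396)) (M (nat_lit 460) (B (M (nat_lit 490) (B (lo114_14_1 (nat_lit 462)) (lo111_12_5 (nat_lit 522)))) (M (nat_lit 363) (B (lo111_14_6 (nat_lit 332)) (lo111_10_4 (nat_lit 331)))))))))))))))) (B (M (nat_lit 492) (B (M (nat_lit 462) (B (lo110_15_2 (nat_lit 490)) (M (nat_lit 463) (B (lo116_14_3 (nat_lit 464)) (lo115_14_3 (nat_lit 460)))))) (B (M (nat_lit 462) (B (lo110_15_2 (nat_lit 490)) (M (nat_lit 463) (B (lo111_15_2 (nat_lit 494)) (lo115_14_3 (nat_lit 460)))))) (B (M (nat_lit 460) (B (M (nat_lit 490) (B (lo110_15_2 (nat_lit 462)) (lo19_15_2 (nat_lit 489)))) (M (nat_lit 524) (B (lo112_17_6 (nat_lit 556)) (lo112_16_7 (nat_lit 395)))))) (B (M (nat_lit 395) (B (M (nat_lit 524) (B (lo112_16_7 (nat_lit 460)) (lo111_12_4 (nat_lit 459)))) (B (M (nat_lit 459) (B (lo111_12_4 (nat_lit 524)) (M (nat_lit 396) (B (lo111_15_6 (nat_lit 364)) (M (nat_lit 394) (B (lo19_12_0 (nat_lit 393)) (lo111_15_7 (nat_lit 362)))))))) (B (M (nat_lit 460) (B (M (nat_lit 396) (B (lo112_11_4 (nat_lit 364)) (lo112_15_7 (nat_lit 363)))) (B (M (nat_lit 363) (B (lo112_15_7 (nat_lit 396)) (lo111_10_4 (nat_lit 331)))) (B (M (nat_lit 363) (B (lo111_10_4 (nat_lit 331)) (lo111_11_4 (nat_lit 459)))) (M (nat_lit 490) (B (lo19_15_2 (nat_lit 489)) (M (nat_lit 522) (B (lo113_15_1 (nat_lit 521)) (lo111_12_5 (nat_lit 459)))))))))) (M (nat_lit 460) (B (lo112_16_7 (nat_lit 524)) (M (nat_lit 396) (B (lo112_11_4 (nat_lit 364)) (lo112_15_7 (nat_lit 363)))))))))) (B (M (nat_lit 462) (B (lo110_15_2 (nat_lit 490)) (M (nat_lit 463) (B (lo116_14_3 (nat_lit 464)) (lo111_15_2 (nat_lit 494)))))) (M (nat_lit 460) (B (M (nat_lit 524) (B (lo112_17_6 (nat_lit 556)) (lo112_16_7 (nat_lit 395)))) (M (nat_lit 494) (B (M (nat_lit 463) (B (lo111_15_2 (nat_lit 462)) (M (nat_lit 495) (B (lo112_15_2 (nat_lit 464)) (lo115_15_3 (nat_lit 459)))))) (B (M (nat_lit 462) (B (lo111_15_2 (nat_lit 463)) (M (nat_lit 526) (B (lo111_15_0 (nat_lit 527)) (lo114_17_7 (nat_lit 558)))))) (M (nat_lit 495) (B (lo115_15_3 (nat_lit 459)) (M (nat_lit 527) (B (lo112_15_0 (nat_lit 528)) (lo111_15_0 (nat_lit 526))))))))))))))))) (M (nat_lit 459) (B (M (nat_lit 396) (B (lo111_16_6 (nat_lit 523)) (M (nat_lit 364) (B (lo112_10_4 (nat_lit 332)) (lo111_15_6 (nat_lit 395)))))) (B (M (nat_lit 396) (B (lo111_16_6 (nat_lit 523)) (M (nat_lit 364) (B (lo112_11_4 (nat_lit 460)) (lo111_15_6 (nat_lit 395)))))) (B (M (nat_lit 523) (B (lo111_16_6 (nat_lit 396)) (M (nat_lit 555) (B (lo111_17_6 (nat_lit 460)) (M (nat_lit 556) (B (lo111_13_4 (nat_lit 524)) (lo111_14_4 (nat_lit 588)))))))) (B (M (nat_lit 523) (B (M (nat_lit 555) (B (lo111_17_6 (nat_lit 460)) (M (nat_lit 556) (B (lo111_13_4 (nat_lit 524)) (lo111_14_4 (nat_lit 588)))))) (B (M (nat_lit 555) (B (M (nat_lit 556) (B (lo111_13_4 (nat_lit 524)) (lo111_14_4 (nat_lit 588)))) (M (nat_lit 554) (B (lo111_13_5 (nat_lit 522)) (lo111_14_5 (nat_lit 586)))))) (B (M (nat_lit 555) (B (lo111_17_6 (nat_lit 460)) (M (nat_lit 554) (B (lo111_13_5 (nat_lit 522)) (lo111_14_5 (nat_lit 586)))))) (M (nat_lit 492) (B (M (nat_lit 522) (B (lo114_15_1 (nat_lit 494)) (lo111_13_5 (nat_lit 554)))) (M (nat_lit 524) (B (lo111_12_4 (nat_lit 395)) (lo111_13_4 (nat_lit 556)))))))))) (K _ _ _ o1_s20769)))))))))))))))) (B (M (nat_lit 525) (B (lo113_16_7 (nat_lit 396)) (M (nat_lit 557) (B (lo113_17_7 (nat_lit 460)) (M (nat_lit 558) (B (lo113_13_4 (nat_lit 526)) (lo113_14_4 (nat_lit 590)))))))) (B (M (nat_lit 525) (B (M (nat_lit 557) (B (lo113_17_7 (nat_lit 460)) (M (nat_lit 558) (B (lo113_13_4 (nat_lit 526)) (lo113_14_4 (nat_lit 590)))))) (B (M (nat_lit 557) (B (lo113_17_7 (nat_lit 460)) (M (nat_lit 556) (B (lo113_13_5 (nat_lit 524)) (lo113_14_5 (nat_lit 588)))))) (B (M (nat_lit 524) (B (lo113_13_5 (nat_lit 556)) (M (nat_lit 492) (B (M (nat_lit 526) (B (lo113_13_4 (nat_lit 558)) (M (nat_lit 527) (B (lo116_16_3 (nat_lit 528)) (lo115_16_3 (nat_lit 491)))))) (M (nat_lit 523) (B (M (nat_lit 494) (B (lo115_15_1 (nat_lit 495)) (lo110_16_2 (nat_lit 522)))) (M (nat_lit 460) (B (lo112_16_7 (nat_lit 395)) (lo112_13_5 (nat_lit 555)))))))))) (M (nat_lit 557) (B (M (nat_lit 558) (B (lo113_13_4 (nat_lit 526)) (lo113_14_4 (nat_lit 590)))) (M (nat_lit 556) (B (lo113_13_5 (nat_lit 524)) (lo113_14_5 (nat_lit 588)))))))))) (M (nat_lit 525) (B (lo113_16_7 (nat_lit 396)) (M (nat_lit 557) (B (M (nat_lit 558) (B (lo113_13_4 (nat_lit 526)) (lo113_14_4 (nat_lit 590)))) (M (nat_lit 556) (B (lo113_13_5 (nat_lit 524)) (lo113_14_5 (nat_lit 588))))))))))))))))) (B (M (nat_lit 426) (B (M (nat_lit 395) (B (M (nat_lit 425) (B (K _ _ _ o1_s9332) (B (K _ _ _ o1_s20909) (B (K _ _ _ o1_s9471) (K _ _ _ o1_s9480))))) (B (M (nat_lit 459) (B (K _ _ _ o1_s9524) (B (M (nat_lit 491) (B (K _ _ _ o1_s9550) (M (nat_lit 394) (B (lo111_15_7 (nat_lit 362)) (lo111_16_7 (nat_lit 523)))))) (B (M (nat_lit 363) (B (M (nat_lit 458) (B (lo111_10_5 (nat_lit 331)) (lo111_11_5 (nat_lit 490)))) (B (M (nat_lit 396) (B (M (nat_lit 364) (B (lo111_14_6 (nat_lit 332)) (lo111_15_6 (nat_lit 491)))) (M (nat_lit 330) (B (lo111_14_7 (nat_lit 362)) (M (nat_lit 331) (B (lo111_13_7 (nat_lit 298)) (lo111_9_4 (nat_lit 299)))))))) (M (nat_lit 490) (B (lo111_11_5 (nat_lit 458)) (M (nat_lit 491) (B (lo111_12_5 (nat_lit 522)) (M (nat_lit 364) (B (lo111_14_6 (nat_lit 332)) (lo111_15_6 (nat_lit 396))))))))))) (B (K _ _ _ o1_s9576) (B (K _ _ _ o1_s9594) (B (M (nat_lit 491) (B (M (nat_lit 523) (B (lo111_16_6 (nat_lit 396)) (lo111_16_7 (nat_lit 394)))) (B (M (nat_lit 364) (B (lo111_15_6 (nat_lit 396)) (M (nat_lit 490) (B (lo111_12_5 (nat_lit 522)) (M (nat_lit 363) (B (lo111_11_5 (nat_lit 458)) (lo111_14_6 (nat_lit 332)))))))) (M (nat_lit 458) (B (M (nat_lit 523) (B (lo111_17_7 (nat_lit 555)) (lo111_16_7 (nat_lit 394)))) (M (nat_lit 490) (B (lo111_12_5 (nat_lit 522)) (lo111_11_5 (nat_lit 363))))))))) (K _ _ _ o1_s9605)))))))) (B (M (nat_lit 363) (B (K _ _ _ o1_s9636) (B (K _ _ _ o1_s9669) (B (M (nat_lit 331) (B (lo111_10_5 (nat_lit 458)) (M (nat_lit 300) (B (lo111_13_6 (nat_lit 332)) (M (nat_lit 298) (B (lo111_13_7 (nat_lit 330)) (M (nat_lit 299) (B (lo111_12_6 (nat_lit 268)) (lo111_12_7 (nat_lit 266)))))))))) (M (nat_lit 458) (B (M (nat_lit 394) (B (lo113_13_3 (nat_lit 393)) (lo110_15_6 (nat_lit 490)))) (lo111_10_5 (nat_lit 331)))))))) (B (K _ _ _ o1_s9706) (K _ _ _ o1_s9725)))))) (B (M (nat_lit 425) (B (M (nat_lit 395) (B (K _ _ _ o1_s9860) (B (M (nat_lit 363) (B (M (nat_lit 459) (B (M (nat_lit 362) (B (M (nat_lit 364) (B (M (nat_lit 361) (B (K _ _ _ o1_s9869) (B (M (nat_lit 394) (B (M (nat_lit 458) (B (lo111_11_5 (nat_lit 490)) (lo110_14_7 (nat_lit 329)))) (M (nat_lit 360) (B (lo18_11_0 (nat_lit 396)) (lo17_11_0 (nat_lit 359)))))) (K _ _ _ o1_s9882)))) (lo111_14_6 (nat_lit 332)))) (lo111_14_7 (nat_lit 330)))) (B (K _ _ _ o1_s9370) (K _ _ _ o1_s9890)))) (B (K _ _ _ o1_s9859) (B (K _ _ _ o1_s9436) (M (nat_lit 458) (B (M (nat_lit 490) (B (lo111_11_5 (nat_lit 459)) (lo110_16_6 (nat_lit 522)))) (lo111_10_5 (nat_lit 331)))))))) (B (K _ _ _ o1_s9480) (M (nat_lit 424) (B (lo18_13_2 (nat_lit 396)) (M (nat_lit 423) (B (lo17_13_2 (nat_lit 394)) (M (nat_lit 455) (B (lo111_13_1 (nat_lit 456)) (lo110_13_1 (nat_lit 454)))))))))))) (B (K _ _ _ o1_s9949) (B (K _ _ _ o1_s9966) (M (nat_lit 457) (B (lo112_13_1 (nat_lit 456)) (lo113_13_1 (nat_lit 458)))))))) (B (M (nat_lit 425) (B (M (nat_lit 395) (B (K _ _ _ o1_s9332) (B (K _ _ _ o1_s20909) (B (K _ _ _ o1_s9471) (K _ _ _ o1_s9480))))) (B (K _ _ _ o1_s9975) (B (M (nat_lit 392) (B (lo112_13_3 (nat_lit 393)) (M (nat_lit 424) (B (lo111_13_3 (nat_lit 391)) (M (nat_lit 456) (B (lo111_13_1 (nat_lit 455)) (lo112_13_1 (nat_lit 457)))))))) (M (nat_lit 457) (B (lo112_13_1 (nat_lit 456)) (lo113_13_1 (nat_lit 458)))))))) (B (K _ _ _ o1_s10045) (K _ _ _ o1_s10011)))))) (B (M (nat_lit 460) (B (M (nat_lit 459) (B (M (nat_lit 457) (B (M (nat_lit 458) (B (lo18_14_2 (nat_lit 456)) (lo19_14_2 (nat_lit 429)))) (B (M (nat_lit 492) (B (M (nat_lit 458) (B (lo19_14_2 (nat_lit 429)) (lo19_14_0 (nat_lit 493)))) (M (nat_lit 395) (B (lo111_11_4 (nat_lit 363)) (lo112_16_7 (nat_lit 524)))))) (M (nat_lit 425) (B (M (nat_lit 426) (B (lo18_13_0 (nat_lit 424)) (lo112_13_1 (nat_lit 456)))) (B (M (nat_lit 393) (B (M (nat_lit 426) (B (lo112_13_3 (nat_lit 392)) (lo112_13_1 (nat_lit 456)))) (B (M (nat_lit 361) (B (M (nat_lit 456) (B (lo19_11_5 (nat_lit 488)) (lo112_13_1 (nat_lit 426)))) (M (nat_lit 329) (B (M (nat_lit 328) (B (lo19_13_7 (nat_lit 296)) (lo19_14_7 (nat_lit 360)))) (M (nat_lit 330) (B (lo19_13_6 (nat_lit 298)) (lo19_14_6 (nat_lit 362)))))))) (B (M (nat_lit 392) (B (lo112_13_3 (nat_lit 426)) (M (nat_lit 360) (B (lo19_15_7 (nat_lit 489)) (M (nat_lit 328) (B (lo18_9_4 (nat_lit 296)) (lo19_14_7 (nat_lit 361)))))))) (K _ _ _ o1_s21011))))) (B (M (nat_lit 489) (B (M (nat_lit 424) (B (lo18_13_0 (nat_lit 426)) (M (nat_lit 392) (B (lo19_16_7 (nat_lit 521)) (M (nat_lit 360) (B (lo18_10_4 (nat_lit 328)) (lo19_15_7 (nat_lit 393)))))))) (B (M (nat_lit 393) (B (M (nat_lit 392) (B (lo19_15_7 (nat_lit 360)) (lo112_13_3 (nat_lit 426)))) (M (nat_lit 488) (B (lo19_12_5 (nat_lit 520)) (M (nat_lit 490) (B (lo18_15_2 (nat_lit 491)) (lo19_12_4 (nat_lit 522)))))))) (B (M (nat_lit 521) (B (M (nat_lit 424) (B (lo19_16_7 (nat_lit 392)) (lo18_13_0 (nat_lit 426)))) (M (nat_lit 553) (B (M (nat_lit 552) (B (lo19_13_5 (nat_lit 520)) (lo19_14_5 (nat_lit 584)))) (M (nat_lit 554) (B (lo19_13_4 (nat_lit 522)) (lo19_14_4 (nat_lit 586)))))))) (M (nat_lit 490) (B (M (nat_lit 522) (B (lo19_12_4 (nat_lit 393)) (M (nat_lit 554) (B (lo19_13_4 (nat_lit 521)) (lo110_18_7 (nat_lit 586)))))) (B (M (nat_lit 522) (B (M (nat_lit 554) (B (lo19_13_4 (nat_lit 521)) (lo110_18_7 (nat_lit 586)))) (M (nat_lit 491) (B (lo18_15_2 (nat_lit 488)) (lo111_12_5 (nat_lit 395)))))) (B (M (nat_lit 522) (B (lo19_12_4 (nat_lit 393)) (M (nat_lit 491) (B (lo18_15_2 (nat_lit 488)) (lo111_12_5 (nat_lit 395)))))) (M (nat_lit 488) (B (lo18_15_2 (nat_lit 491)) (M (nat_lit 520) (B (lo19_12_5 (nat_lit 393)) (M (nat_lit 552) (B (lo18_18_6 (nat_lit 584)) (lo19_13_5 (nat_lit 521)))))))))))))))) (M (nat_lit 393) (B (M (nat_lit 489) (B (M (nat_lit 488) (B (lo19_12_5 (nat_lit 520)) (M (nat_lit 490) (B (lo18_15_2 (nat_lit 491)) (lo19_12_4 (nat_lit 522)))))) (B (M (nat_lit 521) (B (M (nat_lit 392) (B (lo19_15_7 (nat_lit 360)) (lo19_16_7 (nat_lit 424)))) (M (nat_lit 522) (B (lo19_12_4 (nat_lit 490)) (lo19_13_4 (nat_lit 554)))))) (M (nat_lit 521) (B (M (nat_lit 392) (B (lo19_15_7 (nat_lit 360)) (lo19_16_7 (nat_lit 424)))) (M (nat_lit 520) (B (lo19_12_5 (nat_lit 488)) (lo19_13_5 (nat_lit 552))))))))) (B (M (nat_lit 489) (B (M (nat_lit 488) (B (lo19_12_5 (nat_lit 520)) (M (nat_lit 490) (B (lo18_15_2 (nat_lit 491)) (lo19_12_4 (nat_lit 522)))))) (B (M (nat_lit 521) (B (M (nat_lit 522) (B (lo19_12_4 (nat_lit 490)) (lo19_13_4 (nat_lit 554)))) (M (nat_lit 553) (B (M (nat_lit 424) (B (lo19_16_7 (nat_lit 392)) (lo19_17_7 (nat_lit 456)))) (M (nat_lit 552) (B (lo19_13_5 (nat_lit 520)) (lo19_14_5 (nat_lit 584)))))))) (B (M (nat_lit 392) (B (M (nat_lit 521) (B (lo19_16_7 (nat_lit 424)) (M (nat_lit 522) (B (lo19_12_4 (nat_lit 490)) (lo19_13_4 (nat_lit 554)))))) (B (M (nat_lit 361) (B (M (nat_lit 488) (B (lo19_11_5 (nat_lit 456)) (M (nat_lit 490) (B (lo18_15_2 (nat_lit 491)) (lo19_12_4 (nat_lit 522)))))) (M (nat_lit 363) (B (M (nat_lit 362) (B (lo112_11_1 (nat_lit 364)) (lo19_14_6 (nat_lit 330)))) (M (nat_lit 395) (B (lo111_10_4 (nat_lit 331)) (lo111_11_4 (nat_lit 492)))))))) (M (nat_lit 361) (B (M (nat_lit 424) (B (lo19_16_7 (nat_lit 521)) (M (nat_lit 456) (B (lo18_15_6 (nat_lit 488)) (lo19_10_5 (nat_lit 329)))))) (M (nat_lit 363) (B (M (nat_lit 362) (B (lo112_11_1 (nat_lit 364)) (lo19_14_6 (nat_lit 330)))) (M (nat_lit 395) (B (lo111_10_4 (nat_lit 331)) (lo111_11_4 (nat_lit 492))))))))))) (M (nat_lit 392) (B (M (nat_lit 521) (B (lo19_16_7 (nat_lit 424)) (M (nat_lit 520) (B (lo19_12_5 (nat_lit 488)) (lo19_13_5 (nat_lit 552)))))) (B (M (nat_lit 361) (B (M (nat_lit 488) (B (lo19_11_5 (nat_lit 456)) (lo19_12_5 (nat_lit 520)))) (M (nat_lit 363) (B (M (nat_lit 362) (B (lo112_11_1 (nat_lit 364)) (lo19_14_6 (nat_lit 330)))) (M (nat_lit 395) (B (lo111_10_4 (nat_lit 331)) (lo111_11_4 (nat_lit 492)))))))) (M (nat_lit 361) (B (M (nat_lit 424) (B (lo19_16_7 (nat_lit 521)) (M (nat_lit 329) (B (lo19_9_5 (nat_lit 297)) (lo19_10_5 (nat_lit 456)))))) (M (nat_lit 363) (B (M (nat_lit 362) (B (lo112_11_1 (nat_lit 364)) (lo19_14_6 (nat_lit 330)))) (M (nat_lit 395) (B (lo111_10_4 (nat_lit 331)) (lo111_11_4 (nat_lit 492))))))))))))))) (B (M (nat_lit 361) (B (M (nat_lit 456) (B (lo19_11_5 (nat_lit 488)) (M (nat_lit 329) (B (lo19_10_5 (nat_lit 424)) (M (nat_lit 330) (B (lo19_13_6 (nat_lit 298)) (lo19_14_6 (nat_lit 362)))))))) (B (M (nat_lit 329) (B (M (nat_lit 328) (B (lo19_13_7 (nat_lit 296)) (lo19_14_7 (nat_lit 360)))) (M (nat_lit 330) (B (lo19_13_6 (nat_lit 298)) (lo19_14_6 (nat_lit 362)))))) (M (nat_lit 488) (B (lo19_11_5 (nat_lit 456)) (M (nat_lit 489) (B (lo19_12_5 (nat_lit 520)) (M (nat_lit 490) (B (lo18_15_2 (nat_lit 491)) (lo19_12_4 (nat_lit 522))))))))))) (B (K _ _ _ o1_s21011) (B (M (nat_lit 361) (B (M (nat_lit 329) (B (M (nat_lit 328) (B (lo19_13_7 (nat_lit 296)) (lo19_14_7 (nat_lit 360)))) (M (nat_lit 330) (B (lo19_13_6 (nat_lit 298)) (lo19_14_6 (nat_lit 362)))))) (B (M (nat_lit 363) (B (M (nat_lit 395) (B (lo111_10_4 (nat_lit 331)) (lo111_11_4 (nat_lit 492)))) (M (nat_lit 392) (B (M (nat_lit 360) (B (lo19_14_7 (nat_lit 328)) (lo19_15_7 (nat_lit 489)))) (M (nat_lit 362) (B (lo112_11_1 (nat_lit 364)) (lo19_14_6 (nat_lit 330)))))))) (B (M (nat_lit 363) (B (M (nat_lit 395) (B (lo111_10_4 (nat_lit 331)) (lo111_11_4 (nat_lit 492)))) (M (nat_lit 362) (B (lo19_14_6 (nat_lit 330)) (M (nat_lit 392) (B (lo112_11_1 (nat_lit 364)) (M (nat_lit 360) (B (lo111_11_1 (nat_lit 391)) (lo19_15_7 (nat_lit 489)))))))))) (B (M (nat_lit 329) (B (M (nat_lit 330) (B (lo19_13_6 (nat_lit 298)) (lo19_14_6 (nat_lit 362)))) (M (nat_lit 297) (B (M (nat_lit 296) (B (lo19_12_7 (nat_lit 264)) (lo19_13_7 (nat_lit 328)))) (M (nat_lit 424) (B (lo19_9_5 (nat_lit 392)) (lo19_10_5 (nat_lit 456)))))))) (M (nat_lit 456) (B (M (nat_lit 329) (B (lo19_10_5 (nat_lit 424)) (M (nat_lit 328) (B (lo19_13_7 (nat_lit 296)) (lo19_14_7 (nat_lit 360)))))) (B (M (nat_lit 489) (B (M (nat_lit 424) (B (lo19_10_5 (nat_lit 329)) (M (nat_lit 521) (B (lo19_16_7 (nat_lit 392)) (lo19_17_7 (nat_lit 553)))))) (M (nat_lit 492) (B (M (nat_lit 490) (B (lo112_15_3 (nat_lit 491)) (lo19_12_4 (nat_lit 522)))) (M (nat_lit 395) (B (lo111_11_4 (nat_lit 363)) (lo112_16_7 (nat_lit 524)))))))) (M (nat_lit 492) (B (M (nat_lit 395) (B (lo111_11_4 (nat_lit 363)) (lo112_16_7 (nat_lit 524)))) (M (nat_lit 489) (B (M (nat_lit 360) (B (lo19_14_7 (nat_lit 328)) (lo19_15_7 (nat_lit 392)))) (M (nat_lit 490) (B (lo112_15_3 (nat_lit 491)) (lo19_12_4 (nat_lit 522)))))))))))))))) (M (nat_lit 361) (B (M (nat_lit 329) (B (M (nat_lit 328) (B (lo19_13_7 (nat_lit 296)) (lo19_14_7 (nat_lit 360)))) (M (nat_lit 330) (B (lo19_13_6 (nat_lit 298)) (lo19_14_6 (nat_lit 362)))))) (B (M (nat_lit 456) (B (lo19_11_5 (nat_lit 488)) (M (nat_lit 329) (B (lo19_10_5 (nat_lit 424)) (M (nat_lit 330) (B (lo19_13_6 (nat_lit 298)) (lo19_14_6 (nat_lit 362)))))))) (B (M (nat_lit 362) (B (lo19_14_6 (nat_lit 330)) (M (nat_lit 360) (B (lo19_14_7 (nat_lit 328)) (M (nat_lit 363) (B (M (nat_lit 392) (B (lo111_11_1 (nat_lit 391)) (lo112_11_1 (nat_lit 364)))) (M (nat_lit 331) (B (lo18_11_2 (nat_lit 332)) (lo111_10_4 (nat_lit 395)))))))))) (M (nat_lit 329) (B (M (nat_lit 328) (B (lo19_13_7 (nat_lit 296)) (lo19_14_7 (nat_lit 360)))) (M (nat_lit 456) (B (lo19_10_5 (nat_lit 424)) (lo19_11_5 (nat_lit 488))))))))))))))))))))))) (B (M (nat_lit 461) (B (M (nat_lit 458) (B (M (nat_lit 457) (B (M (nat_lit 493) (B (lo110_14_0 (nat_lit 494)) (lo19_14_0 (nat_lit 492)))) (M (nat_lit 425) (B (lo113_14_3 (nat_lit 426)) (lo112_14_3 (nat_lit 424)))))) (B (M (nat_lit 457) (B (M (nat_lit 489) (B (lo113_14_1 (nat_lit 490)) (lo112_14_1 (nat_lit 488)))) (M (nat_lit 425) (B (lo113_14_3 (nat_lit 426)) (lo112_14_3 (nat_lit 424)))))) (B (M (nat_lit 490) (B (lo113_14_1 (nat_lit 489)) (M (nat_lit 522) (B (lo110_17_6 (nat_lit 554)) (M (nat_lit 523) (B (M (nat_lit 426) (B (lo110_13_4 (nat_lit 555)) (lo113_14_3 (nat_lit 425)))) (B (M (nat_lit 493) (B (lo110_14_0 (nat_lit 494)) (M (nat_lit 521) (B (M (nat_lit 426) (B (lo110_13_5 (nat_lit 553)) (lo113_14_3 (nat_lit 425)))) (M (nat_lit 492) (B (lo19_16_2 (nat_lit 524)) (lo113_15_1 (nat_lit 491)))))))) (M (nat_lit 492) (B (M (nat_lit 493) (B (lo110_14_0 (nat_lit 494)) (M (nat_lit 524) (B (lo112_17_7 (nat_lit 556)) (lo19_16_2 (nat_lit 521)))))) (B (M (nat_lit 493) (B (lo110_14_0 (nat_lit 494)) (M (nat_lit 521) (B (lo19_16_2 (nat_lit 524)) (lo113_15_1 (nat_lit 491)))))) (B (M (nat_lit 491) (B (M (nat_lit 555) (B (lo111_18_6 (nat_lit 587)) (lo111_17_6 (nat_lit 428)))) (M (nat_lit 493) (B (lo114_15_1 (nat_lit 494)) (lo113_15_1 (nat_lit 521)))))) (M (nat_lit 555) (B (M (nat_lit 587) (B (lo111_19_7 (nat_lit 619)) (lo111_18_6 (nat_lit 491)))) (B (M (nat_lit 491) (B (lo111_18_6 (nat_lit 587)) (lo111_17_6 (nat_lit 428)))) (B (lo112_13_5 (nat_lit 524)) (M (nat_lit 524) (B (lo112_17_7 (nat_lit 556)) (lo112_13_5 (nat_lit 428))))))))))))))))))) (M (nat_lit 493) (B (lo110_14_0 (nat_lit 494)) (M (nat_lit 457) (B (lo19_14_0 (nat_lit 492)) (M (nat_lit 489) (B (lo113_14_1 (nat_lit 490)) (lo112_14_1 (nat_lit 488)))))))))))) (B (M (nat_lit 462) (B (lo115_14_3 (nat_lit 463)) (M (nat_lit 458) (B (lo19_14_2 (nat_lit 457)) (M (nat_lit 494) (B (lo110_14_0 (nat_lit 493)) (lo111_14_0 (nat_lit 495)))))))) (M (nat_lit 462) (B (lo110_13_0 (nat_lit 426)) (lo115_14_3 (nat_lit 463))))))) (B (M (nat_lit 461) (B (M (nat_lit 493) (B (M (nat_lit 524) (B (M (nat_lit 525) (B (M (nat_lit 523) (B (M (nat_lit 554) (B (M (nat_lit 522) (B (lo111_13_5 (nat_lit 491)) (lo113_16_1 (nat_lit 553)))) (B (M (nat_lit 555) (B (lo114_16_1 (nat_lit 526)) (M (nat_lit 553) (B (lo113_16_1 (nat_lit 522)) (lo18_17_2 (nat_lit 552)))))) (M (nat_lit 555) (B (lo114_16_1 (nat_lit 526)) (M (nat_lit 491) (B (lo111_17_6 (nat_lit 460)) (lo111_14_5 (nat_lit 586))))))))) (B (M (nat_lit 522) (B (M (nat_lit 492) (B (lo19_16_2 (nat_lit 521)) (lo112_16_7 (nat_lit 395)))) (M (nat_lit 554) (B (lo113_16_1 (nat_lit 553)) (lo111_13_5 (nat_lit 491)))))) (M (nat_lit 492) (B (lo112_13_5 (nat_lit 555)) (lo112_16_7 (nat_lit 395))))))) (lo113_17_7 (nat_lit 557)))) (B (M (nat_lit 525) (B (lo113_13_5 (nat_lit 556)) (M (nat_lit 558) (B (lo113_13_4 (nat_lit 526)) (M (nat_lit 557) (B (lo113_17_7 (nat_lit 460)) (lo113_14_4 (nat_lit 590)))))))) (M (nat_lit 492) (B (lo112_17_6 (nat_lit 556)) (lo112_16_7 (nat_lit 395))))))) (M (nat_lit 458) (B (lo19_14_2 (nat_lit 457)) (lo110_14_0 (nat_lit 494)))))) (M (nat_lit 462) (B (lo110_13_0 (nat_lit 426)) (lo115_14_3 (nat_lit 463)))))) (B (K _ _ _ o1_s21372) (B (K _ _ _ o1_s21403) (B (K _ _ _ o1_s21428) (K _ _ _ o1_s21445)))))))) (B (M (nat_lit 492) (B (M (nat_lit 395) (B (lo112_16_7 (nat_lit 524)) (M (nat_lit 363) (B (lo112_15_7 (nat_lit 396)) (lo111_10_4 (nat_lit 331)))))) (B (M (nat_lit 395) (B (M (nat_lit 363) (B (lo112_15_7 (nat_lit 396)) (lo111_11_4 (nat_lit 459)))) (B (M (nat_lit 363) (B (lo111_11_4 (nat_lit 459)) (lo111_10_4 (nat_lit 331)))) (B (M (nat_lit 363) (B (lo112_15_7 (nat_lit 396)) (lo111_10_4 (nat_lit 331)))) (M (nat_lit 491) (B (M (nat_lit 396) (B (lo112_12_5 (nat_lit 523)) (M (nat_lit 364) (B (lo112_11_5 (nat_lit 459)) (M (nat_lit 332) (B (lo112_9_5 (nat_lit 300)) (M (nat_lit 333) (B (lo112_14_6 (nat_lit 365)) (lo112_13_6 (nat_lit 301)))))))))) (B (M (nat_lit 396) (B (lo112_12_5 (nat_lit 523)) (M (nat_lit 459) (B (lo112_11_5 (nat_lit 364)) (M (nat_lit 493) (B (lo112_12_4 (nat_lit 525)) (M (nat_lit 494) (B (lo115_15_3 (nat_lit 495)) (lo114_15_3 (nat_lit 458)))))))))) (B (M (nat_lit 490) (B (M (nat_lit 522) (B (lo111_12_5 (nat_lit 459)) (M (nat_lit 493) (B (lo113_15_1 (nat_lit 521)) (M (nat_lit 458) (B (lo113_15_3 (nat_lit 457)) (lo110_16_6 (nat_lit 426)))))))) (B (M (nat_lit 457) (B (M (nat_lit 459) (B (lo111_12_5 (nat_lit 522)) (M (nat_lit 456) (B (lo18_14_0 (nat_lit 458)) (lo112_15_3 (nat_lit 489)))))) (B (M (nat_lit 458) (B (M (nat_lit 456) (B (lo112_15_3 (nat_lit 489)) (lo17_14_0 (nat_lit 455)))) (M (nat_lit 426) (B (lo113_13_1 (nat_lit 429)) (lo110_16_6 (nat_lit 522)))))) (B (M (nat_lit 456) (B (lo112_15_3 (nat_lit 489)) (M (nat_lit 458) (B (lo18_14_0 (nat_lit 459)) (lo17_14_0 (nat_lit 455)))))) (B (M (nat_lit 459) (B (lo111_12_5 (nat_lit 522)) (M (nat_lit 489) (B (lo112_15_3 (nat_lit 456)) (lo18_15_2 (nat_lit 488)))))) (B (M (nat_lit 459) (B (lo111_12_5 (nat_lit 522)) (M (nat_lit 458) (B (lo19_14_2 (nat_lit 429)) (lo18_14_0 (nat_lit 456)))))) (M (nat_lit 458) (B (M (nat_lit 459) (B (lo19_14_2 (nat_lit 429)) (lo111_12_5 (nat_lit 522)))) (B (M (nat_lit 522) (B (lo111_12_5 (nat_lit 459)) (lo110_16_6 (nat_lit 426)))) (B (M (nat_lit 426) (B (lo113_13_1 (nat_lit 429)) (lo110_16_6 (nat_lit 522)))) (lo19_14_2 (nat_lit 459)))))))))))) (B (M (nat_lit 458) (B (M (nat_lit 457) (B (lo113_15_3 (nat_lit 493)) (M (nat_lit 426) (B (lo113_13_1 (nat_lit 429)) (lo110_16_6 (nat_lit 522)))))) (B (M (nat_lit 457) (B (M (nat_lit 426) (B (lo113_13_1 (nat_lit 429)) (lo110_16_6 (nat_lit 522)))) (M (nat_lit 456) (B (lo112_15_3 (nat_lit 489)) (lo17_14_0 (nat_lit 455)))))) (B (M (nat_lit 457) (B (lo113_15_3 (nat_lit 493)) (M (nat_lit 456) (B (lo112_15_3 (nat_lit 489)) (lo17_14_0 (nat_lit 455)))))) (M (nat_lit 522) (B (lo110_16_6 (nat_lit 426)) (M (nat_lit 521) (B (lo113_15_1 (nat_lit 493)) (M (nat_lit 520) (B (lo18_16_2 (nat_lit 523)) (lo17_16_2 (nat_lit 519)))))))))))) (B (M (nat_lit 457) (B (M (nat_lit 458) (B (lo113_15_3 (nat_lit 493)) (M (nat_lit 456) (B (lo112_15_3 (nat_lit 489)) (lo17_14_0 (nat_lit 455)))))) (B (M (nat_lit 456) (B (lo112_15_3 (nat_lit 489)) (M (nat_lit 458) (B (lo18_14_0 (nat_lit 459)) (lo17_14_0 (nat_lit 455)))))) (B (M (nat_lit 489) (B (lo112_15_3 (nat_lit 456)) (M (nat_lit 520) (B (lo112_15_1 (nat_lit 521)) (M (nat_lit 488) (B (lo18_15_2 (nat_lit 459)) (lo111_15_1 (nat_lit 519)))))))) (M (nat_lit 458) (B (lo113_15_3 (nat_lit 493)) (lo19_14_2 (nat_lit 459)))))))) (M (nat_lit 522) (B (lo111_12_5 (nat_lit 459)) (M (nat_lit 521) (B (lo113_15_1 (nat_lit 493)) (M (nat_lit 520) (B (lo18_16_2 (nat_lit 523)) (lo112_15_1 (nat_lit 489))))))))))))) (B (M (nat_lit 490) (B (M (nat_lit 522) (B (lo111_12_5 (nat_lit 459)) (M (nat_lit 521) (B (lo113_15_1 (nat_lit 493)) (M (nat_lit 520) (B (lo112_15_1 (nat_lit 489)) (lo17_16_2 (nat_lit 519)))))))) (B (M (nat_lit 458) (B (M (nat_lit 522) (B (lo111_12_5 (nat_lit 459)) (lo110_16_6 (nat_lit 426)))) (B (M (nat_lit 457) (B (M (nat_lit 426) (B (lo113_13_1 (nat_lit 429)) (lo110_16_6 (nat_lit 522)))) (M (nat_lit 456) (B (lo112_15_3 (nat_lit 489)) (lo17_14_0 (nat_lit 455)))))) (B (M (nat_lit 457) (B (lo19_14_2 (nat_lit 459)) (B (M (nat_lit 456) (B (lo18_14_0 (nat_lit 459)) (lo17_14_0 (nat_lit 455)))) (M (nat_lit 456) (B (lo112_15_3 (nat_lit 489)) (lo17_14_0 (nat_lit 455))))))) (M (nat_lit 459) (B (lo111_12_5 (nat_lit 522)) (M (nat_lit 457) (B (lo19_14_2 (nat_lit 429)) (lo18_14_0 (nat_lit 456)))))))))) (B (M (nat_lit 458) (B (M (nat_lit 493) (B (lo113_15_3 (nat_lit 457)) (M (nat_lit 522) (B (lo113_15_1 (nat_lit 521)) (lo110_16_6 (nat_lit 426)))))) (B (M (nat_lit 457) (B (M (nat_lit 426) (B (lo113_13_1 (nat_lit 429)) (lo110_16_6 (nat_lit 522)))) (M (nat_lit 456) (B (lo112_15_3 (nat_lit 489)) (lo17_14_0 (nat_lit 455)))))) (B (M (nat_lit 457) (B (lo113_15_3 (nat_lit 493)) (M (nat_lit 456) (B (lo112_15_3 (nat_lit 489)) (lo17_14_0 (nat_lit 455)))))) (M (nat_lit 493) (B (M (nat_lit 525) (B (lo110_15_0 (nat_lit 526)) (lo112_12_4 (nat_lit 396)))) (M (nat_lit 522) (B (lo113_15_1 (nat_lit 521)) (lo110_16_6 (nat_lit 426)))))))))) (B (M (nat_lit 489) (B (M (nat_lit 488) (B (lo18_15_2 (nat_lit 459)) (M (nat_lit 520) (B (lo112_15_1 (nat_lit 521)) (lo111_15_1 (nat_lit 519)))))) (B (M (nat_lit 488) (B (M (nat_lit 520) (B (lo112_15_1 (nat_lit 521)) (lo111_15_1 (nat_lit 519)))) (M (nat_lit 456) (B (lo112_15_3 (nat_lit 457)) (lo111_15_3 (nat_lit 455)))))) (B (M (nat_lit 488) (B (lo18_15_2 (nat_lit 459)) (M (nat_lit 456) (B (lo112_15_3 (nat_lit 457)) (lo111_15_3 (nat_lit 455)))))) (M (nat_lit 493) (B (M (nat_lit 525) (B (lo110_15_0 (nat_lit 526)) (lo112_12_4 (nat_lit 396)))) (M (nat_lit 457) (B (lo113_15_3 (nat_lit 458)) (lo112_15_3 (nat_lit 456)))))))))) (M (nat_lit 493) (B (M (nat_lit 525) (B (lo110_15_0 (nat_lit 526)) (lo112_12_4 (nat_lit 396)))) (M (nat_lit 522) (B (lo113_15_1 (nat_lit 521)) (lo111_12_5 (nat_lit 459))))))))))) (M (nat_lit 493) (B (M (nat_lit 396) (B (lo112_12_4 (nat_lit 525)) (lo112_12_5 (nat_lit 523)))) (B (M (nat_lit 494) (B (M (nat_lit 523) (B (lo114_15_1 (nat_lit 522)) (lo112_12_5 (nat_lit 396)))) (M (nat_lit 495) (B (M (nat_lit 527) (B (lo112_15_0 (nat_lit 528)) (lo111_15_0 (nat_lit 526)))) (M (nat_lit 463) (B (lo112_15_2 (nat_lit 464)) (lo111_15_2 (nat_lit 462)))))))) (B (M (nat_lit 494) (B (M (nat_lit 522) (B (lo114_15_1 (nat_lit 523)) (M (nat_lit 490) (B (lo113_15_1 (nat_lit 521)) (M (nat_lit 458) (B (lo113_15_3 (nat_lit 457)) (lo110_16_6 (nat_lit 426)))))))) (M (nat_lit 495) (B (M (nat_lit 527) (B (lo112_15_0 (nat_lit 528)) (lo111_15_0 (nat_lit 526)))) (M (nat_lit 463) (B (lo112_15_2 (nat_lit 464)) (lo111_15_2 (nat_lit 462)))))))) (M (nat_lit 525) (B (lo112_12_4 (nat_lit 396)) (M (nat_lit 526) (B (lo110_15_0 (nat_lit 490)) (M (nat_lit 527) (B (lo116_16_3 (nat_lit 528)) (lo111_15_0 (nat_lit 494))))))))))))))))))))) (B (M (nat_lit 395) (B (lo112_16_7 (nat_lit 524)) (M (nat_lit 363) (B (lo111_11_4 (nat_lit 459)) (lo111_10_4 (nat_lit 331)))))) (M (nat_lit 524) (B (M (nat_lit 556) (B (lo112_17_7 (nat_lit 459)) (M (nat_lit 555) (B (lo112_14_5 (nat_lit 587)) (lo112_13_5 (nat_lit 523)))))) (B (M (nat_lit 396) (B (M (nat_lit 525) (B (lo112_13_4 (nat_lit 557)) (lo112_12_4 (nat_lit 493)))) (M (nat_lit 523) (B (lo112_13_5 (nat_lit 555)) (lo112_12_5 (nat_lit 491)))))) (M (nat_lit 556) (B (lo112_17_7 (nat_lit 459)) (M (nat_lit 557) (B (lo112_14_4 (nat_lit 589)) (lo112_13_4 (nat_lit 525))))))))))))) (B (M (nat_lit 461) (B (K _ _ _ o1_s21729) (B (K _ _ _ o1_s21748) (M (nat_lit 462) (B (lo110_13_0 (nat_lit 426)) (lo115_14_3 (nat_lit 463))))))) (B (K _ _ _ o1_s21937) (B (K _ _ _ o1_s22007) (B (K _ _ _ o1_s22099) (B (K _ _ _ o1_s22173) (B (K _ _ _ o1_s22210) (B (K _ _ _ o1_s22240) (B (K _ _ _ o1_s22291) (M (nat_lit 461) (B (M (nat_lit 462) (B (lo115_14_3 (nat_lit 463)) (lo110_13_0 (nat_lit 426)))) (B (M (nat_lit 426) (B (lo110_13_0 (nat_lit 462)) (lo19_13_0 (nat_lit 425)))) (B (M (nat_lit 426) (B (lo19_13_0 (nat_lit 425)) (M (nat_lit 458) (B (lo113_13_1 (nat_lit 457)) (M (nat_lit 459) (B (M (nat_lit 490) (B (lo113_14_1 (nat_lit 489)) (M (nat_lit 395) (B (lo111_11_5 (nat_lit 363)) (lo110_16_6 (nat_lit 522)))))) (M (nat_lit 493) (B (lo110_14_0 (nat_lit 494)) (M (nat_lit 525) (B (lo113_17_7 (nat_lit 557)) (lo113_16_7 (nat_lit 396)))))))))))) (M (nat_lit 459) (B (M (nat_lit 458) (B (lo19_14_2 (nat_lit 457)) (M (nat_lit 493) (B (lo110_14_0 (nat_lit 494)) (M (nat_lit 525) (B (lo113_17_7 (nat_lit 557)) (lo113_16_7 (nat_lit 396)))))))) (B (M (nat_lit 491) (B (M (nat_lit 462) (B (lo115_14_3 (nat_lit 463)) (lo114_14_1 (nat_lit 490)))) (M (nat_lit 523) (B (lo111_17_6 (nat_lit 555)) (lo111_16_6 (nat_lit 396)))))) (M (nat_lit 494) (B (M (nat_lit 462) (B (lo111_14_0 (nat_lit 495)) (lo115_14_3 (nat_lit 463)))) (M (nat_lit 458) (B (lo110_14_0 (nat_lit 493)) (lo19_14_2 (nat_lit 457)))))))))))))))))))))))) (B (M (nat_lit 395) (B (M (nat_lit 396) (B (M (nat_lit 460) (B (M (nat_lit 426) (B (M (nat_lit 394) (B (M (nat_lit 362) (B (M (nat_lit 330) (B (M (nat_lit 299) (B (lo110_13_6 (nat_lit 331)) (M (nat_lit 298) (B (lo110_12_6 (nat_lit 267)) (lo110_9_4 (nat_lit 427)))))) (B (M (nat_lit 298) (B (lo110_9_4 (nat_lit 427)) (M (nat_lit 297) (B (lo110_12_7 (nat_lit 265)) (lo110_13_7 (nat_lit 329)))))) (M (nat_lit 329) (B (lo110_13_7 (nat_lit 297)) (M (nat_lit 361) (B (lo110_14_7 (nat_lit 458)) (M (nat_lit 331) (B (lo110_13_6 (nat_lit 299)) (M (nat_lit 332) (B (lo113_10_1 (nat_lit 333)) (lo112_10_1 (nat_lit 360))))))))))))) (B (M (nat_lit 363) (B (M (nat_lit 458) (B (lo110_14_6 (nat_lit 331)) (lo110_15_6 (nat_lit 490)))) (B (M (nat_lit 331) (B (lo111_9_5 (nat_lit 299)) (lo111_10_4 (nat_lit 460)))) (M (nat_lit 361) (B (M (nat_lit 360) (B (lo17_11_0 (nat_lit 359)) (lo18_11_0 (nat_lit 396)))) (M (nat_lit 458) (B (lo110_14_7 (nat_lit 329)) (lo110_15_6 (nat_lit 490))))))))) (B (M (nat_lit 361) (B (M (nat_lit 360) (B (lo18_11_0 (nat_lit 363)) (lo17_11_0 (nat_lit 359)))) (M (nat_lit 329) (B (lo110_14_7 (nat_lit 458)) (M (nat_lit 297) (B (lo110_13_7 (nat_lit 330)) (lo19_8_4 (nat_lit 265)))))))) (M (nat_lit 330) (B (M (nat_lit 331) (B (lo111_10_4 (nat_lit 363)) (lo110_13_6 (nat_lit 299)))) (lo110_9_4 (nat_lit 298)))))))) (lo19_12_0 (nat_lit 393)))) (M (nat_lit 461) (B (lo110_13_0 (nat_lit 462)) (lo19_13_0 (nat_lit 425)))))) (B (M (nat_lit 461) (B (M (nat_lit 492) (B (K _ _ _ o1_s22092) (lo112_16_7 (nat_lit 524)))) (B (M (nat_lit 492) (B (M (nat_lit 524) (B (lo112_17_6 (nat_lit 556)) (M (nat_lit 525) (B (lo112_13_4 (nat_lit 557)) (lo112_12_4 (nat_lit 493)))))) (B (M (nat_lit 524) (B (lo112_17_6 (nat_lit 556)) (M (nat_lit 523) (B (lo112_13_5 (nat_lit 555)) (lo112_12_5 (nat_lit 491)))))) (B (M (nat_lit 525) (B (lo112_12_4 (nat_lit 493)) (M (nat_lit 524) (B (lo112_13_4 (nat_lit 557)) (M (nat_lit 523) (B (lo112_13_5 (nat_lit 555)) (lo112_12_5 (nat_lit 491)))))))) (M (nat_lit 493) (B (lo112_12_4 (nat_lit 525)) (M (nat_lit 491) (B (lo112_12_5 (nat_lit 523)) (M (nat_lit 490) (B (lo110_15_2 (nat_lit 462)) (lo19_15_2 (nat_lit 489)))))))))))) (M (nat_lit 462) (B (lo110_13_0 (nat_lit 426)) (lo115_14_3 (nat_lit 463))))))) (M (nat_lit 363) (B (lo112_15_7 (nat_lit 492)) (lo111_10_4 (nat_lit 331))))))) (B (M (nat_lit 363) (B (M (nat_lit 364) (B (M (nat_lit 365) (B (M (nat_lit 394) (B (lo19_12_2 (nat_lit 393)) (lo114_11_1 (nat_lit 366)))) (B (M (nat_lit 366) (B (lo114_11_1 (nat_lit 394)) (lo115_11_1 (nat_lit 367)))) (B (M (nat_lit 362) (B (M (nat_lit 329) (B (lo113_11_3 (nat_lit 330)) (M (nat_lit 361) (B (lo112_11_3 (nat_lit 328)) (lo18_11_0 (nat_lit 360)))))) (M (nat_lit 334) (B (lo110_11_2 (nat_lit 333)) (M (nat_lit 366) (B (lo111_11_2 (nat_lit 335)) (lo115_11_1 (nat_lit 367)))))))) (M (nat_lit 362) (B (M (nat_lit 393) (B (lo113_11_1 (nat_lit 394)) (M (nat_lit 361) (B (lo18_11_0 (nat_lit 360)) (lo112_11_1 (nat_lit 392)))))) (B (M (nat_lit 361) (B (M (nat_lit 329) (B (lo112_11_3 (nat_lit 328)) (lo113_11_3 (nat_lit 330)))) (M (nat_lit 393) (B (lo112_11_1 (nat_lit 392)) (lo113_11_1 (nat_lit 394)))))) (B (M (nat_lit 329) (B (lo113_11_3 (nat_lit 330)) (M (nat_lit 361) (B (lo112_11_3 (nat_lit 328)) (lo18_11_0 (nat_lit 360)))))) (M (nat_lit 394) (B (lo113_11_1 (nat_lit 393)) (M (nat_lit 330) (B (lo113_11_3 (nat_lit 329)) (M (nat_lit 298) (B (lo110_8_4 (nat_lit 266)) (lo110_9_4 (nat_lit 427)))))))))))))))) (M (nat_lit 332) (B (lo112_10_4 (nat_lit 461)) (lo112_9_5 (nat_lit 300)))))) (B (M (nat_lit 331) (B (lo111_9_4 (nat_lit 299)) (M (nat_lit 332) (B (lo111_13_6 (nat_lit 300)) (M (nat_lit 364) (B (M (nat_lit 330) (B (lo111_13_7 (nat_lit 298)) (M (nat_lit 329) (B (lo18_10_0 (nat_lit 328)) (lo19_10_0 (nat_lit 365)))))) (M (nat_lit 333) (B (lo112_13_6 (nat_lit 301)) (M (nat_lit 362) (B (lo19_11_2 (nat_lit 361)) (lo114_10_1 (nat_lit 334)))))))))))) (M (nat_lit 426) (B (M (nat_lit 331) (B (lo111_9_4 (nat_lit 299)) (lo111_10_5 (nat_lit 458)))) (M (nat_lit 393) (B (lo19_12_0 (nat_lit 394)) (M (nat_lit 425) (B (lo112_13_3 (nat_lit 392)) (lo18_13_2 (nat_lit 424))))))))))) (B (M (nat_lit 364) (B (M (nat_lit 332) (B (lo112_9_5 (nat_lit 300)) (M (nat_lit 331) (B (lo112_13_7 (nat_lit 299)) (M (nat_lit 460) (B (lo112_14_7 (nat_lit 363)) (M (nat_lit 333) (B (lo112_14_6 (nat_lit 365)) (lo112_13_6 (nat_lit 301)))))))))) (B (M (nat_lit 332) (B (lo112_9_5 (nat_lit 300)) (M (nat_lit 331) (B (lo112_13_7 (nat_lit 299)) (M (nat_lit 363) (B (lo112_14_7 (nat_lit 460)) (M (nat_lit 333) (B (lo112_13_6 (nat_lit 301)) (M (nat_lit 334) (B (lo115_10_1 (nat_lit 335)) (lo114_10_1 (nat_lit 362)))))))))))) (B (M (nat_lit 332) (B (lo112_9_5 (nat_lit 300)) (M (nat_lit 331) (B (lo112_13_7 (nat_lit 299)) (M (nat_lit 363) (B (lo112_14_7 (nat_lit 460)) (M (nat_lit 330) (B (lo111_13_7 (nat_lit 298)) (M (nat_lit 365) (B (lo114_11_3 (nat_lit 366)) (lo19_10_0 (nat_lit 329)))))))))))) (B (M (nat_lit 332) (B (lo112_9_5 (nat_lit 300)) (M (nat_lit 331) (B (lo112_13_7 (nat_lit 299)) (M (nat_lit 363) (B (M (nat_lit 333) (B (lo112_13_6 (nat_lit 301)) (M (nat_lit 334) (B (lo115_10_1 (nat_lit 335)) (lo114_10_1 (nat_lit 362)))))) (M (nat_lit 330) (B (lo111_13_7 (nat_lit 298)) (M (nat_lit 365) (B (lo114_11_3 (nat_lit 366)) (lo19_10_0 (nat_lit 329)))))))))))) (B (M (nat_lit 363) (B (M (nat_lit 460) (B (lo112_15_7 (nat_lit 492)) (lo112_14_7 (nat_lit 331)))) (B (M (nat_lit 331) (B (lo112_14_7 (nat_lit 460)) (lo111_9_4 (nat_lit 299)))) (B (M (nat_lit 331) (B (lo111_9_4 (nat_lit 299)) (M (nat_lit 330) (B (lo111_13_7 (nat_lit 298)) (M (nat_lit 365) (B (lo114_11_3 (nat_lit 366)) (M (nat_lit 329) (B (lo113_11_3 (nat_lit 362)) (lo18_10_0 (nat_lit 328)))))))))) (M (nat_lit 365) (B (M (nat_lit 366) (B (lo115_11_1 (nat_lit 367)) (lo114_11_1 (nat_lit 394)))) (M (nat_lit 460) (B (lo112_14_6 (nat_lit 333)) (lo112_15_7 (nat_lit 492)))))))))) (B (M (nat_lit 332) (B (lo112_9_5 (nat_lit 300)) (M (nat_lit 331) (B (lo112_13_7 (nat_lit 299)) (M (nat_lit 333) (B (lo112_13_6 (nat_lit 301)) (M (nat_lit 365) (B (lo112_14_6 (nat_lit 460)) (M (nat_lit 366) (B (lo115_11_1 (nat_lit 367)) (lo110_10_0 (nat_lit 330)))))))))))) (M (nat_lit 332) (B (lo112_9_5 (nat_lit 300)) (M (nat_lit 333) (B (lo112_13_6 (nat_lit 301)) (M (nat_lit 365) (B (lo112_14_6 (nat_lit 460)) (M (nat_lit 363) (B (M (nat_lit 366) (B (lo115_11_1 (nat_lit 367)) (lo114_11_1 (nat_lit 394)))) (M (nat_lit 334) (B (lo115_10_1 (nat_lit 335)) (lo110_11_2 (nat_lit 362))))))))))))))))))) (B (M (nat_lit 393) (B (lo19_12_0 (nat_lit 394)) (M (nat_lit 461) (B (M (nat_lit 426) (B (lo110_13_0 (nat_lit 462)) (M (nat_lit 425) (B (lo18_13_2 (nat_lit 424)) (lo112_13_3 (nat_lit 392)))))) (B (M (nat_lit 426) (B (lo110_13_0 (nat_lit 462)) (M (nat_lit 425) (B (lo112_13_3 (nat_lit 392)) (lo19_13_0 (nat_lit 460)))))) (B (M (nat_lit 426) (B (lo110_13_0 (nat_lit 462)) (M (nat_lit 425) (B (lo18_13_2 (nat_lit 424)) (lo19_13_0 (nat_lit 460)))))) (M (nat_lit 364) (B (lo112_10_4 (nat_lit 332)) (M (nat_lit 493) (B (lo112_11_4 (nat_lit 460)) (lo113_16_7 (nat_lit 525)))))))))))) (M (nat_lit 460) (B (M (nat_lit 492) (B (lo112_16_7 (nat_lit 524)) (lo112_15_7 (nat_lit 363)))) (M (nat_lit 461) (B (M (nat_lit 493) (B (lo113_16_7 (nat_lit 525)) (lo112_11_4 (nat_lit 364)))) (M (nat_lit 462) (B (lo115_14_3 (nat_lit 463)) (lo110_13_0 (nat_lit 426))))))))))))) (B (M (nat_lit 363) (B (M (nat_lit 459) (B (M (nat_lit 362) (B (lo111_14_7 (nat_lit 330)) (M (nat_lit 364) (B (lo111_14_6 (nat_lit 332)) (M (nat_lit 361) (B (M (nat_lit 392) (B (lo112_11_1 (nat_lit 393)) (M (nat_lit 360) (B (lo111_11_1 (nat_lit 391)) (M (nat_lit 328) (B (lo111_11_3 (nat_lit 327)) (lo112_11_3 (nat_lit 329)))))))) (B (M (nat_lit 394) (B (M (nat_lit 393) (B (lo112_11_1 (nat_lit 392)) (lo113_11_1 (nat_lit 365)))) (B (M (nat_lit 365) (B (lo113_11_1 (nat_lit 393)) (lo114_11_1 (nat_lit 366)))) (M (nat_lit 458) (B (lo111_11_5 (nat_lit 490)) (M (nat_lit 329) (B (lo112_11_3 (nat_lit 328)) (lo110_14_7 (nat_lit 426))))))))) (B (M (nat_lit 360) (B (M (nat_lit 392) (B (lo111_11_1 (nat_lit 391)) (lo112_11_1 (nat_lit 393)))) (B (M (nat_lit 394) (B (lo17_11_0 (nat_lit 359)) (M (nat_lit 393) (B (lo112_11_1 (nat_lit 392)) (lo113_11_1 (nat_lit 365)))))) (B (M (nat_lit 394) (B (lo17_11_0 (nat_lit 359)) (M (nat_lit 365) (B (lo113_11_1 (nat_lit 393)) (lo114_11_1 (nat_lit 366)))))) (M (nat_lit 359) (B (lo17_11_0 (nat_lit 394)) (M (nat_lit 391) (B (lo110_11_1 (nat_lit 390)) (lo111_11_1 (nat_lit 392)))))))))) (B (M (nat_lit 394) (B (M (nat_lit 365) (B (lo113_11_1 (nat_lit 393)) (lo114_11_1 (nat_lit 366)))) (M (nat_lit 458) (B (lo111_11_5 (nat_lit 490)) (M (nat_lit 329) (B (lo112_11_3 (nat_lit 328)) (lo110_14_7 (nat_lit 426)))))))) (M (nat_lit 360) (B (M (nat_lit 328) (B (lo111_11_3 (nat_lit 327)) (lo112_11_3 (nat_lit 329)))) (M (nat_lit 359) (B (lo17_11_0 (nat_lit 394)) (M (nat_lit 391) (B (lo110_11_1 (nat_lit 390)) (lo111_11_1 (nat_lit 392))))))))))))))))) (B (M (nat_lit 491) (B (M (nat_lit 492) (B (lo111_11_4 (nat_lit 460)) (lo111_12_4 (nat_lit 524)))) (B (M (nat_lit 523) (B (M (nat_lit 524) (B (lo111_12_4 (nat_lit 492)) (lo111_13_4 (nat_lit 556)))) (M (nat_lit 522) (B (lo111_12_5 (nat_lit 490)) (lo111_13_5 (nat_lit 554)))))) (B (K _ _ _ o1_s22620) (M (nat_lit 523) (B (M (nat_lit 460) (B (lo111_11_4 (nat_lit 492)) (lo111_17_6 (nat_lit 555)))) (M (nat_lit 522) (B (lo111_12_5 (nat_lit 490)) (lo111_13_5 (nat_lit 554)))))))))) (M (nat_lit 394) (B (M (nat_lit 393) (B (lo113_13_3 (nat_lit 426)) (lo18_12_0 (nat_lit 392)))) (M (nat_lit 362) (B (lo111_14_7 (nat_lit 330)) (lo111_15_7 (nat_lit 491))))))))) (B (K _ _ _ o1_s22656) (M (nat_lit 460) (B (M (nat_lit 492) (B (lo112_16_7 (nat_lit 524)) (lo111_11_4 (nat_lit 459)))) (lo111_10_4 (nat_lit 331))))))) (B (M (nat_lit 363) (B (M (nat_lit 331) (B (M (nat_lit 459) (B (M (nat_lit 330) (B (lo111_13_7 (nat_lit 298)) (lo111_14_7 (nat_lit 362)))) (M (nat_lit 458) (B (lo111_10_5 (nat_lit 426)) (lo111_11_5 (nat_lit 490)))))) (B (M (nat_lit 459) (B (M (nat_lit 332) (B (lo111_13_6 (nat_lit 300)) (lo111_14_6 (nat_lit 364)))) (M (nat_lit 458) (B (lo111_10_5 (nat_lit 426)) (lo111_11_5 (nat_lit 490)))))) (B (M (nat_lit 330) (B (lo111_13_7 (nat_lit 298)) (M (nat_lit 332) (B (lo111_13_6 (nat_lit 300)) (M (nat_lit 459) (B (lo111_14_7 (nat_lit 362)) (lo111_14_6 (nat_lit 364)))))))) (M (nat_lit 299) (B (M (nat_lit 298) (B (lo111_12_7 (nat_lit 266)) (lo111_13_7 (nat_lit 330)))) (M (nat_lit 300) (B (lo111_12_6 (nat_lit 268)) (lo111_13_6 (nat_lit 332)))))))))) (B (M (nat_lit 331) (B (M (nat_lit 330) (B (lo111_13_7 (nat_lit 298)) (M (nat_lit 332) (B (lo111_13_6 (nat_lit 300)) (M (nat_lit 459) (B (lo111_14_7 (nat_lit 362)) (lo111_14_6 (nat_lit 364)))))))) (B (M (nat_lit 459) (B (M (nat_lit 332) (B (lo111_13_6 (nat_lit 300)) (lo111_14_6 (nat_lit 364)))) (M (nat_lit 458) (B (lo111_10_5 (nat_lit 426)) (lo111_11_5 (nat_lit 490)))))) (B (M (nat_lit 459) (B (M (nat_lit 330) (B (lo111_13_7 (nat_lit 298)) (lo111_14_7 (nat_lit 362)))) (M (nat_lit 458) (B (lo111_10_5 (nat_lit 426)) (lo111_11_5 (nat_lit 490)))))) (M (nat_lit 299) (B (M (nat_lit 300) (B (lo111_12_6 (nat_lit 268)) (lo111_13_6 (nat_lit 332)))) (M (nat_lit 426) (B (lo111_9_5 (nat_lit 394)) (lo111_10_5 (nat_lit 458)))))))))) (B (M (nat_lit 331) (B (M (nat_lit 459) (B (M (nat_lit 332) (B (lo111_13_6 (nat_lit 300)) (lo111_14_6 (nat_lit 364)))) (M (nat_lit 458) (B (lo111_10_5 (nat_lit 426)) (lo111_11_5 (nat_lit 490)))))) (B (M (nat_lit 459) (B (M (nat_lit 330) (B (lo111_13_7 (nat_lit 298)) (lo111_14_7 (nat_lit 362)))) (M (nat_lit 458) (B (lo111_10_5 (nat_lit 426)) (lo111_11_5 (nat_lit 490)))))) (B (M (nat_lit 330) (B (lo111_13_7 (nat_lit 298)) (M (nat_lit 332) (B (lo111_13_6 (nat_lit 300)) (M (nat_lit 459) (B (lo111_14_7 (nat_lit 362)) (lo111_14_6 (nat_lit 364)))))))) (M (nat_lit 299) (B (M (nat_lit 298) (B (lo111_12_7 (nat_lit 266)) (lo111_13_7 (nat_lit 330)))) (M (nat_lit 426) (B (lo111_9_5 (nat_lit 394)) (lo111_10_5 (nat_lit 458)))))))))) (B (M (nat_lit 459) (B (M (nat_lit 491) (B (M (nat_lit 362) (B (lo111_14_7 (nat_lit 330)) (lo111_15_7 (nat_lit 394)))) (M (nat_lit 364) (B (lo111_14_6 (nat_lit 332)) (lo111_15_6 (nat_lit 396)))))) (B (M (nat_lit 491) (B (M (nat_lit 364) (B (lo111_14_6 (nat_lit 332)) (lo111_15_6 (nat_lit 396)))) (M (nat_lit 490) (B (lo111_11_5 (nat_lit 458)) (lo111_12_5 (nat_lit 522)))))) (B (M (nat_lit 491) (B (M (nat_lit 362) (B (lo111_14_7 (nat_lit 330)) (lo111_15_7 (nat_lit 394)))) (M (nat_lit 490) (B (lo111_11_5 (nat_lit 458)) (lo111_12_5 (nat_lit 522)))))) (M (nat_lit 331) (B (M (nat_lit 332) (B (lo111_13_6 (nat_lit 300)) (lo111_14_6 (nat_lit 364)))) (M (nat_lit 458) (B (lo111_10_5 (nat_lit 426)) (lo111_11_5 (nat_lit 490)))))))))) (B (M (nat_lit 459) (B (M (nat_lit 491) (B (M (nat_lit 362) (B (lo111_14_7 (nat_lit 330)) (lo111_15_7 (nat_lit 394)))) (M (nat_lit 364) (B (lo111_14_6 (nat_lit 332)) (lo111_15_6 (nat_lit 396)))))) (B (M (nat_lit 491) (B (M (nat_lit 364) (B (lo111_14_6 (nat_lit 332)) (lo111_15_6 (nat_lit 396)))) (M (nat_lit 490) (B (lo111_11_5 (nat_lit 458)) (lo111_12_5 (nat_lit 522)))))) (B (M (nat_lit 491) (B (M (nat_lit 362) (B (lo111_14_7 (nat_lit 330)) (lo111_15_7 (nat_lit 394)))) (M (nat_lit 490) (B (lo111_11_5 (nat_lit 458)) (lo111_12_5 (nat_lit 522)))))) (M (nat_lit 331) (B (M (nat_lit 330) (B (lo111_13_7 (nat_lit 298)) (lo111_14_7 (nat_lit 362)))) (M (nat_lit 458) (B (lo111_10_5 (nat_lit 426)) (lo111_11_5 (nat_lit 490)))))))))) (B (M (nat_lit 331) (B (M (nat_lit 459) (B (M (nat_lit 332) (B (lo111_13_6 (nat_lit 300)) (lo111_14_6 (nat_lit 364)))) (M (nat_lit 458) (B (lo111_10_5 (nat_lit 426)) (lo111_11_5 (nat_lit 490)))))) (B (M (nat_lit 364) (B (M (nat_lit 459) (B (lo111_14_6 (nat_lit 332)) (M (nat_lit 458) (B (lo111_10_5 (nat_lit 426)) (lo111_11_5 (nat_lit 490)))))) (B (M (nat_lit 299) (B (M (nat_lit 426) (B (lo111_9_5 (nat_lit 394)) (lo111_10_5 (nat_lit 458)))) (M (nat_lit 396) (B (lo111_8_4 (nat_lit 267)) (lo111_9_4 (nat_lit 428)))))) (M (nat_lit 396) (B (M (nat_lit 299) (B (lo111_8_4 (nat_lit 267)) (lo111_9_4 (nat_lit 428)))) (M (nat_lit 459) (B (lo111_14_6 (nat_lit 332)) (lo111_15_6 (nat_lit 491))))))))) (B (K _ _ _ o1_s22704) (B (M (nat_lit 299) (B (M (nat_lit 300) (B (lo111_12_6 (nat_lit 268)) (lo111_13_6 (nat_lit 332)))) (M (nat_lit 426) (B (lo111_9_5 (nat_lit 394)) (lo111_10_5 (nat_lit 458)))))) (M (nat_lit 299) (B (M (nat_lit 300) (B (lo111_12_6 (nat_lit 268)) (lo111_13_6 (nat_lit 332)))) (B (M (nat_lit 364) (B (M (nat_lit 396) (B (lo111_8_4 (nat_lit 267)) (lo111_9_4 (nat_lit 428)))) (M (nat_lit 332) (B (lo111_13_6 (nat_lit 300)) (lo111_14_6 (nat_lit 459)))))) (B (M (nat_lit 396) (B (lo111_9_4 (nat_lit 428)) (M (nat_lit 364) (B (lo111_8_4 (nat_lit 267)) (M (nat_lit 459) (B (lo111_14_6 (nat_lit 332)) (lo111_15_6 (nat_lit 491)))))))) (M (nat_lit 267) (B (M (nat_lit 268) (B (lo111_11_6 (nat_lit 236)) (lo111_12_6 (nat_lit 300)))) (M (nat_lit 396) (B (lo111_8_4 (nat_lit 364)) (lo111_9_4 (nat_lit 428))))))))))))))) (B (M (nat_lit 364) (B (M (nat_lit 332) (B (lo111_14_6 (nat_lit 459)) (M (nat_lit 300) (B (lo112_8_5 (nat_lit 268)) (lo112_9_5 (nat_lit 396)))))) (B (M (nat_lit 459) (B (lo111_14_6 (nat_lit 332)) (M (nat_lit 491) (B (lo111_15_6 (nat_lit 396)) (M (nat_lit 362) (B (lo111_14_7 (nat_lit 330)) (lo111_15_7 (nat_lit 394)))))))) (B (M (nat_lit 362) (B (M (nat_lit 459) (B (lo111_14_7 (nat_lit 330)) (M (nat_lit 491) (B (lo111_15_7 (nat_lit 394)) (lo111_15_6 (nat_lit 396)))))) (B (M (nat_lit 394) (B (M (nat_lit 365) (B (lo113_11_1 (nat_lit 393)) (lo114_11_1 (nat_lit 366)))) (M (nat_lit 361) (B (M (nat_lit 360) (B (lo17_11_0 (nat_lit 359)) (lo18_11_0 (nat_lit 396)))) (M (nat_lit 458) (B (M (nat_lit 329) (B (lo112_11_3 (nat_lit 328)) (lo110_14_7 (nat_lit 426)))) (B (M (nat_lit 426) (B (lo110_14_7 (nat_lit 329)) (lo110_15_6 (nat_lit 490)))) (M (nat_lit 459) (B (lo111_15_7 (nat_lit 491)) (lo111_11_5 (nat_lit 490))))))))))) (B (M (nat_lit 459) (B (lo111_14_7 (nat_lit 330)) (M (nat_lit 491) (B (lo111_15_6 (nat_lit 396)) (M (nat_lit 490) (B (lo111_11_5 (nat_lit 458)) (lo111_12_5 (nat_lit 522)))))))) (B (M (nat_lit 365) (B (M (nat_lit 330) (B (lo113_11_3 (nat_lit 329)) (lo111_14_7 (nat_lit 459)))) (M (nat_lit 394) (B (lo113_11_1 (nat_lit 393)) (lo114_11_1 (nat_lit 366)))))) (M (nat_lit 361) (B (M (nat_lit 360) (B (lo18_11_0 (nat_lit 396)) (M (nat_lit 392) (B (lo111_11_1 (nat_lit 391)) (lo112_11_1 (nat_lit 393)))))) (B (M (nat_lit 393) (B (lo112_11_1 (nat_lit 392)) (M (nat_lit 365) (B (lo113_11_1 (nat_lit 394)) (M (nat_lit 329) (B (lo112_11_3 (nat_lit 328)) (lo113_11_3 (nat_lit 330)))))))) (B (M (nat_lit 394) (B (M (nat_lit 360) (B (lo17_11_0 (nat_lit 359)) (lo18_11_0 (nat_lit 396)))) (M (nat_lit 365) (B (lo113_11_1 (nat_lit 393)) (M (nat_lit 329) (B (lo112_11_3 (nat_lit 328)) (lo113_11_3 (nat_lit 330)))))))) (M (nat_lit 360) (B (lo18_11_0 (nat_lit 396)) (M (nat_lit 330) (B (M (nat_lit 394) (B (lo110_9_4 (nat_lit 298)) (lo17_11_0 (nat_lit 359)))) (M (nat_lit 329) (B (lo112_11_3 (nat_lit 328)) (lo113_11_3 (nat_lit 365))))))))))))))))) (B (K _ _ _ o1_s22775) (M (nat_lit 365) (B (M (nat_lit 394) (B (lo114_11_1 (nat_lit 366)) (M (nat_lit 393) (B (lo113_11_1 (nat_lit 362)) (lo18_12_2 (nat_lit 392)))))) (B (M (nat_lit 394) (B (lo114_11_1 (nat_lit 366)) (M (nat_lit 393) (B (lo18_12_2 (nat_lit 392)) (lo19_12_2 (nat_lit 396)))))) (B (M (nat_lit 362) (B (M (nat_lit 394) (B (lo113_11_1 (nat_lit 393)) (M (nat_lit 330) (B (lo110_9_4 (nat_lit 298)) (lo113_11_3 (nat_lit 329)))))) (B (M (nat_lit 361) (B (M (nat_lit 333) (B (lo19_11_2 (nat_lit 332)) (lo110_11_2 (nat_lit 334)))) (M (nat_lit 393) (B (lo112_11_1 (nat_lit 392)) (lo113_11_1 (nat_lit 394)))))) (M (nat_lit 361) (B (M (nat_lit 329) (B (lo112_11_3 (nat_lit 328)) (lo113_11_3 (nat_lit 330)))) (M (nat_lit 333) (B (lo19_11_2 (nat_lit 332)) (lo110_11_2 (nat_lit 334))))))))) (B (M (nat_lit 394) (B (lo114_11_1 (nat_lit 366)) (M (nat_lit 393) (B (lo113_11_1 (nat_lit 362)) (lo19_12_2 (nat_lit 396)))))) (B (M (nat_lit 366) (B (lo114_11_1 (nat_lit 394)) (M (nat_lit 367) (B (lo115_11_1 (nat_lit 396)) (M (nat_lit 399) (B (lo111_11_0 (nat_lit 398)) (lo112_11_0 (nat_lit 400)))))))) (M (nat_lit 362) (B (M (nat_lit 361) (B (M (nat_lit 329) (B (lo112_11_3 (nat_lit 328)) (lo113_11_3 (nat_lit 330)))) (M (nat_lit 333) (B (lo19_11_2 (nat_lit 332)) (lo110_11_2 (nat_lit 334)))))) (B (M (nat_lit 366) (B (M (nat_lit 334) (B (lo110_11_2 (nat_lit 333)) (lo111_11_2 (nat_lit 335)))) (M (nat_lit 367) (B (lo115_11_1 (nat_lit 396)) (M (nat_lit 399) (B (lo111_11_0 (nat_lit 398)) (lo112_11_0 (nat_lit 400)))))))) (M (nat_lit 361) (B (M (nat_lit 329) (B (lo112_11_3 (nat_lit 328)) (lo113_11_3 (nat_lit 330)))) (M (nat_lit 360) (B (lo18_11_0 (nat_lit 396)) (M (nat_lit 392) (B (lo111_11_1 (nat_lit 391)) (lo112_11_1 (nat_lit 393)))))))))))))))))))))) (B (M (nat_lit 331) (B (M (nat_lit 459) (B (M (nat_lit 330) (B (lo111_13_7 (nat_lit 298)) (lo111_14_7 (nat_lit 362)))) (M (nat_lit 458) (B (lo111_10_5 (nat_lit 426)) (lo111_11_5 (nat_lit 490)))))) (B (K _ _ _ o1_s22704) (M (nat_lit 299) (B (M (nat_lit 298) (B (lo111_12_7 (nat_lit 266)) (lo111_13_7 (nat_lit 330)))) (M (nat_lit 267) (B (M (nat_lit 268) (B (lo111_11_6 (nat_lit 236)) (lo111_12_6 (nat_lit 300)))) (M (nat_lit 396) (B (lo111_8_4 (nat_lit 364)) (lo111_9_4 (nat_lit 428))))))))))) (B (M (nat_lit 331) (B (M (nat_lit 299) (B (M (nat_lit 300) (B (lo111_12_6 (nat_lit 268)) (lo111_13_6 (nat_lit 332)))) (M (nat_lit 426) (B (lo111_9_5 (nat_lit 394)) (lo111_10_5 (nat_lit 458)))))) (B (M (nat_lit 299) (B (M (nat_lit 298) (B (lo111_12_7 (nat_lit 266)) (lo111_13_7 (nat_lit 330)))) (M (nat_lit 426) (B (lo111_9_5 (nat_lit 394)) (lo111_10_5 (nat_lit 458)))))) (B (M (nat_lit 459) (B (M (nat_lit 330) (B (lo111_13_7 (nat_lit 298)) (lo111_14_7 (nat_lit 362)))) (M (nat_lit 458) (B (lo111_10_5 (nat_lit 426)) (lo111_11_5 (nat_lit 490)))))) (M (nat_lit 299) (B (M (nat_lit 298) (B (lo111_12_7 (nat_lit 266)) (lo111_13_7 (nat_lit 330)))) (M (nat_lit 300) (B (lo111_12_6 (nat_lit 268)) (lo111_13_6 (nat_lit 332)))))))))) (B (M (nat_lit 459) (B (M (nat_lit 491) (B (M (nat_lit 362) (B (lo111_14_7 (nat_lit 330)) (lo111_15_7 (nat_lit 394)))) (M (nat_lit 490) (B (lo111_11_5 (nat_lit 458)) (lo111_12_5 (nat_lit 522)))))) (B (M (nat_lit 491) (B (M (nat_lit 364) (B (lo111_14_6 (nat_lit 332)) (lo111_15_6 (nat_lit 396)))) (M (nat_lit 490) (B (lo111_11_5 (nat_lit 458)) (lo111_12_5 (nat_lit 522)))))) (B (M (nat_lit 491) (B (M (nat_lit 362) (B (lo111_14_7 (nat_lit 330)) (lo111_15_7 (nat_lit 394)))) (M (nat_lit 364) (B (lo111_14_6 (nat_lit 332)) (lo111_15_6 (nat_lit 396)))))) (M (nat_lit 331) (B (M (nat_lit 330) (B (lo111_13_7 (nat_lit 298)) (lo111_14_7 (nat_lit 362)))) (M (nat_lit 332) (B (lo111_13_6 (nat_lit 300)) (lo111_14_6 (nat_lit 364)))))))))) (B (M (nat_lit 331) (B (M (nat_lit 330) (B (lo111_13_7 (nat_lit 298)) (M (nat_lit 332) (B (lo111_13_6 (nat_lit 300)) (M (nat_lit 459) (B (lo111_14_7 (nat_lit 362)) (lo111_14_6 (nat_lit 364)))))))) (B (M (nat_lit 299) (B (M (nat_lit 300) (B (lo111_12_6 (nat_lit 268)) (lo111_13_6 (nat_lit 332)))) (M (nat_lit 267) (B (M (nat_lit 394) (B (lo111_8_5 (nat_lit 362)) (lo111_9_5 (nat_lit 426)))) (M (nat_lit 396) (B (lo111_8_4 (nat_lit 364)) (lo111_9_4 (nat_lit 428)))))))) (B (M (nat_lit 299) (B (M (nat_lit 298) (B (lo111_12_7 (nat_lit 266)) (lo111_13_7 (nat_lit 330)))) (M (nat_lit 267) (B (M (nat_lit 394) (B (lo111_8_5 (nat_lit 362)) (lo111_9_5 (nat_lit 426)))) (M (nat_lit 396) (B (lo111_8_4 (nat_lit 364)) (lo111_9_4 (nat_lit 428)))))))) (M (nat_lit 299) (B (M (nat_lit 298) (B (lo111_12_7 (nat_lit 266)) (lo111_13_7 (nat_lit 330)))) (M (nat_lit 300) (B (lo111_12_6 (nat_lit 268)) (lo111_13_6 (nat_lit 332)))))))))) (K _ _ _ o1_s22656))))))))))))) (B (M (nat_lit 426) (B (M (nat_lit 425) (B (M (nat_lit 393) (B (lo113_13_3 (nat_lit 394)) (lo112_13_3 (nat_lit 392)))) (M (nat_lit 461) (B (lo110_13_0 (nat_lit 462)) (lo19_13_0 (nat_lit 460)))))) (B (M (nat_lit 425) (B (M (nat_lit 461) (B (lo110_13_0 (nat_lit 462)) (lo19_13_0 (nat_lit 460)))) (M (nat_lit 424) (B (lo18_13_2 (nat_lit 396)) (M (nat_lit 392) (B (lo112_13_3 (nat_lit 393)) (lo111_13_3 (nat_lit 391)))))))) (B (M (nat_lit 425) (B (M (nat_lit 461) (B (lo110_13_0 (nat_lit 462)) (lo19_13_0 (nat_lit 460)))) (M (nat_lit 424) (B (lo18_13_2 (nat_lit 396)) (M (nat_lit 423) (B (lo17_13_2 (nat_lit 394)) (M (nat_lit 455) (B (lo111_13_1 (nat_lit 456)) (lo110_13_1 (nat_lit 454)))))))))) (B (M (nat_lit 394) (B (lo113_13_3 (nat_lit 393)) (M (nat_lit 491) (B (M (nat_lit 459) (B (lo111_15_7 (nat_lit 362)) (lo111_16_7 (nat_lit 523)))) (B (M (nat_lit 490) (B (M (nat_lit 459) (B (lo111_12_5 (nat_lit 522)) (lo111_16_7 (nat_lit 523)))) (B (M (nat_lit 458) (B (lo110_16_6 (nat_lit 522)) (lo110_12_4 (nat_lit 523)))) (B (M (nat_lit 522) (B (lo110_16_6 (nat_lit 458)) (lo111_12_5 (nat_lit 459)))) (M (nat_lit 523) (B (lo111_16_7 (nat_lit 459)) (lo110_12_4 (nat_lit 458)))))))) (B (M (nat_lit 492) (B (M (nat_lit 460) (B (lo112_16_7 (nat_lit 524)) (M (nat_lit 461) (B (lo110_13_0 (nat_lit 462)) (M (nat_lit 396) (B (lo112_12_5 (nat_lit 523)) (M (nat_lit 364) (B (lo112_10_4 (nat_lit 332)) (lo112_11_4 (nat_lit 493)))))))))) (B (M (nat_lit 460) (B (lo112_16_7 (nat_lit 524)) (M (nat_lit 490) (B (M (nat_lit 458) (B (lo110_16_6 (nat_lit 522)) (lo110_12_4 (nat_lit 523)))) (M (nat_lit 461) (B (lo110_13_0 (nat_lit 462)) (lo19_15_2 (nat_lit 489)))))))) (B (M (nat_lit 493) (B (M (nat_lit 460) (B (lo112_16_7 (nat_lit 524)) (M (nat_lit 396) (B (lo112_12_4 (nat_lit 525)) (lo112_12_5 (nat_lit 523)))))) (B (K _ _ _ o1_s22887) (B (M (nat_lit 460) (B (lo112_16_7 (nat_lit 524)) (M (nat_lit 522) (B (M (nat_lit 523) (B (lo112_12_5 (nat_lit 396)) (lo114_15_1 (nat_lit 494)))) (M (nat_lit 490) (B (lo110_16_6 (nat_lit 458)) (lo113_15_1 (nat_lit 521)))))))) (M (nat_lit 490) (B (M (nat_lit 522) (B (lo110_16_6 (nat_lit 458)) (lo113_15_1 (nat_lit 521)))) (M (nat_lit 525) (B (lo110_15_0 (nat_lit 526)) (M (nat_lit 396) (B (lo113_16_7 (nat_lit 461)) (lo112_12_4 (nat_lit 460)))))))))))) (B (M (nat_lit 490) (B (M (nat_lit 458) (B (lo110_16_6 (nat_lit 522)) (lo110_12_4 (nat_lit 523)))) (M (nat_lit 524) (B (lo112_16_7 (nat_lit 460)) (M (nat_lit 525) (B (lo19_15_0 (nat_lit 489)) (M (nat_lit 526) (B (lo110_15_0 (nat_lit 493)) (lo115_16_3 (nat_lit 527)))))))))) (B (M (nat_lit 493) (B (M (nat_lit 461) (B (lo110_13_0 (nat_lit 462)) (M (nat_lit 525) (B (lo113_16_7 (nat_lit 396)) (M (nat_lit 526) (B (lo113_13_4 (nat_lit 558)) (lo110_15_0 (nat_lit 490)))))))) (B (M (nat_lit 462) (B (lo110_13_0 (nat_lit 461)) (M (nat_lit 522) (B (M (nat_lit 494) (B (lo111_15_2 (nat_lit 463)) (lo114_15_1 (nat_lit 523)))) (M (nat_lit 490) (B (lo110_16_6 (nat_lit 458)) (lo113_15_1 (nat_lit 521)))))))) (B (K _ _ _ o1_s22887) (M (nat_lit 494) (B (M (nat_lit 462) (B (lo110_13_0 (nat_lit 461)) (lo111_15_2 (nat_lit 463)))) (M (nat_lit 495) (B (M (nat_lit 527) (B (lo112_15_0 (nat_lit 528)) (lo111_15_0 (nat_lit 526)))) (M (nat_lit 523) (B (lo115_15_1 (nat_lit 524)) (lo114_15_1 (nat_lit 522)))))))))))) (B (M (nat_lit 490) (B (M (nat_lit 458) (B (lo110_16_6 (nat_lit 522)) (lo110_12_4 (nat_lit 523)))) (B (M (nat_lit 493) (B (M (nat_lit 525) (B (lo110_15_0 (nat_lit 526)) (M (nat_lit 396) (B (lo113_16_7 (nat_lit 461)) (lo112_12_4 (nat_lit 460)))))) (B (M (nat_lit 494) (B (M (nat_lit 526) (B (lo111_15_0 (nat_lit 527)) (lo110_15_0 (nat_lit 525)))) (M (nat_lit 522) (B (lo114_15_1 (nat_lit 523)) (lo113_15_1 (nat_lit 521)))))) (M (nat_lit 494) (B (M (nat_lit 462) (B (lo110_13_0 (nat_lit 461)) (lo111_15_2 (nat_lit 463)))) (M (nat_lit 522) (B (lo114_15_1 (nat_lit 523)) (lo113_15_1 (nat_lit 521))))))))) (B (M (nat_lit 489) (B (M (nat_lit 458) (B (lo110_16_6 (nat_lit 522)) (lo110_12_5 (nat_lit 521)))) (M (nat_lit 461) (B (lo110_13_0 (nat_lit 462)) (lo19_15_2 (nat_lit 460)))))) (M (nat_lit 460) (B (M (nat_lit 523) (B (lo112_12_5 (nat_lit 396)) (lo110_12_4 (nat_lit 458)))) (M (nat_lit 461) (B (lo110_13_0 (nat_lit 462)) (lo19_15_2 (nat_lit 489)))))))))) (M (nat_lit 460) (B (lo112_16_7 (nat_lit 524)) (M (nat_lit 493) (B (M (nat_lit 396) (B (lo112_12_4 (nat_lit 525)) (M (nat_lit 461) (B (lo112_11_4 (nat_lit 364)) (lo110_13_0 (nat_lit 462)))))) (B (M (nat_lit 490) (B (M (nat_lit 525) (B (lo112_12_4 (nat_lit 396)) (lo110_15_0 (nat_lit 526)))) (M (nat_lit 522) (B (lo110_16_6 (nat_lit 458)) (lo113_15_1 (nat_lit 521)))))) (M (nat_lit 490) (B (M (nat_lit 461) (B (lo110_13_0 (nat_lit 462)) (lo19_15_2 (nat_lit 489)))) (M (nat_lit 522) (B (lo110_16_6 (nat_lit 458)) (lo113_15_1 (nat_lit 521)))))))))))))))))) (M (nat_lit 459) (B (lo111_15_7 (nat_lit 362)) (M (nat_lit 490) (B (lo111_12_5 (nat_lit 522)) (M (nat_lit 492) (B (lo111_12_4 (nat_lit 524)) (M (nat_lit 489) (B (M (nat_lit 461) (B (lo110_13_0 (nat_lit 462)) (lo19_15_2 (nat_lit 460)))) (M (nat_lit 521) (B (lo110_12_5 (nat_lit 458)) (lo112_15_1 (nat_lit 520)))))))))))))))))) (B (M (nat_lit 425) (B (M (nat_lit 393) (B (lo113_13_3 (nat_lit 394)) (lo112_13_3 (nat_lit 392)))) (B (M (nat_lit 392) (B (lo112_13_3 (nat_lit 393)) (M (nat_lit 424) (B (lo18_13_2 (nat_lit 396)) (lo111_13_3 (nat_lit 391)))))) (M (nat_lit 424) (B (lo18_13_2 (nat_lit 396)) (M (nat_lit 460) (B (lo19_13_0 (nat_lit 461)) (lo18_13_0 (nat_lit 459))))))))) (M (nat_lit 425) (B (M (nat_lit 393) (B (lo113_13_3 (nat_lit 394)) (lo112_13_3 (nat_lit 392)))) (B (M (nat_lit 392) (B (lo112_13_3 (nat_lit 393)) (M (nat_lit 424) (B (lo18_13_2 (nat_lit 396)) (lo111_13_3 (nat_lit 391)))))) (M (nat_lit 424) (B (lo18_13_2 (nat_lit 396)) (M (nat_lit 423) (B (lo17_13_2 (nat_lit 394)) (M (nat_lit 455) (B (lo111_13_1 (nat_lit 456)) (lo110_13_1 (nat_lit 454))))))))))))))))) (B (M (nat_lit 363) (B (M (nat_lit 460) (B (lo111_10_4 (nat_lit 331)) (M (nat_lit 492) (B (lo112_15_7 (nat_lit 396)) (lo112_16_7 (nat_lit 524)))))) (B (M (nat_lit 460) (B (lo111_10_4 (nat_lit 331)) (M (nat_lit 492) (B (lo112_16_7 (nat_lit 524)) (lo111_11_4 (nat_lit 459)))))) (B (M (nat_lit 331) (B (M (nat_lit 300) (B (lo111_13_6 (nat_lit 332)) (M (nat_lit 299) (B (lo111_12_6 (nat_lit 268)) (lo111_9_4 (nat_lit 396)))))) (B (M (nat_lit 299) (B (lo111_9_4 (nat_lit 396)) (M (nat_lit 298) (B (lo111_12_7 (nat_lit 266)) (lo111_13_7 (nat_lit 330)))))) (B (M (nat_lit 299) (B (M (nat_lit 300) (B (lo111_12_6 (nat_lit 268)) (lo111_13_6 (nat_lit 332)))) (M (nat_lit 298) (B (lo111_12_7 (nat_lit 266)) (lo111_13_7 (nat_lit 330)))))) (M (nat_lit 332) (B (lo111_13_6 (nat_lit 300)) (M (nat_lit 364) (B (lo111_14_6 (nat_lit 459)) (M (nat_lit 330) (B (lo111_13_7 (nat_lit 298)) (M (nat_lit 365) (B (lo114_11_3 (nat_lit 366)) (lo19_10_0 (nat_lit 329)))))))))))))) (M (nat_lit 459) (B (M (nat_lit 491) (B (M (nat_lit 364) (B (lo111_14_6 (nat_lit 332)) (lo111_15_6 (nat_lit 396)))) (M (nat_lit 492) (B (lo111_11_4 (nat_lit 460)) (lo111_12_4 (nat_lit 524)))))) (B (M (nat_lit 491) (B (M (nat_lit 396) (B (lo111_15_6 (nat_lit 364)) (lo111_16_6 (nat_lit 523)))) (M (nat_lit 492) (B (lo111_11_4 (nat_lit 460)) (lo111_12_4 (nat_lit 524)))))) (B (M (nat_lit 491) (B (M (nat_lit 492) (B (lo111_11_4 (nat_lit 460)) (lo111_12_4 (nat_lit 524)))) (M (nat_lit 523) (B (lo111_16_6 (nat_lit 396)) (M (nat_lit 522) (B (lo111_12_5 (nat_lit 490)) (lo111_13_5 (nat_lit 554)))))))) (B (M (nat_lit 491) (B (M (nat_lit 492) (B (lo111_11_4 (nat_lit 460)) (lo111_12_4 (nat_lit 524)))) (B (M (nat_lit 523) (B (M (nat_lit 524) (B (lo111_12_4 (nat_lit 492)) (lo111_13_4 (nat_lit 556)))) (M (nat_lit 522) (B (lo111_12_5 (nat_lit 490)) (lo111_13_5 (nat_lit 554)))))) (B (K _ _ _ o1_s22620) (M (nat_lit 523) (B (M (nat_lit 460) (B (lo111_17_6 (nat_lit 555)) (lo111_11_4 (nat_lit 492)))) (M (nat_lit 522) (B (lo111_12_5 (nat_lit 490)) (lo111_13_5 (nat_lit 554)))))))))) (B (M (nat_lit 491) (B (M (nat_lit 364) (B (lo111_14_6 (nat_lit 332)) (lo111_15_6 (nat_lit 396)))) (B (M (nat_lit 396) (B (lo111_15_6 (nat_lit 364)) (lo111_16_6 (nat_lit 523)))) (B (M (nat_lit 523) (B (lo111_16_6 (nat_lit 396)) (M (nat_lit 524) (B (lo111_12_4 (nat_lit 492)) (lo111_13_4 (nat_lit 556)))))) (M (nat_lit 523) (B (M (nat_lit 524) (B (lo111_12_4 (nat_lit 492)) (lo111_13_4 (nat_lit 556)))) (M (nat_lit 522) (B (lo111_12_5 (nat_lit 490)) (lo111_13_5 (nat_lit 554)))))))))) (B (M (nat_lit 491) (B (M (nat_lit 364) (B (lo111_14_6 (nat_lit 332)) (lo111_15_6 (nat_lit 396)))) (B (M (nat_lit 396) (B (lo111_15_6 (nat_lit 364)) (lo111_16_6 (nat_lit 523)))) (B (M (nat_lit 523) (B (lo111_16_6 (nat_lit 396)) (M (nat_lit 522) (B (lo111_12_5 (nat_lit 490)) (lo111_13_5 (nat_lit 554)))))) (K _ _ _ o1_s22620))))) (B (M (nat_lit 491) (B (M (nat_lit 364) (B (lo111_14_6 (nat_lit 332)) (lo111_15_6 (nat_lit 396)))) (B (M (nat_lit 396) (B (lo111_15_6 (nat_lit 364)) (lo111_16_6 (nat_lit 523)))) (B (M (nat_lit 460) (B (lo111_11_4 (nat_lit 492)) (M (nat_lit 523) (B (lo111_16_6 (nat_lit 396)) (lo111_17_6 (nat_lit 555)))))) (M (nat_lit 523) (B (M (nat_lit 460) (B (lo111_17_6 (nat_lit 555)) (lo111_11_4 (nat_lit 492)))) (M (nat_lit 522) (B (lo111_12_5 (nat_lit 490)) (lo111_13_5 (nat_lit 554)))))))))) (M (nat_lit 460) (B (lo111_11_4 (nat_lit 492)) (M (nat_lit 364) (B (lo111_14_6 (nat_lit 332)) (M (nat_lit 396) (B (M (nat_lit 461) (B (lo112_11_4 (nat_lit 493)) (M (nat_lit 462) (B (lo115_14_3 (nat_lit 463)) (lo114_14_3 (nat_lit 426)))))) (M (nat_lit 365) (B (lo112_14_6 (nat_lit 333)) (M (nat_lit 394) (B (lo114_11_1 (nat_lit 366)) (lo19_12_2 (nat_lit 393)))))))))))))))))))))))) (B (M (nat_lit 363) (B (M (nat_lit 460) (B (lo111_10_4 (nat_lit 331)) (M (nat_lit 492) (B (lo111_11_4 (nat_lit 459)) (lo112_15_7 (nat_lit 396)))))) (B (M (nat_lit 364) (B (M (nat_lit 332) (B (lo111_14_6 (nat_lit 459)) (M (nat_lit 300) (B (lo112_8_5 (nat_lit 268)) (lo112_9_5 (nat_lit 396)))))) (B (M (nat_lit 365) (B (M (nat_lit 394) (B (lo114_11_1 (nat_lit 366)) (M (nat_lit 393) (B (lo18_12_2 (nat_lit 392)) (lo19_12_2 (nat_lit 396)))))) (B (M (nat_lit 394) (B (lo114_11_1 (nat_lit 366)) (M (nat_lit 393) (B (lo113_11_1 (nat_lit 362)) (lo19_12_2 (nat_lit 396)))))) (B (M (nat_lit 333) (B (M (nat_lit 396) (B (lo112_14_6 (nat_lit 460)) (M (nat_lit 301) (B (lo112_13_6 (nat_lit 332)) (lo113_8_5 (nat_lit 269)))))) (M (nat_lit 334) (B (lo110_11_2 (nat_lit 362)) (M (nat_lit 335) (B (lo111_11_2 (nat_lit 366)) (lo116_10_1 (nat_lit 336)))))))) (B (M (nat_lit 394) (B (lo114_11_1 (nat_lit 366)) (M (nat_lit 393) (B (lo18_12_2 (nat_lit 392)) (lo113_11_1 (nat_lit 362)))))) (K _ _ _ o1_s23061)))))) (B (M (nat_lit 365) (B (M (nat_lit 394) (B (lo114_11_1 (nat_lit 366)) (M (nat_lit 393) (B (lo18_12_2 (nat_lit 392)) (lo113_11_1 (nat_lit 362)))))) (B (M (nat_lit 394) (B (lo114_11_1 (nat_lit 366)) (M (nat_lit 393) (B (lo113_11_1 (nat_lit 362)) (lo19_12_2 (nat_lit 396)))))) (B (M (nat_lit 460) (B (M (nat_lit 492) (B (lo111_11_4 (nat_lit 459)) (lo112_15_7 (nat_lit 396)))) (B (M (nat_lit 492) (B (lo112_15_7 (nat_lit 396)) (lo112_16_7 (nat_lit 524)))) (B (M (nat_lit 492) (B (lo111_11_4 (nat_lit 459)) (lo112_16_7 (nat_lit 524)))) (M (nat_lit 362) (B (M (nat_lit 330) (B (lo113_11_3 (nat_lit 329)) (lo111_14_7 (nat_lit 459)))) (M (nat_lit 333) (B (lo110_11_2 (nat_lit 334)) (lo112_14_6 (nat_lit 396)))))))))) (M (nat_lit 394) (B (lo114_11_1 (nat_lit 366)) (M (nat_lit 393) (B (lo18_12_2 (nat_lit 392)) (lo19_12_2 (nat_lit 396)))))))))) (M (nat_lit 362) (B (M (nat_lit 459) (B (lo111_14_7 (nat_lit 330)) (lo111_14_6 (nat_lit 332)))) (B (M (nat_lit 332) (B (lo111_14_6 (nat_lit 459)) (M (nat_lit 333) (B (lo19_11_2 (nat_lit 361)) (M (nat_lit 334) (B (lo110_11_2 (nat_lit 365)) (lo115_10_1 (nat_lit 335)))))))) (B (M (nat_lit 365) (B (M (nat_lit 394) (B (lo113_11_1 (nat_lit 393)) (lo114_11_1 (nat_lit 366)))) (M (nat_lit 361) (B (M (nat_lit 329) (B (lo112_11_3 (nat_lit 328)) (lo113_11_3 (nat_lit 330)))) (M (nat_lit 333) (B (lo19_11_2 (nat_lit 332)) (lo110_11_2 (nat_lit 334)))))))) (M (nat_lit 330) (B (lo111_14_7 (nat_lit 459)) (M (nat_lit 298) (B (lo110_8_4 (nat_lit 266)) (lo110_9_4 (nat_lit 394)))))))))))))) (B (M (nat_lit 460) (B (lo111_10_4 (nat_lit 331)) (M (nat_lit 492) (B (lo112_15_7 (nat_lit 396)) (lo112_16_7 (nat_lit 524)))))) (B (M (nat_lit 460) (B (lo111_10_4 (nat_lit 331)) (M (nat_lit 492) (B (lo111_11_4 (nat_lit 459)) (lo112_16_7 (nat_lit 524)))))) (M (nat_lit 331) (B (M (nat_lit 299) (B (lo111_9_4 (nat_lit 396)) (M (nat_lit 300) (B (lo111_12_6 (nat_lit 268)) (lo111_13_6 (nat_lit 332)))))) (B (M (nat_lit 459) (B (M (nat_lit 330) (B (lo111_13_7 (nat_lit 298)) (lo111_14_7 (nat_lit 362)))) (M (nat_lit 332) (B (lo111_13_6 (nat_lit 300)) (lo111_14_6 (nat_lit 364)))))) (M (nat_lit 299) (B (lo111_9_4 (nat_lit 396)) (M (nat_lit 298) (B (lo111_12_7 (nat_lit 266)) (lo111_13_7 (nat_lit 330)))))))))))))) (B (M (nat_lit 394) (B (M (nat_lit 459) (B (M (nat_lit 362) (B (lo111_15_7 (nat_lit 491)) (M (nat_lit 330) (B (lo110_10_4 (nat_lit 426)) (lo110_9_4 (nat_lit 298)))))) (B (M (nat_lit 362) (B (lo111_15_7 (nat_lit 491)) (M (nat_lit 330) (B (lo110_9_4 (nat_lit 298)) (lo111_14_7 (nat_lit 363)))))) (B (M (nat_lit 491) (B (M (nat_lit 523) (B (lo111_16_7 (nat_lit 426)) (M (nat_lit 522) (B (lo111_13_5 (nat_lit 554)) (lo111_12_5 (nat_lit 490)))))) (B (M (nat_lit 523) (B (lo111_16_7 (nat_lit 426)) (M (nat_lit 524) (B (lo111_13_4 (nat_lit 556)) (lo111_12_4 (nat_lit 492)))))) (M (nat_lit 363) (B (M (nat_lit 490) (B (lo111_12_5 (nat_lit 522)) (lo111_11_5 (nat_lit 458)))) (M (nat_lit 492) (B (lo111_12_4 (nat_lit 524)) (lo111_11_4 (nat_lit 460))))))))) (M (nat_lit 363) (B (M (nat_lit 458) (B (lo111_11_5 (nat_lit 490)) (M (nat_lit 460) (B (lo111_11_4 (nat_lit 492)) (M (nat_lit 331) (B (lo111_10_5 (nat_lit 426)) (lo111_10_4 (nat_lit 428)))))))) (B (M (nat_lit 331) (B (M (nat_lit 330) (B (lo111_14_7 (nat_lit 362)) (lo111_13_7 (nat_lit 298)))) (M (nat_lit 460) (B (lo111_11_4 (nat_lit 492)) (lo111_10_4 (nat_lit 428)))))) (B (M (nat_lit 426) (B (M (nat_lit 460) (B (lo111_11_4 (nat_lit 492)) (M (nat_lit 425) (B (lo18_13_0 (nat_lit 424)) (M (nat_lit 461) (B (lo19_13_0 (nat_lit 428)) (lo114_14_3 (nat_lit 462)))))))) (B (M (nat_lit 458) (B (lo110_15_6 (nat_lit 490)) (M (nat_lit 460) (B (lo111_11_4 (nat_lit 492)) (M (nat_lit 461) (B (lo113_14_3 (nat_lit 425)) (lo114_14_3 (nat_lit 462)))))))) (M (nat_lit 362) (B (lo110_10_4 (nat_lit 330)) (M (nat_lit 361) (B (M (nat_lit 360) (B (lo17_11_0 (nat_lit 359)) (lo18_11_0 (nat_lit 396)))) (M (nat_lit 458) (B (lo110_14_7 (nat_lit 329)) (lo110_15_6 (nat_lit 490))))))))))) (M (nat_lit 331) (B (M (nat_lit 458) (B (lo111_11_5 (nat_lit 490)) (lo111_10_5 (nat_lit 426)))) (M (nat_lit 330) (B (lo111_14_7 (nat_lit 362)) (lo111_13_7 (nat_lit 298)))))))))))))) (B (M (nat_lit 459) (B (M (nat_lit 362) (B (lo111_15_7 (nat_lit 491)) (M (nat_lit 330) (B (lo110_9_4 (nat_lit 298)) (lo110_10_4 (nat_lit 426)))))) (B (M (nat_lit 362) (B (lo111_15_7 (nat_lit 491)) (M (nat_lit 330) (B (lo111_14_7 (nat_lit 363)) (lo110_10_4 (nat_lit 426)))))) (B (M (nat_lit 460) (B (M (nat_lit 492) (B (lo111_11_4 (nat_lit 363)) (lo112_16_7 (nat_lit 524)))) (M (nat_lit 426) (B (M (nat_lit 393) (B (lo18_12_0 (nat_lit 392)) (lo113_13_3 (nat_lit 429)))) (M (nat_lit 461) (B (lo19_13_0 (nat_lit 425)) (lo114_14_3 (nat_lit 462)))))))) (M (nat_lit 362) (B (lo111_15_7 (nat_lit 491)) (M (nat_lit 330) (B (lo110_9_4 (nat_lit 298)) (lo111_14_7 (nat_lit 363)))))))))) (M (nat_lit 393) (B (lo19_12_0 (nat_lit 396)) (lo18_12_0 (nat_lit 392))))))) (M (nat_lit 363) (B (M (nat_lit 460) (B (lo111_10_4 (nat_lit 331)) (M (nat_lit 492) (B (lo112_16_7 (nat_lit 524)) (lo111_11_4 (nat_lit 459)))))) (B (M (nat_lit 460) (B (lo111_10_4 (nat_lit 331)) (M (nat_lit 492) (B (lo112_15_7 (nat_lit 396)) (lo111_11_4 (nat_lit 459)))))) (B (M (nat_lit 331) (B (lo111_10_4 (nat_lit 460)) (M (nat_lit 299) (B (lo111_9_4 (nat_lit 396)) (M (nat_lit 300) (B (lo111_13_6 (nat_lit 332)) (lo111_12_6 (nat_lit 268)))))))) (B (M (nat_lit 331) (B (M (nat_lit 300) (B (lo111_13_6 (nat_lit 332)) (M (nat_lit 299) (B (lo111_9_4 (nat_lit 396)) (lo111_12_6 (nat_lit 268)))))) (M (nat_lit 459) (B (M (nat_lit 458) (B (lo111_11_5 (nat_lit 490)) (lo111_10_5 (nat_lit 426)))) (M (nat_lit 330) (B (lo111_14_7 (nat_lit 362)) (lo111_13_7 (nat_lit 298)))))))) (M (nat_lit 459) (B (M (nat_lit 491) (B (M (nat_lit 364) (B (lo111_15_6 (nat_lit 396)) (lo111_14_6 (nat_lit 332)))) (M (nat_lit 490) (B (lo111_12_5 (nat_lit 522)) (lo111_11_5 (nat_lit 458)))))) (B (M (nat_lit 491) (B (M (nat_lit 492) (B (lo111_12_4 (nat_lit 524)) (lo111_11_4 (nat_lit 460)))) (M (nat_lit 490) (B (lo111_12_5 (nat_lit 522)) (lo111_11_5 (nat_lit 458)))))) (B (M (nat_lit 460) (B (lo111_11_4 (nat_lit 492)) (M (nat_lit 461) (B (M (nat_lit 426) (B (lo114_14_3 (nat_lit 462)) (lo19_13_0 (nat_lit 425)))) (M (nat_lit 493) (B (M (nat_lit 458) (B (lo110_14_0 (nat_lit 494)) (lo111_11_5 (nat_lit 490)))) (M (nat_lit 364) (B (lo112_11_4 (nat_lit 396)) (lo111_14_6 (nat_lit 332)))))))))) (M (nat_lit 491) (B (M (nat_lit 492) (B (lo111_12_4 (nat_lit 524)) (lo111_11_4 (nat_lit 460)))) (M (nat_lit 396) (B (lo111_16_6 (nat_lit 523)) (lo111_15_6 (nat_lit 364))))))))))))))))))))))) (B (M (nat_lit 491) (B (M (nat_lit 492) (B (M (nat_lit 493) (B (M (nat_lit 396) (B (M (nat_lit 364) (B (M (nat_lit 332) (B (M (nat_lit 395) (B (lo112_9_5 (nat_lit 300)) (M (nat_lit 459) (B (lo112_10_5 (nat_lit 428)) (lo111_15_6 (nat_lit 491)))))) (B (M (nat_lit 459) (B (lo112_10_5 (nat_lit 428)) (M (nat_lit 395) (B (lo111_14_6 (nat_lit 363)) (lo111_15_6 (nat_lit 491)))))) (B (M (nat_lit 300) (B (lo112_10_5 (nat_lit 459)) (B (lo112_10_5 (nat_lit 459)) (M (nat_lit 268) (B (M (nat_lit 267) (B (lo112_11_7 (nat_lit 235)) (lo112_12_7 (nat_lit 299)))) (M (nat_lit 269) (B (lo112_11_6 (nat_lit 237)) (lo112_12_6 (nat_lit 301))))))))) (B (M (nat_lit 395) (B (lo112_9_5 (nat_lit 300)) (M (nat_lit 459) (B (lo111_14_6 (nat_lit 363)) (lo111_15_6 (nat_lit 491)))))) (M (nat_lit 300) (B (lo112_9_5 (nat_lit 395)) (M (nat_lit 268) (B (M (nat_lit 267) (B (lo112_11_7 (nat_lit 235)) (lo112_12_7 (nat_lit 299)))) (M (nat_lit 269) (B (lo112_11_6 (nat_lit 237)) (lo112_12_6 (nat_lit 301))))))))))))) (B (M (nat_lit 494) (B (M (nat_lit 461) (B (lo113_16_7 (nat_lit 525)) (M (nat_lit 526) (B (lo111_15_0 (nat_lit 527)) (M (nat_lit 462) (B (lo114_17_7 (nat_lit 558)) (lo111_15_2 (nat_lit 463)))))))) (M (nat_lit 459) (B (lo114_15_3 (nat_lit 458)) (lo111_15_6 (nat_lit 395)))))) (M (nat_lit 461) (B (lo113_16_7 (nat_lit 525)) (lo112_10_4 (nat_lit 332))))))) (B (M (nat_lit 364) (B (M (nat_lit 459) (B (lo111_15_6 (nat_lit 395)) (lo112_10_5 (nat_lit 332)))) (B (M (nat_lit 332) (B (lo112_10_5 (nat_lit 459)) (lo112_10_4 (nat_lit 461)))) (B (M (nat_lit 460) (B (M (nat_lit 363) (B (lo112_14_7 (nat_lit 331)) (lo112_15_7 (nat_lit 395)))) (M (nat_lit 461) (B (lo112_10_4 (nat_lit 332)) (lo112_11_4 (nat_lit 493)))))) (M (nat_lit 459) (B (lo111_15_6 (nat_lit 395)) (lo112_11_5 (nat_lit 460)))))))) (B (M (nat_lit 460) (B (lo112_12_4 (nat_lit 525)) (M (nat_lit 364) (B (lo112_11_5 (nat_lit 459)) (M (nat_lit 363) (B (lo112_15_7 (nat_lit 395)) (lo112_14_7 (nat_lit 331)))))))) (M (nat_lit 525) (B (lo113_16_7 (nat_lit 461)) (lo112_12_4 (nat_lit 460)))))))) (B (M (nat_lit 494) (B (M (nat_lit 527) (B (lo111_15_0 (nat_lit 526)) (M (nat_lit 495) (B (lo112_15_0 (nat_lit 528)) (M (nat_lit 463) (B (lo111_15_2 (nat_lit 462)) (lo112_15_2 (nat_lit 464)))))))) (B (M (nat_lit 495) (B (M (nat_lit 459) (B (lo114_15_3 (nat_lit 458)) (lo115_15_3 (nat_lit 460)))) (M (nat_lit 463) (B (lo111_15_2 (nat_lit 462)) (lo112_15_2 (nat_lit 464)))))) (B (M (nat_lit 495) (B (M (nat_lit 459) (B (lo114_15_3 (nat_lit 458)) (lo115_15_3 (nat_lit 460)))) (M (nat_lit 527) (B (lo111_15_0 (nat_lit 526)) (lo112_15_0 (nat_lit 528)))))) (M (nat_lit 490) (B (M (nat_lit 458) (B (lo113_15_3 (nat_lit 457)) (lo114_15_3 (nat_lit 459)))) (M (nat_lit 526) (B (lo110_15_0 (nat_lit 525)) (lo111_15_0 (nat_lit 527)))))))))) (B (K _ _ _ o1_s23300) (B (K _ _ _ o1_s23313) (B (K _ _ _ o1_s23321) (M (nat_lit 525) (B (M (nat_lit 396) (B (lo112_12_4 (nat_lit 460)) (lo113_16_7 (nat_lit 461)))) (M (nat_lit 526) (B (lo110_15_0 (nat_lit 490)) (M (nat_lit 527) (B (lo111_15_0 (nat_lit 494)) (lo116_16_3 (nat_lit 528)))))))))))))) (B (M (nat_lit 459) (B (M (nat_lit 493) (B (M (nat_lit 525) (B (M (nat_lit 461) (B (lo113_16_7 (nat_lit 396)) (M (nat_lit 524) (B (lo113_13_5 (nat_lit 556)) (M (nat_lit 490) (B (lo19_15_0 (nat_lit 489)) (lo110_15_2 (nat_lit 462)))))))) (B (M (nat_lit 526) (B (M (nat_lit 527) (B (lo115_16_3 (nat_lit 524)) (lo111_15_0 (nat_lit 494)))) (M (nat_lit 461) (B (lo113_16_7 (nat_lit 396)) (lo113_13_4 (nat_lit 558)))))) (B (M (nat_lit 490) (B (lo110_15_0 (nat_lit 526)) (M (nat_lit 489) (B (lo19_15_0 (nat_lit 524)) (M (nat_lit 521) (B (lo112_15_1 (nat_lit 520)) (lo113_15_1 (nat_lit 522)))))))) (M (nat_lit 526) (B (M (nat_lit 461) (B (lo113_13_4 (nat_lit 558)) (lo113_16_7 (nat_lit 396)))) (lo110_15_0 (nat_lit 490)))))))) (B (M (nat_lit 490) (B (M (nat_lit 458) (B (lo113_15_3 (nat_lit 457)) (M (nat_lit 522) (B (lo110_17_6 (nat_lit 554)) (lo113_15_1 (nat_lit 521)))))) (M (nat_lit 461) (B (lo110_15_2 (nat_lit 462)) (M (nat_lit 525) (B (lo113_16_7 (nat_lit 396)) (lo110_15_0 (nat_lit 526)))))))) (B (M (nat_lit 494) (B (lo114_15_3 (nat_lit 458)) (M (nat_lit 527) (B (lo111_15_0 (nat_lit 526)) (M (nat_lit 463) (B (lo111_15_2 (nat_lit 462)) (M (nat_lit 495) (B (lo112_15_0 (nat_lit 528)) (lo112_15_2 (nat_lit 464)))))))))) (M (nat_lit 458) (B (M (nat_lit 457) (B (lo113_15_3 (nat_lit 490)) (lo18_14_0 (nat_lit 456)))) (lo114_15_3 (nat_lit 494)))))))) (B (M (nat_lit 395) (B (M (nat_lit 394) (B (lo111_15_7 (nat_lit 362)) (M (nat_lit 396) (B (lo19_12_0 (nat_lit 393)) (lo111_15_6 (nat_lit 364)))))) (B (M (nat_lit 363) (B (M (nat_lit 490) (B (lo111_12_5 (nat_lit 522)) (lo111_11_5 (nat_lit 458)))) (M (nat_lit 364) (B (lo111_15_6 (nat_lit 396)) (lo111_14_6 (nat_lit 332)))))) (M (nat_lit 363) (B (M (nat_lit 490) (B (lo111_12_5 (nat_lit 522)) (lo111_11_5 (nat_lit 458)))) (M (nat_lit 362) (B (lo111_15_7 (nat_lit 394)) (lo111_14_7 (nat_lit 330))))))))) (B (M (nat_lit 395) (B (lo111_12_4 (nat_lit 524)) (M (nat_lit 490) (B (lo111_12_5 (nat_lit 522)) (M (nat_lit 458) (B (lo111_11_5 (nat_lit 363)) (M (nat_lit 457) (B (lo18_14_2 (nat_lit 456)) (lo113_15_3 (nat_lit 493)))))))))) (M (nat_lit 395) (B (lo111_12_4 (nat_lit 524)) (M (nat_lit 394) (B (lo111_15_7 (nat_lit 362)) (M (nat_lit 393) (B (lo18_12_0 (nat_lit 392)) (lo19_12_0 (nat_lit 396)))))))))))) (B (K _ _ _ o1_s23429) (B (K _ _ _ o1_s23512) (B (M (nat_lit 460) (B (M (nat_lit 395) (B (lo112_16_7 (nat_lit 524)) (M (nat_lit 363) (B (lo111_11_4 (nat_lit 459)) (lo111_10_4 (nat_lit 331)))))) (B (M (nat_lit 524) (B (lo112_16_7 (nat_lit 395)) (M (nat_lit 556) (B (M (nat_lit 557) (B (lo112_14_4 (nat_lit 589)) (lo112_13_4 (nat_lit 525)))) (M (nat_lit 588) (B (M (nat_lit 587) (B (lo112_15_5 (nat_lit 619)) (lo112_14_5 (nat_lit 555)))) (M (nat_lit 461) (B (lo112_18_6 (nat_lit 493)) (lo112_17_6 (nat_lit 429)))))))))) (B (M (nat_lit 490) (B (M (nat_lit 461) (B (lo19_15_2 (nat_lit 489)) (M (nat_lit 462) (B (lo114_14_1 (nat_lit 459)) (lo110_15_2 (nat_lit 493)))))) (B (M (nat_lit 493) (B (M (nat_lit 525) (B (lo110_15_0 (nat_lit 526)) (M (nat_lit 557) (B (lo112_13_4 (nat_lit 524)) (lo113_18_7 (nat_lit 589)))))) (B (M (nat_lit 525) (B (lo110_15_0 (nat_lit 526)) (M (nat_lit 557) (B (lo113_18_7 (nat_lit 589)) (lo113_17_7 (nat_lit 461)))))) (B (M (nat_lit 525) (B (lo110_15_0 (nat_lit 526)) (M (nat_lit 557) (B (lo112_13_4 (nat_lit 524)) (lo113_17_7 (nat_lit 461)))))) (M (nat_lit 494) (B (M (nat_lit 458) (B (lo113_15_3 (nat_lit 457)) (lo114_15_3 (nat_lit 459)))) (M (nat_lit 462) (B (lo110_15_2 (nat_lit 461)) (lo111_15_2 (nat_lit 463)))))))))) (B (M (nat_lit 461) (B (lo19_15_2 (nat_lit 489)) (M (nat_lit 462) (B (lo110_15_2 (nat_lit 493)) (lo115_14_1 (nat_lit 463)))))) (B (M (nat_lit 461) (B (lo19_15_2 (nat_lit 489)) (M (nat_lit 462) (B (lo114_14_1 (nat_lit 459)) (lo115_14_1 (nat_lit 463)))))) (M (nat_lit 493) (B (M (nat_lit 525) (B (lo110_15_0 (nat_lit 526)) (M (nat_lit 524) (B (lo19_15_0 (nat_lit 489)) (lo112_13_4 (nat_lit 557)))))) (B (M (nat_lit 525) (B (lo110_15_0 (nat_lit 526)) (M (nat_lit 557) (B (lo112_13_4 (nat_lit 524)) (lo113_18_7 (nat_lit 589)))))) (M (nat_lit 489) (B (M (nat_lit 521) (B (lo112_15_1 (nat_lit 520)) (lo113_15_1 (nat_lit 522)))) (M (nat_lit 457) (B (lo112_15_3 (nat_lit 456)) (lo113_15_3 (nat_lit 458)))))))))))))) (M (nat_lit 490) (B (M (nat_lit 461) (B (lo19_15_2 (nat_lit 489)) (M (nat_lit 462) (B (lo114_14_1 (nat_lit 459)) (lo110_15_2 (nat_lit 493)))))) (B (M (nat_lit 493) (B (M (nat_lit 525) (B (lo110_15_0 (nat_lit 526)) (M (nat_lit 557) (B (lo113_18_7 (nat_lit 589)) (lo113_17_7 (nat_lit 461)))))) (M (nat_lit 459) (B (M (nat_lit 522) (B (lo113_15_1 (nat_lit 521)) (lo111_12_5 (nat_lit 395)))) (M (nat_lit 458) (B (lo113_15_3 (nat_lit 457)) (lo114_15_3 (nat_lit 494)))))))) (B (M (nat_lit 461) (B (lo19_15_2 (nat_lit 489)) (M (nat_lit 462) (B (lo110_15_2 (nat_lit 493)) (lo115_14_1 (nat_lit 463)))))) (B (M (nat_lit 461) (B (lo19_15_2 (nat_lit 489)) (M (nat_lit 462) (B (lo114_14_1 (nat_lit 459)) (lo115_14_1 (nat_lit 463)))))) (M (nat_lit 459) (B (M (nat_lit 395) (B (lo111_12_5 (nat_lit 522)) (lo111_11_4 (nat_lit 363)))) (M (nat_lit 457) (B (M (nat_lit 489) (B (lo18_15_2 (nat_lit 488)) (lo112_15_3 (nat_lit 456)))) (B (M (nat_lit 456) (B (lo112_15_3 (nat_lit 489)) (lo18_14_0 (nat_lit 458)))) (M (nat_lit 458) (B (lo113_15_3 (nat_lit 493)) (lo19_14_2 (nat_lit 429)))))))))))))))))) (M (nat_lit 395) (B (M (nat_lit 524) (B (lo111_12_4 (nat_lit 459)) (lo112_16_7 (nat_lit 460)))) (B (M (nat_lit 460) (B (lo112_16_7 (nat_lit 524)) (M (nat_lit 363) (B (lo111_10_4 (nat_lit 331)) (lo112_15_7 (nat_lit 396)))))) (B (M (nat_lit 363) (B (M (nat_lit 460) (B (lo111_11_4 (nat_lit 459)) (lo111_10_4 (nat_lit 331)))) (B (M (nat_lit 460) (B (lo111_10_4 (nat_lit 331)) (lo112_15_7 (nat_lit 396)))) (B (M (nat_lit 460) (B (lo111_11_4 (nat_lit 459)) (lo112_15_7 (nat_lit 396)))) (M (nat_lit 459) (B (M (nat_lit 362) (B (lo111_15_7 (nat_lit 394)) (lo111_14_7 (nat_lit 330)))) (M (nat_lit 364) (B (lo111_15_6 (nat_lit 396)) (lo111_14_6 (nat_lit 332)))))))))) (M (nat_lit 459) (B (lo111_12_4 (nat_lit 524)) (M (nat_lit 363) (B (M (nat_lit 362) (B (lo111_15_7 (nat_lit 394)) (lo111_14_7 (nat_lit 330)))) (M (nat_lit 364) (B (lo111_15_6 (nat_lit 396)) (lo111_14_6 (nat_lit 332)))))))))))))))))) (B (M (nat_lit 492) (B (M (nat_lit 460) (B (M (nat_lit 490) (B (M (nat_lit 461) (B (lo19_15_2 (nat_lit 489)) (M (nat_lit 462) (B (lo110_15_2 (nat_lit 493)) (lo115_14_1 (nat_lit 463)))))) (B (M (nat_lit 493) (B (M (nat_lit 461) (B (lo110_15_2 (nat_lit 462)) (M (nat_lit 525) (B (lo110_15_0 (nat_lit 526)) (lo113_17_7 (nat_lit 557)))))) (B (M (nat_lit 494) (B (M (nat_lit 522) (B (lo113_15_1 (nat_lit 521)) (lo114_15_1 (nat_lit 523)))) (M (nat_lit 462) (B (lo110_15_2 (nat_lit 461)) (lo111_15_2 (nat_lit 463)))))) (M (nat_lit 494) (B (M (nat_lit 522) (B (lo113_15_1 (nat_lit 521)) (lo114_15_1 (nat_lit 523)))) (M (nat_lit 526) (B (lo110_15_0 (nat_lit 525)) (lo111_15_0 (nat_lit 527))))))))) (B (M (nat_lit 489) (B (lo19_15_2 (nat_lit 461)) (M (nat_lit 488) (B (M (nat_lit 520) (B (lo111_15_1 (nat_lit 519)) (lo112_15_1 (nat_lit 521)))) (M (nat_lit 456) (B (lo111_15_3 (nat_lit 455)) (lo112_15_3 (nat_lit 457)))))))) (M (nat_lit 457) (B (M (nat_lit 456) (B (lo112_15_3 (nat_lit 489)) (M (nat_lit 458) (B (lo17_14_0 (nat_lit 455)) (lo113_15_3 (nat_lit 493)))))) (B (M (nat_lit 521) (B (M (nat_lit 489) (B (lo112_15_1 (nat_lit 520)) (lo112_15_3 (nat_lit 456)))) (M (nat_lit 493) (B (lo113_15_1 (nat_lit 522)) (lo113_15_3 (nat_lit 458)))))) (B (M (nat_lit 493) (B (lo113_15_3 (nat_lit 458)) (M (nat_lit 494) (B (M (nat_lit 522) (B (lo113_15_1 (nat_lit 521)) (lo114_15_1 (nat_lit 523)))) (M (nat_lit 526) (B (lo110_15_0 (nat_lit 525)) (lo111_15_0 (nat_lit 527)))))))) (B (M (nat_lit 489) (B (lo112_15_3 (nat_lit 456)) (M (nat_lit 521) (B (lo112_15_1 (nat_lit 520)) (M (nat_lit 522) (B (lo113_15_1 (nat_lit 493)) (M (nat_lit 554) (B (lo19_13_4 (nat_lit 425)) (lo110_18_7 (nat_lit 586)))))))))) (M (nat_lit 489) (B (lo112_15_3 (nat_lit 456)) (M (nat_lit 522) (B (M (nat_lit 521) (B (lo112_15_1 (nat_lit 520)) (M (nat_lit 425) (B (lo19_13_4 (nat_lit 554)) (lo19_12_4 (nat_lit 393)))))) (B (M (nat_lit 425) (B (lo19_12_4 (nat_lit 393)) (M (nat_lit 554) (B (lo19_13_4 (nat_lit 521)) (lo110_18_7 (nat_lit 586)))))) (B (M (nat_lit 425) (B (lo19_12_4 (nat_lit 393)) (M (nat_lit 554) (B (lo110_18_7 (nat_lit 586)) (lo110_17_7 (nat_lit 458)))))) (M (nat_lit 488) (B (M (nat_lit 520) (B (lo111_15_1 (nat_lit 519)) (lo112_15_1 (nat_lit 521)))) (B (M (nat_lit 487) (B (lo17_15_0 (nat_lit 523)) (M (nat_lit 486) (B (lo16_15_0 (nat_lit 521)) (lo16_15_2 (nat_lit 458)))))) (M (nat_lit 487) (B (lo17_15_0 (nat_lit 523)) (M (nat_lit 519) (B (lo110_15_1 (nat_lit 518)) (lo111_15_1 (nat_lit 520)))))))))))))))))))))))) (B (M (nat_lit 493) (B (M (nat_lit 525) (B (lo112_12_4 (nat_lit 396)) (M (nat_lit 557) (B (lo113_18_7 (nat_lit 589)) (lo113_17_7 (nat_lit 461)))))) (B (M (nat_lit 490) (B (M (nat_lit 525) (B (lo110_15_0 (nat_lit 526)) (lo112_12_4 (nat_lit 396)))) (M (nat_lit 461) (B (lo19_15_2 (nat_lit 489)) (lo110_15_2 (nat_lit 462)))))) (B (M (nat_lit 494) (B (M (nat_lit 463) (B (lo111_15_2 (nat_lit 462)) (M (nat_lit 495) (B (lo112_15_2 (nat_lit 464)) (M (nat_lit 527) (B (lo111_15_0 (nat_lit 526)) (lo112_15_0 (nat_lit 528)))))))) (B (K _ _ _ o1_s23473) (B (K _ _ _ o1_s23482) (M (nat_lit 527) (B (lo111_15_0 (nat_lit 526)) (M (nat_lit 461) (B (M (nat_lit 490) (B (lo19_15_2 (nat_lit 489)) (lo110_15_2 (nat_lit 462)))) (M (nat_lit 495) (B (lo112_15_0 (nat_lit 528)) (lo116_15_3 (nat_lit 496)))))))))))) (M (nat_lit 525) (B (lo112_12_4 (nat_lit 396)) (M (nat_lit 526) (B (lo110_15_0 (nat_lit 490)) (M (nat_lit 527) (B (lo116_16_3 (nat_lit 528)) (lo111_15_0 (nat_lit 494)))))))))))) (M (nat_lit 396) (B (lo112_12_5 (nat_lit 523)) (M (nat_lit 364) (B (M (nat_lit 363) (B (lo112_15_7 (nat_lit 395)) (lo112_14_7 (nat_lit 331)))) (B (M (nat_lit 332) (B (M (nat_lit 331) (B (lo112_14_7 (nat_lit 363)) (lo112_13_7 (nat_lit 299)))) (M (nat_lit 333) (B (lo112_14_6 (nat_lit 365)) (lo112_13_6 (nat_lit 301)))))) (B (K _ _ _ o1_s23686) (M (nat_lit 332) (B (M (nat_lit 395) (B (lo112_15_7 (nat_lit 363)) (lo112_9_5 (nat_lit 300)))) (M (nat_lit 333) (B (lo112_14_6 (nat_lit 365)) (lo112_13_6 (nat_lit 301))))))))))))))) (B (M (nat_lit 493) (B (M (nat_lit 494) (B (M (nat_lit 461) (B (M (nat_lit 526) (B (lo111_15_0 (nat_lit 527)) (M (nat_lit 525) (B (lo113_16_7 (nat_lit 396)) (lo113_13_4 (nat_lit 558)))))) (B (M (nat_lit 526) (B (lo111_15_0 (nat_lit 527)) (M (nat_lit 462) (B (lo111_15_2 (nat_lit 463)) (lo114_17_7 (nat_lit 558)))))) (M (nat_lit 525) (B (lo113_16_7 (nat_lit 396)) (M (nat_lit 557) (B (M (nat_lit 556) (B (lo113_13_5 (nat_lit 524)) (lo113_14_5 (nat_lit 588)))) (M (nat_lit 462) (B (lo111_15_2 (nat_lit 463)) (lo113_18_6 (nat_lit 589))))))))))) (B (M (nat_lit 495) (B (M (nat_lit 523) (B (lo114_15_1 (nat_lit 522)) (lo115_15_1 (nat_lit 524)))) (M (nat_lit 463) (B (lo111_15_2 (nat_lit 462)) (lo112_15_2 (nat_lit 464)))))) (B (M (nat_lit 495) (B (M (nat_lit 523) (B (lo114_15_1 (nat_lit 522)) (lo115_15_1 (nat_lit 524)))) (M (nat_lit 527) (B (lo111_15_0 (nat_lit 526)) (lo112_15_0 (nat_lit 528)))))) (M (nat_lit 463) (B (lo111_15_2 (nat_lit 462)) (M (nat_lit 495) (B (lo112_15_2 (nat_lit 464)) (M (nat_lit 527) (B (lo112_15_0 (nat_lit 528)) (lo111_15_0 (nat_lit 526)))))))))))) (B (M (nat_lit 490) (B (M (nat_lit 489) (B (M (nat_lit 457) (B (lo112_15_3 (nat_lit 456)) (lo113_15_3 (nat_lit 458)))) (M (nat_lit 521) (B (lo112_15_1 (nat_lit 520)) (lo113_15_1 (nat_lit 522)))))) (B (M (nat_lit 494) (B (M (nat_lit 522) (B (lo113_15_1 (nat_lit 521)) (lo114_15_1 (nat_lit 523)))) (M (nat_lit 462) (B (lo110_15_2 (nat_lit 461)) (lo111_15_2 (nat_lit 463)))))) (B (M (nat_lit 523) (B (M (nat_lit 462) (B (lo110_15_2 (nat_lit 461)) (M (nat_lit 494) (B (lo114_15_1 (nat_lit 522)) (lo111_15_2 (nat_lit 463)))))) (M (nat_lit 489) (B (M (nat_lit 457) (B (lo112_15_3 (nat_lit 456)) (lo113_15_3 (nat_lit 458)))) (M (nat_lit 524) (B (lo18_15_0 (nat_lit 488)) (lo19_15_0 (nat_lit 525)))))))) (M (nat_lit 489) (B (M (nat_lit 457) (B (lo112_15_3 (nat_lit 456)) (lo113_15_3 (nat_lit 458)))) (M (nat_lit 488) (B (M (nat_lit 520) (B (lo111_15_1 (nat_lit 519)) (lo112_15_1 (nat_lit 521)))) (M (nat_lit 524) (B (lo18_15_0 (nat_lit 523)) (lo19_15_0 (nat_lit 525)))))))))))) (B (M (nat_lit 525) (B (M (nat_lit 461) (B (lo113_16_7 (nat_lit 396)) (M (nat_lit 524) (B (lo113_13_5 (nat_lit 556)) (M (nat_lit 490) (B (lo19_15_0 (nat_lit 489)) (lo110_15_2 (nat_lit 462)))))))) (B (M (nat_lit 526) (B (M (nat_lit 527) (B (lo115_16_3 (nat_lit 524)) (lo111_15_0 (nat_lit 494)))) (M (nat_lit 461) (B (lo113_16_7 (nat_lit 396)) (lo113_13_4 (nat_lit 558)))))) (B (M (nat_lit 490) (B (lo110_15_0 (nat_lit 526)) (M (nat_lit 489) (B (lo19_15_0 (nat_lit 524)) (M (nat_lit 457) (B (lo113_15_3 (nat_lit 458)) (lo112_15_3 (nat_lit 456)))))))) (M (nat_lit 526) (B (M (nat_lit 461) (B (lo113_13_4 (nat_lit 558)) (lo113_16_7 (nat_lit 396)))) (lo110_15_0 (nat_lit 490)))))))) (B (M (nat_lit 494) (B (M (nat_lit 463) (B (lo111_15_2 (nat_lit 462)) (M (nat_lit 495) (B (lo112_15_2 (nat_lit 464)) (M (nat_lit 527) (B (lo111_15_0 (nat_lit 526)) (lo112_15_0 (nat_lit 528)))))))) (B (M (nat_lit 495) (B (M (nat_lit 523) (B (lo114_15_1 (nat_lit 522)) (lo115_15_1 (nat_lit 524)))) (M (nat_lit 527) (B (lo111_15_0 (nat_lit 526)) (lo112_15_0 (nat_lit 528)))))) (B (M (nat_lit 495) (B (M (nat_lit 523) (B (lo114_15_1 (nat_lit 522)) (lo115_15_1 (nat_lit 524)))) (M (nat_lit 463) (B (lo111_15_2 (nat_lit 462)) (lo112_15_2 (nat_lit 464)))))) (M (nat_lit 490) (B (M (nat_lit 522) (B (lo113_15_1 (nat_lit 521)) (lo114_15_1 (nat_lit 523)))) (M (nat_lit 462) (B (lo110_15_2 (nat_lit 461)) (lo111_15_2 (nat_lit 463)))))))))) (B (M (nat_lit 490) (B (M (nat_lit 489) (B (M (nat_lit 525) (B (lo110_15_0 (nat_lit 526)) (lo19_15_0 (nat_lit 524)))) (M (nat_lit 457) (B (lo113_15_3 (nat_lit 458)) (lo112_15_3 (nat_lit 456)))))) (B (M (nat_lit 521) (B (lo113_15_1 (nat_lit 522)) (M (nat_lit 489) (B (lo112_15_1 (nat_lit 520)) (M (nat_lit 457) (B (lo113_15_3 (nat_lit 458)) (lo112_15_3 (nat_lit 456)))))))) (B (M (nat_lit 489) (B (M (nat_lit 525) (B (lo110_15_0 (nat_lit 526)) (lo19_15_0 (nat_lit 524)))) (M (nat_lit 521) (B (lo113_15_1 (nat_lit 522)) (lo112_15_1 (nat_lit 520)))))) (M (nat_lit 494) (B (M (nat_lit 526) (B (lo111_15_0 (nat_lit 527)) (lo110_15_0 (nat_lit 525)))) (M (nat_lit 522) (B (lo114_15_1 (nat_lit 523)) (lo113_15_1 (nat_lit 521)))))))))) (K _ _ _ o1_s23313))))))) (B (K _ _ _ o1_s23512) (B (M (nat_lit 524) (B (M (nat_lit 460) (B (lo112_16_7 (nat_lit 395)) (M (nat_lit 523) (B (lo112_13_5 (nat_lit 555)) (M (nat_lit 525) (B (lo112_13_4 (nat_lit 557)) (M (nat_lit 490) (B (lo19_15_0 (nat_lit 489)) (lo114_16_3 (nat_lit 526)))))))))) (B (M (nat_lit 460) (B (lo112_16_7 (nat_lit 395)) (M (nat_lit 556) (B (M (nat_lit 555) (B (lo112_14_5 (nat_lit 587)) (lo112_13_5 (nat_lit 523)))) (M (nat_lit 557) (B (lo112_14_4 (nat_lit 589)) (lo112_13_4 (nat_lit 525)))))))) (B (M (nat_lit 525) (B (M (nat_lit 460) (B (lo112_16_7 (nat_lit 395)) (lo112_13_4 (nat_lit 557)))) (M (nat_lit 490) (B (lo19_15_0 (nat_lit 489)) (M (nat_lit 526) (B (lo110_15_0 (nat_lit 493)) (lo115_16_3 (nat_lit 527)))))))) (B (M (nat_lit 460) (B (M (nat_lit 525) (B (lo112_13_4 (nat_lit 557)) (M (nat_lit 490) (B (lo19_15_0 (nat_lit 489)) (M (nat_lit 526) (B (lo110_15_0 (nat_lit 493)) (lo115_16_3 (nat_lit 527)))))))) (B (M (nat_lit 556) (B (M (nat_lit 555) (B (lo112_14_5 (nat_lit 587)) (lo112_13_5 (nat_lit 523)))) (M (nat_lit 557) (B (lo112_14_4 (nat_lit 589)) (lo112_13_4 (nat_lit 525)))))) (K _ _ _ o1_s23814)))) (B (M (nat_lit 490) (B (M (nat_lit 525) (B (lo19_15_0 (nat_lit 489)) (M (nat_lit 526) (B (lo114_16_3 (nat_lit 523)) (lo110_15_0 (nat_lit 493)))))) (B (M (nat_lit 493) (B (M (nat_lit 522) (B (lo113_15_1 (nat_lit 521)) (M (nat_lit 494) (B (lo114_15_1 (nat_lit 523)) (M (nat_lit 462) (B (lo110_15_2 (nat_lit 461)) (lo111_15_2 (nat_lit 463)))))))) (B (M (nat_lit 494) (B (M (nat_lit 526) (B (lo110_15_0 (nat_lit 525)) (lo111_15_0 (nat_lit 527)))) (M (nat_lit 462) (B (lo110_15_2 (nat_lit 461)) (lo111_15_2 (nat_lit 463)))))) (B (M (nat_lit 494) (B (M (nat_lit 522) (B (lo113_15_1 (nat_lit 521)) (lo114_15_1 (nat_lit 523)))) (M (nat_lit 526) (B (lo110_15_0 (nat_lit 525)) (lo111_15_0 (nat_lit 527)))))) (M (nat_lit 525) (B (lo110_15_0 (nat_lit 526)) (M (nat_lit 461) (B (lo110_15_2 (nat_lit 462)) (M (nat_lit 556) (B (lo112_18_6 (nat_lit 588)) (lo113_13_5 (nat_lit 429)))))))))))) (B (M (nat_lit 525) (B (lo19_15_0 (nat_lit 489)) (M (nat_lit 526) (B (lo110_15_0 (nat_lit 493)) (lo115_16_3 (nat_lit 527)))))) (B (M (nat_lit 493) (B (M (nat_lit 521) (B (lo113_15_1 (nat_lit 522)) (M (nat_lit 489) (B (lo112_15_1 (nat_lit 520)) (M (nat_lit 457) (B (lo112_15_3 (nat_lit 456)) (lo113_15_3 (nat_lit 458)))))))) (B (M (nat_lit 522) (B (lo113_15_1 (nat_lit 521)) (M (nat_lit 494) (B (lo114_15_1 (nat_lit 523)) (M (nat_lit 462) (B (lo110_15_2 (nat_lit 461)) (lo111_15_2 (nat_lit 463)))))))) (B (M (nat_lit 494) (B (M (nat_lit 523) (B (lo114_15_1 (nat_lit 522)) (lo115_15_1 (nat_lit 495)))) (M (nat_lit 462) (B (lo110_15_2 (nat_lit 461)) (lo111_15_2 (nat_lit 463)))))) (M (nat_lit 494) (B (M (nat_lit 462) (B (lo110_15_2 (nat_lit 461)) (lo111_15_2 (nat_lit 463)))) (M (nat_lit 489) (B (M (nat_lit 523) (B (lo18_15_0 (nat_lit 488)) (lo115_15_1 (nat_lit 495)))) (M (nat_lit 457) (B (lo112_15_3 (nat_lit 456)) (lo113_15_3 (nat_lit 458)))))))))))) (M (nat_lit 525) (B (lo19_15_0 (nat_lit 489)) (M (nat_lit 526) (B (lo114_16_3 (nat_lit 523)) (lo115_16_3 (nat_lit 527))))))))))) (M (nat_lit 460) (B (lo112_16_7 (nat_lit 395)) (K _ _ _ o1_s23814))))))))) (B (M (nat_lit 460) (B (M (nat_lit 523) (B (lo112_12_5 (nat_lit 396)) (M (nat_lit 524) (B (lo112_13_5 (nat_lit 555)) (lo112_16_7 (nat_lit 395)))))) (B (M (nat_lit 395) (B (lo112_16_7 (nat_lit 524)) (M (nat_lit 363) (B (lo111_10_4 (nat_lit 331)) (lo112_15_7 (nat_lit 396)))))) (B (M (nat_lit 523) (B (lo112_12_5 (nat_lit 396)) (M (nat_lit 555) (B (lo111_18_6 (nat_lit 587)) (lo112_13_5 (nat_lit 524)))))) (B (K _ _ _ o1_s23878) (M (nat_lit 524) (B (lo112_16_7 (nat_lit 395)) (M (nat_lit 556) (B (M (nat_lit 555) (B (lo112_14_5 (nat_lit 587)) (lo112_13_5 (nat_lit 523)))) (M (nat_lit 557) (B (lo112_14_4 (nat_lit 589)) (lo112_13_4 (nat_lit 525))))))))))))) (M (nat_lit 460) (B (M (nat_lit 523) (B (lo112_12_5 (nat_lit 396)) (M (nat_lit 524) (B (lo112_13_5 (nat_lit 555)) (lo112_16_7 (nat_lit 395)))))) (B (M (nat_lit 395) (B (lo112_16_7 (nat_lit 524)) (M (nat_lit 363) (B (lo111_10_4 (nat_lit 331)) (lo112_15_7 (nat_lit 396)))))) (B (M (nat_lit 523) (B (lo112_12_5 (nat_lit 396)) (M (nat_lit 555) (B (lo111_18_6 (nat_lit 587)) (lo112_13_5 (nat_lit 524)))))) (B (M (nat_lit 396) (B (lo112_12_5 (nat_lit 523)) (M (nat_lit 364) (B (M (nat_lit 363) (B (lo112_15_7 (nat_lit 395)) (lo112_14_7 (nat_lit 331)))) (M (nat_lit 332) (B (M (nat_lit 461) (B (lo112_11_4 (nat_lit 493)) (lo112_10_4 (nat_lit 429)))) (M (nat_lit 333) (B (lo112_14_6 (nat_lit 365)) (lo112_13_6 (nat_lit 301)))))))))) (M (nat_lit 524) (B (lo112_16_7 (nat_lit 395)) (K _ _ _ o1_s23814)))))))))))))) (B (M (nat_lit 459) (B (M (nat_lit 490) (B (M (nat_lit 522) (B (lo111_12_5 (nat_lit 395)) (M (nat_lit 554) (B (lo110_18_6 (nat_lit 586)) (lo110_17_6 (nat_lit 458)))))) (B (M (nat_lit 395) (B (lo111_12_5 (nat_lit 522)) (M (nat_lit 363) (B (lo111_11_5 (nat_lit 458)) (M (nat_lit 362) (B (lo111_15_7 (nat_lit 394)) (lo111_14_7 (nat_lit 330)))))))) (B (M (nat_lit 489) (B (M (nat_lit 460) (B (lo18_15_2 (nat_lit 488)) (M (nat_lit 461) (B (lo113_14_1 (nat_lit 458)) (lo114_14_1 (nat_lit 462)))))) (B (M (nat_lit 492) (B (M (nat_lit 524) (B (lo19_15_0 (nat_lit 525)) (lo111_12_4 (nat_lit 395)))) (B (M (nat_lit 460) (B (lo19_15_2 (nat_lit 461)) (M (nat_lit 524) (B (lo19_15_0 (nat_lit 525)) (lo112_17_7 (nat_lit 556)))))) (M (nat_lit 493) (B (M (nat_lit 457) (B (lo112_15_3 (nat_lit 456)) (lo113_15_3 (nat_lit 458)))) (M (nat_lit 461) (B (lo19_15_2 (nat_lit 460)) (lo110_15_2 (nat_lit 462))))))))) (B (M (nat_lit 460) (B (lo18_15_2 (nat_lit 488)) (M (nat_lit 461) (B (lo19_15_2 (nat_lit 492)) (lo114_14_1 (nat_lit 462)))))) (K _ _ _ o1_s23942))))) (B (M (nat_lit 395) (B (lo111_12_5 (nat_lit 522)) (M (nat_lit 363) (B (M (nat_lit 362) (B (lo111_15_7 (nat_lit 394)) (lo111_14_7 (nat_lit 330)))) (M (nat_lit 492) (B (lo111_12_4 (nat_lit 524)) (lo111_11_4 (nat_lit 460)))))))) (M (nat_lit 489) (B (M (nat_lit 460) (B (lo18_15_2 (nat_lit 488)) (M (nat_lit 461) (B (lo19_15_2 (nat_lit 492)) (lo114_14_1 (nat_lit 462)))))) (B (M (nat_lit 492) (B (M (nat_lit 460) (B (lo19_15_2 (nat_lit 461)) (M (nat_lit 524) (B (lo19_15_0 (nat_lit 525)) (lo112_17_7 (nat_lit 556)))))) (M (nat_lit 522) (B (M (nat_lit 521) (B (lo112_15_1 (nat_lit 520)) (lo113_15_1 (nat_lit 493)))) (M (nat_lit 554) (B (lo110_18_6 (nat_lit 586)) (lo110_17_6 (nat_lit 458)))))))) (B (M (nat_lit 460) (B (lo18_15_2 (nat_lit 488)) (M (nat_lit 461) (B (lo113_14_1 (nat_lit 458)) (lo114_14_1 (nat_lit 462)))))) (K _ _ _ o1_s23942)))))))))) (B (M (nat_lit 492) (B (M (nat_lit 395) (B (lo111_12_4 (nat_lit 524)) (M (nat_lit 363) (B (lo111_11_4 (nat_lit 460)) (M (nat_lit 362) (B (lo111_15_7 (nat_lit 394)) (lo111_14_7 (nat_lit 330)))))))) (B (M (nat_lit 395) (B (lo111_12_4 (nat_lit 524)) (M (nat_lit 490) (B (lo111_12_5 (nat_lit 522)) (M (nat_lit 363) (B (lo111_11_5 (nat_lit 458)) (lo111_11_4 (nat_lit 460)))))))) (B (K _ _ _ o1_s23983) (B (M (nat_lit 490) (B (M (nat_lit 395) (B (lo111_12_5 (nat_lit 522)) (M (nat_lit 363) (B (lo111_11_5 (nat_lit 458)) (lo111_11_4 (nat_lit 460)))))) (B (M (nat_lit 457) (B (M (nat_lit 456) (B (lo112_15_3 (nat_lit 489)) (lo18_14_0 (nat_lit 458)))) (B (M (nat_lit 458) (B (lo113_15_3 (nat_lit 493)) (lo19_14_2 (nat_lit 460)))) (M (nat_lit 489) (B (lo112_15_3 (nat_lit 456)) (M (nat_lit 460) (B (lo18_15_2 (nat_lit 488)) (lo19_15_2 (nat_lit 461))))))))) (B (M (nat_lit 460) (B (M (nat_lit 489) (B (lo18_15_2 (nat_lit 488)) (lo19_15_2 (nat_lit 461)))) (M (nat_lit 395) (B (lo111_12_5 (nat_lit 522)) (lo111_11_4 (nat_lit 363)))))) (M (nat_lit 458) (B (M (nat_lit 457) (B (lo18_14_0 (nat_lit 456)) (lo113_15_3 (nat_lit 493)))) (M (nat_lit 395) (B (lo111_12_5 (nat_lit 522)) (lo111_11_5 (nat_lit 363)))))))))) (M (nat_lit 395) (B (lo111_12_4 (nat_lit 524)) (M (nat_lit 490) (B (lo111_12_5 (nat_lit 522)) (M (nat_lit 458) (B (lo111_11_5 (nat_lit 363)) (M (nat_lit 457) (B (lo18_14_0 (nat_lit 456)) (lo113_15_3 (nat_lit 493))))))))))))))) (B (M (nat_lit 395) (B (M (nat_lit 363) (B (M (nat_lit 490) (B (lo111_12_5 (nat_lit 522)) (lo111_11_5 (nat_lit 458)))) (M (nat_lit 362) (B (lo111_15_7 (nat_lit 394)) (lo111_14_7 (nat_lit 330)))))) (B (M (nat_lit 363) (B (M (nat_lit 362) (B (lo111_15_7 (nat_lit 394)) (lo111_14_7 (nat_lit 330)))) (M (nat_lit 460) (B (lo111_11_4 (nat_lit 492)) (lo111_10_4 (nat_lit 331)))))) (B (M (nat_lit 458) (B (M (nat_lit 490) (B (lo111_12_5 (nat_lit 522)) (lo111_11_5 (nat_lit 363)))) (M (nat_lit 457) (B (lo18_14_2 (nat_lit 456)) (lo19_14_2 (nat_lit 460)))))) (M (nat_lit 523) (B (M (nat_lit 522) (B (lo111_13_5 (nat_lit 554)) (lo111_12_5 (nat_lit 490)))) (B (M (nat_lit 555) (B (lo111_17_6 (nat_lit 460)) (M (nat_lit 587) (B (M (nat_lit 588) (B (lo111_15_4 (nat_lit 620)) (lo111_14_4 (nat_lit 556)))) (M (nat_lit 490) (B (lo111_18_7 (nat_lit 458)) (lo111_12_5 (nat_lit 522)))))))) (K _ _ _ o1_s24028)))))))) (B (K _ _ _ o1_s24059) (B (M (nat_lit 395) (B (M (nat_lit 363) (B (M (nat_lit 490) (B (lo111_12_5 (nat_lit 522)) (lo111_11_5 (nat_lit 458)))) (M (nat_lit 362) (B (lo111_15_7 (nat_lit 394)) (lo111_14_7 (nat_lit 330)))))) (B (M (nat_lit 362) (B (lo111_15_7 (nat_lit 394)) (M (nat_lit 458) (B (M (nat_lit 363) (B (lo111_11_5 (nat_lit 490)) (lo111_14_7 (nat_lit 330)))) (M (nat_lit 457) (B (lo18_14_2 (nat_lit 456)) (lo19_14_2 (nat_lit 460)))))))) (B (M (nat_lit 363) (B (M (nat_lit 362) (B (lo111_15_7 (nat_lit 394)) (lo111_14_7 (nat_lit 330)))) (M (nat_lit 332) (B (lo111_14_6 (nat_lit 364)) (M (nat_lit 331) (B (lo111_10_4 (nat_lit 460)) (lo111_13_6 (nat_lit 300)))))))) (B (M (nat_lit 458) (B (M (nat_lit 490) (B (lo111_12_5 (nat_lit 522)) (lo111_11_5 (nat_lit 363)))) (M (nat_lit 457) (B (lo18_14_2 (nat_lit 456)) (lo19_14_2 (nat_lit 460)))))) (K _ _ _ o1_s24079)))))) (B (M (nat_lit 523) (B (M (nat_lit 555) (B (lo111_17_6 (nat_lit 460)) (M (nat_lit 556) (B (lo111_14_4 (nat_lit 588)) (lo111_13_4 (nat_lit 524)))))) (B (M (nat_lit 524) (B (lo111_13_4 (nat_lit 556)) (M (nat_lit 522) (B (lo111_13_5 (nat_lit 554)) (M (nat_lit 492) (B (M (nat_lit 493) (B (lo19_16_2 (nat_lit 521)) (lo114_15_1 (nat_lit 494)))) (M (nat_lit 525) (B (M (nat_lit 490) (B (lo113_16_3 (nat_lit 489)) (lo114_16_3 (nat_lit 526)))) (M (nat_lit 557) (B (lo110_16_0 (nat_lit 558)) (lo112_13_4 (nat_lit 460)))))))))))) (B (M (nat_lit 555) (B (lo111_17_6 (nat_lit 460)) (M (nat_lit 554) (B (lo111_14_5 (nat_lit 586)) (lo111_13_5 (nat_lit 522)))))) (M (nat_lit 555) (B (M (nat_lit 554) (B (lo111_14_5 (nat_lit 586)) (lo111_13_5 (nat_lit 522)))) (M (nat_lit 556) (B (lo111_14_4 (nat_lit 588)) (lo111_13_4 (nat_lit 524)))))))))) (B (K _ _ _ o1_s24107) (B (K _ _ _ o1_s24149) (K _ _ _ o1_s24158)))))))))) (B (M (nat_lit 492) (B (M (nat_lit 493) (B (M (nat_lit 490) (B (M (nat_lit 489) (B (M (nat_lit 457) (B (lo112_15_3 (nat_lit 456)) (lo113_15_3 (nat_lit 458)))) (M (nat_lit 525) (B (lo19_15_0 (nat_lit 524)) (lo110_15_0 (nat_lit 526)))))) (B (M (nat_lit 494) (B (M (nat_lit 522) (B (lo113_15_1 (nat_lit 521)) (lo114_15_1 (nat_lit 523)))) (M (nat_lit 526) (B (lo110_15_0 (nat_lit 525)) (lo111_15_0 (nat_lit 527)))))) (M (nat_lit 494) (B (M (nat_lit 522) (B (lo113_15_1 (nat_lit 521)) (lo114_15_1 (nat_lit 523)))) (M (nat_lit 458) (B (lo113_15_3 (nat_lit 457)) (lo114_15_3 (nat_lit 459))))))))) (B (M (nat_lit 494) (B (M (nat_lit 495) (B (M (nat_lit 523) (B (lo114_15_1 (nat_lit 522)) (lo115_15_1 (nat_lit 524)))) (M (nat_lit 463) (B (lo111_15_2 (nat_lit 462)) (lo112_15_2 (nat_lit 464)))))) (B (M (nat_lit 459) (B (lo114_15_3 (nat_lit 458)) (M (nat_lit 495) (B (lo115_15_3 (nat_lit 460)) (M (nat_lit 527) (B (lo111_15_0 (nat_lit 526)) (lo112_15_0 (nat_lit 528)))))))) (M (nat_lit 490) (B (M (nat_lit 522) (B (lo113_15_1 (nat_lit 521)) (lo114_15_1 (nat_lit 523)))) (M (nat_lit 526) (B (lo110_15_0 (nat_lit 525)) (lo111_15_0 (nat_lit 527))))))))) (B (M (nat_lit 494) (B (M (nat_lit 495) (B (M (nat_lit 523) (B (lo114_15_1 (nat_lit 522)) (lo115_15_1 (nat_lit 524)))) (M (nat_lit 463) (B (lo111_15_2 (nat_lit 462)) (lo112_15_2 (nat_lit 464)))))) (B (M (nat_lit 459) (B (lo114_15_3 (nat_lit 458)) (M (nat_lit 495) (B (lo115_15_3 (nat_lit 460)) (M (nat_lit 527) (B (lo111_15_0 (nat_lit 526)) (lo112_15_0 (nat_lit 528)))))))) (M (nat_lit 490) (B (M (nat_lit 458) (B (lo113_15_3 (nat_lit 457)) (lo114_15_3 (nat_lit 459)))) (M (nat_lit 526) (B (lo110_15_0 (nat_lit 525)) (lo111_15_0 (nat_lit 527))))))))) (B (M (nat_lit 494) (B (M (nat_lit 495) (B (M (nat_lit 459) (B (lo114_15_3 (nat_lit 458)) (lo115_15_3 (nat_lit 460)))) (M (nat_lit 463) (B (lo111_15_2 (nat_lit 462)) (lo112_15_2 (nat_lit 464)))))) (B (M (nat_lit 495) (B (M (nat_lit 527) (B (lo111_15_0 (nat_lit 526)) (lo112_15_0 (nat_lit 528)))) (M (nat_lit 463) (B (lo111_15_2 (nat_lit 462)) (lo112_15_2 (nat_lit 464)))))) (B (M (nat_lit 459) (B (lo114_15_3 (nat_lit 458)) (M (nat_lit 495) (B (lo115_15_3 (nat_lit 460)) (M (nat_lit 527) (B (lo111_15_0 (nat_lit 526)) (lo112_15_0 (nat_lit 528)))))))) (M (nat_lit 490) (B (M (nat_lit 458) (B (lo113_15_3 (nat_lit 457)) (lo114_15_3 (nat_lit 459)))) (M (nat_lit 526) (B (lo110_15_0 (nat_lit 525)) (lo111_15_0 (nat_lit 527)))))))))) (B (M (nat_lit 459) (B (M (nat_lit 458) (B (lo114_15_3 (nat_lit 494)) (M (nat_lit 457) (B (lo18_14_0 (nat_lit 456)) (lo19_14_0 (nat_lit 460)))))) (B (M (nat_lit 494) (B (lo114_15_3 (nat_lit 458)) (M (nat_lit 523) (B (lo114_15_1 (nat_lit 522)) (M (nat_lit 495) (B (lo115_15_1 (nat_lit 524)) (lo115_15_3 (nat_lit 460)))))))) (B (M (nat_lit 523) (B (M (nat_lit 522) (B (lo111_13_5 (nat_lit 554)) (lo114_15_1 (nat_lit 494)))) (M (nat_lit 555) (B (lo111_17_6 (nat_lit 460)) (M (nat_lit 556) (B (lo111_14_4 (nat_lit 588)) (lo111_13_4 (nat_lit 524)))))))) (B (M (nat_lit 494) (B (lo114_15_3 (nat_lit 458)) (M (nat_lit 523) (B (lo114_15_1 (nat_lit 522)) (M (nat_lit 524) (B (lo111_13_4 (nat_lit 556)) (lo115_15_1 (nat_lit 495)))))))) (M (nat_lit 523) (B (M (nat_lit 555) (B (lo111_17_6 (nat_lit 460)) (M (nat_lit 556) (B (lo111_14_4 (nat_lit 588)) (lo111_13_4 (nat_lit 524)))))) (B (M (nat_lit 524) (B (lo111_13_4 (nat_lit 556)) (M (nat_lit 522) (B (lo19_16_2 (nat_lit 521)) (lo111_13_5 (nat_lit 554)))))) (M (nat_lit 555) (B (lo111_17_6 (nat_lit 460)) (M (nat_lit 554) (B (lo111_14_5 (nat_lit 586)) (lo111_13_5 (nat_lit 522)))))))))))))) (B (K _ _ _ o1_s24205) (M (nat_lit 524) (B (M (nat_lit 556) (B (M (nat_lit 459) (B (lo111_13_4 (nat_lit 523)) (lo112_18_7 (nat_lit 588)))) (B (M (nat_lit 459) (B (lo112_18_7 (nat_lit 588)) (lo112_17_7 (nat_lit 460)))) (B (M (nat_lit 588) (B (lo112_18_6 (nat_lit 461)) (M (nat_lit 620) (B (lo112_19_7 (nat_lit 523)) (lo112_19_6 (nat_lit 525)))))) (M (nat_lit 459) (B (lo111_13_4 (nat_lit 523)) (lo112_17_7 (nat_lit 460)))))))) (B (M (nat_lit 556) (B (M (nat_lit 459) (B (lo112_18_7 (nat_lit 588)) (lo112_17_7 (nat_lit 460)))) (B (M (nat_lit 461) (B (lo112_18_6 (nat_lit 588)) (lo112_17_6 (nat_lit 460)))) (B (M (nat_lit 460) (B (lo112_17_7 (nat_lit 459)) (M (nat_lit 557) (B (lo112_14_4 (nat_lit 589)) (lo112_13_4 (nat_lit 525)))))) (M (nat_lit 588) (B (lo112_18_7 (nat_lit 459)) (lo112_18_6 (nat_lit 461)))))))) (B (M (nat_lit 556) (B (M (nat_lit 588) (B (lo112_18_6 (nat_lit 461)) (M (nat_lit 620) (B (lo112_19_7 (nat_lit 523)) (lo112_19_6 (nat_lit 525)))))) (B (M (nat_lit 461) (B (lo112_18_6 (nat_lit 588)) (lo112_17_6 (nat_lit 460)))) (B (M (nat_lit 460) (B (M (nat_lit 555) (B (lo112_14_5 (nat_lit 587)) (lo112_13_5 (nat_lit 523)))) (M (nat_lit 557) (B (lo112_14_4 (nat_lit 589)) (lo112_13_4 (nat_lit 525)))))) (M (nat_lit 460) (B (M (nat_lit 555) (B (lo112_14_5 (nat_lit 587)) (lo112_13_5 (nat_lit 523)))) (M (nat_lit 461) (B (lo112_18_6 (nat_lit 588)) (lo112_17_6 (nat_lit 429)))))))))) (B (M (nat_lit 460) (B (M (nat_lit 525) (B (lo112_13_4 (nat_lit 557)) (M (nat_lit 490) (B (lo19_15_0 (nat_lit 489)) (lo110_15_0 (nat_lit 526)))))) (M (nat_lit 555) (B (lo112_13_5 (nat_lit 523)) (M (nat_lit 556) (B (lo112_14_5 (nat_lit 587)) (lo112_17_7 (nat_lit 459)))))))) (B (M (nat_lit 523) (B (M (nat_lit 460) (B (lo112_13_5 (nat_lit 555)) (M (nat_lit 525) (B (lo112_13_4 (nat_lit 557)) (M (nat_lit 490) (B (lo19_15_0 (nat_lit 489)) (lo114_16_3 (nat_lit 526)))))))) (B (M (nat_lit 522) (B (lo19_16_2 (nat_lit 521)) (M (nat_lit 525) (B (M (nat_lit 554) (B (lo113_16_1 (nat_lit 553)) (lo111_13_5 (nat_lit 459)))) (M (nat_lit 460) (B (lo112_13_5 (nat_lit 555)) (lo112_13_4 (nat_lit 557)))))))) (B (M (nat_lit 522) (B (lo19_16_2 (nat_lit 521)) (M (nat_lit 525) (B (M (nat_lit 554) (B (lo113_16_1 (nat_lit 553)) (lo111_13_5 (nat_lit 459)))) (M (nat_lit 490) (B (lo113_16_3 (nat_lit 489)) (lo114_16_3 (nat_lit 526)))))))) (M (nat_lit 490) (B (M (nat_lit 521) (B (lo113_15_1 (nat_lit 522)) (M (nat_lit 489) (B (lo112_15_1 (nat_lit 520)) (lo18_15_0 (nat_lit 488)))))) (M (nat_lit 555) (B (lo112_13_5 (nat_lit 460)) (M (nat_lit 458) (B (lo113_15_3 (nat_lit 457)) (lo111_18_7 (nat_lit 587)))))))))))) (B (M (nat_lit 490) (B (M (nat_lit 525) (B (lo19_15_0 (nat_lit 489)) (lo110_15_0 (nat_lit 526)))) (M (nat_lit 522) (B (lo113_15_1 (nat_lit 521)) (M (nat_lit 459) (B (M (nat_lit 554) (B (lo110_18_6 (nat_lit 586)) (lo110_17_6 (nat_lit 458)))) (B (M (nat_lit 554) (B (lo110_17_6 (nat_lit 458)) (lo111_13_5 (nat_lit 523)))) (M (nat_lit 556) (B (lo111_13_4 (nat_lit 523)) (lo112_18_7 (nat_lit 588))))))))))) (M (nat_lit 556) (B (M (nat_lit 459) (B (lo111_13_4 (nat_lit 523)) (lo112_18_7 (nat_lit 588)))) (B (M (nat_lit 588) (B (lo112_18_7 (nat_lit 459)) (lo112_18_6 (nat_lit 461)))) (B (M (nat_lit 460) (B (M (nat_lit 555) (B (lo112_14_5 (nat_lit 587)) (lo112_13_5 (nat_lit 523)))) (M (nat_lit 461) (B (lo112_18_6 (nat_lit 588)) (lo112_17_6 (nat_lit 429)))))) (M (nat_lit 459) (B (lo111_13_4 (nat_lit 523)) (lo112_17_7 (nat_lit 460)))))))))))))))))))))) (B (K _ _ _ o1_s23429) (B (M (nat_lit 493) (B (M (nat_lit 525) (B (M (nat_lit 460) (B (lo112_12_4 (nat_lit 396)) (M (nat_lit 557) (B (lo112_13_4 (nat_lit 524)) (lo113_17_7 (nat_lit 461)))))) (M (nat_lit 526) (B (lo110_15_0 (nat_lit 490)) (M (nat_lit 527) (B (lo111_15_0 (nat_lit 494)) (lo116_16_3 (nat_lit 528)))))))) (B (M (nat_lit 460) (B (M (nat_lit 396) (B (lo112_12_5 (nat_lit 523)) (lo112_12_4 (nat_lit 525)))) (B (M (nat_lit 525) (B (lo112_12_4 (nat_lit 396)) (M (nat_lit 557) (B (lo112_13_4 (nat_lit 524)) (lo113_18_7 (nat_lit 589)))))) (B (M (nat_lit 524) (B (M (nat_lit 523) (B (lo112_13_5 (nat_lit 555)) (M (nat_lit 522) (B (lo19_16_2 (nat_lit 521)) (lo114_15_1 (nat_lit 494)))))) (M (nat_lit 556) (B (M (nat_lit 557) (B (lo112_14_4 (nat_lit 589)) (lo112_13_4 (nat_lit 525)))) (M (nat_lit 461) (B (lo112_18_6 (nat_lit 588)) (lo112_17_6 (nat_lit 429)))))))) (M (nat_lit 523) (B (lo112_12_5 (nat_lit 396)) (M (nat_lit 522) (B (lo114_15_1 (nat_lit 494)) (M (nat_lit 524) (B (lo19_16_2 (nat_lit 521)) (lo112_13_5 (nat_lit 555)))))))))))) (B (M (nat_lit 525) (B (M (nat_lit 460) (B (lo112_12_4 (nat_lit 396)) (M (nat_lit 557) (B (lo113_18_7 (nat_lit 589)) (lo113_17_7 (nat_lit 461)))))) (M (nat_lit 526) (B (lo110_15_0 (nat_lit 490)) (M (nat_lit 527) (B (lo111_15_0 (nat_lit 494)) (lo116_16_3 (nat_lit 528)))))))) (B (M (nat_lit 490) (B (M (nat_lit 489) (B (M (nat_lit 457) (B (lo112_15_3 (nat_lit 456)) (lo113_15_3 (nat_lit 458)))) (M (nat_lit 525) (B (lo19_15_0 (nat_lit 524)) (lo110_15_0 (nat_lit 526)))))) (B (M (nat_lit 489) (B (M (nat_lit 521) (B (lo112_15_1 (nat_lit 520)) (lo113_15_1 (nat_lit 522)))) (M (nat_lit 525) (B (lo19_15_0 (nat_lit 524)) (lo110_15_0 (nat_lit 526)))))) (M (nat_lit 494) (B (M (nat_lit 522) (B (lo113_15_1 (nat_lit 521)) (lo114_15_1 (nat_lit 523)))) (M (nat_lit 462) (B (lo110_15_2 (nat_lit 461)) (lo111_15_2 (nat_lit 463))))))))) (B (M (nat_lit 523) (B (M (nat_lit 522) (B (lo114_15_1 (nat_lit 494)) (M (nat_lit 521) (B (lo18_16_2 (nat_lit 520)) (lo19_16_2 (nat_lit 524)))))) (B (M (nat_lit 522) (B (lo114_15_1 (nat_lit 494)) (M (nat_lit 521) (B (lo113_15_1 (nat_lit 490)) (lo19_16_2 (nat_lit 524)))))) (B (M (nat_lit 460) (B (lo112_12_5 (nat_lit 396)) (M (nat_lit 555) (B (lo111_18_6 (nat_lit 587)) (lo112_13_5 (nat_lit 524)))))) (M (nat_lit 522) (B (lo114_15_1 (nat_lit 494)) (M (nat_lit 521) (B (lo18_16_2 (nat_lit 520)) (lo113_15_1 (nat_lit 490)))))))))) (M (nat_lit 525) (B (M (nat_lit 526) (B (lo110_15_0 (nat_lit 490)) (M (nat_lit 527) (B (lo115_16_3 (nat_lit 524)) (lo116_16_3 (nat_lit 528)))))) (B (M (nat_lit 460) (B (lo112_12_4 (nat_lit 396)) (M (nat_lit 557) (B (lo112_13_4 (nat_lit 524)) (lo113_18_7 (nat_lit 589)))))) (M (nat_lit 460) (B (lo112_12_4 (nat_lit 396)) (M (nat_lit 557) (B (lo113_18_7 (nat_lit 589)) (lo113_17_7 (nat_lit 461))))))))))))))) (B (M (nat_lit 459) (B (M (nat_lit 396) (B (lo111_16_6 (nat_lit 523)) (M (nat_lit 364) (B (lo112_11_5 (nat_lit 460)) (lo112_10_5 (nat_lit 332)))))) (B (M (nat_lit 493) (B (M (nat_lit 458) (B (lo114_15_3 (nat_lit 494)) (M (nat_lit 457) (B (lo18_14_0 (nat_lit 456)) (lo19_14_0 (nat_lit 460)))))) (B (M (nat_lit 458) (B (lo114_15_3 (nat_lit 494)) (M (nat_lit 457) (B (lo113_15_3 (nat_lit 490)) (lo19_14_0 (nat_lit 460)))))) (B (M (nat_lit 460) (B (M (nat_lit 494) (B (lo114_15_3 (nat_lit 458)) (lo115_15_3 (nat_lit 495)))) (M (nat_lit 396) (B (lo112_11_5 (nat_lit 364)) (lo112_12_4 (nat_lit 525)))))) (B (M (nat_lit 494) (B (M (nat_lit 495) (B (lo115_15_3 (nat_lit 460)) (M (nat_lit 527) (B (lo111_15_0 (nat_lit 526)) (lo112_15_0 (nat_lit 528)))))) (B (M (nat_lit 490) (B (M (nat_lit 526) (B (lo110_15_0 (nat_lit 525)) (lo111_15_0 (nat_lit 527)))) (M (nat_lit 462) (B (lo110_15_2 (nat_lit 461)) (lo111_15_2 (nat_lit 463)))))) (M (nat_lit 460) (B (lo115_15_3 (nat_lit 495)) (M (nat_lit 396) (B (lo112_11_5 (nat_lit 364)) (lo112_12_4 (nat_lit 525))))))))) (B (M (nat_lit 458) (B (lo114_15_3 (nat_lit 494)) (M (nat_lit 457) (B (lo18_14_0 (nat_lit 456)) (lo113_15_3 (nat_lit 490)))))) (M (nat_lit 490) (B (M (nat_lit 458) (B (lo113_15_3 (nat_lit 457)) (M (nat_lit 522) (B (lo113_15_1 (nat_lit 521)) (lo110_17_6 (nat_lit 554)))))) (M (nat_lit 460) (B (M (nat_lit 489) (B (lo18_15_2 (nat_lit 488)) (lo19_15_2 (nat_lit 461)))) (M (nat_lit 525) (B (lo110_15_0 (nat_lit 526)) (lo112_12_4 (nat_lit 396)))))))))))))) (B (M (nat_lit 523) (B (lo111_16_6 (nat_lit 396)) (M (nat_lit 522) (B (lo111_13_5 (nat_lit 554)) (M (nat_lit 493) (B (lo114_15_1 (nat_lit 494)) (M (nat_lit 521) (B (lo18_16_2 (nat_lit 520)) (lo113_15_1 (nat_lit 490)))))))))) (M (nat_lit 493) (B (M (nat_lit 458) (B (lo114_15_3 (nat_lit 494)) (M (nat_lit 457) (B (lo18_14_0 (nat_lit 456)) (lo19_14_0 (nat_lit 460)))))) (B (M (nat_lit 458) (B (lo114_15_3 (nat_lit 494)) (M (nat_lit 457) (B (lo113_15_3 (nat_lit 490)) (lo19_14_0 (nat_lit 460)))))) (B (M (nat_lit 490) (B (M (nat_lit 494) (B (lo114_15_3 (nat_lit 458)) (M (nat_lit 522) (B (lo113_15_1 (nat_lit 521)) (lo114_15_1 (nat_lit 523)))))) (B (M (nat_lit 494) (B (lo114_15_3 (nat_lit 458)) (M (nat_lit 526) (B (lo110_15_0 (nat_lit 525)) (lo111_15_0 (nat_lit 527)))))) (M (nat_lit 522) (B (lo113_15_1 (nat_lit 521)) (M (nat_lit 554) (B (lo110_18_6 (nat_lit 586)) (lo111_13_5 (nat_lit 523))))))))) (B (M (nat_lit 490) (B (M (nat_lit 522) (B (lo113_15_1 (nat_lit 521)) (M (nat_lit 554) (B (lo110_18_6 (nat_lit 586)) (lo111_13_5 (nat_lit 523)))))) (M (nat_lit 494) (B (M (nat_lit 526) (B (lo110_15_0 (nat_lit 525)) (lo111_15_0 (nat_lit 527)))) (M (nat_lit 462) (B (lo110_15_2 (nat_lit 461)) (lo111_15_2 (nat_lit 463)))))))) (M (nat_lit 490) (B (M (nat_lit 458) (B (lo113_15_3 (nat_lit 457)) (M (nat_lit 522) (B (lo113_15_1 (nat_lit 521)) (lo110_17_6 (nat_lit 554)))))) (B (M (nat_lit 489) (B (M (nat_lit 457) (B (lo112_15_3 (nat_lit 456)) (lo113_15_3 (nat_lit 458)))) (M (nat_lit 461) (B (lo19_15_2 (nat_lit 460)) (lo110_15_2 (nat_lit 462)))))) (B (M (nat_lit 522) (B (lo113_15_1 (nat_lit 521)) (M (nat_lit 554) (B (lo110_18_6 (nat_lit 586)) (lo110_17_6 (nat_lit 458)))))) (M (nat_lit 522) (B (lo113_15_1 (nat_lit 521)) (M (nat_lit 554) (B (lo110_18_6 (nat_lit 586)) (lo111_13_5 (nat_lit 523))))))))))))))))))) (B (M (nat_lit 493) (B (M (nat_lit 494) (B (M (nat_lit 459) (B (lo114_15_3 (nat_lit 458)) (M (nat_lit 523) (B (lo114_15_1 (nat_lit 522)) (lo111_16_6 (nat_lit 396)))))) (B (M (nat_lit 490) (B (M (nat_lit 458) (B (lo113_15_3 (nat_lit 457)) (lo114_15_3 (nat_lit 459)))) (M (nat_lit 526) (B (lo110_15_0 (nat_lit 525)) (lo111_15_0 (nat_lit 527)))))) (M (nat_lit 490) (B (M (nat_lit 522) (B (lo113_15_1 (nat_lit 521)) (lo114_15_1 (nat_lit 523)))) (M (nat_lit 526) (B (lo110_15_0 (nat_lit 525)) (lo111_15_0 (nat_lit 527))))))))) (B (M (nat_lit 494) (B (M (nat_lit 459) (B (lo114_15_3 (nat_lit 458)) (M (nat_lit 523) (B (lo114_15_1 (nat_lit 522)) (lo111_16_6 (nat_lit 396)))))) (M (nat_lit 490) (B (M (nat_lit 526) (B (lo110_15_0 (nat_lit 525)) (lo111_15_0 (nat_lit 527)))) (M (nat_lit 462) (B (lo110_15_2 (nat_lit 461)) (lo111_15_2 (nat_lit 463)))))))) (B (M (nat_lit 494) (B (M (nat_lit 490) (B (M (nat_lit 458) (B (lo113_15_3 (nat_lit 457)) (lo114_15_3 (nat_lit 459)))) (M (nat_lit 462) (B (lo110_15_2 (nat_lit 461)) (lo111_15_2 (nat_lit 463)))))) (B (M (nat_lit 490) (B (M (nat_lit 526) (B (lo110_15_0 (nat_lit 525)) (lo111_15_0 (nat_lit 527)))) (M (nat_lit 462) (B (lo110_15_2 (nat_lit 461)) (lo111_15_2 (nat_lit 463)))))) (B (M (nat_lit 495) (B (M (nat_lit 527) (B (lo111_15_0 (nat_lit 526)) (lo112_15_0 (nat_lit 528)))) (M (nat_lit 463) (B (lo111_15_2 (nat_lit 462)) (lo112_15_2 (nat_lit 464)))))) (M (nat_lit 490) (B (M (nat_lit 458) (B (lo113_15_3 (nat_lit 457)) (lo114_15_3 (nat_lit 459)))) (M (nat_lit 526) (B (lo110_15_0 (nat_lit 525)) (lo111_15_0 (nat_lit 527)))))))))) (B (M (nat_lit 494) (B (M (nat_lit 459) (B (lo114_15_3 (nat_lit 458)) (M (nat_lit 523) (B (lo114_15_1 (nat_lit 522)) (lo111_16_6 (nat_lit 396)))))) (M (nat_lit 495) (B (M (nat_lit 527) (B (lo111_15_0 (nat_lit 526)) (lo112_15_0 (nat_lit 528)))) (M (nat_lit 463) (B (lo111_15_2 (nat_lit 462)) (lo112_15_2 (nat_lit 464)))))))) (B (K _ _ _ o1_s24205) (B (M (nat_lit 494) (B (M (nat_lit 459) (B (lo114_15_3 (nat_lit 458)) (M (nat_lit 523) (B (lo114_15_1 (nat_lit 522)) (lo111_16_6 (nat_lit 396)))))) (B (M (nat_lit 490) (B (M (nat_lit 458) (B (lo113_15_3 (nat_lit 457)) (lo114_15_3 (nat_lit 459)))) (M (nat_lit 462) (B (lo110_15_2 (nat_lit 461)) (lo111_15_2 (nat_lit 463)))))) (M (nat_lit 495) (B (M (nat_lit 523) (B (lo114_15_1 (nat_lit 522)) (lo115_15_1 (nat_lit 524)))) (M (nat_lit 463) (B (lo111_15_2 (nat_lit 462)) (lo112_15_2 (nat_lit 464))))))))) (M (nat_lit 490) (B (M (nat_lit 489) (B (M (nat_lit 457) (B (lo112_15_3 (nat_lit 456)) (lo113_15_3 (nat_lit 458)))) (M (nat_lit 525) (B (lo19_15_0 (nat_lit 524)) (lo110_15_0 (nat_lit 526)))))) (B (M (nat_lit 489) (B (M (nat_lit 521) (B (lo112_15_1 (nat_lit 520)) (lo113_15_1 (nat_lit 522)))) (M (nat_lit 525) (B (lo19_15_0 (nat_lit 524)) (lo110_15_0 (nat_lit 526)))))) (B (M (nat_lit 459) (B (M (nat_lit 522) (B (lo113_15_1 (nat_lit 521)) (M (nat_lit 554) (B (lo110_18_6 (nat_lit 586)) (lo110_17_6 (nat_lit 458)))))) (M (nat_lit 396) (B (lo111_16_6 (nat_lit 523)) (M (nat_lit 525) (B (lo110_15_0 (nat_lit 526)) (M (nat_lit 461) (B (lo110_15_2 (nat_lit 462)) (lo113_16_7 (nat_lit 429)))))))))) (M (nat_lit 489) (B (M (nat_lit 521) (B (lo112_15_1 (nat_lit 520)) (lo113_15_1 (nat_lit 522)))) (M (nat_lit 457) (B (lo112_15_3 (nat_lit 456)) (lo113_15_3 (nat_lit 458))))))))))))))))) (B (M (nat_lit 460) (B (M (nat_lit 523) (B (lo112_12_5 (nat_lit 396)) (M (nat_lit 555) (B (lo111_18_6 (nat_lit 587)) (lo112_13_5 (nat_lit 524)))))) (B (M (nat_lit 523) (B (lo112_12_5 (nat_lit 396)) (M (nat_lit 555) (B (lo111_17_6 (nat_lit 459)) (lo112_13_5 (nat_lit 524)))))) (B (M (nat_lit 396) (B (lo112_12_5 (nat_lit 523)) (M (nat_lit 493) (B (lo112_12_4 (nat_lit 525)) (M (nat_lit 364) (B (lo112_11_5 (nat_lit 459)) (lo112_11_4 (nat_lit 461)))))))) (B (M (nat_lit 524) (B (M (nat_lit 556) (B (lo112_17_7 (nat_lit 459)) (M (nat_lit 557) (B (lo112_14_4 (nat_lit 589)) (lo112_13_4 (nat_lit 525)))))) (B (M (nat_lit 525) (B (lo112_13_4 (nat_lit 557)) (M (nat_lit 490) (B (lo19_15_0 (nat_lit 489)) (M (nat_lit 493) (B (lo110_15_0 (nat_lit 526)) (lo112_12_4 (nat_lit 396)))))))) (M (nat_lit 461) (B (M (nat_lit 556) (B (lo112_17_7 (nat_lit 459)) (lo112_17_6 (nat_lit 429)))) (M (nat_lit 462) (B (lo115_14_1 (nat_lit 463)) (M (nat_lit 490) (B (lo19_15_2 (nat_lit 489)) (lo110_15_2 (nat_lit 493))))))))))) (M (nat_lit 524) (B (M (nat_lit 555) (B (lo112_13_5 (nat_lit 523)) (M (nat_lit 556) (B (lo112_14_5 (nat_lit 587)) (lo112_17_7 (nat_lit 459)))))) (B (M (nat_lit 523) (B (lo112_13_5 (nat_lit 555)) (M (nat_lit 525) (B (lo112_13_4 (nat_lit 557)) (M (nat_lit 490) (B (lo19_15_0 (nat_lit 489)) (lo114_16_3 (nat_lit 526)))))))) (B (M (nat_lit 525) (B (lo112_13_4 (nat_lit 557)) (M (nat_lit 490) (B (lo19_15_0 (nat_lit 489)) (M (nat_lit 526) (B (lo114_16_3 (nat_lit 523)) (lo115_16_3 (nat_lit 527)))))))) (M (nat_lit 525) (B (lo112_13_4 (nat_lit 557)) (M (nat_lit 490) (B (lo19_15_0 (nat_lit 489)) (M (nat_lit 526) (B (lo110_15_0 (nat_lit 493)) (lo115_16_3 (nat_lit 527))))))))))))))))) (M (nat_lit 523) (B (M (nat_lit 396) (B (lo111_16_6 (nat_lit 459)) (lo112_12_5 (nat_lit 460)))) (B (M (nat_lit 460) (B (lo112_12_5 (nat_lit 396)) (M (nat_lit 555) (B (lo111_18_6 (nat_lit 587)) (lo112_13_5 (nat_lit 524)))))) (B (M (nat_lit 555) (B (M (nat_lit 460) (B (lo111_17_6 (nat_lit 459)) (lo111_18_6 (nat_lit 587)))) (B (M (nat_lit 460) (B (lo111_18_6 (nat_lit 587)) (lo112_13_5 (nat_lit 524)))) (B (M (nat_lit 460) (B (lo111_17_6 (nat_lit 459)) (lo112_13_5 (nat_lit 524)))) (M (nat_lit 459) (B (M (nat_lit 554) (B (lo111_13_5 (nat_lit 522)) (lo111_14_5 (nat_lit 586)))) (M (nat_lit 556) (B (lo111_13_4 (nat_lit 524)) (lo111_14_4 (nat_lit 588)))))))))) (M (nat_lit 459) (B (lo111_16_6 (nat_lit 396)) (M (nat_lit 555) (B (M (nat_lit 554) (B (lo111_13_5 (nat_lit 522)) (lo111_14_5 (nat_lit 586)))) (M (nat_lit 556) (B (lo111_13_4 (nat_lit 524)) (lo111_14_4 (nat_lit 588))))))))))))))))))) (B (M (nat_lit 459) (B (M (nat_lit 396) (B (lo111_16_6 (nat_lit 523)) (M (nat_lit 364) (B (lo111_15_6 (nat_lit 395)) (lo112_10_5 (nat_lit 332)))))) (B (K _ _ _ o1_s24461) (B (M (nat_lit 396) (B (lo111_16_6 (nat_lit 523)) (M (nat_lit 364) (B (lo112_11_5 (nat_lit 460)) (lo112_10_5 (nat_lit 332)))))) (M (nat_lit 492) (B (M (nat_lit 395) (B (lo111_12_4 (nat_lit 524)) (M (nat_lit 363) (B (lo111_11_4 (nat_lit 460)) (M (nat_lit 362) (B (lo111_15_7 (nat_lit 394)) (lo111_14_7 (nat_lit 330)))))))) (B (M (nat_lit 395) (B (lo111_12_4 (nat_lit 524)) (M (nat_lit 363) (B (lo111_11_4 (nat_lit 460)) (M (nat_lit 490) (B (lo111_12_5 (nat_lit 522)) (lo111_11_5 (nat_lit 458)))))))) (B (K _ _ _ o1_s23983) (B (M (nat_lit 490) (B (M (nat_lit 522) (B (lo111_12_5 (nat_lit 395)) (M (nat_lit 554) (B (lo110_18_6 (nat_lit 586)) (lo111_13_5 (nat_lit 523)))))) (B (M (nat_lit 522) (B (lo111_12_5 (nat_lit 395)) (M (nat_lit 554) (B (lo110_17_6 (nat_lit 458)) (lo111_13_5 (nat_lit 523)))))) (M (nat_lit 457) (B (M (nat_lit 456) (B (lo112_15_3 (nat_lit 489)) (lo18_14_0 (nat_lit 458)))) (B (M (nat_lit 460) (B (M (nat_lit 489) (B (lo18_15_2 (nat_lit 488)) (lo19_15_2 (nat_lit 461)))) (M (nat_lit 458) (B (lo113_15_3 (nat_lit 493)) (lo19_14_2 (nat_lit 429)))))) (B (M (nat_lit 458) (B (lo18_14_0 (nat_lit 456)) (lo113_15_3 (nat_lit 493)))) (M (nat_lit 489) (B (lo112_15_3 (nat_lit 456)) (M (nat_lit 460) (B (lo18_15_2 (nat_lit 488)) (lo19_15_2 (nat_lit 461))))))))))))) (K _ _ _ o1_s24478)))))))))) (B (M (nat_lit 459) (B (K _ _ _ o1_s24059) (B (M (nat_lit 395) (B (M (nat_lit 396) (B (lo111_15_6 (nat_lit 364)) (M (nat_lit 394) (B (lo19_12_0 (nat_lit 393)) (lo111_15_7 (nat_lit 362)))))) (B (M (nat_lit 363) (B (M (nat_lit 460) (B (lo111_10_4 (nat_lit 331)) (lo111_11_4 (nat_lit 492)))) (M (nat_lit 362) (B (lo111_14_7 (nat_lit 330)) (lo111_15_7 (nat_lit 394)))))) (M (nat_lit 363) (B (M (nat_lit 364) (B (lo111_14_6 (nat_lit 332)) (lo111_15_6 (nat_lit 396)))) (M (nat_lit 460) (B (lo111_10_4 (nat_lit 331)) (lo111_11_4 (nat_lit 492))))))))) (B (M (nat_lit 523) (B (lo111_16_6 (nat_lit 396)) (M (nat_lit 555) (B (lo111_17_6 (nat_lit 460)) (M (nat_lit 556) (B (lo111_14_4 (nat_lit 588)) (lo111_13_4 (nat_lit 524)))))))) (M (nat_lit 396) (B (M (nat_lit 364) (B (lo111_15_6 (nat_lit 395)) (lo112_10_5 (nat_lit 332)))) (lo111_16_6 (nat_lit 523)))))))) (B (M (nat_lit 459) (B (M (nat_lit 396) (B (lo111_16_6 (nat_lit 523)) (M (nat_lit 364) (B (lo112_11_5 (nat_lit 460)) (lo112_10_5 (nat_lit 332)))))) (B (K _ _ _ o1_s24461) (B (M (nat_lit 396) (B (lo111_16_6 (nat_lit 523)) (M (nat_lit 364) (B (lo111_15_6 (nat_lit 395)) (lo112_10_5 (nat_lit 332)))))) (M (nat_lit 395) (B (M (nat_lit 490) (B (lo111_12_5 (nat_lit 522)) (M (nat_lit 363) (B (lo111_11_5 (nat_lit 458)) (M (nat_lit 362) (B (lo111_15_7 (nat_lit 394)) (lo111_14_7 (nat_lit 330)))))))) (B (M (nat_lit 363) (B (M (nat_lit 362) (B (lo111_15_7 (nat_lit 394)) (lo111_14_7 (nat_lit 330)))) (M (nat_lit 460) (B (lo111_11_4 (nat_lit 492)) (lo111_10_4 (nat_lit 331)))))) (B (M (nat_lit 363) (B (M (nat_lit 490) (B (lo111_12_5 (nat_lit 522)) (lo111_11_5 (nat_lit 458)))) (M (nat_lit 460) (B (lo111_11_4 (nat_lit 492)) (lo111_10_4 (nat_lit 331)))))) (M (nat_lit 523) (B (M (nat_lit 522) (B (lo111_13_5 (nat_lit 554)) (lo111_12_5 (nat_lit 490)))) (B (M (nat_lit 555) (B (lo111_17_6 (nat_lit 460)) (M (nat_lit 587) (B (M (nat_lit 490) (B (lo111_12_5 (nat_lit 522)) (lo111_18_7 (nat_lit 458)))) (M (nat_lit 588) (B (lo111_15_4 (nat_lit 620)) (lo111_14_4 (nat_lit 556)))))))) (K _ _ _ o1_s24028)))))))))))) (B (M (nat_lit 459) (B (K _ _ _ o1_s24149) (B (K _ _ _ o1_s24502) (B (K _ _ _ o1_s24509) (M (nat_lit 396) (B (M (nat_lit 364) (B (lo111_15_6 (nat_lit 395)) (lo112_10_5 (nat_lit 332)))) (lo111_16_6 (nat_lit 523)))))))) (B (M (nat_lit 459) (B (K _ _ _ o1_s24149) (B (M (nat_lit 395) (B (M (nat_lit 394) (B (lo111_15_7 (nat_lit 362)) (M (nat_lit 393) (B (lo18_12_0 (nat_lit 392)) (lo19_12_0 (nat_lit 396)))))) (M (nat_lit 363) (B (M (nat_lit 490) (B (lo111_11_5 (nat_lit 458)) (lo111_12_5 (nat_lit 522)))) (M (nat_lit 492) (B (lo111_11_4 (nat_lit 460)) (lo111_12_4 (nat_lit 524)))))))) (B (M (nat_lit 395) (B (M (nat_lit 394) (B (lo111_15_7 (nat_lit 362)) (M (nat_lit 396) (B (lo111_16_6 (nat_lit 523)) (lo19_12_0 (nat_lit 393)))))) (B (M (nat_lit 394) (B (lo111_15_7 (nat_lit 362)) (M (nat_lit 393) (B (lo19_12_0 (nat_lit 396)) (lo18_12_0 (nat_lit 392)))))) (B (M (nat_lit 363) (B (M (nat_lit 490) (B (lo111_12_5 (nat_lit 522)) (lo111_11_5 (nat_lit 458)))) (M (nat_lit 362) (B (lo111_15_7 (nat_lit 394)) (lo111_14_7 (nat_lit 330)))))) (M (nat_lit 523) (B (lo111_16_6 (nat_lit 396)) (M (nat_lit 522) (B (lo111_13_5 (nat_lit 554)) (lo111_12_5 (nat_lit 490)))))))))) (B (M (nat_lit 524) (B (M (nat_lit 523) (B (lo111_16_6 (nat_lit 396)) (lo111_13_4 (nat_lit 556)))) (B (M (nat_lit 492) (B (lo111_12_4 (nat_lit 395)) (M (nat_lit 556) (B (lo111_13_4 (nat_lit 523)) (lo112_18_7 (nat_lit 588)))))) (M (nat_lit 395) (B (lo111_12_4 (nat_lit 492)) (M (nat_lit 394) (B (lo111_15_7 (nat_lit 362)) (M (nat_lit 393) (B (lo19_12_0 (nat_lit 396)) (lo18_12_0 (nat_lit 392))))))))))) (K _ _ _ o1_s24509)))))) (B (M (nat_lit 459) (B (K _ _ _ o1_s24107) (B (K _ _ _ o1_s24502) (M (nat_lit 523) (B (lo111_16_6 (nat_lit 396)) (M (nat_lit 555) (B (lo111_17_6 (nat_lit 460)) (M (nat_lit 556) (B (lo111_14_4 (nat_lit 588)) (lo111_13_4 (nat_lit 524))))))))))) (B (M (nat_lit 459) (B (M (nat_lit 396) (B (lo111_16_6 (nat_lit 523)) (M (nat_lit 364) (B (lo111_15_6 (nat_lit 395)) (lo112_10_5 (nat_lit 332)))))) (B (K _ _ _ o1_s24461) (B (M (nat_lit 396) (B (lo111_16_6 (nat_lit 523)) (M (nat_lit 364) (B (lo112_11_5 (nat_lit 460)) (lo112_10_5 (nat_lit 332)))))) (B (M (nat_lit 395) (B (M (nat_lit 490) (B (lo111_12_5 (nat_lit 522)) (M (nat_lit 363) (B (lo111_11_5 (nat_lit 458)) (M (nat_lit 362) (B (lo111_15_7 (nat_lit 394)) (lo111_14_7 (nat_lit 330)))))))) (B (M (nat_lit 363) (B (M (nat_lit 362) (B (lo111_15_7 (nat_lit 394)) (lo111_14_7 (nat_lit 330)))) (M (nat_lit 331) (B (lo111_10_4 (nat_lit 460)) (M (nat_lit 332) (B (lo111_14_6 (nat_lit 364)) (lo111_13_6 (nat_lit 300)))))))) (B (M (nat_lit 363) (B (M (nat_lit 490) (B (lo111_12_5 (nat_lit 522)) (lo111_11_5 (nat_lit 458)))) (M (nat_lit 331) (B (lo111_10_4 (nat_lit 460)) (M (nat_lit 332) (B (lo111_14_6 (nat_lit 364)) (lo111_13_6 (nat_lit 300)))))))) (K _ _ _ o1_s24079))))) (M (nat_lit 523) (B (lo111_16_6 (nat_lit 396)) (M (nat_lit 555) (B (lo111_17_6 (nat_lit 460)) (M (nat_lit 556) (B (lo111_14_4 (nat_lit 588)) (lo111_13_4 (nat_lit 524))))))))))))) (M (nat_lit 459) (B (M (nat_lit 396) (B (lo111_16_6 (nat_lit 523)) (M (nat_lit 364) (B (lo111_15_6 (nat_lit 395)) (lo112_10_5 (nat_lit 332)))))) (B (M (nat_lit 395) (B (M (nat_lit 396) (B (lo111_15_6 (nat_lit 364)) (M (nat_lit 394) (B (lo111_15_7 (nat_lit 362)) (M (nat_lit 393) (B (lo18_12_0 (nat_lit 392)) (lo19_12_0 (nat_lit 429)))))))) (B (M (nat_lit 363) (B (M (nat_lit 362) (B (lo111_15_7 (nat_lit 394)) (lo111_14_7 (nat_lit 330)))) (M (nat_lit 364) (B (lo111_15_6 (nat_lit 396)) (lo111_14_6 (nat_lit 332)))))) (B (M (nat_lit 363) (B (M (nat_lit 492) (B (lo111_12_4 (nat_lit 524)) (lo111_11_4 (nat_lit 460)))) (M (nat_lit 364) (B (lo111_15_6 (nat_lit 396)) (lo111_14_6 (nat_lit 332)))))) (M (nat_lit 363) (B (M (nat_lit 362) (B (lo111_15_7 (nat_lit 394)) (lo111_14_7 (nat_lit 330)))) (M (nat_lit 492) (B (lo111_12_4 (nat_lit 524)) (lo111_11_4 (nat_lit 460)))))))))) (B (M (nat_lit 396) (B (lo111_16_6 (nat_lit 523)) (M (nat_lit 364) (B (lo112_11_5 (nat_lit 460)) (lo112_10_5 (nat_lit 332)))))) (K _ _ _ o1_s24158))))))))))))))))) (B (M (nat_lit 460) (B (M (nat_lit 459) (B (M (nat_lit 426) (B (M (nat_lit 523) (B (M (nat_lit 491) (B (lo111_16_7 (nat_lit 394)) (lo111_17_6 (nat_lit 555)))) (B (M (nat_lit 524) (B (M (nat_lit 555) (B (lo111_17_6 (nat_lit 491)) (lo112_13_5 (nat_lit 492)))) (B (M (nat_lit 556) (B (lo111_13_4 (nat_lit 491)) (lo112_17_7 (nat_lit 492)))) (B (M (nat_lit 492) (B (lo112_13_5 (nat_lit 555)) (lo112_17_7 (nat_lit 556)))) (M (nat_lit 491) (B (lo111_17_6 (nat_lit 555)) (lo111_13_4 (nat_lit 556)))))))) (B (M (nat_lit 491) (B (lo111_16_7 (nat_lit 394)) (M (nat_lit 524) (B (lo111_13_4 (nat_lit 556)) (M (nat_lit 522) (B (lo111_13_5 (nat_lit 554)) (M (nat_lit 492) (B (lo111_12_4 (nat_lit 395)) (M (nat_lit 521) (B (lo18_16_2 (nat_lit 520)) (lo19_16_2 (nat_lit 493)))))))))))) (M (nat_lit 524) (B (M (nat_lit 492) (B (lo112_13_5 (nat_lit 555)) (lo112_17_7 (nat_lit 556)))) (B (M (nat_lit 492) (B (lo112_17_7 (nat_lit 556)) (lo112_16_7 (nat_lit 395)))) (B (M (nat_lit 492) (B (lo112_13_5 (nat_lit 555)) (lo112_16_7 (nat_lit 395)))) (M (nat_lit 525) (B (M (nat_lit 461) (B (lo114_14_3 (nat_lit 462)) (M (nat_lit 493) (B (lo113_17_7 (nat_lit 557)) (M (nat_lit 494) (B (lo110_16_2 (nat_lit 522)) (lo110_14_0 (nat_lit 458)))))))) (B (M (nat_lit 461) (B (lo114_14_3 (nat_lit 462)) (M (nat_lit 493) (B (lo113_17_7 (nat_lit 557)) (M (nat_lit 494) (B (lo110_14_0 (nat_lit 458)) (M (nat_lit 495) (B (lo111_16_2 (nat_lit 526)) (lo116_15_1 (nat_lit 496)))))))))) (B (M (nat_lit 522) (B (M (nat_lit 557) (B (lo110_16_0 (nat_lit 558)) (M (nat_lit 493) (B (lo110_16_2 (nat_lit 494)) (lo113_17_7 (nat_lit 461)))))) (B (M (nat_lit 526) (B (M (nat_lit 554) (B (lo113_16_1 (nat_lit 553)) (lo114_16_1 (nat_lit 555)))) (M (nat_lit 494) (B (lo110_16_2 (nat_lit 493)) (lo111_16_2 (nat_lit 495)))))) (M (nat_lit 526) (B (M (nat_lit 554) (B (lo113_16_1 (nat_lit 553)) (lo114_16_1 (nat_lit 555)))) (M (nat_lit 558) (B (lo110_16_0 (nat_lit 557)) (lo111_16_0 (nat_lit 559))))))))) (B (M (nat_lit 526) (B (M (nat_lit 555) (B (lo114_16_1 (nat_lit 554)) (M (nat_lit 527) (B (lo115_16_1 (nat_lit 556)) (M (nat_lit 559) (B (lo111_16_0 (nat_lit 558)) (lo112_16_0 (nat_lit 560)))))))) (M (nat_lit 494) (B (lo111_16_2 (nat_lit 495)) (M (nat_lit 493) (B (lo110_16_2 (nat_lit 522)) (M (nat_lit 461) (B (lo110_14_0 (nat_lit 458)) (lo114_14_3 (nat_lit 462)))))))))) (B (M (nat_lit 526) (B (M (nat_lit 554) (B (lo114_16_1 (nat_lit 555)) (M (nat_lit 522) (B (lo113_16_1 (nat_lit 553)) (M (nat_lit 558) (B (lo110_16_0 (nat_lit 557)) (lo111_16_0 (nat_lit 559)))))))) (B (M (nat_lit 527) (B (M (nat_lit 555) (B (lo114_16_1 (nat_lit 554)) (lo115_16_1 (nat_lit 556)))) (M (nat_lit 495) (B (lo111_16_2 (nat_lit 494)) (lo112_16_2 (nat_lit 496)))))) (M (nat_lit 527) (B (M (nat_lit 559) (B (lo111_16_0 (nat_lit 558)) (lo112_16_0 (nat_lit 560)))) (M (nat_lit 495) (B (lo111_16_2 (nat_lit 494)) (lo112_16_2 (nat_lit 496))))))))) (M (nat_lit 557) (B (M (nat_lit 461) (B (lo114_14_3 (nat_lit 462)) (lo113_17_7 (nat_lit 493)))) (M (nat_lit 558) (B (lo110_16_0 (nat_lit 522)) (M (nat_lit 559) (B (lo115_17_3 (nat_lit 556)) (lo111_16_0 (nat_lit 526)))))))))))))))))))))) (B (M (nat_lit 425) (B (M (nat_lit 457) (B (lo112_13_1 (nat_lit 456)) (lo113_13_1 (nat_lit 458)))) (B (M (nat_lit 458) (B (lo113_13_1 (nat_lit 457)) (M (nat_lit 424) (B (lo17_13_0 (nat_lit 423)) (lo18_13_0 (nat_lit 460)))))) (B (M (nat_lit 424) (B (lo18_13_0 (nat_lit 460)) (M (nat_lit 423) (B (lo17_13_0 (nat_lit 458)) (M (nat_lit 391) (B (lo110_13_3 (nat_lit 390)) (lo111_13_3 (nat_lit 392)))))))) (M (nat_lit 424) (B (lo18_13_0 (nat_lit 460)) (M (nat_lit 456) (B (lo111_13_1 (nat_lit 455)) (lo112_13_1 (nat_lit 457)))))))))) (M (nat_lit 461) (B (lo110_13_0 (nat_lit 462)) (lo19_13_0 (nat_lit 425))))))) (B (M (nat_lit 491) (B (M (nat_lit 523) (B (lo111_17_6 (nat_lit 555)) (M (nat_lit 426) (B (lo111_16_7 (nat_lit 394)) (M (nat_lit 461) (B (lo114_14_3 (nat_lit 462)) (lo19_13_0 (nat_lit 425)))))))) (B (M (nat_lit 426) (B (M (nat_lit 425) (B (lo19_13_0 (nat_lit 461)) (lo18_13_0 (nat_lit 424)))) (M (nat_lit 523) (B (lo111_17_6 (nat_lit 555)) (lo111_16_7 (nat_lit 394)))))) (B (M (nat_lit 523) (B (lo111_17_6 (nat_lit 555)) (M (nat_lit 524) (B (lo111_13_4 (nat_lit 556)) (M (nat_lit 522) (B (lo111_13_5 (nat_lit 554)) (M (nat_lit 525) (B (M (nat_lit 557) (B (lo110_16_0 (nat_lit 558)) (lo112_13_4 (nat_lit 492)))) (M (nat_lit 490) (B (lo114_16_3 (nat_lit 526)) (lo113_16_3 (nat_lit 489)))))))))))) (B (M (nat_lit 492) (B (M (nat_lit 524) (B (lo112_17_7 (nat_lit 556)) (M (nat_lit 525) (B (lo112_13_4 (nat_lit 557)) (M (nat_lit 490) (B (lo19_15_0 (nat_lit 489)) (M (nat_lit 526) (B (lo115_16_3 (nat_lit 527)) (lo110_15_0 (nat_lit 493)))))))))) (B (M (nat_lit 524) (B (lo112_17_7 (nat_lit 556)) (M (nat_lit 525) (B (lo112_13_4 (nat_lit 557)) (M (nat_lit 490) (B (lo19_15_0 (nat_lit 489)) (M (nat_lit 526) (B (lo110_15_0 (nat_lit 493)) (lo114_16_3 (nat_lit 523)))))))))) (B (M (nat_lit 523) (B (M (nat_lit 426) (B (lo111_16_7 (nat_lit 394)) (M (nat_lit 425) (B (lo19_13_0 (nat_lit 461)) (lo18_13_0 (nat_lit 424)))))) (M (nat_lit 522) (B (lo111_13_5 (nat_lit 554)) (M (nat_lit 493) (B (lo114_15_1 (nat_lit 494)) (M (nat_lit 521) (B (lo113_15_1 (nat_lit 490)) (lo18_16_2 (nat_lit 520)))))))))) (B (M (nat_lit 524) (B (lo112_17_7 (nat_lit 556)) (M (nat_lit 525) (B (lo112_13_4 (nat_lit 557)) (M (nat_lit 490) (B (lo19_15_0 (nat_lit 489)) (M (nat_lit 526) (B (lo115_16_3 (nat_lit 527)) (lo114_16_3 (nat_lit 523)))))))))) (M (nat_lit 523) (B (M (nat_lit 426) (B (lo111_16_7 (nat_lit 394)) (M (nat_lit 425) (B (lo19_13_0 (nat_lit 461)) (lo18_13_0 (nat_lit 424)))))) (M (nat_lit 524) (B (lo112_17_7 (nat_lit 556)) (M (nat_lit 522) (B (lo111_13_5 (nat_lit 554)) (M (nat_lit 493) (B (lo114_15_1 (nat_lit 494)) (lo19_16_2 (nat_lit 521))))))))))))))) (M (nat_lit 490) (B (M (nat_lit 461) (B (lo114_14_1 (nat_lit 462)) (M (nat_lit 489) (B (lo113_14_1 (nat_lit 458)) (lo18_15_2 (nat_lit 488)))))) (B (M (nat_lit 489) (B (lo18_15_2 (nat_lit 488)) (M (nat_lit 461) (B (lo19_15_2 (nat_lit 492)) (lo113_14_1 (nat_lit 458)))))) (B (M (nat_lit 489) (B (lo18_15_2 (nat_lit 488)) (M (nat_lit 492) (B (M (nat_lit 524) (B (lo19_15_0 (nat_lit 525)) (lo112_17_7 (nat_lit 556)))) (M (nat_lit 493) (B (M (nat_lit 494) (B (lo115_15_3 (nat_lit 495)) (lo114_15_3 (nat_lit 458)))) (B (M (nat_lit 458) (B (lo114_15_3 (nat_lit 494)) (lo19_14_0 (nat_lit 457)))) (B (M (nat_lit 457) (B (lo19_14_0 (nat_lit 458)) (lo112_15_3 (nat_lit 456)))) (M (nat_lit 521) (B (lo113_15_1 (nat_lit 522)) (lo112_15_1 (nat_lit 520)))))))))))) (B (M (nat_lit 489) (B (lo18_15_2 (nat_lit 488)) (M (nat_lit 461) (B (lo114_14_1 (nat_lit 462)) (lo19_15_2 (nat_lit 492)))))) (M (nat_lit 493) (B (M (nat_lit 461) (B (lo114_14_1 (nat_lit 462)) (M (nat_lit 458) (B (lo110_14_0 (nat_lit 494)) (M (nat_lit 457) (B (lo19_14_0 (nat_lit 492)) (lo18_14_2 (nat_lit 456)))))))) (B (M (nat_lit 492) (B (M (nat_lit 461) (B (lo110_15_2 (nat_lit 462)) (M (nat_lit 525) (B (lo110_15_0 (nat_lit 526)) (lo113_17_7 (nat_lit 557)))))) (M (nat_lit 458) (B (lo19_14_0 (nat_lit 457)) (M (nat_lit 522) (B (lo113_15_1 (nat_lit 521)) (lo110_17_6 (nat_lit 554)))))))) (B (M (nat_lit 458) (B (M (nat_lit 494) (B (lo110_14_0 (nat_lit 461)) (lo114_15_3 (nat_lit 492)))) (B (M (nat_lit 457) (B (lo19_14_0 (nat_lit 492)) (lo18_14_2 (nat_lit 456)))) (M (nat_lit 425) (B (M (nat_lit 461) (B (lo110_14_0 (nat_lit 494)) (lo19_13_0 (nat_lit 426)))) (B (M (nat_lit 426) (B (lo19_13_0 (nat_lit 461)) (lo18_13_0 (nat_lit 424)))) (M (nat_lit 457) (B (lo112_14_3 (nat_lit 424)) (lo18_14_2 (nat_lit 456)))))))))) (B (M (nat_lit 492) (B (M (nat_lit 494) (B (lo115_15_3 (nat_lit 495)) (lo114_15_3 (nat_lit 458)))) (B (M (nat_lit 458) (B (lo114_15_3 (nat_lit 494)) (lo19_14_0 (nat_lit 457)))) (B (M (nat_lit 458) (B (lo19_14_0 (nat_lit 457)) (M (nat_lit 522) (B (lo113_15_1 (nat_lit 521)) (lo110_17_6 (nat_lit 554)))))) (M (nat_lit 526) (B (lo110_15_0 (nat_lit 525)) (M (nat_lit 494) (B (lo111_15_0 (nat_lit 527)) (lo115_15_3 (nat_lit 495)))))))))) (B (M (nat_lit 425) (B (M (nat_lit 461) (B (lo114_14_1 (nat_lit 462)) (lo19_13_0 (nat_lit 426)))) (B (M (nat_lit 426) (B (lo19_13_0 (nat_lit 461)) (lo18_13_0 (nat_lit 424)))) (B (M (nat_lit 457) (B (M (nat_lit 424) (B (lo18_13_0 (nat_lit 426)) (lo112_14_3 (nat_lit 458)))) (B (M (nat_lit 426) (B (lo18_13_0 (nat_lit 424)) (lo112_13_1 (nat_lit 456)))) (B (M (nat_lit 458) (B (lo112_14_3 (nat_lit 424)) (lo18_14_2 (nat_lit 456)))) (M (nat_lit 456) (B (lo18_14_2 (nat_lit 458)) (lo112_13_1 (nat_lit 426)))))))) (M (nat_lit 458) (B (M (nat_lit 461) (B (lo110_14_0 (nat_lit 494)) (lo114_14_1 (nat_lit 462)))) (M (nat_lit 457) (B (lo112_14_3 (nat_lit 424)) (lo18_14_2 (nat_lit 456)))))))))) (M (nat_lit 492) (B (M (nat_lit 526) (B (lo110_15_0 (nat_lit 525)) (M (nat_lit 494) (B (lo111_15_0 (nat_lit 527)) (lo115_15_3 (nat_lit 495)))))) (B (M (nat_lit 462) (B (lo110_15_2 (nat_lit 461)) (M (nat_lit 494) (B (lo115_15_3 (nat_lit 495)) (lo111_15_2 (nat_lit 463)))))) (M (nat_lit 461) (B (lo110_15_2 (nat_lit 462)) (M (nat_lit 525) (B (lo110_15_0 (nat_lit 526)) (lo113_17_7 (nat_lit 557))))))))))))))))))))))))) (B (M (nat_lit 492) (B (M (nat_lit 524) (B (lo112_17_7 (nat_lit 556)) (lo112_16_7 (nat_lit 395)))) (B (M (nat_lit 395) (B (lo112_16_7 (nat_lit 524)) (lo111_11_4 (nat_lit 363)))) (B (M (nat_lit 491) (B (M (nat_lit 523) (B (lo111_17_6 (nat_lit 555)) (M (nat_lit 522) (B (lo111_13_5 (nat_lit 554)) (M (nat_lit 395) (B (lo111_12_5 (nat_lit 490)) (lo111_11_4 (nat_lit 363)))))))) (B (M (nat_lit 523) (B (lo111_17_6 (nat_lit 555)) (M (nat_lit 395) (B (lo111_11_4 (nat_lit 363)) (M (nat_lit 394) (B (lo111_16_7 (nat_lit 426)) (lo111_15_7 (nat_lit 362)))))))) (B (M (nat_lit 395) (B (lo111_11_4 (nat_lit 363)) (M (nat_lit 523) (B (M (nat_lit 522) (B (lo111_13_5 (nat_lit 554)) (lo111_12_5 (nat_lit 490)))) (M (nat_lit 394) (B (lo111_16_7 (nat_lit 426)) (lo111_15_7 (nat_lit 362)))))))) (B (M (nat_lit 490) (B (M (nat_lit 395) (B (lo111_12_5 (nat_lit 522)) (lo111_11_4 (nat_lit 363)))) (M (nat_lit 493) (B (M (nat_lit 458) (B (lo113_15_3 (nat_lit 457)) (lo114_15_3 (nat_lit 494)))) (B (M (nat_lit 489) (B (lo18_15_2 (nat_lit 488)) (M (nat_lit 457) (B (lo112_15_3 (nat_lit 456)) (lo113_15_3 (nat_lit 458)))))) (B (M (nat_lit 494) (B (lo114_15_3 (nat_lit 458)) (lo115_15_3 (nat_lit 495)))) (M (nat_lit 526) (B (lo110_15_0 (nat_lit 525)) (M (nat_lit 494) (B (lo111_15_0 (nat_lit 527)) (lo115_15_3 (nat_lit 495)))))))))))) (K _ _ _ o1_s24861)))))) (M (nat_lit 491) (B (M (nat_lit 524) (B (lo112_17_7 (nat_lit 556)) (M (nat_lit 525) (B (lo112_13_4 (nat_lit 557)) (M (nat_lit 526) (B (lo115_16_3 (nat_lit 527)) (M (nat_lit 490) (B (lo19_15_0 (nat_lit 489)) (lo110_15_0 (nat_lit 493)))))))))) (B (K _ _ _ o1_s24861) (B (M (nat_lit 524) (B (lo112_17_7 (nat_lit 556)) (M (nat_lit 523) (B (lo112_13_5 (nat_lit 555)) (M (nat_lit 522) (B (lo111_13_5 (nat_lit 554)) (M (nat_lit 521) (B (lo18_16_2 (nat_lit 520)) (lo19_16_2 (nat_lit 493)))))))))) (M (nat_lit 524) (B (lo112_17_7 (nat_lit 556)) (M (nat_lit 523) (B (lo112_13_5 (nat_lit 555)) (M (nat_lit 525) (B (lo112_13_4 (nat_lit 557)) (M (nat_lit 526) (B (lo114_16_3 (nat_lit 490)) (lo115_16_3 (nat_lit 527)))))))))))))))))) (B (K _ _ _ o1_s21372) (B (K _ _ _ o1_s21403) (B (K _ _ _ o1_s21428) (K _ _ _ o1_s21445)))))))) (B (M (nat_lit 492) (B (M (nat_lit 395) (B (lo112_16_7 (nat_lit 524)) (M (nat_lit 363) (B (lo111_11_4 (nat_lit 459)) (lo111_10_4 (nat_lit 331)))))) (B (M (nat_lit 395) (B (lo112_16_7 (nat_lit 524)) (M (nat_lit 363) (B (lo111_10_4 (nat_lit 331)) (lo112_15_7 (nat_lit 396)))))) (B (K _ _ _ o1_s22212) (M (nat_lit 491) (B (M (nat_lit 523) (B (lo112_12_5 (nat_lit 396)) (M (nat_lit 555) (B (lo111_18_6 (nat_lit 587)) (lo111_17_6 (nat_lit 459)))))) (B (M (nat_lit 396) (B (lo112_12_5 (nat_lit 523)) (M (nat_lit 363) (B (lo112_15_7 (nat_lit 395)) (M (nat_lit 364) (B (lo112_11_5 (nat_lit 459)) (lo112_14_7 (nat_lit 331)))))))) (B (M (nat_lit 493) (B (M (nat_lit 396) (B (lo112_12_4 (nat_lit 525)) (M (nat_lit 364) (B (lo112_11_5 (nat_lit 459)) (M (nat_lit 363) (B (lo112_15_7 (nat_lit 395)) (lo112_14_7 (nat_lit 331)))))))) (B (M (nat_lit 525) (B (lo112_12_4 (nat_lit 396)) (M (nat_lit 526) (B (lo110_15_0 (nat_lit 490)) (M (nat_lit 527) (B (lo111_15_0 (nat_lit 494)) (lo116_16_3 (nat_lit 528)))))))) (B (M (nat_lit 494) (B (M (nat_lit 459) (B (lo114_15_3 (nat_lit 458)) (lo115_15_3 (nat_lit 495)))) (B (M (nat_lit 495) (B (lo115_15_3 (nat_lit 459)) (M (nat_lit 527) (B (lo111_15_0 (nat_lit 526)) (lo112_15_0 (nat_lit 528)))))) (B (M (nat_lit 463) (B (lo111_15_2 (nat_lit 462)) (M (nat_lit 495) (B (lo112_15_2 (nat_lit 464)) (M (nat_lit 527) (B (lo111_15_0 (nat_lit 526)) (lo112_15_0 (nat_lit 528)))))))) (M (nat_lit 490) (B (M (nat_lit 458) (B (lo113_15_3 (nat_lit 457)) (lo114_15_3 (nat_lit 459)))) (M (nat_lit 526) (B (lo110_15_0 (nat_lit 525)) (lo111_15_0 (nat_lit 527)))))))))) (M (nat_lit 458) (B (M (nat_lit 457) (B (lo113_15_3 (nat_lit 490)) (lo19_14_0 (nat_lit 459)))) (B (M (nat_lit 494) (B (lo114_15_3 (nat_lit 459)) (M (nat_lit 495) (B (M (nat_lit 527) (B (lo111_15_0 (nat_lit 526)) (lo112_15_0 (nat_lit 528)))) (M (nat_lit 463) (B (lo111_15_2 (nat_lit 462)) (lo112_15_2 (nat_lit 464)))))))) (M (nat_lit 457) (B (lo113_15_3 (nat_lit 490)) (M (nat_lit 426) (B (lo113_13_1 (nat_lit 429)) (M (nat_lit 456) (B (lo17_14_2 (nat_lit 455)) (lo112_13_1 (nat_lit 425))))))))))))))) (B (K _ _ _ o1_s23878) (M (nat_lit 459) (B (M (nat_lit 523) (B (lo111_17_6 (nat_lit 555)) (M (nat_lit 522) (B (lo111_13_5 (nat_lit 554)) (M (nat_lit 395) (B (lo111_12_5 (nat_lit 490)) (lo111_11_4 (nat_lit 363)))))))) (B (M (nat_lit 457) (B (M (nat_lit 458) (B (lo18_14_0 (nat_lit 456)) (lo19_14_0 (nat_lit 493)))) (B (M (nat_lit 458) (B (lo19_14_0 (nat_lit 493)) (lo19_14_2 (nat_lit 429)))) (M (nat_lit 490) (B (M (nat_lit 489) (B (lo18_15_2 (nat_lit 488)) (lo112_15_3 (nat_lit 456)))) (M (nat_lit 395) (B (lo111_12_5 (nat_lit 522)) (lo111_11_4 (nat_lit 363))))))))) (M (nat_lit 457) (B (M (nat_lit 458) (B (lo18_14_0 (nat_lit 456)) (lo19_14_0 (nat_lit 493)))) (B (M (nat_lit 458) (B (lo19_14_0 (nat_lit 493)) (lo19_14_2 (nat_lit 429)))) (M (nat_lit 426) (B (M (nat_lit 425) (B (lo112_13_1 (nat_lit 456)) (lo18_13_0 (nat_lit 424)))) (M (nat_lit 523) (B (lo111_16_7 (nat_lit 394)) (lo111_17_6 (nat_lit 555))))))))))))))))))))) (B (K _ _ _ o1_s21937) (B (M (nat_lit 461) (B (K _ _ _ o1_s21729) (B (K _ _ _ o1_s21748) (M (nat_lit 462) (B (lo110_13_0 (nat_lit 426)) (lo115_14_3 (nat_lit 463))))))) (B (K _ _ _ o1_s22007) (B (K _ _ _ o1_s22099) (B (K _ _ _ o1_s22173) (B (K _ _ _ o1_s22210) (B (K _ _ _ o1_s22240) (B (K _ _ _ o1_s22291) (M (nat_lit 461) (B (M (nat_lit 426) (B (lo19_13_0 (nat_lit 425)) (lo110_13_0 (nat_lit 462)))) (B (M (nat_lit 462) (B (lo110_13_0 (nat_lit 426)) (lo115_14_3 (nat_lit 463)))) (B (M (nat_lit 462) (B (lo115_14_3 (nat_lit 463)) (M (nat_lit 459) (B (M (nat_lit 458) (B (lo19_14_2 (nat_lit 457)) (M (nat_lit 490) (B (lo113_14_1 (nat_lit 489)) (lo114_14_1 (nat_lit 491)))))) (B (M (nat_lit 458) (B (lo19_14_2 (nat_lit 457)) (M (nat_lit 494) (B (lo110_14_0 (nat_lit 493)) (lo111_14_0 (nat_lit 495)))))) (M (nat_lit 491) (B (lo114_14_1 (nat_lit 490)) (M (nat_lit 396) (B (lo111_16_6 (nat_lit 523)) (lo112_11_5 (nat_lit 364))))))))))) (K _ _ _ o1_s21748)))))))))))))))) (B (M (nat_lit 395) (B (M (nat_lit 363) (B (M (nat_lit 331) (B (M (nat_lit 330) (B (lo111_13_7 (nat_lit 298)) (M (nat_lit 459) (B (lo111_14_7 (nat_lit 362)) (M (nat_lit 332) (B (lo111_13_6 (nat_lit 300)) (lo111_14_6 (nat_lit 364)))))))) (B (M (nat_lit 459) (B (M (nat_lit 330) (B (lo111_13_7 (nat_lit 298)) (lo111_14_7 (nat_lit 362)))) (M (nat_lit 460) (B (lo111_10_4 (nat_lit 428)) (lo111_11_4 (nat_lit 492)))))) (B (M (nat_lit 459) (B (M (nat_lit 332) (B (lo111_13_6 (nat_lit 300)) (lo111_14_6 (nat_lit 364)))) (M (nat_lit 460) (B (lo111_10_4 (nat_lit 428)) (lo111_11_4 (nat_lit 492)))))) (M (nat_lit 299) (B (M (nat_lit 300) (B (lo111_12_6 (nat_lit 268)) (lo111_13_6 (nat_lit 332)))) (lo111_9_4 (nat_lit 396)))))))) (B (M (nat_lit 331) (B (M (nat_lit 330) (B (lo111_13_7 (nat_lit 298)) (M (nat_lit 459) (B (lo111_14_7 (nat_lit 362)) (M (nat_lit 332) (B (lo111_13_6 (nat_lit 300)) (lo111_14_6 (nat_lit 364)))))))) (B (M (nat_lit 459) (B (M (nat_lit 330) (B (lo111_13_7 (nat_lit 298)) (lo111_14_7 (nat_lit 362)))) (M (nat_lit 460) (B (lo111_10_4 (nat_lit 428)) (lo111_11_4 (nat_lit 492)))))) (B (M (nat_lit 459) (B (M (nat_lit 332) (B (lo111_13_6 (nat_lit 300)) (lo111_14_6 (nat_lit 364)))) (M (nat_lit 460) (B (lo111_10_4 (nat_lit 428)) (lo111_11_4 (nat_lit 492)))))) (M (nat_lit 298) (B (lo111_13_7 (nat_lit 330)) (M (nat_lit 299) (B (lo111_12_7 (nat_lit 266)) (lo111_9_4 (nat_lit 396)))))))))) (B (M (nat_lit 459) (B (M (nat_lit 491) (B (M (nat_lit 364) (B (lo111_14_6 (nat_lit 332)) (lo111_15_6 (nat_lit 396)))) (M (nat_lit 362) (B (lo111_14_7 (nat_lit 330)) (lo111_15_7 (nat_lit 394)))))) (B (M (nat_lit 491) (B (M (nat_lit 362) (B (lo111_14_7 (nat_lit 330)) (lo111_15_7 (nat_lit 394)))) (M (nat_lit 492) (B (lo111_11_4 (nat_lit 460)) (lo111_12_4 (nat_lit 524)))))) (B (M (nat_lit 491) (B (M (nat_lit 364) (B (lo111_14_6 (nat_lit 332)) (lo111_15_6 (nat_lit 396)))) (M (nat_lit 492) (B (lo111_11_4 (nat_lit 460)) (lo111_12_4 (nat_lit 524)))))) (M (nat_lit 331) (B (M (nat_lit 330) (B (lo111_13_7 (nat_lit 298)) (lo111_14_7 (nat_lit 362)))) (M (nat_lit 460) (B (lo111_10_4 (nat_lit 428)) (lo111_11_4 (nat_lit 492)))))))))) (B (M (nat_lit 459) (B (M (nat_lit 491) (B (M (nat_lit 364) (B (lo111_14_6 (nat_lit 332)) (lo111_15_6 (nat_lit 396)))) (M (nat_lit 362) (B (lo111_14_7 (nat_lit 330)) (lo111_15_7 (nat_lit 394)))))) (B (M (nat_lit 491) (B (M (nat_lit 362) (B (lo111_14_7 (nat_lit 330)) (lo111_15_7 (nat_lit 394)))) (M (nat_lit 492) (B (lo111_11_4 (nat_lit 460)) (lo111_12_4 (nat_lit 524)))))) (B (M (nat_lit 491) (B (M (nat_lit 364) (B (lo111_14_6 (nat_lit 332)) (lo111_15_6 (nat_lit 396)))) (M (nat_lit 492) (B (lo111_11_4 (nat_lit 460)) (lo111_12_4 (nat_lit 524)))))) (M (nat_lit 460) (B (lo111_11_4 (nat_lit 492)) (M (nat_lit 332) (B (lo111_14_6 (nat_lit 364)) (M (nat_lit 331) (B (lo111_13_6 (nat_lit 300)) (lo111_10_4 (nat_lit 428)))))))))))) (B (M (nat_lit 331) (B (M (nat_lit 298) (B (lo111_13_7 (nat_lit 330)) (M (nat_lit 299) (B (lo111_12_7 (nat_lit 266)) (lo111_9_4 (nat_lit 396)))))) (B (M (nat_lit 459) (B (M (nat_lit 330) (B (lo111_13_7 (nat_lit 298)) (lo111_14_7 (nat_lit 362)))) (M (nat_lit 460) (B (lo111_10_4 (nat_lit 428)) (lo111_11_4 (nat_lit 492)))))) (B (M (nat_lit 299) (B (lo111_9_4 (nat_lit 396)) (M (nat_lit 267) (B (M (nat_lit 268) (B (lo111_11_6 (nat_lit 236)) (lo111_12_6 (nat_lit 300)))) (M (nat_lit 394) (B (lo111_8_5 (nat_lit 362)) (lo111_9_5 (nat_lit 426)))))))) (M (nat_lit 299) (B (M (nat_lit 298) (B (lo111_12_7 (nat_lit 266)) (lo111_13_7 (nat_lit 330)))) (M (nat_lit 267) (B (M (nat_lit 268) (B (lo111_11_6 (nat_lit 236)) (lo111_12_6 (nat_lit 300)))) (M (nat_lit 394) (B (lo111_8_5 (nat_lit 362)) (lo111_9_5 (nat_lit 426)))))))))))) (B (M (nat_lit 364) (B (M (nat_lit 332) (B (lo111_14_6 (nat_lit 459)) (M (nat_lit 300) (B (lo112_8_5 (nat_lit 268)) (lo112_9_5 (nat_lit 396)))))) (B (M (nat_lit 459) (B (lo111_14_6 (nat_lit 332)) (M (nat_lit 491) (B (lo111_15_6 (nat_lit 396)) (M (nat_lit 492) (B (lo111_11_4 (nat_lit 460)) (lo111_12_4 (nat_lit 524)))))))) (B (M (nat_lit 362) (B (M (nat_lit 459) (B (lo111_14_7 (nat_lit 330)) (M (nat_lit 491) (B (lo111_15_6 (nat_lit 396)) (lo111_15_7 (nat_lit 394)))))) (B (M (nat_lit 365) (B (M (nat_lit 394) (B (lo114_11_1 (nat_lit 366)) (lo113_11_1 (nat_lit 393)))) (B (M (nat_lit 361) (B (M (nat_lit 393) (B (lo113_11_1 (nat_lit 394)) (lo112_11_1 (nat_lit 392)))) (M (nat_lit 360) (B (lo18_11_0 (nat_lit 396)) (M (nat_lit 328) (B (lo112_11_3 (nat_lit 329)) (lo111_11_3 (nat_lit 327)))))))) (K _ _ _ o1_s24982)))) (B (M (nat_lit 365) (B (M (nat_lit 330) (B (lo113_11_3 (nat_lit 329)) (lo111_14_7 (nat_lit 459)))) (M (nat_lit 394) (B (lo114_11_1 (nat_lit 366)) (lo113_11_1 (nat_lit 393)))))) (M (nat_lit 459) (B (lo111_14_7 (nat_lit 330)) (M (nat_lit 492) (B (lo111_11_4 (nat_lit 460)) (M (nat_lit 491) (B (lo111_15_6 (nat_lit 396)) (lo111_12_4 (nat_lit 524)))))))))))) (B (M (nat_lit 459) (B (lo111_14_6 (nat_lit 332)) (M (nat_lit 491) (B (M (nat_lit 362) (B (lo111_14_7 (nat_lit 330)) (lo111_15_7 (nat_lit 394)))) (M (nat_lit 492) (B (lo111_11_4 (nat_lit 460)) (lo111_12_4 (nat_lit 524)))))))) (M (nat_lit 365) (B (M (nat_lit 394) (B (lo114_11_1 (nat_lit 366)) (M (nat_lit 393) (B (lo113_11_1 (nat_lit 362)) (lo19_12_2 (nat_lit 396)))))) (B (M (nat_lit 362) (B (M (nat_lit 330) (B (lo113_11_3 (nat_lit 329)) (M (nat_lit 394) (B (lo110_9_4 (nat_lit 298)) (lo113_11_1 (nat_lit 393)))))) (B (M (nat_lit 361) (B (M (nat_lit 333) (B (lo110_11_2 (nat_lit 334)) (lo19_11_2 (nat_lit 332)))) (M (nat_lit 393) (B (lo113_11_1 (nat_lit 394)) (lo112_11_1 (nat_lit 392)))))) (M (nat_lit 361) (B (M (nat_lit 333) (B (lo110_11_2 (nat_lit 334)) (lo19_11_2 (nat_lit 332)))) (M (nat_lit 329) (B (lo113_11_3 (nat_lit 330)) (lo112_11_3 (nat_lit 328))))))))) (B (M (nat_lit 394) (B (lo114_11_1 (nat_lit 366)) (M (nat_lit 393) (B (lo19_12_2 (nat_lit 396)) (lo18_12_2 (nat_lit 392)))))) (B (M (nat_lit 362) (B (M (nat_lit 361) (B (M (nat_lit 333) (B (lo110_11_2 (nat_lit 334)) (lo19_11_2 (nat_lit 332)))) (M (nat_lit 329) (B (lo113_11_3 (nat_lit 330)) (lo112_11_3 (nat_lit 328)))))) (B (M (nat_lit 361) (B (M (nat_lit 329) (B (lo113_11_3 (nat_lit 330)) (lo112_11_3 (nat_lit 328)))) (M (nat_lit 360) (B (lo18_11_0 (nat_lit 396)) (M (nat_lit 392) (B (lo112_11_1 (nat_lit 393)) (lo111_11_1 (nat_lit 391)))))))) (B (M (nat_lit 361) (B (M (nat_lit 333) (B (lo110_11_2 (nat_lit 334)) (lo19_11_2 (nat_lit 332)))) (M (nat_lit 360) (B (lo18_11_0 (nat_lit 396)) (M (nat_lit 392) (B (lo112_11_1 (nat_lit 393)) (lo111_11_1 (nat_lit 391)))))))) (K _ _ _ o1_s24982))))) (M (nat_lit 366) (B (lo114_11_1 (nat_lit 394)) (M (nat_lit 367) (B (lo115_11_1 (nat_lit 396)) (M (nat_lit 399) (B (lo112_11_0 (nat_lit 400)) (lo111_11_0 (nat_lit 398)))))))))))))))))) (B (M (nat_lit 331) (B (M (nat_lit 299) (B (M (nat_lit 300) (B (lo111_12_6 (nat_lit 268)) (lo111_13_6 (nat_lit 332)))) (lo111_9_4 (nat_lit 396)))) (B (M (nat_lit 459) (B (M (nat_lit 332) (B (lo111_13_6 (nat_lit 300)) (lo111_14_6 (nat_lit 364)))) (M (nat_lit 460) (B (lo111_10_4 (nat_lit 428)) (lo111_11_4 (nat_lit 492)))))) (B (M (nat_lit 299) (B (lo111_9_4 (nat_lit 396)) (M (nat_lit 267) (B (M (nat_lit 266) (B (lo111_11_7 (nat_lit 234)) (lo111_12_7 (nat_lit 298)))) (M (nat_lit 394) (B (lo111_8_5 (nat_lit 362)) (lo111_9_5 (nat_lit 426)))))))) (M (nat_lit 299) (B (M (nat_lit 300) (B (lo111_12_6 (nat_lit 268)) (lo111_13_6 (nat_lit 332)))) (M (nat_lit 267) (B (M (nat_lit 266) (B (lo111_11_7 (nat_lit 234)) (lo111_12_7 (nat_lit 298)))) (M (nat_lit 394) (B (lo111_8_5 (nat_lit 362)) (lo111_9_5 (nat_lit 426)))))))))))) (B (M (nat_lit 331) (B (M (nat_lit 298) (B (lo111_13_7 (nat_lit 330)) (M (nat_lit 299) (B (lo111_12_7 (nat_lit 266)) (lo111_9_4 (nat_lit 396)))))) (B (M (nat_lit 299) (B (M (nat_lit 300) (B (lo111_12_6 (nat_lit 268)) (lo111_13_6 (nat_lit 332)))) (lo111_9_4 (nat_lit 396)))) (B (M (nat_lit 459) (B (M (nat_lit 332) (B (lo111_13_6 (nat_lit 300)) (lo111_14_6 (nat_lit 364)))) (M (nat_lit 460) (B (lo111_10_4 (nat_lit 428)) (lo111_11_4 (nat_lit 492)))))) (M (nat_lit 299) (B (M (nat_lit 300) (B (lo111_12_6 (nat_lit 268)) (lo111_13_6 (nat_lit 332)))) (M (nat_lit 298) (B (lo111_12_7 (nat_lit 266)) (lo111_13_7 (nat_lit 330)))))))))) (B (M (nat_lit 331) (B (M (nat_lit 330) (B (lo111_13_7 (nat_lit 298)) (M (nat_lit 459) (B (lo111_14_7 (nat_lit 362)) (M (nat_lit 332) (B (lo111_13_6 (nat_lit 300)) (lo111_14_6 (nat_lit 364)))))))) (B (M (nat_lit 459) (B (M (nat_lit 330) (B (lo111_13_7 (nat_lit 298)) (lo111_14_7 (nat_lit 362)))) (M (nat_lit 460) (B (lo111_10_4 (nat_lit 428)) (lo111_11_4 (nat_lit 492)))))) (B (M (nat_lit 459) (B (M (nat_lit 332) (B (lo111_13_6 (nat_lit 300)) (lo111_14_6 (nat_lit 364)))) (M (nat_lit 460) (B (lo111_10_4 (nat_lit 428)) (lo111_11_4 (nat_lit 492)))))) (M (nat_lit 299) (B (M (nat_lit 300) (B (lo111_12_6 (nat_lit 268)) (lo111_13_6 (nat_lit 332)))) (M (nat_lit 298) (B (lo111_12_7 (nat_lit 266)) (lo111_13_7 (nat_lit 330)))))))))) (B (M (nat_lit 331) (B (M (nat_lit 299) (B (M (nat_lit 300) (B (lo111_12_6 (nat_lit 268)) (lo111_13_6 (nat_lit 332)))) (M (nat_lit 298) (B (lo111_12_7 (nat_lit 266)) (lo111_13_7 (nat_lit 330)))))) (B (M (nat_lit 330) (B (lo111_13_7 (nat_lit 298)) (M (nat_lit 459) (B (lo111_14_7 (nat_lit 362)) (M (nat_lit 332) (B (lo111_13_6 (nat_lit 300)) (lo111_14_6 (nat_lit 364)))))))) (B (M (nat_lit 299) (B (M (nat_lit 298) (B (lo111_12_7 (nat_lit 266)) (lo111_13_7 (nat_lit 330)))) (M (nat_lit 267) (B (M (nat_lit 396) (B (lo111_8_4 (nat_lit 364)) (lo111_9_4 (nat_lit 428)))) (M (nat_lit 394) (B (lo111_8_5 (nat_lit 362)) (lo111_9_5 (nat_lit 426)))))))) (M (nat_lit 299) (B (M (nat_lit 300) (B (lo111_12_6 (nat_lit 268)) (lo111_13_6 (nat_lit 332)))) (M (nat_lit 267) (B (M (nat_lit 396) (B (lo111_8_4 (nat_lit 364)) (lo111_9_4 (nat_lit 428)))) (M (nat_lit 394) (B (lo111_8_5 (nat_lit 362)) (lo111_9_5 (nat_lit 426)))))))))))) (M (nat_lit 331) (B (M (nat_lit 299) (B (M (nat_lit 300) (B (lo111_12_6 (nat_lit 268)) (lo111_13_6 (nat_lit 332)))) (lo111_9_4 (nat_lit 396)))) (B (M (nat_lit 298) (B (lo111_13_7 (nat_lit 330)) (M (nat_lit 299) (B (lo111_12_7 (nat_lit 266)) (lo111_9_4 (nat_lit 396)))))) (M (nat_lit 332) (B (lo111_13_6 (nat_lit 300)) (M (nat_lit 330) (B (lo111_13_7 (nat_lit 298)) (M (nat_lit 333) (B (M (nat_lit 362) (B (lo114_10_1 (nat_lit 334)) (lo113_10_1 (nat_lit 361)))) (B (M (nat_lit 329) (B (M (nat_lit 365) (B (lo110_10_0 (nat_lit 366)) (lo19_10_0 (nat_lit 364)))) (M (nat_lit 361) (B (lo113_10_1 (nat_lit 362)) (lo112_10_1 (nat_lit 360)))))) (M (nat_lit 334) (B (M (nat_lit 302) (B (lo111_10_2 (nat_lit 303)) (lo110_10_2 (nat_lit 301)))) (M (nat_lit 366) (B (lo111_10_0 (nat_lit 367)) (lo110_10_0 (nat_lit 365))))))))))))))))))))))))))) (B (M (nat_lit 426) (B (M (nat_lit 393) (B (lo113_13_3 (nat_lit 394)) (M (nat_lit 425) (B (lo112_13_3 (nat_lit 392)) (M (nat_lit 457) (B (lo112_13_1 (nat_lit 456)) (lo113_13_1 (nat_lit 458)))))))) (B (M (nat_lit 425) (B (M (nat_lit 393) (B (lo112_13_3 (nat_lit 392)) (lo113_13_3 (nat_lit 394)))) (B (M (nat_lit 394) (B (lo113_13_3 (nat_lit 393)) (M (nat_lit 424) (B (lo17_13_2 (nat_lit 423)) (lo18_13_2 (nat_lit 396)))))) (B (M (nat_lit 424) (B (lo18_13_2 (nat_lit 396)) (M (nat_lit 423) (B (lo17_13_2 (nat_lit 394)) (M (nat_lit 458) (B (lo17_13_0 (nat_lit 459)) (lo113_13_1 (nat_lit 457)))))))) (M (nat_lit 424) (B (lo18_13_2 (nat_lit 396)) (M (nat_lit 392) (B (lo111_13_3 (nat_lit 391)) (lo112_13_3 (nat_lit 393)))))))))) (B (M (nat_lit 394) (B (lo113_13_3 (nat_lit 393)) (M (nat_lit 425) (B (M (nat_lit 457) (B (lo112_13_1 (nat_lit 456)) (lo113_13_1 (nat_lit 458)))) (M (nat_lit 424) (B (lo17_13_2 (nat_lit 423)) (lo18_13_2 (nat_lit 396)))))))) (B (K _ _ _ o1_s9725) (B (M (nat_lit 394) (B (lo113_13_3 (nat_lit 393)) (M (nat_lit 458) (B (lo113_13_1 (nat_lit 457)) (M (nat_lit 362) (B (M (nat_lit 459) (B (lo110_11_4 (nat_lit 491)) (lo110_10_4 (nat_lit 330)))) (B (M (nat_lit 491) (B (lo110_11_4 (nat_lit 459)) (M (nat_lit 490) (B (lo110_16_6 (nat_lit 522)) (lo110_12_4 (nat_lit 523)))))) (B (M (nat_lit 330) (B (lo110_10_4 (nat_lit 459)) (lo110_9_4 (nat_lit 298)))) (M (nat_lit 329) (B (lo110_14_7 (nat_lit 361)) (M (nat_lit 330) (B (lo110_13_7 (nat_lit 297)) (lo110_9_4 (nat_lit 298)))))))))))))) (B (M (nat_lit 425) (B (M (nat_lit 457) (B (lo112_13_1 (nat_lit 456)) (lo113_13_1 (nat_lit 458)))) (B (M (nat_lit 424) (B (lo18_13_2 (nat_lit 396)) (M (nat_lit 423) (B (lo17_13_2 (nat_lit 394)) (M (nat_lit 458) (B (lo17_13_0 (nat_lit 459)) (lo113_13_1 (nat_lit 457)))))))) (M (nat_lit 424) (B (lo18_13_2 (nat_lit 396)) (M (nat_lit 423) (B (lo17_13_2 (nat_lit 394)) (M (nat_lit 455) (B (lo110_13_1 (nat_lit 454)) (lo111_13_1 (nat_lit 456))))))))))) (K _ _ _ o1_s25072)))))))) (B (M (nat_lit 363) (B (M (nat_lit 460) (B (lo111_10_4 (nat_lit 331)) (M (nat_lit 492) (B (lo112_16_7 (nat_lit 524)) (lo112_15_7 (nat_lit 396)))))) (B (M (nat_lit 460) (B (lo111_10_4 (nat_lit 331)) (M (nat_lit 492) (B (lo111_11_4 (nat_lit 459)) (lo112_15_7 (nat_lit 396)))))) (B (M (nat_lit 331) (B (lo111_10_4 (nat_lit 460)) (M (nat_lit 299) (B (lo111_9_4 (nat_lit 396)) (M (nat_lit 298) (B (lo111_13_7 (nat_lit 330)) (lo111_12_7 (nat_lit 266)))))))) (B (M (nat_lit 331) (B (M (nat_lit 299) (B (lo111_9_4 (nat_lit 396)) (M (nat_lit 298) (B (lo111_13_7 (nat_lit 330)) (lo111_12_7 (nat_lit 266)))))) (B (M (nat_lit 459) (B (M (nat_lit 332) (B (lo111_14_6 (nat_lit 364)) (lo111_13_6 (nat_lit 300)))) (M (nat_lit 330) (B (lo111_14_7 (nat_lit 362)) (lo111_13_7 (nat_lit 298)))))) (M (nat_lit 459) (B (M (nat_lit 332) (B (lo111_14_6 (nat_lit 364)) (lo111_13_6 (nat_lit 300)))) (M (nat_lit 491) (B (M (nat_lit 396) (B (lo111_16_6 (nat_lit 523)) (lo111_9_4 (nat_lit 299)))) (M (nat_lit 490) (B (lo111_12_5 (nat_lit 522)) (lo111_11_5 (nat_lit 458))))))))))) (B (M (nat_lit 460) (B (lo111_10_4 (nat_lit 331)) (M (nat_lit 492) (B (lo112_16_7 (nat_lit 524)) (lo111_11_4 (nat_lit 459)))))) (M (nat_lit 459) (B (M (nat_lit 492) (B (lo111_11_4 (nat_lit 460)) (M (nat_lit 491) (B (lo111_12_4 (nat_lit 524)) (M (nat_lit 490) (B (lo111_12_5 (nat_lit 522)) (lo111_11_5 (nat_lit 458)))))))) (B (M (nat_lit 491) (B (M (nat_lit 490) (B (lo111_12_5 (nat_lit 522)) (lo111_11_5 (nat_lit 458)))) (M (nat_lit 396) (B (lo111_16_6 (nat_lit 523)) (lo111_15_6 (nat_lit 364)))))) (B (M (nat_lit 491) (B (M (nat_lit 492) (B (lo111_12_4 (nat_lit 524)) (lo111_11_4 (nat_lit 460)))) (M (nat_lit 396) (B (lo111_16_6 (nat_lit 523)) (lo111_15_6 (nat_lit 364)))))) (M (nat_lit 460) (B (lo111_11_4 (nat_lit 492)) (M (nat_lit 458) (B (lo111_11_5 (nat_lit 490)) (M (nat_lit 457) (B (lo19_14_2 (nat_lit 429)) (lo18_14_2 (nat_lit 456)))))))))))))))))) (B (M (nat_lit 363) (B (M (nat_lit 460) (B (lo111_10_4 (nat_lit 331)) (M (nat_lit 492) (B (lo112_16_7 (nat_lit 524)) (lo111_11_4 (nat_lit 459)))))) (B (M (nat_lit 331) (B (lo111_10_4 (nat_lit 460)) (M (nat_lit 459) (B (M (nat_lit 458) (B (lo111_11_5 (nat_lit 490)) (lo111_10_5 (nat_lit 426)))) (M (nat_lit 330) (B (lo111_14_7 (nat_lit 362)) (lo111_13_7 (nat_lit 298)))))))) (B (M (nat_lit 459) (B (M (nat_lit 331) (B (M (nat_lit 332) (B (lo111_14_6 (nat_lit 364)) (lo111_13_6 (nat_lit 300)))) (M (nat_lit 458) (B (lo111_11_5 (nat_lit 490)) (lo111_10_5 (nat_lit 426)))))) (B (M (nat_lit 331) (B (M (nat_lit 458) (B (lo111_11_5 (nat_lit 490)) (lo111_10_5 (nat_lit 426)))) (M (nat_lit 330) (B (lo111_14_7 (nat_lit 362)) (lo111_13_7 (nat_lit 298)))))) (B (M (nat_lit 491) (B (M (nat_lit 490) (B (lo111_12_5 (nat_lit 522)) (lo111_11_5 (nat_lit 458)))) (M (nat_lit 362) (B (lo111_15_7 (nat_lit 394)) (lo111_14_7 (nat_lit 330)))))) (M (nat_lit 331) (B (M (nat_lit 332) (B (lo111_14_6 (nat_lit 364)) (lo111_13_6 (nat_lit 300)))) (M (nat_lit 330) (B (lo111_14_7 (nat_lit 362)) (lo111_13_7 (nat_lit 298)))))))))) (B (M (nat_lit 331) (B (lo111_10_4 (nat_lit 460)) (M (nat_lit 299) (B (M (nat_lit 300) (B (lo111_13_6 (nat_lit 332)) (lo111_12_6 (nat_lit 268)))) (M (nat_lit 426) (B (lo111_10_5 (nat_lit 458)) (lo111_9_5 (nat_lit 394)))))))) (M (nat_lit 459) (B (M (nat_lit 491) (B (M (nat_lit 490) (B (lo111_12_5 (nat_lit 522)) (lo111_11_5 (nat_lit 458)))) (M (nat_lit 362) (B (lo111_15_7 (nat_lit 394)) (lo111_14_7 (nat_lit 330)))))) (B (M (nat_lit 460) (B (lo111_11_4 (nat_lit 492)) (M (nat_lit 458) (B (lo111_11_5 (nat_lit 490)) (M (nat_lit 457) (B (lo19_14_2 (nat_lit 429)) (lo18_14_2 (nat_lit 456)))))))) (M (nat_lit 491) (B (M (nat_lit 492) (B (lo111_12_4 (nat_lit 524)) (lo111_11_4 (nat_lit 460)))) (M (nat_lit 362) (B (lo111_15_7 (nat_lit 394)) (lo111_14_7 (nat_lit 330)))))))))))))) (M (nat_lit 426) (B (M (nat_lit 393) (B (lo113_13_3 (nat_lit 394)) (M (nat_lit 425) (B (lo112_13_3 (nat_lit 392)) (M (nat_lit 457) (B (lo112_13_1 (nat_lit 456)) (lo113_13_1 (nat_lit 458)))))))) (B (M (nat_lit 394) (B (lo113_13_3 (nat_lit 393)) (M (nat_lit 458) (B (lo113_13_1 (nat_lit 457)) (M (nat_lit 363) (B (lo110_15_6 (nat_lit 490)) (lo111_10_5 (nat_lit 331)))))))) (B (K _ _ _ o1_s9725) (B (M (nat_lit 425) (B (M (nat_lit 457) (B (lo112_13_1 (nat_lit 456)) (lo113_13_1 (nat_lit 458)))) (M (nat_lit 424) (B (lo18_13_2 (nat_lit 396)) (M (nat_lit 423) (B (lo17_13_2 (nat_lit 394)) (M (nat_lit 391) (B (lo110_13_3 (nat_lit 390)) (lo111_13_3 (nat_lit 392)))))))))) (K _ _ _ o1_s25072))))))))))) (B (M (nat_lit 426) (B (M (nat_lit 425) (B (M (nat_lit 461) (B (lo110_13_0 (nat_lit 462)) (lo19_13_0 (nat_lit 460)))) (B (M (nat_lit 424) (B (M (nat_lit 460) (B (lo19_13_0 (nat_lit 461)) (lo18_13_0 (nat_lit 459)))) (M (nat_lit 392) (B (lo112_13_3 (nat_lit 393)) (lo111_13_3 (nat_lit 391)))))) (B (M (nat_lit 424) (B (M (nat_lit 392) (B (lo112_13_3 (nat_lit 393)) (lo111_13_3 (nat_lit 391)))) (M (nat_lit 423) (B (M (nat_lit 459) (B (lo18_13_0 (nat_lit 460)) (lo17_13_0 (nat_lit 458)))) (M (nat_lit 455) (B (lo111_13_1 (nat_lit 456)) (lo110_13_1 (nat_lit 454)))))))) (B (M (nat_lit 393) (B (lo112_13_3 (nat_lit 392)) (M (nat_lit 394) (B (lo113_13_3 (nat_lit 429)) (M (nat_lit 458) (B (M (nat_lit 490) (B (lo110_15_7 (nat_lit 361)) (lo110_16_7 (nat_lit 522)))) (B (M (nat_lit 362) (B (M (nat_lit 459) (B (lo110_10_4 (nat_lit 330)) (lo110_11_4 (nat_lit 491)))) (B (M (nat_lit 330) (B (lo110_9_5 (nat_lit 298)) (M (nat_lit 331) (B (lo110_13_6 (nat_lit 299)) (lo110_14_6 (nat_lit 363)))))) (M (nat_lit 363) (B (lo110_14_6 (nat_lit 331)) (M (nat_lit 364) (B (lo113_11_1 (nat_lit 365)) (M (nat_lit 332) (B (M (nat_lit 361) (B (lo19_11_2 (nat_lit 333)) (lo110_14_7 (nat_lit 329)))) (M (nat_lit 459) (B (lo112_10_5 (nat_lit 396)) (lo110_11_4 (nat_lit 491))))))))))))) (M (nat_lit 362) (B (M (nat_lit 459) (B (lo110_10_4 (nat_lit 330)) (lo110_11_4 (nat_lit 491)))) (B (M (nat_lit 330) (B (lo110_9_5 (nat_lit 298)) (M (nat_lit 331) (B (lo110_13_6 (nat_lit 299)) (lo110_14_6 (nat_lit 363)))))) (M (nat_lit 491) (B (lo110_11_4 (nat_lit 459)) (M (nat_lit 490) (B (lo110_12_4 (nat_lit 523)) (lo110_16_7 (nat_lit 522)))))))))))))))) (B (M (nat_lit 460) (B (lo19_13_0 (nat_lit 461)) (M (nat_lit 424) (B (lo18_13_0 (nat_lit 459)) (M (nat_lit 423) (B (M (nat_lit 391) (B (lo111_13_3 (nat_lit 392)) (lo110_13_3 (nat_lit 390)))) (M (nat_lit 455) (B (lo111_13_1 (nat_lit 456)) (lo110_13_1 (nat_lit 454)))))))))) (M (nat_lit 460) (B (lo19_13_0 (nat_lit 461)) (M (nat_lit 459) (B (lo18_13_0 (nat_lit 424)) (M (nat_lit 492) (B (M (nat_lit 524) (B (lo112_17_7 (nat_lit 556)) (M (nat_lit 523) (B (lo112_13_5 (nat_lit 555)) (M (nat_lit 396) (B (lo112_12_5 (nat_lit 491)) (M (nat_lit 525) (B (lo112_12_4 (nat_lit 493)) (lo112_13_4 (nat_lit 557)))))))))) (B (M (nat_lit 524) (B (lo112_17_7 (nat_lit 556)) (M (nat_lit 523) (B (lo112_13_5 (nat_lit 555)) (M (nat_lit 491) (B (lo112_12_5 (nat_lit 396)) (M (nat_lit 525) (B (lo112_13_4 (nat_lit 557)) (M (nat_lit 526) (B (lo115_16_3 (nat_lit 527)) (lo114_16_3 (nat_lit 490)))))))))))) (B (M (nat_lit 524) (B (lo112_17_7 (nat_lit 556)) (M (nat_lit 523) (B (lo112_13_5 (nat_lit 555)) (M (nat_lit 491) (B (lo112_12_5 (nat_lit 396)) (M (nat_lit 522) (B (lo111_13_5 (nat_lit 554)) (M (nat_lit 493) (B (lo114_15_1 (nat_lit 494)) (lo19_16_2 (nat_lit 521)))))))))))) (B (M (nat_lit 524) (B (lo112_17_7 (nat_lit 556)) (M (nat_lit 523) (B (lo112_13_5 (nat_lit 555)) (M (nat_lit 491) (B (M (nat_lit 525) (B (lo112_13_4 (nat_lit 557)) (M (nat_lit 526) (B (lo115_16_3 (nat_lit 527)) (lo114_16_3 (nat_lit 490)))))) (M (nat_lit 522) (B (lo111_13_5 (nat_lit 554)) (M (nat_lit 493) (B (lo114_15_1 (nat_lit 494)) (lo19_16_2 (nat_lit 521)))))))))))) (B (M (nat_lit 491) (B (M (nat_lit 396) (B (lo112_11_5 (nat_lit 364)) (lo112_12_5 (nat_lit 523)))) (B (M (nat_lit 523) (B (lo112_12_5 (nat_lit 396)) (lo111_17_6 (nat_lit 555)))) (B (M (nat_lit 523) (B (lo111_17_6 (nat_lit 555)) (M (nat_lit 522) (B (lo111_13_5 (nat_lit 554)) (M (nat_lit 493) (B (lo114_15_1 (nat_lit 494)) (M (nat_lit 521) (B (lo113_15_1 (nat_lit 490)) (lo18_16_2 (nat_lit 520)))))))))) (M (nat_lit 493) (B (M (nat_lit 494) (B (lo115_15_3 (nat_lit 495)) (lo114_15_3 (nat_lit 458)))) (M (nat_lit 396) (B (lo112_12_4 (nat_lit 525)) (lo112_11_5 (nat_lit 364)))))))))) (B (M (nat_lit 524) (B (lo112_17_7 (nat_lit 556)) (M (nat_lit 523) (B (lo112_13_5 (nat_lit 555)) (M (nat_lit 525) (B (lo112_13_4 (nat_lit 557)) (M (nat_lit 493) (B (lo112_12_4 (nat_lit 396)) (M (nat_lit 494) (B (lo115_15_3 (nat_lit 495)) (lo110_16_2 (nat_lit 522)))))))))))) (M (nat_lit 524) (B (lo112_17_7 (nat_lit 556)) (M (nat_lit 525) (B (lo112_13_4 (nat_lit 557)) (M (nat_lit 493) (B (lo112_12_4 (nat_lit 396)) (M (nat_lit 491) (B (M (nat_lit 494) (B (lo115_15_3 (nat_lit 495)) (lo114_15_3 (nat_lit 458)))) (M (nat_lit 526) (B (lo115_16_3 (nat_lit 527)) (lo110_15_0 (nat_lit 490))))))))))))))))))))))))))))) (B (K _ _ _ o1_s10045) (B (M (nat_lit 425) (B (M (nat_lit 392) (B (lo112_13_3 (nat_lit 393)) (M (nat_lit 424) (B (lo111_13_3 (nat_lit 391)) (M (nat_lit 456) (B (lo112_13_1 (nat_lit 457)) (lo111_13_1 (nat_lit 455)))))))) (B (M (nat_lit 424) (B (M (nat_lit 460) (B (lo19_13_0 (nat_lit 461)) (lo18_13_0 (nat_lit 459)))) (M (nat_lit 456) (B (lo112_13_1 (nat_lit 457)) (lo111_13_1 (nat_lit 455)))))) (B (M (nat_lit 424) (B (M (nat_lit 460) (B (lo19_13_0 (nat_lit 461)) (lo18_13_0 (nat_lit 459)))) (M (nat_lit 392) (B (lo112_13_3 (nat_lit 393)) (lo111_13_3 (nat_lit 391)))))) (M (nat_lit 461) (B (lo110_13_0 (nat_lit 462)) (lo19_13_0 (nat_lit 460)))))))) (M (nat_lit 425) (B (M (nat_lit 461) (B (lo110_13_0 (nat_lit 462)) (lo19_13_0 (nat_lit 460)))) (M (nat_lit 457) (B (lo112_13_1 (nat_lit 456)) (lo113_13_1 (nat_lit 458)))))))))) (B (M (nat_lit 459) (B (M (nat_lit 458) (B (M (nat_lit 460) (B (M (nat_lit 492) (B (M (nat_lit 457) (B (lo18_14_2 (nat_lit 456)) (lo19_14_0 (nat_lit 493)))) (M (nat_lit 395) (B (lo111_11_4 (nat_lit 363)) (lo112_16_7 (nat_lit 524)))))) (B (M (nat_lit 492) (B (M (nat_lit 395) (B (lo111_11_4 (nat_lit 363)) (lo112_16_7 (nat_lit 524)))) (M (nat_lit 493) (B (lo19_14_0 (nat_lit 457)) (M (nat_lit 494) (B (lo110_14_0 (nat_lit 461)) (lo115_15_3 (nat_lit 495)))))))) (B (M (nat_lit 492) (B (M (nat_lit 395) (B (lo111_11_4 (nat_lit 363)) (lo112_16_7 (nat_lit 524)))) (B (M (nat_lit 493) (B (M (nat_lit 494) (B (lo110_14_0 (nat_lit 461)) (lo115_15_3 (nat_lit 495)))) (M (nat_lit 524) (B (lo112_17_7 (nat_lit 556)) (M (nat_lit 525) (B (lo112_13_4 (nat_lit 557)) (lo112_12_4 (nat_lit 396)))))))) (M (nat_lit 396) (B (M (nat_lit 363) (B (lo111_11_4 (nat_lit 395)) (M (nat_lit 364) (B (lo112_10_5 (nat_lit 332)) (lo112_14_7 (nat_lit 331)))))) (M (nat_lit 493) (B (lo112_12_4 (nat_lit 525)) (M (nat_lit 494) (B (lo110_14_0 (nat_lit 461)) (lo115_15_3 (nat_lit 495))))))))))) (B (M (nat_lit 457) (B (lo18_14_2 (nat_lit 456)) (M (nat_lit 461) (B (M (nat_lit 489) (B (lo112_14_1 (nat_lit 488)) (lo113_14_1 (nat_lit 490)))) (M (nat_lit 493) (B (lo19_14_0 (nat_lit 492)) (lo110_14_0 (nat_lit 494)))))))) (B (M (nat_lit 461) (B (M (nat_lit 462) (B (lo115_14_3 (nat_lit 463)) (M (nat_lit 494) (B (lo110_14_0 (nat_lit 493)) (lo111_14_0 (nat_lit 495)))))) (M (nat_lit 489) (B (lo113_14_1 (nat_lit 490)) (M (nat_lit 457) (B (lo112_14_1 (nat_lit 488)) (lo18_14_2 (nat_lit 456)))))))) (M (nat_lit 457) (B (lo18_14_2 (nat_lit 456)) (M (nat_lit 489) (B (lo112_14_1 (nat_lit 488)) (M (nat_lit 490) (B (lo113_14_1 (nat_lit 461)) (M (nat_lit 425) (B (lo112_14_3 (nat_lit 424)) (M (nat_lit 393) (B (lo19_12_4 (nat_lit 522)) (lo19_11_4 (nat_lit 361)))))))))))))))))) (B (M (nat_lit 426) (B (M (nat_lit 461) (B (lo110_13_0 (nat_lit 462)) (M (nat_lit 460) (B (lo113_14_3 (nat_lit 425)) (M (nat_lit 493) (B (lo110_14_0 (nat_lit 494)) (M (nat_lit 525) (B (lo113_17_7 (nat_lit 557)) (lo113_16_7 (nat_lit 396)))))))))) (B (M (nat_lit 461) (B (lo110_13_0 (nat_lit 462)) (M (nat_lit 490) (B (M (nat_lit 460) (B (lo113_14_1 (nat_lit 489)) (lo113_14_3 (nat_lit 425)))) (M (nat_lit 395) (B (lo110_16_6 (nat_lit 522)) (lo111_11_5 (nat_lit 363)))))))) (M (nat_lit 394) (B (lo113_13_3 (nat_lit 393)) (M (nat_lit 490) (B (M (nat_lit 522) (B (lo110_17_6 (nat_lit 554)) (lo110_16_6 (nat_lit 395)))) (B (M (nat_lit 395) (B (lo110_16_6 (nat_lit 522)) (lo111_11_5 (nat_lit 363)))) (B (M (nat_lit 363) (B (lo111_11_5 (nat_lit 395)) (M (nat_lit 362) (B (lo110_10_4 (nat_lit 330)) (lo110_14_6 (nat_lit 331)))))) (M (nat_lit 522) (B (lo110_17_6 (nat_lit 554)) (M (nat_lit 521) (B (lo110_13_5 (nat_lit 553)) (lo110_12_5 (nat_lit 489))))))))))))))) (B (M (nat_lit 426) (B (lo113_13_1 (nat_lit 457)) (M (nat_lit 394) (B (lo113_13_3 (nat_lit 393)) (M (nat_lit 490) (B (M (nat_lit 395) (B (lo110_15_6 (nat_lit 363)) (lo110_16_6 (nat_lit 522)))) (B (M (nat_lit 522) (B (lo110_16_6 (nat_lit 395)) (lo110_17_6 (nat_lit 554)))) (B (M (nat_lit 522) (B (lo110_17_6 (nat_lit 554)) (M (nat_lit 521) (B (lo110_12_5 (nat_lit 489)) (lo110_13_5 (nat_lit 553)))))) (M (nat_lit 363) (B (lo110_15_6 (nat_lit 395)) (M (nat_lit 362) (B (lo110_14_6 (nat_lit 331)) (lo110_10_4 (nat_lit 330)))))))))))))) (M (nat_lit 457) (B (lo19_14_2 (nat_lit 460)) (lo113_13_1 (nat_lit 426)))))))) (B (M (nat_lit 460) (B (M (nat_lit 492) (B (M (nat_lit 524) (B (lo112_17_7 (nat_lit 556)) (M (nat_lit 523) (B (lo112_13_5 (nat_lit 555)) (M (nat_lit 396) (B (lo112_12_5 (nat_lit 491)) (M (nat_lit 525) (B (lo112_12_4 (nat_lit 493)) (lo112_13_4 (nat_lit 557)))))))))) (B (M (nat_lit 524) (B (lo112_17_7 (nat_lit 556)) (M (nat_lit 523) (B (lo112_13_5 (nat_lit 555)) (M (nat_lit 491) (B (lo112_12_5 (nat_lit 396)) (M (nat_lit 525) (B (lo112_13_4 (nat_lit 557)) (M (nat_lit 526) (B (lo115_16_3 (nat_lit 527)) (lo114_16_3 (nat_lit 490)))))))))))) (B (M (nat_lit 524) (B (lo112_17_7 (nat_lit 556)) (M (nat_lit 523) (B (lo112_13_5 (nat_lit 555)) (M (nat_lit 491) (B (lo112_12_5 (nat_lit 396)) (M (nat_lit 522) (B (lo111_13_5 (nat_lit 554)) (M (nat_lit 493) (B (lo114_15_1 (nat_lit 494)) (lo19_16_2 (nat_lit 521)))))))))))) (B (M (nat_lit 524) (B (lo112_17_7 (nat_lit 556)) (M (nat_lit 523) (B (lo112_13_5 (nat_lit 555)) (M (nat_lit 491) (B (M (nat_lit 525) (B (lo112_13_4 (nat_lit 557)) (M (nat_lit 526) (B (lo115_16_3 (nat_lit 527)) (lo114_16_3 (nat_lit 490)))))) (M (nat_lit 522) (B (lo111_13_5 (nat_lit 554)) (M (nat_lit 493) (B (lo114_15_1 (nat_lit 494)) (lo19_16_2 (nat_lit 521)))))))))))) (B (M (nat_lit 491) (B (M (nat_lit 396) (B (lo112_11_5 (nat_lit 364)) (lo112_12_5 (nat_lit 523)))) (B (M (nat_lit 523) (B (lo112_12_5 (nat_lit 396)) (lo111_17_6 (nat_lit 555)))) (B (M (nat_lit 523) (B (lo111_17_6 (nat_lit 555)) (M (nat_lit 522) (B (lo111_13_5 (nat_lit 554)) (M (nat_lit 493) (B (lo114_15_1 (nat_lit 494)) (M (nat_lit 521) (B (lo113_15_1 (nat_lit 490)) (lo18_16_2 (nat_lit 520)))))))))) (M (nat_lit 493) (B (M (nat_lit 494) (B (lo115_15_3 (nat_lit 495)) (lo114_15_3 (nat_lit 458)))) (M (nat_lit 396) (B (lo112_12_4 (nat_lit 525)) (lo112_11_5 (nat_lit 364)))))))))) (B (M (nat_lit 524) (B (lo112_17_7 (nat_lit 556)) (M (nat_lit 523) (B (lo112_13_5 (nat_lit 555)) (M (nat_lit 525) (B (lo112_13_4 (nat_lit 557)) (M (nat_lit 493) (B (lo112_12_4 (nat_lit 396)) (M (nat_lit 494) (B (lo115_15_3 (nat_lit 495)) (lo110_16_2 (nat_lit 522)))))))))))) (M (nat_lit 524) (B (lo112_17_7 (nat_lit 556)) (M (nat_lit 525) (B (lo112_13_4 (nat_lit 557)) (M (nat_lit 493) (B (lo112_12_4 (nat_lit 396)) (M (nat_lit 491) (B (M (nat_lit 494) (B (lo115_15_3 (nat_lit 495)) (lo114_15_3 (nat_lit 458)))) (M (nat_lit 526) (B (lo115_16_3 (nat_lit 527)) (lo110_15_0 (nat_lit 490))))))))))))))))))) (B (M (nat_lit 396) (B (M (nat_lit 491) (B (lo111_16_6 (nat_lit 523)) (lo112_11_5 (nat_lit 364)))) (B (M (nat_lit 364) (B (lo112_11_5 (nat_lit 491)) (lo112_10_5 (nat_lit 332)))) (B (M (nat_lit 461) (B (M (nat_lit 364) (B (lo112_11_4 (nat_lit 493)) (lo112_10_5 (nat_lit 332)))) (M (nat_lit 426) (B (lo114_14_3 (nat_lit 462)) (lo19_13_0 (nat_lit 425)))))) (M (nat_lit 492) (B (M (nat_lit 523) (B (lo112_12_5 (nat_lit 491)) (M (nat_lit 524) (B (lo112_17_7 (nat_lit 556)) (lo112_13_5 (nat_lit 555)))))) (B (M (nat_lit 524) (B (M (nat_lit 525) (B (lo112_13_4 (nat_lit 557)) (lo112_12_4 (nat_lit 493)))) (M (nat_lit 523) (B (lo112_13_5 (nat_lit 555)) (lo112_12_5 (nat_lit 491)))))) (B (M (nat_lit 525) (B (lo112_12_4 (nat_lit 493)) (M (nat_lit 524) (B (lo112_13_4 (nat_lit 557)) (lo112_17_7 (nat_lit 556)))))) (M (nat_lit 491) (B (lo112_12_5 (nat_lit 523)) (M (nat_lit 462) (B (M (nat_lit 461) (B (lo115_14_1 (nat_lit 463)) (lo114_14_1 (nat_lit 490)))) (B (M (nat_lit 461) (B (lo115_14_1 (nat_lit 463)) (lo114_14_3 (nat_lit 426)))) (B (M (nat_lit 461) (B (lo114_14_1 (nat_lit 490)) (lo114_14_3 (nat_lit 426)))) (M (nat_lit 493) (B (lo112_12_4 (nat_lit 525)) (M (nat_lit 494) (B (lo115_15_3 (nat_lit 495)) (lo111_15_2 (nat_lit 463)))))))))))))))))))) (B (M (nat_lit 461) (B (M (nat_lit 426) (B (lo110_13_0 (nat_lit 462)) (lo19_13_0 (nat_lit 425)))) (M (nat_lit 493) (B (M (nat_lit 525) (B (lo113_16_7 (nat_lit 396)) (lo113_17_7 (nat_lit 557)))) (M (nat_lit 458) (B (lo19_14_2 (nat_lit 457)) (lo110_14_0 (nat_lit 494)))))))) (M (nat_lit 458) (B (lo19_14_2 (nat_lit 457)) (M (nat_lit 426) (B (M (nat_lit 425) (B (lo19_13_0 (nat_lit 461)) (lo18_13_0 (nat_lit 424)))) (M (nat_lit 394) (B (lo113_13_3 (nat_lit 393)) (M (nat_lit 491) (B (lo111_16_7 (nat_lit 523)) (lo110_11_4 (nat_lit 362)))))))))))))) (B (M (nat_lit 491) (B (M (nat_lit 396) (B (lo111_16_6 (nat_lit 523)) (M (nat_lit 364) (B (lo112_11_5 (nat_lit 460)) (lo112_10_5 (nat_lit 332)))))) (B (M (nat_lit 396) (B (lo111_16_6 (nat_lit 523)) (M (nat_lit 364) (B (lo112_10_5 (nat_lit 332)) (lo111_15_6 (nat_lit 395)))))) (B (M (nat_lit 523) (B (M (nat_lit 555) (B (lo111_17_6 (nat_lit 460)) (M (nat_lit 556) (B (lo111_14_4 (nat_lit 588)) (lo111_13_4 (nat_lit 524)))))) (B (M (nat_lit 555) (B (lo111_17_6 (nat_lit 460)) (M (nat_lit 554) (B (lo111_14_5 (nat_lit 586)) (lo111_13_5 (nat_lit 522)))))) (M (nat_lit 395) (B (M (nat_lit 524) (B (lo111_13_4 (nat_lit 556)) (lo111_12_4 (nat_lit 492)))) (M (nat_lit 522) (B (lo111_13_5 (nat_lit 554)) (lo111_12_5 (nat_lit 490))))))))) (M (nat_lit 492) (B (M (nat_lit 524) (B (lo111_12_4 (nat_lit 395)) (M (nat_lit 556) (B (lo112_18_7 (nat_lit 588)) (lo112_17_7 (nat_lit 460)))))) (B (M (nat_lit 395) (B (lo111_12_4 (nat_lit 524)) (M (nat_lit 364) (B (lo111_15_6 (nat_lit 396)) (M (nat_lit 363) (B (lo111_11_4 (nat_lit 460)) (lo111_14_6 (nat_lit 332)))))))) (B (M (nat_lit 395) (B (M (nat_lit 364) (B (lo111_15_6 (nat_lit 396)) (M (nat_lit 363) (B (lo111_11_4 (nat_lit 460)) (lo111_14_6 (nat_lit 332)))))) (B (M (nat_lit 363) (B (M (nat_lit 364) (B (lo111_15_6 (nat_lit 396)) (lo111_14_6 (nat_lit 332)))) (M (nat_lit 490) (B (lo111_12_5 (nat_lit 522)) (lo111_11_5 (nat_lit 458)))))) (B (M (nat_lit 363) (B (lo111_11_4 (nat_lit 460)) (M (nat_lit 490) (B (lo111_12_5 (nat_lit 522)) (lo111_11_5 (nat_lit 458)))))) (M (nat_lit 493) (B (M (nat_lit 458) (B (lo114_15_3 (nat_lit 494)) (M (nat_lit 490) (B (lo113_15_3 (nat_lit 457)) (lo111_12_5 (nat_lit 522)))))) (B (M (nat_lit 525) (B (M (nat_lit 490) (B (lo110_15_0 (nat_lit 526)) (lo111_12_5 (nat_lit 522)))) (M (nat_lit 396) (B (lo112_12_4 (nat_lit 460)) (lo111_15_6 (nat_lit 364)))))) (B (M (nat_lit 458) (B (lo114_15_3 (nat_lit 494)) (M (nat_lit 457) (B (lo19_14_0 (nat_lit 460)) (lo113_15_3 (nat_lit 490)))))) (M (nat_lit 458) (B (lo114_15_3 (nat_lit 494)) (M (nat_lit 457) (B (lo19_14_0 (nat_lit 460)) (lo113_13_1 (nat_lit 426)))))))))))))) (B (M (nat_lit 458) (B (M (nat_lit 457) (B (lo113_13_1 (nat_lit 426)) (lo18_14_0 (nat_lit 456)))) (M (nat_lit 395) (B (lo111_12_4 (nat_lit 524)) (M (nat_lit 490) (B (lo111_12_5 (nat_lit 522)) (lo111_11_5 (nat_lit 363)))))))) (M (nat_lit 493) (B (M (nat_lit 458) (B (lo114_15_3 (nat_lit 494)) (M (nat_lit 457) (B (lo19_14_0 (nat_lit 460)) (lo113_15_3 (nat_lit 490)))))) (B (M (nat_lit 490) (B (M (nat_lit 458) (B (lo113_15_3 (nat_lit 457)) (M (nat_lit 522) (B (lo113_15_1 (nat_lit 521)) (lo110_17_6 (nat_lit 554)))))) (M (nat_lit 524) (B (M (nat_lit 525) (B (lo110_15_0 (nat_lit 526)) (lo19_15_0 (nat_lit 489)))) (M (nat_lit 556) (B (lo112_18_7 (nat_lit 588)) (lo112_17_7 (nat_lit 460)))))))) (B (M (nat_lit 458) (B (lo114_15_3 (nat_lit 494)) (M (nat_lit 457) (B (lo113_15_3 (nat_lit 490)) (lo113_13_1 (nat_lit 426)))))) (B (M (nat_lit 458) (B (lo114_15_3 (nat_lit 494)) (M (nat_lit 457) (B (lo19_14_0 (nat_lit 460)) (lo113_13_1 (nat_lit 426)))))) (M (nat_lit 525) (B (M (nat_lit 526) (B (lo110_15_0 (nat_lit 490)) (M (nat_lit 527) (B (lo116_16_3 (nat_lit 528)) (lo115_16_3 (nat_lit 524)))))) (B (M (nat_lit 526) (B (lo110_15_0 (nat_lit 490)) (M (nat_lit 527) (B (lo111_15_0 (nat_lit 494)) (lo115_16_3 (nat_lit 524)))))) (B (M (nat_lit 460) (B (lo112_12_4 (nat_lit 396)) (M (nat_lit 557) (B (lo113_18_7 (nat_lit 589)) (lo112_13_4 (nat_lit 524)))))) (M (nat_lit 526) (B (lo110_15_0 (nat_lit 490)) (M (nat_lit 527) (B (lo116_16_3 (nat_lit 528)) (lo111_15_0 (nat_lit 494)))))))))))))))))))))))) (B (M (nat_lit 491) (B (M (nat_lit 396) (B (lo111_16_6 (nat_lit 523)) (M (nat_lit 364) (B (lo111_15_6 (nat_lit 395)) (lo112_10_5 (nat_lit 332)))))) (B (M (nat_lit 395) (B (M (nat_lit 396) (B (lo111_15_6 (nat_lit 364)) (M (nat_lit 394) (B (lo111_15_7 (nat_lit 362)) (lo19_12_0 (nat_lit 393)))))) (B (M (nat_lit 363) (B (M (nat_lit 490) (B (lo111_12_5 (nat_lit 522)) (lo111_11_5 (nat_lit 458)))) (M (nat_lit 364) (B (lo111_15_6 (nat_lit 396)) (lo111_14_6 (nat_lit 332)))))) (M (nat_lit 363) (B (M (nat_lit 490) (B (lo111_12_5 (nat_lit 522)) (lo111_11_5 (nat_lit 458)))) (M (nat_lit 362) (B (lo111_15_7 (nat_lit 394)) (lo111_14_7 (nat_lit 330))))))))) (B (M (nat_lit 523) (B (lo111_16_6 (nat_lit 396)) (M (nat_lit 555) (B (M (nat_lit 554) (B (lo111_14_5 (nat_lit 586)) (lo111_13_5 (nat_lit 522)))) (M (nat_lit 556) (B (lo111_14_4 (nat_lit 588)) (lo111_13_4 (nat_lit 524)))))))) (M (nat_lit 524) (B (M (nat_lit 556) (B (lo111_13_4 (nat_lit 523)) (M (nat_lit 492) (B (lo112_18_7 (nat_lit 588)) (lo111_12_4 (nat_lit 395)))))) (B (M (nat_lit 522) (B (M (nat_lit 523) (B (lo111_13_5 (nat_lit 554)) (lo111_13_4 (nat_lit 556)))) (M (nat_lit 395) (B (lo111_12_5 (nat_lit 490)) (lo111_12_4 (nat_lit 492)))))) (B (M (nat_lit 395) (B (lo111_12_4 (nat_lit 492)) (M (nat_lit 363) (B (M (nat_lit 490) (B (lo111_12_5 (nat_lit 522)) (lo111_11_5 (nat_lit 458)))) (M (nat_lit 362) (B (lo111_15_7 (nat_lit 394)) (lo111_14_7 (nat_lit 330)))))))) (B (M (nat_lit 523) (B (lo111_13_4 (nat_lit 556)) (M (nat_lit 522) (B (lo111_13_5 (nat_lit 554)) (M (nat_lit 490) (B (lo111_12_5 (nat_lit 395)) (M (nat_lit 489) (B (lo113_16_3 (nat_lit 525)) (lo18_15_0 (nat_lit 488)))))))))) (M (nat_lit 523) (B (lo111_13_4 (nat_lit 556)) (M (nat_lit 490) (B (M (nat_lit 522) (B (lo111_13_5 (nat_lit 554)) (M (nat_lit 525) (B (lo113_16_3 (nat_lit 489)) (lo114_16_3 (nat_lit 526)))))) (B (M (nat_lit 525) (B (lo114_16_3 (nat_lit 526)) (M (nat_lit 489) (B (lo113_16_3 (nat_lit 522)) (lo18_15_0 (nat_lit 488)))))) (B (M (nat_lit 525) (B (lo114_16_3 (nat_lit 526)) (M (nat_lit 489) (B (lo18_15_0 (nat_lit 488)) (lo19_15_0 (nat_lit 492)))))) (M (nat_lit 555) (B (M (nat_lit 554) (B (lo111_14_5 (nat_lit 586)) (lo111_13_5 (nat_lit 522)))) (B (M (nat_lit 587) (B (lo111_18_7 (nat_lit 458)) (M (nat_lit 619) (B (lo111_19_7 (nat_lit 522)) (lo111_19_6 (nat_lit 492)))))) (M (nat_lit 587) (B (lo111_18_7 (nat_lit 458)) (M (nat_lit 586) (B (lo111_15_5 (nat_lit 618)) (lo111_14_5 (nat_lit 554)))))))))))))))))))))))) (B (M (nat_lit 491) (B (M (nat_lit 396) (B (lo111_16_6 (nat_lit 523)) (M (nat_lit 364) (B (lo112_11_5 (nat_lit 460)) (lo111_15_6 (nat_lit 395)))))) (B (M (nat_lit 395) (B (M (nat_lit 396) (B (lo111_15_6 (nat_lit 364)) (M (nat_lit 394) (B (lo111_15_7 (nat_lit 362)) (lo19_12_0 (nat_lit 393)))))) (B (M (nat_lit 363) (B (M (nat_lit 492) (B (lo111_12_4 (nat_lit 524)) (lo111_11_4 (nat_lit 460)))) (M (nat_lit 364) (B (lo111_15_6 (nat_lit 396)) (lo111_14_6 (nat_lit 332)))))) (M (nat_lit 363) (B (M (nat_lit 492) (B (lo111_12_4 (nat_lit 524)) (lo111_11_4 (nat_lit 460)))) (M (nat_lit 362) (B (lo111_15_7 (nat_lit 394)) (lo111_14_7 (nat_lit 330))))))))) (B (M (nat_lit 396) (B (lo111_16_6 (nat_lit 523)) (M (nat_lit 364) (B (lo111_15_6 (nat_lit 395)) (lo112_10_5 (nat_lit 332)))))) (B (M (nat_lit 396) (B (lo111_16_6 (nat_lit 523)) (M (nat_lit 364) (B (lo112_11_5 (nat_lit 460)) (lo112_10_5 (nat_lit 332)))))) (M (nat_lit 395) (B (M (nat_lit 394) (B (lo111_15_7 (nat_lit 362)) (M (nat_lit 426) (B (lo111_16_7 (nat_lit 523)) (lo113_13_3 (nat_lit 393)))))) (B (M (nat_lit 363) (B (M (nat_lit 492) (B (lo111_12_4 (nat_lit 524)) (lo111_11_4 (nat_lit 460)))) (M (nat_lit 362) (B (lo111_15_7 (nat_lit 394)) (lo111_14_7 (nat_lit 330)))))) (M (nat_lit 523) (B (M (nat_lit 522) (B (lo111_13_5 (nat_lit 554)) (lo111_12_5 (nat_lit 490)))) (M (nat_lit 524) (B (lo111_13_4 (nat_lit 556)) (lo111_12_4 (nat_lit 492)))))))))))))) (M (nat_lit 426) (B (M (nat_lit 394) (B (lo113_13_3 (nat_lit 393)) (M (nat_lit 491) (B (lo111_16_7 (nat_lit 523)) (M (nat_lit 362) (B (lo111_15_7 (nat_lit 395)) (lo110_10_4 (nat_lit 330)))))))) (M (nat_lit 425) (B (M (nat_lit 460) (B (lo19_13_0 (nat_lit 461)) (lo18_13_0 (nat_lit 424)))) (M (nat_lit 457) (B (lo113_13_1 (nat_lit 458)) (lo112_13_1 (nat_lit 456)))))))))))))) (B (M (nat_lit 461) (B (M (nat_lit 462) (B (lo110_13_0 (nat_lit 426)) (M (nat_lit 463) (B (lo115_14_3 (nat_lit 460)) (lo116_14_3 (nat_lit 464)))))) (B (M (nat_lit 493) (B (M (nat_lit 396) (B (lo113_16_7 (nat_lit 525)) (M (nat_lit 364) (B (lo112_11_4 (nat_lit 460)) (lo112_10_4 (nat_lit 332)))))) (B (K _ _ _ o1_s25596) (B (K _ _ _ o1_s25608) (M (nat_lit 491) (B (M (nat_lit 459) (B (M (nat_lit 396) (B (lo111_16_6 (nat_lit 523)) (M (nat_lit 364) (B (lo111_15_6 (nat_lit 395)) (lo112_11_5 (nat_lit 460)))))) (B (M (nat_lit 460) (B (M (nat_lit 458) (B (lo19_14_2 (nat_lit 457)) (lo110_14_0 (nat_lit 494)))) (M (nat_lit 462) (B (lo114_14_1 (nat_lit 490)) (lo115_14_3 (nat_lit 463)))))) (M (nat_lit 396) (B (lo111_16_6 (nat_lit 523)) (M (nat_lit 364) (B (lo111_15_6 (nat_lit 395)) (lo112_10_5 (nat_lit 332))))))))) (B (M (nat_lit 492) (B (M (nat_lit 462) (B (lo110_15_2 (nat_lit 490)) (M (nat_lit 463) (B (lo115_14_1 (nat_lit 460)) (lo111_15_2 (nat_lit 494)))))) (B (M (nat_lit 460) (B (M (nat_lit 524) (B (lo112_16_7 (nat_lit 395)) (lo112_17_6 (nat_lit 556)))) (M (nat_lit 396) (B (lo112_12_5 (nat_lit 523)) (lo112_11_4 (nat_lit 364)))))) (M (nat_lit 462) (B (lo110_15_2 (nat_lit 490)) (M (nat_lit 463) (B (lo111_15_2 (nat_lit 494)) (lo116_14_1 (nat_lit 464))))))))) (B (M (nat_lit 459) (B (M (nat_lit 396) (B (lo111_16_6 (nat_lit 523)) (M (nat_lit 364) (B (lo111_15_6 (nat_lit 395)) (lo112_11_5 (nat_lit 460)))))) (B (M (nat_lit 395) (B (M (nat_lit 396) (B (lo111_15_6 (nat_lit 364)) (M (nat_lit 394) (B (lo19_12_0 (nat_lit 393)) (lo111_15_7 (nat_lit 362)))))) (M (nat_lit 458) (B (M (nat_lit 457) (B (lo18_14_2 (nat_lit 456)) (lo19_14_2 (nat_lit 460)))) (B (M (nat_lit 460) (B (lo19_14_2 (nat_lit 457)) (lo110_14_0 (nat_lit 494)))) (M (nat_lit 492) (B (lo114_15_3 (nat_lit 494)) (lo111_12_4 (nat_lit 524))))))))) (B (M (nat_lit 396) (B (lo111_16_6 (nat_lit 523)) (M (nat_lit 364) (B (lo112_11_5 (nat_lit 460)) (lo112_10_5 (nat_lit 332)))))) (B (M (nat_lit 396) (B (lo111_16_6 (nat_lit 523)) (M (nat_lit 364) (B (lo111_15_6 (nat_lit 395)) (lo112_10_5 (nat_lit 332)))))) (M (nat_lit 492) (B (M (nat_lit 458) (B (lo114_15_3 (nat_lit 494)) (M (nat_lit 457) (B (lo18_14_0 (nat_lit 456)) (lo19_14_0 (nat_lit 460)))))) (M (nat_lit 524) (B (lo111_12_4 (nat_lit 395)) (M (nat_lit 556) (B (lo111_13_4 (nat_lit 523)) (lo112_18_7 (nat_lit 588))))))))))))) (B (M (nat_lit 492) (B (M (nat_lit 462) (B (lo110_15_2 (nat_lit 490)) (M (nat_lit 463) (B (lo115_14_1 (nat_lit 460)) (lo111_15_2 (nat_lit 494)))))) (B (M (nat_lit 494) (B (M (nat_lit 462) (B (lo111_15_2 (nat_lit 463)) (M (nat_lit 526) (B (lo111_15_0 (nat_lit 527)) (lo114_17_7 (nat_lit 558)))))) (M (nat_lit 460) (B (M (nat_lit 459) (B (lo114_15_3 (nat_lit 458)) (lo115_15_3 (nat_lit 495)))) (M (nat_lit 524) (B (lo112_16_7 (nat_lit 395)) (lo112_17_6 (nat_lit 556)))))))) (B (M (nat_lit 462) (B (lo110_15_2 (nat_lit 490)) (M (nat_lit 463) (B (lo111_15_2 (nat_lit 494)) (lo116_14_1 (nat_lit 464)))))) (B (M (nat_lit 462) (B (lo110_15_2 (nat_lit 490)) (M (nat_lit 463) (B (lo115_14_1 (nat_lit 460)) (lo116_14_1 (nat_lit 464)))))) (M (nat_lit 459) (B (M (nat_lit 458) (B (lo114_15_3 (nat_lit 494)) (M (nat_lit 457) (B (lo18_14_0 (nat_lit 456)) (lo19_14_0 (nat_lit 460)))))) (B (M (nat_lit 458) (B (lo114_15_3 (nat_lit 494)) (M (nat_lit 457) (B (lo113_15_3 (nat_lit 490)) (lo19_14_0 (nat_lit 460)))))) (B (M (nat_lit 524) (B (lo111_12_4 (nat_lit 395)) (M (nat_lit 556) (B (lo112_18_7 (nat_lit 588)) (lo112_17_7 (nat_lit 460)))))) (M (nat_lit 458) (B (lo114_15_3 (nat_lit 494)) (M (nat_lit 457) (B (lo18_14_0 (nat_lit 456)) (lo113_15_3 (nat_lit 490))))))))))))))) (B (M (nat_lit 460) (B (M (nat_lit 396) (B (lo112_11_4 (nat_lit 364)) (M (nat_lit 523) (B (lo111_16_6 (nat_lit 459)) (lo112_12_5 (nat_lit 492)))))) (B (M (nat_lit 462) (B (lo115_14_3 (nat_lit 463)) (M (nat_lit 490) (B (lo114_14_1 (nat_lit 459)) (lo110_15_2 (nat_lit 492)))))) (B (M (nat_lit 492) (B (M (nat_lit 490) (B (lo19_15_2 (nat_lit 489)) (lo110_15_2 (nat_lit 462)))) (M (nat_lit 396) (B (lo112_12_5 (nat_lit 523)) (lo112_11_4 (nat_lit 364)))))) (M (nat_lit 459) (B (M (nat_lit 462) (B (lo114_14_1 (nat_lit 490)) (lo115_14_3 (nat_lit 463)))) (M (nat_lit 396) (B (lo111_16_6 (nat_lit 523)) (lo112_11_5 (nat_lit 364)))))))))) (M (nat_lit 459) (B (M (nat_lit 396) (B (lo111_16_6 (nat_lit 523)) (M (nat_lit 364) (B (lo111_15_6 (nat_lit 395)) (lo112_10_5 (nat_lit 332)))))) (B (M (nat_lit 395) (B (M (nat_lit 396) (B (lo111_15_6 (nat_lit 364)) (M (nat_lit 394) (B (lo19_12_0 (nat_lit 393)) (lo111_15_7 (nat_lit 362)))))) (M (nat_lit 490) (B (lo111_12_5 (nat_lit 522)) (M (nat_lit 492) (B (lo110_15_2 (nat_lit 462)) (lo111_12_4 (nat_lit 524)))))))) (B (M (nat_lit 523) (B (lo111_16_6 (nat_lit 396)) (M (nat_lit 555) (B (M (nat_lit 554) (B (lo111_14_5 (nat_lit 586)) (lo111_13_5 (nat_lit 522)))) (M (nat_lit 556) (B (lo111_14_4 (nat_lit 588)) (lo111_13_4 (nat_lit 524)))))))) (M (nat_lit 492) (B (M (nat_lit 458) (B (lo114_15_3 (nat_lit 494)) (M (nat_lit 490) (B (lo113_15_3 (nat_lit 457)) (lo110_15_2 (nat_lit 462)))))) (M (nat_lit 524) (B (lo111_12_4 (nat_lit 395)) (M (nat_lit 556) (B (lo111_13_4 (nat_lit 523)) (lo112_18_7 (nat_lit 588)))))))))))))))))))))) (B (M (nat_lit 426) (B (lo110_13_0 (nat_lit 462)) (M (nat_lit 394) (B (lo113_13_3 (nat_lit 393)) (M (nat_lit 458) (B (lo113_13_1 (nat_lit 457)) (M (nat_lit 362) (B (M (nat_lit 459) (B (lo110_11_4 (nat_lit 491)) (lo110_10_4 (nat_lit 330)))) (B (M (nat_lit 490) (B (M (nat_lit 491) (B (lo110_12_4 (nat_lit 523)) (lo110_11_4 (nat_lit 459)))) (M (nat_lit 363) (B (lo110_15_6 (nat_lit 395)) (lo110_14_6 (nat_lit 331)))))) (B (M (nat_lit 330) (B (lo110_10_4 (nat_lit 459)) (M (nat_lit 329) (B (lo110_14_7 (nat_lit 361)) (lo110_13_7 (nat_lit 297)))))) (M (nat_lit 330) (B (M (nat_lit 329) (B (lo110_14_7 (nat_lit 361)) (lo110_13_7 (nat_lit 297)))) (M (nat_lit 331) (B (lo110_14_6 (nat_lit 363)) (lo110_13_6 (nat_lit 299)))))))))))))))) (M (nat_lit 493) (B (M (nat_lit 396) (B (lo113_16_7 (nat_lit 525)) (M (nat_lit 364) (B (lo112_11_4 (nat_lit 460)) (lo112_10_4 (nat_lit 332)))))) (B (K _ _ _ o1_s25596) (B (K _ _ _ o1_s25608) (M (nat_lit 459) (B (M (nat_lit 491) (B (M (nat_lit 396) (B (lo111_16_6 (nat_lit 523)) (M (nat_lit 364) (B (lo111_15_6 (nat_lit 395)) (lo112_11_5 (nat_lit 460)))))) (B (M (nat_lit 458) (B (M (nat_lit 457) (B (lo18_14_2 (nat_lit 456)) (lo113_13_1 (nat_lit 426)))) (M (nat_lit 494) (B (lo114_15_3 (nat_lit 492)) (lo110_14_0 (nat_lit 460)))))) (M (nat_lit 396) (B (lo111_16_6 (nat_lit 523)) (M (nat_lit 364) (B (lo111_15_6 (nat_lit 395)) (lo112_10_5 (nat_lit 332))))))))) (B (M (nat_lit 396) (B (M (nat_lit 364) (B (lo112_10_5 (nat_lit 332)) (lo112_11_4 (nat_lit 460)))) (B (M (nat_lit 364) (B (lo112_10_5 (nat_lit 332)) (M (nat_lit 491) (B (lo111_16_6 (nat_lit 523)) (lo111_15_6 (nat_lit 395)))))) (M (nat_lit 395) (B (M (nat_lit 491) (B (lo111_16_6 (nat_lit 523)) (M (nat_lit 394) (B (lo19_12_0 (nat_lit 393)) (lo111_15_7 (nat_lit 362)))))) (M (nat_lit 460) (B (M (nat_lit 458) (B (lo19_14_2 (nat_lit 457)) (lo110_14_0 (nat_lit 494)))) (M (nat_lit 492) (B (lo111_11_4 (nat_lit 363)) (lo112_16_7 (nat_lit 524))))))))))) (B (M (nat_lit 491) (B (M (nat_lit 396) (B (lo111_16_6 (nat_lit 523)) (M (nat_lit 364) (B (lo111_15_6 (nat_lit 395)) (lo112_11_5 (nat_lit 460)))))) (B (M (nat_lit 395) (B (M (nat_lit 396) (B (lo111_15_6 (nat_lit 364)) (M (nat_lit 394) (B (lo19_12_0 (nat_lit 393)) (lo111_15_7 (nat_lit 362)))))) (B (M (nat_lit 363) (B (M (nat_lit 490) (B (lo111_12_5 (nat_lit 522)) (lo111_11_5 (nat_lit 458)))) (M (nat_lit 364) (B (lo111_15_6 (nat_lit 396)) (lo111_14_6 (nat_lit 332)))))) (M (nat_lit 394) (B (lo111_15_7 (nat_lit 362)) (M (nat_lit 393) (B (lo18_12_0 (nat_lit 392)) (lo113_13_3 (nat_lit 426))))))))) (B (M (nat_lit 396) (B (lo111_16_6 (nat_lit 523)) (M (nat_lit 364) (B (lo112_11_5 (nat_lit 460)) (lo112_10_5 (nat_lit 332)))))) (M (nat_lit 395) (B (M (nat_lit 394) (B (lo111_15_7 (nat_lit 362)) (M (nat_lit 393) (B (lo18_12_0 (nat_lit 392)) (lo113_13_3 (nat_lit 426)))))) (M (nat_lit 363) (B (M (nat_lit 490) (B (lo111_12_5 (nat_lit 522)) (lo111_11_5 (nat_lit 458)))) (M (nat_lit 492) (B (lo111_12_4 (nat_lit 524)) (lo111_11_4 (nat_lit 460)))))))))))) (B (M (nat_lit 491) (B (M (nat_lit 396) (B (lo111_16_6 (nat_lit 523)) (M (nat_lit 364) (B (lo111_15_6 (nat_lit 395)) (lo112_11_5 (nat_lit 460)))))) (B (M (nat_lit 395) (B (M (nat_lit 396) (B (lo111_15_6 (nat_lit 364)) (M (nat_lit 394) (B (lo19_12_0 (nat_lit 393)) (lo111_15_7 (nat_lit 362)))))) (B (M (nat_lit 363) (B (M (nat_lit 492) (B (lo111_12_4 (nat_lit 524)) (lo111_11_4 (nat_lit 460)))) (M (nat_lit 364) (B (lo111_15_6 (nat_lit 396)) (lo111_14_6 (nat_lit 332)))))) (M (nat_lit 394) (B (lo111_15_7 (nat_lit 362)) (M (nat_lit 393) (B (lo18_12_0 (nat_lit 392)) (lo113_13_3 (nat_lit 426))))))))) (B (M (nat_lit 396) (B (lo111_16_6 (nat_lit 523)) (M (nat_lit 364) (B (lo112_11_5 (nat_lit 460)) (lo112_10_5 (nat_lit 332)))))) (B (M (nat_lit 396) (B (lo111_16_6 (nat_lit 523)) (M (nat_lit 364) (B (lo111_15_6 (nat_lit 395)) (lo112_10_5 (nat_lit 332)))))) (M (nat_lit 395) (B (M (nat_lit 394) (B (lo111_15_7 (nat_lit 362)) (M (nat_lit 393) (B (lo18_12_0 (nat_lit 392)) (lo113_13_3 (nat_lit 426)))))) (B (M (nat_lit 394) (B (lo111_15_7 (nat_lit 362)) (M (nat_lit 426) (B (lo113_13_3 (nat_lit 393)) (lo111_16_7 (nat_lit 523)))))) (B (M (nat_lit 523) (B (M (nat_lit 522) (B (lo111_13_5 (nat_lit 554)) (lo111_12_5 (nat_lit 490)))) (M (nat_lit 394) (B (lo111_16_7 (nat_lit 426)) (lo111_15_7 (nat_lit 362)))))) (M (nat_lit 523) (B (M (nat_lit 522) (B (lo111_13_5 (nat_lit 554)) (lo111_12_5 (nat_lit 490)))) (M (nat_lit 524) (B (lo111_13_4 (nat_lit 556)) (lo111_12_4 (nat_lit 492))))))))))))))) (B (M (nat_lit 458) (B (M (nat_lit 457) (B (lo18_14_2 (nat_lit 456)) (lo113_13_1 (nat_lit 426)))) (B (M (nat_lit 457) (B (lo113_13_1 (nat_lit 426)) (lo19_14_2 (nat_lit 460)))) (B (M (nat_lit 490) (B (M (nat_lit 460) (B (lo113_14_1 (nat_lit 489)) (lo110_14_0 (nat_lit 494)))) (M (nat_lit 522) (B (lo110_17_6 (nat_lit 554)) (M (nat_lit 395) (B (lo110_16_6 (nat_lit 426)) (lo111_11_5 (nat_lit 363)))))))) (M (nat_lit 460) (B (lo19_14_2 (nat_lit 457)) (lo110_14_0 (nat_lit 494)))))))) (B (M (nat_lit 458) (B (M (nat_lit 457) (B (lo18_14_2 (nat_lit 456)) (lo113_13_1 (nat_lit 426)))) (B (M (nat_lit 457) (B (lo113_13_1 (nat_lit 426)) (lo19_14_2 (nat_lit 460)))) (B (M (nat_lit 491) (B (M (nat_lit 494) (B (lo114_15_3 (nat_lit 492)) (lo110_14_0 (nat_lit 460)))) (B (M (nat_lit 523) (B (lo111_16_6 (nat_lit 396)) (M (nat_lit 460) (B (lo110_14_0 (nat_lit 494)) (lo111_17_6 (nat_lit 555)))))) (M (nat_lit 523) (B (lo111_16_6 (nat_lit 396)) (M (nat_lit 426) (B (lo111_17_7 (nat_lit 555)) (lo111_16_7 (nat_lit 394))))))))) (M (nat_lit 460) (B (lo19_14_2 (nat_lit 457)) (lo110_14_0 (nat_lit 494)))))))) (M (nat_lit 491) (B (M (nat_lit 396) (B (lo111_16_6 (nat_lit 523)) (M (nat_lit 364) (B (lo111_15_6 (nat_lit 395)) (lo112_10_5 (nat_lit 332)))))) (B (M (nat_lit 458) (B (M (nat_lit 457) (B (lo18_14_2 (nat_lit 456)) (lo113_13_1 (nat_lit 426)))) (B (M (nat_lit 492) (B (lo114_15_3 (nat_lit 494)) (M (nat_lit 457) (B (lo113_15_3 (nat_lit 490)) (lo113_13_1 (nat_lit 426)))))) (M (nat_lit 395) (B (M (nat_lit 490) (B (lo111_12_5 (nat_lit 522)) (lo111_11_5 (nat_lit 363)))) (M (nat_lit 492) (B (lo114_15_3 (nat_lit 494)) (lo111_12_4 (nat_lit 524))))))))) (M (nat_lit 523) (B (lo111_16_6 (nat_lit 396)) (M (nat_lit 426) (B (lo111_16_7 (nat_lit 394)) (M (nat_lit 458) (B (lo113_13_1 (nat_lit 457)) (lo111_17_7 (nat_lit 555)))))))))))))))))))))))))) (B (M (nat_lit 426) (B (K _ _ _ o1_s10045) (B (M (nat_lit 461) (B (lo110_13_0 (nat_lit 462)) (M (nat_lit 460) (B (lo19_13_0 (nat_lit 425)) (M (nat_lit 396) (B (M (nat_lit 364) (B (lo112_11_4 (nat_lit 493)) (lo112_10_4 (nat_lit 332)))) (B (M (nat_lit 492) (B (M (nat_lit 395) (B (lo112_16_7 (nat_lit 524)) (lo112_15_7 (nat_lit 363)))) (B (M (nat_lit 524) (B (lo112_17_6 (nat_lit 556)) (M (nat_lit 523) (B (lo112_13_5 (nat_lit 555)) (lo112_12_5 (nat_lit 491)))))) (M (nat_lit 491) (B (lo112_12_5 (nat_lit 523)) (M (nat_lit 490) (B (lo19_15_2 (nat_lit 489)) (M (nat_lit 522) (B (M (nat_lit 493) (B (lo113_15_1 (nat_lit 521)) (lo112_12_4 (nat_lit 525)))) (M (nat_lit 395) (B (lo110_16_6 (nat_lit 458)) (lo112_15_7 (nat_lit 363))))))))))))) (M (nat_lit 492) (B (M (nat_lit 395) (B (lo112_16_7 (nat_lit 524)) (lo112_15_7 (nat_lit 363)))) (B (M (nat_lit 524) (B (lo112_17_6 (nat_lit 556)) (M (nat_lit 523) (B (lo112_13_5 (nat_lit 555)) (lo112_12_5 (nat_lit 491)))))) (M (nat_lit 363) (B (lo112_15_7 (nat_lit 395)) (M (nat_lit 364) (B (lo112_14_7 (nat_lit 331)) (lo112_10_4 (nat_lit 332)))))))))))))))) (M (nat_lit 425) (B (M (nat_lit 393) (B (lo112_13_3 (nat_lit 392)) (lo113_13_3 (nat_lit 394)))) (M (nat_lit 461) (B (lo19_13_0 (nat_lit 460)) (lo110_13_0 (nat_lit 462))))))))) (B (M (nat_lit 426) (B (M (nat_lit 425) (B (M (nat_lit 393) (B (lo112_13_3 (nat_lit 392)) (lo113_13_3 (nat_lit 394)))) (M (nat_lit 461) (B (lo19_13_0 (nat_lit 460)) (lo110_13_0 (nat_lit 462)))))) (B (M (nat_lit 461) (B (lo110_13_0 (nat_lit 462)) (M (nat_lit 457) (B (lo113_13_1 (nat_lit 458)) (M (nat_lit 425) (B (lo112_13_1 (nat_lit 456)) (lo19_13_0 (nat_lit 460)))))))) (B (M (nat_lit 459) (B (M (nat_lit 394) (B (lo113_13_3 (nat_lit 393)) (M (nat_lit 458) (B (lo113_13_1 (nat_lit 457)) (M (nat_lit 362) (B (lo110_11_4 (nat_lit 491)) (lo110_10_4 (nat_lit 330)))))))) (B (M (nat_lit 394) (B (lo113_13_3 (nat_lit 393)) (M (nat_lit 362) (B (lo110_10_4 (nat_lit 330)) (M (nat_lit 491) (B (lo110_11_4 (nat_lit 458)) (lo111_16_7 (nat_lit 523)))))))) (B (M (nat_lit 396) (B (M (nat_lit 364) (B (lo112_10_5 (nat_lit 332)) (M (nat_lit 491) (B (lo111_16_6 (nat_lit 523)) (lo112_11_5 (nat_lit 460)))))) (B (M (nat_lit 364) (B (lo112_10_5 (nat_lit 332)) (M (nat_lit 491) (B (lo111_15_6 (nat_lit 395)) (lo112_11_5 (nat_lit 460)))))) (B (M (nat_lit 364) (B (lo112_10_5 (nat_lit 332)) (M (nat_lit 461) (B (lo110_13_0 (nat_lit 462)) (M (nat_lit 493) (B (lo112_11_4 (nat_lit 460)) (lo113_16_7 (nat_lit 525)))))))) (B (M (nat_lit 364) (B (lo112_10_5 (nat_lit 332)) (M (nat_lit 491) (B (lo111_16_6 (nat_lit 523)) (lo111_15_6 (nat_lit 395)))))) (M (nat_lit 461) (B (lo110_13_0 (nat_lit 462)) (M (nat_lit 458) (B (lo113_13_1 (nat_lit 457)) (M (nat_lit 493) (B (lo113_16_7 (nat_lit 525)) (M (nat_lit 491) (B (lo111_16_6 (nat_lit 523)) (M (nat_lit 494) (B (lo114_15_3 (nat_lit 492)) (lo110_14_0 (nat_lit 460))))))))))))))))) (B (M (nat_lit 394) (B (lo113_13_3 (nat_lit 393)) (M (nat_lit 362) (B (lo110_10_4 (nat_lit 330)) (M (nat_lit 491) (B (lo111_16_7 (nat_lit 523)) (lo111_15_7 (nat_lit 395)))))))) (M (nat_lit 363) (B (M (nat_lit 394) (B (lo113_13_3 (nat_lit 393)) (M (nat_lit 458) (B (lo113_13_1 (nat_lit 457)) (M (nat_lit 362) (B (lo110_14_6 (nat_lit 331)) (lo110_10_4 (nat_lit 330)))))))) (B (M (nat_lit 394) (B (lo113_13_3 (nat_lit 393)) (M (nat_lit 331) (B (M (nat_lit 362) (B (lo110_14_6 (nat_lit 458)) (lo110_10_4 (nat_lit 330)))) (M (nat_lit 395) (B (lo111_9_5 (nat_lit 299)) (lo111_10_4 (nat_lit 460)))))))) (B (M (nat_lit 458) (B (lo113_13_1 (nat_lit 457)) (M (nat_lit 362) (B (M (nat_lit 331) (B (lo110_14_6 (nat_lit 394)) (lo111_10_5 (nat_lit 395)))) (B (M (nat_lit 395) (B (lo111_10_5 (nat_lit 331)) (lo111_14_7 (nat_lit 330)))) (B (M (nat_lit 394) (B (lo110_14_6 (nat_lit 331)) (lo110_10_4 (nat_lit 330)))) (M (nat_lit 330) (B (lo110_10_4 (nat_lit 394)) (lo111_14_7 (nat_lit 395)))))))))) (B (M (nat_lit 395) (B (M (nat_lit 460) (B (lo111_11_4 (nat_lit 492)) (lo111_10_4 (nat_lit 331)))) (M (nat_lit 362) (B (lo111_14_7 (nat_lit 330)) (M (nat_lit 361) (B (M (nat_lit 360) (B (lo18_11_0 (nat_lit 396)) (M (nat_lit 394) (B (lo17_11_0 (nat_lit 359)) (lo113_13_3 (nat_lit 393)))))) (B (M (nat_lit 393) (B (lo113_13_3 (nat_lit 394)) (M (nat_lit 364) (B (lo112_11_1 (nat_lit 392)) (lo111_14_6 (nat_lit 332)))))) (M (nat_lit 328) (B (M (nat_lit 360) (B (lo111_11_3 (nat_lit 327)) (lo18_11_0 (nat_lit 396)))) (M (nat_lit 364) (B (lo112_11_3 (nat_lit 329)) (lo111_14_6 (nat_lit 332))))))))))))) (B (M (nat_lit 460) (B (M (nat_lit 395) (B (lo111_11_4 (nat_lit 492)) (lo111_10_4 (nat_lit 331)))) (M (nat_lit 461) (B (lo114_14_3 (nat_lit 462)) (M (nat_lit 493) (B (M (nat_lit 458) (B (lo113_13_1 (nat_lit 457)) (lo110_14_0 (nat_lit 494)))) (M (nat_lit 525) (B (lo113_17_7 (nat_lit 557)) (lo113_16_7 (nat_lit 396)))))))))) (M (nat_lit 362) (B (M (nat_lit 394) (B (lo113_13_3 (nat_lit 393)) (lo110_10_4 (nat_lit 330)))) (B (M (nat_lit 330) (B (lo110_10_4 (nat_lit 394)) (lo111_14_7 (nat_lit 395)))) (B (M (nat_lit 460) (B (M (nat_lit 395) (B (lo111_14_7 (nat_lit 330)) (lo111_11_4 (nat_lit 492)))) (M (nat_lit 461) (B (lo114_14_3 (nat_lit 462)) (M (nat_lit 493) (B (M (nat_lit 458) (B (lo113_13_1 (nat_lit 457)) (lo110_14_0 (nat_lit 494)))) (M (nat_lit 525) (B (lo113_17_7 (nat_lit 557)) (lo113_16_7 (nat_lit 396)))))))))) (M (nat_lit 364) (B (M (nat_lit 332) (B (lo111_14_6 (nat_lit 395)) (lo112_10_5 (nat_lit 396)))) (M (nat_lit 361) (B (M (nat_lit 393) (B (lo112_11_1 (nat_lit 392)) (lo113_13_3 (nat_lit 394)))) (B (M (nat_lit 329) (B (lo112_11_3 (nat_lit 328)) (M (nat_lit 458) (B (lo113_13_1 (nat_lit 457)) (lo110_14_7 (nat_lit 394)))))) (M (nat_lit 360) (B (M (nat_lit 392) (B (lo111_11_1 (nat_lit 391)) (lo112_11_1 (nat_lit 393)))) (M (nat_lit 328) (B (lo111_11_3 (nat_lit 327)) (lo112_11_3 (nat_lit 329)))))))))))))))))))))))))) (M (nat_lit 425) (B (M (nat_lit 457) (B (lo112_13_1 (nat_lit 456)) (lo113_13_1 (nat_lit 458)))) (M (nat_lit 393) (B (lo112_13_3 (nat_lit 392)) (lo113_13_3 (nat_lit 394)))))))))) (B (M (nat_lit 426) (B (K _ _ _ o1_s9087) (B (M (nat_lit 425) (B (M (nat_lit 461) (B (lo110_13_0 (nat_lit 462)) (lo19_13_0 (nat_lit 460)))) (M (nat_lit 457) (B (lo112_13_1 (nat_lit 456)) (lo113_13_1 (nat_lit 458)))))) (M (nat_lit 425) (B (M (nat_lit 393) (B (lo112_13_3 (nat_lit 392)) (lo113_13_3 (nat_lit 394)))) (M (nat_lit 461) (B (lo19_13_0 (nat_lit 460)) (lo110_13_0 (nat_lit 462))))))))) (B (M (nat_lit 426) (B (M (nat_lit 425) (B (M (nat_lit 457) (B (lo112_13_1 (nat_lit 456)) (lo113_13_1 (nat_lit 458)))) (M (nat_lit 393) (B (lo112_13_3 (nat_lit 392)) (lo113_13_3 (nat_lit 394)))))) (B (M (nat_lit 393) (B (lo113_13_3 (nat_lit 394)) (M (nat_lit 425) (B (lo112_13_3 (nat_lit 392)) (M (nat_lit 461) (B (lo19_13_0 (nat_lit 460)) (lo110_13_0 (nat_lit 462)))))))) (B (M (nat_lit 425) (B (M (nat_lit 457) (B (lo112_13_1 (nat_lit 456)) (lo113_13_1 (nat_lit 458)))) (M (nat_lit 461) (B (lo19_13_0 (nat_lit 460)) (lo110_13_0 (nat_lit 462)))))) (M (nat_lit 394) (B (lo113_13_3 (nat_lit 393)) (M (nat_lit 458) (B (lo113_13_1 (nat_lit 457)) (M (nat_lit 490) (B (M (nat_lit 395) (B (lo110_16_6 (nat_lit 522)) (lo110_15_6 (nat_lit 363)))) (B (M (nat_lit 362) (B (M (nat_lit 363) (B (lo110_15_6 (nat_lit 395)) (lo110_14_6 (nat_lit 331)))) (B (M (nat_lit 330) (B (M (nat_lit 329) (B (lo110_14_7 (nat_lit 361)) (lo110_13_7 (nat_lit 297)))) (M (nat_lit 331) (B (lo110_14_6 (nat_lit 363)) (lo110_13_6 (nat_lit 299)))))) (B (M (nat_lit 330) (B (M (nat_lit 329) (B (lo110_14_7 (nat_lit 361)) (lo110_13_7 (nat_lit 297)))) (M (nat_lit 298) (B (lo110_9_4 (nat_lit 395)) (M (nat_lit 299) (B (lo110_13_6 (nat_lit 331)) (lo110_12_6 (nat_lit 267)))))))) (M (nat_lit 330) (B (M (nat_lit 329) (B (lo110_14_7 (nat_lit 361)) (lo110_13_7 (nat_lit 297)))) (M (nat_lit 395) (B (lo110_15_6 (nat_lit 363)) (lo110_9_4 (nat_lit 298)))))))))) (M (nat_lit 522) (B (M (nat_lit 521) (B (lo110_13_5 (nat_lit 553)) (lo110_12_5 (nat_lit 489)))) (M (nat_lit 523) (B (lo110_13_4 (nat_lit 555)) (lo110_12_4 (nat_lit 491))))))))))))))))) (B (M (nat_lit 426) (B (M (nat_lit 461) (B (lo110_13_0 (nat_lit 462)) (M (nat_lit 425) (B (lo19_13_0 (nat_lit 460)) (M (nat_lit 457) (B (lo113_13_1 (nat_lit 458)) (lo112_13_1 (nat_lit 456)))))))) (B (M (nat_lit 457) (B (lo113_13_1 (nat_lit 458)) (M (nat_lit 425) (B (lo112_13_1 (nat_lit 456)) (M (nat_lit 393) (B (lo113_13_3 (nat_lit 394)) (lo112_13_3 (nat_lit 392)))))))) (B (M (nat_lit 461) (B (lo110_13_0 (nat_lit 462)) (M (nat_lit 425) (B (lo19_13_0 (nat_lit 460)) (M (nat_lit 393) (B (lo113_13_3 (nat_lit 394)) (lo112_13_3 (nat_lit 392)))))))) (M (nat_lit 461) (B (lo110_13_0 (nat_lit 462)) (M (nat_lit 396) (B (M (nat_lit 364) (B (lo112_10_4 (nat_lit 332)) (M (nat_lit 493) (B (lo113_16_7 (nat_lit 525)) (lo112_11_4 (nat_lit 460)))))) (B (M (nat_lit 364) (B (lo112_10_4 (nat_lit 332)) (M (nat_lit 460) (B (lo112_11_4 (nat_lit 493)) (M (nat_lit 492) (B (M (nat_lit 491) (B (lo112_12_5 (nat_lit 523)) (lo112_11_5 (nat_lit 459)))) (M (nat_lit 363) (B (lo112_15_7 (nat_lit 395)) (lo112_14_7 (nat_lit 331)))))))))) (B (M (nat_lit 459) (B (M (nat_lit 364) (B (lo112_10_4 (nat_lit 332)) (M (nat_lit 491) (B (lo112_11_5 (nat_lit 460)) (lo111_16_6 (nat_lit 523)))))) (B (M (nat_lit 364) (B (lo112_10_4 (nat_lit 332)) (M (nat_lit 491) (B (lo111_16_6 (nat_lit 523)) (lo111_15_6 (nat_lit 395)))))) (M (nat_lit 458) (B (lo113_13_1 (nat_lit 457)) (M (nat_lit 394) (B (lo113_13_3 (nat_lit 393)) (M (nat_lit 490) (B (M (nat_lit 395) (B (lo111_11_5 (nat_lit 363)) (lo110_16_6 (nat_lit 522)))) (M (nat_lit 489) (B (lo113_14_1 (nat_lit 460)) (lo110_12_5 (nat_lit 521))))))))))))) (B (M (nat_lit 458) (B (lo113_13_1 (nat_lit 457)) (M (nat_lit 394) (B (lo113_13_3 (nat_lit 393)) (M (nat_lit 491) (B (M (nat_lit 523) (B (lo111_16_6 (nat_lit 459)) (lo110_12_4 (nat_lit 490)))) (B (M (nat_lit 395) (B (M (nat_lit 364) (B (lo112_10_4 (nat_lit 332)) (lo111_15_6 (nat_lit 459)))) (M (nat_lit 490) (B (lo110_16_6 (nat_lit 522)) (lo110_15_6 (nat_lit 363)))))) (B (M (nat_lit 490) (B (lo110_12_4 (nat_lit 523)) (M (nat_lit 395) (B (lo110_16_6 (nat_lit 522)) (lo110_15_6 (nat_lit 363)))))) (M (nat_lit 459) (B (lo111_16_6 (nat_lit 523)) (M (nat_lit 364) (B (lo112_10_4 (nat_lit 332)) (lo111_15_6 (nat_lit 395)))))))))))))) (M (nat_lit 458) (B (lo113_13_1 (nat_lit 457)) (M (nat_lit 491) (B (M (nat_lit 394) (B (lo113_13_3 (nat_lit 393)) (M (nat_lit 523) (B (lo111_16_6 (nat_lit 459)) (lo110_12_4 (nat_lit 490)))))) (B (M (nat_lit 490) (B (M (nat_lit 395) (B (lo110_16_6 (nat_lit 522)) (M (nat_lit 363) (B (lo111_10_5 (nat_lit 331)) (lo110_15_6 (nat_lit 394)))))) (B (M (nat_lit 489) (B (M (nat_lit 460) (B (lo19_15_2 (nat_lit 492)) (lo113_14_1 (nat_lit 459)))) (M (nat_lit 394) (B (lo113_13_3 (nat_lit 393)) (lo110_12_5 (nat_lit 521)))))) (M (nat_lit 395) (B (lo110_16_6 (nat_lit 522)) (M (nat_lit 363) (B (lo111_11_5 (nat_lit 459)) (lo111_10_5 (nat_lit 331))))))))) (B (M (nat_lit 394) (B (lo113_13_3 (nat_lit 393)) (M (nat_lit 490) (B (lo110_12_4 (nat_lit 523)) (M (nat_lit 395) (B (lo110_16_6 (nat_lit 522)) (lo110_15_6 (nat_lit 363)))))))) (M (nat_lit 459) (B (lo111_16_6 (nat_lit 523)) (M (nat_lit 493) (B (lo113_16_7 (nat_lit 525)) (M (nat_lit 494) (B (lo110_14_0 (nat_lit 460)) (lo114_15_3 (nat_lit 492))))))))))))))))))))))))) (B (M (nat_lit 426) (B (M (nat_lit 457) (B (lo113_13_1 (nat_lit 458)) (M (nat_lit 425) (B (lo112_13_1 (nat_lit 456)) (M (nat_lit 393) (B (lo112_13_3 (nat_lit 392)) (lo113_13_3 (nat_lit 394)))))))) (B (M (nat_lit 425) (B (M (nat_lit 457) (B (lo112_13_1 (nat_lit 456)) (lo113_13_1 (nat_lit 458)))) (M (nat_lit 461) (B (lo19_13_0 (nat_lit 460)) (lo110_13_0 (nat_lit 462)))))) (B (M (nat_lit 458) (B (lo113_13_1 (nat_lit 457)) (M (nat_lit 490) (B (M (nat_lit 522) (B (lo110_16_6 (nat_lit 395)) (M (nat_lit 554) (B (lo110_17_6 (nat_lit 459)) (M (nat_lit 553) (B (lo110_13_5 (nat_lit 521)) (lo110_14_5 (nat_lit 585)))))))) (B (M (nat_lit 522) (B (M (nat_lit 394) (B (lo113_13_3 (nat_lit 393)) (M (nat_lit 521) (B (lo110_12_5 (nat_lit 489)) (lo110_13_5 (nat_lit 553)))))) (B (M (nat_lit 554) (B (lo110_17_6 (nat_lit 459)) (M (nat_lit 553) (B (lo110_13_5 (nat_lit 521)) (lo110_14_5 (nat_lit 585)))))) (M (nat_lit 394) (B (lo113_13_3 (nat_lit 393)) (M (nat_lit 523) (B (lo110_12_4 (nat_lit 491)) (lo110_13_4 (nat_lit 555))))))))) (B (M (nat_lit 522) (B (lo110_16_6 (nat_lit 395)) (M (nat_lit 394) (B (lo113_13_3 (nat_lit 393)) (M (nat_lit 523) (B (lo110_12_4 (nat_lit 491)) (lo110_13_4 (nat_lit 555)))))))) (M (nat_lit 394) (B (lo113_13_3 (nat_lit 393)) (M (nat_lit 459) (B (M (nat_lit 491) (B (lo110_11_4 (nat_lit 362)) (lo111_16_7 (nat_lit 523)))) (M (nat_lit 461) (B (lo110_13_0 (nat_lit 462)) (M (nat_lit 489) (B (lo110_12_5 (nat_lit 521)) (lo113_14_1 (nat_lit 460)))))))))))))))) (M (nat_lit 425) (B (M (nat_lit 393) (B (lo112_13_3 (nat_lit 392)) (lo113_13_3 (nat_lit 394)))) (M (nat_lit 461) (B (lo19_13_0 (nat_lit 460)) (lo110_13_0 (nat_lit 462)))))))))) (M (nat_lit 426) (B (M (nat_lit 461) (B (lo110_13_0 (nat_lit 462)) (M (nat_lit 425) (B (lo19_13_0 (nat_lit 460)) (M (nat_lit 393) (B (lo113_13_3 (nat_lit 394)) (lo112_13_3 (nat_lit 392)))))))) (B (M (nat_lit 393) (B (lo113_13_3 (nat_lit 394)) (M (nat_lit 425) (B (lo112_13_3 (nat_lit 392)) (M (nat_lit 457) (B (lo113_13_1 (nat_lit 458)) (lo112_13_1 (nat_lit 456)))))))) (B (M (nat_lit 425) (B (M (nat_lit 461) (B (lo110_13_0 (nat_lit 462)) (lo19_13_0 (nat_lit 460)))) (M (nat_lit 457) (B (lo113_13_1 (nat_lit 458)) (lo112_13_1 (nat_lit 456)))))) (M (nat_lit 394) (B (lo113_13_3 (nat_lit 393)) (M (nat_lit 458) (B (lo113_13_1 (nat_lit 457)) (M (nat_lit 461) (B (lo110_13_0 (nat_lit 462)) (M (nat_lit 459) (B (M (nat_lit 362) (B (lo110_10_4 (nat_lit 330)) (lo110_11_4 (nat_lit 491)))) (M (nat_lit 490) (B (M (nat_lit 395) (B (lo111_11_5 (nat_lit 363)) (lo110_16_6 (nat_lit 522)))) (M (nat_lit 489) (B (lo113_14_1 (nat_lit 460)) (lo110_12_5 (nat_lit 521))))))))))))))))))))))))))))))))))) _ _ _ (by decide +kernel)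
theorem o1_s31337 : Sem (nat_lit 2079502270590611144683810638107312777577327806531862431377859685460965980854219217279980804578104683573043408221052678871730618368) (nat_lit 1013065326084944732796860122730947943145951630956028801499749496593193488140996489397781370348955479373032497821731612744238765795681933688740094738044886526681821772158945198080) (nat_lit 1013065326084944732796860122730947943145951630956028801499749496593193488140996489397781370348955479373032497821731612744238765795681933688740094738044886526681821772158945198080) := sem_of_chk (M (nat_lit 364) (B (M (nat_lit 396) (B (M (nat_lit 461) (B (lo112_10_4 (nat_lit 332)) (M (nat_lit 493) (B (lo113_15_7 (nat_lit 397)) (lo113_16_7 (nat_lit 525)))))) (B (K _ _ _ o1_s28776) (B (M (nat_lit 461) (B (lo112_10_4 (nat_lit 332)) (M (nat_lit 493) (B (lo112_11_4 (nat_lit 460)) (lo113_16_7 (nat_lit 525)))))) (M (nat_lit 397)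 (B (M (nat_lit 427) (B (M (nat_lit 426) (B (lo19_13_2 (nat_lit 425)) (lo110_13_2 (nat_lit 398)))) (M (nat_lit 332) (B (lo112_10_5 (nat_lit 459)) (lo112_9_4 (nat_lit 300)))))) (B (M (nat_lit 427) (B (M (nat_lit 332) (B (lo112_10_5 (nat_lit 459)) (lo112_9_4 (nat_lit 300)))) (M (nat_lit 398) (B (lo110_13_2 (nat_lit 426)) (lo115_12_1 (nat_lit 399)))))) (B (M (nat_lit 460) (B (M (nat_lit 365) (B (lo112_14_6 (nat_lit 333)) (lo112_15_6 (nat_lit 492)))) (M (nat_lit 332) (B (lo112_9_4 (nat_lit 300)) (M (nat_lit 459) (B (lo112_10_5 (nat_lit 427)) (lo112_11_5 (nat_lit 491)))))))) (M (nat_lit 363) (B (M (nat_lit 362) (B (lo19_11_0 (nat_lit 361)) (M (nat_lit 398) (B (lo114_12_3 (nat_lit 395)) (lo115_12_3 (nat_lit 399)))))) (B (M (nat_lit 460) (B (lo112_14_7 (nat_lit 331)) (M (nat_lit 492) (B (lo112_15_7 (nat_lit 395)) (lo112_15_6 (nat_lit 365)))))) (M (nat_lit 460) (B (lo112_14_7 (nat_lit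 331)) (M (nat_lit 365) (B (lo112_14_6 (nat_lit 333)) (lo112_15_6 (nat_lit 492))))))))))))))))) (B (M (nat_lit 396) (B (M (nat_lit 461) (B (lo112_10_4 (nat_lit 332)) (M (nat_lit 493) (B (lo112_11_4 (nat_lit 460)) (lo113_16_7 (nat_lit 525)))))) (B (M (nat_lit 460) (B (M (nat_lit 492) (B (M (nat_lit 363) (B (lo112_14_7 (nat_lit 331)) (lo112_15_7 (nat_lit 395)))) (M (nat_lit 493) (B (lo112_11_4 (nat_lit 461)) (lo112_12_4 (nat_lit 525)))))) (B (M (nat_lit 492) (B (M (nat_lit 491) (B (lo112_11_5 (nat_lit 459)) (lo112_12_5 (nat_lit 523)))) (M (nat_lit 493) (B (lo112_11_4 (nat_lit 461)) (lo112_12_4 (nat_lit 525)))))) (B (K _ _ _ o1_s28813) (M (nat_lit 363) (B (lo112_14_7 (nat_lit 331)) (M (nat_lit 492) (B (lo112_15_7 (nat_lit 395)) (M (nat_lit 491) (B (lo112_11_5 (nat_lit 459)) (lo112_12_5 (nat_lit 523)))))))))))) (B (M (nat_lit 461) (B (lo112_10_4 (nat_lit 332)) (M (nat_lit 493) (B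 (lo113_15_7 (nat_lit 397)) (lo113_16_7 (nat_lit 525)))))) (K _ _ _ o1_s28837))))) (B (M (nat_lit 365) (B (K _ _ _ o1_s28853) (B (K _ _ _ o1_s28876) (B (K _ _ _ o1_s28901) (B (K _ _ _ o1_s28924) (B (K _ _ _ o1_s28935) (B (M (nat_lit 396) (B (M (nat_lit 333) (B (lo112_14_6 (nat_lit 460)) (M (nat_lit 332) (B (lo112_13_6 (nat_lit 301)) (lo112_10_4 (nat_lit 461)))))) (B (K _ _ _ o1_s28940) (B (K _ _ _ o1_s28941) (M (nat_lit 333) (B (lo112_14_6 (nat_lit 460)) (M (nat_lit 301) (B (lo112_13_6 (nat_lit 332)) (lo113_8_5 (nat_lit 269)))))))))) (K _ _ _ o1_s28953)))))))) (B (K _ _ _ o1_s29030) (B (K _ _ _ o1_s29032) (B (K _ _ _ o1_s29076) (B (M (nat_lit 396) (B (M (nat_lit 461) (B (lo112_10_4 (nat_lit 332)) (M (nat_lit 493) (B (lo113_15_7 (nat_lit 397)) (lo113_16_7 (nat_lit 525)))))) (B (M (nat_lit 365) (B (M (nat_lit 460) (B (lo112_14_6 (nat_lit 333)) (M (nat_lit 492) (B (lo112_15_6 (nat_lit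 397)) (M (nat_lit 363) (B (lo112_14_7 (nat_lit 331)) (lo112_15_7 (nat_lit 395)))))))) (B (M (nat_lit 460) (B (lo112_14_6 (nat_lit 333)) (M (nat_lit 492) (B (lo112_15_6 (nat_lit 397)) (M (nat_lit 493) (B (lo112_11_4 (nat_lit 461)) (lo112_12_4 (nat_lit 525)))))))) (B (M (nat_lit 366) (B (M (nat_lit 395) (B (lo115_11_1 (nat_lit 367)) (M (nat_lit 394) (B (lo19_12_2 (nat_lit 393)) (lo110_12_2 (nat_lit 397)))))) (B (M (nat_lit 395) (B (lo115_11_1 (nat_lit 367)) (M (nat_lit 394) (B (lo114_11_1 (nat_lit 363)) (lo110_12_2 (nat_lit 397)))))) (B (M (nat_lit 397) (B (M (nat_lit 367) (B (lo115_11_1 (nat_lit 395)) (lo116_11_1 (nat_lit 368)))) (M (nat_lit 461) (B (lo113_15_7 (nat_lit 493)) (lo113_14_6 (nat_lit 334)))))) (B (K _ _ _ o1_s29103) (B (M (nat_lit 395) (B (lo115_11_1 (nat_lit 367)) (M (nat_lit 394) (B (lo19_12_2 (nat_lit 393)) (lo114_11_1 (nat_lit 363)))))) (K _ _ _ o1_s29122)))))))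 (B (M (nat_lit 461) (B (M (nat_lit 493) (B (lo112_11_4 (nat_lit 460)) (lo113_15_7 (nat_lit 397)))) (B (M (nat_lit 493) (B (lo113_15_7 (nat_lit 397)) (lo113_16_7 (nat_lit 525)))) (B (M (nat_lit 493) (B (lo112_11_4 (nat_lit 460)) (lo113_16_7 (nat_lit 525)))) (M (nat_lit 397) (B (M (nat_lit 366) (B (lo113_14_6 (nat_lit 334)) (M (nat_lit 395) (B (lo110_12_2 (nat_lit 394)) (lo115_11_1 (nat_lit 367)))))) (M (nat_lit 363) (B (M (nat_lit 362) (B (lo19_11_0 (nat_lit 361)) (lo110_11_0 (nat_lit 398)))) (M (nat_lit 460) (B (lo112_14_7 (nat_lit 331)) (lo112_15_6 (nat_lit 492)))))))))))) (K _ _ _ o1_s28940)))))) (B (M (nat_lit 461) (B (lo112_10_4 (nat_lit 332)) (M (nat_lit 493) (B (lo112_11_4 (nat_lit 460)) (lo113_16_7 (nat_lit 525)))))) (K _ _ _ o1_s28837))))) (B (K _ _ _ o1_s29145) (B (M (nat_lit 363) (B (M (nat_lit 396) (B (M (nat_lit 331) (B (lo112_14_7 (nat_lit 460)) (M (nat_lit 299)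 (B (lo111_8_4 (nat_lit 267)) (lo111_9_4 (nat_lit 395)))))) (B (M (nat_lit 460) (B (lo112_14_7 (nat_lit 331)) (M (nat_lit 492) (B (lo112_15_7 (nat_lit 395)) (M (nat_lit 365) (B (lo112_14_6 (nat_lit 333)) (lo112_15_6 (nat_lit 397)))))))) (B (K _ _ _ o1_s29171) (B (K _ _ _ o1_s29176) (M (nat_lit 362) (B (M (nat_lit 397) (B (lo19_11_0 (nat_lit 361)) (M (nat_lit 398) (B (lo114_12_3 (nat_lit 395)) (lo110_11_0 (nat_lit 365)))))) (B (K _ _ _ o1_s29185) (B (M (nat_lit 397) (B (lo19_11_0 (nat_lit 361)) (M (nat_lit 398) (B (lo110_11_0 (nat_lit 365)) (lo115_12_3 (nat_lit 399)))))) (B (M (nat_lit 397) (B (lo19_11_0 (nat_lit 361)) (M (nat_lit 398) (B (lo114_12_3 (nat_lit 395)) (lo115_12_3 (nat_lit 399)))))) (M (nat_lit 361) (B (M (nat_lit 393) (B (lo112_11_1 (nat_lit 392)) (M (nat_lit 394) (B (lo113_11_1 (nat_lit 365)) (lo19_12_0 (nat_lit 395)))))) (B (M (nat_lit 328) (B (lo112_11_3 (nat_lit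 329)) (M (nat_lit 360) (B (lo111_11_3 (nat_lit 327)) (lo18_11_0 (nat_lit 395)))))) (M (nat_lit 365) (B (M (nat_lit 329) (B (lo112_11_3 (nat_lit 328)) (lo113_11_3 (nat_lit 330)))) (M (nat_lit 393) (B (lo112_11_1 (nat_lit 392)) (lo113_11_1 (nat_lit 394))))))))))))))))))) (B (M (nat_lit 365) (B (M (nat_lit 333) (B (M (nat_lit 460) (B (lo112_14_6 (nat_lit 396)) (lo113_10_5 (nat_lit 397)))) (M (nat_lit 334) (B (lo110_11_2 (nat_lit 362)) (M (nat_lit 335) (B (lo111_11_2 (nat_lit 366)) (lo116_10_1 (nat_lit 336)))))))) (B (K _ _ _ o1_s29226) (B (K _ _ _ o1_s29233) (B (K _ _ _ o1_s29253) (M (nat_lit 366) (B (M (nat_lit 362) (B (M (nat_lit 330) (B (lo113_11_3 (nat_lit 329)) (lo114_11_3 (nat_lit 331)))) (M (nat_lit 394) (B (lo113_11_1 (nat_lit 393)) (lo114_11_1 (nat_lit 395)))))) (M (nat_lit 367) (B (M (nat_lit 335) (B (lo111_11_2 (nat_lit 334)) (lo112_11_2 (nat_lit 336)))) (M (nat_lit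 399) (B (lo111_11_0 (nat_lit 398)) (lo112_11_0 (nat_lit 400))))))))))))) (B (M (nat_lit 460) (B (M (nat_lit 396) (B (lo112_14_7 (nat_lit 331)) (M (nat_lit 492) (B (lo112_15_7 (nat_lit 395)) (M (nat_lit 491) (B (lo112_11_5 (nat_lit 459)) (lo112_12_5 (nat_lit 523)))))))) (B (K _ _ _ o1_s29265) (B (K _ _ _ o1_s29267) (B (M (nat_lit 396) (B (lo112_14_7 (nat_lit 331)) (M (nat_lit 492) (B (lo112_15_7 (nat_lit 395)) (M (nat_lit 365) (B (lo112_14_6 (nat_lit 333)) (lo112_15_6 (nat_lit 397)))))))) (B (M (nat_lit 365) (B (M (nat_lit 397) (B (lo113_10_5 (nat_lit 333)) (M (nat_lit 492) (B (lo112_16_6 (nat_lit 524)) (lo113_11_5 (nat_lit 461)))))) (B (K _ _ _ o1_s29279) (M (nat_lit 395) (B (M (nat_lit 331) (B (lo111_10_4 (nat_lit 427)) (M (nat_lit 366) (B (lo114_11_3 (nat_lit 330)) (lo114_11_1 (nat_lit 394)))))) (B (M (nat_lit 394) (B (lo114_11_1 (nat_lit 366)) (M (nat_lit 393) (B (lo18_12_2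 (nat_lit 392)) (lo113_11_1 (nat_lit 362)))))) (M (nat_lit 427) (B (lo111_10_4 (nat_lit 331)) (M (nat_lit 492) (B (lo111_11_4 (nat_lit 459)) (lo112_16_7 (nat_lit 524)))))))))))) (M (nat_lit 365) (B (M (nat_lit 396) (B (lo112_14_7 (nat_lit 331)) (lo112_14_6 (nat_lit 333)))) (B (M (nat_lit 333) (B (lo112_14_6 (nat_lit 396)) (lo113_10_5 (nat_lit 397)))) (B (K _ _ _ o1_s29279) (M (nat_lit 331) (B (lo112_14_7 (nat_lit 396)) (M (nat_lit 366) (B (lo114_11_3 (nat_lit 330)) (M (nat_lit 395) (B (lo114_11_1 (nat_lit 394)) (lo111_10_4 (nat_lit 427)))))))))))))))))) (B (M (nat_lit 365) (B (K _ _ _ o1_s29226) (B (K _ _ _ o1_s29233) (B (M (nat_lit 366) (B (M (nat_lit 362) (B (M (nat_lit 330) (B (lo113_11_3 (nat_lit 329)) (lo114_11_3 (nat_lit 331)))) (M (nat_lit 334) (B (lo110_11_2 (nat_lit 333)) (lo111_11_2 (nat_lit 335)))))) (B (M (nat_lit 362) (B (M (nat_lit 334) (B (lo110_11_2 (nat_lit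 333)) (lo111_11_2 (nat_lit 335)))) (M (nat_lit 398) (B (lo110_11_0 (nat_lit 397)) (lo111_11_0 (nat_lit 399)))))) (M (nat_lit 367) (B (M (nat_lit 395) (B (lo114_11_1 (nat_lit 394)) (lo115_11_1 (nat_lit 396)))) (M (nat_lit 399) (B (lo111_11_0 (nat_lit 398)) (lo112_11_0 (nat_lit 400))))))))) (K _ _ _ o1_s29317))))) (B (M (nat_lit 396) (B (M (nat_lit 331) (B (lo112_14_7 (nat_lit 460)) (M (nat_lit 299) (B (lo111_8_4 (nat_lit 267)) (lo111_9_4 (nat_lit 395)))))) (B (M (nat_lit 460) (B (lo112_14_7 (nat_lit 331)) (M (nat_lit 492) (B (lo112_15_7 (nat_lit 395)) (M (nat_lit 365) (B (lo112_14_6 (nat_lit 333)) (lo112_15_6 (nat_lit 397)))))))) (B (K _ _ _ o1_s29171) (B (K _ _ _ o1_s29176) (M (nat_lit 362) (B (M (nat_lit 397) (B (lo19_11_0 (nat_lit 361)) (M (nat_lit 398) (B (lo114_12_3 (nat_lit 395)) (lo110_11_0 (nat_lit 365)))))) (B (M (nat_lit 365) (B (M (nat_lit 397) (B (lo110_11_0 (nat_lit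 398)) (M (nat_lit 333) (B (lo110_11_2 (nat_lit 334)) (lo113_9_5 (nat_lit 301)))))) (B (M (nat_lit 366) (B (M (nat_lit 394) (B (lo113_11_1 (nat_lit 393)) (lo114_11_1 (nat_lit 395)))) (M (nat_lit 398) (B (lo110_11_0 (nat_lit 397)) (lo111_11_0 (nat_lit 399)))))) (M (nat_lit 366) (B (M (nat_lit 394) (B (lo113_11_1 (nat_lit 393)) (lo114_11_1 (nat_lit 395)))) (M (nat_lit 334) (B (lo110_11_2 (nat_lit 333)) (lo111_11_2 (nat_lit 335))))))))) (B (M (nat_lit 397) (B (lo19_11_0 (nat_lit 361)) (M (nat_lit 398) (B (lo110_11_0 (nat_lit 365)) (lo115_12_3 (nat_lit 399)))))) (B (M (nat_lit 397) (B (lo19_11_0 (nat_lit 361)) (M (nat_lit 398) (B (lo114_12_3 (nat_lit 395)) (lo115_12_3 (nat_lit 399)))))) (K _ _ _ o1_s29333))))))))))) (B (M (nat_lit 460) (B (M (nat_lit 396) (B (lo112_14_7 (nat_lit 331)) (M (nat_lit 492) (B (lo112_15_7 (nat_lit 395)) (M (nat_lit 365) (B (lo112_14_6 (nat_lit 333)) (lo112_15_6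 (nat_lit 397)))))))) (B (K _ _ _ o1_s29265) (B (M (nat_lit 396) (B (lo112_14_7 (nat_lit 331)) (M (nat_lit 492) (B (M (nat_lit 491) (B (lo112_11_5 (nat_lit 459)) (lo112_12_5 (nat_lit 523)))) (M (nat_lit 493) (B (lo112_11_4 (nat_lit 461)) (lo112_12_4 (nat_lit 525)))))))) (B (M (nat_lit 365) (B (M (nat_lit 397) (B (lo113_10_5 (nat_lit 333)) (M (nat_lit 492) (B (lo112_16_6 (nat_lit 524)) (lo113_11_5 (nat_lit 461)))))) (B (K _ _ _ o1_s29342) (K _ _ _ o1_s29350)))) (M (nat_lit 365) (B (M (nat_lit 396) (B (lo112_14_7 (nat_lit 331)) (lo112_14_6 (nat_lit 333)))) (B (M (nat_lit 333) (B (lo112_14_6 (nat_lit 396)) (lo113_10_5 (nat_lit 397)))) (K _ _ _ o1_s29350))))))))) (B (M (nat_lit 365) (B (K _ _ _ o1_s29226) (B (K _ _ _ o1_s29357) (B (K _ _ _ o1_s29233) (B (M (nat_lit 366) (B (M (nat_lit 362) (B (M (nat_lit 330) (B (lo113_11_3 (nat_lit 329)) (lo114_11_3 (nat_lit 331)))) (M (nat_lit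 398) (B (lo110_11_0 (nat_lit 397)) (lo111_11_0 (nat_lit 399)))))) (B (M (nat_lit 362) (B (M (nat_lit 334) (B (lo110_11_2 (nat_lit 333)) (lo111_11_2 (nat_lit 335)))) (M (nat_lit 398) (B (lo110_11_0 (nat_lit 397)) (lo111_11_0 (nat_lit 399)))))) (B (M (nat_lit 367) (B (M (nat_lit 335) (B (lo111_11_2 (nat_lit 334)) (lo112_11_2 (nat_lit 336)))) (M (nat_lit 399) (B (lo111_11_0 (nat_lit 398)) (lo112_11_0 (nat_lit 400)))))) (M (nat_lit 362) (B (M (nat_lit 330) (B (lo113_11_3 (nat_lit 329)) (lo114_11_3 (nat_lit 331)))) (M (nat_lit 334) (B (lo110_11_2 (nat_lit 333)) (lo111_11_2 (nat_lit 335)))))))))) (K _ _ _ o1_s29317)))))) (B (M (nat_lit 365) (B (K _ _ _ o1_s29357) (B (K _ _ _ o1_s29371) (B (K _ _ _ o1_s29384) (B (M (nat_lit 362) (B (M (nat_lit 361) (B (M (nat_lit 329) (B (lo112_11_3 (nat_lit 328)) (lo113_11_3 (nat_lit 330)))) (M (nat_lit 397) (B (lo19_11_0 (nat_lit 396)) (lo110_11_0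 (nat_lit 398)))))) (B (M (nat_lit 361) (B (M (nat_lit 393) (B (lo112_11_1 (nat_lit 392)) (lo113_11_1 (nat_lit 394)))) (M (nat_lit 397) (B (lo19_11_0 (nat_lit 396)) (lo110_11_0 (nat_lit 398)))))) (B (M (nat_lit 366) (B (M (nat_lit 394) (B (lo113_11_1 (nat_lit 393)) (lo114_11_1 (nat_lit 395)))) (M (nat_lit 398) (B (lo110_11_0 (nat_lit 397)) (lo111_11_0 (nat_lit 399)))))) (M (nat_lit 361) (B (M (nat_lit 329) (B (lo112_11_3 (nat_lit 328)) (lo113_11_3 (nat_lit 330)))) (M (nat_lit 393) (B (lo112_11_1 (nat_lit 392)) (lo113_11_1 (nat_lit 394)))))))))) (K _ _ _ o1_s29393)))))) (B (M (nat_lit 396) (B (K _ _ _ o1_s29395) (B (M (nat_lit 365) (B (M (nat_lit 460) (B (lo112_14_6 (nat_lit 333)) (M (nat_lit 492) (B (lo112_15_6 (nat_lit 397)) (M (nat_lit 491) (B (lo112_11_5 (nat_lit 459)) (lo112_12_5 (nat_lit 523)))))))) (B (M (nat_lit 397) (B (M (nat_lit 362) (B (lo19_11_0 (nat_lit 361)) (lo110_11_0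 (nat_lit 398)))) (M (nat_lit 333) (B (lo112_14_6 (nat_lit 460)) (lo113_9_5 (nat_lit 301)))))) (B (M (nat_lit 397) (B (M (nat_lit 362) (B (lo19_11_0 (nat_lit 361)) (lo110_11_0 (nat_lit 398)))) (B (M (nat_lit 333) (B (lo113_9_5 (nat_lit 301)) (M (nat_lit 362) (B (lo110_11_2 (nat_lit 334)) (lo110_11_0 (nat_lit 398)))))) (M (nat_lit 334) (B (M (nat_lit 333) (B (lo113_9_5 (nat_lit 301)) (lo113_13_6 (nat_lit 302)))) (M (nat_lit 461) (B (lo113_15_7 (nat_lit 493)) (lo113_14_6 (nat_lit 366))))))))) (B (M (nat_lit 366) (B (M (nat_lit 398) (B (lo111_11_0 (nat_lit 399)) (M (nat_lit 397) (B (lo110_11_0 (nat_lit 362)) (M (nat_lit 334) (B (lo111_11_2 (nat_lit 335)) (lo114_9_5 (nat_lit 302)))))))) (B (K _ _ _ o1_s29431) (B (M (nat_lit 367) (B (M (nat_lit 335) (B (lo111_11_2 (nat_lit 334)) (lo112_11_2 (nat_lit 336)))) (M (nat_lit 399) (B (lo111_11_0 (nat_lit 398)) (lo112_11_0 (nat_lit 400))))))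 (M (nat_lit 362) (B (M (nat_lit 397) (B (lo19_11_0 (nat_lit 361)) (lo110_11_0 (nat_lit 398)))) (B (M (nat_lit 398) (B (lo110_11_0 (nat_lit 397)) (lo111_11_0 (nat_lit 399)))) (M (nat_lit 361) (B (M (nat_lit 329) (B (lo112_11_3 (nat_lit 328)) (lo113_11_3 (nat_lit 330)))) (M (nat_lit 393) (B (lo112_11_1 (nat_lit 392)) (lo113_11_1 (nat_lit 394))))))))))))) (M (nat_lit 333) (B (lo112_14_6 (nat_lit 460)) (M (nat_lit 334) (B (lo110_11_2 (nat_lit 362)) (M (nat_lit 335) (B (lo111_11_2 (nat_lit 366)) (lo116_10_1 (nat_lit 336))))))))))))) (B (K _ _ _ o1_s29176) (B (M (nat_lit 362) (B (M (nat_lit 397) (B (lo19_11_0 (nat_lit 361)) (M (nat_lit 398) (B (lo110_11_0 (nat_lit 365)) (lo115_12_3 (nat_lit 399)))))) (B (K _ _ _ o1_s29461) (B (M (nat_lit 361) (B (lo19_11_0 (nat_lit 397)) (M (nat_lit 360) (B (M (nat_lit 328) (B (lo111_11_3 (nat_lit 327)) (lo112_11_3 (nat_lit 329)))) (M (nat_lit 392)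 (B (lo111_11_1 (nat_lit 391)) (lo112_11_1 (nat_lit 393)))))))) (M (nat_lit 361) (B (M (nat_lit 365) (B (M (nat_lit 329) (B (lo112_11_3 (nat_lit 328)) (lo113_11_3 (nat_lit 330)))) (M (nat_lit 393) (B (lo112_11_1 (nat_lit 392)) (lo113_11_1 (nat_lit 394)))))) (B (M (nat_lit 393) (B (lo112_11_1 (nat_lit 392)) (M (nat_lit 394) (B (lo113_11_1 (nat_lit 365)) (M (nat_lit 426) (B (lo113_13_3 (nat_lit 427)) (M (nat_lit 329) (B (lo19_9_4 (nat_lit 297)) (lo110_14_7 (nat_lit 458)))))))))) (B (M (nat_lit 329) (B (lo112_11_3 (nat_lit 328)) (M (nat_lit 394) (B (M (nat_lit 365) (B (lo113_11_3 (nat_lit 330)) (lo113_11_1 (nat_lit 393)))) (B (M (nat_lit 426) (B (lo110_14_7 (nat_lit 458)) (M (nat_lit 297) (B (lo19_8_4 (nat_lit 265)) (lo110_13_7 (nat_lit 330)))))) (M (nat_lit 426) (B (lo110_14_7 (nat_lit 458)) (M (nat_lit 297) (B (lo19_8_4 (nat_lit 265)) (lo19_9_4 (nat_lit 393))))))))))) (B (M (nat_lit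 393) (B (lo112_11_1 (nat_lit 392)) (M (nat_lit 394) (B (lo113_11_1 (nat_lit 365)) (M (nat_lit 426) (B (lo113_13_3 (nat_lit 427)) (M (nat_lit 458) (B (lo110_15_7 (nat_lit 490)) (lo110_14_6 (nat_lit 331)))))))))) (B (M (nat_lit 360) (B (M (nat_lit 328) (B (lo111_11_3 (nat_lit 327)) (lo112_11_3 (nat_lit 329)))) (B (M (nat_lit 329) (B (lo112_11_3 (nat_lit 328)) (M (nat_lit 330) (B (lo113_11_3 (nat_lit 365)) (M (nat_lit 359) (B (lo16_11_2 (nat_lit 358)) (lo17_11_2 (nat_lit 331)))))))) (B (M (nat_lit 359) (B (M (nat_lit 391) (B (lo110_11_1 (nat_lit 390)) (lo111_11_1 (nat_lit 392)))) (M (nat_lit 330) (B (lo17_11_2 (nat_lit 331)) (M (nat_lit 329) (B (lo16_11_2 (nat_lit 358)) (lo113_11_3 (nat_lit 365)))))))) (M (nat_lit 359) (B (M (nat_lit 327) (B (lo110_11_3 (nat_lit 326)) (lo111_11_3 (nat_lit 328)))) (M (nat_lit 391) (B (lo110_11_1 (nat_lit 390)) (lo111_11_1 (nat_lit 392))))))))))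 (M (nat_lit 360) (B (M (nat_lit 328) (B (lo111_11_3 (nat_lit 327)) (lo112_11_3 (nat_lit 329)))) (M (nat_lit 392) (B (lo111_11_1 (nat_lit 391)) (lo112_11_1 (nat_lit 393)))))))))))))))) (K _ _ _ o1_s29513)))))) (B (K _ _ _ o1_s29523) (B (M (nat_lit 362) (B (M (nat_lit 394) (B (M (nat_lit 393) (B (lo113_11_1 (nat_lit 365)) (M (nat_lit 392) (B (lo17_12_2 (nat_lit 391)) (lo18_12_2 (nat_lit 395)))))) (B (M (nat_lit 393) (B (lo113_11_1 (nat_lit 365)) (M (nat_lit 392) (B (lo112_11_1 (nat_lit 361)) (lo18_12_2 (nat_lit 395)))))) (B (M (nat_lit 365) (B (lo113_11_1 (nat_lit 393)) (M (nat_lit 366) (B (lo114_11_1 (nat_lit 395)) (M (nat_lit 330) (B (lo113_11_3 (nat_lit 329)) (lo114_11_3 (nat_lit 331)))))))) (B (M (nat_lit 365) (B (M (nat_lit 366) (B (lo114_11_1 (nat_lit 395)) (M (nat_lit 330) (B (lo113_11_3 (nat_lit 329)) (lo114_11_3 (nat_lit 331)))))) (B (M (nat_lit 366) (B (lo114_11_1 (nat_lit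 395)) (M (nat_lit 334) (B (lo110_11_2 (nat_lit 333)) (lo111_11_2 (nat_lit 335)))))) (B (M (nat_lit 366) (B (M (nat_lit 330) (B (lo113_11_3 (nat_lit 329)) (lo114_11_3 (nat_lit 331)))) (M (nat_lit 334) (B (lo110_11_2 (nat_lit 333)) (lo111_11_2 (nat_lit 335)))))) (M (nat_lit 361) (B (M (nat_lit 329) (B (lo112_11_3 (nat_lit 328)) (lo113_11_3 (nat_lit 330)))) (M (nat_lit 397) (B (lo19_11_0 (nat_lit 396)) (lo110_11_0 (nat_lit 398)))))))))) (B (M (nat_lit 393) (B (lo113_11_1 (nat_lit 365)) (M (nat_lit 392) (B (lo17_12_2 (nat_lit 391)) (lo112_11_1 (nat_lit 361)))))) (K _ _ _ o1_s29563))))))) (B (M (nat_lit 365) (B (M (nat_lit 361) (B (M (nat_lit 393) (B (lo112_11_1 (nat_lit 392)) (lo113_11_1 (nat_lit 394)))) (M (nat_lit 397) (B (lo19_11_0 (nat_lit 396)) (lo110_11_0 (nat_lit 398)))))) (B (M (nat_lit 361) (B (M (nat_lit 329) (B (lo112_11_3 (nat_lit 328)) (lo113_11_3 (nat_lit 330))))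 (M (nat_lit 397) (B (lo19_11_0 (nat_lit 396)) (lo110_11_0 (nat_lit 398)))))) (B (M (nat_lit 366) (B (M (nat_lit 330) (B (lo113_11_3 (nat_lit 329)) (lo114_11_3 (nat_lit 331)))) (M (nat_lit 398) (B (lo110_11_0 (nat_lit 397)) (lo111_11_0 (nat_lit 399)))))) (M (nat_lit 361) (B (M (nat_lit 329) (B (lo112_11_3 (nat_lit 328)) (lo113_11_3 (nat_lit 330)))) (M (nat_lit 393) (B (lo112_11_1 (nat_lit 392)) (lo113_11_1 (nat_lit 394)))))))))) (B (M (nat_lit 365) (B (M (nat_lit 366) (B (M (nat_lit 330) (B (lo113_11_3 (nat_lit 329)) (lo114_11_3 (nat_lit 331)))) (M (nat_lit 334) (B (lo110_11_2 (nat_lit 333)) (lo111_11_2 (nat_lit 335)))))) (B (M (nat_lit 366) (B (M (nat_lit 334) (B (lo110_11_2 (nat_lit 333)) (lo111_11_2 (nat_lit 335)))) (M (nat_lit 398) (B (lo110_11_0 (nat_lit 397)) (lo111_11_0 (nat_lit 399)))))) (B (M (nat_lit 366) (B (M (nat_lit 330) (B (lo113_11_3 (nat_lit 329)) (lo114_11_3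 (nat_lit 331)))) (M (nat_lit 398) (B (lo110_11_0 (nat_lit 397)) (lo111_11_0 (nat_lit 399)))))) (M (nat_lit 361) (B (M (nat_lit 393) (B (lo112_11_1 (nat_lit 392)) (lo113_11_1 (nat_lit 394)))) (M (nat_lit 397) (B (lo19_11_0 (nat_lit 396)) (lo110_11_0 (nat_lit 398)))))))))) (B (M (nat_lit 365) (B (M (nat_lit 366) (B (M (nat_lit 330) (B (lo113_11_3 (nat_lit 329)) (lo114_11_3 (nat_lit 331)))) (M (nat_lit 334) (B (lo110_11_2 (nat_lit 333)) (lo111_11_2 (nat_lit 335)))))) (B (M (nat_lit 366) (B (M (nat_lit 394) (B (lo113_11_1 (nat_lit 393)) (lo114_11_1 (nat_lit 395)))) (M (nat_lit 398) (B (lo110_11_0 (nat_lit 397)) (lo111_11_0 (nat_lit 399)))))) (M (nat_lit 361) (B (M (nat_lit 329) (B (lo112_11_3 (nat_lit 328)) (lo113_11_3 (nat_lit 330)))) (M (nat_lit 397) (B (lo19_11_0 (nat_lit 396)) (lo110_11_0 (nat_lit 398))))))))) (B (M (nat_lit 365) (B (M (nat_lit 366) (B (M (nat_lit 394) (B (lo113_11_1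 (nat_lit 393)) (lo114_11_1 (nat_lit 395)))) (M (nat_lit 334) (B (lo110_11_2 (nat_lit 333)) (lo111_11_2 (nat_lit 335)))))) (B (M (nat_lit 366) (B (M (nat_lit 334) (B (lo110_11_2 (nat_lit 333)) (lo111_11_2 (nat_lit 335)))) (M (nat_lit 398) (B (lo110_11_0 (nat_lit 397)) (lo111_11_0 (nat_lit 399)))))) (B (M (nat_lit 366) (B (M (nat_lit 394) (B (lo113_11_1 (nat_lit 393)) (lo114_11_1 (nat_lit 395)))) (M (nat_lit 398) (B (lo110_11_0 (nat_lit 397)) (lo111_11_0 (nat_lit 399)))))) (M (nat_lit 361) (B (M (nat_lit 393) (B (lo112_11_1 (nat_lit 392)) (lo113_11_1 (nat_lit 394)))) (M (nat_lit 397) (B (lo19_11_0 (nat_lit 396)) (lo110_11_0 (nat_lit 398)))))))))) (B (M (nat_lit 394) (B (M (nat_lit 393) (B (lo113_11_1 (nat_lit 365)) (M (nat_lit 392) (B (lo17_12_2 (nat_lit 391)) (lo18_12_2 (nat_lit 395)))))) (B (M (nat_lit 365) (B (lo113_11_1 (nat_lit 393)) (M (nat_lit 366) (B (lo114_11_1 (nat_lit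 395)) (M (nat_lit 330) (B (lo113_11_3 (nat_lit 329)) (lo114_11_3 (nat_lit 331)))))))) (B (M (nat_lit 330) (B (M (nat_lit 365) (B (lo113_11_3 (nat_lit 329)) (M (nat_lit 366) (B (lo114_11_3 (nat_lit 331)) (lo114_11_1 (nat_lit 395)))))) (B (M (nat_lit 426) (B (M (nat_lit 331) (B (lo110_13_6 (nat_lit 299)) (lo110_14_6 (nat_lit 458)))) (B (M (nat_lit 298) (B (M (nat_lit 299) (B (lo110_12_6 (nat_lit 267)) (lo110_13_6 (nat_lit 331)))) (M (nat_lit 427) (B (lo110_9_4 (nat_lit 395)) (lo110_10_4 (nat_lit 459)))))) (M (nat_lit 427) (B (lo110_10_4 (nat_lit 459)) (M (nat_lit 457) (B (lo110_10_5 (nat_lit 425)) (lo113_13_1 (nat_lit 458))))))))) (B (M (nat_lit 395) (B (M (nat_lit 427) (B (lo110_9_4 (nat_lit 298)) (lo111_14_7 (nat_lit 459)))) (M (nat_lit 365) (B (lo113_11_3 (nat_lit 329)) (lo114_11_1 (nat_lit 366)))))) (M (nat_lit 426) (B (M (nat_lit 329) (B (lo110_13_7 (nat_lit 297)) (lo113_11_3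 (nat_lit 365)))) (M (nat_lit 331) (B (lo110_13_6 (nat_lit 299)) (lo110_14_6 (nat_lit 458)))))))))) (B (M (nat_lit 330) (B (M (nat_lit 365) (B (lo113_11_3 (nat_lit 329)) (lo113_11_1 (nat_lit 393)))) (B (M (nat_lit 426) (B (M (nat_lit 393) (B (lo113_11_1 (nat_lit 365)) (lo113_13_3 (nat_lit 427)))) (M (nat_lit 331) (B (lo110_13_6 (nat_lit 299)) (lo110_14_6 (nat_lit 458)))))) (B (M (nat_lit 426) (B (M (nat_lit 329) (B (lo110_13_7 (nat_lit 297)) (lo113_11_3 (nat_lit 365)))) (M (nat_lit 331) (B (lo110_13_6 (nat_lit 299)) (lo110_14_6 (nat_lit 458)))))) (M (nat_lit 426) (B (M (nat_lit 427) (B (lo113_13_3 (nat_lit 393)) (lo110_10_4 (nat_lit 459)))) (M (nat_lit 331) (B (lo110_13_6 (nat_lit 299)) (lo110_14_6 (nat_lit 458)))))))))) (K _ _ _ o1_s29563)))))) (B (M (nat_lit 365) (B (M (nat_lit 366) (B (M (nat_lit 330) (B (lo113_11_3 (nat_lit 329)) (lo114_11_3 (nat_lit 331)))) (M (nat_lit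 334) (B (lo110_11_2 (nat_lit 333)) (lo111_11_2 (nat_lit 335)))))) (B (M (nat_lit 366) (B (M (nat_lit 334) (B (lo110_11_2 (nat_lit 333)) (lo111_11_2 (nat_lit 335)))) (M (nat_lit 398) (B (lo110_11_0 (nat_lit 397)) (lo111_11_0 (nat_lit 399)))))) (B (M (nat_lit 366) (B (M (nat_lit 330) (B (lo113_11_3 (nat_lit 329)) (lo114_11_3 (nat_lit 331)))) (M (nat_lit 398) (B (lo110_11_0 (nat_lit 397)) (lo111_11_0 (nat_lit 399)))))) (M (nat_lit 361) (B (M (nat_lit 329) (B (lo112_11_3 (nat_lit 328)) (lo113_11_3 (nat_lit 330)))) (M (nat_lit 397) (B (lo19_11_0 (nat_lit 396)) (lo110_11_0 (nat_lit 398)))))))))) (M (nat_lit 361) (B (M (nat_lit 392) (B (lo112_11_1 (nat_lit 393)) (M (nat_lit 360) (B (lo111_11_1 (nat_lit 391)) (M (nat_lit 328) (B (lo111_11_3 (nat_lit 327)) (lo112_11_3 (nat_lit 329)))))))) (B (M (nat_lit 360) (B (M (nat_lit 392) (B (lo111_11_1 (nat_lit 391)) (lo112_11_1 (nat_lit 393))))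 (M (nat_lit 396) (B (lo18_11_0 (nat_lit 395)) (lo19_11_0 (nat_lit 397)))))) (B (M (nat_lit 360) (B (M (nat_lit 328) (B (lo111_11_3 (nat_lit 327)) (lo112_11_3 (nat_lit 329)))) (M (nat_lit 396) (B (lo18_11_0 (nat_lit 395)) (lo19_11_0 (nat_lit 397)))))) (M (nat_lit 394) (B (M (nat_lit 393) (B (lo112_11_1 (nat_lit 392)) (M (nat_lit 396) (B (lo19_11_0 (nat_lit 397)) (lo19_12_0 (nat_lit 395)))))) (M (nat_lit 329) (B (lo112_11_3 (nat_lit 328)) (M (nat_lit 426) (B (lo110_14_7 (nat_lit 458)) (M (nat_lit 297) (B (lo19_8_4 (nat_lit 265)) (lo110_13_7 (nat_lit 330)))))))))))))))))))))) (B (M (nat_lit 331) (B (M (nat_lit 396) (B (lo112_14_7 (nat_lit 460)) (M (nat_lit 299) (B (lo111_8_4 (nat_lit 267)) (lo111_9_4 (nat_lit 395)))))) (B (M (nat_lit 395) (B (M (nat_lit 396) (B (lo111_9_4 (nat_lit 299)) (lo112_14_7 (nat_lit 460)))) (B (M (nat_lit 460) (B (lo111_10_4 (nat_lit 427)) (lo112_14_7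 (nat_lit 396)))) (B (M (nat_lit 427) (B (lo111_10_4 (nat_lit 460)) (M (nat_lit 426) (B (lo111_10_5 (nat_lit 458)) (M (nat_lit 394) (B (lo113_13_3 (nat_lit 393)) (lo111_9_5 (nat_lit 299)))))))) (M (nat_lit 299) (B (lo111_9_4 (nat_lit 396)) (M (nat_lit 427) (B (M (nat_lit 298) (B (lo111_12_7 (nat_lit 266)) (lo111_13_7 (nat_lit 330)))) (M (nat_lit 426) (B (lo111_9_5 (nat_lit 394)) (lo111_10_5 (nat_lit 458)))))))))))) (B (M (nat_lit 427) (B (M (nat_lit 460) (B (lo111_10_4 (nat_lit 395)) (lo112_14_7 (nat_lit 396)))) (B (M (nat_lit 426) (B (M (nat_lit 394) (B (lo113_13_3 (nat_lit 393)) (M (nat_lit 458) (B (lo113_13_1 (nat_lit 457)) (lo110_14_6 (nat_lit 362)))))) (B (M (nat_lit 425) (B (M (nat_lit 457) (B (lo112_13_1 (nat_lit 456)) (lo113_13_1 (nat_lit 458)))) (M (nat_lit 396) (B (lo19_13_2 (nat_lit 397)) (lo112_14_7 (nat_lit 460)))))) (M (nat_lit 425) (B (M (nat_lit 393) (B (lo112_13_3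 (nat_lit 392)) (lo113_13_3 (nat_lit 394)))) (M (nat_lit 396) (B (lo19_13_2 (nat_lit 397)) (lo112_14_7 (nat_lit 460))))))))) (B (M (nat_lit 426) (B (M (nat_lit 458) (B (lo113_13_1 (nat_lit 457)) (lo111_10_5 (nat_lit 395)))) (B (M (nat_lit 395) (B (lo111_10_5 (nat_lit 458)) (lo111_10_4 (nat_lit 460)))) (B (M (nat_lit 425) (B (M (nat_lit 393) (B (lo112_13_3 (nat_lit 392)) (lo113_13_3 (nat_lit 394)))) (M (nat_lit 460) (B (lo19_13_0 (nat_lit 461)) (lo111_10_4 (nat_lit 395)))))) (M (nat_lit 425) (B (M (nat_lit 393) (B (lo112_13_3 (nat_lit 392)) (lo113_13_3 (nat_lit 394)))) (M (nat_lit 457) (B (lo112_13_1 (nat_lit 456)) (lo113_13_1 (nat_lit 458)))))))))) (M (nat_lit 426) (B (M (nat_lit 458) (B (lo113_13_1 (nat_lit 457)) (lo111_10_5 (nat_lit 395)))) (M (nat_lit 425) (B (M (nat_lit 393) (B (lo112_13_3 (nat_lit 392)) (lo113_13_3 (nat_lit 394)))) (M (nat_lit 397) (B (lo19_13_2 (nat_lit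 396)) (lo110_13_2 (nat_lit 398)))))))))))) (B (M (nat_lit 362) (B (M (nat_lit 396) (B (lo112_14_7 (nat_lit 460)) (M (nat_lit 397) (B (lo19_11_0 (nat_lit 361)) (M (nat_lit 398) (B (lo110_11_0 (nat_lit 365)) (lo115_12_3 (nat_lit 399)))))))) (B (M (nat_lit 394) (B (M (nat_lit 393) (B (lo113_11_1 (nat_lit 365)) (M (nat_lit 426) (B (lo113_13_3 (nat_lit 427)) (lo110_14_6 (nat_lit 458)))))) (B (M (nat_lit 426) (B (lo110_14_6 (nat_lit 458)) (M (nat_lit 299) (B (lo110_13_6 (nat_lit 330)) (lo111_8_5 (nat_lit 267)))))) (M (nat_lit 365) (B (lo113_11_1 (nat_lit 393)) (M (nat_lit 330) (B (lo113_11_3 (nat_lit 329)) (lo114_11_3 (nat_lit 366))))))))) (M (nat_lit 361) (B (M (nat_lit 396) (B (lo19_11_0 (nat_lit 397)) (lo112_14_7 (nat_lit 460)))) (M (nat_lit 360) (B (M (nat_lit 328) (B (lo111_11_3 (nat_lit 327)) (lo112_11_3 (nat_lit 329)))) (M (nat_lit 392) (B (lo111_11_1 (nat_lit 391)) (lo112_11_1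 (nat_lit 393))))))))))) (B (M (nat_lit 395) (B (M (nat_lit 427) (B (lo111_10_4 (nat_lit 460)) (M (nat_lit 426) (B (lo111_10_5 (nat_lit 458)) (M (nat_lit 394) (B (lo113_13_3 (nat_lit 393)) (lo111_9_5 (nat_lit 299)))))))) (B (M (nat_lit 427) (B (lo111_10_4 (nat_lit 460)) (M (nat_lit 299) (B (M (nat_lit 298) (B (lo111_12_7 (nat_lit 266)) (lo111_13_7 (nat_lit 330)))) (M (nat_lit 426) (B (lo111_9_5 (nat_lit 394)) (lo111_10_5 (nat_lit 458)))))))) (B (M (nat_lit 330) (B (M (nat_lit 427) (B (lo111_13_7 (nat_lit 298)) (lo111_10_4 (nat_lit 460)))) (M (nat_lit 329) (B (lo18_10_0 (nat_lit 328)) (M (nat_lit 365) (B (lo113_11_3 (nat_lit 362)) (lo114_11_3 (nat_lit 366)))))))) (M (nat_lit 394) (B (M (nat_lit 393) (B (lo18_12_2 (nat_lit 392)) (M (nat_lit 365) (B (lo113_11_1 (nat_lit 362)) (lo114_11_1 (nat_lit 366)))))) (B (M (nat_lit 362) (B (M (nat_lit 365) (B (lo113_11_1 (nat_lit 393)) (lo114_11_1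 (nat_lit 366)))) (M (nat_lit 299) (B (lo111_8_5 (nat_lit 267)) (lo111_9_5 (nat_lit 426)))))) (B (M (nat_lit 299) (B (lo111_9_5 (nat_lit 426)) (M (nat_lit 267) (B (lo111_8_5 (nat_lit 362)) (M (nat_lit 266) (B (lo111_11_7 (nat_lit 234)) (lo111_12_7 (nat_lit 298)))))))) (M (nat_lit 299) (B (lo111_9_5 (nat_lit 426)) (M (nat_lit 267) (B (M (nat_lit 266) (B (lo111_11_7 (nat_lit 234)) (lo111_12_7 (nat_lit 298)))) (M (nat_lit 268) (B (lo111_11_6 (nat_lit 236)) (lo111_12_6 (nat_lit 300)))))))))))))))) (M (nat_lit 395) (B (M (nat_lit 299) (B (lo111_9_4 (nat_lit 396)) (M (nat_lit 394) (B (lo111_9_5 (nat_lit 426)) (M (nat_lit 267) (B (lo111_8_5 (nat_lit 362)) (M (nat_lit 266) (B (lo111_11_7 (nat_lit 234)) (lo111_12_7 (nat_lit 298)))))))))) (B (K _ _ _ o1_s29773) (B (M (nat_lit 299) (B (lo111_9_4 (nat_lit 396)) (M (nat_lit 267) (B (M (nat_lit 266) (B (lo111_11_7 (nat_lit 234)) (lo111_12_7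 (nat_lit 298)))) (M (nat_lit 268) (B (lo111_11_6 (nat_lit 236)) (lo111_12_6 (nat_lit 300)))))))) (B (M (nat_lit 427) (B (M (nat_lit 330) (B (lo111_13_7 (nat_lit 298)) (M (nat_lit 365) (B (lo114_11_3 (nat_lit 366)) (M (nat_lit 329) (B (lo18_10_0 (nat_lit 328)) (lo113_11_3 (nat_lit 362)))))))) (M (nat_lit 426) (B (lo111_10_5 (nat_lit 458)) (M (nat_lit 425) (B (M (nat_lit 393) (B (lo112_13_3 (nat_lit 392)) (lo113_13_3 (nat_lit 394)))) (M (nat_lit 397) (B (lo19_13_2 (nat_lit 396)) (lo110_13_2 (nat_lit 398)))))))))) (K _ _ _ o1_s29801)))))))))))) (B (M (nat_lit 427) (B (M (nat_lit 395) (B (M (nat_lit 460) (B (lo111_10_4 (nat_lit 331)) (M (nat_lit 492) (B (lo111_11_4 (nat_lit 459)) (lo112_16_7 (nat_lit 524)))))) (B (K _ _ _ o1_s29815) (B (M (nat_lit 460) (B (lo111_10_4 (nat_lit 331)) (M (nat_lit 492) (B (lo112_15_7 (nat_lit 396)) (lo112_16_7 (nat_lit 524)))))) (M (nat_lit 459) (B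 (M (nat_lit 362) (B (lo111_14_7 (nat_lit 330)) (M (nat_lit 491) (B (lo111_15_7 (nat_lit 394)) (lo111_15_6 (nat_lit 396)))))) (M (nat_lit 458) (B (lo111_11_5 (nat_lit 490)) (M (nat_lit 426) (B (lo113_13_1 (nat_lit 457)) (lo111_10_5 (nat_lit 331)))))))))))) (B (M (nat_lit 460) (B (M (nat_lit 331) (B (lo111_10_4 (nat_lit 395)) (lo112_14_7 (nat_lit 396)))) (B (M (nat_lit 492) (B (M (nat_lit 395) (B (lo111_11_4 (nat_lit 459)) (lo112_15_7 (nat_lit 396)))) (B (M (nat_lit 524) (B (lo112_16_6 (nat_lit 397)) (M (nat_lit 556) (B (lo112_17_7 (nat_lit 459)) (lo112_17_6 (nat_lit 461)))))) (M (nat_lit 524) (B (lo112_16_7 (nat_lit 395)) (lo112_16_6 (nat_lit 397))))))) (B (M (nat_lit 396) (B (lo112_14_7 (nat_lit 331)) (M (nat_lit 492) (B (M (nat_lit 491) (B (lo112_11_5 (nat_lit 459)) (lo112_12_5 (nat_lit 523)))) (M (nat_lit 493) (B (lo112_11_4 (nat_lit 461)) (lo112_12_4 (nat_lit 525))))))))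 (M (nat_lit 395) (B (lo111_10_4 (nat_lit 331)) (M (nat_lit 492) (B (lo111_11_4 (nat_lit 459)) (lo112_16_7 (nat_lit 524)))))))))) (B (M (nat_lit 426) (B (M (nat_lit 397) (B (lo110_13_2 (nat_lit 398)) (M (nat_lit 425) (B (lo19_13_2 (nat_lit 396)) (M (nat_lit 457) (B (lo112_13_1 (nat_lit 456)) (lo113_13_1 (nat_lit 458)))))))) (B (M (nat_lit 425) (B (M (nat_lit 393) (B (lo112_13_3 (nat_lit 392)) (lo113_13_3 (nat_lit 394)))) (M (nat_lit 397) (B (lo19_13_2 (nat_lit 396)) (lo110_13_2 (nat_lit 398)))))) (B (K _ _ _ o1_s29888) (M (nat_lit 425) (B (M (nat_lit 393) (B (lo112_13_3 (nat_lit 392)) (lo113_13_3 (nat_lit 394)))) (M (nat_lit 457) (B (lo112_13_1 (nat_lit 456)) (lo113_13_1 (nat_lit 458)))))))))) (B (M (nat_lit 426) (B (M (nat_lit 397) (B (lo110_13_2 (nat_lit 398)) (M (nat_lit 425) (B (lo19_13_2 (nat_lit 396)) (M (nat_lit 457) (B (lo112_13_1 (nat_lit 456)) (lo113_13_1 (nat_lit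 458)))))))) (B (M (nat_lit 425) (B (M (nat_lit 393) (B (lo112_13_3 (nat_lit 392)) (lo113_13_3 (nat_lit 394)))) (M (nat_lit 397) (B (lo19_13_2 (nat_lit 396)) (lo110_13_2 (nat_lit 398)))))) (M (nat_lit 394) (B (lo113_13_3 (nat_lit 393)) (M (nat_lit 458) (B (lo113_13_1 (nat_lit 457)) (M (nat_lit 362) (B (lo110_14_6 (nat_lit 331)) (M (nat_lit 459) (B (lo110_10_4 (nat_lit 330)) (lo110_11_4 (nat_lit 491))))))))))))) (B (M (nat_lit 395) (B (M (nat_lit 460) (B (lo111_10_4 (nat_lit 331)) (M (nat_lit 492) (B (lo112_15_7 (nat_lit 396)) (lo112_16_7 (nat_lit 524)))))) (B (M (nat_lit 426) (B (M (nat_lit 458) (B (lo113_13_1 (nat_lit 457)) (M (nat_lit 394) (B (lo113_13_3 (nat_lit 393)) (lo110_15_6 (nat_lit 490)))))) (B (M (nat_lit 425) (B (M (nat_lit 457) (B (lo112_13_1 (nat_lit 456)) (lo113_13_1 (nat_lit 458)))) (M (nat_lit 397) (B (lo19_13_2 (nat_lit 396)) (lo110_13_2 (nat_lit 398))))))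 (M (nat_lit 425) (B (M (nat_lit 393) (B (lo112_13_3 (nat_lit 392)) (lo113_13_3 (nat_lit 394)))) (M (nat_lit 397) (B (lo19_13_2 (nat_lit 396)) (lo110_13_2 (nat_lit 398))))))))) (M (nat_lit 331) (B (lo111_10_4 (nat_lit 460)) (M (nat_lit 426) (B (lo111_10_5 (nat_lit 458)) (M (nat_lit 394) (B (lo113_13_3 (nat_lit 393)) (lo111_9_5 (nat_lit 299))))))))))) (K _ _ _ o1_s29931))))))) (M (nat_lit 395) (B (K _ _ _ o1_s29941) (B (K _ _ _ o1_s29984) (B (K _ _ _ o1_s30075) (B (M (nat_lit 427) (B (M (nat_lit 460) (B (lo111_10_4 (nat_lit 331)) (M (nat_lit 492) (B (lo111_11_4 (nat_lit 459)) (lo112_16_7 (nat_lit 524)))))) (B (K _ _ _ o1_s29925) (B (M (nat_lit 331) (B (lo111_10_4 (nat_lit 460)) (M (nat_lit 426) (B (lo111_10_5 (nat_lit 458)) (M (nat_lit 394) (B (lo113_13_3 (nat_lit 393)) (lo111_9_5 (nat_lit 299)))))))) (K _ _ _ o1_s30094))))) (M (nat_lit 362) (B (K _ _ _ o1_s30098) (B (K _ _ _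 o1_s30106) (B (K _ _ _ o1_s30132) (B (M (nat_lit 330) (B (M (nat_lit 298) (B (lo110_8_4 (nat_lit 266)) (M (nat_lit 427) (B (lo110_9_4 (nat_lit 394)) (lo111_14_7 (nat_lit 459)))))) (M (nat_lit 329) (B (lo113_11_3 (nat_lit 365)) (M (nat_lit 328) (B (lo17_10_0 (nat_lit 327)) (lo18_10_0 (nat_lit 331)))))))) (B (M (nat_lit 393) (B (M (nat_lit 392) (B (lo112_11_1 (nat_lit 361)) (lo18_12_2 (nat_lit 394)))) (B (M (nat_lit 394) (B (lo113_11_1 (nat_lit 365)) (lo19_12_0 (nat_lit 396)))) (M (nat_lit 361) (B (lo112_11_1 (nat_lit 392)) (M (nat_lit 328) (B (lo112_11_3 (nat_lit 329)) (M (nat_lit 360) (B (lo111_11_3 (nat_lit 327)) (lo18_11_0 (nat_lit 396))))))))))) (B (K _ _ _ o1_s30163) (K _ _ _ o1_s30167))))))))))))))))))))))))))) (B (M (nat_lit 365) (B (K _ _ _ o1_s28901) (B (M (nat_lit 397) (B (M (nat_lit 460) (B (lo113_10_5 (nat_lit 333)) (M (nat_lit 492) (B (lo112_16_6 (nat_lit 524))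 (lo113_11_5 (nat_lit 461)))))) (B (K _ _ _ o1_s30178) (K _ _ _ o1_s29042)))) (B (M (nat_lit 363) (B (K _ _ _ o1_s29517) (B (K _ _ _ o1_s29233) (B (M (nat_lit 460) (B (M (nat_lit 397) (B (lo113_10_5 (nat_lit 333)) (M (nat_lit 492) (B (lo112_16_6 (nat_lit 524)) (lo113_11_5 (nat_lit 461)))))) (B (K _ _ _ o1_s29342) (K _ _ _ o1_s29350)))) (B (K _ _ _ o1_s29253) (B (K _ _ _ o1_s29520) (B (K _ _ _ o1_s29384) (M (nat_lit 460) (B (M (nat_lit 397) (B (lo113_10_5 (nat_lit 333)) (M (nat_lit 492) (B (lo112_16_6 (nat_lit 524)) (lo113_11_5 (nat_lit 461)))))) (B (M (nat_lit 366) (B (M (nat_lit 334) (B (lo111_11_2 (nat_lit 335)) (M (nat_lit 333) (B (lo110_11_2 (nat_lit 362)) (lo113_10_5 (nat_lit 397)))))) (M (nat_lit 331) (B (lo114_11_3 (nat_lit 330)) (M (nat_lit 395) (B (lo114_11_1 (nat_lit 394)) (lo111_10_4 (nat_lit 427)))))))) (M (nat_lit 395) (B (M (nat_lit 394) (B (lo114_11_1 (nat_lit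 366)) (M (nat_lit 393) (B (lo18_12_2 (nat_lit 392)) (lo113_11_1 (nat_lit 362)))))) (M (nat_lit 427) (B (lo111_10_4 (nat_lit 331)) (M (nat_lit 492) (B (lo111_11_4 (nat_lit 459)) (lo112_16_7 (nat_lit 524)))))))))))))))))) (B (K _ _ _ o1_s30235) (B (M (nat_lit 397) (B (K _ _ _ o1_s28891) (B (M (nat_lit 460) (B (M (nat_lit 492) (B (lo112_16_6 (nat_lit 524)) (lo113_11_5 (nat_lit 461)))) (B (M (nat_lit 363) (B (M (nat_lit 398) (B (lo110_11_0 (nat_lit 362)) (M (nat_lit 399) (B (lo111_11_0 (nat_lit 366)) (lo116_12_3 (nat_lit 400)))))) (B (M (nat_lit 366) (B (M (nat_lit 334) (B (lo111_11_2 (nat_lit 335)) (lo113_14_6 (nat_lit 461)))) (M (nat_lit 331) (B (lo114_11_3 (nat_lit 330)) (M (nat_lit 395) (B (lo114_11_1 (nat_lit 394)) (lo111_10_4 (nat_lit 427)))))))) (K _ _ _ o1_s30255)))) (M (nat_lit 363) (B (M (nat_lit 398) (B (lo110_11_0 (nat_lit 362)) (M (nat_lit 399) (B (lo111_11_0 (nat_lit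 366)) (lo116_12_3 (nat_lit 400)))))) (B (M (nat_lit 366) (B (M (nat_lit 331) (B (lo114_11_3 (nat_lit 330)) (M (nat_lit 395) (B (lo114_11_1 (nat_lit 394)) (lo111_10_4 (nat_lit 427)))))) (M (nat_lit 398) (B (lo111_11_0 (nat_lit 399)) (M (nat_lit 334) (B (lo111_11_2 (nat_lit 335)) (lo114_9_5 (nat_lit 302)))))))) (B (K _ _ _ o1_s30255) (M (nat_lit 395) (B (M (nat_lit 394) (B (lo114_11_1 (nat_lit 366)) (M (nat_lit 393) (B (lo18_12_2 (nat_lit 392)) (lo113_11_1 (nat_lit 362)))))) (M (nat_lit 427) (B (lo111_10_4 (nat_lit 331)) (M (nat_lit 492) (B (lo111_11_4 (nat_lit 459)) (lo112_16_7 (nat_lit 524))))))))))))))) (B (K _ _ _ o1_s30178) (B (M (nat_lit 363) (B (M (nat_lit 398) (B (lo110_11_0 (nat_lit 362)) (M (nat_lit 399) (B (lo111_11_0 (nat_lit 366)) (lo116_12_3 (nat_lit 400)))))) (B (K _ _ _ o1_s30291) (B (K _ _ _ o1_s30299) (M (nat_lit 395) (B (M (nat_lit 394) (B (lo114_11_1 (nat_lit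 366)) (M (nat_lit 393) (B (lo18_12_2 (nat_lit 392)) (lo113_11_1 (nat_lit 362)))))) (B (M (nat_lit 427) (B (M (nat_lit 394) (B (lo114_11_1 (nat_lit 366)) (M (nat_lit 393) (B (lo113_11_1 (nat_lit 362)) (lo113_13_3 (nat_lit 426)))))) (M (nat_lit 331) (B (lo111_10_4 (nat_lit 460)) (M (nat_lit 332) (B (lo111_13_6 (nat_lit 300)) (lo111_14_6 (nat_lit 459)))))))) (B (M (nat_lit 331) (B (M (nat_lit 366) (B (lo114_11_3 (nat_lit 330)) (lo114_11_1 (nat_lit 394)))) (M (nat_lit 427) (B (lo111_10_4 (nat_lit 460)) (M (nat_lit 332) (B (lo111_13_6 (nat_lit 300)) (lo111_14_6 (nat_lit 459)))))))) (B (M (nat_lit 331) (B (M (nat_lit 330) (B (lo114_11_3 (nat_lit 366)) (M (nat_lit 427) (B (lo111_13_7 (nat_lit 298)) (lo111_10_4 (nat_lit 460)))))) (B (M (nat_lit 330) (B (lo114_11_3 (nat_lit 366)) (M (nat_lit 329) (B (lo18_10_0 (nat_lit 328)) (lo19_10_0 (nat_lit 332)))))) (M (nat_lit 427) (B (lo111_10_4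 (nat_lit 460)) (M (nat_lit 332) (B (lo111_13_6 (nat_lit 300)) (lo111_14_6 (nat_lit 459))))))))) (M (nat_lit 427) (B (M (nat_lit 331) (B (lo111_10_4 (nat_lit 460)) (M (nat_lit 332) (B (lo111_13_6 (nat_lit 300)) (lo111_14_6 (nat_lit 459)))))) (B (M (nat_lit 459) (B (lo111_14_6 (nat_lit 332)) (M (nat_lit 460) (B (lo111_11_4 (nat_lit 492)) (M (nat_lit 458) (B (lo19_14_2 (nat_lit 457)) (lo111_11_5 (nat_lit 490)))))))) (B (M (nat_lit 331) (B (lo111_10_4 (nat_lit 460)) (M (nat_lit 330) (B (lo111_13_7 (nat_lit 298)) (M (nat_lit 332) (B (lo19_10_0 (nat_lit 329)) (lo111_13_6 (nat_lit 300)))))))) (B (M (nat_lit 330) (B (M (nat_lit 331) (B (lo111_13_7 (nat_lit 298)) (lo111_10_4 (nat_lit 460)))) (M (nat_lit 362) (B (lo113_11_3 (nat_lit 329)) (lo111_14_7 (nat_lit 459)))))) (M (nat_lit 458) (B (M (nat_lit 426) (B (lo113_13_1 (nat_lit 457)) (lo111_10_5 (nat_lit 331)))) (M (nat_lit 459) (B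 (lo111_11_5 (nat_lit 490)) (lo111_14_6 (nat_lit 332)))))))))))))))))))) (B (M (nat_lit 460) (B (M (nat_lit 492) (B (lo112_16_6 (nat_lit 524)) (lo113_11_5 (nat_lit 461)))) (B (M (nat_lit 363) (B (M (nat_lit 398) (B (lo110_11_0 (nat_lit 362)) (M (nat_lit 399) (B (lo111_11_0 (nat_lit 366)) (lo116_12_3 (nat_lit 400)))))) (B (M (nat_lit 366) (B (M (nat_lit 461) (B (lo113_14_7 (nat_lit 332)) (M (nat_lit 398) (B (lo111_11_0 (nat_lit 399)) (lo113_15_6 (nat_lit 493)))))) (M (nat_lit 331) (B (lo114_11_3 (nat_lit 330)) (M (nat_lit 395) (B (lo114_11_1 (nat_lit 394)) (lo111_10_4 (nat_lit 427)))))))) (B (K _ _ _ o1_s30255) (M (nat_lit 395) (B (M (nat_lit 394) (B (lo114_11_1 (nat_lit 366)) (M (nat_lit 393) (B (lo18_12_2 (nat_lit 392)) (lo113_11_1 (nat_lit 362)))))) (M (nat_lit 427) (B (lo111_10_4 (nat_lit 331)) (M (nat_lit 332) (B (lo111_14_6 (nat_lit 459)) (lo113_14_7 (nat_lit 461))))))))))))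 (M (nat_lit 363) (B (M (nat_lit 398) (B (lo110_11_0 (nat_lit 362)) (M (nat_lit 399) (B (lo111_11_0 (nat_lit 366)) (lo116_12_3 (nat_lit 400)))))) (B (M (nat_lit 427) (B (M (nat_lit 398) (B (lo110_13_2 (nat_lit 426)) (M (nat_lit 399) (B (lo111_11_0 (nat_lit 366)) (lo116_12_3 (nat_lit 400)))))) (M (nat_lit 395) (B (lo111_10_4 (nat_lit 331)) (M (nat_lit 459) (B (lo111_14_6 (nat_lit 332)) (lo111_11_4 (nat_lit 492)))))))) (B (M (nat_lit 427) (B (M (nat_lit 398) (B (lo110_11_0 (nat_lit 362)) (lo110_13_2 (nat_lit 426)))) (M (nat_lit 395) (B (lo111_10_4 (nat_lit 331)) (M (nat_lit 459) (B (lo111_14_6 (nat_lit 332)) (lo111_11_4 (nat_lit 492)))))))) (M (nat_lit 395) (B (M (nat_lit 394) (B (lo114_11_1 (nat_lit 366)) (M (nat_lit 393) (B (lo18_12_2 (nat_lit 392)) (lo113_11_1 (nat_lit 362)))))) (M (nat_lit 427) (B (lo111_10_4 (nat_lit 331)) (M (nat_lit 459) (B (lo111_14_6 (nat_lit 332)) (lo111_11_4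 (nat_lit 492))))))))))))))) (K _ _ _ o1_s30403))))))) (B (M (nat_lit 363) (B (K _ _ _ o1_s30405) (B (K _ _ _ o1_s30407) (B (K _ _ _ o1_s30426) (B (K _ _ _ o1_s30434) (B (K _ _ _ o1_s30440) (B (K _ _ _ o1_s29522) (B (M (nat_lit 395) (B (M (nat_lit 394) (B (lo114_11_1 (nat_lit 366)) (M (nat_lit 393) (B (lo18_12_2 (nat_lit 392)) (lo113_11_1 (nat_lit 362)))))) (B (K _ _ _ o1_s30452) (B (K _ _ _ o1_s30456) (B (M (nat_lit 331) (B (M (nat_lit 330) (B (lo114_11_3 (nat_lit 366)) (M (nat_lit 427) (B (lo111_13_7 (nat_lit 298)) (lo111_10_4 (nat_lit 460)))))) (B (M (nat_lit 330) (B (lo114_11_3 (nat_lit 366)) (M (nat_lit 329) (B (lo113_11_3 (nat_lit 362)) (lo19_10_0 (nat_lit 332)))))) (M (nat_lit 427) (B (lo111_10_4 (nat_lit 460)) (M (nat_lit 332) (B (lo111_13_6 (nat_lit 300)) (lo111_14_6 (nat_lit 459))))))))) (K _ _ _ o1_s30476)))))) (M (nat_lit 427) (B (K _ _ _ o1_s30478) (B (M (nat_lit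 395) (B (M (nat_lit 459) (B (lo111_14_6 (nat_lit 332)) (M (nat_lit 460) (B (lo111_10_4 (nat_lit 331)) (lo111_11_4 (nat_lit 492)))))) (B (M (nat_lit 459) (B (lo111_14_6 (nat_lit 332)) (M (nat_lit 460) (B (lo111_11_4 (nat_lit 492)) (M (nat_lit 458) (B (lo19_14_2 (nat_lit 457)) (lo111_11_5 (nat_lit 490)))))))) (B (M (nat_lit 331) (B (lo111_10_4 (nat_lit 460)) (M (nat_lit 330) (B (lo111_13_7 (nat_lit 298)) (M (nat_lit 332) (B (lo19_10_0 (nat_lit 329)) (lo111_13_6 (nat_lit 300)))))))) (B (M (nat_lit 330) (B (M (nat_lit 331) (B (lo111_13_7 (nat_lit 298)) (lo111_10_4 (nat_lit 460)))) (M (nat_lit 362) (B (lo113_11_3 (nat_lit 329)) (lo111_14_7 (nat_lit 459)))))) (M (nat_lit 332) (B (lo111_14_6 (nat_lit 459)) (M (nat_lit 300) (B (lo111_13_6 (nat_lit 331)) (lo112_8_5 (nat_lit 268))))))))))) (B (M (nat_lit 395) (B (M (nat_lit 331) (B (lo111_10_4 (nat_lit 460)) (M (nat_lit 332) (B (lo111_13_6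 (nat_lit 300)) (lo111_14_6 (nat_lit 459)))))) (B (M (nat_lit 459) (B (lo111_14_6 (nat_lit 332)) (M (nat_lit 460) (B (lo111_11_4 (nat_lit 492)) (M (nat_lit 458) (B (lo19_14_2 (nat_lit 457)) (lo111_11_5 (nat_lit 490)))))))) (B (M (nat_lit 331) (B (lo111_10_4 (nat_lit 460)) (M (nat_lit 426) (B (lo111_10_5 (nat_lit 458)) (M (nat_lit 394) (B (lo113_13_3 (nat_lit 393)) (lo111_9_5 (nat_lit 299)))))))) (M (nat_lit 458) (B (M (nat_lit 426) (B (lo113_13_1 (nat_lit 457)) (lo111_10_5 (nat_lit 331)))) (M (nat_lit 459) (B (lo111_11_5 (nat_lit 490)) (lo111_14_6 (nat_lit 332)))))))))) (B (K _ _ _ o1_s30505) (B (K _ _ _ o1_s30518) (B (K _ _ _ o1_s30528) (B (K _ _ _ o1_s30529) (M (nat_lit 426) (B (M (nat_lit 425) (B (M (nat_lit 393) (B (lo112_13_3 (nat_lit 392)) (lo113_13_3 (nat_lit 394)))) (M (nat_lit 457) (B (lo112_13_1 (nat_lit 456)) (lo113_13_1 (nat_lit 458)))))) (B (M (nat_lit 458) (B (lo113_13_1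 (nat_lit 457)) (M (nat_lit 395) (B (lo111_10_5 (nat_lit 331)) (M (nat_lit 394) (B (lo113_13_3 (nat_lit 393)) (lo110_15_6 (nat_lit 490)))))))) (B (M (nat_lit 458) (B (lo113_13_1 (nat_lit 457)) (M (nat_lit 395) (B (lo111_10_5 (nat_lit 331)) (M (nat_lit 490) (B (lo110_15_6 (nat_lit 394)) (lo111_11_5 (nat_lit 459)))))))) (B (M (nat_lit 460) (B (M (nat_lit 395) (B (lo111_10_4 (nat_lit 331)) (M (nat_lit 492) (B (lo111_11_4 (nat_lit 459)) (lo112_16_7 (nat_lit 524)))))) (M (nat_lit 393) (B (lo113_13_3 (nat_lit 394)) (M (nat_lit 425) (B (lo112_13_3 (nat_lit 392)) (lo19_13_0 (nat_lit 461)))))))) (M (nat_lit 460) (B (M (nat_lit 425) (B (lo19_13_0 (nat_lit 461)) (M (nat_lit 457) (B (lo112_13_1 (nat_lit 456)) (lo113_13_1 (nat_lit 458)))))) (M (nat_lit 395) (B (lo111_10_4 (nat_lit 331)) (M (nat_lit 492) (B (lo111_11_4 (nat_lit 459)) (lo112_16_7 (nat_lit 524))))))))))))))))))))))))))))) (B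 (M (nat_lit 363) (B (K _ _ _ o1_s29517) (B (M (nat_lit 362) (B (M (nat_lit 397) (B (lo110_11_0 (nat_lit 398)) (M (nat_lit 333) (B (lo110_11_2 (nat_lit 334)) (lo113_10_5 (nat_lit 460)))))) (B (M (nat_lit 366) (B (M (nat_lit 394) (B (lo113_11_1 (nat_lit 393)) (lo114_11_1 (nat_lit 395)))) (M (nat_lit 398) (B (lo110_11_0 (nat_lit 397)) (lo111_11_0 (nat_lit 399)))))) (M (nat_lit 366) (B (M (nat_lit 394) (B (lo113_11_1 (nat_lit 393)) (lo114_11_1 (nat_lit 395)))) (M (nat_lit 334) (B (lo110_11_2 (nat_lit 333)) (lo111_11_2 (nat_lit 335))))))))) (B (K _ _ _ o1_s30434) (B (K _ _ _ o1_s30440) (B (K _ _ _ o1_s30570) (K _ _ _ o1_s29384))))))) (B (M (nat_lit 397) (B (M (nat_lit 332) (B (lo113_14_7 (nat_lit 461)) (M (nat_lit 333) (B (lo113_13_7 (nat_lit 300)) (lo113_10_5 (nat_lit 460)))))) (B (M (nat_lit 460) (B (lo113_10_5 (nat_lit 333)) (M (nat_lit 492) (B (lo112_16_6 (nat_lit 524)) (lo113_11_5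 (nat_lit 461)))))) (B (M (nat_lit 332) (B (lo113_14_7 (nat_lit 461)) (M (nat_lit 300) (B (lo112_8_4 (nat_lit 268)) (lo113_13_7 (nat_lit 333)))))) (B (M (nat_lit 332) (B (lo113_14_7 (nat_lit 461)) (M (nat_lit 363) (B (M (nat_lit 398) (B (lo110_11_0 (nat_lit 362)) (M (nat_lit 366) (B (lo111_11_0 (nat_lit 399)) (M (nat_lit 331) (B (lo114_11_3 (nat_lit 330)) (lo115_11_3 (nat_lit 367)))))))) (B (M (nat_lit 398) (B (lo110_11_0 (nat_lit 362)) (M (nat_lit 395) (B (M (nat_lit 366) (B (lo114_11_1 (nat_lit 394)) (lo111_11_0 (nat_lit 399)))) (M (nat_lit 427) (B (lo110_13_2 (nat_lit 426)) (lo111_14_6 (nat_lit 459)))))))) (B (K _ _ _ o1_s30593) (B (M (nat_lit 362) (B (lo110_11_0 (nat_lit 398)) (M (nat_lit 361) (B (M (nat_lit 329) (B (lo112_11_3 (nat_lit 328)) (lo113_11_3 (nat_lit 330)))) (M (nat_lit 393) (B (lo112_11_1 (nat_lit 392)) (lo113_11_1 (nat_lit 394)))))))) (K _ _ _ o1_s30612))))))))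 (M (nat_lit 363) (B (M (nat_lit 398) (B (lo110_11_0 (nat_lit 362)) (M (nat_lit 399) (B (lo111_11_0 (nat_lit 366)) (lo116_12_3 (nat_lit 400)))))) (B (M (nat_lit 332) (B (M (nat_lit 300) (B (lo112_8_4 (nat_lit 268)) (lo113_13_7 (nat_lit 333)))) (K _ _ _ o1_s30593))) (B (M (nat_lit 362) (B (lo110_11_0 (nat_lit 398)) (M (nat_lit 333) (B (lo113_10_5 (nat_lit 460)) (M (nat_lit 332) (B (lo19_11_2 (nat_lit 361)) (lo113_13_7 (nat_lit 300)))))))) (M (nat_lit 332) (B (M (nat_lit 300) (B (lo112_8_4 (nat_lit 268)) (lo113_13_7 (nat_lit 333)))) (B (M (nat_lit 333) (B (lo113_13_7 (nat_lit 300)) (lo113_10_5 (nat_lit 460)))) (B (M (nat_lit 395) (B (M (nat_lit 427) (B (lo111_14_6 (nat_lit 459)) (M (nat_lit 460) (B (lo111_10_4 (nat_lit 331)) (lo113_10_5 (nat_lit 333)))))) (M (nat_lit 394) (B (lo114_11_1 (nat_lit 366)) (M (nat_lit 393) (B (lo18_12_2 (nat_lit 392)) (lo113_11_1 (nat_lit 362))))))))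 (K _ _ _ o1_s30612)))))))))))))) (M (nat_lit 397) (B (M (nat_lit 460) (B (lo113_10_5 (nat_lit 333)) (M (nat_lit 492) (B (lo112_16_6 (nat_lit 524)) (lo113_11_5 (nat_lit 461)))))) (B (M (nat_lit 332) (B (lo113_14_7 (nat_lit 461)) (M (nat_lit 300) (B (lo112_8_4 (nat_lit 268)) (lo113_13_7 (nat_lit 333)))))) (B (K _ _ _ o1_s30403) (M (nat_lit 333) (B (lo113_10_5 (nat_lit 460)) (M (nat_lit 332) (B (lo113_13_7 (nat_lit 300)) (M (nat_lit 334) (B (lo113_13_6 (nat_lit 302)) (M (nat_lit 363) (B (lo110_11_2 (nat_lit 362)) (lo115_10_1 (nat_lit 335))))))))))))))))))))))) (B (K _ _ _ o1_s30789) (B (M (nat_lit 396) (B (M (nat_lit 461) (B (lo112_10_4 (nat_lit 332)) (M (nat_lit 493) (B (lo113_15_7 (nat_lit 397)) (lo113_16_7 (nat_lit 525)))))) (B (M (nat_lit 460) (B (M (nat_lit 492) (B (M (nat_lit 363) (B (lo112_14_7 (nat_lit 331)) (lo112_15_7 (nat_lit 395)))) (M (nat_lit 493) (B (lo112_11_4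 (nat_lit 461)) (lo112_12_4 (nat_lit 525)))))) (B (M (nat_lit 492) (B (M (nat_lit 491) (B (lo112_11_5 (nat_lit 459)) (lo112_12_5 (nat_lit 523)))) (M (nat_lit 493) (B (lo112_11_4 (nat_lit 461)) (lo112_12_4 (nat_lit 525)))))) (B (M (nat_lit 459) (B (lo112_11_5 (nat_lit 491)) (M (nat_lit 458) (B (lo19_14_2 (nat_lit 457)) (M (nat_lit 426) (B (M (nat_lit 461) (B (lo113_14_3 (nat_lit 425)) (lo112_11_4 (nat_lit 493)))) (B (M (nat_lit 363) (B (lo112_14_7 (nat_lit 331)) (M (nat_lit 490) (B (M (nat_lit 461) (B (lo113_14_1 (nat_lit 489)) (lo112_11_4 (nat_lit 493)))) (M (nat_lit 395) (B (lo110_15_6 (nat_lit 394)) (lo111_11_5 (nat_lit 427)))))))) (M (nat_lit 395) (B (M (nat_lit 363) (B (lo112_14_7 (nat_lit 331)) (M (nat_lit 394) (B (lo19_12_0 (nat_lit 393)) (lo110_15_6 (nat_lit 490)))))) (B (M (nat_lit 363) (B (lo112_14_7 (nat_lit 331)) (M (nat_lit 490) (B (lo110_15_6 (nat_lit 394)) (lo111_11_5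 (nat_lit 427)))))) (B (M (nat_lit 427) (B (M (nat_lit 425) (B (lo18_13_2 (nat_lit 424)) (lo19_13_2 (nat_lit 397)))) (M (nat_lit 363) (B (lo111_10_5 (nat_lit 331)) (lo111_11_5 (nat_lit 490)))))) (M (nat_lit 425) (B (M (nat_lit 424) (B (lo17_13_0 (nat_lit 423)) (lo18_13_2 (nat_lit 427)))) (B (M (nat_lit 427) (B (lo18_13_2 (nat_lit 424)) (lo19_13_2 (nat_lit 397)))) (B (M (nat_lit 397) (B (lo113_12_1 (nat_lit 394)) (lo19_13_2 (nat_lit 427)))) (M (nat_lit 394) (B (lo19_12_0 (nat_lit 393)) (lo113_12_1 (nat_lit 397))))))))))))))))))) (M (nat_lit 363) (B (lo112_14_7 (nat_lit 331)) (M (nat_lit 492) (B (lo112_15_7 (nat_lit 395)) (M (nat_lit 491) (B (lo112_11_5 (nat_lit 459)) (lo112_12_5 (nat_lit 523)))))))))))) (B (M (nat_lit 461) (B (lo112_10_4 (nat_lit 332)) (M (nat_lit 493) (B (lo112_11_4 (nat_lit 460)) (lo113_16_7 (nat_lit 525)))))) (K _ _ _ o1_s30835))))) (B (M (nat_lit 363) (B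 (M (nat_lit 396) (B (M (nat_lit 461) (B (lo112_10_4 (nat_lit 332)) (M (nat_lit 460) (B (lo112_14_7 (nat_lit 331)) (lo112_11_4 (nat_lit 493)))))) (B (M (nat_lit 461) (B (lo112_10_4 (nat_lit 332)) (M (nat_lit 493) (B (lo112_11_4 (nat_lit 460)) (lo113_16_7 (nat_lit 525)))))) (B (M (nat_lit 331) (B (lo112_14_7 (nat_lit 460)) (M (nat_lit 299) (B (lo111_8_4 (nat_lit 267)) (lo111_9_4 (nat_lit 395)))))) (M (nat_lit 332) (B (lo112_10_4 (nat_lit 461)) (M (nat_lit 300) (B (M (nat_lit 299) (B (lo112_12_7 (nat_lit 267)) (lo112_13_7 (nat_lit 331)))) (M (nat_lit 427) (B (lo112_9_5 (nat_lit 395)) (lo112_10_5 (nat_lit 459)))))))))))) (B (M (nat_lit 396) (B (M (nat_lit 331) (B (lo112_14_7 (nat_lit 460)) (M (nat_lit 332) (B (lo112_13_7 (nat_lit 299)) (lo112_10_4 (nat_lit 461)))))) (B (M (nat_lit 461) (B (lo112_10_4 (nat_lit 332)) (M (nat_lit 460) (B (lo112_14_7 (nat_lit 331)) (lo112_11_4 (nat_lit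 493)))))) (B (K _ _ _ o1_s30862) (B (M (nat_lit 460) (B (lo112_14_7 (nat_lit 331)) (M (nat_lit 492) (B (lo112_15_7 (nat_lit 395)) (M (nat_lit 491) (B (lo112_11_5 (nat_lit 459)) (lo112_12_5 (nat_lit 523)))))))) (K _ _ _ o1_s30871)))))) (B (M (nat_lit 396) (B (M (nat_lit 461) (B (lo112_10_4 (nat_lit 332)) (M (nat_lit 460) (B (lo112_14_7 (nat_lit 331)) (lo112_11_4 (nat_lit 493)))))) (B (K _ _ _ o1_s30862) (B (M (nat_lit 460) (B (lo112_14_7 (nat_lit 331)) (M (nat_lit 492) (B (lo112_15_7 (nat_lit 395)) (M (nat_lit 491) (B (lo112_11_5 (nat_lit 459)) (lo112_12_5 (nat_lit 523)))))))) (K _ _ _ o1_s30871))))) (B (M (nat_lit 396) (B (M (nat_lit 461) (B (lo112_10_4 (nat_lit 332)) (M (nat_lit 493) (B (lo112_11_4 (nat_lit 460)) (lo113_16_7 (nat_lit 525)))))) (B (M (nat_lit 365) (B (M (nat_lit 460) (B (lo112_14_6 (nat_lit 333)) (M (nat_lit 492) (B (lo112_15_7 (nat_lit 395)) (M (nat_lit 491)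 (B (lo112_11_5 (nat_lit 459)) (lo112_12_5 (nat_lit 523)))))))) (B (M (nat_lit 460) (B (lo112_14_6 (nat_lit 333)) (M (nat_lit 492) (B (M (nat_lit 491) (B (lo112_11_5 (nat_lit 459)) (lo112_12_5 (nat_lit 523)))) (M (nat_lit 493) (B (lo112_11_4 (nat_lit 461)) (lo112_12_4 (nat_lit 525)))))))) (B (M (nat_lit 395) (B (M (nat_lit 394) (B (lo19_12_2 (nat_lit 393)) (lo114_11_1 (nat_lit 366)))) (M (nat_lit 460) (B (lo112_15_7 (nat_lit 492)) (lo112_14_6 (nat_lit 333)))))) (B (M (nat_lit 362) (B (M (nat_lit 361) (B (M (nat_lit 329) (B (lo112_11_3 (nat_lit 328)) (lo113_11_3 (nat_lit 330)))) (M (nat_lit 393) (B (lo112_11_1 (nat_lit 392)) (lo113_11_1 (nat_lit 394)))))) (B (M (nat_lit 366) (B (M (nat_lit 394) (B (lo113_11_1 (nat_lit 393)) (lo114_11_1 (nat_lit 395)))) (M (nat_lit 334) (B (lo110_11_2 (nat_lit 333)) (lo111_11_2 (nat_lit 335)))))) (B (M (nat_lit 366) (B (M (nat_lit 334) (B (lo110_11_2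 (nat_lit 333)) (lo111_11_2 (nat_lit 335)))) (M (nat_lit 395) (B (lo114_11_1 (nat_lit 394)) (lo115_11_1 (nat_lit 367)))))) (K _ _ _ o1_s30894))))) (M (nat_lit 362) (B (M (nat_lit 361) (B (M (nat_lit 329) (B (lo112_11_3 (nat_lit 328)) (lo113_11_3 (nat_lit 330)))) (M (nat_lit 393) (B (lo112_11_1 (nat_lit 392)) (lo113_11_1 (nat_lit 394)))))) (B (M (nat_lit 395) (B (M (nat_lit 394) (B (lo113_11_1 (nat_lit 393)) (lo114_11_1 (nat_lit 366)))) (M (nat_lit 459) (B (M (nat_lit 330) (B (lo113_11_3 (nat_lit 329)) (lo111_14_7 (nat_lit 427)))) (B (M (nat_lit 427) (B (lo111_14_7 (nat_lit 330)) (lo111_15_6 (nat_lit 491)))) (B (M (nat_lit 491) (B (lo111_15_6 (nat_lit 427)) (lo112_11_5 (nat_lit 460)))) (M (nat_lit 460) (B (lo112_15_7 (nat_lit 492)) (lo112_11_5 (nat_lit 491)))))))))) (B (M (nat_lit 361) (B (M (nat_lit 393) (B (lo112_11_1 (nat_lit 392)) (lo113_11_1 (nat_lit 394)))) (B (M (nat_lit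 395) (B (lo18_11_0 (nat_lit 360)) (M (nat_lit 394) (B (lo113_11_1 (nat_lit 393)) (lo114_11_1 (nat_lit 366)))))) (B (M (nat_lit 395) (B (lo18_11_0 (nat_lit 360)) (M (nat_lit 366) (B (lo114_11_1 (nat_lit 394)) (lo115_11_1 (nat_lit 367)))))) (M (nat_lit 360) (B (lo18_11_0 (nat_lit 395)) (M (nat_lit 392) (B (lo111_11_1 (nat_lit 391)) (lo112_11_1 (nat_lit 393)))))))))) (B (M (nat_lit 395) (B (M (nat_lit 366) (B (lo114_11_1 (nat_lit 394)) (lo115_11_1 (nat_lit 367)))) (M (nat_lit 329) (B (lo113_11_3 (nat_lit 330)) (M (nat_lit 361) (B (lo112_11_3 (nat_lit 328)) (lo18_11_0 (nat_lit 360)))))))) (K _ _ _ o1_s30894))))))))))) (B (K _ _ _ o1_s30930) (M (nat_lit 460) (B (M (nat_lit 492) (B (lo112_15_7 (nat_lit 395)) (M (nat_lit 491) (B (lo112_11_5 (nat_lit 459)) (lo112_12_5 (nat_lit 523)))))) (B (M (nat_lit 332) (B (M (nat_lit 459) (B (lo112_10_5 (nat_lit 427)) (lo112_11_5 (nat_lit 491))))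 (M (nat_lit 333) (B (lo112_13_6 (nat_lit 301)) (lo112_14_6 (nat_lit 365)))))) (M (nat_lit 395) (B (lo112_15_7 (nat_lit 492)) (M (nat_lit 365) (B (lo112_14_6 (nat_lit 333)) (M (nat_lit 394) (B (lo19_12_2 (nat_lit 393)) (lo114_11_1 (nat_lit 366))))))))))))))) (B (M (nat_lit 396) (B (M (nat_lit 331) (B (lo112_14_7 (nat_lit 460)) (M (nat_lit 332) (B (lo112_13_7 (nat_lit 299)) (lo112_10_4 (nat_lit 461)))))) (B (M (nat_lit 461) (B (lo112_10_4 (nat_lit 332)) (M (nat_lit 460) (B (lo112_14_7 (nat_lit 331)) (lo112_11_4 (nat_lit 493)))))) (B (M (nat_lit 461) (B (lo112_10_4 (nat_lit 332)) (M (nat_lit 493) (B (lo112_11_4 (nat_lit 460)) (lo113_16_7 (nat_lit 525)))))) (B (K _ _ _ o1_s29513) (B (K _ _ _ o1_s30930) (M (nat_lit 331) (B (lo112_14_7 (nat_lit 460)) (M (nat_lit 299) (B (lo111_8_4 (nat_lit 267)) (lo112_13_7 (nat_lit 332)))))))))))) (B (M (nat_lit 396) (B (M (nat_lit 331) (B (lo112_14_7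 (nat_lit 460)) (M (nat_lit 332) (B (lo112_13_7 (nat_lit 299)) (lo112_10_4 (nat_lit 461)))))) (B (K _ _ _ o1_s30871) (M (nat_lit 331) (B (lo112_14_7 (nat_lit 460)) (M (nat_lit 299) (B (lo111_8_4 (nat_lit 267)) (lo111_9_4 (nat_lit 395))))))))) (B (M (nat_lit 395) (B (K _ _ _ o1_s29941) (B (K _ _ _ o1_s29984) (B (K _ _ _ o1_s30075) (B (M (nat_lit 427) (B (M (nat_lit 460) (B (lo111_10_4 (nat_lit 331)) (M (nat_lit 492) (B (lo111_11_4 (nat_lit 459)) (lo112_16_7 (nat_lit 524)))))) (B (K _ _ _ o1_s29925) (B (M (nat_lit 331) (B (lo111_10_4 (nat_lit 460)) (M (nat_lit 426) (B (lo111_10_5 (nat_lit 458)) (M (nat_lit 394) (B (lo113_13_3 (nat_lit 393)) (lo111_9_5 (nat_lit 299)))))))) (M (nat_lit 459) (B (M (nat_lit 458) (B (lo111_11_5 (nat_lit 490)) (M (nat_lit 426) (B (lo113_13_1 (nat_lit 457)) (lo111_10_5 (nat_lit 331)))))) (B (M (nat_lit 394) (B (M (nat_lit 393) (B (lo18_12_2 (nat_lit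 392)) (lo113_13_3 (nat_lit 426)))) (M (nat_lit 362) (B (lo111_14_7 (nat_lit 330)) (lo111_15_7 (nat_lit 491)))))) (M (nat_lit 491) (B (M (nat_lit 362) (B (lo111_14_7 (nat_lit 330)) (lo111_15_7 (nat_lit 394)))) (M (nat_lit 490) (B (lo111_11_5 (nat_lit 458)) (lo111_12_5 (nat_lit 522))))))))))))) (M (nat_lit 427) (B (M (nat_lit 331) (B (M (nat_lit 426) (B (lo111_10_5 (nat_lit 458)) (M (nat_lit 299) (B (lo111_9_5 (nat_lit 394)) (lo111_9_4 (nat_lit 396)))))) (B (M (nat_lit 298) (B (lo111_13_7 (nat_lit 330)) (M (nat_lit 299) (B (lo111_12_7 (nat_lit 266)) (lo111_9_4 (nat_lit 396)))))) (M (nat_lit 459) (B (M (nat_lit 330) (B (lo111_13_7 (nat_lit 298)) (lo111_14_7 (nat_lit 362)))) (M (nat_lit 458) (B (lo111_10_5 (nat_lit 426)) (lo111_11_5 (nat_lit 490))))))))) (B (M (nat_lit 331) (B (M (nat_lit 426) (B (lo111_10_5 (nat_lit 458)) (M (nat_lit 299) (B (lo111_9_5 (nat_lit 394)) (lo111_9_4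 (nat_lit 396)))))) (B (M (nat_lit 459) (B (M (nat_lit 330) (B (lo111_13_7 (nat_lit 298)) (lo111_14_7 (nat_lit 362)))) (M (nat_lit 396) (B (lo111_9_4 (nat_lit 299)) (lo111_15_6 (nat_lit 491)))))) (M (nat_lit 459) (B (M (nat_lit 330) (B (lo111_13_7 (nat_lit 298)) (lo111_14_7 (nat_lit 362)))) (M (nat_lit 458) (B (lo111_10_5 (nat_lit 426)) (lo111_11_5 (nat_lit 490))))))))) (B (M (nat_lit 394) (B (M (nat_lit 393) (B (lo18_12_2 (nat_lit 392)) (lo113_13_3 (nat_lit 426)))) (B (M (nat_lit 393) (B (lo113_13_3 (nat_lit 426)) (lo19_12_0 (nat_lit 396)))) (B (M (nat_lit 331) (B (M (nat_lit 426) (B (lo111_9_5 (nat_lit 299)) (lo111_10_5 (nat_lit 458)))) (B (M (nat_lit 362) (B (M (nat_lit 299) (B (lo111_8_5 (nat_lit 267)) (lo111_9_4 (nat_lit 396)))) (M (nat_lit 459) (B (lo111_14_7 (nat_lit 330)) (lo111_15_7 (nat_lit 491)))))) (M (nat_lit 459) (B (M (nat_lit 362) (B (lo111_14_7 (nat_lit 330))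 (lo111_15_7 (nat_lit 491)))) (M (nat_lit 458) (B (lo111_10_5 (nat_lit 426)) (lo111_11_5 (nat_lit 490))))))))) (M (nat_lit 393) (B (lo18_12_2 (nat_lit 392)) (lo19_12_0 (nat_lit 396)))))))) (B (M (nat_lit 394) (B (M (nat_lit 393) (B (lo18_12_2 (nat_lit 392)) (lo113_13_3 (nat_lit 426)))) (B (M (nat_lit 393) (B (lo113_13_3 (nat_lit 426)) (lo19_12_0 (nat_lit 396)))) (B (M (nat_lit 458) (B (M (nat_lit 426) (B (lo113_13_1 (nat_lit 457)) (lo110_15_6 (nat_lit 490)))) (B (M (nat_lit 426) (B (lo110_15_6 (nat_lit 490)) (lo111_10_5 (nat_lit 331)))) (B (M (nat_lit 459) (B (lo111_11_5 (nat_lit 490)) (M (nat_lit 491) (B (lo111_15_7 (nat_lit 362)) (lo111_15_6 (nat_lit 396)))))) (M (nat_lit 426) (B (lo113_13_1 (nat_lit 457)) (lo111_10_5 (nat_lit 331)))))))) (M (nat_lit 393) (B (lo18_12_2 (nat_lit 392)) (lo19_12_0 (nat_lit 396)))))))) (B (M (nat_lit 426) (B (M (nat_lit 458) (B (lo113_13_1 (nat_lit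 457)) (lo111_10_5 (nat_lit 331)))) (B (M (nat_lit 458) (B (lo111_10_5 (nat_lit 331)) (M (nat_lit 394) (B (lo113_13_3 (nat_lit 393)) (lo110_15_6 (nat_lit 490)))))) (M (nat_lit 425) (B (M (nat_lit 393) (B (lo112_13_3 (nat_lit 392)) (lo113_13_3 (nat_lit 394)))) (M (nat_lit 424) (B (lo18_13_2 (nat_lit 396)) (M (nat_lit 456) (B (lo111_13_1 (nat_lit 455)) (lo112_13_1 (nat_lit 457))))))))))) (B (M (nat_lit 331) (B (M (nat_lit 298) (B (lo111_13_7 (nat_lit 330)) (M (nat_lit 299) (B (lo111_12_7 (nat_lit 266)) (lo111_9_4 (nat_lit 396)))))) (B (M (nat_lit 459) (B (M (nat_lit 330) (B (lo111_13_7 (nat_lit 298)) (lo111_14_7 (nat_lit 362)))) (M (nat_lit 396) (B (lo111_9_4 (nat_lit 299)) (lo111_15_6 (nat_lit 491)))))) (B (M (nat_lit 459) (B (M (nat_lit 458) (B (lo111_10_5 (nat_lit 426)) (lo111_11_5 (nat_lit 490)))) (M (nat_lit 396) (B (lo111_9_4 (nat_lit 299)) (lo111_15_6 (nat_lit 491))))))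 (M (nat_lit 459) (B (M (nat_lit 330) (B (lo111_13_7 (nat_lit 298)) (lo111_14_7 (nat_lit 362)))) (M (nat_lit 458) (B (lo111_10_5 (nat_lit 426)) (lo111_11_5 (nat_lit 490)))))))))) (B (M (nat_lit 362) (B (M (nat_lit 459) (B (lo111_14_7 (nat_lit 330)) (M (nat_lit 491) (B (lo111_15_7 (nat_lit 394)) (lo111_15_6 (nat_lit 396)))))) (B (K _ _ _ o1_s31012) (B (M (nat_lit 459) (B (lo111_14_7 (nat_lit 330)) (M (nat_lit 490) (B (lo111_11_5 (nat_lit 458)) (M (nat_lit 491) (B (lo111_12_5 (nat_lit 522)) (lo111_15_6 (nat_lit 396)))))))) (M (nat_lit 394) (B (M (nat_lit 393) (B (lo18_12_2 (nat_lit 392)) (lo113_11_1 (nat_lit 365)))) (M (nat_lit 459) (B (lo111_14_7 (nat_lit 330)) (lo111_15_7 (nat_lit 491)))))))))) (B (M (nat_lit 394) (B (M (nat_lit 393) (B (lo18_12_2 (nat_lit 392)) (lo113_13_3 (nat_lit 426)))) (B (M (nat_lit 393) (B (lo113_13_3 (nat_lit 426)) (lo19_12_0 (nat_lit 396)))) (B (M (nat_lit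 330) (B (M (nat_lit 298) (B (lo110_9_4 (nat_lit 362)) (lo111_13_7 (nat_lit 331)))) (B (M (nat_lit 362) (B (lo111_14_7 (nat_lit 459)) (M (nat_lit 365) (B (lo113_11_3 (nat_lit 329)) (lo114_11_1 (nat_lit 366)))))) (M (nat_lit 331) (B (lo111_13_7 (nat_lit 298)) (M (nat_lit 299) (B (lo111_9_5 (nat_lit 426)) (lo111_9_4 (nat_lit 396))))))))) (M (nat_lit 393) (B (lo18_12_2 (nat_lit 392)) (lo19_12_0 (nat_lit 396)))))))) (M (nat_lit 394) (B (M (nat_lit 393) (B (lo18_12_2 (nat_lit 392)) (lo113_13_3 (nat_lit 426)))) (B (M (nat_lit 393) (B (lo113_13_3 (nat_lit 426)) (M (nat_lit 365) (B (lo113_11_1 (nat_lit 362)) (lo114_11_1 (nat_lit 366)))))) (B (M (nat_lit 362) (B (M (nat_lit 330) (B (lo110_9_4 (nat_lit 298)) (lo111_14_7 (nat_lit 459)))) (B (M (nat_lit 459) (B (lo111_14_7 (nat_lit 330)) (lo111_15_7 (nat_lit 491)))) (B (M (nat_lit 458) (B (M (nat_lit 426) (B (lo113_13_1 (nat_lit 457)) (lo110_14_6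 (nat_lit 331)))) (B (M (nat_lit 426) (B (lo110_14_6 (nat_lit 331)) (lo110_15_6 (nat_lit 490)))) (M (nat_lit 459) (B (lo111_15_7 (nat_lit 491)) (lo111_11_5 (nat_lit 490))))))) (M (nat_lit 330) (B (lo110_9_4 (nat_lit 298)) (M (nat_lit 365) (B (lo113_11_3 (nat_lit 329)) (lo114_11_1 (nat_lit 366)))))))))) (M (nat_lit 393) (B (lo18_12_2 (nat_lit 392)) (M (nat_lit 365) (B (lo113_11_1 (nat_lit 362)) (lo114_11_1 (nat_lit 366)))))))))))))))))))))))) (B (M (nat_lit 365) (B (M (nat_lit 366) (B (M (nat_lit 367) (B (M (nat_lit 331) (B (lo114_11_3 (nat_lit 330)) (lo115_11_3 (nat_lit 332)))) (M (nat_lit 399) (B (lo111_11_0 (nat_lit 398)) (lo112_11_0 (nat_lit 400)))))) (B (M (nat_lit 367) (B (M (nat_lit 335) (B (lo111_11_2 (nat_lit 334)) (lo112_11_2 (nat_lit 336)))) (M (nat_lit 399) (B (lo111_11_0 (nat_lit 398)) (lo112_11_0 (nat_lit 400)))))) (B (M (nat_lit 367) (B (M (nat_lit 331) (B (lo114_11_3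 (nat_lit 330)) (lo115_11_3 (nat_lit 332)))) (M (nat_lit 335) (B (lo111_11_2 (nat_lit 334)) (lo112_11_2 (nat_lit 336)))))) (M (nat_lit 362) (B (M (nat_lit 330) (B (lo113_11_3 (nat_lit 329)) (lo114_11_3 (nat_lit 331)))) (M (nat_lit 394) (B (lo113_11_1 (nat_lit 393)) (lo114_11_1 (nat_lit 395)))))))))) (B (K _ _ _ o1_s30405) (B (K _ _ _ o1_s30407) (B (K _ _ _ o1_s30426) (B (K _ _ _ o1_s30434) (B (K _ _ _ o1_s30440) (B (K _ _ _ o1_s29522) (B (M (nat_lit 395) (B (M (nat_lit 394) (B (lo114_11_1 (nat_lit 366)) (M (nat_lit 393) (B (lo18_12_2 (nat_lit 392)) (lo113_11_1 (nat_lit 362)))))) (B (K _ _ _ o1_s30452) (B (K _ _ _ o1_s30456) (B (M (nat_lit 427) (B (M (nat_lit 331) (B (lo111_10_4 (nat_lit 460)) (M (nat_lit 332) (B (lo111_13_6 (nat_lit 300)) (lo111_14_6 (nat_lit 459)))))) (B (M (nat_lit 459) (B (lo111_14_6 (nat_lit 332)) (M (nat_lit 460) (B (lo111_11_4 (nat_lit 492)) (M (nat_lit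 458) (B (lo19_14_2 (nat_lit 457)) (lo111_11_5 (nat_lit 490)))))))) (B (M (nat_lit 331) (B (lo111_10_4 (nat_lit 460)) (M (nat_lit 330) (B (lo111_13_7 (nat_lit 298)) (lo114_11_3 (nat_lit 366)))))) (M (nat_lit 331) (B (M (nat_lit 330) (B (lo111_13_7 (nat_lit 298)) (lo114_11_3 (nat_lit 366)))) (M (nat_lit 332) (B (lo111_13_6 (nat_lit 300)) (lo111_14_6 (nat_lit 459)))))))))) (K _ _ _ o1_s30476)))))) (M (nat_lit 427) (B (K _ _ _ o1_s30478) (B (M (nat_lit 395) (B (M (nat_lit 331) (B (lo111_10_4 (nat_lit 460)) (M (nat_lit 332) (B (lo111_13_6 (nat_lit 300)) (lo111_14_6 (nat_lit 459)))))) (B (M (nat_lit 459) (B (lo111_14_6 (nat_lit 332)) (M (nat_lit 460) (B (lo111_11_4 (nat_lit 492)) (M (nat_lit 458) (B (lo19_14_2 (nat_lit 457)) (lo111_11_5 (nat_lit 490)))))))) (B (M (nat_lit 331) (B (lo111_10_4 (nat_lit 460)) (M (nat_lit 330) (B (lo111_13_7 (nat_lit 298)) (M (nat_lit 332) (B (lo19_10_0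 (nat_lit 329)) (lo111_13_6 (nat_lit 300)))))))) (B (M (nat_lit 330) (B (M (nat_lit 331) (B (lo111_13_7 (nat_lit 298)) (lo111_10_4 (nat_lit 460)))) (M (nat_lit 362) (B (lo113_11_3 (nat_lit 329)) (lo111_14_7 (nat_lit 459)))))) (M (nat_lit 458) (B (M (nat_lit 426) (B (lo113_13_1 (nat_lit 457)) (lo111_10_5 (nat_lit 331)))) (M (nat_lit 459) (B (lo111_11_5 (nat_lit 490)) (lo111_14_6 (nat_lit 332))))))))))) (B (M (nat_lit 395) (B (M (nat_lit 459) (B (lo111_14_6 (nat_lit 332)) (M (nat_lit 460) (B (lo111_10_4 (nat_lit 331)) (lo111_11_4 (nat_lit 492)))))) (B (M (nat_lit 459) (B (lo111_14_6 (nat_lit 332)) (M (nat_lit 460) (B (lo111_11_4 (nat_lit 492)) (M (nat_lit 458) (B (lo19_14_2 (nat_lit 457)) (lo111_11_5 (nat_lit 490)))))))) (B (M (nat_lit 331) (B (lo111_10_4 (nat_lit 460)) (M (nat_lit 426) (B (lo111_10_5 (nat_lit 458)) (M (nat_lit 394) (B (lo113_13_3 (nat_lit 393)) (lo111_9_5 (nat_lit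 299)))))))) (M (nat_lit 458) (B (M (nat_lit 426) (B (lo113_13_1 (nat_lit 457)) (lo111_10_5 (nat_lit 331)))) (M (nat_lit 459) (B (lo111_11_5 (nat_lit 490)) (lo111_14_6 (nat_lit 332)))))))))) (B (M (nat_lit 395) (B (M (nat_lit 459) (B (lo111_14_6 (nat_lit 332)) (M (nat_lit 460) (B (lo111_10_4 (nat_lit 331)) (lo111_11_4 (nat_lit 492)))))) (B (M (nat_lit 459) (B (lo111_14_6 (nat_lit 332)) (M (nat_lit 460) (B (lo111_11_4 (nat_lit 492)) (M (nat_lit 458) (B (lo19_14_2 (nat_lit 457)) (lo111_11_5 (nat_lit 490)))))))) (B (M (nat_lit 331) (B (lo111_10_4 (nat_lit 460)) (M (nat_lit 330) (B (lo111_13_7 (nat_lit 298)) (M (nat_lit 332) (B (lo19_10_0 (nat_lit 329)) (lo111_13_6 (nat_lit 300)))))))) (B (M (nat_lit 460) (B (lo111_10_4 (nat_lit 331)) (M (nat_lit 492) (B (lo111_11_4 (nat_lit 459)) (lo112_16_7 (nat_lit 524)))))) (M (nat_lit 332) (B (lo111_14_6 (nat_lit 459)) (M (nat_lit 300) (B (lo111_13_6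 (nat_lit 331)) (lo112_8_5 (nat_lit 268))))))))))) (B (K _ _ _ o1_s30505) (B (K _ _ _ o1_s30518) (B (K _ _ _ o1_s30528) (B (K _ _ _ o1_s30529) (M (nat_lit 395) (B (M (nat_lit 460) (B (lo111_10_4 (nat_lit 331)) (M (nat_lit 492) (B (lo111_11_4 (nat_lit 459)) (lo112_16_7 (nat_lit 524)))))) (B (M (nat_lit 459) (B (M (nat_lit 460) (B (lo111_11_4 (nat_lit 492)) (M (nat_lit 458) (B (lo19_14_2 (nat_lit 457)) (lo111_11_5 (nat_lit 490)))))) (M (nat_lit 362) (B (lo111_14_7 (nat_lit 330)) (M (nat_lit 394) (B (lo113_11_1 (nat_lit 393)) (lo111_15_7 (nat_lit 491)))))))) (B (M (nat_lit 331) (B (lo111_10_4 (nat_lit 460)) (M (nat_lit 426) (B (lo111_10_5 (nat_lit 458)) (M (nat_lit 394) (B (lo113_13_3 (nat_lit 393)) (lo111_9_5 (nat_lit 299)))))))) (M (nat_lit 331) (B (M (nat_lit 330) (B (lo111_13_7 (nat_lit 298)) (M (nat_lit 329) (B (lo18_10_0 (nat_lit 328)) (lo113_11_3 (nat_lit 362)))))) (M (nat_lit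 426) (B (lo111_10_5 (nat_lit 458)) (M (nat_lit 394) (B (lo113_13_3 (nat_lit 393)) (lo111_9_5 (nat_lit 299)))))))))))))))))))))))))))))) (M (nat_lit 395) (B (M (nat_lit 332) (B (M (nat_lit 396) (B (lo112_10_4 (nat_lit 461)) (M (nat_lit 427) (B (lo111_14_6 (nat_lit 459)) (lo112_9_5 (nat_lit 300)))))) (B (M (nat_lit 396) (B (lo112_10_4 (nat_lit 461)) (M (nat_lit 299) (B (lo111_9_4 (nat_lit 331)) (M (nat_lit 300) (B (lo112_12_7 (nat_lit 267)) (lo112_8_5 (nat_lit 268)))))))) (B (M (nat_lit 331) (B (M (nat_lit 396) (B (lo111_9_4 (nat_lit 299)) (lo112_10_4 (nat_lit 461)))) (M (nat_lit 330) (B (M (nat_lit 329) (B (lo18_10_0 (nat_lit 328)) (lo19_10_0 (nat_lit 365)))) (M (nat_lit 427) (B (lo111_13_7 (nat_lit 298)) (lo111_14_6 (nat_lit 459)))))))) (M (nat_lit 300) (B (lo112_8_5 (nat_lit 268)) (M (nat_lit 427) (B (lo111_13_6 (nat_lit 331)) (lo111_14_6 (nat_lit 459)))))))))) (B (M (nat_lit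 332) (B (M (nat_lit 396) (B (lo112_10_4 (nat_lit 461)) (M (nat_lit 427) (B (lo111_14_6 (nat_lit 459)) (lo112_9_5 (nat_lit 300)))))) (B (M (nat_lit 396) (B (lo112_10_4 (nat_lit 461)) (M (nat_lit 299) (B (lo111_9_4 (nat_lit 331)) (M (nat_lit 300) (B (lo112_12_7 (nat_lit 267)) (lo112_8_5 (nat_lit 268)))))))) (B (M (nat_lit 331) (B (M (nat_lit 396) (B (lo111_9_4 (nat_lit 299)) (lo112_10_4 (nat_lit 461)))) (M (nat_lit 330) (B (M (nat_lit 427) (B (lo111_13_7 (nat_lit 298)) (lo111_14_6 (nat_lit 459)))) (M (nat_lit 365) (B (lo19_10_0 (nat_lit 329)) (lo114_11_3 (nat_lit 366)))))))) (M (nat_lit 300) (B (lo112_8_5 (nat_lit 268)) (M (nat_lit 427) (B (lo111_13_6 (nat_lit 331)) (lo111_14_6 (nat_lit 459)))))))))) (B (M (nat_lit 331) (B (M (nat_lit 396) (B (lo111_9_4 (nat_lit 299)) (M (nat_lit 332) (B (lo112_10_4 (nat_lit 461)) (M (nat_lit 427) (B (lo111_13_6 (nat_lit 300)) (lo111_14_6 (nat_lit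 459)))))))) (B (K _ _ _ o1_s31104) (B (M (nat_lit 394) (B (M (nat_lit 393) (B (lo18_12_2 (nat_lit 392)) (lo19_12_0 (nat_lit 396)))) (B (M (nat_lit 396) (B (lo19_12_0 (nat_lit 393)) (lo111_9_4 (nat_lit 299)))) (B (M (nat_lit 299) (B (lo111_9_5 (nat_lit 426)) (lo111_9_4 (nat_lit 396)))) (M (nat_lit 393) (B (lo18_12_2 (nat_lit 392)) (M (nat_lit 365) (B (lo113_11_1 (nat_lit 362)) (lo114_11_1 (nat_lit 366)))))))))) (K _ _ _ o1_s29801))))) (B (M (nat_lit 332) (B (M (nat_lit 396) (B (lo112_10_4 (nat_lit 461)) (M (nat_lit 427) (B (lo111_14_6 (nat_lit 459)) (lo112_9_5 (nat_lit 300)))))) (B (M (nat_lit 396) (B (lo112_10_4 (nat_lit 461)) (M (nat_lit 300) (B (lo112_8_5 (nat_lit 268)) (M (nat_lit 301) (B (lo112_12_6 (nat_lit 269)) (lo112_13_6 (nat_lit 333)))))))) (B (M (nat_lit 365) (B (M (nat_lit 366) (B (lo114_11_1 (nat_lit 394)) (M (nat_lit 331) (B (lo114_11_3 (nat_lit 330)) (lo115_11_3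 (nat_lit 367)))))) (B (M (nat_lit 366) (B (lo114_11_1 (nat_lit 394)) (M (nat_lit 396) (B (lo115_11_1 (nat_lit 367)) (lo112_10_4 (nat_lit 461)))))) (M (nat_lit 333) (B (M (nat_lit 362) (B (lo19_11_2 (nat_lit 361)) (lo110_11_2 (nat_lit 334)))) (M (nat_lit 396) (B (lo112_13_6 (nat_lit 301)) (lo112_10_4 (nat_lit 461))))))))) (M (nat_lit 300) (B (lo112_8_5 (nat_lit 268)) (M (nat_lit 427) (B (lo111_13_6 (nat_lit 331)) (lo111_14_6 (nat_lit 459)))))))))) (B (M (nat_lit 362) (B (M (nat_lit 396) (B (M (nat_lit 332) (B (lo112_10_4 (nat_lit 461)) (M (nat_lit 361) (B (lo18_11_0 (nat_lit 360)) (lo19_11_2 (nat_lit 333)))))) (B (M (nat_lit 332) (B (lo112_10_4 (nat_lit 461)) (M (nat_lit 427) (B (lo111_14_6 (nat_lit 459)) (lo112_9_5 (nat_lit 300)))))) (M (nat_lit 393) (B (lo19_12_0 (nat_lit 394)) (M (nat_lit 361) (B (lo18_11_0 (nat_lit 360)) (lo112_11_1 (nat_lit 392))))))))) (B (K _ _ _ o1_s30098)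 (B (M (nat_lit 394) (B (M (nat_lit 393) (B (lo113_11_1 (nat_lit 365)) (lo19_12_0 (nat_lit 396)))) (B (M (nat_lit 330) (B (M (nat_lit 365) (B (lo113_11_3 (nat_lit 329)) (lo114_11_1 (nat_lit 366)))) (M (nat_lit 427) (B (lo110_9_4 (nat_lit 298)) (lo111_14_7 (nat_lit 459)))))) (M (nat_lit 427) (B (M (nat_lit 393) (B (lo113_13_3 (nat_lit 426)) (lo19_12_0 (nat_lit 396)))) (M (nat_lit 459) (B (lo111_15_7 (nat_lit 491)) (lo111_14_6 (nat_lit 332))))))))) (B (M (nat_lit 332) (B (M (nat_lit 333) (B (lo19_11_2 (nat_lit 361)) (M (nat_lit 334) (B (lo110_11_2 (nat_lit 365)) (lo115_10_1 (nat_lit 335)))))) (M (nat_lit 427) (B (lo111_14_6 (nat_lit 459)) (M (nat_lit 396) (B (lo112_9_5 (nat_lit 300)) (lo112_10_4 (nat_lit 461)))))))) (K _ _ _ o1_s31159)))))) (B (M (nat_lit 362) (B (K _ _ _ o1_s31159) (B (M (nat_lit 396) (B (M (nat_lit 332) (B (lo112_10_4 (nat_lit 461)) (M (nat_lit 361) (B (lo18_11_0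 (nat_lit 360)) (lo19_11_2 (nat_lit 333)))))) (B (M (nat_lit 332) (B (lo112_10_4 (nat_lit 461)) (M (nat_lit 333) (B (lo19_11_2 (nat_lit 361)) (lo112_13_6 (nat_lit 301)))))) (B (M (nat_lit 332) (B (lo112_10_4 (nat_lit 461)) (M (nat_lit 300) (B (lo112_8_5 (nat_lit 268)) (M (nat_lit 301) (B (lo112_12_6 (nat_lit 269)) (lo112_13_6 (nat_lit 333)))))))) (M (nat_lit 393) (B (lo19_12_0 (nat_lit 394)) (M (nat_lit 361) (B (lo18_11_0 (nat_lit 360)) (lo112_11_1 (nat_lit 392)))))))))) (B (K _ _ _ o1_s30052) (M (nat_lit 361) (B (M (nat_lit 360) (B (lo18_11_0 (nat_lit 396)) (M (nat_lit 332) (B (lo18_11_2 (nat_lit 331)) (lo19_11_2 (nat_lit 333)))))) (B (M (nat_lit 365) (B (M (nat_lit 329) (B (lo112_11_3 (nat_lit 328)) (lo113_11_3 (nat_lit 330)))) (M (nat_lit 333) (B (lo19_11_2 (nat_lit 332)) (lo110_11_2 (nat_lit 334)))))) (M (nat_lit 328) (B (lo112_11_3 (nat_lit 329)) (M (nat_lit 360) (B (lo111_11_3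 (nat_lit 327)) (lo18_11_0 (nat_lit 396))))))))))))) (B (M (nat_lit 331) (B (M (nat_lit 332) (B (M (nat_lit 396) (B (lo111_9_4 (nat_lit 299)) (lo112_10_4 (nat_lit 461)))) (M (nat_lit 330) (B (M (nat_lit 329) (B (lo18_10_0 (nat_lit 328)) (lo19_10_0 (nat_lit 365)))) (M (nat_lit 427) (B (lo111_13_7 (nat_lit 298)) (lo111_14_6 (nat_lit 459)))))))) (B (M (nat_lit 332) (B (M (nat_lit 396) (B (lo111_9_4 (nat_lit 299)) (lo112_10_4 (nat_lit 461)))) (M (nat_lit 330) (B (M (nat_lit 427) (B (lo111_13_7 (nat_lit 298)) (lo111_14_6 (nat_lit 459)))) (M (nat_lit 365) (B (lo19_10_0 (nat_lit 329)) (lo114_11_3 (nat_lit 366)))))))) (B (K _ _ _ o1_s29773) (B (M (nat_lit 330) (B (M (nat_lit 365) (B (lo114_11_3 (nat_lit 366)) (M (nat_lit 329) (B (lo18_10_0 (nat_lit 328)) (lo19_10_0 (nat_lit 332)))))) (B (M (nat_lit 365) (B (lo114_11_3 (nat_lit 366)) (M (nat_lit 329) (B (lo113_11_3 (nat_lit 362)) (lo19_10_0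 (nat_lit 332)))))) (B (M (nat_lit 427) (B (lo111_13_7 (nat_lit 298)) (M (nat_lit 459) (B (lo111_14_7 (nat_lit 362)) (lo111_14_6 (nat_lit 332)))))) (M (nat_lit 329) (B (lo18_10_0 (nat_lit 328)) (M (nat_lit 365) (B (lo113_11_3 (nat_lit 362)) (lo114_11_3 (nat_lit 366)))))))))) (K _ _ _ o1_s31198)))))) (B (M (nat_lit 362) (B (K _ _ _ o1_s30098) (B (K _ _ _ o1_s30106) (B (K _ _ _ o1_s30132) (B (K _ _ _ o1_s30163) (B (M (nat_lit 361) (B (M (nat_lit 360) (B (lo18_11_0 (nat_lit 396)) (M (nat_lit 392) (B (lo111_11_1 (nat_lit 391)) (lo112_11_1 (nat_lit 393)))))) (B (M (nat_lit 360) (B (lo18_11_0 (nat_lit 396)) (M (nat_lit 328) (B (lo111_11_3 (nat_lit 327)) (lo112_11_3 (nat_lit 329)))))) (B (M (nat_lit 393) (B (lo112_11_1 (nat_lit 392)) (M (nat_lit 394) (B (lo113_11_1 (nat_lit 365)) (lo19_12_0 (nat_lit 396)))))) (M (nat_lit 360) (B (M (nat_lit 328) (B (lo111_11_3 (nat_lit 327)) (lo112_11_3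 (nat_lit 329)))) (M (nat_lit 392) (B (lo111_11_1 (nat_lit 391)) (lo112_11_1 (nat_lit 393)))))))))) (K _ _ _ o1_s30167))))))) (B (M (nat_lit 427) (B (M (nat_lit 332) (B (lo111_14_6 (nat_lit 459)) (M (nat_lit 300) (B (lo111_13_6 (nat_lit 331)) (lo112_8_5 (nat_lit 268)))))) (B (M (nat_lit 394) (B (M (nat_lit 393) (B (lo18_12_2 (nat_lit 392)) (lo113_13_3 (nat_lit 426)))) (M (nat_lit 459) (B (lo111_14_6 (nat_lit 332)) (M (nat_lit 362) (B (lo111_14_7 (nat_lit 330)) (lo111_15_7 (nat_lit 491)))))))) (B (M (nat_lit 331) (B (M (nat_lit 426) (B (lo111_10_5 (nat_lit 458)) (M (nat_lit 394) (B (lo113_13_3 (nat_lit 393)) (lo111_9_5 (nat_lit 299)))))) (M (nat_lit 332) (B (lo111_13_6 (nat_lit 300)) (M (nat_lit 330) (B (lo111_13_7 (nat_lit 298)) (M (nat_lit 329) (B (lo18_10_0 (nat_lit 328)) (lo19_10_0 (nat_lit 365)))))))))) (K _ _ _ o1_s30094))))) (M (nat_lit 331) (B (M (nat_lit 396) (B (lo111_9_4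 (nat_lit 299)) (M (nat_lit 332) (B (lo112_10_4 (nat_lit 461)) (M (nat_lit 427) (B (lo111_13_6 (nat_lit 300)) (lo111_14_6 (nat_lit 459)))))))) (B (K _ _ _ o1_s31104) (B (K _ _ _ o1_s31198) (M (nat_lit 427) (B (M (nat_lit 332) (B (lo111_13_6 (nat_lit 300)) (lo111_14_6 (nat_lit 459)))) (M (nat_lit 426) (B (lo111_10_5 (nat_lit 458)) (M (nat_lit 394) (B (lo113_13_3 (nat_lit 393)) (lo111_9_5 (nat_lit 299))))))))))))))))))))))))))))))) (M (nat_lit 396) (B (K _ _ _ o1_s28837) (B (M (nat_lit 332) (B (M (nat_lit 300) (B (lo112_9_4 (nat_lit 397)) (M (nat_lit 301) (B (lo112_12_6 (nat_lit 269)) (lo112_13_6 (nat_lit 333)))))) (B (M (nat_lit 460) (B (M (nat_lit 331) (B (lo112_13_7 (nat_lit 299)) (lo112_14_7 (nat_lit 363)))) (M (nat_lit 333) (B (lo112_13_6 (nat_lit 301)) (lo112_14_6 (nat_lit 365)))))) (M (nat_lit 300) (B (lo112_9_4 (nat_lit 397)) (M (nat_lit 427) (B (lo112_9_5 (nat_lit 395))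 (lo112_10_5 (nat_lit 459))))))))) (B (K _ _ _ o1_s31230) (B (K _ _ _ o1_s31232) (B (M (nat_lit 363) (B (M (nat_lit 331) (B (lo112_14_7 (nat_lit 460)) (M (nat_lit 299) (B (lo111_8_4 (nat_lit 267)) (lo111_9_4 (nat_lit 395)))))) (B (M (nat_lit 460) (B (lo112_14_7 (nat_lit 331)) (M (nat_lit 492) (B (lo112_15_7 (nat_lit 395)) (M (nat_lit 491) (B (lo112_11_5 (nat_lit 459)) (lo112_12_5 (nat_lit 523)))))))) (B (M (nat_lit 365) (B (M (nat_lit 460) (B (lo112_14_6 (nat_lit 333)) (M (nat_lit 492) (B (lo112_15_7 (nat_lit 395)) (lo112_15_6 (nat_lit 397)))))) (B (M (nat_lit 362) (B (M (nat_lit 333) (B (lo110_11_2 (nat_lit 334)) (lo112_14_6 (nat_lit 460)))) (M (nat_lit 397) (B (lo19_11_0 (nat_lit 361)) (lo110_11_0 (nat_lit 398)))))) (B (M (nat_lit 362) (B (M (nat_lit 397) (B (lo19_11_0 (nat_lit 361)) (lo110_11_0 (nat_lit 398)))) (M (nat_lit 366) (B (M (nat_lit 394) (B (lo113_11_1 (nat_lit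 393)) (lo114_11_1 (nat_lit 395)))) (M (nat_lit 334) (B (lo110_11_2 (nat_lit 333)) (lo111_11_2 (nat_lit 335)))))))) (B (K _ _ _ o1_s31240) (M (nat_lit 395) (B (M (nat_lit 394) (B (lo19_12_2 (nat_lit 393)) (lo114_11_1 (nat_lit 366)))) (M (nat_lit 460) (B (lo112_15_7 (nat_lit 492)) (lo112_14_6 (nat_lit 333))))))))))) (B (K _ _ _ o1_s29395) (K _ _ _ o1_s31243)))))) (B (M (nat_lit 363) (B (K _ _ _ o1_s31257) (B (M (nat_lit 331) (B (M (nat_lit 299) (B (lo111_8_4 (nat_lit 267)) (lo111_9_4 (nat_lit 395)))) (B (M (nat_lit 299) (B (lo111_9_4 (nat_lit 395)) (lo112_13_7 (nat_lit 332)))) (B (M (nat_lit 332) (B (M (nat_lit 333) (B (lo112_13_6 (nat_lit 301)) (M (nat_lit 334) (B (lo114_10_1 (nat_lit 362)) (lo115_10_1 (nat_lit 335)))))) (M (nat_lit 427) (B (lo112_10_5 (nat_lit 459)) (M (nat_lit 300) (B (lo111_13_6 (nat_lit 395)) (lo112_9_4 (nat_lit 397)))))))) (M (nat_lit 299) (B (lo111_8_4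 (nat_lit 267)) (lo112_13_7 (nat_lit 332)))))))) (B (K _ _ _ o1_s31282) (B (M (nat_lit 332) (B (M (nat_lit 427) (B (lo112_10_5 (nat_lit 459)) (M (nat_lit 300) (B (lo112_9_5 (nat_lit 395)) (lo112_9_4 (nat_lit 397)))))) (B (M (nat_lit 300) (B (lo112_9_4 (nat_lit 397)) (M (nat_lit 301) (B (lo112_12_6 (nat_lit 269)) (lo112_13_6 (nat_lit 333)))))) (M (nat_lit 333) (B (lo112_13_6 (nat_lit 301)) (M (nat_lit 362) (B (lo19_11_2 (nat_lit 361)) (M (nat_lit 331) (B (lo114_10_1 (nat_lit 334)) (lo112_13_7 (nat_lit 299))))))))))) (B (M (nat_lit 332) (B (M (nat_lit 427) (B (lo112_10_5 (nat_lit 459)) (M (nat_lit 300) (B (lo112_9_5 (nat_lit 395)) (lo112_9_4 (nat_lit 397)))))) (B (M (nat_lit 300) (B (lo112_9_4 (nat_lit 397)) (M (nat_lit 301) (B (lo112_12_6 (nat_lit 269)) (lo112_13_6 (nat_lit 333)))))) (M (nat_lit 333) (B (lo112_13_6 (nat_lit 301)) (M (nat_lit 362) (B (lo19_11_2 (nat_lit 361))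 (M (nat_lit 334) (B (lo110_11_2 (nat_lit 365)) (lo115_10_1 (nat_lit 335))))))))))) (B (M (nat_lit 332) (B (M (nat_lit 299) (B (lo112_13_7 (nat_lit 331)) (M (nat_lit 300) (B (lo112_12_7 (nat_lit 267)) (lo112_9_4 (nat_lit 397)))))) (B (M (nat_lit 397) (B (lo112_9_4 (nat_lit 300)) (M (nat_lit 427) (B (lo112_10_5 (nat_lit 459)) (M (nat_lit 398) (B (lo110_13_2 (nat_lit 426)) (lo115_12_3 (nat_lit 399)))))))) (M (nat_lit 333) (B (lo112_13_6 (nat_lit 301)) (M (nat_lit 362) (B (lo19_11_2 (nat_lit 361)) (M (nat_lit 334) (B (lo110_11_2 (nat_lit 365)) (lo115_10_1 (nat_lit 335))))))))))) (B (M (nat_lit 332) (B (M (nat_lit 299) (B (lo112_13_7 (nat_lit 331)) (M (nat_lit 300) (B (lo112_12_7 (nat_lit 267)) (lo112_9_4 (nat_lit 397)))))) (B (M (nat_lit 397) (B (lo112_9_4 (nat_lit 300)) (M (nat_lit 362) (B (lo19_11_0 (nat_lit 361)) (M (nat_lit 398) (B (lo110_11_0 (nat_lit 365)) (lo115_12_3 (nat_lit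 399)))))))) (M (nat_lit 333) (B (lo112_13_6 (nat_lit 301)) (M (nat_lit 362) (B (lo19_11_2 (nat_lit 361)) (M (nat_lit 331) (B (lo114_10_1 (nat_lit 334)) (lo112_13_7 (nat_lit 299))))))))))) (B (M (nat_lit 362) (B (M (nat_lit 397) (B (lo19_11_0 (nat_lit 361)) (M (nat_lit 398) (B (lo114_12_3 (nat_lit 395)) (lo110_11_0 (nat_lit 365)))))) (B (M (nat_lit 365) (B (M (nat_lit 397) (B (lo110_11_0 (nat_lit 398)) (M (nat_lit 333) (B (lo110_11_2 (nat_lit 334)) (lo113_9_5 (nat_lit 301)))))) (M (nat_lit 331) (B (M (nat_lit 330) (B (lo113_11_3 (nat_lit 329)) (lo114_11_3 (nat_lit 366)))) (M (nat_lit 299) (B (lo111_9_4 (nat_lit 395)) (lo112_13_7 (nat_lit 332)))))))) (B (M (nat_lit 397) (B (lo19_11_0 (nat_lit 361)) (M (nat_lit 398) (B (lo110_11_0 (nat_lit 365)) (lo115_12_3 (nat_lit 399)))))) (B (M (nat_lit 397) (B (lo19_11_0 (nat_lit 361)) (M (nat_lit 398) (B (lo114_12_3 (nat_lit 395)) (lo115_12_3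 (nat_lit 399)))))) (M (nat_lit 365) (B (M (nat_lit 333) (B (lo110_11_2 (nat_lit 334)) (M (nat_lit 332) (B (lo19_11_2 (nat_lit 361)) (lo112_13_6 (nat_lit 301)))))) (B (M (nat_lit 331) (B (M (nat_lit 330) (B (lo113_11_3 (nat_lit 329)) (lo114_11_3 (nat_lit 366)))) (M (nat_lit 299) (B (lo111_9_4 (nat_lit 395)) (lo112_13_7 (nat_lit 332)))))) (M (nat_lit 366) (B (M (nat_lit 330) (B (lo113_11_3 (nat_lit 329)) (lo114_11_3 (nat_lit 331)))) (M (nat_lit 334) (B (lo110_11_2 (nat_lit 333)) (lo111_11_2 (nat_lit 335)))))))))))))) (B (K _ _ _ o1_s31243) (K _ _ _ o1_s31334))))))))))) (K _ _ _ o1_s30835)))))))))))))))))))))) _ _ _ (by decide +kernel)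
theorem o1_s36582 : Sem (nat_lit 2079502270590611144683810638107312777577327806531862431377859685460965980854219217279980804578104683573043408221052678871730618368) (nat_lit 3039195975070553415228799998665816567809525930376407207723053410605681925819202919776398597151595584131542319943242705277191263065359902919393568074468743500001524806626446409728) (nat_lit 3039195975070553415228799998665816567809525930376407207723053410605681925819202919776398597151595584131542319943242705277191263065359902919393568074468743500001524806626446409728) := sem_of_chk (M (nat_lit 364) (B (M (nat_lit 365) (B (M (nat_lit 363) (B (M (nat_lit 396) (B (M (nat_lit 362) (B (K _ _ _ o1_s33969) (B (M (nat_lit 361) (B (M (nat_lit 360) (B (M (nat_lit 328) (B (lo111_11_3 (nat_lit 327)) (lo112_11_3 (nat_lit 329)))) (M (nat_lit 392) (B (lo111_11_1 (nat_lit 391)) (lo112_11_1 (nat_lit 393)))))) (B (M (nat_lit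 393) (B (lo112_11_1 (nat_lit 392)) (lo113_11_1 (nat_lit 394)))) (B (M (nat_lit 393) (B (lo112_11_1 (nat_lit 392)) (M (nat_lit 330) (B (lo113_11_3 (nat_lit 329)) (B (M (nat_lit 425) (B (lo19_14_6 (nat_lit 457)) (M (nat_lit 298) (B (lo110_8_5 (nat_lit 266)) (lo110_9_5 (nat_lit 394)))))) (M (nat_lit 329) (B (lo113_11_3 (nat_lit 365)) (M (nat_lit 425) (B (lo19_13_6 (nat_lit 298)) (lo19_14_6 (nat_lit 457))))))))))) (B (M (nat_lit 329) (B (lo112_11_3 (nat_lit 328)) (M (nat_lit 394) (B (lo113_11_3 (nat_lit 330)) (B (M (nat_lit 297) (B (lo19_8_4 (nat_lit 265)) (M (nat_lit 330) (B (lo110_13_7 (nat_lit 426)) (lo113_11_3 (nat_lit 365)))))) (B (M (nat_lit 297) (B (lo19_8_4 (nat_lit 265)) (M (nat_lit 393) (B (lo19_9_4 (nat_lit 426)) (lo113_11_1 (nat_lit 365)))))) (M (nat_lit 297) (B (lo19_8_4 (nat_lit 265)) (M (nat_lit 426) (B (lo19_9_4 (nat_lit 393)) (lo110_14_7 (nat_lit 458))))))))))))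 (B (M (nat_lit 360) (B (M (nat_lit 392) (B (lo111_11_1 (nat_lit 391)) (lo112_11_1 (nat_lit 393)))) (M (nat_lit 359) (B (M (nat_lit 327) (B (lo110_11_3 (nat_lit 326)) (lo111_11_3 (nat_lit 328)))) (M (nat_lit 395) (B (lo17_11_0 (nat_lit 394)) (lo18_11_0 (nat_lit 396)))))))) (M (nat_lit 360) (B (M (nat_lit 328) (B (lo111_11_3 (nat_lit 327)) (lo112_11_3 (nat_lit 329)))) (M (nat_lit 359) (B (M (nat_lit 391) (B (lo110_11_1 (nat_lit 390)) (lo111_11_1 (nat_lit 392)))) (M (nat_lit 395) (B (lo17_11_0 (nat_lit 394)) (lo18_11_0 (nat_lit 396)))))))))))))) (M (nat_lit 397) (B (lo110_11_0 (nat_lit 398)) (lo19_11_0 (nat_lit 361))))))) (B (M (nat_lit 362) (B (M (nat_lit 397) (B (lo19_11_0 (nat_lit 361)) (M (nat_lit 398) (B (lo110_11_0 (nat_lit 365)) (lo114_12_3 (nat_lit 395)))))) (B (M (nat_lit 394) (B (M (nat_lit 393) (B (lo113_11_1 (nat_lit 365)) (M (nat_lit 392) (B (lo17_12_2 (nat_lit 391))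 (lo18_12_2 (nat_lit 395)))))) (B (M (nat_lit 426) (B (M (nat_lit 331) (B (lo110_14_6 (nat_lit 458)) (M (nat_lit 299) (B (lo111_8_5 (nat_lit 267)) (lo111_9_5 (nat_lit 395)))))) (B (M (nat_lit 331) (B (lo110_14_6 (nat_lit 458)) (M (nat_lit 299) (B (lo110_13_6 (nat_lit 330)) (lo111_9_5 (nat_lit 395)))))) (B (M (nat_lit 425) (B (M (nat_lit 395) (B (lo113_12_1 (nat_lit 397)) (M (nat_lit 424) (B (lo112_12_1 (nat_lit 393)) (lo17_13_2 (nat_lit 423)))))) (M (nat_lit 457) (B (lo110_10_5 (nat_lit 330)) (M (nat_lit 489) (B (lo110_11_5 (nat_lit 458)) (lo19_16_6 (nat_lit 521)))))))) (B (M (nat_lit 331) (B (lo110_14_6 (nat_lit 458)) (M (nat_lit 299) (B (lo111_8_5 (nat_lit 267)) (lo110_13_6 (nat_lit 330)))))) (M (nat_lit 330) (B (M (nat_lit 331) (B (lo110_13_6 (nat_lit 299)) (M (nat_lit 329) (B (lo110_13_7 (nat_lit 297)) (lo18_10_0 (nat_lit 328)))))) (B (M (nat_lit 298) (B (M (nat_lit 299)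 (B (lo110_12_6 (nat_lit 267)) (lo110_13_6 (nat_lit 331)))) (M (nat_lit 425) (B (lo110_9_5 (nat_lit 393)) (lo110_10_5 (nat_lit 457)))))) (M (nat_lit 298) (B (M (nat_lit 297) (B (lo110_12_7 (nat_lit 265)) (lo110_13_7 (nat_lit 329)))) (M (nat_lit 425) (B (lo110_9_5 (nat_lit 393)) (lo110_10_5 (nat_lit 457)))))))))))))) (B (M (nat_lit 426) (B (M (nat_lit 331) (B (lo110_14_6 (nat_lit 458)) (M (nat_lit 299) (B (lo111_8_5 (nat_lit 267)) (lo110_13_6 (nat_lit 330)))))) (B (M (nat_lit 331) (B (lo110_14_6 (nat_lit 458)) (M (nat_lit 299) (B (lo110_13_6 (nat_lit 330)) (lo111_9_5 (nat_lit 395)))))) (B (M (nat_lit 397) (B (M (nat_lit 398) (B (lo110_11_0 (nat_lit 365)) (lo114_12_3 (nat_lit 395)))) (B (M (nat_lit 398) (B (lo114_12_3 (nat_lit 395)) (lo115_12_3 (nat_lit 399)))) (B (M (nat_lit 398) (B (lo110_11_0 (nat_lit 365)) (lo115_12_3 (nat_lit 399)))) (M (nat_lit 330) (B (M (nat_lit 329) (B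 (lo110_13_7 (nat_lit 297)) (lo113_11_3 (nat_lit 365)))) (M (nat_lit 425) (B (lo110_10_5 (nat_lit 457)) (lo113_12_1 (nat_lit 395)))))))))) (M (nat_lit 331) (B (lo110_14_6 (nat_lit 458)) (M (nat_lit 299) (B (lo111_8_5 (nat_lit 267)) (lo111_9_5 (nat_lit 395)))))))))) (M (nat_lit 330) (B (lo113_11_3 (nat_lit 329)) (B (M (nat_lit 393) (B (lo113_11_1 (nat_lit 365)) (M (nat_lit 425) (B (lo110_9_5 (nat_lit 298)) (M (nat_lit 457) (B (lo110_10_5 (nat_lit 426)) (lo19_15_6 (nat_lit 489)))))))) (B (M (nat_lit 426) (B (M (nat_lit 331) (B (lo110_13_6 (nat_lit 299)) (lo110_14_6 (nat_lit 458)))) (M (nat_lit 298) (B (M (nat_lit 297) (B (lo110_12_7 (nat_lit 265)) (lo110_13_7 (nat_lit 329)))) (M (nat_lit 425) (B (lo110_9_5 (nat_lit 393)) (lo110_10_5 (nat_lit 457)))))))) (M (nat_lit 329) (B (lo113_11_3 (nat_lit 365)) (M (nat_lit 328) (B (lo17_10_0 (nat_lit 327)) (lo18_10_0 (nat_lit 331))))))))))))))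 (B (M (nat_lit 397) (B (lo19_11_0 (nat_lit 361)) (M (nat_lit 398) (B (lo114_12_3 (nat_lit 395)) (lo115_12_3 (nat_lit 399)))))) (B (M (nat_lit 397) (B (lo19_11_0 (nat_lit 361)) (M (nat_lit 398) (B (lo110_11_0 (nat_lit 365)) (lo115_12_3 (nat_lit 399)))))) (M (nat_lit 361) (B (M (nat_lit 360) (B (lo18_11_0 (nat_lit 395)) (M (nat_lit 392) (B (lo111_11_1 (nat_lit 391)) (lo112_11_1 (nat_lit 393)))))) (B (M (nat_lit 329) (B (lo112_11_3 (nat_lit 328)) (lo113_11_3 (nat_lit 330)))) (M (nat_lit 360) (B (lo18_11_0 (nat_lit 395)) (M (nat_lit 328) (B (lo111_11_3 (nat_lit 327)) (lo112_11_3 (nat_lit 329)))))))))))))) (M (nat_lit 460) (B (lo112_14_7 (nat_lit 331)) (M (nat_lit 493) (B (lo112_11_4 (nat_lit 461)) (M (nat_lit 491) (B (lo112_11_5 (nat_lit 459)) (M (nat_lit 492) (B (lo112_12_4 (nat_lit 525)) (lo112_12_5 (nat_lit 523))))))))))))) (B (M (nat_lit 366) (B (M (nat_lit 399) (B (lo111_11_0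 (nat_lit 398)) (M (nat_lit 367) (B (lo112_11_0 (nat_lit 400)) (M (nat_lit 335) (B (lo111_11_2 (nat_lit 334)) (lo112_11_2 (nat_lit 336)))))))) (B (M (nat_lit 395) (B (lo114_11_1 (nat_lit 394)) (M (nat_lit 331) (B (lo114_11_3 (nat_lit 330)) (M (nat_lit 396) (B (lo111_9_4 (nat_lit 299)) (lo115_11_1 (nat_lit 367)))))))) (M (nat_lit 398) (B (lo111_11_0 (nat_lit 399)) (M (nat_lit 334) (B (lo111_11_2 (nat_lit 335)) (M (nat_lit 397) (B (lo113_14_6 (nat_lit 461)) (lo114_9_5 (nat_lit 302))))))))))) (B (M (nat_lit 366) (B (M (nat_lit 367) (B (M (nat_lit 335) (B (lo112_11_2 (nat_lit 336)) (lo111_11_2 (nat_lit 334)))) (M (nat_lit 399) (B (lo112_11_0 (nat_lit 400)) (lo111_11_0 (nat_lit 398)))))) (B (M (nat_lit 362) (B (M (nat_lit 398) (B (lo111_11_0 (nat_lit 399)) (lo110_11_0 (nat_lit 397)))) (M (nat_lit 330) (B (lo114_11_3 (nat_lit 331)) (lo113_11_3 (nat_lit 329)))))) (B (M (nat_lit 397)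 (B (M (nat_lit 330) (B (lo114_11_3 (nat_lit 331)) (M (nat_lit 362) (B (lo110_11_0 (nat_lit 398)) (lo113_11_3 (nat_lit 329)))))) (M (nat_lit 367) (B (M (nat_lit 335) (B (lo112_11_2 (nat_lit 336)) (lo111_11_2 (nat_lit 334)))) (M (nat_lit 396) (B (lo116_11_1 (nat_lit 368)) (lo115_11_1 (nat_lit 395)))))))) (M (nat_lit 367) (B (M (nat_lit 335) (B (lo112_11_2 (nat_lit 336)) (lo111_11_2 (nat_lit 334)))) (M (nat_lit 368) (B (M (nat_lit 400) (B (lo113_11_0 (nat_lit 401)) (lo112_11_0 (nat_lit 399)))) (M (nat_lit 396) (B (lo116_11_1 (nat_lit 397)) (lo115_11_1 (nat_lit 395)))))))))))) (B (M (nat_lit 394) (B (M (nat_lit 393) (B (lo113_11_1 (nat_lit 362)) (M (nat_lit 395) (B (lo19_12_2 (nat_lit 396)) (lo114_11_1 (nat_lit 366)))))) (B (M (nat_lit 331) (B (M (nat_lit 366) (B (lo114_11_1 (nat_lit 395)) (lo114_11_3 (nat_lit 330)))) (B (M (nat_lit 330) (B (lo114_11_3 (nat_lit 366)) (M (nat_lit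 329) (B (lo113_11_3 (nat_lit 362)) (lo18_10_0 (nat_lit 328)))))) (B (M (nat_lit 299) (B (M (nat_lit 267) (B (lo111_8_5 (nat_lit 362)) (lo111_8_4 (nat_lit 396)))) (B (M (nat_lit 426) (B (lo111_9_5 (nat_lit 395)) (M (nat_lit 362) (B (lo110_14_6 (nat_lit 458)) (lo111_8_5 (nat_lit 267)))))) (B (M (nat_lit 395) (B (lo111_9_5 (nat_lit 426)) (M (nat_lit 396) (B (lo111_9_4 (nat_lit 428)) (lo111_8_4 (nat_lit 267)))))) (M (nat_lit 426) (B (lo111_9_5 (nat_lit 395)) (M (nat_lit 362) (B (lo110_14_6 (nat_lit 458)) (lo110_13_6 (nat_lit 330)))))))))) (M (nat_lit 299) (B (M (nat_lit 395) (B (lo111_9_5 (nat_lit 426)) (lo114_11_1 (nat_lit 366)))) (M (nat_lit 267) (B (lo111_8_5 (nat_lit 362)) (lo111_8_4 (nat_lit 396)))))))))) (B (M (nat_lit 362) (B (lo113_11_1 (nat_lit 393)) (M (nat_lit 330) (B (lo113_11_3 (nat_lit 329)) (M (nat_lit 331) (B (lo114_11_3 (nat_lit 366)) (M (nat_lit 299) (B (lo110_13_6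 (nat_lit 426)) (lo111_8_5 (nat_lit 267)))))))))) (B (M (nat_lit 395) (B (lo114_11_1 (nat_lit 366)) (M (nat_lit 393) (B (lo18_12_2 (nat_lit 392)) (lo19_12_2 (nat_lit 396)))))) (M (nat_lit 393) (B (lo113_11_1 (nat_lit 362)) (M (nat_lit 395) (B (lo18_12_2 (nat_lit 392)) (lo19_12_2 (nat_lit 396))))))))))) (B (M (nat_lit 362) (B (M (nat_lit 330) (B (lo113_11_3 (nat_lit 329)) (M (nat_lit 366) (B (lo114_11_3 (nat_lit 331)) (M (nat_lit 394) (B (lo113_11_1 (nat_lit 393)) (lo114_11_1 (nat_lit 395)))))))) (B (M (nat_lit 366) (B (M (nat_lit 330) (B (lo113_11_3 (nat_lit 329)) (lo114_11_3 (nat_lit 331)))) (M (nat_lit 398) (B (lo110_11_0 (nat_lit 397)) (lo111_11_0 (nat_lit 399)))))) (B (M (nat_lit 366) (B (M (nat_lit 394) (B (lo113_11_1 (nat_lit 393)) (lo114_11_1 (nat_lit 395)))) (M (nat_lit 398) (B (lo110_11_0 (nat_lit 397)) (lo111_11_0 (nat_lit 399)))))) (M (nat_lit 361) (B (M (nat_lit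 393) (B (lo112_11_1 (nat_lit 392)) (lo113_11_1 (nat_lit 394)))) (M (nat_lit 329) (B (lo112_11_3 (nat_lit 328)) (lo113_11_3 (nat_lit 330)))))))))) (B (M (nat_lit 366) (B (M (nat_lit 367) (B (M (nat_lit 395) (B (lo114_11_1 (nat_lit 394)) (lo115_11_1 (nat_lit 396)))) (M (nat_lit 335) (B (lo111_11_2 (nat_lit 334)) (lo112_11_2 (nat_lit 336)))))) (B (M (nat_lit 399) (B (lo111_11_0 (nat_lit 398)) (M (nat_lit 367) (B (lo112_11_0 (nat_lit 400)) (M (nat_lit 335) (B (lo111_11_2 (nat_lit 334)) (lo112_11_2 (nat_lit 336)))))))) (B (M (nat_lit 367) (B (M (nat_lit 395) (B (lo114_11_1 (nat_lit 394)) (lo115_11_1 (nat_lit 396)))) (M (nat_lit 399) (B (lo111_11_0 (nat_lit 398)) (lo112_11_0 (nat_lit 400)))))) (M (nat_lit 362) (B (M (nat_lit 394) (B (lo113_11_1 (nat_lit 393)) (lo114_11_1 (nat_lit 395)))) (M (nat_lit 398) (B (lo110_11_0 (nat_lit 397)) (lo111_11_0 (nat_lit 399)))))))))) (M (nat_lit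 362) (B (M (nat_lit 329) (B (lo113_11_3 (nat_lit 330)) (M (nat_lit 361) (B (lo112_11_3 (nat_lit 328)) (M (nat_lit 393) (B (lo113_11_1 (nat_lit 394)) (lo112_11_1 (nat_lit 392)))))))) (B (M (nat_lit 361) (B (M (nat_lit 397) (B (lo110_11_0 (nat_lit 398)) (lo19_11_0 (nat_lit 396)))) (M (nat_lit 393) (B (lo113_11_1 (nat_lit 394)) (lo112_11_1 (nat_lit 392)))))) (B (M (nat_lit 361) (B (M (nat_lit 397) (B (lo110_11_0 (nat_lit 398)) (lo19_11_0 (nat_lit 396)))) (M (nat_lit 329) (B (lo113_11_3 (nat_lit 330)) (lo112_11_3 (nat_lit 328)))))) (M (nat_lit 366) (B (M (nat_lit 398) (B (lo111_11_0 (nat_lit 399)) (lo110_11_0 (nat_lit 397)))) (M (nat_lit 330) (B (lo114_11_3 (nat_lit 331)) (lo113_11_3 (nat_lit 329))))))))))))))))) (B (K _ _ _ o1_s34524) (B (K _ _ _ o1_s34649) (B (M (nat_lit 396) (B (K _ _ _ o1_s34640) (B (K _ _ _ o1_s34676) (M (nat_lit 333) (B (M (nat_lit 301) (B (lo113_9_5 (nat_lit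 397)) (lo113_8_5 (nat_lit 269)))) (lo112_14_6 (nat_lit 460))))))) (B (K _ _ _ o1_s34735) (K _ _ _ o1_s28962))))))) (B (M (nat_lit 332) (B (M (nat_lit 365) (B (M (nat_lit 331) (B (M (nat_lit 363) (B (M (nat_lit 366) (B (M (nat_lit 299) (B (M (nat_lit 300) (B (M (nat_lit 298) (B (M (nat_lit 362) (B (M (nat_lit 328) (B (M (nat_lit 297) (B (lo18_9_0 (nat_lit 296)) (lo112_9_1 (nat_lit 329)))) (B (M (nat_lit 329) (B (lo112_9_1 (nat_lit 297)) (lo112_11_3 (nat_lit 361)))) (B (M (nat_lit 361) (B (lo112_11_3 (nat_lit 329)) (lo18_11_2 (nat_lit 360)))) (M (nat_lit 296) (B (lo18_9_0 (nat_lit 297)) (M (nat_lit 360) (B (lo18_11_2 (nat_lit 361)) (M (nat_lit 264) (B (M (nat_lit 231) (B (lo18_11_7 (nat_lit 263)) (M (nat_lit 232) (B (lo18_10_7 (nat_lit 199)) (M (nat_lit 359) (B (lo18_7_5 (nat_lit 327)) (lo18_8_5 (nat_lit 391)))))))) (B (M (nat_lit 391) (B (lo18_8_5 (nat_lit 359)) (M (nat_lit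 263) (B (lo18_11_7 (nat_lit 231)) (M (nat_lit 392) (B (lo18_12_7 (nat_lit 295)) (lo18_9_5 (nat_lit 423)))))))) (B (M (nat_lit 392) (B (M (nat_lit 391) (B (lo18_8_5 (nat_lit 359)) (lo18_9_5 (nat_lit 423)))) (B (M (nat_lit 424) (B (M (nat_lit 295) (B (lo18_12_7 (nat_lit 263)) (lo18_13_7 (nat_lit 327)))) (M (nat_lit 423) (B (lo18_9_5 (nat_lit 391)) (lo18_10_5 (nat_lit 455)))))) (B (M (nat_lit 424) (B (M (nat_lit 295) (B (lo18_12_7 (nat_lit 263)) (lo18_13_7 (nat_lit 327)))) (M (nat_lit 456) (B (M (nat_lit 455) (B (lo18_10_5 (nat_lit 423)) (lo18_11_5 (nat_lit 487)))) (M (nat_lit 457) (B (lo18_10_4 (nat_lit 425)) (lo18_11_4 (nat_lit 489)))))))) (M (nat_lit 327) (B (M (nat_lit 295) (B (lo18_12_7 (nat_lit 263)) (lo18_13_7 (nat_lit 424)))) (M (nat_lit 359) (B (lo18_7_5 (nat_lit 232)) (lo18_8_5 (nat_lit 391)))))))))) (B (M (nat_lit 232) (B (M (nat_lit 359) (B (lo18_7_5 (nat_lit 327))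 (lo18_8_5 (nat_lit 391)))) (M (nat_lit 200) (B (M (nat_lit 199) (B (lo18_9_7 (nat_lit 167)) (lo18_10_7 (nat_lit 231)))) (M (nat_lit 201) (B (lo18_9_6 (nat_lit 169)) (lo18_10_6 (nat_lit 233)))))))) (M (nat_lit 232) (B (M (nat_lit 231) (B (lo18_10_7 (nat_lit 199)) (lo18_11_7 (nat_lit 263)))) (B (M (nat_lit 263) (B (lo18_11_7 (nat_lit 231)) (M (nat_lit 295) (B (lo18_12_7 (nat_lit 392)) (M (nat_lit 200) (B (lo18_5_5 (nat_lit 168)) (lo18_6_5 (nat_lit 327)))))))) (B (M (nat_lit 200) (B (M (nat_lit 201) (B (lo18_9_6 (nat_lit 169)) (lo18_10_6 (nat_lit 233)))) (M (nat_lit 295) (B (lo18_6_5 (nat_lit 327)) (M (nat_lit 263) (B (lo18_5_5 (nat_lit 168)) (lo18_12_7 (nat_lit 392)))))))) (M (nat_lit 200) (B (M (nat_lit 199) (B (lo18_9_7 (nat_lit 167)) (lo18_10_7 (nat_lit 231)))) (M (nat_lit 201) (B (lo18_9_6 (nat_lit 169)) (lo18_10_6 (nat_lit 233))))))))))))))))))))))) (M (nat_lit 394) (B (lo114_11_1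 (nat_lit 395)) (lo113_11_1 (nat_lit 393)))))) (B (M (nat_lit 297) (B (M (nat_lit 328) (B (lo112_9_1 (nat_lit 329)) (M (nat_lit 296) (B (lo111_9_1 (nat_lit 327)) (lo18_9_0 (nat_lit 332)))))) (B (M (nat_lit 296) (B (lo18_9_0 (nat_lit 332)) (M (nat_lit 264) (B (lo111_9_3 (nat_lit 263)) (lo112_9_3 (nat_lit 265)))))) (M (nat_lit 265) (B (lo112_9_3 (nat_lit 264)) (M (nat_lit 266) (B (lo113_9_3 (nat_lit 301)) (M (nat_lit 329) (B (lo112_9_1 (nat_lit 328)) (M (nat_lit 361) (B (lo19_12_6 (nat_lit 393)) (lo19_11_6 (nat_lit 234))))))))))))) (M (nat_lit 395) (B (lo114_11_1 (nat_lit 394)) (lo111_12_7 (nat_lit 266))))))) (B (M (nat_lit 268) (B (lo112_7_5 (nat_lit 236)) (M (nat_lit 269) (B (lo112_11_6 (nat_lit 237)) (M (nat_lit 298) (B (lo19_9_2 (nat_lit 297)) (M (nat_lit 270) (B (lo110_9_2 (nat_lit 301)) (lo115_8_1 (nat_lit 271)))))))))) (M (nat_lit 395) (B (lo112_8_5 (nat_lit 268)) (lo114_11_1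 (nat_lit 394))))))) (B (M (nat_lit 267) (B (lo111_7_4 (nat_lit 235)) (M (nat_lit 268) (B (lo111_11_6 (nat_lit 236)) (M (nat_lit 300) (B (M (nat_lit 266) (B (lo111_11_7 (nat_lit 234)) (M (nat_lit 265) (B (lo18_8_0 (nat_lit 264)) (lo19_8_0 (nat_lit 301)))))) (M (nat_lit 269) (B (lo112_11_6 (nat_lit 237)) (M (nat_lit 298) (B (lo19_9_2 (nat_lit 297)) (lo114_8_1 (nat_lit 270)))))))))))) (M (nat_lit 267) (B (M (nat_lit 394) (B (lo114_11_1 (nat_lit 395)) (lo111_8_5 (nat_lit 362)))) (lo111_7_4 (nat_lit 235))))))) (lo115_11_3 (nat_lit 367)))) (B (M (nat_lit 268) (B (M (nat_lit 300) (B (lo112_8_5 (nat_lit 395)) (lo112_7_5 (nat_lit 236)))) (B (M (nat_lit 267) (B (M (nat_lit 236) (B (lo112_7_5 (nat_lit 300)) (lo111_11_6 (nat_lit 299)))) (B (M (nat_lit 300) (B (lo112_7_5 (nat_lit 236)) (lo112_11_7 (nat_lit 235)))) (B (M (nat_lit 299) (B (lo111_11_6 (nat_lit 236)) (lo111_7_4 (nat_lit 235))))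 (M (nat_lit 235) (B (lo111_7_4 (nat_lit 299)) (lo112_11_7 (nat_lit 300)))))))) (B (M (nat_lit 269) (B (M (nat_lit 333) (B (M (nat_lit 362) (B (lo19_11_2 (nat_lit 361)) (lo114_10_1 (nat_lit 334)))) (B (M (nat_lit 299) (B (M (nat_lit 267) (B (lo111_11_6 (nat_lit 236)) (lo111_7_4 (nat_lit 235)))) (M (nat_lit 334) (B (lo114_10_1 (nat_lit 362)) (lo114_10_3 (nat_lit 298)))))) (M (nat_lit 301) (B (lo113_7_5 (nat_lit 237)) (lo113_11_7 (nat_lit 236))))))) (B (M (nat_lit 267) (B (M (nat_lit 299) (B (lo111_11_6 (nat_lit 236)) (lo111_7_4 (nat_lit 235)))) (K _ _ _ o1_s34923))) (B (M (nat_lit 333) (B (M (nat_lit 301) (B (lo113_7_5 (nat_lit 237)) (lo113_11_7 (nat_lit 236)))) (B (M (nat_lit 299) (B (M (nat_lit 267) (B (lo111_11_6 (nat_lit 236)) (lo111_7_4 (nat_lit 235)))) (M (nat_lit 334) (B (lo114_10_1 (nat_lit 362)) (lo114_10_3 (nat_lit 298)))))) (M (nat_lit 267) (B (M (nat_lit 299) (B (lo111_7_4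 (nat_lit 235)) (M (nat_lit 334) (B (lo114_10_1 (nat_lit 362)) (lo114_10_3 (nat_lit 298)))))) (B (M (nat_lit 266) (B (M (nat_lit 299) (B (lo111_11_7 (nat_lit 234)) (lo111_7_4 (nat_lit 235)))) (M (nat_lit 301) (B (lo113_7_5 (nat_lit 237)) (lo110_8_0 (nat_lit 302)))))) (M (nat_lit 302) (B (M (nat_lit 334) (B (lo114_10_1 (nat_lit 362)) (lo111_10_2 (nat_lit 303)))) (M (nat_lit 301) (B (lo113_7_5 (nat_lit 237)) (lo110_8_0 (nat_lit 266)))))))))))) (B (M (nat_lit 267) (B (M (nat_lit 299) (B (lo111_11_6 (nat_lit 236)) (lo111_7_4 (nat_lit 235)))) (M (nat_lit 266) (B (M (nat_lit 301) (B (lo110_8_0 (nat_lit 302)) (M (nat_lit 237) (B (lo113_7_5 (nat_lit 333)) (lo110_8_2 (nat_lit 238)))))) (M (nat_lit 265) (B (M (nat_lit 297) (B (lo112_8_1 (nat_lit 296)) (lo113_8_1 (nat_lit 298)))) (M (nat_lit 233) (B (lo112_8_3 (nat_lit 232)) (lo113_8_3 (nat_lit 234)))))))))) (B (M (nat_lit 267) (B (M (nat_lit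 299) (B (lo111_11_6 (nat_lit 236)) (lo111_7_4 (nat_lit 235)))) (M (nat_lit 266) (B (M (nat_lit 270) (B (M (nat_lit 302) (B (lo110_8_0 (nat_lit 301)) (lo111_8_0 (nat_lit 303)))) (M (nat_lit 238) (B (lo110_8_2 (nat_lit 237)) (lo111_8_2 (nat_lit 239)))))) (M (nat_lit 265) (B (M (nat_lit 297) (B (lo112_8_1 (nat_lit 296)) (lo113_8_1 (nat_lit 298)))) (M (nat_lit 233) (B (lo112_8_3 (nat_lit 232)) (lo113_8_3 (nat_lit 234)))))))))) (B (M (nat_lit 333) (B (M (nat_lit 362) (B (lo19_11_2 (nat_lit 361)) (lo114_10_1 (nat_lit 334)))) (M (nat_lit 301) (B (lo113_7_5 (nat_lit 237)) (lo113_11_7 (nat_lit 236)))))) (B (M (nat_lit 267) (B (M (nat_lit 299) (B (lo111_11_6 (nat_lit 236)) (lo111_7_4 (nat_lit 235)))) (B (M (nat_lit 266) (B (M (nat_lit 265) (B (M (nat_lit 297) (B (lo112_8_1 (nat_lit 296)) (lo113_8_1 (nat_lit 298)))) (M (nat_lit 237) (B (lo19_8_2 (nat_lit 236)) (lo110_8_2 (nat_lit 238))))))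 (B (M (nat_lit 265) (B (M (nat_lit 233) (B (lo112_8_3 (nat_lit 232)) (lo113_8_3 (nat_lit 234)))) (M (nat_lit 237) (B (lo19_8_2 (nat_lit 236)) (lo110_8_2 (nat_lit 238)))))) (B (M (nat_lit 270) (B (M (nat_lit 234) (B (lo113_8_3 (nat_lit 233)) (lo114_8_3 (nat_lit 235)))) (M (nat_lit 238) (B (lo110_8_2 (nat_lit 237)) (lo111_8_2 (nat_lit 239)))))) (M (nat_lit 265) (B (M (nat_lit 297) (B (lo112_8_1 (nat_lit 296)) (lo113_8_1 (nat_lit 298)))) (M (nat_lit 233) (B (lo112_8_3 (nat_lit 232)) (lo113_8_3 (nat_lit 234)))))))))) (B (M (nat_lit 299) (B (lo111_11_6 (nat_lit 236)) (M (nat_lit 266) (B (lo111_11_7 (nat_lit 234)) (M (nat_lit 298) (B (lo111_12_7 (nat_lit 395)) (lo114_8_1 (nat_lit 270)))))))) (M (nat_lit 299) (B (lo111_7_4 (nat_lit 235)) (M (nat_lit 266) (B (lo111_11_7 (nat_lit 234)) (M (nat_lit 298) (B (lo111_12_7 (nat_lit 395)) (lo114_8_1 (nat_lit 270)))))))))))) (B (M (nat_lit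 267) (B (M (nat_lit 299) (B (lo111_7_4 (nat_lit 235)) (M (nat_lit 266) (B (lo111_11_7 (nat_lit 234)) (M (nat_lit 298) (B (lo111_12_7 (nat_lit 395)) (lo114_8_1 (nat_lit 270)))))))) (B (M (nat_lit 299) (B (lo111_7_4 (nat_lit 235)) (M (nat_lit 266) (B (lo111_11_7 (nat_lit 234)) (M (nat_lit 298) (B (lo113_8_1 (nat_lit 297)) (lo114_8_1 (nat_lit 270)))))))) (B (M (nat_lit 301) (B (M (nat_lit 333) (B (lo113_7_5 (nat_lit 237)) (M (nat_lit 362) (B (lo19_11_2 (nat_lit 361)) (lo114_10_1 (nat_lit 334)))))) (M (nat_lit 299) (B (lo111_7_4 (nat_lit 235)) (M (nat_lit 266) (B (lo111_11_7 (nat_lit 234)) (lo110_8_0 (nat_lit 302)))))))) (B (K _ _ _ o1_s34923) (M (nat_lit 270) (B (M (nat_lit 299) (B (lo111_7_4 (nat_lit 235)) (lo114_8_1 (nat_lit 298)))) (M (nat_lit 271) (B (M (nat_lit 303) (B (lo111_8_0 (nat_lit 302)) (lo112_8_0 (nat_lit 304)))) (M (nat_lit 239) (B (lo111_8_2 (nat_lit 238)) (lo112_8_2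 (nat_lit 240))))))))))))) (M (nat_lit 267) (B (M (nat_lit 299) (B (lo111_11_6 (nat_lit 236)) (lo111_7_4 (nat_lit 235)))) (B (M (nat_lit 270) (B (M (nat_lit 271) (B (M (nat_lit 303) (B (lo111_8_0 (nat_lit 302)) (lo112_8_0 (nat_lit 304)))) (M (nat_lit 239) (B (lo111_8_2 (nat_lit 238)) (lo112_8_2 (nat_lit 240)))))) (B (M (nat_lit 271) (B (M (nat_lit 235) (B (lo114_8_3 (nat_lit 234)) (lo115_8_3 (nat_lit 236)))) (M (nat_lit 239) (B (lo111_8_2 (nat_lit 238)) (lo112_8_2 (nat_lit 240)))))) (M (nat_lit 266) (B (M (nat_lit 302) (B (lo110_8_0 (nat_lit 301)) (lo111_8_0 (nat_lit 303)))) (M (nat_lit 234) (B (lo113_8_3 (nat_lit 233)) (lo114_8_3 (nat_lit 235))))))))) (B (M (nat_lit 299) (B (lo111_11_6 (nat_lit 236)) (M (nat_lit 266) (B (lo111_11_7 (nat_lit 234)) (M (nat_lit 298) (B (lo113_8_1 (nat_lit 297)) (lo114_8_1 (nat_lit 270)))))))) (M (nat_lit 299) (B (lo111_7_4 (nat_lit 235)) (M (nat_lit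 266) (B (lo111_11_7 (nat_lit 234)) (M (nat_lit 298) (B (lo113_8_1 (nat_lit 297)) (lo114_8_1 (nat_lit 270))))))))))))))))))))) (M (nat_lit 300) (B (lo112_8_5 (nat_lit 395)) (M (nat_lit 267) (B (lo112_11_7 (nat_lit 235)) (M (nat_lit 269) (B (lo112_11_6 (nat_lit 237)) (M (nat_lit 266) (B (M (nat_lit 301) (B (lo19_8_0 (nat_lit 265)) (lo110_8_0 (nat_lit 302)))) (M (nat_lit 234) (B (lo111_11_7 (nat_lit 299)) (lo113_8_3 (nat_lit 233)))))))))))))))) (B (M (nat_lit 366) (B (lo115_11_3 (nat_lit 367)) (M (nat_lit 395) (B (lo114_11_1 (nat_lit 394)) (M (nat_lit 299) (B (M (nat_lit 298) (B (lo111_12_7 (nat_lit 266)) (M (nat_lit 334) (B (lo114_10_3 (nat_lit 333)) (lo111_11_2 (nat_lit 335)))))) (M (nat_lit 268) (B (lo111_12_6 (nat_lit 300)) (M (nat_lit 267) (B (lo111_7_4 (nat_lit 235)) (lo111_11_6 (nat_lit 236)))))))))))) (B (M (nat_lit 362) (B (M (nat_lit 361) (B (lo18_11_2 (nat_lit 360))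 (lo19_11_2 (nat_lit 333)))) (B (M (nat_lit 333) (B (lo19_11_2 (nat_lit 361)) (lo114_10_1 (nat_lit 334)))) (M (nat_lit 394) (B (lo113_11_1 (nat_lit 393)) (M (nat_lit 426) (B (lo110_14_6 (nat_lit 458)) (M (nat_lit 299) (B (lo111_8_5 (nat_lit 267)) (lo111_9_5 (nat_lit 395))))))))))) (M (nat_lit 362) (B (M (nat_lit 333) (B (lo110_11_2 (nat_lit 334)) (lo19_11_2 (nat_lit 361)))) (B (M (nat_lit 334) (B (lo110_11_2 (nat_lit 333)) (M (nat_lit 366) (B (lo115_11_3 (nat_lit 367)) (lo111_11_2 (nat_lit 335)))))) (B (M (nat_lit 361) (B (lo19_11_2 (nat_lit 333)) (lo18_11_2 (nat_lit 360)))) (M (nat_lit 393) (B (lo113_11_1 (nat_lit 394)) (M (nat_lit 361) (B (lo112_11_1 (nat_lit 392)) (lo18_11_2 (nat_lit 360))))))))))))))) (B (M (nat_lit 330) (B (M (nat_lit 329) (B (M (nat_lit 328) (B (M (nat_lit 360) (B (lo111_10_1 (nat_lit 359)) (lo112_10_1 (nat_lit 361)))) (M (nat_lit 296) (B (lo111_10_3 (nat_lit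 295)) (lo112_10_3 (nat_lit 297)))))) (B (M (nat_lit 328) (B (M (nat_lit 296) (B (lo111_10_3 (nat_lit 295)) (lo112_10_3 (nat_lit 297)))) (M (nat_lit 300) (B (lo18_10_2 (nat_lit 299)) (lo19_10_2 (nat_lit 301)))))) (B (M (nat_lit 297) (B (lo112_10_3 (nat_lit 296)) (M (nat_lit 361) (B (lo112_10_1 (nat_lit 360)) (M (nat_lit 333) (B (lo113_10_1 (nat_lit 362)) (lo113_10_3 (nat_lit 298)))))))) (M (nat_lit 328) (B (M (nat_lit 360) (B (lo111_10_1 (nat_lit 359)) (lo112_10_1 (nat_lit 361)))) (M (nat_lit 300) (B (lo18_10_2 (nat_lit 299)) (lo19_10_2 (nat_lit 301)))))))))) (B (M (nat_lit 329) (B (M (nat_lit 297) (B (lo112_10_3 (nat_lit 296)) (M (nat_lit 361) (B (lo112_10_1 (nat_lit 360)) (M (nat_lit 333) (B (lo113_10_1 (nat_lit 362)) (lo113_10_3 (nat_lit 298)))))))) (B (M (nat_lit 333) (B (M (nat_lit 297) (B (lo112_10_3 (nat_lit 296)) (lo113_10_3 (nat_lit 298)))) (M (nat_lit 301) (B (lo19_10_2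 (nat_lit 300)) (lo110_10_2 (nat_lit 302)))))) (B (M (nat_lit 328) (B (M (nat_lit 296) (B (lo111_10_3 (nat_lit 295)) (lo112_10_3 (nat_lit 297)))) (M (nat_lit 300) (B (lo18_10_2 (nat_lit 299)) (lo19_10_2 (nat_lit 301)))))) (M (nat_lit 333) (B (M (nat_lit 361) (B (lo112_10_1 (nat_lit 360)) (lo113_10_1 (nat_lit 362)))) (M (nat_lit 301) (B (lo19_10_2 (nat_lit 300)) (lo110_10_2 (nat_lit 302)))))))))) (B (M (nat_lit 333) (B (M (nat_lit 298) (B (lo113_10_3 (nat_lit 297)) (M (nat_lit 334) (B (lo114_10_3 (nat_lit 299)) (M (nat_lit 362) (B (lo113_10_1 (nat_lit 361)) (lo114_10_1 (nat_lit 363)))))))) (B (M (nat_lit 334) (B (M (nat_lit 298) (B (lo113_10_3 (nat_lit 297)) (lo114_10_3 (nat_lit 299)))) (M (nat_lit 302) (B (lo110_10_2 (nat_lit 301)) (lo111_10_2 (nat_lit 303)))))) (B (M (nat_lit 329) (B (M (nat_lit 297) (B (lo112_10_3 (nat_lit 296)) (lo113_10_3 (nat_lit 298)))) (M (nat_lit 301)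 (B (lo19_10_2 (nat_lit 300)) (lo110_10_2 (nat_lit 302)))))) (M (nat_lit 334) (B (M (nat_lit 362) (B (lo113_10_1 (nat_lit 361)) (lo114_10_1 (nat_lit 363)))) (M (nat_lit 302) (B (lo110_10_2 (nat_lit 301)) (lo111_10_2 (nat_lit 303)))))))))) (B (M (nat_lit 329) (B (M (nat_lit 328) (B (M (nat_lit 296) (B (lo111_10_3 (nat_lit 295)) (lo112_10_3 (nat_lit 297)))) (M (nat_lit 300) (B (lo18_10_2 (nat_lit 299)) (lo19_10_2 (nat_lit 301)))))) (B (M (nat_lit 333) (B (M (nat_lit 297) (B (lo112_10_3 (nat_lit 296)) (lo113_10_3 (nat_lit 298)))) (M (nat_lit 301) (B (lo19_10_2 (nat_lit 300)) (lo110_10_2 (nat_lit 302)))))) (B (M (nat_lit 328) (B (M (nat_lit 300) (B (lo18_10_2 (nat_lit 299)) (lo19_10_2 (nat_lit 301)))) (M (nat_lit 327) (B (M (nat_lit 359) (B (lo110_10_1 (nat_lit 358)) (lo111_10_1 (nat_lit 360)))) (M (nat_lit 363) (B (lo17_10_0 (nat_lit 362)) (lo18_10_0 (nat_lit 364)))))))) (M (nat_lit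 328) (B (M (nat_lit 296) (B (lo111_10_3 (nat_lit 295)) (lo112_10_3 (nat_lit 297)))) (M (nat_lit 327) (B (M (nat_lit 359) (B (lo110_10_1 (nat_lit 358)) (lo111_10_1 (nat_lit 360)))) (M (nat_lit 363) (B (lo17_10_0 (nat_lit 362)) (lo18_10_0 (nat_lit 364)))))))))))) (B (M (nat_lit 329) (B (M (nat_lit 328) (B (M (nat_lit 360) (B (lo111_10_1 (nat_lit 359)) (lo112_10_1 (nat_lit 361)))) (M (nat_lit 300) (B (lo18_10_2 (nat_lit 299)) (lo19_10_2 (nat_lit 301)))))) (B (M (nat_lit 328) (B (M (nat_lit 296) (B (lo111_10_3 (nat_lit 295)) (lo112_10_3 (nat_lit 297)))) (M (nat_lit 300) (B (lo18_10_2 (nat_lit 299)) (lo19_10_2 (nat_lit 301)))))) (B (M (nat_lit 333) (B (M (nat_lit 297) (B (lo112_10_3 (nat_lit 296)) (lo113_10_3 (nat_lit 298)))) (M (nat_lit 301) (B (lo19_10_2 (nat_lit 300)) (lo110_10_2 (nat_lit 302)))))) (M (nat_lit 328) (B (M (nat_lit 360) (B (lo111_10_1 (nat_lit 359)) (lo112_10_1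 (nat_lit 361)))) (M (nat_lit 296) (B (lo111_10_3 (nat_lit 295)) (lo112_10_3 (nat_lit 297)))))))))) (B (M (nat_lit 298) (B (M (nat_lit 297) (B (lo113_10_3 (nat_lit 333)) (M (nat_lit 296) (B (lo17_9_0 (nat_lit 295)) (lo18_9_0 (nat_lit 299)))))) (B (M (nat_lit 266) (B (M (nat_lit 363) (B (lo110_7_4 (nat_lit 234)) (M (nat_lit 395) (B (lo110_8_4 (nat_lit 362)) (lo111_12_7 (nat_lit 299)))))) (B (M (nat_lit 234) (B (lo110_7_4 (nat_lit 363)) (M (nat_lit 202) (B (lo110_6_4 (nat_lit 299)) (M (nat_lit 201) (B (lo110_10_7 (nat_lit 233)) (lo110_9_7 (nat_lit 169)))))))) (B (M (nat_lit 234) (B (M (nat_lit 202) (B (lo110_6_4 (nat_lit 299)) (M (nat_lit 201) (B (lo110_10_7 (nat_lit 233)) (lo110_9_7 (nat_lit 169)))))) (B (M (nat_lit 202) (B (M (nat_lit 201) (B (lo110_10_7 (nat_lit 233)) (lo110_9_7 (nat_lit 169)))) (M (nat_lit 203) (B (lo110_10_6 (nat_lit 235)) (lo110_9_6 (nat_lit 171)))))) (B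 (M (nat_lit 202) (B (lo110_6_4 (nat_lit 299)) (M (nat_lit 203) (B (lo110_10_6 (nat_lit 235)) (lo110_9_6 (nat_lit 171)))))) (M (nat_lit 362) (B (M (nat_lit 233) (B (lo110_11_7 (nat_lit 265)) (lo110_10_7 (nat_lit 201)))) (M (nat_lit 235) (B (lo110_11_6 (nat_lit 267)) (lo110_10_6 (nat_lit 203)))))))))) (B (M (nat_lit 363) (B (lo110_7_4 (nat_lit 234)) (M (nat_lit 362) (B (lo110_8_4 (nat_lit 395)) (M (nat_lit 361) (B (lo110_8_5 (nat_lit 393)) (lo18_11_2 (nat_lit 360)))))))) (M (nat_lit 362) (B (M (nat_lit 361) (B (lo110_8_5 (nat_lit 393)) (M (nat_lit 360) (B (lo17_11_2 (nat_lit 359)) (lo18_11_2 (nat_lit 363)))))) (M (nat_lit 394) (B (M (nat_lit 265) (B (lo110_12_7 (nat_lit 297)) (lo110_11_7 (nat_lit 233)))) (M (nat_lit 267) (B (lo110_12_6 (nat_lit 299)) (lo110_11_6 (nat_lit 235))))))))))))) (B (M (nat_lit 266) (B (M (nat_lit 363) (B (lo110_7_4 (nat_lit 234)) (M (nat_lit 395) (B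 (lo110_8_4 (nat_lit 362)) (lo111_12_7 (nat_lit 299)))))) (B (M (nat_lit 234) (B (lo110_7_4 (nat_lit 363)) (M (nat_lit 202) (B (lo110_6_4 (nat_lit 299)) (M (nat_lit 203) (B (lo110_10_6 (nat_lit 235)) (lo110_9_6 (nat_lit 171)))))))) (B (M (nat_lit 234) (B (M (nat_lit 202) (B (lo110_6_4 (nat_lit 299)) (M (nat_lit 203) (B (lo110_10_6 (nat_lit 235)) (lo110_9_6 (nat_lit 171)))))) (B (M (nat_lit 362) (B (M (nat_lit 361) (B (lo110_8_5 (nat_lit 393)) (lo113_10_1 (nat_lit 333)))) (M (nat_lit 235) (B (lo110_11_6 (nat_lit 267)) (lo110_10_6 (nat_lit 203)))))) (M (nat_lit 362) (B (M (nat_lit 361) (B (lo110_8_5 (nat_lit 393)) (lo113_10_1 (nat_lit 333)))) (M (nat_lit 233) (B (lo110_11_7 (nat_lit 265)) (lo110_10_7 (nat_lit 201))))))))) (B (M (nat_lit 362) (B (M (nat_lit 363) (B (lo110_8_4 (nat_lit 395)) (lo110_7_4 (nat_lit 234)))) (M (nat_lit 361) (B (lo110_8_5 (nat_lit 393)) (lo113_10_1 (nat_lit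 333)))))) (M (nat_lit 362) (B (M (nat_lit 361) (B (lo110_8_5 (nat_lit 393)) (lo113_10_1 (nat_lit 333)))) (B (M (nat_lit 363) (B (lo110_8_4 (nat_lit 395)) (M (nat_lit 333) (B (lo113_10_1 (nat_lit 361)) (lo114_10_1 (nat_lit 334)))))) (B (M (nat_lit 299) (B (M (nat_lit 267) (B (lo110_12_6 (nat_lit 394)) (lo111_7_5 (nat_lit 235)))) (M (nat_lit 301) (B (M (nat_lit 333) (B (lo110_10_2 (nat_lit 302)) (lo114_10_3 (nat_lit 334)))) (B (M (nat_lit 300) (B (lo114_9_1 (nat_lit 302)) (lo113_9_3 (nat_lit 265)))) (M (nat_lit 265) (B (lo110_11_7 (nat_lit 233)) (lo113_9_3 (nat_lit 300))))))))) (M (nat_lit 363) (B (lo110_8_4 (nat_lit 395)) (M (nat_lit 361) (B (lo110_8_5 (nat_lit 393)) (lo18_11_2 (nat_lit 360))))))))))))))) (M (nat_lit 333) (B (lo113_10_3 (nat_lit 297)) (M (nat_lit 362) (B (lo113_10_1 (nat_lit 361)) (M (nat_lit 363) (B (lo114_10_1 (nat_lit 334)) (M (nat_lit 266) (B (lo110_8_4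 (nat_lit 395)) (lo110_7_4 (nat_lit 234)))))))))))))) (B (M (nat_lit 329) (B (M (nat_lit 328) (B (M (nat_lit 296) (B (lo111_10_3 (nat_lit 295)) (lo112_10_3 (nat_lit 297)))) (M (nat_lit 300) (B (lo18_10_2 (nat_lit 299)) (lo19_10_2 (nat_lit 301)))))) (B (M (nat_lit 297) (B (lo112_10_3 (nat_lit 296)) (M (nat_lit 361) (B (lo112_10_1 (nat_lit 360)) (M (nat_lit 265) (B (M (nat_lit 362) (B (lo19_8_4 (nat_lit 394)) (lo19_7_4 (nat_lit 233)))) (B (M (nat_lit 233) (B (lo19_7_4 (nat_lit 362)) (M (nat_lit 232) (B (lo19_11_7 (nat_lit 264)) (lo19_10_7 (nat_lit 200)))))) (B (M (nat_lit 233) (B (M (nat_lit 232) (B (lo19_11_7 (nat_lit 264)) (lo19_10_7 (nat_lit 200)))) (M (nat_lit 234) (B (lo19_11_6 (nat_lit 266)) (lo19_10_6 (nat_lit 202)))))) (M (nat_lit 393) (B (M (nat_lit 394) (B (lo19_9_4 (nat_lit 426)) (lo19_8_4 (nat_lit 362)))) (M (nat_lit 266) (B (lo19_12_6 (nat_lit 298)) (lo19_11_6 (nat_lit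 234)))))))))))))) (M (nat_lit 328) (B (M (nat_lit 360) (B (lo111_10_1 (nat_lit 359)) (lo112_10_1 (nat_lit 361)))) (M (nat_lit 300) (B (lo18_10_2 (nat_lit 299)) (lo19_10_2 (nat_lit 301))))))))) (B (M (nat_lit 333) (B (M (nat_lit 298) (B (lo113_10_3 (nat_lit 297)) (M (nat_lit 334) (B (lo114_10_3 (nat_lit 299)) (M (nat_lit 362) (B (lo113_10_1 (nat_lit 361)) (lo114_10_1 (nat_lit 363)))))))) (B (M (nat_lit 334) (B (M (nat_lit 298) (B (lo113_10_3 (nat_lit 297)) (lo114_10_3 (nat_lit 299)))) (M (nat_lit 302) (B (lo110_10_2 (nat_lit 301)) (lo111_10_2 (nat_lit 303)))))) (M (nat_lit 329) (B (M (nat_lit 361) (B (lo112_10_1 (nat_lit 360)) (lo113_10_1 (nat_lit 362)))) (M (nat_lit 301) (B (lo19_10_2 (nat_lit 300)) (lo110_10_2 (nat_lit 302))))))))) (B (M (nat_lit 329) (B (M (nat_lit 328) (B (M (nat_lit 360) (B (lo111_10_1 (nat_lit 359)) (lo112_10_1 (nat_lit 361)))) (M (nat_lit 300) (B (lo18_10_2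 (nat_lit 299)) (lo19_10_2 (nat_lit 301)))))) (B (M (nat_lit 333) (B (M (nat_lit 361) (B (lo112_10_1 (nat_lit 360)) (lo113_10_1 (nat_lit 362)))) (M (nat_lit 301) (B (lo19_10_2 (nat_lit 300)) (lo110_10_2 (nat_lit 302)))))) (B (M (nat_lit 328) (B (M (nat_lit 300) (B (lo18_10_2 (nat_lit 299)) (lo19_10_2 (nat_lit 301)))) (M (nat_lit 327) (B (M (nat_lit 363) (B (lo17_10_0 (nat_lit 362)) (lo18_10_0 (nat_lit 364)))) (M (nat_lit 295) (B (lo110_10_3 (nat_lit 294)) (lo111_10_3 (nat_lit 296)))))))) (M (nat_lit 328) (B (M (nat_lit 360) (B (lo111_10_1 (nat_lit 359)) (lo112_10_1 (nat_lit 361)))) (M (nat_lit 327) (B (M (nat_lit 363) (B (lo17_10_0 (nat_lit 362)) (lo18_10_0 (nat_lit 364)))) (M (nat_lit 295) (B (lo110_10_3 (nat_lit 294)) (lo111_10_3 (nat_lit 296)))))))))))) (B (M (nat_lit 329) (B (M (nat_lit 333) (B (M (nat_lit 297) (B (lo112_10_3 (nat_lit 296)) (lo113_10_3 (nat_lit 298)))) (M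 (nat_lit 301) (B (lo19_10_2 (nat_lit 300)) (lo110_10_2 (nat_lit 302)))))) (B (M (nat_lit 328) (B (M (nat_lit 360) (B (lo111_10_1 (nat_lit 359)) (lo112_10_1 (nat_lit 361)))) (M (nat_lit 296) (B (lo111_10_3 (nat_lit 295)) (lo112_10_3 (nat_lit 297)))))) (M (nat_lit 333) (B (M (nat_lit 361) (B (lo112_10_1 (nat_lit 360)) (lo113_10_1 (nat_lit 362)))) (M (nat_lit 301) (B (lo19_10_2 (nat_lit 300)) (lo110_10_2 (nat_lit 302))))))))) (B (M (nat_lit 333) (B (M (nat_lit 334) (B (M (nat_lit 298) (B (lo113_10_3 (nat_lit 297)) (lo114_10_3 (nat_lit 299)))) (M (nat_lit 302) (B (lo110_10_2 (nat_lit 301)) (lo111_10_2 (nat_lit 303)))))) (B (M (nat_lit 297) (B (lo113_10_3 (nat_lit 298)) (M (nat_lit 329) (B (lo112_10_3 (nat_lit 296)) (M (nat_lit 361) (B (lo112_10_1 (nat_lit 360)) (lo113_10_1 (nat_lit 362)))))))) (M (nat_lit 334) (B (M (nat_lit 362) (B (lo113_10_1 (nat_lit 361)) (lo114_10_1 (nat_lit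 363)))) (M (nat_lit 302) (B (lo110_10_2 (nat_lit 301)) (lo111_10_2 (nat_lit 303))))))))) (M (nat_lit 329) (B (M (nat_lit 328) (B (M (nat_lit 360) (B (lo111_10_1 (nat_lit 359)) (lo112_10_1 (nat_lit 361)))) (M (nat_lit 296) (B (lo111_10_3 (nat_lit 295)) (lo112_10_3 (nat_lit 297)))))) (B (M (nat_lit 297) (B (lo112_10_3 (nat_lit 296)) (M (nat_lit 361) (B (lo112_10_1 (nat_lit 360)) (M (nat_lit 333) (B (lo113_10_1 (nat_lit 362)) (lo113_10_3 (nat_lit 298)))))))) (B (M (nat_lit 328) (B (M (nat_lit 296) (B (lo111_10_3 (nat_lit 295)) (lo112_10_3 (nat_lit 297)))) (M (nat_lit 327) (B (M (nat_lit 363) (B (lo17_10_0 (nat_lit 362)) (lo18_10_0 (nat_lit 364)))) (M (nat_lit 299) (B (lo17_10_2 (nat_lit 298)) (lo18_10_2 (nat_lit 300)))))))) (M (nat_lit 328) (B (M (nat_lit 360) (B (lo111_10_1 (nat_lit 359)) (lo112_10_1 (nat_lit 361)))) (M (nat_lit 327) (B (M (nat_lit 363) (B (lo17_10_0 (nat_lit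 362)) (lo18_10_0 (nat_lit 364)))) (M (nat_lit 299) (B (lo17_10_2 (nat_lit 298)) (lo18_10_2 (nat_lit 300)))))))))))))))))))))))) (B (M (nat_lit 330) (B (lo19_10_0 (nat_lit 329)) (M (nat_lit 333) (B (lo110_10_0 (nat_lit 366)) (M (nat_lit 334) (B (M (nat_lit 302) (B (lo111_10_2 (nat_lit 303)) (lo110_10_2 (nat_lit 301)))) (M (nat_lit 298) (B (lo114_10_3 (nat_lit 299)) (lo113_10_3 (nat_lit 297)))))))))) (B (M (nat_lit 366) (B (M (nat_lit 330) (B (lo114_11_3 (nat_lit 363)) (lo19_10_0 (nat_lit 329)))) (lo115_11_3 (nat_lit 367)))) (M (nat_lit 366) (B (M (nat_lit 330) (B (lo110_10_0 (nat_lit 333)) (lo114_11_3 (nat_lit 363)))) (lo115_11_3 (nat_lit 367))))))))) (B (M (nat_lit 366) (B (M (nat_lit 363) (B (M (nat_lit 362) (B (M (nat_lit 330) (B (lo114_11_3 (nat_lit 331)) (lo113_11_3 (nat_lit 329)))) (B (M (nat_lit 361) (B (M (nat_lit 329) (B (lo113_11_3 (nat_lit 330)) (lo112_11_3 (nat_lit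 328)))) (M (nat_lit 393) (B (lo113_11_1 (nat_lit 394)) (lo112_11_1 (nat_lit 392)))))) (B (M (nat_lit 361) (B (M (nat_lit 393) (B (lo113_11_1 (nat_lit 394)) (lo112_11_1 (nat_lit 392)))) (M (nat_lit 328) (B (lo112_11_3 (nat_lit 329)) (M (nat_lit 360) (B (lo18_11_2 (nat_lit 331)) (lo111_11_3 (nat_lit 327)))))))) (M (nat_lit 361) (B (M (nat_lit 331) (B (lo114_11_3 (nat_lit 330)) (lo18_11_2 (nat_lit 360)))) (M (nat_lit 393) (B (lo113_11_1 (nat_lit 394)) (lo112_11_1 (nat_lit 392)))))))))) (M (nat_lit 397) (B (lo113_14_7 (nat_lit 461)) (M (nat_lit 334) (B (lo111_11_2 (nat_lit 335)) (M (nat_lit 398) (B (lo111_11_0 (nat_lit 399)) (lo114_9_5 (nat_lit 302)))))))))) (B (M (nat_lit 399) (B (M (nat_lit 400) (B (lo112_11_0 (nat_lit 367)) (M (nat_lit 398) (B (lo116_12_3 (nat_lit 397)) (lo111_11_0 (nat_lit 363)))))) (B (M (nat_lit 334) (B (M (nat_lit 363) (B (lo111_11_0 (nat_lit 398)) (lo111_11_2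 (nat_lit 335)))) (B (M (nat_lit 335) (B (lo111_11_2 (nat_lit 363)) (M (nat_lit 336) (B (lo112_11_2 (nat_lit 367)) (lo117_10_1 (nat_lit 337)))))) (B (M (nat_lit 302) (B (M (nat_lit 270) (B (lo114_8_4 (nat_lit 367)) (lo114_8_5 (nat_lit 397)))) (B (M (nat_lit 431) (B (lo114_9_4 (nat_lit 398)) (M (nat_lit 367) (B (lo115_14_7 (nat_lit 463)) (lo114_8_4 (nat_lit 270)))))) (B (M (nat_lit 398) (B (lo114_9_4 (nat_lit 431)) (M (nat_lit 397) (B (lo114_9_5 (nat_lit 429)) (lo114_8_5 (nat_lit 270)))))) (M (nat_lit 431) (B (lo114_9_4 (nat_lit 398)) (M (nat_lit 367) (B (lo115_14_7 (nat_lit 463)) (lo115_13_7 (nat_lit 335)))))))))) (M (nat_lit 302) (B (M (nat_lit 398) (B (lo114_9_4 (nat_lit 431)) (lo111_11_0 (nat_lit 363)))) (M (nat_lit 270) (B (lo114_8_4 (nat_lit 367)) (lo114_8_5 (nat_lit 397)))))))))) (B (M (nat_lit 367) (B (lo112_11_0 (nat_lit 400)) (M (nat_lit 335) (B (lo112_11_2 (nat_lit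 336)) (M (nat_lit 334) (B (lo111_11_2 (nat_lit 363)) (M (nat_lit 302) (B (lo115_13_7 (nat_lit 431)) (lo114_8_4 (nat_lit 270)))))))))) (B (M (nat_lit 398) (B (lo111_11_0 (nat_lit 363)) (M (nat_lit 400) (B (lo117_12_3 (nat_lit 401)) (lo116_12_3 (nat_lit 397)))))) (M (nat_lit 400) (B (lo112_11_0 (nat_lit 367)) (M (nat_lit 398) (B (lo117_12_3 (nat_lit 401)) (lo116_12_3 (nat_lit 397))))))))))) (B (M (nat_lit 367) (B (lo115_11_3 (nat_lit 331)) (M (nat_lit 400) (B (lo112_11_0 (nat_lit 399)) (M (nat_lit 336) (B (lo112_11_2 (nat_lit 335)) (M (nat_lit 368) (B (lo113_11_0 (nat_lit 401)) (lo113_11_2 (nat_lit 337)))))))))) (M (nat_lit 331) (B (M (nat_lit 330) (B (lo114_11_3 (nat_lit 363)) (lo19_10_0 (nat_lit 329)))) (lo115_11_3 (nat_lit 367)))))))) (M (nat_lit 397) (B (M (nat_lit 300) (B (lo113_13_7 (nat_lit 333)) (lo112_8_4 (nat_lit 268)))) (lo113_14_7 (nat_lit 461))))))) (B (M (nat_lit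 300) (B (M (nat_lit 268) (B (M (nat_lit 363) (B (lo112_8_5 (nat_lit 395)) (M (nat_lit 236) (B (lo112_7_5 (nat_lit 331)) (M (nat_lit 365) (B (lo112_8_4 (nat_lit 397)) (lo112_7_4 (nat_lit 333)))))))) (M (nat_lit 396) (B (M (nat_lit 267) (B (lo112_12_7 (nat_lit 299)) (lo112_11_7 (nat_lit 235)))) (M (nat_lit 269) (B (lo112_12_6 (nat_lit 301)) (lo112_11_6 (nat_lit 237)))))))) (B (M (nat_lit 268) (B (M (nat_lit 236) (B (M (nat_lit 365) (B (lo112_8_4 (nat_lit 397)) (lo112_7_4 (nat_lit 333)))) (M (nat_lit 235) (B (lo112_11_7 (nat_lit 267)) (lo112_10_7 (nat_lit 203)))))) (B (M (nat_lit 236) (B (M (nat_lit 235) (B (lo112_11_7 (nat_lit 267)) (lo112_10_7 (nat_lit 203)))) (M (nat_lit 237) (B (lo112_11_6 (nat_lit 269)) (lo112_10_6 (nat_lit 205)))))) (B (M (nat_lit 236) (B (M (nat_lit 365) (B (lo112_8_4 (nat_lit 397)) (lo112_7_4 (nat_lit 333)))) (M (nat_lit 237) (B (lo112_11_6 (nat_lit 269))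 (lo112_10_6 (nat_lit 205)))))) (M (nat_lit 396) (B (M (nat_lit 267) (B (lo112_12_7 (nat_lit 299)) (lo112_11_7 (nat_lit 235)))) (M (nat_lit 269) (B (lo112_12_6 (nat_lit 301)) (lo112_11_6 (nat_lit 237)))))))))) (B (M (nat_lit 268) (B (M (nat_lit 363) (B (lo112_8_5 (nat_lit 395)) (M (nat_lit 236) (B (lo112_7_5 (nat_lit 331)) (M (nat_lit 365) (B (lo112_8_4 (nat_lit 397)) (lo112_7_4 (nat_lit 333)))))))) (B (M (nat_lit 236) (B (M (nat_lit 365) (B (lo112_8_4 (nat_lit 397)) (lo112_7_4 (nat_lit 333)))) (M (nat_lit 235) (B (lo112_11_7 (nat_lit 267)) (lo112_10_7 (nat_lit 203)))))) (B (M (nat_lit 236) (B (M (nat_lit 363) (B (lo112_8_5 (nat_lit 395)) (lo112_7_5 (nat_lit 331)))) (M (nat_lit 235) (B (lo112_11_7 (nat_lit 267)) (lo112_10_7 (nat_lit 203)))))) (M (nat_lit 267) (B (lo112_11_7 (nat_lit 235)) (M (nat_lit 269) (B (lo112_11_6 (nat_lit 237)) (M (nat_lit 266) (B (M (nat_lit 301) (B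 (lo19_8_0 (nat_lit 265)) (lo110_8_0 (nat_lit 302)))) (B (M (nat_lit 265) (B (M (nat_lit 297) (B (lo112_8_1 (nat_lit 296)) (lo113_8_1 (nat_lit 298)))) (M (nat_lit 233) (B (lo112_8_3 (nat_lit 232)) (lo113_8_3 (nat_lit 234)))))) (M (nat_lit 270) (B (M (nat_lit 298) (B (lo113_8_1 (nat_lit 297)) (lo114_8_1 (nat_lit 299)))) (M (nat_lit 302) (B (lo110_8_0 (nat_lit 301)) (lo111_8_0 (nat_lit 303))))))))))))))))) (B (M (nat_lit 268) (B (M (nat_lit 236) (B (M (nat_lit 363) (B (lo112_8_5 (nat_lit 395)) (lo112_7_5 (nat_lit 331)))) (M (nat_lit 237) (B (lo112_11_6 (nat_lit 269)) (lo112_10_6 (nat_lit 205)))))) (B (M (nat_lit 236) (B (M (nat_lit 235) (B (lo112_11_7 (nat_lit 267)) (lo112_10_7 (nat_lit 203)))) (M (nat_lit 237) (B (lo112_11_6 (nat_lit 269)) (lo112_10_6 (nat_lit 205)))))) (B (M (nat_lit 236) (B (M (nat_lit 363) (B (lo112_8_5 (nat_lit 395)) (lo112_7_5 (nat_lit 331)))) (M (nat_lit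 235) (B (lo112_11_7 (nat_lit 267)) (lo112_10_7 (nat_lit 203)))))) (M (nat_lit 396) (B (M (nat_lit 267) (B (lo112_12_7 (nat_lit 299)) (lo112_11_7 (nat_lit 235)))) (M (nat_lit 269) (B (lo112_12_6 (nat_lit 301)) (lo112_11_6 (nat_lit 237)))))))))) (B (M (nat_lit 268) (B (M (nat_lit 236) (B (M (nat_lit 363) (B (lo112_8_5 (nat_lit 395)) (lo112_7_5 (nat_lit 331)))) (M (nat_lit 235) (B (lo112_11_7 (nat_lit 267)) (lo112_10_7 (nat_lit 203)))))) (B (M (nat_lit 236) (B (M (nat_lit 235) (B (lo112_11_7 (nat_lit 267)) (lo112_10_7 (nat_lit 203)))) (M (nat_lit 237) (B (lo112_11_6 (nat_lit 269)) (lo112_10_6 (nat_lit 205)))))) (B (M (nat_lit 236) (B (M (nat_lit 363) (B (lo112_8_5 (nat_lit 395)) (lo112_7_5 (nat_lit 331)))) (M (nat_lit 237) (B (lo112_11_6 (nat_lit 269)) (lo112_10_6 (nat_lit 205)))))) (M (nat_lit 396) (B (M (nat_lit 397) (B (lo112_9_4 (nat_lit 429)) (lo112_8_4 (nat_lit 365)))) (M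 (nat_lit 269) (B (lo112_12_6 (nat_lit 301)) (lo112_11_6 (nat_lit 237)))))))))) (B (M (nat_lit 268) (B (M (nat_lit 396) (B (M (nat_lit 397) (B (lo112_9_4 (nat_lit 429)) (lo112_8_4 (nat_lit 365)))) (M (nat_lit 267) (B (lo112_12_7 (nat_lit 299)) (lo112_11_7 (nat_lit 235)))))) (M (nat_lit 236) (B (M (nat_lit 363) (B (lo112_8_5 (nat_lit 395)) (lo112_7_5 (nat_lit 331)))) (M (nat_lit 237) (B (lo112_11_6 (nat_lit 269)) (lo112_10_6 (nat_lit 205)))))))) (B (M (nat_lit 268) (B (M (nat_lit 363) (B (lo112_8_5 (nat_lit 395)) (M (nat_lit 236) (B (lo112_7_5 (nat_lit 331)) (M (nat_lit 365) (B (lo112_8_4 (nat_lit 397)) (lo112_7_4 (nat_lit 333)))))))) (B (M (nat_lit 236) (B (M (nat_lit 365) (B (lo112_8_4 (nat_lit 397)) (lo112_7_4 (nat_lit 333)))) (M (nat_lit 237) (B (lo112_11_6 (nat_lit 269)) (lo112_10_6 (nat_lit 205)))))) (B (M (nat_lit 236) (B (M (nat_lit 363) (B (lo112_8_5 (nat_lit 395)) (lo112_7_5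 (nat_lit 331)))) (M (nat_lit 237) (B (lo112_11_6 (nat_lit 269)) (lo112_10_6 (nat_lit 205)))))) (M (nat_lit 396) (B (M (nat_lit 397) (B (lo112_9_4 (nat_lit 429)) (lo112_8_4 (nat_lit 365)))) (M (nat_lit 269) (B (lo112_12_6 (nat_lit 301)) (lo112_11_6 (nat_lit 237)))))))))) (B (M (nat_lit 299) (B (M (nat_lit 267) (B (lo112_12_7 (nat_lit 396)) (M (nat_lit 235) (B (lo111_7_4 (nat_lit 331)) (lo111_6_4 (nat_lit 203)))))) (B (M (nat_lit 298) (B (M (nat_lit 333) (B (lo19_9_0 (nat_lit 297)) (M (nat_lit 334) (B (lo114_10_3 (nat_lit 331)) (lo115_10_3 (nat_lit 335)))))) (B (M (nat_lit 333) (B (lo19_9_0 (nat_lit 297)) (M (nat_lit 334) (B (lo115_10_3 (nat_lit 335)) (lo110_9_0 (nat_lit 301)))))) (B (M (nat_lit 297) (B (M (nat_lit 296) (B (lo18_9_0 (nat_lit 331)) (M (nat_lit 328) (B (lo111_9_1 (nat_lit 327)) (lo112_9_1 (nat_lit 329)))))) (B (M (nat_lit 296) (B (lo18_9_0 (nat_lit 331)) (M (nat_lit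 264) (B (lo111_9_3 (nat_lit 263)) (lo112_9_3 (nat_lit 265)))))) (M (nat_lit 301) (B (M (nat_lit 329) (B (lo112_9_1 (nat_lit 328)) (lo113_9_1 (nat_lit 330)))) (M (nat_lit 265) (B (lo112_9_3 (nat_lit 264)) (lo113_9_3 (nat_lit 266))))))))) (M (nat_lit 301) (B (M (nat_lit 333) (B (lo110_9_0 (nat_lit 334)) (M (nat_lit 269) (B (lo113_7_5 (nat_lit 237)) (lo110_9_2 (nat_lit 270)))))) (M (nat_lit 302) (B (M (nat_lit 330) (B (lo113_9_1 (nat_lit 329)) (lo114_9_1 (nat_lit 331)))) (M (nat_lit 266) (B (lo113_9_3 (nat_lit 265)) (lo114_9_3 (nat_lit 267)))))))))))) (B (M (nat_lit 301) (B (M (nat_lit 396) (B (lo112_12_7 (nat_lit 267)) (lo112_12_6 (nat_lit 269)))) (B (M (nat_lit 298) (B (M (nat_lit 333) (B (lo19_9_0 (nat_lit 297)) (lo110_9_0 (nat_lit 334)))) (M (nat_lit 302) (B (M (nat_lit 266) (B (lo113_9_3 (nat_lit 265)) (lo114_9_3 (nat_lit 267)))) (M (nat_lit 270) (B (lo110_9_2 (nat_lit 269))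 (lo111_9_2 (nat_lit 271)))))))) (B (M (nat_lit 269) (B (lo112_12_6 (nat_lit 396)) (M (nat_lit 237) (B (lo113_7_5 (nat_lit 333)) (lo113_6_5 (nat_lit 205)))))) (M (nat_lit 298) (B (M (nat_lit 333) (B (lo19_9_0 (nat_lit 297)) (lo110_9_0 (nat_lit 334)))) (M (nat_lit 266) (B (lo113_9_3 (nat_lit 265)) (M (nat_lit 267) (B (lo112_12_7 (nat_lit 396)) (lo114_9_3 (nat_lit 302)))))))))))) (M (nat_lit 301) (B (M (nat_lit 269) (B (lo112_12_6 (nat_lit 396)) (M (nat_lit 237) (B (lo113_7_5 (nat_lit 333)) (lo113_6_5 (nat_lit 205)))))) (B (M (nat_lit 298) (B (M (nat_lit 333) (B (lo19_9_0 (nat_lit 297)) (lo110_9_0 (nat_lit 334)))) (B (M (nat_lit 297) (B (M (nat_lit 329) (B (lo112_9_1 (nat_lit 328)) (lo113_9_1 (nat_lit 330)))) (M (nat_lit 265) (B (lo112_9_3 (nat_lit 264)) (lo113_9_3 (nat_lit 266)))))) (M (nat_lit 333) (B (lo110_9_0 (nat_lit 334)) (M (nat_lit 269) (B (lo113_7_5 (nat_lit 237)) (lo110_9_2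 (nat_lit 270))))))))) (B (M (nat_lit 298) (B (M (nat_lit 269) (B (lo112_12_6 (nat_lit 396)) (lo110_9_2 (nat_lit 270)))) (M (nat_lit 297) (B (M (nat_lit 329) (B (lo112_9_1 (nat_lit 328)) (lo113_9_1 (nat_lit 330)))) (M (nat_lit 265) (B (lo112_9_3 (nat_lit 264)) (lo113_9_3 (nat_lit 266)))))))) (M (nat_lit 298) (B (M (nat_lit 333) (B (lo19_9_0 (nat_lit 297)) (lo110_9_0 (nat_lit 334)))) (B (M (nat_lit 297) (B (M (nat_lit 329) (B (lo112_9_1 (nat_lit 328)) (lo113_9_1 (nat_lit 330)))) (M (nat_lit 265) (B (lo112_9_3 (nat_lit 264)) (lo113_9_3 (nat_lit 266)))))) (M (nat_lit 302) (B (M (nat_lit 330) (B (lo113_9_1 (nat_lit 329)) (lo114_9_1 (nat_lit 331)))) (M (nat_lit 334) (B (lo110_9_0 (nat_lit 333)) (lo111_9_0 (nat_lit 335))))))))))))))))) (M (nat_lit 268) (B (M (nat_lit 363) (B (lo112_8_5 (nat_lit 395)) (M (nat_lit 236) (B (lo112_7_5 (nat_lit 331)) (M (nat_lit 365) (B (lo112_8_4 (nat_lit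 397)) (lo112_7_4 (nat_lit 333)))))))) (B (M (nat_lit 236) (B (M (nat_lit 365) (B (lo112_8_4 (nat_lit 397)) (lo112_7_4 (nat_lit 333)))) (M (nat_lit 235) (B (lo112_11_7 (nat_lit 267)) (lo112_10_7 (nat_lit 203)))))) (B (M (nat_lit 236) (B (M (nat_lit 363) (B (lo112_8_5 (nat_lit 395)) (lo112_7_5 (nat_lit 331)))) (M (nat_lit 235) (B (lo112_11_7 (nat_lit 267)) (lo112_10_7 (nat_lit 203)))))) (M (nat_lit 396) (B (M (nat_lit 397) (B (lo112_9_4 (nat_lit 429)) (lo112_8_4 (nat_lit 365)))) (M (nat_lit 267) (B (lo112_12_7 (nat_lit 299)) (lo112_11_7 (nat_lit 235))))))))))))))))))) (B (M (nat_lit 365) (B (M (nat_lit 366) (B (M (nat_lit 331) (B (lo115_11_3 (nat_lit 367)) (M (nat_lit 330) (B (lo114_11_3 (nat_lit 363)) (lo19_10_0 (nat_lit 329)))))) (B (M (nat_lit 331) (B (M (nat_lit 330) (B (lo114_11_3 (nat_lit 363)) (lo110_10_0 (nat_lit 333)))) (B (M (nat_lit 330) (B (lo110_10_0 (nat_lit 333))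 (lo19_10_0 (nat_lit 329)))) (B (M (nat_lit 330) (B (lo114_11_3 (nat_lit 363)) (lo19_10_0 (nat_lit 329)))) (M (nat_lit 363) (B (M (nat_lit 334) (B (lo111_11_2 (nat_lit 335)) (M (nat_lit 362) (B (lo110_11_2 (nat_lit 333)) (M (nat_lit 394) (B (lo114_11_1 (nat_lit 395)) (lo113_11_1 (nat_lit 393)))))))) (B (M (nat_lit 362) (B (M (nat_lit 398) (B (lo111_11_0 (nat_lit 399)) (lo110_11_0 (nat_lit 397)))) (M (nat_lit 334) (B (lo111_11_2 (nat_lit 335)) (lo110_11_2 (nat_lit 333)))))) (B (M (nat_lit 334) (B (lo111_11_2 (nat_lit 335)) (M (nat_lit 302) (B (M (nat_lit 398) (B (lo111_11_0 (nat_lit 399)) (M (nat_lit 397) (B (lo114_9_5 (nat_lit 429)) (lo114_8_5 (nat_lit 270)))))) (B (M (nat_lit 398) (B (lo111_11_0 (nat_lit 399)) (M (nat_lit 303) (B (lo114_12_6 (nat_lit 271)) (lo111_10_2 (nat_lit 333)))))) (M (nat_lit 397) (B (lo114_8_5 (nat_lit 270)) (M (nat_lit 333) (B (lo113_13_6 (nat_lit 429))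 (lo111_10_2 (nat_lit 303))))))))))) (M (nat_lit 362) (B (M (nat_lit 398) (B (lo111_11_0 (nat_lit 399)) (lo110_11_0 (nat_lit 397)))) (M (nat_lit 394) (B (lo114_11_1 (nat_lit 395)) (lo113_11_1 (nat_lit 393)))))))))))))) (B (M (nat_lit 331) (B (lo115_11_3 (nat_lit 367)) (M (nat_lit 330) (B (lo110_10_0 (nat_lit 333)) (lo19_10_0 (nat_lit 329)))))) (M (nat_lit 367) (B (M (nat_lit 368) (B (lo116_11_3 (nat_lit 333)) (M (nat_lit 336) (B (lo113_11_2 (nat_lit 337)) (lo112_11_2 (nat_lit 335)))))) (B (M (nat_lit 363) (B (M (nat_lit 399) (B (lo112_11_0 (nat_lit 400)) (lo111_11_0 (nat_lit 398)))) (M (nat_lit 335) (B (lo112_11_2 (nat_lit 336)) (lo111_11_2 (nat_lit 334)))))) (M (nat_lit 368) (B (lo116_11_3 (nat_lit 333)) (M (nat_lit 400) (B (lo113_11_0 (nat_lit 401)) (lo112_11_0 (nat_lit 399))))))))))))) (B (M (nat_lit 366) (B (M (nat_lit 331) (B (lo115_11_3 (nat_lit 367)) (M (nat_lit 330)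 (B (lo19_10_0 (nat_lit 329)) (lo114_11_3 (nat_lit 363)))))) (B (M (nat_lit 331) (B (lo115_11_3 (nat_lit 367)) (M (nat_lit 330) (B (lo110_10_0 (nat_lit 333)) (lo114_11_3 (nat_lit 363)))))) (B (M (nat_lit 367) (B (lo115_11_3 (nat_lit 331)) (M (nat_lit 368) (B (lo116_11_3 (nat_lit 333)) (M (nat_lit 336) (B (lo112_11_2 (nat_lit 335)) (lo113_11_2 (nat_lit 337)))))))) (B (M (nat_lit 367) (B (M (nat_lit 336) (B (lo112_11_2 (nat_lit 335)) (M (nat_lit 368) (B (lo116_11_3 (nat_lit 333)) (lo113_11_2 (nat_lit 337)))))) (M (nat_lit 363) (B (M (nat_lit 395) (B (lo114_11_1 (nat_lit 394)) (lo115_11_1 (nat_lit 396)))) (M (nat_lit 399) (B (lo111_11_0 (nat_lit 398)) (lo112_11_0 (nat_lit 400)))))))) (M (nat_lit 363) (B (M (nat_lit 362) (B (M (nat_lit 334) (B (lo110_11_2 (nat_lit 333)) (lo111_11_2 (nat_lit 335)))) (M (nat_lit 394) (B (lo113_11_1 (nat_lit 393)) (lo114_11_1 (nat_lit 395)))))) (B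 (M (nat_lit 362) (B (M (nat_lit 330) (B (lo113_11_3 (nat_lit 329)) (lo114_11_3 (nat_lit 331)))) (M (nat_lit 394) (B (lo113_11_1 (nat_lit 393)) (lo114_11_1 (nat_lit 395)))))) (B (M (nat_lit 331) (B (lo114_11_3 (nat_lit 330)) (M (nat_lit 299) (B (M (nat_lit 396) (B (lo111_8_4 (nat_lit 267)) (lo112_13_7 (nat_lit 428)))) (M (nat_lit 298) (B (M (nat_lit 395) (B (lo111_12_7 (nat_lit 266)) (lo114_11_1 (nat_lit 394)))) (M (nat_lit 334) (B (lo114_10_3 (nat_lit 333)) (lo111_11_2 (nat_lit 335)))))))))) (M (nat_lit 362) (B (M (nat_lit 330) (B (lo113_11_3 (nat_lit 329)) (lo114_11_3 (nat_lit 331)))) (M (nat_lit 333) (B (lo19_11_2 (nat_lit 361)) (lo110_11_2 (nat_lit 334))))))))))))))) (M (nat_lit 461) (B (lo112_10_4 (nat_lit 396)) (lo113_14_7 (nat_lit 397))))))) (B (M (nat_lit 396) (B (lo112_10_4 (nat_lit 461)) (M (nat_lit 300) (B (M (nat_lit 301) (B (lo112_12_6 (nat_lit 269)) (lo112_13_6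 (nat_lit 333)))) (M (nat_lit 299) (B (lo112_12_7 (nat_lit 267)) (lo112_13_7 (nat_lit 331)))))))) (B (M (nat_lit 396) (B (lo112_10_4 (nat_lit 461)) (M (nat_lit 300) (B (lo112_9_4 (nat_lit 397)) (M (nat_lit 299) (B (lo112_12_7 (nat_lit 267)) (lo112_13_7 (nat_lit 331)))))))) (M (nat_lit 396) (B (lo112_10_4 (nat_lit 461)) (M (nat_lit 300) (B (lo112_9_4 (nat_lit 397)) (M (nat_lit 301) (B (lo112_13_6 (nat_lit 333)) (lo112_12_6 (nat_lit 269)))))))))))))) (B (M (nat_lit 396) (B (K _ _ _ o1_s35685) (B (M (nat_lit 365) (B (M (nat_lit 366) (B (M (nat_lit 363) (B (M (nat_lit 460) (B (M (nat_lit 334) (B (M (nat_lit 302) (B (M (nat_lit 270) (B (lo114_8_5 (nat_lit 397)) (M (nat_lit 239) (B (lo114_11_6 (nat_lit 271)) (M (nat_lit 237) (B (lo114_11_7 (nat_lit 269)) (M (nat_lit 238) (B (lo114_10_6 (nat_lit 207)) (lo114_10_7 (nat_lit 205)))))))))) (B (M (nat_lit 398) (B (lo111_11_0 (nat_lit 399))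 (M (nat_lit 270) (B (M (nat_lit 271) (B (lo114_11_6 (nat_lit 239)) (lo114_12_6 (nat_lit 303)))) (M (nat_lit 269) (B (lo114_11_7 (nat_lit 237)) (lo114_12_7 (nat_lit 301)))))))) (M (nat_lit 398) (B (lo114_9_5 (nat_lit 397)) (lo111_11_0 (nat_lit 399))))))) (lo111_11_2 (nat_lit 335)))) (M (nat_lit 395) (B (lo114_11_1 (nat_lit 394)) (lo112_15_7 (nat_lit 492)))))) (B (M (nat_lit 362) (B (M (nat_lit 394) (B (lo114_11_1 (nat_lit 395)) (lo113_11_1 (nat_lit 393)))) (B (M (nat_lit 361) (B (M (nat_lit 393) (B (lo113_11_1 (nat_lit 394)) (lo112_11_1 (nat_lit 392)))) (M (nat_lit 329) (B (lo113_11_3 (nat_lit 330)) (lo112_11_3 (nat_lit 328)))))) (B (M (nat_lit 361) (B (M (nat_lit 329) (B (lo113_11_3 (nat_lit 330)) (lo112_11_3 (nat_lit 328)))) (M (nat_lit 392) (B (lo112_11_1 (nat_lit 393)) (M (nat_lit 360) (B (lo18_11_0 (nat_lit 395)) (lo111_11_1 (nat_lit 391)))))))) (M (nat_lit 361) (B (M (nat_lit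 395) (B (lo114_11_1 (nat_lit 394)) (lo18_11_0 (nat_lit 360)))) (M (nat_lit 329) (B (lo113_11_3 (nat_lit 330)) (lo112_11_3 (nat_lit 328)))))))))) (M (nat_lit 398) (B (lo111_11_0 (nat_lit 399)) (M (nat_lit 397) (B (lo110_11_0 (nat_lit 362)) (M (nat_lit 334) (B (lo111_11_2 (nat_lit 335)) (M (nat_lit 302) (B (lo114_8_5 (nat_lit 270)) (lo114_9_5 (nat_lit 429))))))))))))) (B (M (nat_lit 399) (B (M (nat_lit 400) (B (lo112_11_0 (nat_lit 367)) (M (nat_lit 398) (B (lo116_12_3 (nat_lit 397)) (lo111_11_0 (nat_lit 363)))))) (B (M (nat_lit 334) (B (M (nat_lit 363) (B (lo111_11_0 (nat_lit 398)) (lo111_11_2 (nat_lit 335)))) (B (M (nat_lit 335) (B (lo111_11_2 (nat_lit 363)) (M (nat_lit 336) (B (lo112_11_2 (nat_lit 367)) (lo117_10_1 (nat_lit 337)))))) (B (M (nat_lit 302) (B (M (nat_lit 270) (B (lo114_8_4 (nat_lit 367)) (lo114_8_5 (nat_lit 397)))) (B (M (nat_lit 431) (B (lo114_9_4 (nat_lit 398))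 (M (nat_lit 367) (B (lo115_14_7 (nat_lit 463)) (lo114_8_4 (nat_lit 270)))))) (B (M (nat_lit 398) (B (lo114_9_4 (nat_lit 431)) (M (nat_lit 397) (B (lo114_9_5 (nat_lit 429)) (lo114_8_5 (nat_lit 270)))))) (M (nat_lit 431) (B (lo114_9_4 (nat_lit 398)) (M (nat_lit 367) (B (lo115_14_7 (nat_lit 463)) (lo115_13_7 (nat_lit 335)))))))))) (M (nat_lit 302) (B (M (nat_lit 398) (B (lo114_9_4 (nat_lit 431)) (lo111_11_0 (nat_lit 363)))) (M (nat_lit 270) (B (lo114_8_4 (nat_lit 367)) (lo114_8_5 (nat_lit 397)))))))))) (B (K _ _ _ o1_s34570) (B (M (nat_lit 398) (B (lo111_11_0 (nat_lit 363)) (M (nat_lit 400) (B (lo117_12_3 (nat_lit 401)) (lo116_12_3 (nat_lit 397)))))) (M (nat_lit 400) (B (lo112_11_0 (nat_lit 367)) (M (nat_lit 398) (B (lo117_12_3 (nat_lit 401)) (lo116_12_3 (nat_lit 397))))))))))) (B (M (nat_lit 367) (B (lo115_11_1 (nat_lit 395)) (M (nat_lit 336) (B (lo112_11_2 (nat_lit 335)) (M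 (nat_lit 400) (B (lo112_11_0 (nat_lit 399)) (M (nat_lit 368) (B (lo113_11_2 (nat_lit 337)) (lo113_11_0 (nat_lit 401)))))))))) (M (nat_lit 395) (B (M (nat_lit 394) (B (lo114_11_1 (nat_lit 363)) (lo19_12_0 (nat_lit 393)))) (lo115_11_1 (nat_lit 367)))))))) (B (M (nat_lit 333) (B (M (nat_lit 363) (B (M (nat_lit 366) (B (M (nat_lit 395) (B (lo114_11_1 (nat_lit 394)) (M (nat_lit 367) (B (lo115_11_1 (nat_lit 396)) (M (nat_lit 399) (B (lo111_11_0 (nat_lit 398)) (lo112_11_0 (nat_lit 400)))))))) (B (M (nat_lit 367) (B (M (nat_lit 399) (B (lo111_11_0 (nat_lit 398)) (lo112_11_0 (nat_lit 400)))) (M (nat_lit 368) (B (lo116_11_3 (nat_lit 332)) (M (nat_lit 336) (B (lo112_11_2 (nat_lit 335)) (lo113_11_2 (nat_lit 337)))))))) (B (M (nat_lit 367) (B (M (nat_lit 395) (B (lo114_11_1 (nat_lit 394)) (lo115_11_1 (nat_lit 396)))) (M (nat_lit 368) (B (lo116_11_3 (nat_lit 332)) (M (nat_lit 336) (B (lo112_11_2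 (nat_lit 335)) (lo113_11_2 (nat_lit 337)))))))) (M (nat_lit 362) (B (M (nat_lit 394) (B (lo113_11_1 (nat_lit 393)) (lo114_11_1 (nat_lit 395)))) (M (nat_lit 361) (B (lo19_11_2 (nat_lit 332)) (M (nat_lit 329) (B (lo112_11_3 (nat_lit 328)) (lo113_11_3 (nat_lit 330)))))))))))) (B (M (nat_lit 366) (B (M (nat_lit 334) (B (M (nat_lit 302) (B (M (nat_lit 271) (B (M (nat_lit 398) (B (lo111_11_0 (nat_lit 399)) (lo114_12_6 (nat_lit 303)))) (M (nat_lit 270) (B (lo114_11_6 (nat_lit 239)) (lo114_7_5 (nat_lit 238)))))) (lo113_13_6 (nat_lit 397)))) (lo111_11_2 (nat_lit 335)))) (M (nat_lit 395) (B (lo114_11_1 (nat_lit 394)) (lo115_11_1 (nat_lit 367)))))) (B (M (nat_lit 362) (B (lo110_11_2 (nat_lit 334)) (M (nat_lit 393) (B (lo113_11_1 (nat_lit 394)) (M (nat_lit 329) (B (lo113_11_3 (nat_lit 330)) (M (nat_lit 361) (B (lo112_11_1 (nat_lit 392)) (lo112_11_3 (nat_lit 328)))))))))) (M (nat_lit 362)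 (B (M (nat_lit 397) (B (lo19_11_0 (nat_lit 361)) (lo110_11_0 (nat_lit 398)))) (lo110_11_2 (nat_lit 334)))))))) (B (M (nat_lit 301) (B (lo113_9_5 (nat_lit 397)) (lo113_8_5 (nat_lit 269)))) (M (nat_lit 301) (B (lo112_13_6 (nat_lit 332)) (lo113_8_5 (nat_lit 269))))))) (B (M (nat_lit 460) (B (lo112_14_6 (nat_lit 333)) (M (nat_lit 492) (B (lo112_15_6 (nat_lit 397)) (M (nat_lit 491) (B (lo112_11_5 (nat_lit 459)) (lo112_12_5 (nat_lit 523)))))))) (M (nat_lit 333) (B (M (nat_lit 301) (B (lo112_13_6 (nat_lit 332)) (lo113_8_5 (nat_lit 269)))) (lo112_14_6 (nat_lit 460)))))))) (B (K _ _ _ o1_s35861) (B (M (nat_lit 332) (B (M (nat_lit 300) (B (M (nat_lit 299) (B (lo112_12_7 (nat_lit 267)) (lo112_13_7 (nat_lit 331)))) (M (nat_lit 301) (B (lo112_12_6 (nat_lit 269)) (lo112_13_6 (nat_lit 333)))))) (B (M (nat_lit 333) (B (lo112_13_6 (nat_lit 301)) (M (nat_lit 365) (B (lo112_14_6 (nat_lit 460))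 (M (nat_lit 331) (B (lo112_13_7 (nat_lit 299)) (M (nat_lit 330) (B (lo19_10_0 (nat_lit 329)) (lo110_10_0 (nat_lit 366)))))))))) (B (M (nat_lit 300) (B (M (nat_lit 301) (B (lo112_12_6 (nat_lit 269)) (lo112_13_6 (nat_lit 333)))) (B (M (nat_lit 365) (B (M (nat_lit 397) (B (lo112_8_4 (nat_lit 268)) (lo112_9_4 (nat_lit 429)))) (M (nat_lit 333) (B (lo112_13_6 (nat_lit 301)) (lo112_14_6 (nat_lit 460)))))) (K _ _ _ o1_s35882)))) (B (M (nat_lit 300) (B (M (nat_lit 299) (B (lo112_12_7 (nat_lit 267)) (lo112_13_7 (nat_lit 331)))) (M (nat_lit 397) (B (lo112_9_4 (nat_lit 429)) (M (nat_lit 365) (B (lo112_8_4 (nat_lit 268)) (M (nat_lit 460) (B (lo112_14_6 (nat_lit 333)) (lo112_15_6 (nat_lit 492)))))))))) (K _ _ _ o1_s35893)))))) (B (K _ _ _ o1_s35908) (B (M (nat_lit 332) (B (M (nat_lit 300) (B (lo112_9_4 (nat_lit 397)) (M (nat_lit 301) (B (lo112_12_6 (nat_lit 269)) (lo112_13_6 (nat_lit 333))))))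 (B (M (nat_lit 333) (B (lo112_13_6 (nat_lit 301)) (M (nat_lit 331) (B (lo112_13_7 (nat_lit 299)) (M (nat_lit 365) (B (M (nat_lit 366) (B (lo110_10_0 (nat_lit 330)) (lo115_11_3 (nat_lit 367)))) (M (nat_lit 334) (B (M (nat_lit 363) (B (lo114_10_1 (nat_lit 362)) (lo115_10_1 (nat_lit 335)))) (M (nat_lit 302) (B (lo111_10_2 (nat_lit 303)) (lo113_13_6 (nat_lit 397)))))))))))) (B (M (nat_lit 300) (B (lo112_9_4 (nat_lit 397)) (M (nat_lit 299) (B (lo112_12_7 (nat_lit 267)) (lo112_13_7 (nat_lit 331)))))) (M (nat_lit 300) (B (M (nat_lit 299) (B (lo112_12_7 (nat_lit 267)) (lo112_13_7 (nat_lit 331)))) (M (nat_lit 301) (B (lo112_12_6 (nat_lit 269)) (lo112_13_6 (nat_lit 333)))))))))) (K _ _ _ o1_s35953)))))))) (B (M (nat_lit 365) (B (M (nat_lit 363) (B (M (nat_lit 366) (B (M (nat_lit 331) (B (M (nat_lit 334) (B (M (nat_lit 299) (B (M (nat_lit 267) (B (M (nat_lit 235) (B (lo111_7_4 (nat_lit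 332)) (M (nat_lit 236) (B (lo111_10_6 (nat_lit 204)) (lo111_11_6 (nat_lit 268)))))) (B (M (nat_lit 268) (B (lo111_11_6 (nat_lit 236)) (M (nat_lit 266) (B (lo111_11_7 (nat_lit 234)) (M (nat_lit 300) (B (M (nat_lit 301) (B (lo19_8_0 (nat_lit 265)) (lo114_9_3 (nat_lit 302)))) (M (nat_lit 269) (B (M (nat_lit 298) (B (lo113_8_1 (nat_lit 297)) (lo114_8_1 (nat_lit 270)))) (M (nat_lit 237) (B (lo110_8_2 (nat_lit 238)) (lo112_11_6 (nat_lit 332)))))))))))) (B (M (nat_lit 235) (B (lo111_7_4 (nat_lit 332)) (M (nat_lit 234) (B (lo111_10_7 (nat_lit 202)) (lo111_11_7 (nat_lit 266)))))) (M (nat_lit 235) (B (M (nat_lit 234) (B (lo111_10_7 (nat_lit 202)) (lo111_11_7 (nat_lit 266)))) (M (nat_lit 236) (B (lo111_10_6 (nat_lit 204)) (lo111_11_6 (nat_lit 268)))))))))) (B (M (nat_lit 268) (B (M (nat_lit 267) (B (M (nat_lit 269) (B (M (nat_lit 398) (B (M (nat_lit 301) (B (lo113_8_4 (nat_lit 333)) (lo114_12_7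 (nat_lit 302)))) (lo111_11_0 (nat_lit 399)))) (M (nat_lit 235) (B (M (nat_lit 270) (B (lo114_8_1 (nat_lit 298)) (lo114_8_3 (nat_lit 234)))) (lo111_7_4 (nat_lit 332)))))) (lo111_11_6 (nat_lit 236)))) (M (nat_lit 395) (B (lo114_11_1 (nat_lit 394)) (lo111_12_6 (nat_lit 300)))))) (B (M (nat_lit 267) (B (M (nat_lit 235) (B (lo111_7_4 (nat_lit 332)) (M (nat_lit 236) (B (lo111_10_6 (nat_lit 204)) (lo111_11_6 (nat_lit 268)))))) (B (M (nat_lit 268) (B (lo111_11_6 (nat_lit 236)) (M (nat_lit 300) (B (lo111_12_6 (nat_lit 395)) (M (nat_lit 266) (B (lo111_11_7 (nat_lit 234)) (M (nat_lit 265) (B (lo18_8_0 (nat_lit 264)) (lo19_8_0 (nat_lit 301)))))))))) (M (nat_lit 235) (B (lo111_7_4 (nat_lit 332)) (M (nat_lit 234) (B (lo111_10_7 (nat_lit 202)) (lo111_11_7 (nat_lit 266))))))))) (B (M (nat_lit 267) (B (M (nat_lit 235) (B (lo111_7_4 (nat_lit 332)) (M (nat_lit 234) (B (lo111_11_7 (nat_lit 266))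 (lo111_10_7 (nat_lit 202)))))) (B (M (nat_lit 235) (B (lo111_7_4 (nat_lit 332)) (M (nat_lit 236) (B (lo111_11_6 (nat_lit 268)) (lo111_10_6 (nat_lit 204)))))) (M (nat_lit 266) (B (lo111_11_7 (nat_lit 234)) (M (nat_lit 298) (B (lo111_12_7 (nat_lit 395)) (M (nat_lit 268) (B (lo111_11_6 (nat_lit 236)) (M (nat_lit 269) (B (lo113_8_1 (nat_lit 297)) (lo114_8_1 (nat_lit 270))))))))))))) (B (M (nat_lit 298) (B (M (nat_lit 333) (B (M (nat_lit 301) (B (M (nat_lit 398) (B (lo111_11_0 (nat_lit 399)) (lo113_8_4 (nat_lit 269)))) (lo110_9_0 (nat_lit 300)))) (lo114_10_3 (nat_lit 332)))) (M (nat_lit 395) (B (lo114_11_1 (nat_lit 394)) (lo111_12_7 (nat_lit 266)))))) (M (nat_lit 395) (B (M (nat_lit 394) (B (lo111_9_5 (nat_lit 426)) (lo114_11_1 (nat_lit 366)))) (M (nat_lit 267) (B (M (nat_lit 266) (B (lo111_11_7 (nat_lit 234)) (lo111_12_7 (nat_lit 298)))) (M (nat_lit 268) (B (lo111_11_6 (nat_lit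 236)) (lo111_12_6 (nat_lit 300)))))))))))))) (lo111_11_2 (nat_lit 335)))) (lo114_11_3 (nat_lit 330)))) (B (M (nat_lit 367) (B (M (nat_lit 335) (B (lo112_11_2 (nat_lit 336)) (lo111_11_2 (nat_lit 334)))) (M (nat_lit 399) (B (lo111_11_0 (nat_lit 398)) (lo112_11_0 (nat_lit 400)))))) (B (M (nat_lit 367) (B (M (nat_lit 399) (B (lo112_11_0 (nat_lit 400)) (lo111_11_0 (nat_lit 398)))) (M (nat_lit 331) (B (lo115_11_3 (nat_lit 332)) (lo114_11_3 (nat_lit 330)))))) (M (nat_lit 367) (B (M (nat_lit 331) (B (lo114_11_3 (nat_lit 330)) (lo115_11_3 (nat_lit 332)))) (M (nat_lit 335) (B (lo111_11_2 (nat_lit 334)) (lo112_11_2 (nat_lit 336)))))))))) (B (M (nat_lit 362) (B (M (nat_lit 329) (B (lo113_11_3 (nat_lit 330)) (M (nat_lit 361) (B (lo112_11_3 (nat_lit 328)) (M (nat_lit 393) (B (lo112_11_1 (nat_lit 392)) (lo113_11_1 (nat_lit 394)))))))) (B (M (nat_lit 361) (B (M (nat_lit 329) (B (lo112_11_3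 (nat_lit 328)) (lo113_11_3 (nat_lit 330)))) (M (nat_lit 333) (B (lo19_11_2 (nat_lit 332)) (lo110_11_2 (nat_lit 334)))))) (B (M (nat_lit 330) (B (lo113_11_3 (nat_lit 329)) (M (nat_lit 298) (B (M (nat_lit 266) (B (lo110_8_4 (nat_lit 395)) (M (nat_lit 234) (B (lo110_7_4 (nat_lit 331)) (M (nat_lit 233) (B (lo110_11_7 (nat_lit 265)) (lo110_10_7 (nat_lit 201)))))))) (B (M (nat_lit 266) (B (M (nat_lit 394) (B (lo113_11_1 (nat_lit 393)) (M (nat_lit 265) (B (lo110_12_7 (nat_lit 297)) (lo110_11_7 (nat_lit 233)))))) (B (M (nat_lit 234) (B (lo110_7_4 (nat_lit 331)) (M (nat_lit 233) (B (lo110_11_7 (nat_lit 265)) (lo110_10_7 (nat_lit 201)))))) (M (nat_lit 394) (B (lo113_11_1 (nat_lit 393)) (M (nat_lit 267) (B (lo110_12_6 (nat_lit 299)) (lo110_11_6 (nat_lit 235))))))))) (B (M (nat_lit 266) (B (lo110_8_4 (nat_lit 395)) (M (nat_lit 394) (B (lo113_11_1 (nat_lit 393)) (M (nat_lit 267) (B (lo110_12_6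 (nat_lit 299)) (lo110_11_6 (nat_lit 235)))))))) (M (nat_lit 394) (B (lo113_11_1 (nat_lit 393)) (M (nat_lit 331) (B (M (nat_lit 299) (B (lo110_13_6 (nat_lit 426)) (lo111_8_5 (nat_lit 267)))) (M (nat_lit 333) (B (lo110_11_2 (nat_lit 334)) (M (nat_lit 297) (B (lo110_12_7 (nat_lit 265)) (lo113_10_3 (nat_lit 332)))))))))))))))) (M (nat_lit 361) (B (M (nat_lit 393) (B (lo112_11_1 (nat_lit 392)) (lo113_11_1 (nat_lit 394)))) (M (nat_lit 333) (B (lo19_11_2 (nat_lit 332)) (lo110_11_2 (nat_lit 334)))))))))) (B (M (nat_lit 362) (B (M (nat_lit 361) (B (M (nat_lit 393) (B (lo112_11_1 (nat_lit 392)) (lo113_11_1 (nat_lit 394)))) (M (nat_lit 329) (B (lo112_11_3 (nat_lit 328)) (lo113_11_3 (nat_lit 330)))))) (B (M (nat_lit 330) (B (lo113_11_3 (nat_lit 329)) (M (nat_lit 331) (B (lo114_11_3 (nat_lit 366)) (M (nat_lit 394) (B (lo113_11_1 (nat_lit 393)) (M (nat_lit 426) (B (lo110_14_6 (nat_lit 458))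 (lo110_13_6 (nat_lit 299)))))))))) (B (M (nat_lit 361) (B (M (nat_lit 329) (B (lo112_11_3 (nat_lit 328)) (lo113_11_3 (nat_lit 330)))) (B (M (nat_lit 331) (B (M (nat_lit 332) (B (lo18_11_2 (nat_lit 360)) (lo19_11_2 (nat_lit 333)))) (M (nat_lit 330) (B (lo113_11_3 (nat_lit 329)) (lo114_11_3 (nat_lit 366)))))) (M (nat_lit 360) (B (M (nat_lit 332) (B (lo18_11_2 (nat_lit 331)) (lo19_11_2 (nat_lit 333)))) (M (nat_lit 359) (B (M (nat_lit 391) (B (lo110_11_1 (nat_lit 390)) (lo111_11_1 (nat_lit 392)))) (M (nat_lit 327) (B (lo110_11_3 (nat_lit 326)) (lo111_11_3 (nat_lit 328))))))))))) (B (M (nat_lit 361) (B (M (nat_lit 393) (B (lo112_11_1 (nat_lit 392)) (lo113_11_1 (nat_lit 394)))) (M (nat_lit 332) (B (lo19_11_2 (nat_lit 333)) (M (nat_lit 331) (B (lo18_11_2 (nat_lit 360)) (M (nat_lit 366) (B (lo114_11_3 (nat_lit 330)) (lo115_11_3 (nat_lit 367)))))))))) (M (nat_lit 361) (B (M (nat_lit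 393) (B (lo112_11_1 (nat_lit 392)) (lo113_11_1 (nat_lit 394)))) (M (nat_lit 360) (B (M (nat_lit 328) (B (lo111_11_3 (nat_lit 327)) (lo112_11_3 (nat_lit 329)))) (M (nat_lit 332) (B (lo18_11_2 (nat_lit 331)) (lo19_11_2 (nat_lit 333))))))))))))) (B (K _ _ _ o1_s36143) (B (K _ _ _ o1_s36149) (B (K _ _ _ o1_s36160) (K _ _ _ o1_s36161)))))))) (B (M (nat_lit 397) (B (M (nat_lit 363) (B (M (nat_lit 398) (B (lo110_11_0 (nat_lit 362)) (M (nat_lit 399) (B (lo111_11_0 (nat_lit 366)) (lo116_12_3 (nat_lit 400)))))) (B (K _ _ _ o1_s30291) (B (K _ _ _ o1_s30299) (M (nat_lit 394) (B (M (nat_lit 393) (B (lo113_11_1 (nat_lit 362)) (M (nat_lit 395) (B (lo18_12_2 (nat_lit 392)) (lo114_11_1 (nat_lit 366)))))) (B (M (nat_lit 330) (B (M (nat_lit 362) (B (lo113_11_3 (nat_lit 329)) (lo113_11_1 (nat_lit 393)))) (M (nat_lit 366) (B (lo114_11_3 (nat_lit 331)) (lo114_11_1 (nat_lit 395)))))) (B (M (nat_lit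 366) (B (lo114_11_1 (nat_lit 395)) (M (nat_lit 367) (B (M (nat_lit 331) (B (lo114_11_3 (nat_lit 330)) (lo115_11_3 (nat_lit 332)))) (M (nat_lit 335) (B (lo111_11_2 (nat_lit 334)) (lo112_11_2 (nat_lit 336)))))))) (B (M (nat_lit 362) (B (lo113_11_1 (nat_lit 393)) (M (nat_lit 330) (B (lo113_11_3 (nat_lit 329)) (M (nat_lit 331) (B (lo114_11_3 (nat_lit 366)) (M (nat_lit 299) (B (lo110_13_6 (nat_lit 426)) (lo111_8_5 (nat_lit 267)))))))))) (M (nat_lit 362) (B (lo113_11_1 (nat_lit 393)) (M (nat_lit 331) (B (M (nat_lit 330) (B (lo113_11_3 (nat_lit 329)) (M (nat_lit 426) (B (lo110_13_6 (nat_lit 299)) (lo110_14_6 (nat_lit 458)))))) (B (M (nat_lit 426) (B (lo110_14_6 (nat_lit 458)) (M (nat_lit 299) (B (lo110_13_6 (nat_lit 330)) (lo111_8_5 (nat_lit 267)))))) (B (M (nat_lit 426) (B (lo110_14_6 (nat_lit 458)) (M (nat_lit 299) (B (lo111_8_5 (nat_lit 267)) (lo111_9_5 (nat_lit 395)))))) (M (nat_lit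 361) (B (M (nat_lit 329) (B (lo112_11_3 (nat_lit 328)) (lo113_11_3 (nat_lit 330)))) (B (M (nat_lit 360) (B (lo18_11_2 (nat_lit 332)) (M (nat_lit 359) (B (lo17_11_2 (nat_lit 330)) (lo17_11_0 (nat_lit 395)))))) (M (nat_lit 360) (B (lo18_11_2 (nat_lit 332)) (M (nat_lit 328) (B (lo111_11_3 (nat_lit 327)) (lo112_11_3 (nat_lit 329)))))))))))))))))))))))) (B (M (nat_lit 366) (B (M (nat_lit 334) (B (lo113_14_6 (nat_lit 461)) (M (nat_lit 302) (B (lo114_8_5 (nat_lit 270)) (lo114_9_5 (nat_lit 398)))))) (B (M (nat_lit 363) (B (M (nat_lit 334) (B (lo111_11_2 (nat_lit 335)) (lo113_14_6 (nat_lit 461)))) (M (nat_lit 398) (B (lo110_11_0 (nat_lit 362)) (lo111_11_0 (nat_lit 399)))))) (B (M (nat_lit 367) (B (M (nat_lit 400) (B (lo112_11_0 (nat_lit 399)) (M (nat_lit 368) (B (lo113_11_0 (nat_lit 401)) (M (nat_lit 336) (B (lo112_11_2 (nat_lit 335)) (lo113_11_2 (nat_lit 337)))))))) (B (K _ _ _ o1_s34708)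 (B (K _ _ _ o1_s34712) (M (nat_lit 336) (B (lo112_11_2 (nat_lit 335)) (M (nat_lit 398) (B (M (nat_lit 363) (B (lo110_11_0 (nat_lit 362)) (lo111_11_0 (nat_lit 399)))) (M (nat_lit 368) (B (lo113_11_2 (nat_lit 337)) (lo117_11_1 (nat_lit 369)))))))))))) (M (nat_lit 334) (B (lo113_14_6 (nat_lit 461)) (M (nat_lit 335) (B (lo111_11_2 (nat_lit 363)) (M (nat_lit 336) (B (lo117_10_1 (nat_lit 337)) (lo112_11_2 (nat_lit 367)))))))))))) (K _ _ _ o1_s36237)))) (B (M (nat_lit 397) (B (M (nat_lit 333) (B (M (nat_lit 363) (B (M (nat_lit 366) (B (M (nat_lit 367) (B (M (nat_lit 335) (B (lo111_11_2 (nat_lit 334)) (lo112_11_2 (nat_lit 336)))) (B (M (nat_lit 368) (B (M (nat_lit 336) (B (lo112_11_2 (nat_lit 335)) (lo113_11_2 (nat_lit 337)))) (M (nat_lit 400) (B (lo112_11_0 (nat_lit 399)) (lo113_11_0 (nat_lit 401)))))) (B (M (nat_lit 368) (B (M (nat_lit 400) (B (lo112_11_0 (nat_lit 399)) (lo113_11_0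 (nat_lit 401)))) (M (nat_lit 337) (B (lo113_11_2 (nat_lit 336)) (M (nat_lit 369) (B (lo117_11_3 (nat_lit 334)) (lo114_11_2 (nat_lit 338)))))))) (M (nat_lit 368) (B (M (nat_lit 334) (B (lo111_11_2 (nat_lit 335)) (lo117_11_3 (nat_lit 369)))) (M (nat_lit 400) (B (lo112_11_0 (nat_lit 399)) (lo113_11_0 (nat_lit 401)))))))))) (B (M (nat_lit 301) (B (M (nat_lit 398) (B (lo111_11_0 (nat_lit 399)) (lo113_8_4 (nat_lit 269)))) (M (nat_lit 300) (B (lo113_13_7 (nat_lit 332)) (lo113_12_7 (nat_lit 268)))))) (M (nat_lit 332) (B (M (nat_lit 331) (B (lo110_10_0 (nat_lit 330)) (lo115_11_3 (nat_lit 367)))) (lo113_13_7 (nat_lit 300))))))) (B (M (nat_lit 366) (B (M (nat_lit 330) (B (lo114_11_3 (nat_lit 331)) (M (nat_lit 362) (B (lo113_11_3 (nat_lit 329)) (M (nat_lit 394) (B (lo113_11_1 (nat_lit 393)) (lo114_11_1 (nat_lit 395)))))))) (B (M (nat_lit 331) (B (lo114_11_3 (nat_lit 330)) (M (nat_lit 367)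 (B (lo115_11_3 (nat_lit 332)) (M (nat_lit 399) (B (lo111_11_0 (nat_lit 398)) (lo112_11_0 (nat_lit 400)))))))) (B (M (nat_lit 367) (B (M (nat_lit 332) (B (lo115_11_3 (nat_lit 331)) (lo116_11_3 (nat_lit 368)))) (M (nat_lit 399) (B (lo111_11_0 (nat_lit 398)) (lo112_11_0 (nat_lit 400)))))) (M (nat_lit 367) (B (M (nat_lit 399) (B (lo111_11_0 (nat_lit 398)) (lo112_11_0 (nat_lit 400)))) (M (nat_lit 362) (B (M (nat_lit 332) (B (lo19_11_2 (nat_lit 361)) (lo116_11_3 (nat_lit 368)))) (M (nat_lit 394) (B (lo113_11_1 (nat_lit 393)) (lo114_11_1 (nat_lit 395)))))))))))) (B (M (nat_lit 334) (B (M (nat_lit 335) (B (lo115_10_1 (nat_lit 332)) (lo111_11_2 (nat_lit 366)))) (B (M (nat_lit 362) (B (lo110_11_2 (nat_lit 365)) (M (nat_lit 332) (B (lo114_10_1 (nat_lit 331)) (lo19_11_2 (nat_lit 361)))))) (B (M (nat_lit 332) (B (lo115_10_1 (nat_lit 335)) (M (nat_lit 362) (B (lo114_10_1 (nat_lit 331)) (lo19_11_2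 (nat_lit 361)))))) (B (lo110_11_2 (nat_lit 362)) (M (nat_lit 335) (B (lo115_10_1 (nat_lit 332)) (lo116_10_1 (nat_lit 336))))))))) (M (nat_lit 362) (B (lo110_11_0 (nat_lit 398)) (lo110_11_2 (nat_lit 334)))))))) (lo113_10_5 (nat_lit 460)))) (B (K _ _ _ o1_s36237) (B (M (nat_lit 461) (B (M (nat_lit 460) (B (lo113_11_5 (nat_lit 492)) (lo113_10_5 (nat_lit 333)))) (M (nat_lit 493) (B (M (nat_lit 494) (B (lo113_12_4 (nat_lit 526)) (lo113_11_4 (nat_lit 462)))) (M (nat_lit 366) (B (lo113_15_6 (nat_lit 398)) (lo113_14_6 (nat_lit 334)))))))) (K _ _ _ o1_s36332))))) (B (K _ _ _ o1_s34735) (K _ _ _ o1_s36360)))))) (B (M (nat_lit 396) (B (K _ _ _ o1_s35685) (B (K _ _ _ o1_s36401) (B (M (nat_lit 332) (B (lo112_10_4 (nat_lit 461)) (M (nat_lit 300) (B (lo112_9_4 (nat_lit 397)) (M (nat_lit 299) (B (lo112_13_7 (nat_lit 331)) (lo112_12_7 (nat_lit 267)))))))) (M (nat_lit 461) (B (M (nat_lit 493)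 (B (lo113_16_7 (nat_lit 525)) (lo112_11_4 (nat_lit 460)))) (lo112_10_4 (nat_lit 332)))))))) (B (M (nat_lit 365) (B (M (nat_lit 397) (B (M (nat_lit 363) (B (M (nat_lit 398) (B (lo110_11_0 (nat_lit 362)) (M (nat_lit 399) (B (lo116_12_3 (nat_lit 400)) (lo115_12_3 (nat_lit 396)))))) (B (M (nat_lit 398) (B (lo110_11_0 (nat_lit 362)) (M (nat_lit 399) (B (lo111_11_0 (nat_lit 366)) (lo115_12_3 (nat_lit 396)))))) (B (M (nat_lit 362) (B (lo110_11_0 (nat_lit 398)) (M (nat_lit 361) (B (lo19_11_0 (nat_lit 396)) (M (nat_lit 393) (B (lo113_11_1 (nat_lit 394)) (lo112_11_1 (nat_lit 392)))))))) (B (M (nat_lit 362) (B (M (nat_lit 361) (B (lo19_11_0 (nat_lit 396)) (M (nat_lit 393) (B (lo113_11_1 (nat_lit 394)) (lo112_11_1 (nat_lit 392)))))) (B (M (nat_lit 361) (B (M (nat_lit 393) (B (lo113_11_1 (nat_lit 394)) (lo112_11_1 (nat_lit 392)))) (M (nat_lit 329) (B (lo113_11_3 (nat_lit 330)) (lo112_11_3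 (nat_lit 328)))))) (B (M (nat_lit 361) (B (lo19_11_0 (nat_lit 396)) (M (nat_lit 329) (B (lo113_11_3 (nat_lit 330)) (lo112_11_3 (nat_lit 328)))))) (M (nat_lit 366) (B (M (nat_lit 394) (B (lo114_11_1 (nat_lit 395)) (lo113_11_1 (nat_lit 393)))) (M (nat_lit 367) (B (M (nat_lit 335) (B (lo112_11_2 (nat_lit 336)) (lo111_11_2 (nat_lit 334)))) (M (nat_lit 400) (B (lo112_11_0 (nat_lit 399)) (M (nat_lit 368) (B (lo113_11_0 (nat_lit 401)) (lo116_11_1 (nat_lit 396)))))))))))))) (B (M (nat_lit 398) (B (lo110_11_0 (nat_lit 362)) (M (nat_lit 399) (B (lo116_12_3 (nat_lit 400)) (lo111_11_0 (nat_lit 366)))))) (M (nat_lit 366) (B (M (nat_lit 367) (B (M (nat_lit 335) (B (lo112_11_2 (nat_lit 336)) (lo111_11_2 (nat_lit 334)))) (M (nat_lit 395) (B (lo115_11_1 (nat_lit 396)) (lo114_11_1 (nat_lit 394)))))) (B (M (nat_lit 367) (B (M (nat_lit 399) (B (lo112_11_0 (nat_lit 400)) (lo111_11_0 (nat_lit 398))))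 (M (nat_lit 395) (B (lo115_11_1 (nat_lit 396)) (lo114_11_1 (nat_lit 394)))))) (M (nat_lit 334) (B (lo111_11_2 (nat_lit 335)) (M (nat_lit 398) (B (lo111_11_0 (nat_lit 399)) (M (nat_lit 302) (B (lo114_9_5 (nat_lit 429)) (lo114_8_5 (nat_lit 270))))))))))))))))) (B (K _ _ _ o1_s36332) (M (nat_lit 461) (B (lo113_14_7 (nat_lit 332)) (M (nat_lit 493) (B (lo113_15_7 (nat_lit 396)) (M (nat_lit 494) (B (lo113_11_4 (nat_lit 462)) (lo113_12_4 (nat_lit 526))))))))))) (B (M (nat_lit 396) (B (M (nat_lit 461) (B (lo112_10_4 (nat_lit 332)) (M (nat_lit 460) (B (lo112_11_4 (nat_lit 493)) (lo112_14_6 (nat_lit 333)))))) (B (M (nat_lit 333) (B (lo112_14_6 (nat_lit 460)) (M (nat_lit 301) (B (lo113_8_5 (nat_lit 269)) (lo112_13_6 (nat_lit 332)))))) (B (M (nat_lit 461) (B (lo112_10_4 (nat_lit 332)) (M (nat_lit 493) (B (lo113_16_7 (nat_lit 525)) (lo112_11_4 (nat_lit 460)))))) (B (M (nat_lit 332) (B (lo112_10_4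 (nat_lit 461)) (M (nat_lit 300) (B (M (nat_lit 301) (B (lo112_13_6 (nat_lit 333)) (lo112_12_6 (nat_lit 269)))) (B (M (nat_lit 268) (B (M (nat_lit 269) (B (lo112_12_6 (nat_lit 301)) (lo112_11_6 (nat_lit 237)))) (M (nat_lit 267) (B (lo112_12_7 (nat_lit 299)) (lo112_11_7 (nat_lit 235)))))) (B (M (nat_lit 268) (B (M (nat_lit 267) (B (lo112_12_7 (nat_lit 299)) (lo112_11_7 (nat_lit 235)))) (M (nat_lit 237) (B (lo112_11_6 (nat_lit 269)) (M (nat_lit 236) (B (lo112_7_4 (nat_lit 333)) (lo112_10_6 (nat_lit 205)))))))) (M (nat_lit 268) (B (M (nat_lit 333) (B (lo112_7_4 (nat_lit 236)) (lo112_13_6 (nat_lit 301)))) (M (nat_lit 267) (B (lo112_12_7 (nat_lit 299)) (lo112_11_7 (nat_lit 235)))))))))))) (K _ _ _ o1_s36480)))))) (B (K _ _ _ o1_s28901) (B (K _ _ _ o1_s36492) (K _ _ _ o1_s28962)))))) (B (M (nat_lit 396) (B (K _ _ _ o1_s36401) (B (K _ _ _ o1_s35908) (B (M (nat_lit 332) (B (lo112_10_4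 (nat_lit 461)) (M (nat_lit 300) (B (lo112_9_4 (nat_lit 397)) (M (nat_lit 301) (B (lo112_12_6 (nat_lit 269)) (lo112_13_6 (nat_lit 333)))))))) (M (nat_lit 461) (B (M (nat_lit 493) (B (lo113_16_7 (nat_lit 525)) (lo112_11_4 (nat_lit 460)))) (lo112_10_4 (nat_lit 332)))))))) (B (M (nat_lit 396) (B (K _ _ _ o1_s36534) (B (K _ _ _ o1_s35953) (B (M (nat_lit 332) (B (lo112_10_4 (nat_lit 461)) (M (nat_lit 299) (B (lo112_13_7 (nat_lit 331)) (M (nat_lit 301) (B (lo112_13_6 (nat_lit 333)) (M (nat_lit 300) (B (lo112_12_7 (nat_lit 267)) (lo112_12_6 (nat_lit 269)))))))))) (M (nat_lit 461) (B (M (nat_lit 493) (B (lo113_16_7 (nat_lit 525)) (lo112_11_4 (nat_lit 460)))) (lo112_10_4 (nat_lit 332)))))))) (B (M (nat_lit 365) (B (K _ _ _ o1_s36563) (B (K _ _ _ o1_s28901) (B (K _ _ _ o1_s28962) (B (K _ _ _ o1_s36572) (B (K _ _ _ o1_s36492) (K _ _ _ o1_s36579))))))) (M (nat_lit 396) (B (K _ _ _ o1_s35861)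 (B (M (nat_lit 332) (B (lo112_10_4 (nat_lit 461)) (M (nat_lit 300) (B (lo112_9_4 (nat_lit 397)) (M (nat_lit 301) (B (lo112_12_6 (nat_lit 269)) (lo112_13_6 (nat_lit 333)))))))) (M (nat_lit 461) (B (M (nat_lit 493) (B (lo113_16_7 (nat_lit 525)) (lo112_11_4 (nat_lit 460)))) (lo112_10_4 (nat_lit 332))))))))))))))))) _ _ _ (by decide +kernel)
theorem o1_s44788 : Sem (nat_lit 2079502270590611144683810638107312777577327806531862431377859685460965980854219217279980804578104683573043408221052678871730618368) (nat_lit 2026130649693226623865236682704321549590480093941780871798885231711308439388967483222553029093703740350769052012113958843067749795982197134691969890572149120948911590960980295680) (nat_lit 2026130649693226623865236682704321549590480093941780871798885231711308439388967483222553029093703740350769052012113958843067749795982197134691969890572149120948911590960980295680) :=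 sem_of_chk (M (nat_lit 365) (B (M (nat_lit 397) (B (M (nat_lit 460) (B (lo113_10_5 (nat_lit 333)) (M (nat_lit 492) (B (lo113_11_5 (nat_lit 461)) (lo112_15_6 (nat_lit 396)))))) (B (M (nat_lit 460) (B (M (nat_lit 492) (B (lo113_11_5 (nat_lit 461)) (lo112_15_6 (nat_lit 396)))) (B (M (nat_lit 492) (B (lo112_15_6 (nat_lit 396)) (lo112_16_6 (nat_lit 524)))) (B (M (nat_lit 492) (B (lo113_11_5 (nat_lit 461)) (lo112_16_6 (nat_lit 524)))) (M (nat_lit 461) (B (M (nat_lit 462) (B (lo113_11_4 (nat_lit 494)) (M (nat_lit 463) (B (lo116_14_3 (nat_lit 464)) (lo115_14_3 (nat_lit 427)))))) (M (nat_lit 493) (B (M (nat_lit 366) (B (lo113_14_6 (nat_lit 334)) (lo113_15_6 (nat_lit 398)))) (M (nat_lit 364) (B (lo113_14_7 (nat_lit 332)) (lo113_15_7 (nat_lit 396)))))))))))) (B (M (nat_lit 460) (B (lo113_10_5 (nat_lit 333)) (M (nat_lit 492) (B (lo112_15_6 (nat_lit 396)) (lo112_16_6 (nat_lit 524))))))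 (B (M (nat_lit 460) (B (lo113_10_5 (nat_lit 333)) (M (nat_lit 492) (B (lo113_11_5 (nat_lit 461)) (lo112_16_6 (nat_lit 524)))))) (K _ _ _ o1_s43580)))))) (B (M (nat_lit 364) (B (K _ _ _ o1_s43584) (B (M (nat_lit 331) (B (M (nat_lit 396) (B (M (nat_lit 332) (B (lo112_10_4 (nat_lit 461)) (lo112_13_7 (nat_lit 299)))) (M (nat_lit 460) (B (lo112_14_6 (nat_lit 333)) (lo112_14_7 (nat_lit 363)))))) (B (M (nat_lit 396) (B (M (nat_lit 332) (B (lo112_10_4 (nat_lit 461)) (lo112_13_7 (nat_lit 299)))) (B (M (nat_lit 363) (B (lo112_14_7 (nat_lit 460)) (M (nat_lit 299) (B (lo112_13_7 (nat_lit 332)) (lo111_8_4 (nat_lit 267)))))) (B (M (nat_lit 363) (B (lo112_14_7 (nat_lit 460)) (M (nat_lit 299) (B (lo111_8_4 (nat_lit 267)) (lo111_9_4 (nat_lit 395)))))) (M (nat_lit 366) (B (M (nat_lit 332) (B (lo115_11_3 (nat_lit 367)) (lo112_10_4 (nat_lit 461)))) (M (nat_lit 363) (B (lo114_11_3 (nat_lit 330))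 (lo112_14_7 (nat_lit 460)))))))))) (B (M (nat_lit 363) (B (M (nat_lit 330) (B (lo114_11_3 (nat_lit 366)) (M (nat_lit 329) (B (lo19_10_0 (nat_lit 332)) (lo113_11_3 (nat_lit 362)))))) (B (M (nat_lit 396) (B (lo112_14_7 (nat_lit 460)) (M (nat_lit 299) (B (lo112_13_7 (nat_lit 332)) (lo111_9_4 (nat_lit 395)))))) (M (nat_lit 330) (B (lo114_11_3 (nat_lit 366)) (M (nat_lit 329) (B (lo113_11_3 (nat_lit 362)) (lo18_10_0 (nat_lit 328))))))))) (B (M (nat_lit 363) (B (M (nat_lit 330) (B (lo114_11_3 (nat_lit 366)) (M (nat_lit 329) (B (lo113_11_3 (nat_lit 362)) (lo18_10_0 (nat_lit 328)))))) (M (nat_lit 396) (B (lo112_14_7 (nat_lit 460)) (M (nat_lit 299) (B (lo111_8_4 (nat_lit 267)) (lo111_9_4 (nat_lit 395)))))))) (B (M (nat_lit 330) (B (M (nat_lit 366) (B (lo114_11_3 (nat_lit 363)) (M (nat_lit 332) (B (lo110_10_0 (nat_lit 333)) (lo19_10_0 (nat_lit 329)))))) (B (M (nat_lit 329) (B (lo19_10_0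 (nat_lit 332)) (M (nat_lit 363) (B (lo113_11_3 (nat_lit 362)) (lo18_10_0 (nat_lit 328)))))) (B (M (nat_lit 363) (B (lo114_11_3 (nat_lit 366)) (M (nat_lit 329) (B (lo113_11_3 (nat_lit 362)) (lo18_10_0 (nat_lit 328)))))) (B (M (nat_lit 332) (B (lo19_10_0 (nat_lit 329)) (M (nat_lit 366) (B (lo115_11_3 (nat_lit 367)) (lo110_10_0 (nat_lit 333)))))) (M (nat_lit 366) (B (lo114_11_3 (nat_lit 363)) (M (nat_lit 332) (B (lo115_11_3 (nat_lit 367)) (lo110_10_0 (nat_lit 333))))))))))) (M (nat_lit 332) (B (M (nat_lit 396) (B (lo112_10_4 (nat_lit 461)) (lo112_13_7 (nat_lit 299)))) (M (nat_lit 366) (B (lo115_11_3 (nat_lit 367)) (M (nat_lit 330) (B (lo110_10_0 (nat_lit 333)) (lo19_10_0 (nat_lit 329)))))))))))))) (B (K _ _ _ o1_s43644) (B (K _ _ _ o1_s43683) (B (M (nat_lit 396) (B (K _ _ _ o1_s43583) (B (M (nat_lit 363) (B (M (nat_lit 460) (B (lo112_14_7 (nat_lit 331)) (M (nat_lit 492) (B (lo112_15_7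 (nat_lit 395)) (M (nat_lit 493) (B (lo112_11_4 (nat_lit 461)) (lo112_12_4 (nat_lit 525)))))))) (B (M (nat_lit 395) (B (M (nat_lit 366) (B (lo115_11_1 (nat_lit 367)) (lo114_11_1 (nat_lit 394)))) (M (nat_lit 331) (B (lo112_14_7 (nat_lit 460)) (lo111_9_4 (nat_lit 299)))))) (B (K _ _ _ o1_s43635) (B (M (nat_lit 460) (B (M (nat_lit 492) (B (lo112_15_7 (nat_lit 395)) (M (nat_lit 493) (B (lo112_11_4 (nat_lit 461)) (lo112_12_4 (nat_lit 525)))))) (B (M (nat_lit 395) (B (lo112_15_7 (nat_lit 492)) (M (nat_lit 366) (B (lo115_11_1 (nat_lit 367)) (lo114_11_1 (nat_lit 394)))))) (B (M (nat_lit 394) (B (M (nat_lit 395) (B (lo114_11_1 (nat_lit 366)) (lo19_12_2 (nat_lit 393)))) (B (M (nat_lit 393) (B (lo19_12_2 (nat_lit 395)) (lo113_11_1 (nat_lit 362)))) (B (M (nat_lit 362) (B (lo113_11_1 (nat_lit 393)) (M (nat_lit 426) (B (M (nat_lit 461) (B (lo112_11_4 (nat_lit 493)) (M (nat_lit 427) (B (lo110_13_0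 (nat_lit 462)) (lo19_13_0 (nat_lit 425)))))) (M (nat_lit 329) (B (lo113_11_3 (nat_lit 330)) (M (nat_lit 361) (B (lo112_11_3 (nat_lit 328)) (lo110_14_7 (nat_lit 458)))))))))) (M (nat_lit 366) (B (lo114_11_1 (nat_lit 395)) (M (nat_lit 367) (B (M (nat_lit 335) (B (lo112_11_2 (nat_lit 336)) (lo111_11_2 (nat_lit 334)))) (M (nat_lit 399) (B (lo112_11_0 (nat_lit 400)) (lo111_11_0 (nat_lit 398)))))))))))) (M (nat_lit 492) (B (M (nat_lit 493) (B (lo112_11_4 (nat_lit 461)) (lo112_12_4 (nat_lit 525)))) (B (M (nat_lit 524) (B (M (nat_lit 525) (B (lo112_12_4 (nat_lit 493)) (lo112_13_4 (nat_lit 557)))) (M (nat_lit 523) (B (lo112_12_5 (nat_lit 491)) (lo112_13_5 (nat_lit 555)))))) (B (M (nat_lit 524) (B (M (nat_lit 523) (B (lo112_12_5 (nat_lit 491)) (lo112_13_5 (nat_lit 555)))) (M (nat_lit 557) (B (lo112_13_4 (nat_lit 525)) (M (nat_lit 556) (B (lo112_17_6 (nat_lit 461)) (lo112_14_4 (nat_lit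 589)))))))) (M (nat_lit 524) (B (M (nat_lit 461) (B (lo112_17_6 (nat_lit 556)) (lo112_11_4 (nat_lit 493)))) (M (nat_lit 523) (B (lo112_12_5 (nat_lit 491)) (lo112_13_5 (nat_lit 555)))))))))))))) (M (nat_lit 331) (B (lo112_14_7 (nat_lit 460)) (M (nat_lit 330) (B (lo114_11_3 (nat_lit 366)) (M (nat_lit 329) (B (lo113_11_3 (nat_lit 362)) (lo18_10_0 (nat_lit 328))))))))))))) (B (K _ _ _ o1_s43742) (B (K _ _ _ o1_s34600) (B (K _ _ _ o1_s43748) (K _ _ _ o1_s36560))))))) (B (M (nat_lit 363) (B (M (nat_lit 366) (B (M (nat_lit 367) (B (M (nat_lit 399) (B (lo112_11_0 (nat_lit 400)) (lo111_11_0 (nat_lit 398)))) (M (nat_lit 331) (B (lo115_11_3 (nat_lit 332)) (lo114_11_3 (nat_lit 330)))))) (M (nat_lit 362) (B (M (nat_lit 334) (B (lo111_11_2 (nat_lit 335)) (lo110_11_2 (nat_lit 333)))) (M (nat_lit 394) (B (lo114_11_1 (nat_lit 395)) (lo113_11_1 (nat_lit 393)))))))) (B (M (nat_lit 366) (B (M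 (nat_lit 362) (B (M (nat_lit 330) (B (lo114_11_3 (nat_lit 331)) (lo113_11_3 (nat_lit 329)))) (M (nat_lit 394) (B (lo114_11_1 (nat_lit 395)) (lo113_11_1 (nat_lit 393)))))) (B (M (nat_lit 362) (B (M (nat_lit 334) (B (lo111_11_2 (nat_lit 335)) (lo110_11_2 (nat_lit 333)))) (M (nat_lit 394) (B (lo114_11_1 (nat_lit 395)) (lo113_11_1 (nat_lit 393)))))) (B (M (nat_lit 362) (B (M (nat_lit 334) (B (lo111_11_2 (nat_lit 335)) (lo110_11_2 (nat_lit 333)))) (M (nat_lit 330) (B (lo114_11_3 (nat_lit 331)) (lo113_11_3 (nat_lit 329)))))) (M (nat_lit 367) (B (M (nat_lit 335) (B (lo112_11_2 (nat_lit 336)) (lo111_11_2 (nat_lit 334)))) (M (nat_lit 331) (B (lo115_11_3 (nat_lit 332)) (lo114_11_3 (nat_lit 330)))))))))) (B (M (nat_lit 362) (B (M (nat_lit 361) (B (M (nat_lit 333) (B (lo110_11_2 (nat_lit 334)) (lo19_11_2 (nat_lit 332)))) (M (nat_lit 329) (B (lo113_11_3 (nat_lit 330)) (lo112_11_3 (nat_lit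 328)))))) (B (M (nat_lit 361) (B (M (nat_lit 329) (B (lo113_11_3 (nat_lit 330)) (lo112_11_3 (nat_lit 328)))) (M (nat_lit 393) (B (lo113_11_1 (nat_lit 394)) (lo112_11_1 (nat_lit 392)))))) (B (M (nat_lit 361) (B (M (nat_lit 333) (B (lo110_11_2 (nat_lit 334)) (lo19_11_2 (nat_lit 332)))) (M (nat_lit 393) (B (lo113_11_1 (nat_lit 394)) (lo112_11_1 (nat_lit 392)))))) (M (nat_lit 366) (B (M (nat_lit 330) (B (lo114_11_3 (nat_lit 331)) (lo113_11_3 (nat_lit 329)))) (M (nat_lit 394) (B (lo114_11_1 (nat_lit 395)) (lo113_11_1 (nat_lit 393)))))))))) (B (M (nat_lit 331) (B (M (nat_lit 330) (B (lo114_11_3 (nat_lit 366)) (M (nat_lit 329) (B (lo19_10_0 (nat_lit 332)) (lo113_11_3 (nat_lit 362)))))) (B (M (nat_lit 362) (B (M (nat_lit 394) (B (lo113_11_1 (nat_lit 393)) (M (nat_lit 299) (B (lo111_8_5 (nat_lit 267)) (M (nat_lit 426) (B (lo111_9_5 (nat_lit 395)) (lo110_14_6 (nat_lit 458)))))))) (M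 (nat_lit 361) (B (M (nat_lit 332) (B (lo19_11_2 (nat_lit 333)) (lo18_11_2 (nat_lit 360)))) (M (nat_lit 329) (B (lo113_11_3 (nat_lit 330)) (lo112_11_3 (nat_lit 328)))))))) (B (M (nat_lit 330) (B (lo114_11_3 (nat_lit 366)) (M (nat_lit 329) (B (lo113_11_3 (nat_lit 362)) (lo18_10_0 (nat_lit 328)))))) (B (M (nat_lit 427) (B (M (nat_lit 395) (B (lo111_10_4 (nat_lit 460)) (M (nat_lit 332) (B (lo111_13_6 (nat_lit 300)) (M (nat_lit 366) (B (lo115_11_3 (nat_lit 367)) (lo114_11_1 (nat_lit 394)))))))) (B (M (nat_lit 394) (B (M (nat_lit 395) (B (lo114_11_1 (nat_lit 366)) (lo111_10_4 (nat_lit 460)))) (M (nat_lit 393) (B (lo113_11_1 (nat_lit 362)) (lo113_13_3 (nat_lit 426)))))) (B (M (nat_lit 395) (B (lo111_10_4 (nat_lit 460)) (M (nat_lit 426) (B (lo111_10_5 (nat_lit 458)) (M (nat_lit 394) (B (lo113_13_3 (nat_lit 393)) (lo111_9_5 (nat_lit 299)))))))) (B (M (nat_lit 426) (B (M (nat_lit 458)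 (B (lo113_13_1 (nat_lit 457)) (lo111_10_5 (nat_lit 395)))) (B (M (nat_lit 394) (B (lo113_13_3 (nat_lit 393)) (M (nat_lit 458) (B (lo113_13_1 (nat_lit 457)) (lo110_14_6 (nat_lit 362)))))) (M (nat_lit 394) (B (lo113_13_3 (nat_lit 393)) (M (nat_lit 395) (B (lo114_11_1 (nat_lit 366)) (lo111_9_5 (nat_lit 299))))))))) (B (M (nat_lit 426) (B (M (nat_lit 394) (B (lo113_13_3 (nat_lit 393)) (M (nat_lit 458) (B (lo113_13_1 (nat_lit 457)) (lo110_14_6 (nat_lit 362)))))) (B (M (nat_lit 425) (B (M (nat_lit 461) (B (lo110_13_0 (nat_lit 462)) (lo19_13_0 (nat_lit 460)))) (M (nat_lit 457) (B (lo113_13_1 (nat_lit 458)) (lo112_13_1 (nat_lit 456)))))) (M (nat_lit 425) (B (M (nat_lit 461) (B (lo110_13_0 (nat_lit 462)) (lo19_13_0 (nat_lit 460)))) (M (nat_lit 393) (B (lo113_13_3 (nat_lit 394)) (lo112_13_3 (nat_lit 392))))))))) (M (nat_lit 426) (B (M (nat_lit 395) (B (lo111_10_4 (nat_lit 460)) (lo111_10_5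 (nat_lit 458)))) (B (M (nat_lit 458) (B (lo113_13_1 (nat_lit 457)) (lo111_10_5 (nat_lit 395)))) (B (M (nat_lit 425) (B (M (nat_lit 461) (B (lo110_13_0 (nat_lit 462)) (lo19_13_0 (nat_lit 460)))) (M (nat_lit 457) (B (lo113_13_1 (nat_lit 458)) (lo112_13_1 (nat_lit 456)))))) (M (nat_lit 461) (B (lo110_13_0 (nat_lit 462)) (M (nat_lit 460) (B (lo19_13_0 (nat_lit 425)) (lo111_10_4 (nat_lit 395)))))))))))))))) (M (nat_lit 330) (B (lo114_11_3 (nat_lit 366)) (M (nat_lit 329) (B (lo19_10_0 (nat_lit 332)) (lo18_10_0 (nat_lit 328))))))))))) (B (M (nat_lit 362) (B (M (nat_lit 361) (B (M (nat_lit 333) (B (lo110_11_2 (nat_lit 334)) (lo19_11_2 (nat_lit 332)))) (M (nat_lit 329) (B (lo113_11_3 (nat_lit 330)) (lo112_11_3 (nat_lit 328)))))) (B (M (nat_lit 361) (B (M (nat_lit 329) (B (lo113_11_3 (nat_lit 330)) (lo112_11_3 (nat_lit 328)))) (M (nat_lit 393) (B (lo113_11_1 (nat_lit 394)) (lo112_11_1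 (nat_lit 392)))))) (B (M (nat_lit 361) (B (M (nat_lit 333) (B (lo110_11_2 (nat_lit 334)) (lo19_11_2 (nat_lit 332)))) (M (nat_lit 393) (B (lo113_11_1 (nat_lit 394)) (lo112_11_1 (nat_lit 392)))))) (M (nat_lit 394) (B (lo113_11_1 (nat_lit 393)) (M (nat_lit 330) (B (lo113_11_3 (nat_lit 329)) (M (nat_lit 426) (B (M (nat_lit 331) (B (lo110_13_6 (nat_lit 299)) (lo110_14_6 (nat_lit 458)))) (B (M (nat_lit 458) (B (lo110_14_6 (nat_lit 331)) (M (nat_lit 457) (B (lo113_13_1 (nat_lit 427)) (lo110_10_5 (nat_lit 425)))))) (B (M (nat_lit 457) (B (lo110_10_5 (nat_lit 425)) (M (nat_lit 458) (B (lo113_13_1 (nat_lit 427)) (lo110_11_5 (nat_lit 489)))))) (M (nat_lit 298) (B (M (nat_lit 299) (B (lo110_12_6 (nat_lit 267)) (lo110_13_6 (nat_lit 331)))) (M (nat_lit 395) (B (lo110_8_4 (nat_lit 266)) (lo110_9_4 (nat_lit 427)))))))))))))))))) (B (K _ _ _ o1_s43834) (B (M (nat_lit 362) (B (M (nat_lit 361)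 (B (M (nat_lit 329) (B (lo113_11_3 (nat_lit 330)) (lo112_11_3 (nat_lit 328)))) (M (nat_lit 393) (B (lo113_11_1 (nat_lit 394)) (lo112_11_1 (nat_lit 392)))))) (B (M (nat_lit 361) (B (M (nat_lit 333) (B (lo110_11_2 (nat_lit 334)) (lo19_11_2 (nat_lit 332)))) (M (nat_lit 393) (B (lo113_11_1 (nat_lit 394)) (lo112_11_1 (nat_lit 392)))))) (B (M (nat_lit 361) (B (M (nat_lit 333) (B (lo110_11_2 (nat_lit 334)) (lo19_11_2 (nat_lit 332)))) (M (nat_lit 329) (B (lo113_11_3 (nat_lit 330)) (lo112_11_3 (nat_lit 328)))))) (M (nat_lit 366) (B (M (nat_lit 334) (B (lo111_11_2 (nat_lit 335)) (lo110_11_2 (nat_lit 333)))) (M (nat_lit 394) (B (lo114_11_1 (nat_lit 395)) (lo113_11_1 (nat_lit 393)))))))))) (B (K _ _ _ o1_s43837) (B (M (nat_lit 366) (B (M (nat_lit 362) (B (M (nat_lit 334) (B (lo111_11_2 (nat_lit 335)) (lo110_11_2 (nat_lit 333)))) (M (nat_lit 394) (B (lo114_11_1 (nat_lit 395)) (lo113_11_1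 (nat_lit 393)))))) (B (M (nat_lit 367) (B (M (nat_lit 399) (B (lo112_11_0 (nat_lit 400)) (lo111_11_0 (nat_lit 398)))) (M (nat_lit 332) (B (lo115_11_3 (nat_lit 331)) (M (nat_lit 362) (B (M (nat_lit 333) (B (lo116_11_3 (nat_lit 368)) (lo19_11_2 (nat_lit 361)))) (M (nat_lit 394) (B (lo114_11_1 (nat_lit 395)) (lo113_11_1 (nat_lit 393)))))))))) (M (nat_lit 367) (B (M (nat_lit 335) (B (lo112_11_2 (nat_lit 336)) (lo111_11_2 (nat_lit 334)))) (M (nat_lit 399) (B (lo112_11_0 (nat_lit 400)) (lo111_11_0 (nat_lit 398))))))))) (B (M (nat_lit 395) (B (M (nat_lit 366) (B (lo114_11_1 (nat_lit 394)) (M (nat_lit 335) (B (lo111_11_2 (nat_lit 334)) (M (nat_lit 367) (B (lo112_11_2 (nat_lit 336)) (M (nat_lit 399) (B (lo112_11_0 (nat_lit 400)) (lo111_11_0 (nat_lit 398)))))))))) (B (M (nat_lit 366) (B (lo114_11_1 (nat_lit 394)) (M (nat_lit 367) (B (M (nat_lit 399) (B (lo112_11_0 (nat_lit 400)) (lo111_11_0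 (nat_lit 398)))) (M (nat_lit 331) (B (lo115_11_3 (nat_lit 332)) (lo114_11_3 (nat_lit 330)))))))) (B (M (nat_lit 366) (B (lo114_11_1 (nat_lit 394)) (M (nat_lit 367) (B (M (nat_lit 335) (B (lo112_11_2 (nat_lit 336)) (lo111_11_2 (nat_lit 334)))) (M (nat_lit 331) (B (lo115_11_3 (nat_lit 332)) (lo114_11_3 (nat_lit 330)))))))) (B (M (nat_lit 331) (B (M (nat_lit 366) (B (lo114_11_3 (nat_lit 330)) (lo114_11_1 (nat_lit 394)))) (B (M (nat_lit 427) (B (lo111_10_4 (nat_lit 460)) (M (nat_lit 426) (B (lo111_10_5 (nat_lit 458)) (M (nat_lit 394) (B (lo113_13_3 (nat_lit 393)) (lo111_9_5 (nat_lit 299)))))))) (M (nat_lit 427) (B (lo111_10_4 (nat_lit 460)) (M (nat_lit 330) (B (lo114_11_3 (nat_lit 366)) (lo111_13_7 (nat_lit 298))))))))) (B (M (nat_lit 427) (B (M (nat_lit 331) (B (lo111_10_4 (nat_lit 460)) (M (nat_lit 426) (B (lo111_10_5 (nat_lit 458)) (M (nat_lit 394) (B (lo113_13_3 (nat_lit 393))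 (lo111_9_5 (nat_lit 299)))))))) (B (M (nat_lit 331) (B (M (nat_lit 332) (B (lo111_13_6 (nat_lit 300)) (M (nat_lit 330) (B (lo19_10_0 (nat_lit 329)) (lo111_13_7 (nat_lit 298)))))) (M (nat_lit 426) (B (lo111_10_5 (nat_lit 458)) (M (nat_lit 394) (B (lo113_13_3 (nat_lit 393)) (lo111_9_5 (nat_lit 299)))))))) (B (M (nat_lit 331) (B (lo111_10_4 (nat_lit 460)) (M (nat_lit 332) (B (lo111_13_6 (nat_lit 300)) (M (nat_lit 330) (B (lo19_10_0 (nat_lit 329)) (lo111_13_7 (nat_lit 298)))))))) (M (nat_lit 426) (B (M (nat_lit 394) (B (lo113_13_3 (nat_lit 393)) (M (nat_lit 458) (B (lo113_13_1 (nat_lit 457)) (lo110_15_6 (nat_lit 490)))))) (B (M (nat_lit 425) (B (M (nat_lit 461) (B (lo110_13_0 (nat_lit 462)) (lo19_13_0 (nat_lit 460)))) (M (nat_lit 457) (B (lo113_13_1 (nat_lit 458)) (lo112_13_1 (nat_lit 456)))))) (M (nat_lit 425) (B (M (nat_lit 461) (B (lo110_13_0 (nat_lit 462)) (lo19_13_0 (nat_lit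 460)))) (M (nat_lit 393) (B (lo113_13_3 (nat_lit 394)) (lo112_13_3 (nat_lit 392))))))))))))) (M (nat_lit 331) (B (M (nat_lit 427) (B (lo111_10_4 (nat_lit 460)) (M (nat_lit 330) (B (lo114_11_3 (nat_lit 366)) (lo111_13_7 (nat_lit 298)))))) (B (M (nat_lit 427) (B (lo111_10_4 (nat_lit 460)) (M (nat_lit 332) (B (lo111_13_6 (nat_lit 300)) (M (nat_lit 330) (B (lo19_10_0 (nat_lit 329)) (lo111_13_7 (nat_lit 298)))))))) (B (M (nat_lit 332) (B (M (nat_lit 366) (B (lo115_11_3 (nat_lit 367)) (lo114_11_3 (nat_lit 330)))) (M (nat_lit 300) (B (lo112_8_5 (nat_lit 268)) (lo111_13_6 (nat_lit 427)))))) (B (M (nat_lit 366) (B (lo114_11_3 (nat_lit 330)) (M (nat_lit 367) (B (lo115_11_3 (nat_lit 332)) (M (nat_lit 399) (B (lo112_11_0 (nat_lit 400)) (lo111_11_0 (nat_lit 398)))))))) (M (nat_lit 299) (B (M (nat_lit 300) (B (lo111_12_6 (nat_lit 268)) (M (nat_lit 427) (B (lo111_13_6 (nat_lit 332)) (lo111_10_4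 (nat_lit 460)))))) (B (M (nat_lit 427) (B (lo111_10_4 (nat_lit 460)) (M (nat_lit 267) (B (M (nat_lit 332) (B (lo111_13_6 (nat_lit 300)) (lo111_7_4 (nat_lit 235)))) (M (nat_lit 266) (B (lo111_11_7 (nat_lit 234)) (lo111_12_7 (nat_lit 298)))))))) (B (M (nat_lit 267) (B (M (nat_lit 266) (B (lo111_11_7 (nat_lit 234)) (lo111_12_7 (nat_lit 298)))) (M (nat_lit 236) (B (lo111_11_6 (nat_lit 268)) (M (nat_lit 235) (B (lo111_10_6 (nat_lit 204)) (lo111_7_4 (nat_lit 332)))))))) (M (nat_lit 267) (B (M (nat_lit 268) (B (lo111_11_6 (nat_lit 236)) (lo111_12_6 (nat_lit 300)))) (M (nat_lit 266) (B (lo111_11_7 (nat_lit 234)) (lo111_12_7 (nat_lit 298))))))))))))))))))))) (M (nat_lit 366) (B (M (nat_lit 367) (B (M (nat_lit 399) (B (lo112_11_0 (nat_lit 400)) (lo111_11_0 (nat_lit 398)))) (M (nat_lit 331) (B (lo115_11_3 (nat_lit 332)) (lo114_11_3 (nat_lit 330)))))) (B (M (nat_lit 367) (B (M (nat_lit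 335) (B (lo112_11_2 (nat_lit 336)) (lo111_11_2 (nat_lit 334)))) (M (nat_lit 331) (B (lo115_11_3 (nat_lit 332)) (lo114_11_3 (nat_lit 330)))))) (B (M (nat_lit 362) (B (M (nat_lit 334) (B (lo111_11_2 (nat_lit 335)) (lo110_11_2 (nat_lit 333)))) (M (nat_lit 330) (B (lo114_11_3 (nat_lit 331)) (lo113_11_3 (nat_lit 329)))))) (M (nat_lit 367) (B (M (nat_lit 335) (B (lo112_11_2 (nat_lit 336)) (lo111_11_2 (nat_lit 334)))) (M (nat_lit 399) (B (lo112_11_0 (nat_lit 400)) (lo111_11_0 (nat_lit 398))))))))))))))))))))) (B (K _ _ _ o1_s43982) (B (M (nat_lit 396) (B (M (nat_lit 333) (B (lo112_14_6 (nat_lit 460)) (M (nat_lit 332) (B (lo112_13_6 (nat_lit 301)) (lo112_10_4 (nat_lit 461)))))) (B (M (nat_lit 461) (B (lo112_10_4 (nat_lit 332)) (M (nat_lit 493) (B (lo113_16_7 (nat_lit 525)) (lo112_11_4 (nat_lit 460)))))) (B (M (nat_lit 333) (B (lo112_14_6 (nat_lit 460)) (M (nat_lit 301) (B (lo113_8_5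 (nat_lit 269)) (lo112_13_6 (nat_lit 332)))))) (B (K _ _ _ o1_s43583) (M (nat_lit 332) (B (lo112_10_4 (nat_lit 461)) (K _ _ _ o1_s43948)))))))) (B (M (nat_lit 396) (B (M (nat_lit 333) (B (lo112_14_6 (nat_lit 460)) (M (nat_lit 332) (B (lo112_13_6 (nat_lit 301)) (lo112_10_4 (nat_lit 461)))))) (B (M (nat_lit 461) (B (lo112_10_4 (nat_lit 332)) (M (nat_lit 493) (B (lo113_16_7 (nat_lit 525)) (lo112_11_4 (nat_lit 460)))))) (B (M (nat_lit 333) (B (lo112_14_6 (nat_lit 460)) (M (nat_lit 301) (B (lo113_8_5 (nat_lit 269)) (lo112_13_6 (nat_lit 332)))))) (B (K _ _ _ o1_s43748) (M (nat_lit 332) (B (lo112_10_4 (nat_lit 461)) (K _ _ _ o1_s43948)))))))) (K _ _ _ o1_s36563))))))))))) (B (K _ _ _ o1_s44017) (B (M (nat_lit 364) (B (K _ _ _ o1_s36572) (B (M (nat_lit 461) (B (M (nat_lit 332) (B (lo113_14_7 (nat_lit 397)) (lo112_10_4 (nat_lit 396)))) (B (M (nat_lit 396) (B (lo112_10_4 (nat_lit 332))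 (M (nat_lit 493) (B (lo113_16_7 (nat_lit 525)) (lo112_11_4 (nat_lit 460)))))) (B (M (nat_lit 493) (B (M (nat_lit 396) (B (lo113_15_7 (nat_lit 397)) (lo113_16_7 (nat_lit 525)))) (B (M (nat_lit 396) (B (lo113_16_7 (nat_lit 525)) (lo112_11_4 (nat_lit 460)))) (B (M (nat_lit 396) (B (lo113_15_7 (nat_lit 397)) (lo112_11_4 (nat_lit 460)))) (M (nat_lit 397) (B (M (nat_lit 494) (B (lo113_11_4 (nat_lit 462)) (lo113_12_4 (nat_lit 526)))) (M (nat_lit 492) (B (lo113_11_5 (nat_lit 460)) (lo113_12_5 (nat_lit 524)))))))))) (M (nat_lit 397) (B (lo113_14_7 (nat_lit 332)) (M (nat_lit 493) (B (M (nat_lit 494) (B (lo113_11_4 (nat_lit 462)) (lo113_12_4 (nat_lit 526)))) (M (nat_lit 492) (B (lo113_11_5 (nat_lit 460)) (lo113_12_5 (nat_lit 524)))))))))))) (B (M (nat_lit 396) (B (M (nat_lit 461) (B (lo112_10_4 (nat_lit 332)) (M (nat_lit 493) (B (lo113_16_7 (nat_lit 525)) (lo112_11_4 (nat_lit 460))))))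 (B (M (nat_lit 363) (B (M (nat_lit 331) (B (lo112_14_7 (nat_lit 460)) (M (nat_lit 299) (B (lo112_13_7 (nat_lit 332)) (lo111_9_4 (nat_lit 395)))))) (B (M (nat_lit 366) (B (M (nat_lit 331) (B (lo114_11_3 (nat_lit 330)) (lo112_14_7 (nat_lit 460)))) (M (nat_lit 395) (B (lo115_11_1 (nat_lit 367)) (lo114_11_1 (nat_lit 394)))))) (B (K _ _ _ o1_s43626) (B (K _ _ _ o1_s43630) (M (nat_lit 331) (B (lo112_14_7 (nat_lit 460)) (M (nat_lit 366) (B (lo114_11_3 (nat_lit 330)) (M (nat_lit 332) (B (lo115_11_3 (nat_lit 367)) (lo112_13_7 (nat_lit 299))))))))))))) (B (M (nat_lit 363) (B (M (nat_lit 460) (B (lo112_14_7 (nat_lit 331)) (M (nat_lit 492) (B (lo112_15_7 (nat_lit 395)) (M (nat_lit 493) (B (lo112_11_4 (nat_lit 461)) (lo112_12_4 (nat_lit 525)))))))) (B (M (nat_lit 395) (B (M (nat_lit 366) (B (lo115_11_1 (nat_lit 367)) (lo114_11_1 (nat_lit 394)))) (M (nat_lit 331) (B (lo112_14_7 (nat_lit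 460)) (lo111_9_4 (nat_lit 299)))))) (B (K _ _ _ o1_s43635) (B (K _ _ _ o1_s43630) (M (nat_lit 331) (B (lo112_14_7 (nat_lit 460)) (M (nat_lit 330) (B (lo114_11_3 (nat_lit 366)) (M (nat_lit 329) (B (lo113_11_3 (nat_lit 362)) (lo18_10_0 (nat_lit 328))))))))))))) (K _ _ _ o1_s43643))))) (B (M (nat_lit 363) (B (K _ _ _ o1_s44029) (B (M (nat_lit 362) (B (M (nat_lit 397) (B (lo110_11_0 (nat_lit 398)) (M (nat_lit 361) (B (lo19_11_0 (nat_lit 396)) (M (nat_lit 329) (B (lo113_11_3 (nat_lit 330)) (lo112_11_3 (nat_lit 328)))))))) (B (M (nat_lit 361) (B (M (nat_lit 329) (B (lo113_11_3 (nat_lit 330)) (lo112_11_3 (nat_lit 328)))) (M (nat_lit 393) (B (lo113_11_1 (nat_lit 394)) (lo112_11_1 (nat_lit 392)))))) (B (M (nat_lit 361) (B (M (nat_lit 397) (B (lo110_11_0 (nat_lit 398)) (lo19_11_0 (nat_lit 396)))) (M (nat_lit 393) (B (lo113_11_1 (nat_lit 394)) (lo112_11_1 (nat_lit 392)))))) (M (nat_lit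 394) (B (lo113_11_1 (nat_lit 393)) (M (nat_lit 330) (B (lo113_11_3 (nat_lit 329)) (M (nat_lit 395) (B (M (nat_lit 298) (B (lo110_8_4 (nat_lit 266)) (lo110_9_4 (nat_lit 427)))) (B (M (nat_lit 299) (B (M (nat_lit 331) (B (lo111_9_4 (nat_lit 396)) (lo111_8_5 (nat_lit 267)))) (B (M (nat_lit 331) (B (lo111_8_5 (nat_lit 267)) (lo111_9_5 (nat_lit 426)))) (B (M (nat_lit 331) (B (lo111_9_4 (nat_lit 396)) (lo111_9_5 (nat_lit 426)))) (M (nat_lit 298) (B (lo110_12_6 (nat_lit 267)) (lo110_8_4 (nat_lit 266)))))))) (B (M (nat_lit 299) (B (M (nat_lit 331) (B (lo111_9_4 (nat_lit 396)) (lo111_8_5 (nat_lit 267)))) (B (M (nat_lit 331) (B (lo111_8_5 (nat_lit 267)) (lo111_9_5 (nat_lit 426)))) (B (M (nat_lit 331) (B (lo111_9_4 (nat_lit 396)) (lo111_9_5 (nat_lit 426)))) (M (nat_lit 298) (B (lo110_12_6 (nat_lit 267)) (lo110_9_4 (nat_lit 427)))))))) (M (nat_lit 331) (B (M (nat_lit 396) (B (lo112_14_7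 (nat_lit 460)) (lo111_9_4 (nat_lit 299)))) (B (M (nat_lit 299) (B (lo111_8_5 (nat_lit 267)) (lo111_9_5 (nat_lit 426)))) (M (nat_lit 460) (B (lo112_14_7 (nat_lit 396)) (lo111_10_4 (nat_lit 427))))))))))))))))))) (B (M (nat_lit 366) (B (M (nat_lit 367) (B (M (nat_lit 335) (B (lo112_11_2 (nat_lit 336)) (lo111_11_2 (nat_lit 334)))) (M (nat_lit 331) (B (lo115_11_3 (nat_lit 332)) (lo114_11_3 (nat_lit 330)))))) (B (M (nat_lit 367) (B (M (nat_lit 399) (B (lo112_11_0 (nat_lit 400)) (lo111_11_0 (nat_lit 398)))) (M (nat_lit 331) (B (lo115_11_3 (nat_lit 332)) (lo114_11_3 (nat_lit 330)))))) (M (nat_lit 362) (B (M (nat_lit 398) (B (lo111_11_0 (nat_lit 399)) (lo110_11_0 (nat_lit 397)))) (M (nat_lit 394) (B (lo114_11_1 (nat_lit 395)) (lo113_11_1 (nat_lit 393))))))))) (B (M (nat_lit 362) (B (M (nat_lit 397) (B (lo110_11_0 (nat_lit 398)) (M (nat_lit 361) (B (lo19_11_0 (nat_lit 396)) (M (nat_lit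 329) (B (lo113_11_3 (nat_lit 330)) (lo112_11_3 (nat_lit 328)))))))) (B (M (nat_lit 361) (B (M (nat_lit 329) (B (lo113_11_3 (nat_lit 330)) (lo112_11_3 (nat_lit 328)))) (M (nat_lit 393) (B (lo113_11_1 (nat_lit 394)) (lo112_11_1 (nat_lit 392)))))) (B (M (nat_lit 361) (B (M (nat_lit 397) (B (lo110_11_0 (nat_lit 398)) (lo19_11_0 (nat_lit 396)))) (M (nat_lit 393) (B (lo113_11_1 (nat_lit 394)) (lo112_11_1 (nat_lit 392)))))) (M (nat_lit 366) (B (M (nat_lit 398) (B (lo111_11_0 (nat_lit 399)) (lo110_11_0 (nat_lit 397)))) (M (nat_lit 394) (B (lo114_11_1 (nat_lit 395)) (lo113_11_1 (nat_lit 393)))))))))) (B (K _ _ _ o1_s44062) (B (K _ _ _ o1_s44064) (K _ _ _ o1_s43682)))))))) (B (K _ _ _ o1_s44145) (B (K _ _ _ o1_s44219) (K _ _ _ o1_s44261)))))))) (B (M (nat_lit 397) (B (M (nat_lit 460) (B (lo113_10_5 (nat_lit 333)) (M (nat_lit 492) (B (lo113_11_5 (nat_lit 461)) (lo112_16_6 (nat_lit 524))))))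 (B (M (nat_lit 461) (B (M (nat_lit 366) (B (lo113_14_6 (nat_lit 334)) (M (nat_lit 493) (B (lo113_15_6 (nat_lit 398)) (M (nat_lit 494) (B (lo113_11_4 (nat_lit 462)) (lo113_12_4 (nat_lit 526)))))))) (B (M (nat_lit 493) (B (M (nat_lit 494) (B (lo113_11_4 (nat_lit 462)) (lo113_12_4 (nat_lit 526)))) (M (nat_lit 492) (B (lo113_11_5 (nat_lit 460)) (lo113_12_5 (nat_lit 524)))))) (B (M (nat_lit 493) (B (M (nat_lit 366) (B (lo113_14_6 (nat_lit 334)) (lo113_15_6 (nat_lit 398)))) (M (nat_lit 492) (B (lo113_11_5 (nat_lit 460)) (lo113_12_5 (nat_lit 524)))))) (M (nat_lit 462) (B (lo113_11_4 (nat_lit 494)) (M (nat_lit 427) (B (lo110_13_0 (nat_lit 426)) (M (nat_lit 463) (B (lo116_14_3 (nat_lit 464)) (lo115_14_3 (nat_lit 460)))))))))))) (B (K _ _ _ o1_s44274) (K _ _ _ o1_s44316))))) (B (M (nat_lit 364) (B (K _ _ _ o1_s44322) (B (M (nat_lit 363) (B (M (nat_lit 397) (B (M (nat_lit 398) (B (lo110_11_0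 (nat_lit 362)) (M (nat_lit 399) (B (lo116_12_3 (nat_lit 400)) (lo115_12_3 (nat_lit 396)))))) (B (M (nat_lit 398) (B (lo110_11_0 (nat_lit 362)) (M (nat_lit 399) (B (lo111_11_0 (nat_lit 366)) (lo115_12_3 (nat_lit 396)))))) (B (M (nat_lit 460) (B (lo113_10_5 (nat_lit 333)) (M (nat_lit 396) (B (lo112_15_6 (nat_lit 492)) (lo112_14_7 (nat_lit 331)))))) (M (nat_lit 398) (B (lo110_11_0 (nat_lit 362)) (M (nat_lit 399) (B (lo116_12_3 (nat_lit 400)) (lo111_11_0 (nat_lit 366)))))))))) (B (K _ _ _ o1_s44029) (B (M (nat_lit 397) (B (M (nat_lit 362) (B (lo110_11_0 (nat_lit 398)) (M (nat_lit 333) (B (lo110_11_2 (nat_lit 334)) (lo113_10_5 (nat_lit 460)))))) (B (M (nat_lit 398) (B (lo110_11_0 (nat_lit 362)) (M (nat_lit 399) (B (lo116_12_3 (nat_lit 400)) (lo115_12_3 (nat_lit 396)))))) (M (nat_lit 460) (B (lo113_10_5 (nat_lit 333)) (M (nat_lit 396) (B (lo112_15_6 (nat_lit 492)) (lo112_14_7 (nat_lit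 331))))))))) (B (K _ _ _ o1_s44328) (B (M (nat_lit 366) (B (M (nat_lit 362) (B (M (nat_lit 398) (B (lo111_11_0 (nat_lit 399)) (lo110_11_0 (nat_lit 397)))) (M (nat_lit 394) (B (lo114_11_1 (nat_lit 395)) (lo113_11_1 (nat_lit 393)))))) (B (M (nat_lit 362) (B (M (nat_lit 334) (B (lo111_11_2 (nat_lit 335)) (lo110_11_2 (nat_lit 333)))) (M (nat_lit 394) (B (lo114_11_1 (nat_lit 395)) (lo113_11_1 (nat_lit 393)))))) (B (M (nat_lit 362) (B (M (nat_lit 334) (B (lo111_11_2 (nat_lit 335)) (lo110_11_2 (nat_lit 333)))) (M (nat_lit 398) (B (lo111_11_0 (nat_lit 399)) (lo110_11_0 (nat_lit 397)))))) (M (nat_lit 367) (B (M (nat_lit 335) (B (lo112_11_2 (nat_lit 336)) (lo111_11_2 (nat_lit 334)))) (M (nat_lit 399) (B (lo112_11_0 (nat_lit 400)) (lo111_11_0 (nat_lit 398)))))))))) (K _ _ _ o1_s43682))))))) (B (M (nat_lit 396) (B (M (nat_lit 333) (B (lo112_14_6 (nat_lit 460)) (M (nat_lit 301) (B (lo113_8_5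 (nat_lit 269)) (lo112_13_6 (nat_lit 332)))))) (B (M (nat_lit 333) (B (lo112_14_6 (nat_lit 460)) (M (nat_lit 301) (B (lo113_9_5 (nat_lit 397)) (lo112_13_6 (nat_lit 332)))))) (B (M (nat_lit 460) (B (lo112_14_6 (nat_lit 333)) (M (nat_lit 363) (B (lo112_14_7 (nat_lit 331)) (M (nat_lit 492) (B (lo112_15_6 (nat_lit 397)) (lo112_15_7 (nat_lit 395)))))))) (B (M (nat_lit 332) (B (M (nat_lit 300) (B (lo112_9_4 (nat_lit 397)) (M (nat_lit 299) (B (lo112_12_7 (nat_lit 267)) (lo112_13_7 (nat_lit 331)))))) (B (M (nat_lit 331) (B (lo112_13_7 (nat_lit 299)) (M (nat_lit 366) (B (lo115_11_3 (nat_lit 367)) (M (nat_lit 363) (B (lo114_11_3 (nat_lit 330)) (lo112_14_7 (nat_lit 460)))))))) (M (nat_lit 395) (B (M (nat_lit 300) (B (lo112_9_4 (nat_lit 397)) (lo112_9_5 (nat_lit 427)))) (M (nat_lit 394) (B (lo19_12_2 (nat_lit 393)) (M (nat_lit 366) (B (lo115_11_1 (nat_lit 367)) (lo114_11_1 (nat_lit 363)))))))))))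 (M (nat_lit 332) (B (M (nat_lit 301) (B (lo112_13_6 (nat_lit 333)) (M (nat_lit 300) (B (lo112_12_6 (nat_lit 269)) (lo112_9_4 (nat_lit 397)))))) (B (M (nat_lit 333) (B (lo112_13_6 (nat_lit 301)) (M (nat_lit 331) (B (lo112_13_7 (nat_lit 299)) (M (nat_lit 366) (B (lo115_11_3 (nat_lit 367)) (lo110_10_0 (nat_lit 330)))))))) (B (M (nat_lit 331) (B (lo112_13_7 (nat_lit 299)) (M (nat_lit 366) (B (lo115_11_3 (nat_lit 367)) (M (nat_lit 330) (B (lo110_10_0 (nat_lit 333)) (lo19_10_0 (nat_lit 329)))))))) (M (nat_lit 331) (B (lo112_13_7 (nat_lit 299)) (M (nat_lit 366) (B (lo115_11_3 (nat_lit 367)) (M (nat_lit 330) (B (lo114_11_3 (nat_lit 363)) (lo19_10_0 (nat_lit 329))))))))))))))))) (B (M (nat_lit 363) (B (K _ _ _ o1_s44029) (B (M (nat_lit 331) (B (M (nat_lit 396) (B (lo112_14_7 (nat_lit 460)) (M (nat_lit 299) (B (lo112_13_7 (nat_lit 332)) (lo111_8_4 (nat_lit 267)))))) (B (M (nat_lit 396)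 (B (lo112_14_7 (nat_lit 460)) (M (nat_lit 299) (B (lo111_8_4 (nat_lit 267)) (lo111_9_4 (nat_lit 395)))))) (B (M (nat_lit 330) (B (M (nat_lit 329) (B (lo19_10_0 (nat_lit 332)) (lo113_11_3 (nat_lit 362)))) (B (M (nat_lit 329) (B (lo113_11_3 (nat_lit 362)) (lo18_10_0 (nat_lit 328)))) (B (M (nat_lit 329) (B (lo19_10_0 (nat_lit 332)) (lo18_10_0 (nat_lit 328)))) (M (nat_lit 395) (B (M (nat_lit 427) (B (lo111_10_4 (nat_lit 460)) (lo111_13_7 (nat_lit 298)))) (B (M (nat_lit 298) (B (lo111_13_7 (nat_lit 427)) (M (nat_lit 266) (B (lo111_12_7 (nat_lit 299)) (lo110_7_4 (nat_lit 234)))))) (B (M (nat_lit 299) (B (M (nat_lit 394) (B (lo111_9_5 (nat_lit 426)) (M (nat_lit 362) (B (lo113_11_1 (nat_lit 393)) (lo111_8_5 (nat_lit 267)))))) (B (M (nat_lit 394) (B (lo111_9_5 (nat_lit 426)) (M (nat_lit 393) (B (lo113_11_1 (nat_lit 362)) (lo18_12_2 (nat_lit 392)))))) (M (nat_lit 267) (B (M (nat_lit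 268) (B (lo111_11_6 (nat_lit 236)) (lo111_12_6 (nat_lit 300)))) (M (nat_lit 266) (B (lo111_11_7 (nat_lit 234)) (lo111_12_7 (nat_lit 298))))))))) (M (nat_lit 299) (B (M (nat_lit 300) (B (lo111_12_6 (nat_lit 268)) (M (nat_lit 427) (B (lo111_13_6 (nat_lit 332)) (lo111_10_4 (nat_lit 460)))))) (M (nat_lit 394) (B (lo111_9_5 (nat_lit 426)) (M (nat_lit 362) (B (lo113_11_1 (nat_lit 393)) (lo111_8_5 (nat_lit 267)))))))))))))))) (B (M (nat_lit 362) (B (M (nat_lit 330) (B (lo113_11_3 (nat_lit 329)) (M (nat_lit 394) (B (lo113_11_1 (nat_lit 393)) (M (nat_lit 299) (B (lo111_8_5 (nat_lit 267)) (lo110_13_6 (nat_lit 426)))))))) (B (M (nat_lit 396) (B (M (nat_lit 397) (B (lo110_11_0 (nat_lit 398)) (lo19_11_0 (nat_lit 361)))) (M (nat_lit 299) (B (lo112_13_7 (nat_lit 332)) (lo111_9_4 (nat_lit 395)))))) (M (nat_lit 393) (B (lo113_11_1 (nat_lit 394)) (M (nat_lit 397) (B (lo110_11_0 (nat_lit 398))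 (M (nat_lit 361) (B (lo19_11_0 (nat_lit 396)) (lo112_11_1 (nat_lit 392))))))))))) (B (M (nat_lit 396) (B (lo112_14_7 (nat_lit 460)) (M (nat_lit 299) (B (lo112_13_7 (nat_lit 332)) (lo111_9_4 (nat_lit 395)))))) (M (nat_lit 427) (B (M (nat_lit 460) (B (lo112_14_7 (nat_lit 396)) (lo111_10_4 (nat_lit 395)))) (B (M (nat_lit 330) (B (M (nat_lit 329) (B (lo19_10_0 (nat_lit 332)) (lo113_11_3 (nat_lit 362)))) (M (nat_lit 395) (B (lo111_10_4 (nat_lit 460)) (lo111_13_7 (nat_lit 298)))))) (B (M (nat_lit 426) (B (M (nat_lit 458) (B (lo113_13_1 (nat_lit 457)) (lo111_10_5 (nat_lit 395)))) (B (M (nat_lit 394) (B (lo113_13_3 (nat_lit 393)) (M (nat_lit 458) (B (lo113_13_1 (nat_lit 457)) (lo110_14_6 (nat_lit 362)))))) (M (nat_lit 393) (B (lo113_13_3 (nat_lit 394)) (M (nat_lit 425) (B (lo112_13_3 (nat_lit 392)) (M (nat_lit 397) (B (lo110_13_2 (nat_lit 398)) (lo19_13_2 (nat_lit 396))))))))))) (M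 (nat_lit 426) (B (M (nat_lit 397) (B (lo110_13_2 (nat_lit 398)) (M (nat_lit 396) (B (lo19_13_2 (nat_lit 425)) (lo112_14_7 (nat_lit 460)))))) (M (nat_lit 394) (B (lo113_13_3 (nat_lit 393)) (M (nat_lit 458) (B (lo113_13_1 (nat_lit 457)) (lo110_14_6 (nat_lit 362)))))))))))))))))) (B (K _ _ _ o1_s44064) (B (M (nat_lit 366) (B (M (nat_lit 362) (B (M (nat_lit 330) (B (lo114_11_3 (nat_lit 331)) (lo113_11_3 (nat_lit 329)))) (M (nat_lit 394) (B (lo114_11_1 (nat_lit 395)) (lo113_11_1 (nat_lit 393)))))) (B (M (nat_lit 362) (B (M (nat_lit 398) (B (lo111_11_0 (nat_lit 399)) (lo110_11_0 (nat_lit 397)))) (M (nat_lit 394) (B (lo114_11_1 (nat_lit 395)) (lo113_11_1 (nat_lit 393)))))) (B (M (nat_lit 362) (B (M (nat_lit 398) (B (lo111_11_0 (nat_lit 399)) (lo110_11_0 (nat_lit 397)))) (M (nat_lit 330) (B (lo114_11_3 (nat_lit 331)) (lo113_11_3 (nat_lit 329)))))) (M (nat_lit 367) (B (M (nat_lit 335)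 (B (lo112_11_2 (nat_lit 336)) (lo111_11_2 (nat_lit 334)))) (M (nat_lit 399) (B (lo112_11_0 (nat_lit 400)) (lo111_11_0 (nat_lit 398)))))))))) (B (K _ _ _ o1_s44062) (K _ _ _ o1_s43682))))))) (B (K _ _ _ o1_s43683) (B (M (nat_lit 397) (B (M (nat_lit 460) (B (lo113_10_5 (nat_lit 333)) (M (nat_lit 492) (B (lo112_15_6 (nat_lit 396)) (lo112_16_6 (nat_lit 524)))))) (B (K _ _ _ o1_s44119) (B (M (nat_lit 333) (B (lo113_10_5 (nat_lit 460)) (M (nat_lit 334) (B (lo113_13_6 (nat_lit 302)) (M (nat_lit 363) (B (lo110_11_2 (nat_lit 362)) (M (nat_lit 335) (B (lo116_10_1 (nat_lit 336)) (lo111_11_2 (nat_lit 366)))))))))) (M (nat_lit 363) (B (M (nat_lit 398) (B (lo110_11_0 (nat_lit 362)) (M (nat_lit 399) (B (lo116_12_3 (nat_lit 400)) (lo115_12_3 (nat_lit 396)))))) (B (M (nat_lit 398) (B (lo110_11_0 (nat_lit 362)) (M (nat_lit 399) (B (lo111_11_0 (nat_lit 366)) (lo115_12_3 (nat_lit 396)))))) (B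 (M (nat_lit 366) (B (M (nat_lit 362) (B (lo110_11_0 (nat_lit 398)) (M (nat_lit 334) (B (lo111_11_2 (nat_lit 335)) (lo110_11_2 (nat_lit 333)))))) (B (M (nat_lit 362) (B (lo110_11_0 (nat_lit 398)) (M (nat_lit 330) (B (lo114_11_3 (nat_lit 331)) (lo113_11_3 (nat_lit 329)))))) (M (nat_lit 334) (B (lo111_11_2 (nat_lit 335)) (M (nat_lit 302) (B (lo114_8_5 (nat_lit 270)) (lo113_13_6 (nat_lit 333))))))))) (B (M (nat_lit 366) (B (M (nat_lit 334) (B (lo111_11_2 (nat_lit 335)) (M (nat_lit 302) (B (lo114_8_5 (nat_lit 270)) (lo113_13_6 (nat_lit 333)))))) (M (nat_lit 362) (B (M (nat_lit 330) (B (lo114_11_3 (nat_lit 331)) (lo113_11_3 (nat_lit 329)))) (M (nat_lit 394) (B (lo114_11_1 (nat_lit 395)) (lo113_11_1 (nat_lit 393)))))))) (M (nat_lit 366) (B (M (nat_lit 398) (B (lo111_11_0 (nat_lit 399)) (M (nat_lit 334) (B (lo111_11_2 (nat_lit 335)) (lo114_9_5 (nat_lit 302)))))) (B (M (nat_lit 367)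 (B (M (nat_lit 399) (B (lo112_11_0 (nat_lit 400)) (lo111_11_0 (nat_lit 398)))) (M (nat_lit 395) (B (lo115_11_1 (nat_lit 396)) (lo114_11_1 (nat_lit 394)))))) (B (M (nat_lit 334) (B (lo111_11_2 (nat_lit 335)) (M (nat_lit 302) (B (lo114_8_5 (nat_lit 270)) (lo114_9_5 (nat_lit 398)))))) (M (nat_lit 334) (B (lo111_11_2 (nat_lit 335)) (M (nat_lit 302) (B (lo114_8_5 (nat_lit 270)) (lo113_13_6 (nat_lit 333))))))))))))))))))) (B (M (nat_lit 363) (B (K _ _ _ o1_s44328) (B (M (nat_lit 362) (B (M (nat_lit 397) (B (lo110_11_0 (nat_lit 398)) (M (nat_lit 333) (B (lo110_11_2 (nat_lit 334)) (lo113_10_5 (nat_lit 460)))))) (M (nat_lit 366) (B (M (nat_lit 330) (B (lo114_11_3 (nat_lit 331)) (lo113_11_3 (nat_lit 329)))) (M (nat_lit 394) (B (lo114_11_1 (nat_lit 395)) (lo113_11_1 (nat_lit 393)))))))) (B (M (nat_lit 362) (B (M (nat_lit 366) (B (M (nat_lit 398) (B (lo111_11_0 (nat_lit 399)) (lo110_11_0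 (nat_lit 397)))) (M (nat_lit 394) (B (lo114_11_1 (nat_lit 395)) (lo113_11_1 (nat_lit 393)))))) (B (M (nat_lit 366) (B (M (nat_lit 330) (B (lo114_11_3 (nat_lit 331)) (lo113_11_3 (nat_lit 329)))) (M (nat_lit 394) (B (lo114_11_1 (nat_lit 395)) (lo113_11_1 (nat_lit 393)))))) (B (M (nat_lit 361) (B (M (nat_lit 329) (B (lo113_11_3 (nat_lit 330)) (lo112_11_3 (nat_lit 328)))) (M (nat_lit 393) (B (lo113_11_1 (nat_lit 394)) (lo112_11_1 (nat_lit 392)))))) (M (nat_lit 366) (B (M (nat_lit 398) (B (lo111_11_0 (nat_lit 399)) (lo110_11_0 (nat_lit 397)))) (M (nat_lit 330) (B (lo114_11_3 (nat_lit 331)) (lo113_11_3 (nat_lit 329)))))))))) (B (M (nat_lit 362) (B (M (nat_lit 397) (B (lo110_11_0 (nat_lit 398)) (M (nat_lit 333) (B (lo110_11_2 (nat_lit 334)) (lo113_10_5 (nat_lit 460)))))) (M (nat_lit 361) (B (M (nat_lit 329) (B (lo113_11_3 (nat_lit 330)) (lo112_11_3 (nat_lit 328)))) (M (nat_lit 393)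 (B (lo113_11_1 (nat_lit 394)) (lo112_11_1 (nat_lit 392)))))))) (B (K _ _ _ o1_s43837) (B (M (nat_lit 362) (B (M (nat_lit 397) (B (lo110_11_0 (nat_lit 398)) (M (nat_lit 333) (B (lo110_11_2 (nat_lit 334)) (lo113_10_5 (nat_lit 460)))))) (B (M (nat_lit 366) (B (M (nat_lit 398) (B (lo111_11_0 (nat_lit 399)) (lo110_11_0 (nat_lit 397)))) (M (nat_lit 394) (B (lo114_11_1 (nat_lit 395)) (lo113_11_1 (nat_lit 393)))))) (M (nat_lit 361) (B (M (nat_lit 333) (B (lo110_11_2 (nat_lit 334)) (lo19_11_2 (nat_lit 332)))) (M (nat_lit 393) (B (lo113_11_1 (nat_lit 394)) (lo112_11_1 (nat_lit 392))))))))) (M (nat_lit 366) (B (M (nat_lit 367) (B (M (nat_lit 399) (B (lo112_11_0 (nat_lit 400)) (lo111_11_0 (nat_lit 398)))) (M (nat_lit 331) (B (lo115_11_3 (nat_lit 332)) (lo114_11_3 (nat_lit 330)))))) (B (M (nat_lit 367) (B (M (nat_lit 335) (B (lo112_11_2 (nat_lit 336)) (lo111_11_2 (nat_lit 334)))) (M (nat_lit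 331) (B (lo115_11_3 (nat_lit 332)) (lo114_11_3 (nat_lit 330)))))) (B (M (nat_lit 397) (B (M (nat_lit 334) (B (lo111_11_2 (nat_lit 335)) (M (nat_lit 302) (B (lo114_8_5 (nat_lit 270)) (lo114_9_5 (nat_lit 398)))))) (M (nat_lit 460) (B (lo113_10_5 (nat_lit 333)) (M (nat_lit 331) (B (lo114_11_3 (nat_lit 330)) (M (nat_lit 395) (B (lo114_11_1 (nat_lit 394)) (lo111_10_4 (nat_lit 427)))))))))) (M (nat_lit 367) (B (M (nat_lit 335) (B (lo112_11_2 (nat_lit 336)) (lo111_11_2 (nat_lit 334)))) (M (nat_lit 399) (B (lo112_11_0 (nat_lit 400)) (lo111_11_0 (nat_lit 398))))))))))))))))) (K _ _ _ o1_s44559))))))))) (B (K _ _ _ o1_s44581) (B (K _ _ _ o1_s44593) (B (M (nat_lit 397) (B (K _ _ _ o1_s43580) (B (M (nat_lit 461) (B (M (nat_lit 493) (B (M (nat_lit 494) (B (lo113_11_4 (nat_lit 462)) (lo113_12_4 (nat_lit 526)))) (M (nat_lit 364) (B (lo113_14_7 (nat_lit 332)) (lo113_15_7 (nat_lit 396))))))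 (B (M (nat_lit 493) (B (M (nat_lit 366) (B (lo113_14_6 (nat_lit 334)) (lo113_15_6 (nat_lit 398)))) (M (nat_lit 364) (B (lo113_14_7 (nat_lit 332)) (lo113_15_7 (nat_lit 396)))))) (B (M (nat_lit 333) (B (M (nat_lit 334) (B (lo113_13_6 (nat_lit 302)) (lo113_14_6 (nat_lit 366)))) (M (nat_lit 332) (B (lo113_13_7 (nat_lit 300)) (lo113_14_7 (nat_lit 364)))))) (M (nat_lit 366) (B (lo113_14_6 (nat_lit 334)) (M (nat_lit 493) (B (lo113_15_6 (nat_lit 398)) (M (nat_lit 494) (B (lo113_11_4 (nat_lit 462)) (lo113_12_4 (nat_lit 526)))))))))))) (B (M (nat_lit 461) (B (M (nat_lit 493) (B (M (nat_lit 366) (B (lo113_14_6 (nat_lit 334)) (lo113_15_6 (nat_lit 398)))) (M (nat_lit 364) (B (lo113_14_7 (nat_lit 332)) (lo113_15_7 (nat_lit 396)))))) (B (M (nat_lit 493) (B (M (nat_lit 494) (B (lo113_11_4 (nat_lit 462)) (lo113_12_4 (nat_lit 526)))) (M (nat_lit 364) (B (lo113_14_7 (nat_lit 332)) (lo113_15_7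 (nat_lit 396)))))) (B (M (nat_lit 396) (B (M (nat_lit 332) (B (lo113_14_7 (nat_lit 364)) (M (nat_lit 333) (B (lo113_9_5 (nat_lit 301)) (lo113_13_7 (nat_lit 300)))))) (B (M (nat_lit 364) (B (lo113_14_7 (nat_lit 332)) (M (nat_lit 366) (B (lo113_14_6 (nat_lit 334)) (M (nat_lit 367) (B (lo116_11_1 (nat_lit 368)) (lo115_11_1 (nat_lit 395)))))))) (B (M (nat_lit 366) (B (lo113_14_6 (nat_lit 334)) (M (nat_lit 367) (B (lo116_11_1 (nat_lit 368)) (M (nat_lit 395) (B (lo111_12_2 (nat_lit 398)) (lo115_11_1 (nat_lit 364)))))))) (M (nat_lit 366) (B (lo113_14_6 (nat_lit 334)) (M (nat_lit 398) (B (M (nat_lit 367) (B (lo116_11_1 (nat_lit 368)) (lo111_12_2 (nat_lit 395)))) (M (nat_lit 399) (B (lo116_12_1 (nat_lit 400)) (lo115_12_1 (nat_lit 427)))))))))))) (M (nat_lit 366) (B (lo113_14_6 (nat_lit 334)) (M (nat_lit 493) (B (lo113_15_6 (nat_lit 398)) (M (nat_lit 494) (B (lo113_11_4 (nat_lit 462))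 (lo113_12_4 (nat_lit 526)))))))))))) (B (K _ _ _ o1_s44661) (B (K _ _ _ o1_s44592) (B (M (nat_lit 364) (B (M (nat_lit 461) (B (lo113_14_7 (nat_lit 332)) (M (nat_lit 493) (B (lo113_15_7 (nat_lit 396)) (M (nat_lit 494) (B (lo113_11_4 (nat_lit 462)) (lo113_12_4 (nat_lit 526)))))))) (B (M (nat_lit 461) (B (lo113_14_7 (nat_lit 332)) (M (nat_lit 493) (B (lo113_15_7 (nat_lit 396)) (M (nat_lit 366) (B (lo113_14_6 (nat_lit 334)) (lo113_15_6 (nat_lit 398)))))))) (B (M (nat_lit 366) (B (M (nat_lit 367) (B (M (nat_lit 396) (B (lo116_11_1 (nat_lit 368)) (lo115_11_1 (nat_lit 395)))) (M (nat_lit 363) (B (M (nat_lit 335) (B (lo112_11_2 (nat_lit 336)) (lo111_11_2 (nat_lit 334)))) (M (nat_lit 331) (B (lo115_11_3 (nat_lit 332)) (lo114_11_3 (nat_lit 330)))))))) (B (M (nat_lit 367) (B (M (nat_lit 396) (B (lo116_11_1 (nat_lit 368)) (lo115_11_1 (nat_lit 395)))) (M (nat_lit 363) (B (M (nat_lit 399)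 (B (lo112_11_0 (nat_lit 400)) (lo111_11_0 (nat_lit 398)))) (M (nat_lit 331) (B (lo115_11_3 (nat_lit 332)) (lo114_11_3 (nat_lit 330)))))))) (B (M (nat_lit 367) (B (M (nat_lit 396) (B (lo115_11_1 (nat_lit 395)) (M (nat_lit 332) (B (lo115_11_3 (nat_lit 331)) (lo112_9_4 (nat_lit 300)))))) (B (M (nat_lit 363) (B (M (nat_lit 335) (B (lo112_11_2 (nat_lit 336)) (lo111_11_2 (nat_lit 334)))) (M (nat_lit 331) (B (lo115_11_3 (nat_lit 332)) (lo114_11_3 (nat_lit 330)))))) (M (nat_lit 363) (B (M (nat_lit 335) (B (lo112_11_2 (nat_lit 336)) (lo111_11_2 (nat_lit 334)))) (M (nat_lit 399) (B (lo112_11_0 (nat_lit 400)) (lo111_11_0 (nat_lit 398))))))))) (B (M (nat_lit 398) (B (M (nat_lit 399) (B (lo116_12_3 (nat_lit 400)) (lo111_11_0 (nat_lit 363)))) (B (M (nat_lit 363) (B (lo111_11_0 (nat_lit 399)) (lo110_11_0 (nat_lit 362)))) (B (M (nat_lit 363) (B (lo110_11_0 (nat_lit 362)) (M (nat_lit 334) (B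 (lo111_11_2 (nat_lit 335)) (lo114_9_5 (nat_lit 302)))))) (M (nat_lit 399) (B (lo116_12_3 (nat_lit 400)) (M (nat_lit 427) (B (lo115_12_1 (nat_lit 396)) (lo110_13_2 (nat_lit 426)))))))))) (B (K _ _ _ o1_s44682) (M (nat_lit 367) (B (M (nat_lit 396) (B (lo116_11_1 (nat_lit 368)) (lo115_11_1 (nat_lit 395)))) (B (M (nat_lit 396) (B (lo115_11_1 (nat_lit 395)) (M (nat_lit 332) (B (lo115_11_3 (nat_lit 331)) (lo112_9_4 (nat_lit 300)))))) (M (nat_lit 368) (B (M (nat_lit 336) (B (lo113_11_2 (nat_lit 337)) (lo112_11_2 (nat_lit 335)))) (M (nat_lit 400) (B (lo113_11_0 (nat_lit 401)) (lo112_11_0 (nat_lit 399))))))))))))))) (B (K _ _ _ o1_s44144) (K _ _ _ o1_s44689)))))) (B (M (nat_lit 333) (B (M (nat_lit 301) (B (lo113_9_5 (nat_lit 396)) (M (nat_lit 300) (B (lo113_12_7 (nat_lit 268)) (lo113_13_7 (nat_lit 332)))))) (B (M (nat_lit 332) (B (lo113_13_7 (nat_lit 300)) (M (nat_lit 334) (B (lo113_13_6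 (nat_lit 302)) (M (nat_lit 364) (B (M (nat_lit 363) (B (lo115_10_1 (nat_lit 335)) (lo110_11_2 (nat_lit 362)))) (M (nat_lit 331) (B (M (nat_lit 366) (B (lo111_10_0 (nat_lit 367)) (lo110_10_0 (nat_lit 330)))) (M (nat_lit 299) (B (lo114_10_3 (nat_lit 298)) (lo112_13_7 (nat_lit 396)))))))))))) (B (M (nat_lit 301) (B (lo113_9_5 (nat_lit 396)) (M (nat_lit 302) (B (lo113_12_6 (nat_lit 270)) (lo113_13_6 (nat_lit 334)))))) (M (nat_lit 301) (B (M (nat_lit 302) (B (lo113_12_6 (nat_lit 270)) (lo113_13_6 (nat_lit 334)))) (M (nat_lit 300) (B (lo113_12_7 (nat_lit 268)) (lo113_13_7 (nat_lit 332)))))))))) (B (M (nat_lit 364) (B (M (nat_lit 461) (B (lo113_14_7 (nat_lit 332)) (M (nat_lit 493) (B (lo113_15_7 (nat_lit 396)) (M (nat_lit 494) (B (lo113_11_4 (nat_lit 462)) (lo113_12_4 (nat_lit 526)))))))) (B (M (nat_lit 461) (B (lo113_14_7 (nat_lit 332)) (M (nat_lit 493) (B (lo113_15_7 (nat_lit 396))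 (M (nat_lit 366) (B (lo113_14_6 (nat_lit 334)) (lo113_15_6 (nat_lit 398)))))))) (B (K _ _ _ o1_s44707) (B (M (nat_lit 366) (B (M (nat_lit 334) (B (lo113_14_6 (nat_lit 461)) (M (nat_lit 302) (B (lo114_8_5 (nat_lit 270)) (lo113_13_6 (nat_lit 333)))))) (B (M (nat_lit 334) (B (lo113_14_6 (nat_lit 461)) (M (nat_lit 302) (B (lo114_9_5 (nat_lit 398)) (lo113_13_6 (nat_lit 333)))))) (B (M (nat_lit 363) (B (M (nat_lit 398) (B (lo111_11_0 (nat_lit 399)) (lo110_11_0 (nat_lit 362)))) (B (M (nat_lit 362) (B (lo110_11_0 (nat_lit 398)) (M (nat_lit 334) (B (lo113_14_6 (nat_lit 461)) (lo110_11_2 (nat_lit 333)))))) (B (M (nat_lit 362) (B (M (nat_lit 334) (B (lo113_14_6 (nat_lit 461)) (lo110_11_2 (nat_lit 333)))) (M (nat_lit 394) (B (lo114_11_1 (nat_lit 395)) (lo113_11_1 (nat_lit 393)))))) (M (nat_lit 367) (B (M (nat_lit 399) (B (lo112_11_0 (nat_lit 400)) (lo111_11_0 (nat_lit 398)))) (M (nat_lit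 395) (B (lo115_11_1 (nat_lit 396)) (lo114_11_1 (nat_lit 394)))))))))) (M (nat_lit 363) (B (M (nat_lit 398) (B (lo111_11_0 (nat_lit 399)) (lo110_11_0 (nat_lit 362)))) (B (M (nat_lit 362) (B (lo110_11_0 (nat_lit 398)) (M (nat_lit 330) (B (lo114_11_3 (nat_lit 331)) (lo113_11_3 (nat_lit 329)))))) (B (M (nat_lit 362) (B (M (nat_lit 330) (B (lo114_11_3 (nat_lit 331)) (lo113_11_3 (nat_lit 329)))) (M (nat_lit 394) (B (lo114_11_1 (nat_lit 395)) (lo113_11_1 (nat_lit 393)))))) (M (nat_lit 367) (B (M (nat_lit 399) (B (lo112_11_0 (nat_lit 400)) (lo111_11_0 (nat_lit 398)))) (M (nat_lit 395) (B (lo115_11_1 (nat_lit 396)) (lo114_11_1 (nat_lit 394)))))))))))))) (K _ _ _ o1_s44689)))))) (B (K _ _ _ o1_s44580) (B (K _ _ _ o1_s44014) (K _ _ _ o1_s44316)))))))))))) (B (M (nat_lit 397) (B (M (nat_lit 460) (B (lo113_10_5 (nat_lit 333)) (M (nat_lit 492) (B (lo112_15_6 (nat_lit 396)) (lo112_16_6 (nat_lit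 524)))))) (B (M (nat_lit 461) (B (M (nat_lit 493) (B (M (nat_lit 494) (B (lo113_11_4 (nat_lit 462)) (lo113_12_4 (nat_lit 526)))) (M (nat_lit 364) (B (lo113_14_7 (nat_lit 332)) (lo113_15_7 (nat_lit 396)))))) (B (M (nat_lit 493) (B (M (nat_lit 364) (B (lo113_14_7 (nat_lit 332)) (lo113_15_7 (nat_lit 396)))) (M (nat_lit 492) (B (lo113_11_5 (nat_lit 460)) (lo113_12_5 (nat_lit 524)))))) (M (nat_lit 462) (B (lo113_11_4 (nat_lit 494)) (M (nat_lit 427) (B (lo110_13_0 (nat_lit 426)) (M (nat_lit 463) (B (lo116_14_3 (nat_lit 464)) (lo115_14_3 (nat_lit 460))))))))))) (B (M (nat_lit 460) (B (lo113_10_5 (nat_lit 333)) (M (nat_lit 492) (B (lo113_11_5 (nat_lit 461)) (lo112_16_6 (nat_lit 524)))))) (K _ _ _ o1_s44661))))) (B (M (nat_lit 397) (B (M (nat_lit 333) (B (lo113_10_5 (nat_lit 460)) (M (nat_lit 301) (B (lo113_9_5 (nat_lit 396)) (M (nat_lit 300) (B (lo113_12_7 (nat_lit 268)) (lo113_13_7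 (nat_lit 332)))))))) (B (M (nat_lit 461) (B (M (nat_lit 332) (B (lo113_14_7 (nat_lit 364)) (M (nat_lit 333) (B (lo113_13_7 (nat_lit 300)) (lo113_10_5 (nat_lit 460)))))) (B (M (nat_lit 493) (B (M (nat_lit 366) (B (lo113_14_6 (nat_lit 334)) (lo113_15_6 (nat_lit 398)))) (M (nat_lit 364) (B (lo113_14_7 (nat_lit 332)) (lo113_15_7 (nat_lit 396)))))) (M (nat_lit 366) (B (lo113_14_6 (nat_lit 334)) (M (nat_lit 493) (B (lo113_15_6 (nat_lit 398)) (M (nat_lit 494) (B (lo113_11_4 (nat_lit 462)) (lo113_12_4 (nat_lit 526))))))))))) (B (M (nat_lit 461) (B (M (nat_lit 493) (B (M (nat_lit 494) (B (lo113_11_4 (nat_lit 462)) (lo113_12_4 (nat_lit 526)))) (M (nat_lit 364) (B (lo113_14_7 (nat_lit 332)) (lo113_15_7 (nat_lit 396)))))) (B (M (nat_lit 493) (B (M (nat_lit 366) (B (lo113_14_6 (nat_lit 334)) (lo113_15_6 (nat_lit 398)))) (M (nat_lit 364) (B (lo113_14_7 (nat_lit 332)) (lo113_15_7 (nat_lit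 396)))))) (M (nat_lit 462) (B (lo113_11_4 (nat_lit 494)) (M (nat_lit 427) (B (lo110_13_0 (nat_lit 426)) (M (nat_lit 463) (B (lo116_14_3 (nat_lit 464)) (lo115_14_3 (nat_lit 460))))))))))) (B (M (nat_lit 333) (B (lo113_10_5 (nat_lit 460)) (M (nat_lit 301) (B (lo113_9_5 (nat_lit 396)) (M (nat_lit 302) (B (lo113_12_6 (nat_lit 270)) (lo113_13_6 (nat_lit 334)))))))) (B (K _ _ _ o1_s44274) (K _ _ _ o1_s43580))))))) (B (M (nat_lit 397) (B (M (nat_lit 460) (B (lo113_10_5 (nat_lit 333)) (M (nat_lit 492) (B (lo113_11_5 (nat_lit 461)) (lo112_16_6 (nat_lit 524)))))) (B (K _ _ _ o1_s43992) (B (M (nat_lit 460) (B (lo113_10_5 (nat_lit 333)) (M (nat_lit 492) (B (lo112_15_6 (nat_lit 396)) (lo112_16_6 (nat_lit 524)))))) (M (nat_lit 461) (B (M (nat_lit 333) (B (M (nat_lit 334) (B (lo113_13_6 (nat_lit 302)) (lo113_14_6 (nat_lit 366)))) (M (nat_lit 332) (B (lo113_13_7 (nat_lit 300)) (lo113_14_7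 (nat_lit 364)))))) (B (M (nat_lit 493) (B (M (nat_lit 366) (B (lo113_14_6 (nat_lit 334)) (lo113_15_6 (nat_lit 398)))) (M (nat_lit 364) (B (lo113_14_7 (nat_lit 332)) (lo113_15_7 (nat_lit 396)))))) (B (M (nat_lit 493) (B (M (nat_lit 494) (B (lo113_11_4 (nat_lit 462)) (lo113_12_4 (nat_lit 526)))) (M (nat_lit 364) (B (lo113_14_7 (nat_lit 332)) (lo113_15_7 (nat_lit 396)))))) (B (M (nat_lit 493) (B (M (nat_lit 366) (B (lo113_14_6 (nat_lit 334)) (lo113_15_6 (nat_lit 398)))) (M (nat_lit 396) (B (lo113_15_7 (nat_lit 364)) (lo113_16_7 (nat_lit 525)))))) (M (nat_lit 366) (B (lo113_14_6 (nat_lit 334)) (M (nat_lit 493) (B (lo113_15_6 (nat_lit 398)) (M (nat_lit 494) (B (lo113_11_4 (nat_lit 462)) (lo113_12_4 (nat_lit 526))))))))))))))))) (B (M (nat_lit 397) (B (M (nat_lit 460) (B (lo113_10_5 (nat_lit 333)) (M (nat_lit 492) (B (lo112_15_6 (nat_lit 396)) (lo112_16_6 (nat_lit 524)))))) (B (K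 _ _ _ o1_s43992) (B (M (nat_lit 460) (B (lo113_10_5 (nat_lit 333)) (M (nat_lit 492) (B (lo113_11_5 (nat_lit 461)) (lo112_16_6 (nat_lit 524)))))) (M (nat_lit 461) (B (M (nat_lit 493) (B (M (nat_lit 494) (B (lo113_11_4 (nat_lit 462)) (lo113_12_4 (nat_lit 526)))) (M (nat_lit 364) (B (lo113_14_7 (nat_lit 332)) (lo113_15_7 (nat_lit 396)))))) (B (M (nat_lit 493) (B (M (nat_lit 366) (B (lo113_14_6 (nat_lit 334)) (lo113_15_6 (nat_lit 398)))) (M (nat_lit 364) (B (lo113_14_7 (nat_lit 332)) (lo113_15_7 (nat_lit 396)))))) (B (M (nat_lit 396) (B (M (nat_lit 332) (B (lo113_14_7 (nat_lit 364)) (M (nat_lit 333) (B (lo113_9_5 (nat_lit 301)) (lo113_13_7 (nat_lit 300)))))) (B (M (nat_lit 364) (B (lo113_14_7 (nat_lit 332)) (M (nat_lit 366) (B (lo113_14_6 (nat_lit 334)) (M (nat_lit 367) (B (lo116_11_1 (nat_lit 368)) (lo115_11_1 (nat_lit 395)))))))) (B (M (nat_lit 366) (B (lo113_14_6 (nat_lit 334))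 (M (nat_lit 367) (B (lo116_11_1 (nat_lit 368)) (M (nat_lit 395) (B (lo111_12_2 (nat_lit 398)) (lo115_11_1 (nat_lit 364)))))))) (M (nat_lit 366) (B (lo113_14_6 (nat_lit 334)) (M (nat_lit 398) (B (M (nat_lit 367) (B (lo116_11_1 (nat_lit 368)) (lo111_12_2 (nat_lit 395)))) (M (nat_lit 427) (B (lo115_12_1 (nat_lit 399)) (lo110_13_2 (nat_lit 426)))))))))))) (B (M (nat_lit 493) (B (M (nat_lit 366) (B (lo113_14_6 (nat_lit 334)) (lo113_15_6 (nat_lit 398)))) (M (nat_lit 396) (B (lo113_15_7 (nat_lit 364)) (lo113_16_7 (nat_lit 525)))))) (M (nat_lit 366) (B (lo113_14_6 (nat_lit 334)) (M (nat_lit 493) (B (lo113_15_6 (nat_lit 398)) (M (nat_lit 494) (B (lo113_11_4 (nat_lit 462)) (lo113_12_4 (nat_lit 526))))))))))))))))) (B (K _ _ _ o1_s44746) (M (nat_lit 364) (B (M (nat_lit 396) (B (M (nat_lit 333) (B (lo112_14_6 (nat_lit 460)) (M (nat_lit 332) (B (lo112_13_6 (nat_lit 301)) (lo112_10_4 (nat_lit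 461)))))) (B (M (nat_lit 461) (B (lo112_10_4 (nat_lit 332)) (M (nat_lit 493) (B (lo113_16_7 (nat_lit 525)) (lo112_11_4 (nat_lit 460)))))) (B (M (nat_lit 333) (B (lo112_14_6 (nat_lit 460)) (M (nat_lit 301) (B (lo113_8_5 (nat_lit 269)) (lo112_13_6 (nat_lit 332)))))) (B (M (nat_lit 333) (B (lo112_14_6 (nat_lit 460)) (M (nat_lit 301) (B (lo113_8_5 (nat_lit 269)) (lo113_9_5 (nat_lit 397)))))) (M (nat_lit 461) (B (lo112_10_4 (nat_lit 332)) (M (nat_lit 493) (B (lo113_15_7 (nat_lit 397)) (lo113_16_7 (nat_lit 525))))))))))) (B (M (nat_lit 397) (B (M (nat_lit 460) (B (lo113_10_5 (nat_lit 333)) (M (nat_lit 461) (B (lo113_14_7 (nat_lit 332)) (lo113_11_5 (nat_lit 492)))))) (B (M (nat_lit 332) (B (lo113_14_7 (nat_lit 461)) (M (nat_lit 300) (B (lo112_8_4 (nat_lit 268)) (lo112_9_4 (nat_lit 396)))))) (M (nat_lit 460) (B (lo113_10_5 (nat_lit 333)) (M (nat_lit 492) (B (lo112_15_6 (nat_lit 396))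 (lo112_16_6 (nat_lit 524))))))))) (B (K _ _ _ o1_s36572) (B (K _ _ _ o1_s43584) (B (K _ _ _ o1_s44322) (B (M (nat_lit 460) (B (M (nat_lit 333) (B (lo113_10_5 (nat_lit 397)) (lo112_14_6 (nat_lit 396)))) (B (M (nat_lit 492) (B (M (nat_lit 397) (B (lo113_11_5 (nat_lit 461)) (lo112_15_6 (nat_lit 396)))) (B (M (nat_lit 396) (B (M (nat_lit 493) (B (lo112_11_4 (nat_lit 461)) (lo112_12_4 (nat_lit 525)))) (M (nat_lit 363) (B (lo112_14_7 (nat_lit 331)) (lo112_15_7 (nat_lit 395)))))) (B (M (nat_lit 397) (B (lo112_15_6 (nat_lit 396)) (lo112_16_6 (nat_lit 524)))) (M (nat_lit 397) (B (lo113_11_5 (nat_lit 461)) (lo112_16_6 (nat_lit 524)))))))) (B (M (nat_lit 396) (B (lo112_14_6 (nat_lit 333)) (M (nat_lit 492) (B (M (nat_lit 493) (B (lo112_11_4 (nat_lit 461)) (lo112_12_4 (nat_lit 525)))) (M (nat_lit 363) (B (lo112_14_7 (nat_lit 331)) (lo112_15_7 (nat_lit 395)))))))) (M (nat_lit 397) (B (lo113_10_5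 (nat_lit 333)) (M (nat_lit 492) (B (lo113_11_5 (nat_lit 461)) (lo112_16_6 (nat_lit 524)))))))))) (B (M (nat_lit 334) (B (M (nat_lit 397) (B (M (nat_lit 333) (B (lo113_13_6 (nat_lit 302)) (lo113_10_5 (nat_lit 460)))) (M (nat_lit 461) (B (lo113_14_6 (nat_lit 366)) (lo113_14_7 (nat_lit 332)))))) (B (M (nat_lit 335) (B (M (nat_lit 363) (B (lo111_11_2 (nat_lit 366)) (M (nat_lit 333) (B (lo116_10_1 (nat_lit 336)) (lo115_10_1 (nat_lit 332)))))) (B (M (nat_lit 363) (B (lo111_11_2 (nat_lit 366)) (M (nat_lit 333) (B (lo115_10_1 (nat_lit 332)) (lo110_11_2 (nat_lit 362)))))) (B (M (nat_lit 333) (B (lo116_10_1 (nat_lit 336)) (M (nat_lit 363) (B (lo115_10_1 (nat_lit 332)) (lo110_11_2 (nat_lit 362)))))) (B (M (nat_lit 366) (B (lo111_11_2 (nat_lit 363)) (M (nat_lit 336) (B (lo117_10_1 (nat_lit 337)) (lo112_11_2 (nat_lit 367)))))) (M (nat_lit 336) (B (lo116_10_1 (nat_lit 333)) (M (nat_lit 366)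 (B (lo117_10_1 (nat_lit 337)) (lo112_11_2 (nat_lit 367))))))))))) (B (M (nat_lit 333) (B (M (nat_lit 397) (B (lo113_13_6 (nat_lit 302)) (lo113_10_5 (nat_lit 460)))) (M (nat_lit 335) (B (lo116_10_1 (nat_lit 336)) (M (nat_lit 363) (B (lo115_10_1 (nat_lit 332)) (lo110_11_2 (nat_lit 362)))))))) (M (nat_lit 366) (B (M (nat_lit 335) (B (lo111_11_2 (nat_lit 363)) (M (nat_lit 336) (B (lo117_10_1 (nat_lit 337)) (lo112_11_2 (nat_lit 367)))))) (M (nat_lit 397) (B (lo113_14_6 (nat_lit 461)) (M (nat_lit 302) (B (lo114_8_5 (nat_lit 270)) (lo114_9_5 (nat_lit 398)))))))))))) (M (nat_lit 332) (B (M (nat_lit 461) (B (lo113_14_7 (nat_lit 397)) (lo112_10_4 (nat_lit 396)))) (B (K _ _ _ o1_s43935) (B (M (nat_lit 300) (B (M (nat_lit 397) (B (lo113_13_7 (nat_lit 333)) (lo112_8_4 (nat_lit 268)))) (B (M (nat_lit 397) (B (lo112_8_4 (nat_lit 268)) (lo112_9_4 (nat_lit 396)))) (M (nat_lit 396) (B (M (nat_lit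 301) (B (lo112_12_6 (nat_lit 269)) (lo112_13_6 (nat_lit 333)))) (M (nat_lit 299) (B (lo112_12_7 (nat_lit 267)) (lo112_13_7 (nat_lit 331))))))))) (M (nat_lit 397) (B (lo113_14_7 (nat_lit 461)) (M (nat_lit 300) (B (lo113_13_7 (nat_lit 333)) (lo112_8_4 (nat_lit 268))))))))))))))))))))))))))))))))) _ _ _ (by decide +kernel)
theorem o1_s49511 : Sem (nat_lit 2079502270590611144683810638107312777577327806531862431377859685460965980854219217279980804578104683573043408221052678871730618368) (nat_lit 6964824109227102026035292355028762189340244705539385803708398097414555524116587272588729790064452532863957616685193463241823068040318341519402201313360925060063810239199744884736) (nat_lit 6964824109227102026035292355028762189340244705539385803708398097414555524116587272588729790064452532863957616685193463241823068040318341519402201313360925060063810239199744884736) := sem_of_chk (M (nat_lit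 460) (B (M (nat_lit 492) (B (M (nat_lit 397) (B (lo112_16_6 (nat_lit 524)) (M (nat_lit 365) (B (lo113_11_5 (nat_lit 461)) (lo113_10_5 (nat_lit 333)))))) (B (M (nat_lit 397) (B (lo112_16_6 (nat_lit 524)) (M (nat_lit 365) (B (lo113_10_5 (nat_lit 333)) (lo112_15_6 (nat_lit 396)))))) (B (K _ _ _ o1_s47938) (K _ _ _ o1_s47943))))) (B (M (nat_lit 492) (B (M (nat_lit 397) (B (lo112_16_6 (nat_lit 524)) (M (nat_lit 365) (B (lo113_10_5 (nat_lit 333)) (lo112_15_6 (nat_lit 396)))))) (B (K _ _ _ o1_s47938) (B (M (nat_lit 493) (B (M (nat_lit 525) (B (lo112_12_4 (nat_lit 396)) (M (nat_lit 557) (B (lo113_18_7 (nat_lit 589)) (lo113_17_7 (nat_lit 461)))))) (B (M (nat_lit 396) (B (lo112_12_4 (nat_lit 525)) (M (nat_lit 491) (B (lo112_12_5 (nat_lit 523)) (M (nat_lit 364) (B (lo112_11_4 (nat_lit 461)) (lo112_11_5 (nat_lit 459)))))))) (B (M (nat_lit 461) (B (M (nat_lit 397) (B (lo113_11_5 (nat_lit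 365)) (M (nat_lit 494) (B (lo113_12_4 (nat_lit 526)) (M (nat_lit 459) (B (lo115_15_3 (nat_lit 495)) (lo110_14_0 (nat_lit 458)))))))) (M (nat_lit 491) (B (M (nat_lit 490) (B (lo110_15_2 (nat_lit 462)) (lo19_15_2 (nat_lit 489)))) (M (nat_lit 396) (B (lo112_11_4 (nat_lit 364)) (lo112_12_5 (nat_lit 523)))))))) (B (K _ _ _ o1_s42157) (M (nat_lit 494) (B (M (nat_lit 459) (B (lo115_15_3 (nat_lit 495)) (M (nat_lit 458) (B (lo110_14_0 (nat_lit 461)) (lo19_14_0 (nat_lit 457)))))) (B (K _ _ _ o1_s47941) (B (M (nat_lit 459) (B (lo115_15_3 (nat_lit 495)) (M (nat_lit 458) (B (lo114_15_3 (nat_lit 491)) (lo19_14_0 (nat_lit 457)))))) (K _ _ _ o1_s47959)))))))))) (M (nat_lit 397) (B (lo112_16_6 (nat_lit 524)) (M (nat_lit 365) (B (lo113_11_5 (nat_lit 461)) (lo113_10_5 (nat_lit 333)))))))))) (B (M (nat_lit 492) (B (M (nat_lit 397) (B (lo112_16_6 (nat_lit 524)) (M (nat_lit 365) (B (lo113_11_5 (nat_lit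 461)) (lo113_10_5 (nat_lit 333)))))) (B (M (nat_lit 397) (B (lo112_16_6 (nat_lit 524)) (M (nat_lit 365) (B (lo113_10_5 (nat_lit 333)) (lo112_15_6 (nat_lit 396)))))) (B (K _ _ _ o1_s47938) (K _ _ _ o1_s47979))))) (B (M (nat_lit 492) (B (M (nat_lit 397) (B (lo112_16_6 (nat_lit 524)) (M (nat_lit 365) (B (lo113_10_5 (nat_lit 333)) (lo112_15_6 (nat_lit 396)))))) (B (K _ _ _ o1_s47938) (B (M (nat_lit 396) (B (M (nat_lit 493) (B (lo112_12_4 (nat_lit 525)) (M (nat_lit 491) (B (lo112_12_5 (nat_lit 523)) (M (nat_lit 364) (B (lo112_11_4 (nat_lit 461)) (lo112_11_5 (nat_lit 459)))))))) (B (M (nat_lit 364) (B (M (nat_lit 365) (B (lo112_15_6 (nat_lit 397)) (lo112_14_6 (nat_lit 333)))) (M (nat_lit 491) (B (lo112_12_5 (nat_lit 523)) (lo112_11_5 (nat_lit 459)))))) (B (K _ _ _ o1_s47986) (M (nat_lit 364) (B (M (nat_lit 493) (B (lo112_12_4 (nat_lit 525)) (lo112_11_4 (nat_lit 461)))) (M (nat_lit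 365) (B (lo112_15_6 (nat_lit 397)) (lo112_14_6 (nat_lit 333)))))))))) (M (nat_lit 397) (B (lo112_16_6 (nat_lit 524)) (M (nat_lit 365) (B (lo113_11_5 (nat_lit 461)) (lo113_10_5 (nat_lit 333)))))))))) (B (M (nat_lit 492) (B (M (nat_lit 397) (B (lo112_16_6 (nat_lit 524)) (M (nat_lit 365) (B (lo113_11_5 (nat_lit 461)) (lo113_10_5 (nat_lit 333)))))) (B (M (nat_lit 397) (B (lo112_16_6 (nat_lit 524)) (M (nat_lit 365) (B (lo113_10_5 (nat_lit 333)) (lo112_15_6 (nat_lit 396)))))) (B (K _ _ _ o1_s47938) (M (nat_lit 493) (B (M (nat_lit 525) (B (lo112_12_4 (nat_lit 396)) (M (nat_lit 557) (B (lo113_18_7 (nat_lit 589)) (lo113_17_7 (nat_lit 461)))))) (B (M (nat_lit 396) (B (lo112_12_4 (nat_lit 525)) (M (nat_lit 491) (B (lo112_12_5 (nat_lit 523)) (M (nat_lit 364) (B (lo112_11_4 (nat_lit 461)) (lo112_11_5 (nat_lit 459)))))))) (B (M (nat_lit 397) (B (M (nat_lit 365) (B (lo113_11_5 (nat_lit 461))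 (lo113_10_5 (nat_lit 333)))) (B (M (nat_lit 365) (B (lo113_10_5 (nat_lit 333)) (lo112_15_6 (nat_lit 396)))) (M (nat_lit 494) (B (M (nat_lit 459) (B (lo115_15_3 (nat_lit 495)) (M (nat_lit 461) (B (lo113_12_4 (nat_lit 526)) (lo110_14_0 (nat_lit 458)))))) (B (M (nat_lit 491) (B (M (nat_lit 526) (B (lo111_15_0 (nat_lit 527)) (lo113_12_4 (nat_lit 461)))) (M (nat_lit 523) (B (lo114_15_1 (nat_lit 522)) (lo112_12_5 (nat_lit 396)))))) (B (M (nat_lit 459) (B (lo115_15_3 (nat_lit 495)) (M (nat_lit 458) (B (lo110_14_0 (nat_lit 461)) (lo114_15_3 (nat_lit 491)))))) (M (nat_lit 459) (B (lo115_15_3 (nat_lit 495)) (M (nat_lit 458) (B (lo114_15_3 (nat_lit 491)) (lo19_14_0 (nat_lit 457))))))))))))) (B (K _ _ _ o1_s42157) (M (nat_lit 494) (B (M (nat_lit 459) (B (lo115_15_3 (nat_lit 495)) (M (nat_lit 458) (B (lo114_15_3 (nat_lit 491)) (lo19_14_0 (nat_lit 457)))))) (B (M (nat_lit 491) (B (M (nat_lit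 459) (B (lo114_15_3 (nat_lit 458)) (M (nat_lit 523) (B (lo114_15_1 (nat_lit 522)) (lo111_17_6 (nat_lit 555)))))) (M (nat_lit 525) (B (M (nat_lit 526) (B (lo111_15_0 (nat_lit 527)) (lo110_15_0 (nat_lit 490)))) (M (nat_lit 557) (B (lo113_18_7 (nat_lit 589)) (lo113_17_7 (nat_lit 461)))))))) (B (M (nat_lit 459) (B (lo115_15_3 (nat_lit 495)) (M (nat_lit 458) (B (lo110_14_0 (nat_lit 461)) (lo19_14_0 (nat_lit 457)))))) (K _ _ _ o1_s47959)))))))))))))) (B (M (nat_lit 492) (B (M (nat_lit 397) (B (lo112_16_6 (nat_lit 524)) (M (nat_lit 365) (B (lo113_10_5 (nat_lit 333)) (lo112_15_6 (nat_lit 396)))))) (B (M (nat_lit 524) (B (M (nat_lit 556) (B (lo112_17_6 (nat_lit 461)) (M (nat_lit 555) (B (lo112_14_5 (nat_lit 587)) (lo112_13_5 (nat_lit 523)))))) (B (M (nat_lit 396) (B (M (nat_lit 525) (B (lo112_13_4 (nat_lit 557)) (lo112_12_4 (nat_lit 493)))) (M (nat_lit 523) (B (lo112_13_5 (nat_lit 555))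 (lo112_12_5 (nat_lit 491)))))) (M (nat_lit 556) (B (lo112_17_6 (nat_lit 461)) (M (nat_lit 427) (B (lo112_17_7 (nat_lit 459)) (lo112_16_7 (nat_lit 395))))))))) (B (K _ _ _ o1_s47979) (M (nat_lit 397) (B (lo112_16_6 (nat_lit 524)) (M (nat_lit 365) (B (lo113_11_5 (nat_lit 461)) (lo113_10_5 (nat_lit 333)))))))))) (B (M (nat_lit 492) (B (M (nat_lit 397) (B (lo112_16_6 (nat_lit 524)) (M (nat_lit 365) (B (lo113_11_5 (nat_lit 461)) (lo113_10_5 (nat_lit 333)))))) (B (M (nat_lit 397) (B (lo112_16_6 (nat_lit 524)) (M (nat_lit 365) (B (lo113_10_5 (nat_lit 333)) (lo112_15_6 (nat_lit 396)))))) (B (M (nat_lit 461) (B (M (nat_lit 524) (B (lo112_17_6 (nat_lit 556)) (M (nat_lit 427) (B (lo112_16_7 (nat_lit 395)) (M (nat_lit 462) (B (lo115_14_3 (nat_lit 463)) (lo110_13_0 (nat_lit 426)))))))) (B (M (nat_lit 524) (B (lo112_17_6 (nat_lit 556)) (M (nat_lit 396) (B (M (nat_lit 493) (B (lo113_16_7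 (nat_lit 525)) (lo112_11_4 (nat_lit 364)))) (M (nat_lit 523) (B (lo112_13_5 (nat_lit 555)) (lo112_12_5 (nat_lit 491)))))))) (K _ _ _ o1_s48027)))) (M (nat_lit 396) (B (M (nat_lit 493) (B (lo112_12_4 (nat_lit 525)) (M (nat_lit 491) (B (lo112_12_5 (nat_lit 523)) (M (nat_lit 364) (B (lo112_11_4 (nat_lit 461)) (lo112_11_5 (nat_lit 459)))))))) (B (M (nat_lit 364) (B (M (nat_lit 365) (B (lo112_15_6 (nat_lit 397)) (lo112_14_6 (nat_lit 333)))) (M (nat_lit 491) (B (lo112_12_5 (nat_lit 523)) (lo112_11_5 (nat_lit 459)))))) (B (K _ _ _ o1_s48031) (M (nat_lit 364) (B (M (nat_lit 493) (B (lo112_12_4 (nat_lit 525)) (lo112_11_4 (nat_lit 461)))) (M (nat_lit 365) (B (lo112_15_6 (nat_lit 397)) (lo112_14_6 (nat_lit 333)))))))))))))) (B (M (nat_lit 461) (B (M (nat_lit 492) (B (M (nat_lit 524) (B (lo112_17_6 (nat_lit 556)) (lo112_16_6 (nat_lit 397)))) (K _ _ _ o1_s48036))) (B (M (nat_lit 492) (B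 (M (nat_lit 397) (B (lo113_11_5 (nat_lit 365)) (lo112_16_6 (nat_lit 524)))) (B (M (nat_lit 427) (B (M (nat_lit 426) (B (lo110_13_0 (nat_lit 462)) (lo19_13_0 (nat_lit 425)))) (M (nat_lit 524) (B (lo112_17_6 (nat_lit 556)) (lo112_16_7 (nat_lit 395)))))) (M (nat_lit 493) (B (M (nat_lit 494) (B (M (nat_lit 495) (B (lo116_15_3 (nat_lit 496)) (lo115_15_3 (nat_lit 459)))) (M (nat_lit 397) (B (lo113_12_4 (nat_lit 526)) (lo113_11_5 (nat_lit 365)))))) (M (nat_lit 491) (B (M (nat_lit 490) (B (lo110_15_2 (nat_lit 462)) (lo19_15_2 (nat_lit 489)))) (M (nat_lit 396) (B (lo112_11_4 (nat_lit 364)) (lo112_12_5 (nat_lit 523))))))))))) (B (M (nat_lit 397) (B (M (nat_lit 365) (B (lo113_11_5 (nat_lit 492)) (lo113_10_5 (nat_lit 333)))) (B (M (nat_lit 493) (B (M (nat_lit 396) (B (lo113_15_7 (nat_lit 364)) (M (nat_lit 398) (B (lo113_15_6 (nat_lit 366)) (M (nat_lit 399) (B (lo116_12_1 (nat_lit 400))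 (lo115_12_1 (nat_lit 427)))))))) (M (nat_lit 492) (B (lo113_12_5 (nat_lit 524)) (M (nat_lit 494) (B (lo113_12_4 (nat_lit 526)) (M (nat_lit 495) (B (lo116_15_3 (nat_lit 496)) (lo115_15_3 (nat_lit 459)))))))))) (K _ _ _ o1_s48054)))) (B (M (nat_lit 492) (B (M (nat_lit 397) (B (lo113_11_5 (nat_lit 365)) (lo112_16_6 (nat_lit 524)))) (B (M (nat_lit 427) (B (M (nat_lit 426) (B (lo110_13_0 (nat_lit 462)) (lo19_13_0 (nat_lit 425)))) (M (nat_lit 524) (B (lo112_17_6 (nat_lit 556)) (lo112_16_7 (nat_lit 395)))))) (M (nat_lit 462) (B (M (nat_lit 463) (B (lo116_14_3 (nat_lit 464)) (lo115_14_1 (nat_lit 491)))) (B (M (nat_lit 463) (B (lo115_14_1 (nat_lit 491)) (lo115_14_3 (nat_lit 427)))) (B (M (nat_lit 459) (B (M (nat_lit 426) (B (lo110_13_0 (nat_lit 427)) (M (nat_lit 458) (B (lo113_14_3 (nat_lit 425)) (lo19_14_2 (nat_lit 457)))))) (M (nat_lit 491) (B (lo114_14_1 (nat_lit 490)) (M (nat_lit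 396) (B (lo112_12_5 (nat_lit 523)) (lo112_11_5 (nat_lit 364)))))))) (M (nat_lit 427) (B (lo115_14_3 (nat_lit 463)) (lo110_13_0 (nat_lit 426))))))))))) (B (M (nat_lit 462) (B (M (nat_lit 463) (B (lo116_14_3 (nat_lit 464)) (lo115_14_3 (nat_lit 427)))) (B (M (nat_lit 427) (B (lo115_14_3 (nat_lit 463)) (lo110_13_0 (nat_lit 426)))) (B (K _ _ _ o1_s48080) (K _ _ _ o1_s48084))))) (B (K _ _ _ o1_s48087) (B (M (nat_lit 462) (B (M (nat_lit 463) (B (lo116_14_3 (nat_lit 464)) (lo115_14_3 (nat_lit 427)))) (B (M (nat_lit 427) (B (lo115_14_3 (nat_lit 463)) (lo110_13_0 (nat_lit 426)))) (B (M (nat_lit 397) (B (M (nat_lit 365) (B (lo113_11_4 (nat_lit 494)) (lo113_11_5 (nat_lit 492)))) (B (M (nat_lit 365) (B (lo113_11_5 (nat_lit 492)) (lo113_10_5 (nat_lit 333)))) (K _ _ _ o1_s48093)))) (M (nat_lit 492) (B (M (nat_lit 463) (B (lo116_14_3 (nat_lit 464)) (lo115_14_1 (nat_lit 491)))) (M (nat_lit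 397) (B (lo113_11_5 (nat_lit 365)) (lo112_16_6 (nat_lit 524)))))))))) (M (nat_lit 492) (B (M (nat_lit 397) (B (lo113_11_5 (nat_lit 365)) (lo112_16_6 (nat_lit 524)))) (B (M (nat_lit 427) (B (M (nat_lit 426) (B (lo110_13_0 (nat_lit 462)) (lo19_13_0 (nat_lit 425)))) (M (nat_lit 524) (B (lo112_17_6 (nat_lit 556)) (lo112_16_7 (nat_lit 395)))))) (M (nat_lit 462) (B (M (nat_lit 463) (B (lo116_14_3 (nat_lit 464)) (lo115_14_1 (nat_lit 491)))) (B (M (nat_lit 463) (B (lo115_14_1 (nat_lit 491)) (lo115_14_3 (nat_lit 427)))) (B (M (nat_lit 396) (B (M (nat_lit 364) (B (lo112_11_4 (nat_lit 493)) (lo112_10_4 (nat_lit 332)))) (B (M (nat_lit 365) (B (lo113_11_5 (nat_lit 397)) (M (nat_lit 364) (B (lo112_10_4 (nat_lit 332)) (lo112_14_6 (nat_lit 333)))))) (M (nat_lit 491) (B (lo112_12_5 (nat_lit 523)) (M (nat_lit 490) (B (lo110_15_2 (nat_lit 493)) (lo19_15_2 (nat_lit 489))))))))) (M (nat_lit 463)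 (B (lo116_14_3 (nat_lit 464)) (lo115_14_3 (nat_lit 427))))))))))))))))))) (B (M (nat_lit 492) (B (M (nat_lit 397) (B (lo112_16_6 (nat_lit 524)) (M (nat_lit 365) (B (lo113_10_5 (nat_lit 333)) (lo112_15_6 (nat_lit 396)))))) (B (M (nat_lit 524) (B (M (nat_lit 556) (B (lo112_17_6 (nat_lit 461)) (M (nat_lit 427) (B (lo112_17_7 (nat_lit 459)) (lo112_16_7 (nat_lit 395)))))) (M (nat_lit 523) (B (lo112_13_5 (nat_lit 555)) (M (nat_lit 491) (B (lo112_12_5 (nat_lit 396)) (M (nat_lit 525) (B (lo112_13_4 (nat_lit 557)) (M (nat_lit 490) (B (lo114_16_3 (nat_lit 526)) (lo19_15_0 (nat_lit 489)))))))))))) (B (M (nat_lit 396) (B (M (nat_lit 364) (B (M (nat_lit 365) (B (lo112_15_6 (nat_lit 397)) (lo112_14_6 (nat_lit 333)))) (M (nat_lit 491) (B (lo112_12_5 (nat_lit 523)) (lo112_11_5 (nat_lit 459)))))) (B (K _ _ _ o1_s48126) (B (M (nat_lit 364) (B (M (nat_lit 491) (B (lo112_12_5 (nat_lit 523)) (lo112_11_5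 (nat_lit 459)))) (M (nat_lit 332) (B (lo112_10_4 (nat_lit 461)) (M (nat_lit 300) (B (lo112_9_4 (nat_lit 397)) (M (nat_lit 299) (B (lo112_13_7 (nat_lit 331)) (lo112_12_7 (nat_lit 267)))))))))) (B (M (nat_lit 397) (B (lo112_15_6 (nat_lit 365)) (M (nat_lit 426) (B (M (nat_lit 427) (B (lo110_13_2 (nat_lit 398)) (lo19_13_2 (nat_lit 425)))) (B (M (nat_lit 394) (B (M (nat_lit 427) (B (lo113_13_3 (nat_lit 393)) (lo19_13_2 (nat_lit 425)))) (B (M (nat_lit 395) (B (lo19_12_0 (nat_lit 393)) (lo113_12_1 (nat_lit 425)))) (B (M (nat_lit 393) (B (lo19_12_0 (nat_lit 395)) (lo113_13_3 (nat_lit 427)))) (M (nat_lit 425) (B (lo19_13_2 (nat_lit 427)) (lo113_12_1 (nat_lit 395)))))))) (B (M (nat_lit 458) (B (M (nat_lit 459) (B (lo19_14_2 (nat_lit 457)) (M (nat_lit 491) (B (lo112_12_5 (nat_lit 523)) (M (nat_lit 461) (B (lo113_14_3 (nat_lit 425)) (M (nat_lit 462) (B (lo115_14_1 (nat_lit 463)) (lo114_14_1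 (nat_lit 490)))))))))) (B (M (nat_lit 459) (B (lo19_14_2 (nat_lit 457)) (M (nat_lit 394) (B (M (nat_lit 395) (B (lo19_12_0 (nat_lit 393)) (lo113_12_1 (nat_lit 425)))) (M (nat_lit 491) (B (lo112_12_5 (nat_lit 523)) (lo110_11_4 (nat_lit 362)))))))) (B (M (nat_lit 490) (B (M (nat_lit 459) (B (lo19_14_2 (nat_lit 457)) (M (nat_lit 461) (B (lo113_14_1 (nat_lit 489)) (lo113_14_3 (nat_lit 425)))))) (B (K _ _ _ o1_s48188) (B (M (nat_lit 459) (B (lo19_14_2 (nat_lit 457)) (M (nat_lit 393) (B (M (nat_lit 425) (B (lo113_14_3 (nat_lit 461)) (lo110_16_7 (nat_lit 522)))) (M (nat_lit 394) (B (lo19_12_0 (nat_lit 395)) (lo110_15_7 (nat_lit 361)))))))) (M (nat_lit 394) (B (M (nat_lit 393) (B (lo19_12_0 (nat_lit 395)) (lo110_15_7 (nat_lit 361)))) (M (nat_lit 489) (B (lo110_12_5 (nat_lit 521)) (M (nat_lit 461) (B (lo19_15_2 (nat_lit 491)) (lo113_14_1 (nat_lit 459)))))))))))) (B (M (nat_lit 394)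 (B (M (nat_lit 395) (B (lo19_12_0 (nat_lit 393)) (lo113_12_1 (nat_lit 425)))) (M (nat_lit 457) (B (lo19_14_2 (nat_lit 459)) (M (nat_lit 489) (B (lo110_11_5 (nat_lit 362)) (M (nat_lit 521) (B (lo110_12_5 (nat_lit 490)) (lo19_17_6 (nat_lit 553)))))))))) (B (M (nat_lit 490) (B (M (nat_lit 491) (B (lo112_12_5 (nat_lit 523)) (M (nat_lit 489) (B (lo19_15_2 (nat_lit 461)) (M (nat_lit 521) (B (lo112_15_1 (nat_lit 520)) (lo110_12_5 (nat_lit 394)))))))) (B (M (nat_lit 523) (B (lo112_12_5 (nat_lit 491)) (M (nat_lit 393) (B (M (nat_lit 522) (B (lo110_13_4 (nat_lit 555)) (lo110_16_7 (nat_lit 425)))) (M (nat_lit 394) (B (lo19_12_0 (nat_lit 395)) (lo110_15_7 (nat_lit 361)))))))) (B (K _ _ _ o1_s48188) (M (nat_lit 522) (B (M (nat_lit 523) (B (lo112_12_5 (nat_lit 491)) (lo110_13_4 (nat_lit 555)))) (M (nat_lit 554) (B (M (nat_lit 553) (B (lo110_14_5 (nat_lit 585)) (lo110_13_5 (nat_lit 521))))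 (M (nat_lit 425) (B (lo110_17_7 (nat_lit 457)) (lo110_16_7 (nat_lit 393)))))))))))) (B (M (nat_lit 394) (B (M (nat_lit 395) (B (lo19_12_0 (nat_lit 393)) (lo113_12_1 (nat_lit 425)))) (B (M (nat_lit 490) (B (M (nat_lit 489) (B (lo110_12_5 (nat_lit 521)) (M (nat_lit 461) (B (lo19_15_2 (nat_lit 491)) (lo113_14_1 (nat_lit 459)))))) (B (M (nat_lit 522) (B (M (nat_lit 521) (B (lo110_13_5 (nat_lit 553)) (lo110_12_5 (nat_lit 489)))) (M (nat_lit 393) (B (lo110_16_7 (nat_lit 425)) (lo110_15_7 (nat_lit 361)))))) (M (nat_lit 522) (B (M (nat_lit 523) (B (lo112_12_5 (nat_lit 491)) (lo110_13_4 (nat_lit 555)))) (M (nat_lit 393) (B (lo110_16_7 (nat_lit 425)) (lo110_15_7 (nat_lit 361))))))))) (B (M (nat_lit 362) (B (M (nat_lit 395) (B (lo19_12_0 (nat_lit 393)) (lo113_12_3 (nat_lit 361)))) (M (nat_lit 491) (B (lo112_12_5 (nat_lit 523)) (lo110_11_4 (nat_lit 459)))))) (M (nat_lit 459) (B (M (nat_lit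 425) (B (lo113_14_3 (nat_lit 461)) (lo113_12_1 (nat_lit 395)))) (M (nat_lit 491) (B (lo112_12_5 (nat_lit 523)) (lo110_11_4 (nat_lit 362)))))))))) (M (nat_lit 459) (B (lo19_14_2 (nat_lit 457)) (M (nat_lit 490) (B (M (nat_lit 461) (B (lo113_14_1 (nat_lit 489)) (M (nat_lit 491) (B (lo114_14_1 (nat_lit 462)) (lo112_12_5 (nat_lit 523)))))) (B (M (nat_lit 394) (B (M (nat_lit 489) (B (lo113_14_1 (nat_lit 461)) (lo110_12_5 (nat_lit 521)))) (M (nat_lit 393) (B (lo19_12_0 (nat_lit 395)) (lo110_15_7 (nat_lit 361)))))) (M (nat_lit 394) (B (M (nat_lit 491) (B (lo112_12_5 (nat_lit 523)) (lo110_11_4 (nat_lit 362)))) (M (nat_lit 393) (B (lo19_12_0 (nat_lit 395)) (lo110_15_7 (nat_lit 361)))))))))))))))))) (M (nat_lit 427) (B (lo110_13_2 (nat_lit 398)) (M (nat_lit 394) (B (lo113_13_3 (nat_lit 393)) (M (nat_lit 458) (B (lo113_13_1 (nat_lit 457)) (M (nat_lit 362) (B (M (nat_lit 491) (B (lo112_12_5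 (nat_lit 523)) (lo110_11_4 (nat_lit 459)))) (M (nat_lit 361) (B (lo113_12_3 (nat_lit 395)) (lo110_14_7 (nat_lit 329)))))))))))))))))) (B (M (nat_lit 364) (B (M (nat_lit 365) (B (lo112_15_6 (nat_lit 397)) (lo112_14_6 (nat_lit 333)))) (B (M (nat_lit 333) (B (lo112_14_6 (nat_lit 365)) (M (nat_lit 332) (B (lo112_10_4 (nat_lit 461)) (lo112_13_6 (nat_lit 301)))))) (M (nat_lit 332) (B (lo112_10_4 (nat_lit 461)) (M (nat_lit 459) (B (lo112_11_5 (nat_lit 491)) (lo112_10_5 (nat_lit 427))))))))) (M (nat_lit 364) (B (M (nat_lit 365) (B (lo112_15_6 (nat_lit 397)) (lo112_14_6 (nat_lit 333)))) (B (M (nat_lit 333) (B (lo112_14_6 (nat_lit 365)) (M (nat_lit 332) (B (lo112_10_4 (nat_lit 461)) (lo112_13_6 (nat_lit 301)))))) (M (nat_lit 332) (B (lo112_10_4 (nat_lit 461)) (M (nat_lit 300) (B (lo112_9_4 (nat_lit 397)) (M (nat_lit 299) (B (lo112_13_7 (nat_lit 331)) (lo112_12_7 (nat_lit 267)))))))))))))))))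 (M (nat_lit 397) (B (lo112_16_6 (nat_lit 524)) (M (nat_lit 365) (B (lo113_11_5 (nat_lit 461)) (lo113_10_5 (nat_lit 333)))))))))) (B (M (nat_lit 492) (B (M (nat_lit 397) (B (lo112_16_6 (nat_lit 524)) (M (nat_lit 365) (B (lo113_10_5 (nat_lit 333)) (lo112_15_6 (nat_lit 396)))))) (B (K _ _ _ o1_s48298) (B (M (nat_lit 491) (B (M (nat_lit 523) (B (lo112_12_5 (nat_lit 396)) (M (nat_lit 555) (B (lo111_18_6 (nat_lit 587)) (lo111_17_6 (nat_lit 459)))))) (B (M (nat_lit 490) (B (M (nat_lit 489) (B (M (nat_lit 488) (B (lo18_15_2 (nat_lit 459)) (M (nat_lit 520) (B (lo112_15_1 (nat_lit 521)) (lo111_15_1 (nat_lit 519)))))) (B (M (nat_lit 488) (B (M (nat_lit 520) (B (lo112_15_1 (nat_lit 521)) (lo111_15_1 (nat_lit 519)))) (M (nat_lit 456) (B (lo112_15_3 (nat_lit 457)) (lo111_15_3 (nat_lit 455)))))) (B (M (nat_lit 488) (B (lo18_15_2 (nat_lit 459)) (M (nat_lit 456) (B (lo112_15_3 (nat_lit 457))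 (lo111_15_3 (nat_lit 455)))))) (M (nat_lit 457) (B (lo112_15_3 (nat_lit 456)) (M (nat_lit 458) (B (lo113_15_3 (nat_lit 493)) (lo19_14_2 (nat_lit 459)))))))))) (B (M (nat_lit 489) (B (M (nat_lit 457) (B (lo112_15_3 (nat_lit 456)) (M (nat_lit 459) (B (lo19_14_2 (nat_lit 458)) (lo18_15_2 (nat_lit 488)))))) (B (M (nat_lit 488) (B (M (nat_lit 520) (B (lo112_15_1 (nat_lit 521)) (lo111_15_1 (nat_lit 519)))) (M (nat_lit 456) (B (lo112_15_3 (nat_lit 457)) (lo111_15_3 (nat_lit 455)))))) (B (M (nat_lit 488) (B (lo18_15_2 (nat_lit 459)) (M (nat_lit 520) (B (lo112_15_1 (nat_lit 521)) (lo111_15_1 (nat_lit 519)))))) (M (nat_lit 457) (B (lo112_15_3 (nat_lit 456)) (M (nat_lit 458) (B (lo19_14_2 (nat_lit 459)) (M (nat_lit 426) (B (lo113_13_1 (nat_lit 427)) (M (nat_lit 394) (B (lo110_12_4 (nat_lit 523)) (lo110_12_5 (nat_lit 521)))))))))))))) (B (M (nat_lit 489) (B (M (nat_lit 521) (B (lo112_15_1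 (nat_lit 520)) (M (nat_lit 493) (B (lo113_15_1 (nat_lit 522)) (M (nat_lit 457) (B (lo113_15_3 (nat_lit 458)) (lo112_15_3 (nat_lit 456)))))))) (B (M (nat_lit 488) (B (M (nat_lit 520) (B (lo112_15_1 (nat_lit 521)) (lo111_15_1 (nat_lit 519)))) (M (nat_lit 456) (B (lo112_15_3 (nat_lit 457)) (lo111_15_3 (nat_lit 455)))))) (B (M (nat_lit 457) (B (lo112_15_3 (nat_lit 456)) (M (nat_lit 458) (B (lo113_15_3 (nat_lit 493)) (M (nat_lit 426) (B (lo113_13_1 (nat_lit 427)) (M (nat_lit 394) (B (lo110_12_4 (nat_lit 523)) (lo110_11_5 (nat_lit 362)))))))))) (B (M (nat_lit 488) (B (M (nat_lit 520) (B (lo112_15_1 (nat_lit 521)) (lo111_15_1 (nat_lit 519)))) (B (M (nat_lit 487) (B (M (nat_lit 519) (B (lo111_15_1 (nat_lit 520)) (lo110_15_1 (nat_lit 518)))) (M (nat_lit 455) (B (lo111_15_3 (nat_lit 456)) (lo110_15_3 (nat_lit 454)))))) (M (nat_lit 487) (B (M (nat_lit 455) (B (lo111_15_3 (nat_lit 456))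 (lo110_15_3 (nat_lit 454)))) (M (nat_lit 522) (B (lo17_15_0 (nat_lit 523)) (M (nat_lit 521) (B (lo113_15_1 (nat_lit 493)) (lo16_15_0 (nat_lit 486))))))))))) (M (nat_lit 521) (B (lo112_15_1 (nat_lit 520)) (M (nat_lit 458) (B (M (nat_lit 493) (B (lo113_15_1 (nat_lit 522)) (lo113_15_3 (nat_lit 457)))) (B (M (nat_lit 426) (B (lo110_12_5 (nat_lit 394)) (M (nat_lit 553) (B (lo110_13_5 (nat_lit 522)) (lo19_18_6 (nat_lit 585)))))) (M (nat_lit 426) (B (lo110_12_5 (nat_lit 394)) (M (nat_lit 553) (B (lo19_18_6 (nat_lit 585)) (lo19_17_6 (nat_lit 457)))))))))))))))) (B (M (nat_lit 493) (B (M (nat_lit 522) (B (lo113_15_1 (nat_lit 521)) (M (nat_lit 494) (B (lo114_15_1 (nat_lit 523)) (M (nat_lit 526) (B (lo111_15_0 (nat_lit 527)) (lo110_15_0 (nat_lit 525)))))))) (B (K _ _ _ o1_s42227) (M (nat_lit 494) (B (M (nat_lit 526) (B (lo111_15_0 (nat_lit 527)) (lo110_15_0 (nat_lit 525)))) (M (nat_lit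 495) (B (lo115_15_3 (nat_lit 459)) (M (nat_lit 463) (B (lo112_15_2 (nat_lit 464)) (lo111_15_2 (nat_lit 462))))))))))) (B (M (nat_lit 523) (B (M (nat_lit 555) (B (lo111_18_6 (nat_lit 587)) (lo111_17_6 (nat_lit 459)))) (B (M (nat_lit 459) (B (lo111_17_6 (nat_lit 555)) (M (nat_lit 457) (B (lo19_14_2 (nat_lit 458)) (M (nat_lit 489) (B (lo112_15_3 (nat_lit 456)) (lo18_15_2 (nat_lit 488)))))))) (B (M (nat_lit 489) (B (M (nat_lit 488) (B (lo18_15_2 (nat_lit 459)) (M (nat_lit 456) (B (lo112_15_3 (nat_lit 457)) (lo111_15_3 (nat_lit 455)))))) (B (M (nat_lit 457) (B (lo112_15_3 (nat_lit 456)) (M (nat_lit 458) (B (lo113_15_3 (nat_lit 493)) (M (nat_lit 426) (B (lo113_13_1 (nat_lit 427)) (lo110_12_4 (nat_lit 394)))))))) (M (nat_lit 488) (B (lo18_15_2 (nat_lit 459)) (M (nat_lit 519) (B (lo111_15_1 (nat_lit 520)) (M (nat_lit 487) (B (lo17_15_0 (nat_lit 522)) (lo110_15_1 (nat_lit 518)))))))))))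 (K _ _ _ o1_s48385))))) (B (M (nat_lit 458) (B (M (nat_lit 457) (B (lo113_15_3 (nat_lit 493)) (lo19_14_2 (nat_lit 459)))) (B (M (nat_lit 523) (B (M (nat_lit 555) (B (lo111_18_6 (nat_lit 587)) (lo111_17_6 (nat_lit 459)))) (B (M (nat_lit 459) (B (lo19_14_2 (nat_lit 457)) (lo111_17_6 (nat_lit 555)))) (B (M (nat_lit 457) (B (lo19_14_2 (nat_lit 459)) (M (nat_lit 426) (B (lo113_13_1 (nat_lit 427)) (lo110_12_4 (nat_lit 394)))))) (M (nat_lit 555) (B (lo111_18_6 (nat_lit 587)) (M (nat_lit 426) (B (lo110_13_4 (nat_lit 522)) (lo110_12_4 (nat_lit 394)))))))))) (B (M (nat_lit 493) (B (lo113_15_3 (nat_lit 457)) (M (nat_lit 494) (B (M (nat_lit 526) (B (lo111_15_0 (nat_lit 527)) (lo110_15_0 (nat_lit 525)))) (M (nat_lit 522) (B (lo114_15_1 (nat_lit 523)) (lo113_15_1 (nat_lit 521)))))))) (M (nat_lit 522) (B (M (nat_lit 493) (B (lo113_15_1 (nat_lit 521)) (M (nat_lit 494) (B (lo114_15_1 (nat_lit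 523)) (lo114_15_3 (nat_lit 459)))))) (B (M (nat_lit 555) (B (M (nat_lit 523) (B (lo111_18_6 (nat_lit 587)) (lo111_17_6 (nat_lit 459)))) (B (M (nat_lit 459) (B (lo111_17_6 (nat_lit 523)) (M (nat_lit 554) (B (lo110_18_6 (nat_lit 586)) (lo110_17_6 (nat_lit 427)))))) (B (M (nat_lit 554) (B (lo110_14_4 (nat_lit 587)) (M (nat_lit 459) (B (lo110_18_6 (nat_lit 586)) (lo110_17_6 (nat_lit 427)))))) (M (nat_lit 587) (B (lo111_18_6 (nat_lit 523)) (lo110_14_4 (nat_lit 554)))))))) (B (M (nat_lit 459) (B (M (nat_lit 493) (B (lo114_15_3 (nat_lit 494)) (lo113_15_1 (nat_lit 521)))) (M (nat_lit 554) (B (lo110_18_6 (nat_lit 586)) (lo110_17_6 (nat_lit 427)))))) (M (nat_lit 523) (B (M (nat_lit 493) (B (lo114_15_1 (nat_lit 494)) (lo113_15_1 (nat_lit 521)))) (M (nat_lit 555) (B (lo111_18_6 (nat_lit 587)) (lo110_13_4 (nat_lit 426)))))))))))))) (M (nat_lit 493) (B (M (nat_lit 522) (B (lo113_15_1 (nat_lit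 521)) (M (nat_lit 494) (B (lo114_15_1 (nat_lit 523)) (M (nat_lit 526) (B (lo111_15_0 (nat_lit 527)) (lo110_15_0 (nat_lit 525)))))))) (B (M (nat_lit 494) (B (M (nat_lit 522) (B (lo114_15_1 (nat_lit 523)) (lo113_15_1 (nat_lit 521)))) (M (nat_lit 459) (B (lo115_15_3 (nat_lit 495)) (lo114_15_3 (nat_lit 458)))))) (B (M (nat_lit 489) (B (M (nat_lit 521) (B (lo113_15_1 (nat_lit 522)) (lo112_15_1 (nat_lit 520)))) (B (M (nat_lit 488) (B (lo18_15_2 (nat_lit 459)) (M (nat_lit 520) (B (lo112_15_1 (nat_lit 521)) (lo111_15_1 (nat_lit 519)))))) (B (M (nat_lit 488) (B (lo18_15_2 (nat_lit 459)) (M (nat_lit 487) (B (M (nat_lit 519) (B (lo111_15_1 (nat_lit 520)) (lo110_15_1 (nat_lit 518)))) (M (nat_lit 455) (B (lo111_15_3 (nat_lit 456)) (lo110_15_3 (nat_lit 454)))))))) (M (nat_lit 488) (B (lo18_15_2 (nat_lit 459)) (M (nat_lit 487) (B (M (nat_lit 522) (B (lo113_15_1 (nat_lit 521)) (lo17_15_0 (nat_lit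 523)))) (M (nat_lit 455) (B (lo111_15_3 (nat_lit 456)) (lo110_15_3 (nat_lit 454)))))))))))) (M (nat_lit 494) (B (M (nat_lit 526) (B (lo111_15_0 (nat_lit 527)) (lo110_15_0 (nat_lit 525)))) (M (nat_lit 459) (B (lo115_15_3 (nat_lit 495)) (lo114_15_3 (nat_lit 458))))))))))))))))) (B (M (nat_lit 396) (B (lo112_12_5 (nat_lit 523)) (M (nat_lit 364) (B (lo112_11_5 (nat_lit 459)) (M (nat_lit 365) (B (lo112_15_6 (nat_lit 397)) (lo112_14_6 (nat_lit 333)))))))) (B (M (nat_lit 493) (B (M (nat_lit 396) (B (lo112_12_4 (nat_lit 525)) (M (nat_lit 459) (B (lo112_11_5 (nat_lit 364)) (M (nat_lit 494) (B (lo115_15_3 (nat_lit 495)) (lo114_15_3 (nat_lit 458)))))))) (B (M (nat_lit 459) (B (M (nat_lit 458) (B (lo114_15_3 (nat_lit 494)) (lo19_14_0 (nat_lit 457)))) (M (nat_lit 396) (B (lo112_12_4 (nat_lit 525)) (lo112_11_5 (nat_lit 364)))))) (B (M (nat_lit 396) (B (lo112_12_4 (nat_lit 525)) (M (nat_lit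 365) (B (lo112_15_6 (nat_lit 397)) (M (nat_lit 364) (B (lo112_14_6 (nat_lit 333)) (lo112_11_5 (nat_lit 459)))))))) (B (K _ _ _ o1_s42231) (M (nat_lit 525) (B (lo112_12_4 (nat_lit 396)) (M (nat_lit 526) (B (lo110_15_0 (nat_lit 490)) (M (nat_lit 527) (B (lo116_16_3 (nat_lit 528)) (lo111_15_0 (nat_lit 494))))))))))))) (M (nat_lit 490) (B (M (nat_lit 396) (B (lo112_12_5 (nat_lit 523)) (M (nat_lit 493) (B (lo112_12_4 (nat_lit 525)) (M (nat_lit 457) (B (lo113_15_3 (nat_lit 458)) (M (nat_lit 489) (B (lo112_15_3 (nat_lit 456)) (M (nat_lit 521) (B (lo113_15_1 (nat_lit 522)) (lo112_15_1 (nat_lit 520)))))))))))) (B (M (nat_lit 523) (B (lo112_12_5 (nat_lit 396)) (K _ _ _ o1_s48385))) (B (M (nat_lit 426) (B (M (nat_lit 523) (B (lo112_12_5 (nat_lit 396)) (M (nat_lit 555) (B (lo111_18_6 (nat_lit 587)) (M (nat_lit 458) (B (lo110_13_4 (nat_lit 522)) (lo110_12_4 (nat_lit 394)))))))) (B (M (nat_lit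 458) (B (M (nat_lit 457) (B (lo113_13_1 (nat_lit 427)) (M (nat_lit 456) (B (lo112_15_3 (nat_lit 489)) (lo17_14_0 (nat_lit 455)))))) (M (nat_lit 523) (B (lo110_12_4 (nat_lit 394)) (M (nat_lit 555) (B (lo111_18_6 (nat_lit 587)) (lo110_13_4 (nat_lit 522)))))))) (B (M (nat_lit 396) (B (lo112_12_5 (nat_lit 523)) (M (nat_lit 397) (B (lo112_15_6 (nat_lit 365)) (M (nat_lit 427) (B (lo110_13_2 (nat_lit 398)) (lo19_13_2 (nat_lit 425)))))))) (M (nat_lit 427) (B (M (nat_lit 457) (B (lo113_13_1 (nat_lit 458)) (M (nat_lit 456) (B (lo112_15_3 (nat_lit 489)) (lo112_13_1 (nat_lit 425)))))) (M (nat_lit 397) (B (lo110_13_2 (nat_lit 398)) (M (nat_lit 365) (B (lo113_10_5 (nat_lit 333)) (lo112_15_6 (nat_lit 396)))))))))))) (B (M (nat_lit 521) (B (M (nat_lit 522) (B (lo113_15_1 (nat_lit 493)) (M (nat_lit 520) (B (lo18_16_2 (nat_lit 523)) (lo112_15_1 (nat_lit 489)))))) (B (M (nat_lit 520) (B (lo112_15_1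 (nat_lit 489)) (M (nat_lit 522) (B (lo18_16_2 (nat_lit 523)) (lo17_16_2 (nat_lit 519)))))) (B (M (nat_lit 520) (B (lo112_15_1 (nat_lit 489)) (M (nat_lit 522) (B (lo113_15_1 (nat_lit 493)) (lo17_16_2 (nat_lit 519)))))) (B (M (nat_lit 489) (B (lo112_15_1 (nat_lit 520)) (M (nat_lit 457) (B (lo112_15_3 (nat_lit 456)) (M (nat_lit 458) (B (lo113_15_3 (nat_lit 493)) (M (nat_lit 426) (B (lo113_13_1 (nat_lit 427)) (lo110_12_5 (nat_lit 394)))))))))) (B (M (nat_lit 522) (B (lo113_15_1 (nat_lit 493)) (M (nat_lit 520) (B (lo18_16_2 (nat_lit 523)) (lo17_16_2 (nat_lit 519)))))) (M (nat_lit 458) (B (M (nat_lit 493) (B (lo113_15_1 (nat_lit 522)) (lo113_15_3 (nat_lit 457)))) (B (M (nat_lit 426) (B (M (nat_lit 394) (B (lo110_12_4 (nat_lit 523)) (lo110_12_5 (nat_lit 489)))) (B (M (nat_lit 489) (B (lo110_12_5 (nat_lit 394)) (M (nat_lit 457) (B (lo113_13_1 (nat_lit 427)) (lo19_17_6 (nat_lit 553))))))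 (B (M (nat_lit 553) (B (lo110_13_5 (nat_lit 522)) (M (nat_lit 489) (B (lo19_18_6 (nat_lit 585)) (lo19_17_6 (nat_lit 457)))))) (M (nat_lit 523) (B (lo110_12_4 (nat_lit 394)) (M (nat_lit 522) (B (lo110_13_4 (nat_lit 555)) (lo110_13_5 (nat_lit 553)))))))))) (B (M (nat_lit 457) (B (lo113_15_3 (nat_lit 493)) (M (nat_lit 456) (B (lo112_15_3 (nat_lit 489)) (lo17_14_0 (nat_lit 455)))))) (M (nat_lit 426) (B (M (nat_lit 522) (B (lo113_15_1 (nat_lit 493)) (lo110_13_5 (nat_lit 553)))) (M (nat_lit 394) (B (lo110_12_4 (nat_lit 523)) (lo110_12_5 (nat_lit 489)))))))))))))))) (B (M (nat_lit 489) (B (M (nat_lit 521) (B (lo112_15_1 (nat_lit 520)) (M (nat_lit 493) (B (lo113_15_1 (nat_lit 522)) (M (nat_lit 457) (B (lo113_15_3 (nat_lit 458)) (lo112_15_3 (nat_lit 456)))))))) (B (M (nat_lit 488) (B (M (nat_lit 520) (B (lo112_15_1 (nat_lit 521)) (lo111_15_1 (nat_lit 519)))) (M (nat_lit 456) (B (lo112_15_3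 (nat_lit 457)) (lo111_15_3 (nat_lit 455)))))) (B (M (nat_lit 493) (B (M (nat_lit 525) (B (lo110_15_0 (nat_lit 526)) (lo112_12_4 (nat_lit 396)))) (M (nat_lit 457) (B (lo113_15_3 (nat_lit 458)) (lo112_15_3 (nat_lit 456)))))) (M (nat_lit 493) (B (M (nat_lit 525) (B (lo110_15_0 (nat_lit 526)) (lo112_12_4 (nat_lit 396)))) (M (nat_lit 521) (B (lo113_15_1 (nat_lit 522)) (lo112_15_1 (nat_lit 520)))))))))) (B (M (nat_lit 396) (B (lo112_12_5 (nat_lit 523)) (M (nat_lit 397) (B (lo112_15_6 (nat_lit 365)) (M (nat_lit 489) (B (M (nat_lit 493) (B (lo112_12_4 (nat_lit 525)) (M (nat_lit 457) (B (lo113_15_3 (nat_lit 458)) (lo112_15_3 (nat_lit 456)))))) (B (M (nat_lit 520) (B (lo112_15_1 (nat_lit 521)) (M (nat_lit 488) (B (lo111_15_1 (nat_lit 519)) (M (nat_lit 456) (B (lo112_15_3 (nat_lit 457)) (lo111_15_3 (nat_lit 455)))))))) (M (nat_lit 426) (B (M (nat_lit 427) (B (lo110_13_2 (nat_lit 398))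 (lo19_13_2 (nat_lit 425)))) (B (M (nat_lit 394) (B (M (nat_lit 427) (B (lo113_13_3 (nat_lit 393)) (lo19_13_2 (nat_lit 425)))) (B (M (nat_lit 395) (B (lo19_12_0 (nat_lit 393)) (lo113_12_1 (nat_lit 425)))) (B (M (nat_lit 393) (B (lo19_12_0 (nat_lit 395)) (lo113_13_3 (nat_lit 427)))) (M (nat_lit 425) (B (lo19_13_2 (nat_lit 427)) (lo113_12_1 (nat_lit 395)))))))) (B (M (nat_lit 394) (B (M (nat_lit 395) (B (lo19_12_0 (nat_lit 393)) (lo113_12_1 (nat_lit 425)))) (M (nat_lit 521) (B (lo112_15_1 (nat_lit 520)) (lo110_12_5 (nat_lit 458)))))) (M (nat_lit 394) (B (M (nat_lit 427) (B (lo110_13_2 (nat_lit 398)) (lo113_13_3 (nat_lit 393)))) (M (nat_lit 521) (B (lo112_15_1 (nat_lit 520)) (lo110_12_5 (nat_lit 458))))))))))))))))) (M (nat_lit 493) (B (M (nat_lit 525) (B (lo110_15_0 (nat_lit 526)) (lo112_12_4 (nat_lit 396)))) (B (M (nat_lit 396) (B (lo112_12_4 (nat_lit 525)) (lo112_12_5 (nat_lit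 523)))) (B (M (nat_lit 523) (B (lo112_12_5 (nat_lit 396)) (M (nat_lit 522) (B (lo114_15_1 (nat_lit 494)) (lo113_15_1 (nat_lit 521)))))) (M (nat_lit 522) (B (lo113_15_1 (nat_lit 521)) (M (nat_lit 494) (B (lo114_15_1 (nat_lit 523)) (M (nat_lit 526) (B (lo111_15_0 (nat_lit 527)) (lo110_15_0 (nat_lit 525)))))))))))))))))))))))) (M (nat_lit 524) (B (lo112_16_6 (nat_lit 397)) (M (nat_lit 556) (B (M (nat_lit 557) (B (lo112_14_4 (nat_lit 589)) (lo112_13_4 (nat_lit 525)))) (M (nat_lit 427) (B (lo112_17_7 (nat_lit 459)) (lo112_16_7 (nat_lit 395)))))))))))) (B (K _ _ _ o1_s48784) (B (M (nat_lit 492) (B (M (nat_lit 397) (B (lo112_16_6 (nat_lit 524)) (M (nat_lit 365) (B (lo113_10_5 (nat_lit 333)) (lo112_15_6 (nat_lit 396)))))) (B (K _ _ _ o1_s48638) (B (K _ _ _ o1_s47943) (M (nat_lit 397) (B (lo112_16_6 (nat_lit 524)) (M (nat_lit 365) (B (lo113_11_5 (nat_lit 461)) (lo113_10_5 (nat_lit 333))))))))))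 (B (M (nat_lit 461) (B (M (nat_lit 462) (B (M (nat_lit 463) (B (lo116_14_3 (nat_lit 464)) (lo115_14_3 (nat_lit 427)))) (K _ _ _ o1_s48794))) (B (K _ _ _ o1_s48805) (B (K _ _ _ o1_s48808) (B (M (nat_lit 396) (B (M (nat_lit 493) (B (lo113_16_7 (nat_lit 525)) (lo112_11_4 (nat_lit 364)))) (B (M (nat_lit 364) (B (lo112_11_4 (nat_lit 493)) (lo112_10_4 (nat_lit 332)))) (B (K _ _ _ o1_s48815) (K _ _ _ o1_s48824))))) (B (M (nat_lit 462) (B (M (nat_lit 463) (B (lo116_14_3 (nat_lit 464)) (lo115_14_3 (nat_lit 427)))) (B (M (nat_lit 427) (B (lo115_14_3 (nat_lit 463)) (lo110_13_0 (nat_lit 426)))) (B (M (nat_lit 427) (B (lo110_13_0 (nat_lit 426)) (M (nat_lit 459) (B (M (nat_lit 458) (B (lo19_14_2 (nat_lit 457)) (M (nat_lit 494) (B (lo111_14_0 (nat_lit 495)) (lo110_14_0 (nat_lit 493)))))) (M (nat_lit 491) (B (lo114_14_1 (nat_lit 490)) (M (nat_lit 396) (B (lo112_11_5 (nat_lit 364)) (lo111_16_6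 (nat_lit 523)))))))))) (K _ _ _ o1_s48084))))) (B (M (nat_lit 462) (B (M (nat_lit 463) (B (lo116_14_3 (nat_lit 464)) (lo115_14_3 (nat_lit 427)))) (B (M (nat_lit 427) (B (lo115_14_3 (nat_lit 463)) (lo110_13_0 (nat_lit 426)))) (B (K _ _ _ o1_s48080) (K _ _ _ o1_s48084))))) (B (M (nat_lit 462) (B (M (nat_lit 463) (B (lo116_14_3 (nat_lit 464)) (lo115_14_3 (nat_lit 427)))) (B (M (nat_lit 427) (B (lo115_14_3 (nat_lit 463)) (lo110_13_0 (nat_lit 426)))) (M (nat_lit 397) (B (M (nat_lit 365) (B (lo113_11_4 (nat_lit 494)) (lo113_11_5 (nat_lit 492)))) (B (M (nat_lit 365) (B (lo113_11_5 (nat_lit 492)) (lo113_10_5 (nat_lit 333)))) (M (nat_lit 459) (B (M (nat_lit 458) (B (lo19_14_2 (nat_lit 457)) (M (nat_lit 490) (B (lo114_14_1 (nat_lit 491)) (lo113_14_1 (nat_lit 489)))))) (M (nat_lit 494) (B (lo111_14_0 (nat_lit 495)) (M (nat_lit 526) (B (lo114_17_7 (nat_lit 558)) (lo113_12_4 (nat_lit 493))))))))))))))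 (B (M (nat_lit 396) (B (M (nat_lit 493) (B (lo113_16_7 (nat_lit 525)) (lo112_11_4 (nat_lit 364)))) (B (M (nat_lit 364) (B (lo112_11_4 (nat_lit 493)) (lo112_10_4 (nat_lit 332)))) (B (K _ _ _ o1_s48849) (K _ _ _ o1_s48824))))) (M (nat_lit 493) (B (M (nat_lit 525) (B (lo113_17_7 (nat_lit 557)) (lo113_16_7 (nat_lit 396)))) (B (M (nat_lit 396) (B (lo113_16_7 (nat_lit 525)) (lo112_11_4 (nat_lit 364)))) (M (nat_lit 494) (B (M (nat_lit 495) (B (lo116_15_3 (nat_lit 496)) (M (nat_lit 459) (B (lo111_14_0 (nat_lit 462)) (lo110_14_0 (nat_lit 458)))))) (B (M (nat_lit 397) (B (lo113_12_4 (nat_lit 526)) (M (nat_lit 365) (B (lo113_11_4 (nat_lit 462)) (lo113_11_5 (nat_lit 492)))))) (M (nat_lit 495) (B (lo116_15_3 (nat_lit 496)) (M (nat_lit 459) (B (lo115_15_3 (nat_lit 492)) (lo110_14_0 (nat_lit 458))))))))))))))))))))) (B (M (nat_lit 461) (B (K _ _ _ o1_s48805) (B (K _ _ _ o1_s48808) (B (M (nat_lit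 493) (B (M (nat_lit 525) (B (lo113_17_7 (nat_lit 557)) (lo113_16_7 (nat_lit 396)))) (B (M (nat_lit 396) (B (lo113_16_7 (nat_lit 525)) (lo112_11_4 (nat_lit 364)))) (B (M (nat_lit 396) (B (lo112_11_4 (nat_lit 364)) (M (nat_lit 397) (B (M (nat_lit 494) (B (lo113_12_4 (nat_lit 526)) (M (nat_lit 365) (B (lo113_11_4 (nat_lit 462)) (lo113_10_5 (nat_lit 333)))))) (M (nat_lit 398) (B (lo113_15_6 (nat_lit 366)) (M (nat_lit 399) (B (lo116_12_1 (nat_lit 400)) (lo115_12_1 (nat_lit 427)))))))))) (K _ _ _ o1_s48873))))) (B (M (nat_lit 493) (B (M (nat_lit 396) (B (lo113_16_7 (nat_lit 525)) (lo112_11_4 (nat_lit 364)))) (M (nat_lit 462) (B (M (nat_lit 427) (B (lo115_14_3 (nat_lit 463)) (lo110_13_0 (nat_lit 426)))) (M (nat_lit 494) (B (M (nat_lit 495) (B (lo116_15_3 (nat_lit 496)) (lo111_14_0 (nat_lit 459)))) (M (nat_lit 397) (B (lo113_12_4 (nat_lit 526)) (lo113_11_4 (nat_lit 365)))))))))) (B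 (M (nat_lit 396) (B (M (nat_lit 364) (B (lo112_11_4 (nat_lit 493)) (lo112_10_4 (nat_lit 332)))) (B (M (nat_lit 364) (B (lo112_10_4 (nat_lit 332)) (M (nat_lit 462) (B (M (nat_lit 463) (B (lo116_14_3 (nat_lit 464)) (lo115_14_3 (nat_lit 427)))) (M (nat_lit 494) (B (M (nat_lit 459) (B (lo111_14_0 (nat_lit 495)) (lo112_11_5 (nat_lit 491)))) (M (nat_lit 365) (B (lo113_11_4 (nat_lit 397)) (lo112_14_6 (nat_lit 333)))))))))) (M (nat_lit 462) (B (M (nat_lit 463) (B (lo116_14_3 (nat_lit 464)) (lo115_14_3 (nat_lit 427)))) (B (M (nat_lit 427) (B (lo115_14_3 (nat_lit 463)) (lo110_13_0 (nat_lit 426)))) (B (K _ _ _ o1_s48905) (K _ _ _ o1_s48912)))))))) (B (M (nat_lit 459) (B (K _ _ _ o1_s48918) (B (M (nat_lit 458) (B (lo19_14_2 (nat_lit 457)) (M (nat_lit 426) (B (lo113_14_3 (nat_lit 425)) (M (nat_lit 427) (B (M (nat_lit 490) (B (lo113_14_1 (nat_lit 489)) (M (nat_lit 522) (B (lo110_17_6 (nat_lit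 554)) (lo110_16_6 (nat_lit 395)))))) (M (nat_lit 394) (B (lo113_13_3 (nat_lit 393)) (M (nat_lit 491) (B (lo111_16_7 (nat_lit 523)) (lo110_11_4 (nat_lit 362)))))))))))) (B (M (nat_lit 458) (B (lo19_14_2 (nat_lit 457)) (M (nat_lit 426) (B (lo113_14_3 (nat_lit 425)) (M (nat_lit 427) (B (lo110_13_0 (nat_lit 462)) (M (nat_lit 490) (B (lo113_14_1 (nat_lit 489)) (M (nat_lit 522) (B (lo110_17_6 (nat_lit 554)) (lo110_16_6 (nat_lit 395)))))))))))) (B (K _ _ _ o1_s48933) (B (M (nat_lit 426) (B (M (nat_lit 427) (B (lo110_13_0 (nat_lit 462)) (lo19_13_0 (nat_lit 425)))) (B (M (nat_lit 458) (B (lo113_14_3 (nat_lit 425)) (lo19_14_2 (nat_lit 457)))) (M (nat_lit 364) (B (M (nat_lit 396) (B (lo112_11_4 (nat_lit 493)) (lo112_10_4 (nat_lit 332)))) (B (M (nat_lit 396) (B (lo112_10_4 (nat_lit 332)) (lo112_11_5 (nat_lit 491)))) (B (M (nat_lit 397) (B (M (nat_lit 427) (B (lo110_13_0 (nat_lit 462))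 (lo110_13_2 (nat_lit 398)))) (M (nat_lit 365) (B (lo113_14_7 (nat_lit 332)) (lo113_10_5 (nat_lit 333)))))) (M (nat_lit 396) (B (lo112_11_4 (nat_lit 493)) (lo112_11_5 (nat_lit 491))))))))))) (B (M (nat_lit 427) (B (M (nat_lit 462) (B (lo115_14_3 (nat_lit 463)) (lo110_13_0 (nat_lit 426)))) (B (M (nat_lit 426) (B (lo110_13_0 (nat_lit 462)) (lo19_13_0 (nat_lit 425)))) (B (M (nat_lit 364) (B (M (nat_lit 396) (B (lo112_11_4 (nat_lit 493)) (lo112_10_4 (nat_lit 332)))) (B (M (nat_lit 396) (B (lo112_10_4 (nat_lit 332)) (lo112_11_5 (nat_lit 491)))) (B (M (nat_lit 397) (B (M (nat_lit 426) (B (lo110_13_2 (nat_lit 398)) (lo19_13_0 (nat_lit 425)))) (M (nat_lit 365) (B (lo113_14_7 (nat_lit 332)) (lo113_10_5 (nat_lit 333)))))) (M (nat_lit 396) (B (lo112_11_4 (nat_lit 493)) (lo112_11_5 (nat_lit 491)))))))) (M (nat_lit 491) (B (M (nat_lit 462) (B (lo115_14_3 (nat_lit 463)) (lo114_14_1 (nat_lit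 490)))) (M (nat_lit 523) (B (lo111_17_6 (nat_lit 555)) (lo111_16_6 (nat_lit 396)))))))))) (K _ _ _ o1_s48955)))))))) (B (K _ _ _ o1_s48961) (B (K _ _ _ o1_s48087) (B (K _ _ _ o1_s48967) (M (nat_lit 493) (B (M (nat_lit 525) (B (lo113_17_7 (nat_lit 557)) (lo113_16_7 (nat_lit 396)))) (B (M (nat_lit 396) (B (lo113_16_7 (nat_lit 525)) (lo112_11_4 (nat_lit 364)))) (B (M (nat_lit 397) (B (M (nat_lit 364) (B (lo113_15_7 (nat_lit 396)) (M (nat_lit 365) (B (lo113_14_7 (nat_lit 332)) (lo113_10_5 (nat_lit 333)))))) (M (nat_lit 494) (B (lo113_12_4 (nat_lit 526)) (M (nat_lit 459) (B (lo110_14_0 (nat_lit 458)) (M (nat_lit 495) (B (lo116_15_3 (nat_lit 496)) (lo111_14_0 (nat_lit 462)))))))))) (M (nat_lit 494) (B (M (nat_lit 397) (B (lo113_12_4 (nat_lit 526)) (M (nat_lit 365) (B (lo113_11_4 (nat_lit 462)) (lo113_10_5 (nat_lit 333)))))) (B (M (nat_lit 495) (B (lo116_15_3 (nat_lit 496)) (M (nat_lit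 459) (B (lo111_14_0 (nat_lit 462)) (lo110_14_0 (nat_lit 458)))))) (M (nat_lit 526) (B (lo113_12_4 (nat_lit 397)) (M (nat_lit 525) (B (lo113_13_4 (nat_lit 558)) (lo113_17_7 (nat_lit 557))))))))))))))))))))))) (B (K _ _ _ o1_s49099) (B (M (nat_lit 492) (B (M (nat_lit 397) (B (lo112_16_6 (nat_lit 524)) (M (nat_lit 365) (B (lo113_11_5 (nat_lit 461)) (lo113_10_5 (nat_lit 333)))))) (B (M (nat_lit 397) (B (lo112_16_6 (nat_lit 524)) (M (nat_lit 365) (B (lo113_10_5 (nat_lit 333)) (lo112_15_6 (nat_lit 396)))))) (B (M (nat_lit 461) (B (M (nat_lit 524) (B (lo112_17_6 (nat_lit 556)) (M (nat_lit 427) (B (lo112_16_7 (nat_lit 395)) (M (nat_lit 462) (B (lo115_14_3 (nat_lit 463)) (lo110_13_0 (nat_lit 426)))))))) (B (M (nat_lit 524) (B (lo112_17_6 (nat_lit 556)) (K _ _ _ o1_s48765))) (M (nat_lit 462) (B (M (nat_lit 463) (B (lo116_14_3 (nat_lit 464)) (lo115_14_1 (nat_lit 491)))) (B (M (nat_lit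 463) (B (lo115_14_1 (nat_lit 491)) (lo115_14_3 (nat_lit 427)))) (B (M (nat_lit 493) (B (M (nat_lit 525) (B (lo113_17_7 (nat_lit 557)) (lo113_16_7 (nat_lit 396)))) (K _ _ _ o1_s48775))) (M (nat_lit 427) (B (lo115_14_3 (nat_lit 463)) (lo110_13_0 (nat_lit 426))))))))))) (M (nat_lit 493) (B (M (nat_lit 525) (B (lo112_12_4 (nat_lit 396)) (M (nat_lit 557) (B (lo113_18_7 (nat_lit 589)) (lo113_17_7 (nat_lit 461)))))) (B (M (nat_lit 396) (B (lo112_12_4 (nat_lit 525)) (M (nat_lit 365) (B (lo112_15_6 (nat_lit 397)) (M (nat_lit 364) (B (lo112_11_4 (nat_lit 461)) (lo112_14_6 (nat_lit 333)))))))) (B (M (nat_lit 461) (B (M (nat_lit 494) (B (M (nat_lit 495) (B (lo116_15_3 (nat_lit 496)) (lo115_15_3 (nat_lit 459)))) (M (nat_lit 397) (B (lo113_12_4 (nat_lit 526)) (lo113_11_5 (nat_lit 365)))))) (B (M (nat_lit 463) (B (M (nat_lit 462) (B (lo116_14_1 (nat_lit 464)) (lo115_14_1 (nat_lit 491))))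 (B (M (nat_lit 462) (B (lo115_14_1 (nat_lit 491)) (lo115_14_3 (nat_lit 427)))) (M (nat_lit 494) (B (M (nat_lit 495) (B (lo112_15_2 (nat_lit 464)) (lo115_15_3 (nat_lit 459)))) (M (nat_lit 397) (B (lo113_12_4 (nat_lit 526)) (lo113_11_5 (nat_lit 365))))))))) (B (M (nat_lit 397) (B (lo113_11_5 (nat_lit 365)) (M (nat_lit 396) (B (lo113_15_7 (nat_lit 364)) (M (nat_lit 398) (B (lo113_15_6 (nat_lit 366)) (M (nat_lit 427) (B (lo115_12_1 (nat_lit 399)) (lo110_13_2 (nat_lit 426)))))))))) (K _ _ _ o1_s48777))))) (B (M (nat_lit 396) (B (lo112_12_4 (nat_lit 525)) (M (nat_lit 364) (B (M (nat_lit 365) (B (lo112_15_6 (nat_lit 397)) (lo112_14_6 (nat_lit 333)))) (B (M (nat_lit 332) (B (M (nat_lit 333) (B (lo112_14_6 (nat_lit 365)) (lo112_13_6 (nat_lit 301)))) (M (nat_lit 459) (B (lo112_11_5 (nat_lit 491)) (lo112_10_5 (nat_lit 427)))))) (M (nat_lit 332) (B (M (nat_lit 459) (B (lo112_11_5 (nat_lit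 491)) (lo112_10_5 (nat_lit 427)))) (B (M (nat_lit 300) (B (lo112_9_4 (nat_lit 397)) (M (nat_lit 427) (B (lo112_10_5 (nat_lit 459)) (lo112_9_5 (nat_lit 395)))))) (M (nat_lit 300) (B (lo112_9_4 (nat_lit 397)) (M (nat_lit 299) (B (lo112_13_7 (nat_lit 331)) (lo112_12_7 (nat_lit 267)))))))))))))) (K _ _ _ o1_s49137)))))))))) (B (M (nat_lit 427) (B (M (nat_lit 397) (B (M (nat_lit 426) (B (lo110_13_2 (nat_lit 398)) (M (nat_lit 425) (B (lo19_13_0 (nat_lit 461)) (lo19_13_2 (nat_lit 396)))))) (B (M (nat_lit 365) (B (lo113_10_5 (nat_lit 333)) (M (nat_lit 492) (B (lo113_11_5 (nat_lit 461)) (lo112_16_6 (nat_lit 524)))))) (M (nat_lit 365) (B (lo113_10_5 (nat_lit 333)) (M (nat_lit 492) (B (lo112_16_6 (nat_lit 524)) (lo112_15_6 (nat_lit 396))))))))) (B (M (nat_lit 461) (B (M (nat_lit 462) (B (lo115_14_3 (nat_lit 463)) (lo110_13_0 (nat_lit 426)))) (B (M (nat_lit 426) (B (lo110_13_0 (nat_lit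 462)) (lo19_13_0 (nat_lit 425)))) (M (nat_lit 492) (B (M (nat_lit 397) (B (lo113_11_5 (nat_lit 365)) (lo112_16_6 (nat_lit 524)))) (B (M (nat_lit 524) (B (lo112_17_6 (nat_lit 556)) (lo112_16_7 (nat_lit 395)))) (M (nat_lit 493) (B (M (nat_lit 396) (B (lo113_16_7 (nat_lit 525)) (lo112_11_4 (nat_lit 364)))) (M (nat_lit 494) (B (M (nat_lit 495) (B (lo116_15_3 (nat_lit 496)) (lo115_15_3 (nat_lit 459)))) (M (nat_lit 397) (B (lo113_12_4 (nat_lit 526)) (lo113_11_5 (nat_lit 365)))))))))))))) (B (M (nat_lit 397) (B (M (nat_lit 365) (B (lo113_10_5 (nat_lit 333)) (M (nat_lit 492) (B (lo112_16_6 (nat_lit 524)) (lo112_15_6 (nat_lit 396)))))) (B (M (nat_lit 426) (B (lo110_13_2 (nat_lit 398)) (M (nat_lit 425) (B (lo19_13_2 (nat_lit 396)) (M (nat_lit 457) (B (lo113_13_1 (nat_lit 458)) (lo112_13_1 (nat_lit 456)))))))) (K _ _ _ o1_s49169)))) (B (M (nat_lit 426) (B (M (nat_lit 461) (B (lo110_13_0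 (nat_lit 462)) (lo19_13_0 (nat_lit 425)))) (B (M (nat_lit 457) (B (lo113_13_1 (nat_lit 458)) (M (nat_lit 425) (B (lo19_13_0 (nat_lit 461)) (lo112_13_1 (nat_lit 456)))))) (B (M (nat_lit 425) (B (M (nat_lit 457) (B (lo113_13_1 (nat_lit 458)) (lo112_13_1 (nat_lit 456)))) (M (nat_lit 393) (B (lo113_13_3 (nat_lit 394)) (lo112_13_3 (nat_lit 392)))))) (M (nat_lit 461) (B (lo110_13_0 (nat_lit 462)) (M (nat_lit 458) (B (lo113_13_1 (nat_lit 457)) (M (nat_lit 459) (B (M (nat_lit 490) (B (lo113_14_1 (nat_lit 489)) (M (nat_lit 522) (B (lo110_17_6 (nat_lit 554)) (lo110_16_6 (nat_lit 395)))))) (M (nat_lit 493) (B (lo110_14_0 (nat_lit 494)) (M (nat_lit 525) (B (lo113_17_7 (nat_lit 557)) (lo113_16_7 (nat_lit 396)))))))))))))))) (B (M (nat_lit 397) (B (M (nat_lit 365) (B (lo113_10_5 (nat_lit 333)) (M (nat_lit 492) (B (lo113_11_5 (nat_lit 461)) (lo112_16_6 (nat_lit 524)))))) (K _ _ _ o1_s49169)))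 (M (nat_lit 493) (B (M (nat_lit 492) (B (M (nat_lit 524) (B (lo112_16_6 (nat_lit 397)) (lo112_16_7 (nat_lit 395)))) (M (nat_lit 525) (B (lo112_12_4 (nat_lit 396)) (M (nat_lit 557) (B (lo113_18_7 (nat_lit 589)) (lo113_17_7 (nat_lit 461)))))))) (B (M (nat_lit 525) (B (M (nat_lit 461) (B (lo113_17_7 (nat_lit 557)) (lo113_16_7 (nat_lit 396)))) (B (M (nat_lit 396) (B (lo113_16_7 (nat_lit 461)) (lo112_12_4 (nat_lit 492)))) (B (M (nat_lit 492) (B (lo112_12_4 (nat_lit 396)) (M (nat_lit 524) (B (lo112_13_4 (nat_lit 557)) (lo112_16_6 (nat_lit 397)))))) (M (nat_lit 524) (B (M (nat_lit 557) (B (lo113_17_7 (nat_lit 461)) (lo112_13_4 (nat_lit 492)))) (B (M (nat_lit 492) (B (lo112_16_6 (nat_lit 397)) (lo112_16_7 (nat_lit 395)))) (M (nat_lit 461) (B (lo113_17_7 (nat_lit 557)) (lo113_13_5 (nat_lit 556))))))))))) (B (M (nat_lit 461) (B (M (nat_lit 396) (B (lo113_16_7 (nat_lit 525)) (lo112_11_4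 (nat_lit 364)))) (M (nat_lit 492) (B (M (nat_lit 397) (B (lo113_12_5 (nat_lit 524)) (lo113_11_5 (nat_lit 365)))) (B (M (nat_lit 524) (B (lo112_17_6 (nat_lit 556)) (lo112_16_7 (nat_lit 395)))) (M (nat_lit 494) (B (M (nat_lit 495) (B (lo116_15_3 (nat_lit 496)) (lo115_15_3 (nat_lit 459)))) (M (nat_lit 397) (B (lo113_12_4 (nat_lit 526)) (lo113_11_5 (nat_lit 365))))))))))) (B (M (nat_lit 397) (B (M (nat_lit 492) (B (lo112_16_6 (nat_lit 524)) (M (nat_lit 365) (B (lo113_11_5 (nat_lit 461)) (lo113_10_5 (nat_lit 333)))))) (B (M (nat_lit 492) (B (lo112_16_6 (nat_lit 524)) (M (nat_lit 365) (B (lo113_10_5 (nat_lit 333)) (lo112_15_6 (nat_lit 396)))))) (B (M (nat_lit 492) (B (lo112_16_6 (nat_lit 524)) (M (nat_lit 461) (B (M (nat_lit 494) (B (lo113_12_4 (nat_lit 526)) (M (nat_lit 495) (B (lo116_15_3 (nat_lit 496)) (lo115_15_3 (nat_lit 459)))))) (M (nat_lit 396) (B (lo113_15_7 (nat_lit 364))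 (M (nat_lit 398) (B (lo115_12_1 (nat_lit 399)) (lo113_15_6 (nat_lit 366)))))))))) (B (M (nat_lit 365) (B (lo113_10_5 (nat_lit 333)) (M (nat_lit 492) (B (lo113_11_5 (nat_lit 461)) (lo112_15_6 (nat_lit 396)))))) (M (nat_lit 461) (B (M (nat_lit 396) (B (lo113_15_7 (nat_lit 364)) (M (nat_lit 398) (B (lo115_12_1 (nat_lit 399)) (lo113_15_6 (nat_lit 366)))))) (M (nat_lit 494) (B (lo113_12_4 (nat_lit 526)) (M (nat_lit 462) (B (lo115_14_3 (nat_lit 463)) (lo113_11_4 (nat_lit 365))))))))))))) (B (M (nat_lit 492) (B (M (nat_lit 524) (B (lo112_16_6 (nat_lit 397)) (lo112_16_7 (nat_lit 395)))) (B (M (nat_lit 524) (B (lo112_16_7 (nat_lit 395)) (M (nat_lit 525) (B (lo112_13_4 (nat_lit 557)) (lo112_12_4 (nat_lit 396)))))) (B (M (nat_lit 396) (B (lo112_12_4 (nat_lit 525)) (M (nat_lit 364) (B (M (nat_lit 365) (B (lo112_15_6 (nat_lit 397)) (lo112_14_6 (nat_lit 333)))) (B (M (nat_lit 332) (B (lo112_10_5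 (nat_lit 459)) (M (nat_lit 333) (B (lo112_14_6 (nat_lit 365)) (lo112_13_6 (nat_lit 301)))))) (M (nat_lit 332) (B (lo112_10_5 (nat_lit 459)) (M (nat_lit 300) (B (lo112_9_4 (nat_lit 397)) (lo112_9_5 (nat_lit 395))))))))))) (M (nat_lit 524) (B (lo112_16_6 (nat_lit 397)) (M (nat_lit 525) (B (lo112_13_4 (nat_lit 557)) (lo112_12_4 (nat_lit 396)))))))))) (B (M (nat_lit 525) (B (M (nat_lit 461) (B (lo113_17_7 (nat_lit 557)) (lo113_16_7 (nat_lit 396)))) (B (M (nat_lit 396) (B (lo113_16_7 (nat_lit 461)) (lo112_12_4 (nat_lit 492)))) (B (M (nat_lit 492) (B (lo112_12_4 (nat_lit 396)) (M (nat_lit 557) (B (lo113_18_7 (nat_lit 589)) (lo112_13_4 (nat_lit 524)))))) (M (nat_lit 557) (B (lo113_17_7 (nat_lit 461)) (M (nat_lit 492) (B (lo113_18_7 (nat_lit 589)) (lo112_13_4 (nat_lit 524)))))))))) (B (M (nat_lit 461) (B (M (nat_lit 525) (B (lo113_17_7 (nat_lit 557)) (lo113_16_7 (nat_lit 396)))) (B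 (M (nat_lit 396) (B (lo113_16_7 (nat_lit 525)) (lo112_11_4 (nat_lit 364)))) (B (M (nat_lit 396) (B (lo112_11_4 (nat_lit 364)) (M (nat_lit 397) (B (M (nat_lit 398) (B (lo115_12_1 (nat_lit 399)) (lo113_15_6 (nat_lit 366)))) (M (nat_lit 365) (B (lo113_11_5 (nat_lit 492)) (lo113_10_5 (nat_lit 333)))))))) (M (nat_lit 397) (B (M (nat_lit 365) (B (lo113_11_5 (nat_lit 492)) (lo113_10_5 (nat_lit 333)))) (M (nat_lit 526) (B (lo113_12_4 (nat_lit 494)) (M (nat_lit 525) (B (lo113_13_4 (nat_lit 558)) (lo113_17_7 (nat_lit 557)))))))))))) (B (M (nat_lit 461) (B (M (nat_lit 396) (B (lo113_16_7 (nat_lit 525)) (lo112_11_4 (nat_lit 364)))) (M (nat_lit 462) (B (lo115_14_3 (nat_lit 463)) (M (nat_lit 494) (B (M (nat_lit 495) (B (lo116_15_3 (nat_lit 496)) (lo111_14_0 (nat_lit 459)))) (M (nat_lit 397) (B (lo113_12_4 (nat_lit 526)) (lo113_11_4 (nat_lit 365)))))))))) (M (nat_lit 524) (B (M (nat_lit 492)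 (B (lo112_16_6 (nat_lit 397)) (lo112_16_7 (nat_lit 395)))) (B (M (nat_lit 492) (B (lo112_16_7 (nat_lit 395)) (M (nat_lit 556) (B (lo112_17_6 (nat_lit 461)) (lo112_17_7 (nat_lit 459)))))) (M (nat_lit 461) (B (M (nat_lit 525) (B (lo113_17_7 (nat_lit 557)) (lo113_13_5 (nat_lit 556)))) (M (nat_lit 462) (B (lo115_14_3 (nat_lit 463)) (M (nat_lit 494) (B (M (nat_lit 495) (B (lo116_15_3 (nat_lit 496)) (lo111_14_0 (nat_lit 459)))) (M (nat_lit 526) (B (lo114_17_7 (nat_lit 558)) (lo113_12_4 (nat_lit 397)))))))))))))))))))))))))))) (B (M (nat_lit 492) (B (M (nat_lit 397) (B (lo112_16_6 (nat_lit 524)) (M (nat_lit 365) (B (lo113_10_5 (nat_lit 333)) (lo112_15_6 (nat_lit 396)))))) (B (K _ _ _ o1_s47938) (B (M (nat_lit 397) (B (M (nat_lit 365) (B (lo113_11_5 (nat_lit 461)) (lo113_10_5 (nat_lit 333)))) (B (M (nat_lit 365) (B (lo113_10_5 (nat_lit 333)) (lo112_15_6 (nat_lit 396)))) (M (nat_lit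 491) (B (M (nat_lit 396) (B (lo112_12_5 (nat_lit 523)) (M (nat_lit 493) (B (lo112_12_4 (nat_lit 525)) (M (nat_lit 461) (B (lo113_15_7 (nat_lit 364)) (M (nat_lit 462) (B (lo115_14_1 (nat_lit 463)) (lo110_15_2 (nat_lit 490)))))))))) (B (M (nat_lit 396) (B (lo112_12_5 (nat_lit 523)) (M (nat_lit 493) (B (lo112_12_4 (nat_lit 525)) (M (nat_lit 461) (B (lo113_15_7 (nat_lit 364)) (M (nat_lit 490) (B (lo110_15_2 (nat_lit 462)) (lo19_15_2 (nat_lit 489)))))))))) (B (M (nat_lit 493) (B (M (nat_lit 396) (B (lo112_12_4 (nat_lit 525)) (lo112_12_5 (nat_lit 523)))) (B (M (nat_lit 494) (B (M (nat_lit 526) (B (lo111_15_0 (nat_lit 527)) (lo113_12_4 (nat_lit 461)))) (M (nat_lit 523) (B (lo114_15_1 (nat_lit 522)) (lo112_12_5 (nat_lit 396)))))) (B (M (nat_lit 490) (B (M (nat_lit 525) (B (lo110_15_0 (nat_lit 526)) (M (nat_lit 461) (B (lo113_17_7 (nat_lit 557)) (lo19_15_2 (nat_lit 489)))))) (B (M (nat_lit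 521) (B (lo113_15_1 (nat_lit 522)) (M (nat_lit 489) (B (lo19_15_2 (nat_lit 461)) (lo112_15_1 (nat_lit 520)))))) (M (nat_lit 494) (B (M (nat_lit 526) (B (lo111_15_0 (nat_lit 527)) (lo110_15_0 (nat_lit 525)))) (M (nat_lit 522) (B (lo114_15_1 (nat_lit 523)) (lo113_15_1 (nat_lit 521))))))))) (M (nat_lit 526) (B (M (nat_lit 494) (B (lo111_15_0 (nat_lit 527)) (lo113_12_4 (nat_lit 461)))) (M (nat_lit 525) (B (lo110_15_0 (nat_lit 490)) (lo112_12_4 (nat_lit 396)))))))))) (B (M (nat_lit 493) (B (M (nat_lit 396) (B (lo112_12_5 (nat_lit 523)) (M (nat_lit 461) (B (lo113_15_7 (nat_lit 364)) (M (nat_lit 490) (B (lo110_15_2 (nat_lit 462)) (lo19_15_2 (nat_lit 489)))))))) (B (M (nat_lit 523) (B (lo112_12_5 (nat_lit 396)) (M (nat_lit 522) (B (lo114_15_1 (nat_lit 494)) (M (nat_lit 521) (B (lo113_15_1 (nat_lit 490)) (lo18_16_2 (nat_lit 520)))))))) (B (M (nat_lit 461) (B (M (nat_lit 462) (B (lo115_14_1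 (nat_lit 463)) (lo110_15_2 (nat_lit 490)))) (B (M (nat_lit 490) (B (lo110_15_2 (nat_lit 462)) (lo19_15_2 (nat_lit 489)))) (B (M (nat_lit 522) (B (M (nat_lit 494) (B (lo113_12_4 (nat_lit 526)) (lo114_15_1 (nat_lit 523)))) (M (nat_lit 490) (B (lo113_15_1 (nat_lit 521)) (lo19_15_2 (nat_lit 489)))))) (M (nat_lit 463) (B (lo115_14_1 (nat_lit 462)) (M (nat_lit 494) (B (lo113_12_4 (nat_lit 526)) (M (nat_lit 495) (B (lo116_15_3 (nat_lit 496)) (lo112_15_2 (nat_lit 464)))))))))))) (B (M (nat_lit 461) (B (M (nat_lit 462) (B (lo115_14_1 (nat_lit 463)) (lo110_15_2 (nat_lit 490)))) (B (M (nat_lit 490) (B (lo110_15_2 (nat_lit 462)) (lo19_15_2 (nat_lit 489)))) (M (nat_lit 396) (B (lo113_15_7 (nat_lit 364)) (M (nat_lit 398) (B (lo113_15_6 (nat_lit 366)) (M (nat_lit 399) (B (lo116_12_1 (nat_lit 400)) (lo115_12_1 (nat_lit 427))))))))))) (M (nat_lit 396) (B (lo112_12_5 (nat_lit 523)) (M (nat_lit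 398) (B (M (nat_lit 399) (B (lo116_12_1 (nat_lit 400)) (lo115_12_1 (nat_lit 427)))) (M (nat_lit 461) (B (lo113_15_6 (nat_lit 366)) (lo113_15_7 (nat_lit 364))))))))))))) (B (M (nat_lit 426) (B (M (nat_lit 427) (B (lo110_13_2 (nat_lit 398)) (M (nat_lit 461) (B (lo110_13_0 (nat_lit 462)) (lo19_13_0 (nat_lit 425)))))) (B (M (nat_lit 427) (B (lo110_13_2 (nat_lit 398)) (M (nat_lit 396) (B (lo19_13_2 (nat_lit 425)) (lo112_12_5 (nat_lit 523)))))) (M (nat_lit 490) (B (M (nat_lit 523) (B (lo112_12_5 (nat_lit 396)) (M (nat_lit 555) (B (lo111_18_6 (nat_lit 587)) (M (nat_lit 458) (B (lo110_13_4 (nat_lit 522)) (lo110_12_4 (nat_lit 394)))))))) (M (nat_lit 489) (B (lo19_15_2 (nat_lit 461)) (M (nat_lit 488) (B (M (nat_lit 520) (B (lo112_15_1 (nat_lit 521)) (lo111_15_1 (nat_lit 519)))) (M (nat_lit 456) (B (lo112_15_3 (nat_lit 457)) (lo111_15_3 (nat_lit 455))))))))))))) (B (M (nat_lit 426) (B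 (M (nat_lit 427) (B (lo110_13_2 (nat_lit 398)) (M (nat_lit 396) (B (lo19_13_2 (nat_lit 425)) (lo112_12_5 (nat_lit 523)))))) (B (M (nat_lit 490) (B (M (nat_lit 523) (B (lo112_12_5 (nat_lit 396)) (M (nat_lit 555) (B (lo111_18_6 (nat_lit 587)) (M (nat_lit 458) (B (lo110_13_4 (nat_lit 522)) (lo110_12_4 (nat_lit 394)))))))) (B (M (nat_lit 458) (B (M (nat_lit 523) (B (lo110_12_4 (nat_lit 394)) (M (nat_lit 555) (B (lo111_18_6 (nat_lit 587)) (lo110_13_4 (nat_lit 522)))))) (M (nat_lit 457) (B (lo113_15_3 (nat_lit 493)) (M (nat_lit 456) (B (lo112_15_3 (nat_lit 489)) (lo17_14_0 (nat_lit 455)))))))) (B (M (nat_lit 493) (B (M (nat_lit 525) (B (lo110_15_0 (nat_lit 526)) (lo112_12_4 (nat_lit 396)))) (B (M (nat_lit 396) (B (lo112_12_4 (nat_lit 525)) (lo112_12_5 (nat_lit 523)))) (B (M (nat_lit 523) (B (lo112_12_5 (nat_lit 396)) (M (nat_lit 522) (B (lo114_15_1 (nat_lit 494)) (lo113_15_1 (nat_lit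 521)))))) (M (nat_lit 522) (B (lo113_15_1 (nat_lit 521)) (M (nat_lit 494) (B (lo114_15_1 (nat_lit 523)) (M (nat_lit 526) (B (lo111_15_0 (nat_lit 527)) (lo110_15_0 (nat_lit 525)))))))))))) (B (M (nat_lit 493) (B (M (nat_lit 525) (B (lo110_15_0 (nat_lit 526)) (lo112_12_4 (nat_lit 396)))) (M (nat_lit 457) (B (lo113_15_3 (nat_lit 458)) (M (nat_lit 489) (B (lo112_15_3 (nat_lit 456)) (M (nat_lit 521) (B (lo113_15_1 (nat_lit 522)) (lo112_15_1 (nat_lit 520)))))))))) (M (nat_lit 458) (B (M (nat_lit 523) (B (lo112_12_5 (nat_lit 396)) (lo110_12_4 (nat_lit 394)))) (M (nat_lit 457) (B (lo113_15_3 (nat_lit 493)) (M (nat_lit 456) (B (lo112_15_3 (nat_lit 489)) (lo17_14_0 (nat_lit 455))))))))))))) (M (nat_lit 427) (B (lo110_13_2 (nat_lit 398)) (M (nat_lit 425) (B (M (nat_lit 457) (B (lo113_13_1 (nat_lit 458)) (lo112_13_1 (nat_lit 456)))) (M (nat_lit 393) (B (lo113_13_3 (nat_lit 394)) (lo112_13_3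 (nat_lit 392))))))))))) (B (M (nat_lit 490) (B (M (nat_lit 461) (B (lo19_15_2 (nat_lit 489)) (M (nat_lit 462) (B (lo115_14_1 (nat_lit 463)) (lo110_15_2 (nat_lit 493)))))) (B (M (nat_lit 461) (B (lo19_15_2 (nat_lit 489)) (M (nat_lit 493) (B (lo110_15_2 (nat_lit 462)) (M (nat_lit 526) (B (lo113_12_4 (nat_lit 494)) (lo110_15_0 (nat_lit 525)))))))) (B (M (nat_lit 493) (B (M (nat_lit 525) (B (lo110_15_0 (nat_lit 526)) (M (nat_lit 461) (B (lo113_17_7 (nat_lit 557)) (lo19_15_2 (nat_lit 489)))))) (B (M (nat_lit 521) (B (lo113_15_1 (nat_lit 522)) (M (nat_lit 489) (B (lo19_15_2 (nat_lit 461)) (lo112_15_1 (nat_lit 520)))))) (M (nat_lit 494) (B (M (nat_lit 526) (B (lo111_15_0 (nat_lit 527)) (lo110_15_0 (nat_lit 525)))) (M (nat_lit 522) (B (lo114_15_1 (nat_lit 523)) (lo113_15_1 (nat_lit 521))))))))) (B (M (nat_lit 489) (B (lo19_15_2 (nat_lit 461)) (M (nat_lit 488) (B (M (nat_lit 520) (B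 (lo112_15_1 (nat_lit 521)) (lo111_15_1 (nat_lit 519)))) (M (nat_lit 456) (B (lo112_15_3 (nat_lit 457)) (lo111_15_3 (nat_lit 455)))))))) (B (M (nat_lit 458) (B (M (nat_lit 457) (B (lo113_15_3 (nat_lit 493)) (M (nat_lit 456) (B (lo112_15_3 (nat_lit 489)) (lo17_14_0 (nat_lit 455)))))) (B (M (nat_lit 426) (B (M (nat_lit 427) (B (lo110_13_2 (nat_lit 398)) (lo113_13_1 (nat_lit 457)))) (M (nat_lit 523) (B (lo110_12_4 (nat_lit 394)) (M (nat_lit 555) (B (lo111_18_6 (nat_lit 587)) (lo110_13_4 (nat_lit 522)))))))) (M (nat_lit 522) (B (M (nat_lit 521) (B (lo113_15_1 (nat_lit 493)) (M (nat_lit 520) (B (lo18_16_2 (nat_lit 523)) (lo112_15_1 (nat_lit 489)))))) (B (M (nat_lit 426) (B (M (nat_lit 523) (B (lo110_13_4 (nat_lit 555)) (lo110_12_4 (nat_lit 394)))) (M (nat_lit 427) (B (lo110_13_2 (nat_lit 398)) (lo110_16_6 (nat_lit 395)))))) (M (nat_lit 521) (B (lo113_15_1 (nat_lit 493)) (M (nat_lit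 520) (B (lo112_15_1 (nat_lit 489)) (lo17_16_2 (nat_lit 519)))))))))))) (M (nat_lit 493) (B (M (nat_lit 461) (B (lo110_15_2 (nat_lit 462)) (M (nat_lit 526) (B (lo113_12_4 (nat_lit 494)) (lo110_15_0 (nat_lit 525)))))) (B (M (nat_lit 494) (B (M (nat_lit 462) (B (lo111_15_2 (nat_lit 463)) (lo110_15_2 (nat_lit 461)))) (M (nat_lit 522) (B (lo114_15_1 (nat_lit 523)) (lo113_15_1 (nat_lit 521)))))) (B (M (nat_lit 461) (B (lo110_15_2 (nat_lit 462)) (M (nat_lit 525) (B (lo110_15_0 (nat_lit 526)) (lo113_17_7 (nat_lit 557)))))) (B (M (nat_lit 526) (B (lo110_15_0 (nat_lit 525)) (M (nat_lit 494) (B (lo111_15_0 (nat_lit 527)) (lo113_12_4 (nat_lit 461)))))) (M (nat_lit 494) (B (M (nat_lit 526) (B (lo111_15_0 (nat_lit 527)) (lo110_15_0 (nat_lit 525)))) (M (nat_lit 522) (B (lo114_15_1 (nat_lit 523)) (lo113_15_1 (nat_lit 521))))))))))))))))) (B (M (nat_lit 493) (B (M (nat_lit 396) (B (lo112_12_4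 (nat_lit 525)) (M (nat_lit 461) (B (lo113_15_7 (nat_lit 364)) (M (nat_lit 490) (B (lo110_15_2 (nat_lit 462)) (lo19_15_2 (nat_lit 489)))))))) (B (M (nat_lit 525) (B (lo112_12_4 (nat_lit 396)) (M (nat_lit 461) (B (lo113_17_7 (nat_lit 557)) (M (nat_lit 526) (B (lo113_13_4 (nat_lit 558)) (lo110_15_0 (nat_lit 490)))))))) (B (M (nat_lit 461) (B (M (nat_lit 490) (B (lo110_15_2 (nat_lit 462)) (lo19_15_2 (nat_lit 489)))) (M (nat_lit 396) (B (lo113_15_7 (nat_lit 364)) (M (nat_lit 398) (B (lo113_15_6 (nat_lit 366)) (M (nat_lit 399) (B (lo116_12_1 (nat_lit 400)) (lo115_12_1 (nat_lit 427)))))))))) (B (M (nat_lit 490) (B (M (nat_lit 525) (B (lo110_15_0 (nat_lit 526)) (lo112_12_4 (nat_lit 396)))) (M (nat_lit 489) (B (M (nat_lit 521) (B (lo113_15_1 (nat_lit 522)) (lo112_15_1 (nat_lit 520)))) (M (nat_lit 457) (B (lo113_15_3 (nat_lit 458)) (lo112_15_3 (nat_lit 456)))))))) (B (M (nat_lit 461)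 (B (M (nat_lit 490) (B (lo110_15_2 (nat_lit 462)) (lo19_15_2 (nat_lit 489)))) (B (M (nat_lit 490) (B (lo19_15_2 (nat_lit 489)) (M (nat_lit 526) (B (lo113_12_4 (nat_lit 494)) (lo110_15_0 (nat_lit 525)))))) (M (nat_lit 526) (B (lo113_12_4 (nat_lit 494)) (M (nat_lit 525) (B (lo113_13_4 (nat_lit 558)) (lo113_17_7 (nat_lit 557))))))))) (M (nat_lit 525) (B (lo112_12_4 (nat_lit 396)) (M (nat_lit 461) (B (lo113_17_7 (nat_lit 557)) (M (nat_lit 526) (B (lo113_13_4 (nat_lit 558)) (lo113_12_4 (nat_lit 494)))))))))))))) (M (nat_lit 396) (B (lo112_12_5 (nat_lit 523)) (M (nat_lit 493) (B (lo112_12_4 (nat_lit 525)) (M (nat_lit 398) (B (M (nat_lit 399) (B (lo116_12_1 (nat_lit 400)) (lo115_12_1 (nat_lit 427)))) (M (nat_lit 461) (B (lo113_15_6 (nat_lit 366)) (lo113_15_7 (nat_lit 364)))))))))))))))))))))) (M (nat_lit 397) (B (lo112_16_6 (nat_lit 524)) (M (nat_lit 365) (B (lo113_11_5 (nat_lit 461))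 (lo113_10_5 (nat_lit 333)))))))))) (M (nat_lit 492) (B (M (nat_lit 397) (B (lo112_16_6 (nat_lit 524)) (M (nat_lit 365) (B (lo113_11_5 (nat_lit 461)) (lo113_10_5 (nat_lit 333)))))) (B (M (nat_lit 397) (B (lo112_16_6 (nat_lit 524)) (M (nat_lit 365) (B (lo113_10_5 (nat_lit 333)) (lo112_15_6 (nat_lit 396)))))) (B (K _ _ _ o1_s47938) (M (nat_lit 493) (B (M (nat_lit 525) (B (lo112_12_4 (nat_lit 396)) (M (nat_lit 557) (B (lo113_18_7 (nat_lit 589)) (lo113_17_7 (nat_lit 461)))))) (B (M (nat_lit 396) (B (lo112_12_4 (nat_lit 525)) (M (nat_lit 365) (B (lo112_15_6 (nat_lit 397)) (M (nat_lit 364) (B (lo112_11_4 (nat_lit 461)) (lo112_14_6 (nat_lit 333)))))))) (B (M (nat_lit 494) (B (M (nat_lit 459) (B (lo115_15_3 (nat_lit 495)) (M (nat_lit 458) (B (lo110_14_0 (nat_lit 461)) (lo114_15_3 (nat_lit 491)))))) (B (M (nat_lit 397) (B (M (nat_lit 461) (B (lo113_12_4 (nat_lit 526)) (lo113_11_5 (nat_lit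 365)))) (B (M (nat_lit 365) (B (lo113_11_5 (nat_lit 461)) (lo113_10_5 (nat_lit 333)))) (B (M (nat_lit 365) (B (lo113_10_5 (nat_lit 333)) (lo112_15_6 (nat_lit 396)))) (M (nat_lit 491) (B (M (nat_lit 526) (B (lo111_15_0 (nat_lit 527)) (lo113_12_4 (nat_lit 461)))) (M (nat_lit 523) (B (lo114_15_1 (nat_lit 522)) (lo112_12_5 (nat_lit 396)))))))))) (B (M (nat_lit 459) (B (lo115_15_3 (nat_lit 495)) (M (nat_lit 458) (B (lo114_15_3 (nat_lit 491)) (lo19_14_0 (nat_lit 457)))))) (M (nat_lit 459) (B (lo115_15_3 (nat_lit 495)) (M (nat_lit 458) (B (lo110_14_0 (nat_lit 461)) (lo19_14_0 (nat_lit 457)))))))))) (B (K _ _ _ o1_s42157) (K _ _ _ o1_s49137))))))))))))))))))))))))))))) _ _ _ (by decide +kernel)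
theorem o1_s54285 : Sem (nat_lit 2079502270590611144683810638107312777577327806531862431377859685460965980854219217279980804578104683573043408221052678871730618368) (nat_lit 2026130649693226637505589636553341870069322562238979513894142762348370764472775668585522765112281931374658562481698426538755255945101208212546297098260073131857074259154232672256) (nat_lit 2026130649693226637505589636553341870069322562238979513894142762348370764472775668585522765112281931374658562481698426538755255945101208212546297098260073131857074259154232672256) := sem_of_chk (M (nat_lit 365) (B (M (nat_lit 364) (B (M (nat_lit 366) (B (M (nat_lit 397) (B (K _ _ _ o1_s34385) (B (K _ _ _ o1_s34484) (B (M (nat_lit 461) (B (lo113_14_6 (nat_lit 334)) (M (nat_lit 493) (B (lo113_15_6 (nat_lit 398)) (M (nat_lit 494) (B (lo113_12_4 (nat_lit 526)) (lo113_11_4 (nat_lit 462)))))))) (M (nat_lit 396) (B (M (nat_lit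 367) (B (lo116_11_1 (nat_lit 368)) (lo115_11_1 (nat_lit 395)))) (M (nat_lit 461) (B (lo113_14_6 (nat_lit 334)) (lo113_15_7 (nat_lit 493)))))))))) (B (K _ _ _ o1_s34501) (B (K _ _ _ o1_s34514) (B (K _ _ _ o1_s34523) (K _ _ _ o1_s30234)))))) (B (K _ _ _ o1_s44559) (B (K _ _ _ o1_s44261) (B (K _ _ _ o1_s43982) (B (K _ _ _ o1_s30235) (B (K _ _ _ o1_s53673) (K _ _ _ o1_s36579)))))))) (B (M (nat_lit 364) (B (K _ _ _ o1_s53889) (B (K _ _ _ o1_s34649) (B (K _ _ _ o1_s43982) (B (K _ _ _ o1_s43644) (B (K _ _ _ o1_s36563) (M (nat_lit 396) (B (M (nat_lit 333) (B (lo112_14_6 (nat_lit 460)) (M (nat_lit 301) (B (lo113_8_5 (nat_lit 269)) (lo112_13_6 (nat_lit 332)))))) (B (M (nat_lit 461) (B (lo112_10_4 (nat_lit 332)) (M (nat_lit 493) (B (lo113_16_7 (nat_lit 525)) (lo112_11_4 (nat_lit 460)))))) (B (M (nat_lit 332) (B (lo112_10_4 (nat_lit 461)) (M (nat_lit 300) (B (M (nat_lit 301) (B (lo112_13_6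 (nat_lit 333)) (lo112_12_6 (nat_lit 269)))) (M (nat_lit 427) (B (lo112_10_5 (nat_lit 459)) (lo112_9_5 (nat_lit 395)))))))) (K _ _ _ o1_s36480))))))))))) (B (M (nat_lit 364) (B (K _ _ _ o1_s53889) (B (M (nat_lit 396) (B (K _ _ _ o1_s53917) (B (K _ _ _ o1_s34640) (B (K _ _ _ o1_s53933) (B (K _ _ _ o1_s53960) (K _ _ _ o1_s53973)))))) (B (K _ _ _ o1_s44559) (B (M (nat_lit 396) (B (K _ _ _ o1_s34640) (B (K _ _ _ o1_s53933) (M (nat_lit 333) (B (M (nat_lit 301) (B (lo113_9_5 (nat_lit 397)) (lo113_8_5 (nat_lit 269)))) (lo112_14_6 (nat_lit 460))))))) (B (M (nat_lit 396) (B (M (nat_lit 333) (B (lo112_14_6 (nat_lit 460)) (M (nat_lit 301) (B (lo113_9_5 (nat_lit 397)) (lo113_8_5 (nat_lit 269)))))) (B (M (nat_lit 333) (B (M (nat_lit 301) (B (lo112_13_6 (nat_lit 332)) (lo113_9_5 (nat_lit 397)))) (B (M (nat_lit 301) (B (lo113_9_5 (nat_lit 397)) (lo113_8_5 (nat_lit 269)))) (B (M (nat_lit 301)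 (B (lo112_13_6 (nat_lit 332)) (lo113_8_5 (nat_lit 269)))) (M (nat_lit 332) (B (M (nat_lit 331) (B (lo112_13_7 (nat_lit 299)) (M (nat_lit 330) (B (lo19_10_0 (nat_lit 329)) (lo110_10_0 (nat_lit 366)))))) (M (nat_lit 300) (B (M (nat_lit 427) (B (lo112_10_5 (nat_lit 459)) (lo112_9_5 (nat_lit 395)))) (M (nat_lit 268) (B (lo112_8_4 (nat_lit 397)) (lo112_7_4 (nat_lit 236)))))))))))) (B (M (nat_lit 333) (B (lo112_14_6 (nat_lit 460)) (M (nat_lit 301) (B (lo112_13_6 (nat_lit 332)) (lo113_8_5 (nat_lit 269)))))) (K _ _ _ o1_s53960))))) (K _ _ _ o1_s36492))))))) (B (M (nat_lit 396) (B (M (nat_lit 364) (B (K _ _ _ o1_s53917) (B (K _ _ _ o1_s34640) (B (K _ _ _ o1_s53933) (B (K _ _ _ o1_s53960) (K _ _ _ o1_s53973)))))) (B (M (nat_lit 364) (B (M (nat_lit 363) (B (M (nat_lit 460) (B (lo112_14_7 (nat_lit 331)) (M (nat_lit 397) (B (lo112_15_6 (nat_lit 492)) (M (nat_lit 362) (B (lo110_11_0 (nat_lit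 398)) (lo19_11_0 (nat_lit 361)))))))) (B (M (nat_lit 366) (B (M (nat_lit 367) (B (M (nat_lit 335) (B (lo112_11_2 (nat_lit 336)) (lo111_11_2 (nat_lit 334)))) (M (nat_lit 399) (B (lo112_11_0 (nat_lit 400)) (lo111_11_0 (nat_lit 398)))))) (B (M (nat_lit 367) (B (M (nat_lit 399) (B (lo112_11_0 (nat_lit 400)) (lo111_11_0 (nat_lit 398)))) (B (M (nat_lit 397) (B (lo116_11_1 (nat_lit 368)) (M (nat_lit 398) (B (lo111_11_0 (nat_lit 399)) (lo110_11_0 (nat_lit 362)))))) (B (M (nat_lit 397) (B (lo116_11_1 (nat_lit 368)) (M (nat_lit 362) (B (lo110_11_0 (nat_lit 398)) (lo19_11_0 (nat_lit 361)))))) (M (nat_lit 368) (B (lo116_11_1 (nat_lit 397)) (M (nat_lit 400) (B (lo113_11_0 (nat_lit 401)) (lo112_11_0 (nat_lit 399)))))))))) (B (M (nat_lit 362) (B (M (nat_lit 398) (B (lo111_11_0 (nat_lit 399)) (lo110_11_0 (nat_lit 397)))) (B (M (nat_lit 397) (B (lo110_11_0 (nat_lit 398)) (lo19_11_0 (nat_lit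 361)))) (B (M (nat_lit 361) (B (lo19_11_0 (nat_lit 397)) (M (nat_lit 329) (B (lo113_11_3 (nat_lit 330)) (lo112_11_3 (nat_lit 328)))))) (M (nat_lit 361) (B (M (nat_lit 329) (B (lo113_11_3 (nat_lit 330)) (lo112_11_3 (nat_lit 328)))) (M (nat_lit 393) (B (lo113_11_1 (nat_lit 394)) (lo112_11_1 (nat_lit 392)))))))))) (B (M (nat_lit 335) (B (lo111_11_2 (nat_lit 334)) (M (nat_lit 397) (B (M (nat_lit 367) (B (lo112_11_2 (nat_lit 336)) (lo116_11_1 (nat_lit 368)))) (M (nat_lit 362) (B (lo110_11_0 (nat_lit 398)) (lo19_11_0 (nat_lit 361)))))))) (M (nat_lit 367) (B (M (nat_lit 335) (B (lo112_11_2 (nat_lit 336)) (lo111_11_2 (nat_lit 334)))) (M (nat_lit 368) (B (lo116_11_1 (nat_lit 397)) (M (nat_lit 400) (B (lo113_11_0 (nat_lit 401)) (lo112_11_0 (nat_lit 399))))))))))))) (B (M (nat_lit 460) (B (lo112_14_7 (nat_lit 331)) (M (nat_lit 493) (B (lo112_11_4 (nat_lit 461)) (M (nat_lit 492) (B (lo112_15_6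 (nat_lit 397)) (lo112_12_4 (nat_lit 525)))))))) (M (nat_lit 331) (B (lo112_14_7 (nat_lit 460)) (M (nat_lit 330) (B (lo114_11_3 (nat_lit 366)) (M (nat_lit 329) (B (lo18_10_0 (nat_lit 328)) (lo113_11_3 (nat_lit 362)))))))))))) (B (K _ _ _ o1_s53973) (B (K _ _ _ o1_s54025) (K _ _ _ o1_s43643))))) (B (M (nat_lit 364) (B (K _ _ _ o1_s53933) (B (K _ _ _ o1_s54039) (B (M (nat_lit 366) (B (M (nat_lit 395) (B (lo115_11_1 (nat_lit 367)) (M (nat_lit 394) (B (lo110_12_2 (nat_lit 397)) (lo114_11_1 (nat_lit 363)))))) (B (M (nat_lit 461) (B (lo112_10_4 (nat_lit 332)) (M (nat_lit 397) (B (lo113_14_6 (nat_lit 334)) (lo113_15_7 (nat_lit 493)))))) (M (nat_lit 395) (B (lo115_11_1 (nat_lit 367)) (M (nat_lit 394) (B (lo114_11_1 (nat_lit 363)) (lo19_12_0 (nat_lit 393))))))))) (K _ _ _ o1_s43643))))) (B (M (nat_lit 397) (B (M (nat_lit 364) (B (K _ _ _ o1_s53910) (M (nat_lit 459) (B (M (nat_lit 460)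 (B (lo112_11_5 (nat_lit 491)) (lo112_15_6 (nat_lit 492)))) (M (nat_lit 332) (B (lo112_9_4 (nat_lit 300)) (lo112_10_5 (nat_lit 427)))))))) (B (K _ _ _ o1_s54063) (B (K _ _ _ o1_s54071) (K _ _ _ o1_s54072))))) (B (M (nat_lit 364) (B (M (nat_lit 460) (B (M (nat_lit 461) (B (lo112_11_4 (nat_lit 493)) (M (nat_lit 397) (B (M (nat_lit 462) (B (lo113_11_4 (nat_lit 494)) (M (nat_lit 463) (B (lo116_14_3 (nat_lit 464)) (lo115_14_3 (nat_lit 427)))))) (M (nat_lit 363) (B (lo112_14_7 (nat_lit 331)) (M (nat_lit 398) (B (lo115_12_3 (nat_lit 399)) (lo110_11_0 (nat_lit 362)))))))))) (B (M (nat_lit 492) (B (M (nat_lit 493) (B (lo112_11_4 (nat_lit 461)) (lo112_12_4 (nat_lit 525)))) (B (M (nat_lit 524) (B (M (nat_lit 525) (B (lo112_12_4 (nat_lit 493)) (lo112_13_4 (nat_lit 557)))) (M (nat_lit 523) (B (lo112_12_5 (nat_lit 491)) (lo112_13_5 (nat_lit 555)))))) (B (K _ _ _ o1_s36554) (M (nat_lit 524)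 (B (M (nat_lit 461) (B (lo112_11_4 (nat_lit 493)) (lo112_17_6 (nat_lit 556)))) (M (nat_lit 523) (B (lo112_12_5 (nat_lit 491)) (lo112_13_5 (nat_lit 555)))))))))) (M (nat_lit 492) (B (M (nat_lit 363) (B (lo112_14_7 (nat_lit 331)) (lo112_15_7 (nat_lit 395)))) (lo112_15_6 (nat_lit 397))))))) (B (K _ _ _ o1_s53960) (B (K _ _ _ o1_s54039) (B (K _ _ _ o1_s54025) (K _ _ _ o1_s28941)))))) (B (M (nat_lit 364) (B (K _ _ _ o1_s34640) (B (M (nat_lit 332) (B (M (nat_lit 331) (B (lo112_13_7 (nat_lit 299)) (M (nat_lit 330) (B (lo19_10_0 (nat_lit 329)) (M (nat_lit 366) (B (lo114_11_3 (nat_lit 363)) (lo115_11_3 (nat_lit 367)))))))) (B (M (nat_lit 460) (B (M (nat_lit 459) (B (lo112_11_5 (nat_lit 491)) (lo112_10_5 (nat_lit 427)))) (M (nat_lit 331) (B (lo112_14_7 (nat_lit 363)) (lo112_13_7 (nat_lit 299)))))) (M (nat_lit 460) (B (M (nat_lit 459) (B (lo112_11_5 (nat_lit 491)) (lo112_10_5 (nat_lit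 427)))) (M (nat_lit 461) (B (lo112_11_4 (nat_lit 493)) (lo112_10_4 (nat_lit 429))))))))) (B (K _ _ _ o1_s54100) (K _ _ _ o1_s28941))))) (B (M (nat_lit 364) (B (K _ _ _ o1_s53960) (B (K _ _ _ o1_s54039) (B (M (nat_lit 461) (B (M (nat_lit 397) (B (M (nat_lit 460) (B (lo112_15_6 (nat_lit 492)) (M (nat_lit 462) (B (lo113_11_4 (nat_lit 494)) (M (nat_lit 463) (B (lo115_14_3 (nat_lit 427)) (lo116_14_3 (nat_lit 464)))))))) (M (nat_lit 366) (B (M (nat_lit 395) (B (lo115_11_1 (nat_lit 367)) (lo110_12_2 (nat_lit 394)))) (lo113_14_6 (nat_lit 334)))))) (B (M (nat_lit 493) (B (lo113_15_7 (nat_lit 397)) (lo113_16_7 (nat_lit 525)))) (M (nat_lit 493) (B (lo113_16_7 (nat_lit 525)) (lo112_11_4 (nat_lit 460))))))) (K _ _ _ o1_s28941))))) (B (M (nat_lit 397) (B (M (nat_lit 398) (B (M (nat_lit 399) (B (lo116_12_1 (nat_lit 400)) (lo115_12_1 (nat_lit 427)))) (B (M (nat_lit 395) (B (M (nat_lit 399)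 (B (lo116_12_1 (nat_lit 400)) (M (nat_lit 367) (B (lo112_12_2 (nat_lit 368)) (lo111_12_2 (nat_lit 366)))))) (M (nat_lit 394) (B (lo19_12_0 (nat_lit 393)) (M (nat_lit 362) (B (lo114_12_3 (nat_lit 363)) (lo113_12_3 (nat_lit 361)))))))) (B (M (nat_lit 395) (B (M (nat_lit 394) (B (lo19_12_0 (nat_lit 393)) (M (nat_lit 362) (B (lo114_12_3 (nat_lit 363)) (lo113_12_3 (nat_lit 361)))))) (M (nat_lit 399) (B (lo115_12_1 (nat_lit 427)) (M (nat_lit 367) (B (lo112_12_2 (nat_lit 368)) (lo111_12_2 (nat_lit 366)))))))) (M (nat_lit 395) (B (M (nat_lit 394) (B (lo19_12_0 (nat_lit 393)) (M (nat_lit 366) (B (lo111_12_2 (nat_lit 367)) (lo110_12_2 (nat_lit 365)))))) (M (nat_lit 363) (B (lo114_12_3 (nat_lit 362)) (M (nat_lit 460) (B (lo112_15_7 (nat_lit 492)) (M (nat_lit 331) (B (lo111_10_4 (nat_lit 427)) (lo111_9_4 (nat_lit 299)))))))))))))) (B (K _ _ _ o1_s54063) (B (K _ _ _ o1_s54071) (K _ _ _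 o1_s54072))))) (M (nat_lit 364) (B (K _ _ _ o1_s53933) (B (K _ _ _ o1_s54100) (B (K _ _ _ o1_s28941) (K _ _ _ o1_s43643)))))))))))))) (B (M (nat_lit 396) (B (M (nat_lit 397) (B (M (nat_lit 398) (B (M (nat_lit 395) (B (M (nat_lit 461) (B (M (nat_lit 363) (B (M (nat_lit 331) (B (M (nat_lit 366) (B (M (nat_lit 367) (B (lo116_11_1 (nat_lit 368)) (lo111_12_2 (nat_lit 398)))) (M (nat_lit 333) (B (lo113_9_5 (nat_lit 301)) (M (nat_lit 332) (B (lo110_10_0 (nat_lit 330)) (lo113_13_7 (nat_lit 300)))))))) (lo111_9_4 (nat_lit 299)))) (lo114_12_3 (nat_lit 362)))) (M (nat_lit 493) (B (M (nat_lit 494) (B (lo113_11_4 (nat_lit 462)) (lo113_12_4 (nat_lit 526)))) (M (nat_lit 524) (B (lo113_12_5 (nat_lit 492)) (M (nat_lit 525) (B (lo113_16_7 (nat_lit 428)) (lo113_13_5 (nat_lit 556)))))))))) (B (M (nat_lit 394) (B (M (nat_lit 362) (B (lo113_12_3 (nat_lit 361)) (lo114_12_3 (nat_lit 363)))) (M (nat_lit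 393) (B (lo19_12_0 (nat_lit 429)) (M (nat_lit 392) (B (lo18_12_0 (nat_lit 427)) (M (nat_lit 424) (B (lo111_12_1 (nat_lit 423)) (lo112_12_1 (nat_lit 425)))))))))) (M (nat_lit 394) (B (lo19_12_0 (nat_lit 393)) (lo110_12_2 (nat_lit 366))))))) (B (M (nat_lit 395) (B (M (nat_lit 366) (B (lo110_12_2 (nat_lit 394)) (lo111_12_2 (nat_lit 367)))) (B (M (nat_lit 394) (B (lo19_12_0 (nat_lit 393)) (M (nat_lit 362) (B (lo113_12_3 (nat_lit 361)) (lo114_12_3 (nat_lit 363)))))) (M (nat_lit 367) (B (lo111_12_2 (nat_lit 366)) (M (nat_lit 399) (B (lo112_12_2 (nat_lit 368)) (lo116_12_1 (nat_lit 400))))))))) (M (nat_lit 399) (B (lo116_12_1 (nat_lit 400)) (lo115_12_1 (nat_lit 427))))))) (B (K _ _ _ o1_s54071) (M (nat_lit 333) (B (lo113_10_5 (nat_lit 460)) (M (nat_lit 301) (B (lo113_9_5 (nat_lit 396)) (M (nat_lit 300) (B (lo113_12_7 (nat_lit 268)) (lo113_13_7 (nat_lit 332))))))))))) (B (M (nat_lit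 364) (B (K _ _ _ o1_s34676) (B (K _ _ _ o1_s54100) (B (K _ _ _ o1_s28941) (K _ _ _ o1_s43643))))) (B (M (nat_lit 364) (B (M (nat_lit 333) (B (lo112_14_6 (nat_lit 460)) (M (nat_lit 332) (B (lo112_13_6 (nat_lit 301)) (lo112_10_4 (nat_lit 461)))))) (B (K _ _ _ o1_s29026) (B (K _ _ _ o1_s28941) (M (nat_lit 333) (B (lo112_14_6 (nat_lit 460)) (M (nat_lit 301) (B (lo112_13_6 (nat_lit 332)) (lo113_8_5 (nat_lit 269)))))))))) (B (M (nat_lit 460) (B (M (nat_lit 397) (B (lo112_15_6 (nat_lit 492)) (M (nat_lit 333) (B (lo112_14_6 (nat_lit 364)) (lo113_9_5 (nat_lit 301)))))) (B (M (nat_lit 333) (B (lo112_14_6 (nat_lit 364)) (M (nat_lit 397) (B (lo113_10_5 (nat_lit 429)) (lo113_9_5 (nat_lit 301)))))) (B (M (nat_lit 492) (B (M (nat_lit 364) (B (lo112_14_6 (nat_lit 333)) (M (nat_lit 491) (B (lo112_12_5 (nat_lit 523)) (lo112_11_5 (nat_lit 459)))))) (B (M (nat_lit 364) (B (lo112_14_6 (nat_lit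 333)) (M (nat_lit 493) (B (lo112_12_4 (nat_lit 525)) (lo112_11_4 (nat_lit 461)))))) (M (nat_lit 524) (B (M (nat_lit 525) (B (lo112_13_4 (nat_lit 557)) (lo112_12_4 (nat_lit 493)))) (M (nat_lit 523) (B (lo112_13_5 (nat_lit 555)) (lo112_12_5 (nat_lit 491))))))))) (B (M (nat_lit 397) (B (lo112_15_6 (nat_lit 492)) (M (nat_lit 333) (B (lo113_10_5 (nat_lit 429)) (lo113_9_5 (nat_lit 301)))))) (M (nat_lit 492) (B (lo112_15_6 (nat_lit 397)) (M (nat_lit 524) (B (M (nat_lit 525) (B (lo112_13_4 (nat_lit 557)) (lo112_12_4 (nat_lit 493)))) (M (nat_lit 523) (B (lo112_13_5 (nat_lit 555)) (lo112_12_5 (nat_lit 491))))))))))))) (M (nat_lit 333) (B (M (nat_lit 301) (B (lo113_9_5 (nat_lit 397)) (M (nat_lit 364) (B (lo112_13_6 (nat_lit 332)) (lo112_14_6 (nat_lit 460)))))) (B (M (nat_lit 460) (B (lo112_14_6 (nat_lit 364)) (M (nat_lit 397) (B (lo113_10_5 (nat_lit 429)) (lo112_15_6 (nat_lit 492))))))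 (B (M (nat_lit 397) (B (lo113_9_5 (nat_lit 301)) (M (nat_lit 460) (B (lo113_10_5 (nat_lit 429)) (lo112_15_6 (nat_lit 492)))))) (B (M (nat_lit 364) (B (lo112_14_6 (nat_lit 460)) (M (nat_lit 301) (B (lo113_8_5 (nat_lit 269)) (lo112_13_6 (nat_lit 332)))))) (M (nat_lit 301) (B (lo113_9_5 (nat_lit 397)) (M (nat_lit 364) (B (lo113_8_5 (nat_lit 269)) (lo112_13_6 (nat_lit 332)))))))))))))))) (B (M (nat_lit 364) (B (M (nat_lit 396) (B (K _ _ _ o1_s34640) (B (K _ _ _ o1_s53933) (M (nat_lit 333) (B (M (nat_lit 301) (B (lo113_9_5 (nat_lit 397)) (lo113_8_5 (nat_lit 269)))) (lo112_14_6 (nat_lit 460))))))) (B (K _ _ _ o1_s43644) (B (K _ _ _ o1_s29020) (K _ _ _ o1_s53673))))) (B (K _ _ _ o1_s44746) (B (M (nat_lit 397) (B (M (nat_lit 364) (B (M (nat_lit 332) (B (lo113_14_7 (nat_lit 461)) (M (nat_lit 300) (B (lo112_8_4 (nat_lit 268)) (lo112_9_4 (nat_lit 396)))))) (B (M (nat_lit 363) (B (M (nat_lit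 398) (B (lo110_11_0 (nat_lit 362)) (M (nat_lit 399) (B (lo116_12_3 (nat_lit 400)) (lo115_12_3 (nat_lit 396)))))) (B (M (nat_lit 398) (B (lo110_11_0 (nat_lit 362)) (M (nat_lit 399) (B (lo111_11_0 (nat_lit 366)) (lo115_12_3 (nat_lit 396)))))) (B (M (nat_lit 331) (B (M (nat_lit 396) (B (lo112_14_7 (nat_lit 460)) (M (nat_lit 299) (B (lo112_13_7 (nat_lit 332)) (lo111_8_4 (nat_lit 267)))))) (M (nat_lit 330) (B (lo114_11_3 (nat_lit 366)) (M (nat_lit 329) (B (lo113_11_3 (nat_lit 362)) (lo18_10_0 (nat_lit 328)))))))) (B (M (nat_lit 398) (B (lo110_11_0 (nat_lit 362)) (M (nat_lit 399) (B (lo116_12_3 (nat_lit 400)) (lo111_11_0 (nat_lit 366)))))) (M (nat_lit 366) (B (M (nat_lit 398) (B (lo111_11_0 (nat_lit 399)) (M (nat_lit 334) (B (lo111_11_2 (nat_lit 335)) (lo114_9_5 (nat_lit 302)))))) (B (M (nat_lit 367) (B (M (nat_lit 399) (B (lo112_11_0 (nat_lit 400)) (lo111_11_0 (nat_lit 398)))) (M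 (nat_lit 331) (B (lo115_11_3 (nat_lit 332)) (lo114_11_3 (nat_lit 330)))))) (M (nat_lit 367) (B (M (nat_lit 335) (B (lo112_11_2 (nat_lit 336)) (lo111_11_2 (nat_lit 334)))) (M (nat_lit 331) (B (lo115_11_3 (nat_lit 332)) (lo114_11_3 (nat_lit 330)))))))))))))) (B (M (nat_lit 363) (B (M (nat_lit 398) (B (lo110_11_0 (nat_lit 362)) (M (nat_lit 399) (B (lo116_12_3 (nat_lit 400)) (lo111_11_0 (nat_lit 366)))))) (B (M (nat_lit 398) (B (lo110_11_0 (nat_lit 362)) (M (nat_lit 399) (B (lo111_11_0 (nat_lit 366)) (lo115_12_3 (nat_lit 396)))))) (B (M (nat_lit 460) (B (M (nat_lit 492) (B (lo113_11_5 (nat_lit 461)) (lo112_15_6 (nat_lit 396)))) (B (M (nat_lit 492) (B (lo112_15_6 (nat_lit 396)) (lo112_16_6 (nat_lit 524)))) (B (M (nat_lit 492) (B (lo113_11_5 (nat_lit 461)) (lo112_16_6 (nat_lit 524)))) (M (nat_lit 366) (B (M (nat_lit 334) (B (lo111_11_2 (nat_lit 335)) (lo113_14_6 (nat_lit 461))))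 (M (nat_lit 331) (B (lo114_11_3 (nat_lit 330)) (lo112_14_7 (nat_lit 396)))))))))) (M (nat_lit 398) (B (lo110_11_0 (nat_lit 362)) (M (nat_lit 399) (B (lo116_12_3 (nat_lit 400)) (lo115_12_3 (nat_lit 396)))))))))) (M (nat_lit 366) (B (M (nat_lit 461) (B (lo113_14_6 (nat_lit 334)) (lo113_14_7 (nat_lit 332)))) (B (M (nat_lit 332) (B (lo113_14_7 (nat_lit 461)) (M (nat_lit 331) (B (lo115_11_3 (nat_lit 367)) (M (nat_lit 330) (B (lo114_11_3 (nat_lit 363)) (lo19_10_0 (nat_lit 329)))))))) (B (K _ _ _ o1_s44682) (M (nat_lit 334) (B (lo113_14_6 (nat_lit 461)) (M (nat_lit 302) (B (lo114_8_5 (nat_lit 270)) (lo114_9_5 (nat_lit 398)))))))))))))) (B (K _ _ _ o1_s54266) (B (M (nat_lit 333) (B (lo113_10_5 (nat_lit 460)) (M (nat_lit 301) (B (lo113_9_5 (nat_lit 396)) (M (nat_lit 300) (B (lo113_12_7 (nat_lit 268)) (lo113_13_7 (nat_lit 332)))))))) (M (nat_lit 460) (B (M (nat_lit 492) (B (lo112_16_6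 (nat_lit 524)) (lo113_11_5 (nat_lit 461)))) (lo113_10_5 (nat_lit 333)))))))) (B (M (nat_lit 397) (B (K _ _ _ o1_s54266) (B (M (nat_lit 461) (B (M (nat_lit 492) (B (lo113_11_5 (nat_lit 460)) (M (nat_lit 493) (B (lo113_12_5 (nat_lit 524)) (M (nat_lit 494) (B (lo113_12_4 (nat_lit 526)) (lo113_11_4 (nat_lit 462)))))))) (B (M (nat_lit 493) (B (M (nat_lit 494) (B (lo113_12_4 (nat_lit 526)) (lo113_11_4 (nat_lit 462)))) (M (nat_lit 366) (B (lo113_15_6 (nat_lit 398)) (lo113_14_6 (nat_lit 334)))))) (B (M (nat_lit 493) (B (M (nat_lit 492) (B (lo113_12_5 (nat_lit 524)) (lo113_11_5 (nat_lit 460)))) (M (nat_lit 366) (B (lo113_15_6 (nat_lit 398)) (lo113_14_6 (nat_lit 334)))))) (M (nat_lit 460) (B (lo113_11_5 (nat_lit 492)) (M (nat_lit 462) (B (lo113_11_4 (nat_lit 494)) (M (nat_lit 463) (B (lo115_14_3 (nat_lit 427)) (lo116_14_3 (nat_lit 464)))))))))))) (B (M (nat_lit 333) (B (lo113_10_5 (nat_lit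 460)) (M (nat_lit 302) (B (lo113_13_6 (nat_lit 334)) (M (nat_lit 300) (B (lo113_13_7 (nat_lit 332)) (M (nat_lit 301) (B (lo113_12_6 (nat_lit 270)) (lo113_12_7 (nat_lit 268)))))))))) (M (nat_lit 460) (B (M (nat_lit 492) (B (lo112_16_6 (nat_lit 524)) (lo113_11_5 (nat_lit 461)))) (lo113_10_5 (nat_lit 333)))))))) (B (K _ _ _ o1_s44581) (B (K _ _ _ o1_s44017) (K _ _ _ o1_s44593))))))))))))) _ _ _ (by decide +kernel)
theorem o1_s57416 : Sem (nat_lit 2079502270590611144683810638107312777577327806531862431377859685460965980854219217279980804578104683573043408221052678871730618368) (nat_lit 2532663318514578956158299356031929335042268385125096041929702971729143283247871112359851840525398467438758040446369980816140928794328516158795030509419572203295152635105555513344) (nat_lit 2532663318514578956158299356031929335042268385125096041929702971729143283247871112359851840525398467438758040446369980816140928794328516158795030509419572203295152635105555513344)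 := sem_of_chk (M (nat_lit 460) (B (M (nat_lit 492) (B (M (nat_lit 427) (B (M (nat_lit 363) (B (M (nat_lit 364) (B (M (nat_lit 365) (B (M (nat_lit 397) (B (lo113_10_5 (nat_lit 333)) (M (nat_lit 398) (B (lo110_11_0 (nat_lit 362)) (M (nat_lit 399) (B (lo111_11_0 (nat_lit 366)) (lo116_12_3 (nat_lit 400)))))))) (B (M (nat_lit 397) (B (M (nat_lit 398) (B (lo110_11_0 (nat_lit 362)) (M (nat_lit 399) (B (lo111_11_0 (nat_lit 366)) (lo116_12_3 (nat_lit 400)))))) (M (nat_lit 461) (B (lo113_14_7 (nat_lit 332)) (M (nat_lit 462) (B (lo113_11_4 (nat_lit 494)) (lo115_14_3 (nat_lit 463)))))))) (B (M (nat_lit 397) (B (lo113_10_5 (nat_lit 333)) (M (nat_lit 461) (B (lo113_14_7 (nat_lit 332)) (M (nat_lit 462) (B (lo113_11_4 (nat_lit 494)) (lo115_14_3 (nat_lit 463)))))))) (M (nat_lit 366) (B (M (nat_lit 367) (B (M (nat_lit 331) (B (lo115_11_3 (nat_lit 332)) (lo114_11_3 (nat_lit 330)))) (M (nat_lit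 399) (B (lo112_11_0 (nat_lit 400)) (lo111_11_0 (nat_lit 398)))))) (B (M (nat_lit 362) (B (M (nat_lit 334) (B (lo111_11_2 (nat_lit 335)) (lo110_11_2 (nat_lit 333)))) (M (nat_lit 330) (B (lo114_11_3 (nat_lit 331)) (lo113_11_3 (nat_lit 329)))))) (M (nat_lit 367) (B (M (nat_lit 335) (B (lo112_11_2 (nat_lit 336)) (lo111_11_2 (nat_lit 334)))) (M (nat_lit 399) (B (lo112_11_0 (nat_lit 400)) (lo111_11_0 (nat_lit 398))))))))))))) (B (M (nat_lit 396) (B (M (nat_lit 365) (B (lo112_14_6 (nat_lit 333)) (lo112_15_6 (nat_lit 397)))) (M (nat_lit 491) (B (lo112_11_5 (nat_lit 459)) (lo112_12_5 (nat_lit 523)))))) (M (nat_lit 396) (B (M (nat_lit 459) (B (lo112_10_5 (nat_lit 332)) (lo112_11_5 (nat_lit 491)))) (lo112_14_7 (nat_lit 331))))))) (B (M (nat_lit 395) (B (lo111_10_4 (nat_lit 331)) (M (nat_lit 459) (B (lo111_11_4 (nat_lit 492)) (M (nat_lit 458) (B (lo19_14_2 (nat_lit 457)) (lo111_11_5 (nat_lit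 490)))))))) (B (M (nat_lit 395) (B (lo112_15_7 (nat_lit 396)) (lo111_10_4 (nat_lit 331)))) (M (nat_lit 395) (B (lo112_15_7 (nat_lit 396)) (lo111_11_4 (nat_lit 459)))))))) (B (M (nat_lit 426) (B (M (nat_lit 395) (B (M (nat_lit 491) (B (M (nat_lit 523) (B (lo112_12_5 (nat_lit 396)) (M (nat_lit 555) (B (lo111_18_6 (nat_lit 587)) (lo111_17_6 (nat_lit 459)))))) (B (M (nat_lit 490) (B (M (nat_lit 522) (B (lo111_12_5 (nat_lit 459)) (lo110_16_6 (nat_lit 458)))) (M (nat_lit 461) (B (lo19_15_2 (nat_lit 489)) (lo110_13_0 (nat_lit 462)))))) (M (nat_lit 490) (B (M (nat_lit 458) (B (lo110_16_6 (nat_lit 522)) (lo113_13_1 (nat_lit 457)))) (M (nat_lit 461) (B (lo19_15_2 (nat_lit 489)) (lo110_13_0 (nat_lit 462))))))))) (B (M (nat_lit 458) (B (lo113_13_1 (nat_lit 457)) (M (nat_lit 363) (B (lo111_10_5 (nat_lit 331)) (M (nat_lit 490) (B (lo111_11_5 (nat_lit 459)) (lo110_16_6 (nat_lit 522))))))))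 (M (nat_lit 363) (B (lo112_15_7 (nat_lit 396)) (lo111_10_4 (nat_lit 331))))))) (B (K _ _ _ o1_s57006) (M (nat_lit 461) (B (lo110_13_0 (nat_lit 462)) (lo19_13_0 (nat_lit 425))))))) (B (M (nat_lit 426) (B (K _ _ _ o1_s57006) (M (nat_lit 461) (B (lo110_13_0 (nat_lit 462)) (M (nat_lit 397) (B (lo110_13_2 (nat_lit 398)) (M (nat_lit 365) (B (lo113_10_5 (nat_lit 333)) (lo113_11_5 (nat_lit 492)))))))))) (B (M (nat_lit 396) (B (M (nat_lit 397) (B (lo112_15_6 (nat_lit 365)) (M (nat_lit 426) (B (lo19_13_2 (nat_lit 425)) (lo110_13_2 (nat_lit 398)))))) (M (nat_lit 364) (B (M (nat_lit 491) (B (lo112_12_5 (nat_lit 523)) (lo112_11_5 (nat_lit 459)))) (M (nat_lit 363) (B (lo112_15_7 (nat_lit 395)) (lo112_14_7 (nat_lit 331)))))))) (M (nat_lit 397) (B (M (nat_lit 398) (B (lo110_13_2 (nat_lit 426)) (M (nat_lit 399) (B (lo116_12_1 (nat_lit 400)) (lo115_12_1 (nat_lit 396)))))) (B (M (nat_lit 365)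 (B (lo113_10_5 (nat_lit 333)) (lo113_11_5 (nat_lit 461)))) (M (nat_lit 461) (B (M (nat_lit 365) (B (lo113_11_5 (nat_lit 492)) (lo113_10_5 (nat_lit 333)))) (M (nat_lit 462) (B (lo115_14_3 (nat_lit 463)) (lo110_13_0 (nat_lit 426)))))))))))))) (B (K _ _ _ o1_s57036) (B (K _ _ _ o1_s57040) (M (nat_lit 397) (B (M (nat_lit 365) (B (lo113_10_5 (nat_lit 333)) (lo113_11_5 (nat_lit 461)))) (lo112_16_6 (nat_lit 524)))))))) (B (K _ _ _ o1_s57113) (B (K _ _ _ o1_s57220) (B (K _ _ _ o1_s49099) (B (K _ _ _ o1_s48784) (B (K _ _ _ o1_s57332) (B (K _ _ _ o1_s57366) (B (K _ _ _ o1_s57404) (B (K _ _ _ o1_s57412) (K _ _ _ o1_s57415))))))))))) _ _ _ (by decide +kernel)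
theorem o1_s57993 : Sem (nat_lit 2079502270590611144683810638107312777577327806531862431377859685460965980854219217279980804578104683573043408221052678871730618368) (nat_lit 2026130649693226625203872226736670813503051368282661940799550272469282280119121109699028474609011084140983012488984565340228152448284504241616360163824760768816939032438632349696) (nat_lit 2026130649693226625203872226736670813503051368282661940799550272469282280119121109699028474609011084140983012488984565340228152448284504241616360163824760768816939032438632349696) := sem_of_chk (M (nat_lit 396) (B (M (nat_lit 364) (B (M (nat_lit 427) (B (M (nat_lit 491) (B (M (nat_lit 492) (B (M (nat_lit 493) (B (M (nat_lit 461) (B (lo113_16_7 (nat_lit 525)) (M (nat_lit 462) (B (lo110_15_2 (nat_lit 490)) (M (nat_lit 463) (B (lo111_15_2 (nat_lit 494)) (lo116_14_1 (nat_lit 464)))))))) (B (M (nat_lit 461) (B (M (nat_lit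 462) (B (lo110_15_2 (nat_lit 490)) (M (nat_lit 463) (B (lo111_15_2 (nat_lit 494)) (lo116_14_1 (nat_lit 464)))))) (M (nat_lit 397) (B (lo113_12_5 (nat_lit 524)) (M (nat_lit 398) (B (lo113_15_6 (nat_lit 366)) (lo115_12_1 (nat_lit 399)))))))) (B (M (nat_lit 461) (B (lo113_16_7 (nat_lit 525)) (M (nat_lit 397) (B (lo113_12_5 (nat_lit 524)) (M (nat_lit 398) (B (lo113_15_6 (nat_lit 366)) (lo115_12_1 (nat_lit 399)))))))) (M (nat_lit 494) (B (M (nat_lit 495) (B (M (nat_lit 523) (B (lo115_15_1 (nat_lit 524)) (lo114_15_1 (nat_lit 522)))) (M (nat_lit 463) (B (lo112_15_2 (nat_lit 464)) (lo111_15_2 (nat_lit 462)))))) (B (M (nat_lit 490) (B (M (nat_lit 526) (B (lo111_15_0 (nat_lit 527)) (lo110_15_0 (nat_lit 525)))) (M (nat_lit 522) (B (lo114_15_1 (nat_lit 523)) (lo113_15_1 (nat_lit 521)))))) (M (nat_lit 495) (B (M (nat_lit 527) (B (lo112_15_0 (nat_lit 528)) (lo111_15_0 (nat_lit 526)))) (M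 (nat_lit 463) (B (lo112_15_2 (nat_lit 464)) (lo111_15_2 (nat_lit 462))))))))))))) (B (M (nat_lit 460) (B (M (nat_lit 493) (B (lo112_12_4 (nat_lit 525)) (lo112_11_4 (nat_lit 461)))) (M (nat_lit 363) (B (lo112_15_7 (nat_lit 395)) (lo112_14_7 (nat_lit 331)))))) (M (nat_lit 460) (B (M (nat_lit 395) (B (lo112_15_7 (nat_lit 363)) (lo112_16_7 (nat_lit 524)))) (lo112_12_5 (nat_lit 523))))))) (B (M (nat_lit 459) (B (lo111_16_6 (nat_lit 523)) (M (nat_lit 395) (B (lo111_15_6 (nat_lit 364)) (M (nat_lit 394) (B (lo19_12_0 (nat_lit 393)) (lo111_15_7 (nat_lit 362)))))))) (B (M (nat_lit 459) (B (lo112_11_5 (nat_lit 460)) (lo111_16_6 (nat_lit 523)))) (M (nat_lit 459) (B (lo112_11_5 (nat_lit 460)) (lo111_15_6 (nat_lit 395)))))))) (B (M (nat_lit 426) (B (M (nat_lit 459) (B (M (nat_lit 363) (B (M (nat_lit 331) (B (lo112_14_7 (nat_lit 460)) (M (nat_lit 299) (B (lo111_8_4 (nat_lit 267)) (lo111_9_4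 (nat_lit 395)))))) (B (M (nat_lit 362) (B (M (nat_lit 330) (B (lo111_14_7 (nat_lit 395)) (lo110_10_4 (nat_lit 394)))) (M (nat_lit 397) (B (lo19_11_0 (nat_lit 361)) (lo110_13_2 (nat_lit 398)))))) (M (nat_lit 362) (B (M (nat_lit 394) (B (lo110_10_4 (nat_lit 330)) (lo113_13_3 (nat_lit 393)))) (M (nat_lit 397) (B (lo19_11_0 (nat_lit 361)) (lo110_13_2 (nat_lit 398))))))))) (B (M (nat_lit 491) (B (lo111_16_6 (nat_lit 523)) (M (nat_lit 394) (B (lo113_13_3 (nat_lit 393)) (M (nat_lit 362) (B (lo111_15_7 (nat_lit 395)) (lo110_10_4 (nat_lit 330)))))))) (M (nat_lit 491) (B (lo112_11_5 (nat_lit 460)) (lo111_16_6 (nat_lit 523))))))) (B (K _ _ _ o1_s57509) (M (nat_lit 397) (B (lo110_13_2 (nat_lit 398)) (lo19_13_2 (nat_lit 425))))))) (B (M (nat_lit 426) (B (K _ _ _ o1_s57509) (M (nat_lit 397) (B (lo110_13_2 (nat_lit 398)) (M (nat_lit 461) (B (lo110_13_0 (nat_lit 462)) (M (nat_lit 493) (B (lo113_16_7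 (nat_lit 525)) (lo113_15_7 (nat_lit 364)))))))))) (B (M (nat_lit 460) (B (M (nat_lit 461) (B (lo112_11_4 (nat_lit 493)) (M (nat_lit 426) (B (lo19_13_0 (nat_lit 425)) (M (nat_lit 462) (B (lo110_13_0 (nat_lit 429)) (lo115_14_3 (nat_lit 463)))))))) (M (nat_lit 492) (B (M (nat_lit 395) (B (lo112_15_7 (nat_lit 363)) (lo112_16_7 (nat_lit 524)))) (M (nat_lit 491) (B (lo112_11_5 (nat_lit 459)) (lo112_12_5 (nat_lit 523)))))))) (M (nat_lit 426) (B (M (nat_lit 397) (B (lo19_13_2 (nat_lit 425)) (lo110_13_2 (nat_lit 398)))) (B (M (nat_lit 461) (B (lo110_13_0 (nat_lit 462)) (M (nat_lit 397) (B (lo113_15_7 (nat_lit 493)) (lo110_13_2 (nat_lit 398)))))) (M (nat_lit 461) (B (lo110_13_0 (nat_lit 462)) (M (nat_lit 493) (B (lo113_16_7 (nat_lit 525)) (lo112_11_4 (nat_lit 460)))))))))))))) (B (K _ _ _ o1_s57537) (M (nat_lit 461) (B (M (nat_lit 493) (B (lo113_15_7 (nat_lit 397)) (lo113_16_7 (nat_lit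 525)))) (lo112_10_4 (nat_lit 332))))))) (B (K _ _ _ o1_s57578) (B (K _ _ _ o1_s57639) (B (K _ _ _ o1_s57740) (B (M (nat_lit 364) (B (M (nat_lit 332) (B (M (nat_lit 300) (B (M (nat_lit 301) (B (lo112_12_6 (nat_lit 269)) (lo112_13_6 (nat_lit 333)))) (M (nat_lit 299) (B (lo112_12_7 (nat_lit 267)) (lo112_13_7 (nat_lit 331)))))) (B (M (nat_lit 300) (B (M (nat_lit 299) (B (lo112_12_7 (nat_lit 267)) (lo112_13_7 (nat_lit 331)))) (M (nat_lit 427) (B (lo112_9_5 (nat_lit 395)) (lo112_10_5 (nat_lit 459)))))) (B (M (nat_lit 331) (B (lo112_13_7 (nat_lit 299)) (M (nat_lit 333) (B (lo112_13_6 (nat_lit 301)) (M (nat_lit 460) (B (lo112_14_6 (nat_lit 365)) (lo112_14_7 (nat_lit 363)))))))) (M (nat_lit 300) (B (M (nat_lit 301) (B (lo112_12_6 (nat_lit 269)) (lo112_13_6 (nat_lit 333)))) (M (nat_lit 427) (B (lo112_9_5 (nat_lit 395)) (lo112_10_5 (nat_lit 459)))))))))) (B (M (nat_lit 332) (B (M (nat_lit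 331) (B (lo112_13_7 (nat_lit 299)) (M (nat_lit 333) (B (lo112_13_6 (nat_lit 301)) (M (nat_lit 460) (B (lo112_14_6 (nat_lit 365)) (lo112_14_7 (nat_lit 363)))))))) (B (M (nat_lit 460) (B (M (nat_lit 331) (B (lo112_13_7 (nat_lit 299)) (lo112_14_7 (nat_lit 363)))) (M (nat_lit 459) (B (lo112_10_5 (nat_lit 427)) (lo112_11_5 (nat_lit 491)))))) (B (M (nat_lit 300) (B (M (nat_lit 299) (B (lo112_12_7 (nat_lit 267)) (lo112_13_7 (nat_lit 331)))) (M (nat_lit 427) (B (lo112_9_5 (nat_lit 395)) (lo112_10_5 (nat_lit 459)))))) (M (nat_lit 460) (B (M (nat_lit 333) (B (lo112_13_6 (nat_lit 301)) (lo112_14_6 (nat_lit 365)))) (M (nat_lit 459) (B (lo112_10_5 (nat_lit 427)) (lo112_11_5 (nat_lit 491)))))))))) (B (M (nat_lit 460) (B (M (nat_lit 363) (B (lo112_14_7 (nat_lit 331)) (M (nat_lit 492) (B (lo112_15_7 (nat_lit 395)) (M (nat_lit 365) (B (lo112_14_6 (nat_lit 333)) (lo112_15_6 (nat_lit 397))))))))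 (B (M (nat_lit 492) (B (M (nat_lit 363) (B (lo112_14_7 (nat_lit 331)) (lo112_15_7 (nat_lit 395)))) (M (nat_lit 491) (B (lo112_11_5 (nat_lit 459)) (lo112_12_5 (nat_lit 523)))))) (B (M (nat_lit 332) (B (M (nat_lit 331) (B (lo112_13_7 (nat_lit 299)) (lo112_14_7 (nat_lit 363)))) (M (nat_lit 459) (B (lo112_10_5 (nat_lit 427)) (lo112_11_5 (nat_lit 491)))))) (M (nat_lit 492) (B (M (nat_lit 365) (B (lo112_14_6 (nat_lit 333)) (lo112_15_6 (nat_lit 397)))) (M (nat_lit 491) (B (lo112_11_5 (nat_lit 459)) (lo112_12_5 (nat_lit 523)))))))))) (B (K _ _ _ o1_s57750) (B (M (nat_lit 332) (B (M (nat_lit 300) (B (M (nat_lit 301) (B (lo112_12_6 (nat_lit 269)) (lo112_13_6 (nat_lit 333)))) (M (nat_lit 427) (B (lo112_9_5 (nat_lit 395)) (lo112_10_5 (nat_lit 459)))))) (B (M (nat_lit 300) (B (M (nat_lit 299) (B (lo112_12_7 (nat_lit 267)) (lo112_13_7 (nat_lit 331)))) (M (nat_lit 427) (B (lo112_9_5 (nat_lit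 395)) (lo112_10_5 (nat_lit 459)))))) (B (M (nat_lit 460) (B (M (nat_lit 331) (B (lo112_13_7 (nat_lit 299)) (lo112_14_7 (nat_lit 363)))) (M (nat_lit 459) (B (lo112_10_5 (nat_lit 427)) (lo112_11_5 (nat_lit 491)))))) (M (nat_lit 300) (B (M (nat_lit 301) (B (lo112_12_6 (nat_lit 269)) (lo112_13_6 (nat_lit 333)))) (M (nat_lit 299) (B (lo112_12_7 (nat_lit 267)) (lo112_13_7 (nat_lit 331)))))))))) (B (M (nat_lit 363) (B (M (nat_lit 331) (B (lo112_14_7 (nat_lit 460)) (M (nat_lit 299) (B (lo111_8_4 (nat_lit 267)) (lo111_9_4 (nat_lit 395)))))) (B (M (nat_lit 362) (B (M (nat_lit 397) (B (lo19_11_0 (nat_lit 361)) (M (nat_lit 398) (B (lo110_11_0 (nat_lit 365)) (lo114_12_3 (nat_lit 395)))))) (B (M (nat_lit 361) (B (lo19_11_0 (nat_lit 397)) (M (nat_lit 360) (B (lo18_11_0 (nat_lit 395)) (M (nat_lit 328) (B (lo112_11_3 (nat_lit 329)) (lo111_11_3 (nat_lit 327)))))))) (B (K _ _ _ o1_s57755) (B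 (M (nat_lit 397) (B (lo19_11_0 (nat_lit 361)) (M (nat_lit 365) (B (lo110_11_0 (nat_lit 398)) (M (nat_lit 333) (B (lo110_11_2 (nat_lit 334)) (lo113_9_5 (nat_lit 301)))))))) (K _ _ _ o1_s57762)))))) (B (M (nat_lit 362) (B (M (nat_lit 397) (B (lo19_11_0 (nat_lit 361)) (M (nat_lit 398) (B (lo110_11_0 (nat_lit 365)) (lo114_12_3 (nat_lit 395)))))) (B (M (nat_lit 361) (B (lo19_11_0 (nat_lit 397)) (M (nat_lit 360) (B (lo18_11_0 (nat_lit 395)) (M (nat_lit 392) (B (lo112_11_1 (nat_lit 393)) (lo111_11_1 (nat_lit 391)))))))) (B (M (nat_lit 361) (B (M (nat_lit 360) (B (lo18_11_0 (nat_lit 395)) (M (nat_lit 392) (B (lo112_11_1 (nat_lit 393)) (lo111_11_1 (nat_lit 391)))))) (B (M (nat_lit 365) (B (M (nat_lit 333) (B (lo110_11_2 (nat_lit 334)) (lo112_14_6 (nat_lit 460)))) (M (nat_lit 393) (B (lo113_11_1 (nat_lit 394)) (lo112_11_1 (nat_lit 392)))))) (M (nat_lit 365) (B (M (nat_lit 333) (B (lo110_11_2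 (nat_lit 334)) (lo112_14_6 (nat_lit 460)))) (M (nat_lit 329) (B (lo113_11_3 (nat_lit 330)) (lo112_11_3 (nat_lit 328))))))))) (B (M (nat_lit 365) (B (M (nat_lit 397) (B (lo110_11_0 (nat_lit 398)) (lo19_11_0 (nat_lit 361)))) (M (nat_lit 333) (B (lo110_11_2 (nat_lit 334)) (lo112_14_6 (nat_lit 460)))))) (M (nat_lit 365) (B (M (nat_lit 333) (B (lo110_11_2 (nat_lit 334)) (lo112_14_6 (nat_lit 460)))) (B (M (nat_lit 397) (B (lo110_11_0 (nat_lit 398)) (M (nat_lit 460) (B (lo112_14_6 (nat_lit 333)) (lo112_15_6 (nat_lit 492)))))) (B (M (nat_lit 395) (B (M (nat_lit 394) (B (lo114_11_1 (nat_lit 366)) (lo19_12_2 (nat_lit 393)))) (K _ _ _ o1_s57774))) (M (nat_lit 397) (B (lo110_11_0 (nat_lit 398)) (M (nat_lit 333) (B (lo110_11_2 (nat_lit 334)) (lo113_9_5 (nat_lit 301))))))))))))))) (M (nat_lit 460) (B (lo112_14_7 (nat_lit 331)) (M (nat_lit 365) (B (lo112_14_6 (nat_lit 333)) (M (nat_lit 397)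 (B (lo112_15_6 (nat_lit 492)) (M (nat_lit 362) (B (lo110_11_0 (nat_lit 398)) (lo19_11_0 (nat_lit 361)))))))))))))) (B (M (nat_lit 332) (B (M (nat_lit 300) (B (M (nat_lit 299) (B (lo112_12_7 (nat_lit 267)) (lo112_13_7 (nat_lit 331)))) (M (nat_lit 427) (B (lo112_9_5 (nat_lit 395)) (lo112_10_5 (nat_lit 459)))))) (B (M (nat_lit 331) (B (lo112_13_7 (nat_lit 299)) (M (nat_lit 333) (B (lo112_13_6 (nat_lit 301)) (M (nat_lit 330) (B (M (nat_lit 365) (B (lo110_10_0 (nat_lit 366)) (lo19_10_0 (nat_lit 329)))) (B (M (nat_lit 329) (B (lo19_10_0 (nat_lit 365)) (M (nat_lit 297) (B (lo113_10_3 (nat_lit 298)) (lo112_10_3 (nat_lit 296)))))) (B (M (nat_lit 329) (B (M (nat_lit 297) (B (lo113_10_3 (nat_lit 298)) (lo112_10_3 (nat_lit 296)))) (M (nat_lit 361) (B (lo113_10_1 (nat_lit 362)) (lo112_10_1 (nat_lit 360)))))) (M (nat_lit 334) (B (M (nat_lit 366) (B (lo111_10_0 (nat_lit 367)) (lo110_10_0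 (nat_lit 365)))) (M (nat_lit 362) (B (lo114_10_1 (nat_lit 363)) (lo113_10_1 (nat_lit 361)))))))))))))) (M (nat_lit 300) (B (M (nat_lit 301) (B (lo112_12_6 (nat_lit 269)) (lo112_13_6 (nat_lit 333)))) (M (nat_lit 427) (B (lo112_9_5 (nat_lit 395)) (lo112_10_5 (nat_lit 459))))))))) (B (M (nat_lit 460) (B (M (nat_lit 363) (B (lo112_14_7 (nat_lit 331)) (M (nat_lit 492) (B (lo112_15_7 (nat_lit 395)) (M (nat_lit 365) (B (lo112_14_6 (nat_lit 333)) (lo112_15_6 (nat_lit 397)))))))) (B (M (nat_lit 492) (B (M (nat_lit 363) (B (lo112_14_7 (nat_lit 331)) (lo112_15_7 (nat_lit 395)))) (M (nat_lit 491) (B (lo112_11_5 (nat_lit 459)) (lo112_12_5 (nat_lit 523)))))) (M (nat_lit 332) (B (M (nat_lit 333) (B (lo112_13_6 (nat_lit 301)) (lo112_14_6 (nat_lit 365)))) (M (nat_lit 459) (B (lo112_10_5 (nat_lit 427)) (lo112_11_5 (nat_lit 491))))))))) (B (K _ _ _ o1_s57801) (B (M (nat_lit 332) (B (M (nat_lit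 460) (B (M (nat_lit 331) (B (lo112_13_7 (nat_lit 299)) (lo112_14_7 (nat_lit 363)))) (M (nat_lit 459) (B (lo112_10_5 (nat_lit 427)) (lo112_11_5 (nat_lit 491)))))) (B (M (nat_lit 300) (B (M (nat_lit 301) (B (lo112_12_6 (nat_lit 269)) (lo112_13_6 (nat_lit 333)))) (M (nat_lit 299) (B (lo112_12_7 (nat_lit 267)) (lo112_13_7 (nat_lit 331)))))) (M (nat_lit 460) (B (M (nat_lit 333) (B (lo112_13_6 (nat_lit 301)) (lo112_14_6 (nat_lit 365)))) (M (nat_lit 459) (B (lo112_10_5 (nat_lit 427)) (lo112_11_5 (nat_lit 491))))))))) (B (M (nat_lit 460) (B (M (nat_lit 492) (B (M (nat_lit 363) (B (lo112_14_7 (nat_lit 331)) (lo112_15_7 (nat_lit 395)))) (M (nat_lit 491) (B (lo112_11_5 (nat_lit 459)) (lo112_12_5 (nat_lit 523)))))) (B (M (nat_lit 331) (B (lo112_14_7 (nat_lit 363)) (M (nat_lit 332) (B (lo112_13_7 (nat_lit 299)) (M (nat_lit 333) (B (lo112_13_6 (nat_lit 301)) (lo112_14_6 (nat_lit 365))))))))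 (M (nat_lit 492) (B (M (nat_lit 365) (B (lo112_14_6 (nat_lit 333)) (lo112_15_6 (nat_lit 397)))) (M (nat_lit 491) (B (lo112_11_5 (nat_lit 459)) (lo112_12_5 (nat_lit 523))))))))) (M (nat_lit 332) (B (M (nat_lit 300) (B (M (nat_lit 301) (B (lo112_12_6 (nat_lit 269)) (lo112_13_6 (nat_lit 333)))) (M (nat_lit 299) (B (lo112_12_7 (nat_lit 267)) (lo112_13_7 (nat_lit 331)))))) (B (M (nat_lit 331) (B (lo112_13_7 (nat_lit 299)) (M (nat_lit 333) (B (lo112_13_6 (nat_lit 301)) (M (nat_lit 460) (B (lo112_14_6 (nat_lit 365)) (lo112_14_7 (nat_lit 363)))))))) (B (M (nat_lit 300) (B (M (nat_lit 299) (B (lo112_12_7 (nat_lit 267)) (lo112_13_7 (nat_lit 331)))) (M (nat_lit 268) (B (M (nat_lit 397) (B (lo112_8_4 (nat_lit 365)) (lo112_9_4 (nat_lit 429)))) (M (nat_lit 395) (B (lo112_8_5 (nat_lit 363)) (lo112_9_5 (nat_lit 427)))))))) (M (nat_lit 300) (B (M (nat_lit 301) (B (lo112_12_6 (nat_lit 269))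 (lo112_13_6 (nat_lit 333)))) (M (nat_lit 268) (B (M (nat_lit 397) (B (lo112_8_4 (nat_lit 365)) (lo112_9_4 (nat_lit 429)))) (M (nat_lit 395) (B (lo112_8_5 (nat_lit 363)) (lo112_9_5 (nat_lit 427)))))))))))))))))))))))) (B (K _ _ _ o1_s50638) (B (K _ _ _ o1_s57919) (B (K _ _ _ o1_s57946) (B (K _ _ _ o1_s57984) (M (nat_lit 364) (B (M (nat_lit 461) (B (lo112_10_4 (nat_lit 332)) (M (nat_lit 493) (B (lo113_15_7 (nat_lit 397)) (lo113_16_7 (nat_lit 525)))))) (B (M (nat_lit 461) (B (lo112_10_4 (nat_lit 332)) (M (nat_lit 493) (B (lo113_16_7 (nat_lit 525)) (lo112_11_4 (nat_lit 460)))))) (B (K _ _ _ o1_s49514) (M (nat_lit 460) (B (M (nat_lit 492) (B (M (nat_lit 365) (B (lo112_14_6 (nat_lit 333)) (lo112_15_6 (nat_lit 397)))) (M (nat_lit 493) (B (lo112_11_4 (nat_lit 461)) (lo112_12_4 (nat_lit 525)))))) (B (M (nat_lit 492) (B (M (nat_lit 397) (B (lo112_15_6 (nat_lit 365)) (lo112_16_6 (nat_lit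 524)))) (M (nat_lit 493) (B (lo112_11_4 (nat_lit 461)) (lo112_12_4 (nat_lit 525)))))) (B (K _ _ _ o1_s57927) (B (K _ _ _ o1_s57935) (B (K _ _ _ o1_s57936) (B (M (nat_lit 365) (B (lo112_14_6 (nat_lit 333)) (M (nat_lit 397) (B (lo112_15_6 (nat_lit 492)) (M (nat_lit 363) (B (lo112_14_7 (nat_lit 331)) (M (nat_lit 362) (B (lo110_11_0 (nat_lit 398)) (lo19_11_0 (nat_lit 361)))))))))) (M (nat_lit 461) (B (lo112_11_4 (nat_lit 493)) (M (nat_lit 365) (B (lo112_14_6 (nat_lit 333)) (M (nat_lit 397) (B (M (nat_lit 462) (B (lo113_11_4 (nat_lit 494)) (M (nat_lit 463) (B (lo116_14_3 (nat_lit 464)) (lo115_14_3 (nat_lit 427)))))) (M (nat_lit 363) (B (lo112_14_7 (nat_lit 331)) (M (nat_lit 362) (B (lo110_11_0 (nat_lit 398)) (lo19_11_0 (nat_lit 361))))))))))))))))))))))))))))))))) _ _ _ (by decide +kernel)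
theorem o1_s58729 : Sem (nat_lit 2079502270590611144683810638107312777577327806531862431377859685460965980854219217279980804578104683573043408221052678871730618368) (nat_lit 2532663312853635317158301930185166294227550869954212231429297474846126414599282120088753272955768145002356670099642109971624249719900530076748584528606314647306081108583069515776) (nat_lit 2532663312853635317158301930185166294227550869954212231429297474846126414599282120088753272955768145002356670099642109971624249719900530076748584528606314647306081108583069515776) := sem_of_chk (M (nat_lit 460) (B (M (nat_lit 397) (B (M (nat_lit 365) (B (lo113_10_5 (nat_lit 333)) (M (nat_lit 492) (B (lo113_11_5 (nat_lit 461)) (lo112_16_6 (nat_lit 524)))))) (B (M (nat_lit 365) (B (lo113_10_5 (nat_lit 333)) (M (nat_lit 492) (B (lo112_16_6 (nat_lit 524)) (lo112_15_6 (nat_lit 396)))))) (B (K _ _ _ o1_s58045) (B (M (nat_lit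 365) (B (lo113_10_5 (nat_lit 333)) (M (nat_lit 492) (B (lo113_11_5 (nat_lit 461)) (lo112_15_6 (nat_lit 396)))))) (M (nat_lit 365) (B (lo113_10_5 (nat_lit 333)) (M (nat_lit 461) (B (M (nat_lit 462) (B (lo113_11_4 (nat_lit 494)) (M (nat_lit 463) (B (lo116_14_3 (nat_lit 464)) (lo115_14_3 (nat_lit 427)))))) (M (nat_lit 493) (B (M (nat_lit 366) (B (lo113_15_6 (nat_lit 398)) (lo113_14_6 (nat_lit 334)))) (M (nat_lit 364) (B (lo113_15_7 (nat_lit 396)) (lo113_14_7 (nat_lit 332))))))))))))))) (B (M (nat_lit 397) (B (M (nat_lit 365) (B (lo113_10_5 (nat_lit 333)) (M (nat_lit 492) (B (lo113_11_5 (nat_lit 461)) (lo112_15_6 (nat_lit 396)))))) (B (M (nat_lit 365) (B (lo113_10_5 (nat_lit 333)) (M (nat_lit 492) (B (lo112_16_6 (nat_lit 524)) (lo112_15_6 (nat_lit 396)))))) (B (K _ _ _ o1_s58045) (B (K _ _ _ o1_s58054) (M (nat_lit 365) (B (lo113_10_5 (nat_lit 333)) (M (nat_lit 492) (B (lo113_11_5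 (nat_lit 461)) (lo112_16_6 (nat_lit 524))))))))))) (B (M (nat_lit 397) (B (M (nat_lit 365) (B (lo113_10_5 (nat_lit 333)) (M (nat_lit 492) (B (lo113_11_5 (nat_lit 461)) (lo112_16_6 (nat_lit 524)))))) (B (M (nat_lit 365) (B (lo113_10_5 (nat_lit 333)) (M (nat_lit 492) (B (lo112_16_6 (nat_lit 524)) (lo112_15_6 (nat_lit 396)))))) (B (M (nat_lit 396) (B (K _ _ _ o1_s57997) (B (K _ _ _ o1_s58001) (B (M (nat_lit 398) (B (M (nat_lit 427) (B (lo115_12_1 (nat_lit 399)) (lo110_13_2 (nat_lit 426)))) (B (K _ _ _ o1_s58008) (M (nat_lit 492) (B (lo112_16_6 (nat_lit 524)) (M (nat_lit 364) (B (M (nat_lit 363) (B (lo115_12_3 (nat_lit 399)) (lo112_15_7 (nat_lit 395)))) (M (nat_lit 491) (B (lo112_12_5 (nat_lit 523)) (lo112_11_5 (nat_lit 459))))))))))) (B (K _ _ _ o1_s58027) (B (M (nat_lit 461) (B (M (nat_lit 493) (B (lo113_16_7 (nat_lit 525)) (lo113_15_7 (nat_lit 364)))) (B (M (nat_lit 364) (B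 (lo113_15_7 (nat_lit 493)) (lo112_10_4 (nat_lit 332)))) (B (K _ _ _ o1_s58036) (M (nat_lit 398) (B (M (nat_lit 493) (B (lo113_15_6 (nat_lit 366)) (lo113_16_7 (nat_lit 525)))) (M (nat_lit 427) (B (lo115_12_1 (nat_lit 399)) (lo110_13_2 (nat_lit 426)))))))))) (M (nat_lit 492) (B (lo112_16_6 (nat_lit 524)) (K _ _ _ o1_s58071))))))))) (B (M (nat_lit 365) (B (lo113_10_5 (nat_lit 333)) (M (nat_lit 492) (B (lo113_11_5 (nat_lit 461)) (lo112_15_6 (nat_lit 396)))))) (K _ _ _ o1_s58054)))))) (B (M (nat_lit 492) (B (M (nat_lit 397) (B (lo112_16_6 (nat_lit 524)) (M (nat_lit 365) (B (lo113_11_5 (nat_lit 461)) (lo113_10_5 (nat_lit 333)))))) (B (M (nat_lit 397) (B (lo112_16_6 (nat_lit 524)) (M (nat_lit 365) (B (lo113_10_5 (nat_lit 333)) (lo112_15_6 (nat_lit 396)))))) (B (K _ _ _ o1_s58076) (M (nat_lit 396) (B (M (nat_lit 365) (B (lo112_15_6 (nat_lit 397)) (M (nat_lit 493) (B (lo112_12_4 (nat_lit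 525)) (M (nat_lit 364) (B (lo112_11_4 (nat_lit 461)) (lo112_14_6 (nat_lit 333)))))))) (B (M (nat_lit 364) (B (M (nat_lit 461) (B (lo112_11_4 (nat_lit 493)) (lo112_10_4 (nat_lit 332)))) (M (nat_lit 491) (B (lo112_12_5 (nat_lit 523)) (lo112_11_5 (nat_lit 459)))))) (B (M (nat_lit 364) (B (M (nat_lit 365) (B (lo112_15_6 (nat_lit 397)) (lo112_14_6 (nat_lit 333)))) (M (nat_lit 491) (B (lo112_12_5 (nat_lit 523)) (lo112_11_5 (nat_lit 459)))))) (M (nat_lit 397) (B (lo112_15_6 (nat_lit 365)) (K _ _ _ o1_s58071))))))))))) (B (M (nat_lit 492) (B (M (nat_lit 397) (B (lo112_16_6 (nat_lit 524)) (M (nat_lit 365) (B (lo113_10_5 (nat_lit 333)) (lo112_15_6 (nat_lit 396)))))) (B (K _ _ _ o1_s58076) (B (K _ _ _ o1_s58083) (M (nat_lit 397) (B (lo112_16_6 (nat_lit 524)) (M (nat_lit 365) (B (lo113_11_5 (nat_lit 461)) (lo113_10_5 (nat_lit 333)))))))))) (B (M (nat_lit 397) (B (M (nat_lit 365) (B (lo113_10_5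 (nat_lit 333)) (M (nat_lit 492) (B (lo113_11_5 (nat_lit 461)) (lo112_15_6 (nat_lit 396)))))) (B (M (nat_lit 365) (B (lo113_10_5 (nat_lit 333)) (M (nat_lit 492) (B (lo112_16_6 (nat_lit 524)) (lo112_15_6 (nat_lit 396)))))) (B (M (nat_lit 461) (B (M (nat_lit 492) (B (lo112_16_6 (nat_lit 524)) (M (nat_lit 493) (B (M (nat_lit 494) (B (lo113_12_4 (nat_lit 526)) (M (nat_lit 495) (B (lo116_15_3 (nat_lit 496)) (lo115_15_3 (nat_lit 459)))))) (M (nat_lit 491) (B (M (nat_lit 490) (B (lo110_15_2 (nat_lit 462)) (lo19_15_2 (nat_lit 489)))) (M (nat_lit 396) (B (lo113_15_7 (nat_lit 364)) (lo112_12_5 (nat_lit 523)))))))))) (B (M (nat_lit 492) (B (lo112_16_6 (nat_lit 524)) (M (nat_lit 493) (B (M (nat_lit 494) (B (lo113_12_4 (nat_lit 526)) (M (nat_lit 459) (B (lo115_15_3 (nat_lit 495)) (lo110_14_0 (nat_lit 458)))))) (M (nat_lit 491) (B (M (nat_lit 490) (B (lo110_15_2 (nat_lit 462)) (lo19_15_2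 (nat_lit 489)))) (M (nat_lit 396) (B (lo113_15_7 (nat_lit 364)) (lo112_12_5 (nat_lit 523)))))))))) (B (M (nat_lit 492) (B (lo112_16_6 (nat_lit 524)) (M (nat_lit 491) (B (M (nat_lit 490) (B (lo19_15_2 (nat_lit 489)) (M (nat_lit 462) (B (lo110_15_2 (nat_lit 493)) (lo114_14_1 (nat_lit 459)))))) (B (M (nat_lit 396) (B (lo112_12_5 (nat_lit 523)) (M (nat_lit 364) (B (lo113_15_7 (nat_lit 493)) (lo112_10_4 (nat_lit 332)))))) (M (nat_lit 396) (B (lo112_12_5 (nat_lit 523)) (M (nat_lit 364) (B (lo112_10_4 (nat_lit 332)) (lo112_11_5 (nat_lit 459))))))))))) (B (M (nat_lit 396) (B (M (nat_lit 364) (B (lo113_15_7 (nat_lit 493)) (lo112_10_4 (nat_lit 332)))) (B (M (nat_lit 491) (B (M (nat_lit 492) (B (lo112_16_6 (nat_lit 524)) (lo112_12_5 (nat_lit 523)))) (M (nat_lit 364) (B (lo112_10_4 (nat_lit 332)) (lo112_11_5 (nat_lit 459)))))) (M (nat_lit 398) (B (M (nat_lit 399) (B (lo116_12_1 (nat_lit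 400)) (lo115_12_1 (nat_lit 427)))) (B (M (nat_lit 427) (B (lo115_12_1 (nat_lit 399)) (lo110_13_2 (nat_lit 426)))) (M (nat_lit 395) (B (M (nat_lit 366) (B (lo111_12_2 (nat_lit 367)) (lo113_15_6 (nat_lit 493)))) (M (nat_lit 492) (B (lo112_16_6 (nat_lit 524)) (lo112_15_7 (nat_lit 363)))))))))))) (B (M (nat_lit 396) (B (M (nat_lit 364) (B (lo112_10_4 (nat_lit 332)) (M (nat_lit 492) (B (lo112_16_6 (nat_lit 524)) (M (nat_lit 491) (B (lo112_12_5 (nat_lit 523)) (lo112_11_5 (nat_lit 459)))))))) (B (K _ _ _ o1_s58036) (K _ _ _ o1_s58123)))) (B (M (nat_lit 459) (B (M (nat_lit 426) (B (M (nat_lit 427) (B (lo110_13_0 (nat_lit 462)) (lo110_13_2 (nat_lit 398)))) (M (nat_lit 458) (B (lo113_14_3 (nat_lit 425)) (lo19_14_2 (nat_lit 457)))))) (B (K _ _ _ o1_s58136) (B (K _ _ _ o1_s58141) (M (nat_lit 427) (B (M (nat_lit 462) (B (lo115_14_3 (nat_lit 463)) (lo110_13_0 (nat_lit 426)))) (B (M (nat_lit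 426) (B (lo110_13_0 (nat_lit 462)) (lo110_13_2 (nat_lit 398)))) (B (M (nat_lit 426) (B (lo110_13_2 (nat_lit 398)) (lo19_13_0 (nat_lit 425)))) (M (nat_lit 491) (B (M (nat_lit 462) (B (lo115_14_3 (nat_lit 463)) (lo114_14_1 (nat_lit 490)))) (M (nat_lit 523) (B (lo111_17_6 (nat_lit 555)) (lo111_16_6 (nat_lit 396)))))))))))))) (B (K _ _ _ o1_s58163) (M (nat_lit 396) (B (M (nat_lit 364) (B (lo113_15_7 (nat_lit 493)) (lo112_10_4 (nat_lit 332)))) (K _ _ _ o1_s58123))))))))))) (B (K _ _ _ o1_s58054) (M (nat_lit 365) (B (lo113_10_5 (nat_lit 333)) (M (nat_lit 492) (B (lo113_11_5 (nat_lit 461)) (lo112_16_6 (nat_lit 524))))))))))) (B (M (nat_lit 492) (B (M (nat_lit 397) (B (lo112_16_6 (nat_lit 524)) (M (nat_lit 365) (B (lo113_11_5 (nat_lit 461)) (lo113_10_5 (nat_lit 333)))))) (B (M (nat_lit 397) (B (lo112_16_6 (nat_lit 524)) (M (nat_lit 365) (B (lo113_10_5 (nat_lit 333)) (lo112_15_6 (nat_lit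 396)))))) (B (M (nat_lit 524) (B (M (nat_lit 556) (B (lo112_17_6 (nat_lit 461)) (M (nat_lit 555) (B (lo112_14_5 (nat_lit 587)) (lo112_13_5 (nat_lit 523)))))) (B (M (nat_lit 396) (B (M (nat_lit 523) (B (lo112_13_5 (nat_lit 555)) (lo112_12_5 (nat_lit 491)))) (M (nat_lit 395) (B (lo112_16_7 (nat_lit 427)) (lo112_15_7 (nat_lit 363)))))) (M (nat_lit 556) (B (lo112_17_6 (nat_lit 461)) (M (nat_lit 427) (B (lo112_17_7 (nat_lit 459)) (lo112_16_7 (nat_lit 395))))))))) (M (nat_lit 397) (B (M (nat_lit 365) (B (lo113_11_5 (nat_lit 461)) (lo113_10_5 (nat_lit 333)))) (B (M (nat_lit 365) (B (lo113_10_5 (nat_lit 333)) (lo112_15_6 (nat_lit 396)))) (M (nat_lit 396) (B (M (nat_lit 491) (B (lo112_12_5 (nat_lit 523)) (M (nat_lit 364) (B (lo112_11_5 (nat_lit 459)) (M (nat_lit 332) (B (lo112_10_4 (nat_lit 461)) (lo112_9_4 (nat_lit 300)))))))) (K _ _ _ o1_s58179)))))))))) (B (M (nat_lit 492) (B (M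 (nat_lit 397) (B (lo112_16_6 (nat_lit 524)) (M (nat_lit 365) (B (lo113_10_5 (nat_lit 333)) (lo112_15_6 (nat_lit 396)))))) (B (M (nat_lit 524) (B (M (nat_lit 427) (B (lo112_16_7 (nat_lit 395)) (M (nat_lit 556) (B (lo112_17_7 (nat_lit 459)) (M (nat_lit 555) (B (lo112_14_5 (nat_lit 587)) (lo112_13_5 (nat_lit 523)))))))) (B (M (nat_lit 396) (B (M (nat_lit 525) (B (lo112_13_4 (nat_lit 557)) (lo112_12_4 (nat_lit 493)))) (M (nat_lit 395) (B (lo112_16_7 (nat_lit 427)) (lo112_15_7 (nat_lit 363)))))) (M (nat_lit 556) (B (M (nat_lit 557) (B (lo112_14_4 (nat_lit 589)) (lo112_13_4 (nat_lit 525)))) (M (nat_lit 555) (B (lo112_14_5 (nat_lit 587)) (lo112_13_5 (nat_lit 523))))))))) (B (M (nat_lit 396) (B (M (nat_lit 364) (B (M (nat_lit 365) (B (lo112_15_6 (nat_lit 397)) (lo112_14_6 (nat_lit 333)))) (M (nat_lit 491) (B (lo112_12_5 (nat_lit 523)) (lo112_11_5 (nat_lit 459)))))) (B (K _ _ _ o1_s58185)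 (M (nat_lit 397) (B (lo112_15_6 (nat_lit 365)) (K _ _ _ o1_s58179)))))) (M (nat_lit 524) (B (lo112_16_6 (nat_lit 397)) (M (nat_lit 556) (B (M (nat_lit 557) (B (lo112_14_4 (nat_lit 589)) (lo112_13_4 (nat_lit 525)))) (M (nat_lit 555) (B (lo112_14_5 (nat_lit 587)) (lo112_13_5 (nat_lit 523)))))))))))) (B (M (nat_lit 396) (B (M (nat_lit 364) (B (M (nat_lit 461) (B (lo112_11_4 (nat_lit 493)) (lo112_10_4 (nat_lit 332)))) (B (M (nat_lit 459) (B (lo112_11_5 (nat_lit 491)) (M (nat_lit 332) (B (lo112_10_4 (nat_lit 461)) (lo112_10_5 (nat_lit 427)))))) (B (M (nat_lit 332) (B (M (nat_lit 333) (B (lo112_14_6 (nat_lit 365)) (lo112_13_6 (nat_lit 301)))) (M (nat_lit 459) (B (lo112_11_5 (nat_lit 491)) (lo112_10_5 (nat_lit 427)))))) (M (nat_lit 492) (B (M (nat_lit 493) (B (lo112_12_4 (nat_lit 525)) (lo112_11_4 (nat_lit 461)))) (M (nat_lit 491) (B (lo112_12_5 (nat_lit 523)) (lo112_11_5 (nat_lit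 459)))))))))) (B (M (nat_lit 364) (B (M (nat_lit 461) (B (lo112_11_4 (nat_lit 493)) (lo112_10_4 (nat_lit 332)))) (B (M (nat_lit 459) (B (lo112_11_5 (nat_lit 491)) (M (nat_lit 332) (B (lo112_10_4 (nat_lit 461)) (lo112_10_5 (nat_lit 427)))))) (B (M (nat_lit 332) (B (M (nat_lit 333) (B (lo112_14_6 (nat_lit 365)) (lo112_13_6 (nat_lit 301)))) (M (nat_lit 459) (B (lo112_11_5 (nat_lit 491)) (lo112_10_5 (nat_lit 427)))))) (M (nat_lit 492) (B (M (nat_lit 491) (B (lo112_12_5 (nat_lit 523)) (lo112_11_5 (nat_lit 459)))) (M (nat_lit 524) (B (M (nat_lit 461) (B (lo112_11_4 (nat_lit 493)) (lo112_17_6 (nat_lit 556)))) (M (nat_lit 395) (B (lo112_16_7 (nat_lit 427)) (lo112_15_7 (nat_lit 363)))))))))))) (B (M (nat_lit 492) (B (M (nat_lit 395) (B (lo112_15_7 (nat_lit 363)) (M (nat_lit 524) (B (lo112_16_7 (nat_lit 427)) (M (nat_lit 523) (B (lo112_13_5 (nat_lit 555)) (lo112_12_5 (nat_lit 491))))))))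 (B (K _ _ _ o1_s48126) (K _ _ _ o1_s58201)))) (B (M (nat_lit 492) (B (M (nat_lit 395) (B (lo112_15_7 (nat_lit 363)) (M (nat_lit 524) (B (lo112_16_7 (nat_lit 427)) (M (nat_lit 523) (B (lo112_13_5 (nat_lit 555)) (lo112_12_5 (nat_lit 491)))))))) (B (K _ _ _ o1_s58185) (M (nat_lit 524) (B (M (nat_lit 525) (B (lo112_13_4 (nat_lit 557)) (lo112_12_4 (nat_lit 493)))) (M (nat_lit 395) (B (lo112_16_7 (nat_lit 427)) (lo112_15_7 (nat_lit 363))))))))) (B (M (nat_lit 461) (B (M (nat_lit 493) (B (lo113_16_7 (nat_lit 525)) (lo112_11_4 (nat_lit 364)))) (B (M (nat_lit 364) (B (lo112_11_4 (nat_lit 493)) (lo112_10_4 (nat_lit 332)))) (B (M (nat_lit 459) (B (M (nat_lit 364) (B (lo112_10_4 (nat_lit 332)) (lo112_11_5 (nat_lit 491)))) (B (K _ _ _ o1_s58208) (K _ _ _ o1_s58211)))) (M (nat_lit 459) (B (M (nat_lit 493) (B (lo113_16_7 (nat_lit 525)) (M (nat_lit 458) (B (lo110_14_0 (nat_lit 494)) (lo19_14_2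 (nat_lit 457)))))) (B (K _ _ _ o1_s58225) (K _ _ _ o1_s58208)))))))) (B (M (nat_lit 492) (B (M (nat_lit 524) (B (M (nat_lit 525) (B (lo112_13_4 (nat_lit 557)) (lo112_12_4 (nat_lit 493)))) (M (nat_lit 395) (B (lo112_16_7 (nat_lit 427)) (lo112_15_7 (nat_lit 363)))))) (B (M (nat_lit 395) (B (lo112_15_7 (nat_lit 363)) (M (nat_lit 524) (B (lo112_16_7 (nat_lit 427)) (M (nat_lit 523) (B (lo112_13_5 (nat_lit 555)) (lo112_12_5 (nat_lit 491)))))))) (M (nat_lit 493) (B (lo112_12_4 (nat_lit 525)) (M (nat_lit 491) (B (lo112_12_5 (nat_lit 523)) (M (nat_lit 494) (B (M (nat_lit 459) (B (lo115_15_3 (nat_lit 495)) (lo114_15_3 (nat_lit 458)))) (B (M (nat_lit 490) (B (M (nat_lit 462) (B (lo111_15_2 (nat_lit 463)) (lo110_15_2 (nat_lit 461)))) (M (nat_lit 458) (B (lo114_15_3 (nat_lit 459)) (lo113_15_3 (nat_lit 457)))))) (M (nat_lit 495) (B (M (nat_lit 527) (B (lo112_15_0 (nat_lit 528)) (lo111_15_0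 (nat_lit 526)))) (M (nat_lit 463) (B (lo112_15_2 (nat_lit 464)) (lo111_15_2 (nat_lit 462)))))))))))))))) (B (M (nat_lit 492) (B (M (nat_lit 524) (B (M (nat_lit 525) (B (lo112_13_4 (nat_lit 557)) (lo112_12_4 (nat_lit 493)))) (M (nat_lit 395) (B (lo112_16_7 (nat_lit 427)) (lo112_15_7 (nat_lit 363)))))) (B (M (nat_lit 461) (B (M (nat_lit 493) (B (lo113_16_7 (nat_lit 525)) (lo112_11_4 (nat_lit 364)))) (M (nat_lit 395) (B (lo112_15_7 (nat_lit 363)) (M (nat_lit 524) (B (lo112_17_6 (nat_lit 556)) (lo112_16_7 (nat_lit 427)))))))) (B (M (nat_lit 461) (B (M (nat_lit 364) (B (lo112_11_4 (nat_lit 493)) (lo112_10_4 (nat_lit 332)))) (M (nat_lit 395) (B (lo112_15_7 (nat_lit 363)) (M (nat_lit 524) (B (lo112_17_6 (nat_lit 556)) (lo112_16_7 (nat_lit 427)))))))) (B (K _ _ _ o1_s58201) (B (M (nat_lit 364) (B (M (nat_lit 493) (B (lo112_12_4 (nat_lit 525)) (lo112_11_4 (nat_lit 461)))) (B (M (nat_lit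 461) (B (lo112_11_4 (nat_lit 493)) (lo112_10_4 (nat_lit 332)))) (B (M (nat_lit 459) (B (lo112_11_5 (nat_lit 491)) (M (nat_lit 332) (B (lo112_10_4 (nat_lit 461)) (lo112_10_5 (nat_lit 427)))))) (M (nat_lit 332) (B (M (nat_lit 333) (B (lo112_14_6 (nat_lit 365)) (lo112_13_6 (nat_lit 301)))) (M (nat_lit 459) (B (lo112_11_5 (nat_lit 491)) (lo112_10_5 (nat_lit 427)))))))))) (K _ _ _ o1_s58255))))))) (B (M (nat_lit 395) (B (M (nat_lit 492) (B (lo112_15_7 (nat_lit 363)) (M (nat_lit 524) (B (lo112_16_7 (nat_lit 427)) (M (nat_lit 525) (B (lo112_13_4 (nat_lit 557)) (lo112_12_4 (nat_lit 493)))))))) (B (M (nat_lit 492) (B (lo112_15_7 (nat_lit 363)) (M (nat_lit 461) (B (M (nat_lit 493) (B (lo113_16_7 (nat_lit 525)) (lo112_11_4 (nat_lit 364)))) (M (nat_lit 524) (B (lo112_17_6 (nat_lit 556)) (lo112_16_7 (nat_lit 427)))))))) (B (M (nat_lit 492) (B (lo112_15_7 (nat_lit 363)) (M (nat_lit 461)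 (B (M (nat_lit 524) (B (lo112_17_6 (nat_lit 556)) (lo112_16_7 (nat_lit 427)))) (M (nat_lit 364) (B (lo112_11_4 (nat_lit 493)) (lo112_10_4 (nat_lit 332)))))))) (B (M (nat_lit 492) (B (lo112_15_7 (nat_lit 363)) (M (nat_lit 524) (B (lo112_16_7 (nat_lit 427)) (M (nat_lit 556) (B (lo112_17_6 (nat_lit 461)) (M (nat_lit 557) (B (lo112_14_4 (nat_lit 589)) (lo112_13_4 (nat_lit 525)))))))))) (B (M (nat_lit 364) (B (M (nat_lit 461) (B (lo112_11_4 (nat_lit 493)) (lo112_10_4 (nat_lit 332)))) (B (M (nat_lit 332) (B (lo112_10_4 (nat_lit 461)) (M (nat_lit 333) (B (lo112_14_6 (nat_lit 365)) (lo112_13_6 (nat_lit 301)))))) (B (M (nat_lit 332) (B (M (nat_lit 333) (B (lo112_14_6 (nat_lit 365)) (lo112_13_6 (nat_lit 301)))) (M (nat_lit 427) (B (lo112_10_5 (nat_lit 459)) (lo112_9_5 (nat_lit 300)))))) (M (nat_lit 492) (B (lo112_15_7 (nat_lit 363)) (M (nat_lit 493) (B (lo112_12_4 (nat_lit 525)) (lo112_11_4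 (nat_lit 461)))))))))) (B (M (nat_lit 364) (B (M (nat_lit 461) (B (lo112_11_4 (nat_lit 493)) (lo112_10_4 (nat_lit 332)))) (B (M (nat_lit 332) (B (lo112_10_4 (nat_lit 461)) (M (nat_lit 333) (B (lo112_14_6 (nat_lit 365)) (lo112_13_6 (nat_lit 301)))))) (B (M (nat_lit 332) (B (M (nat_lit 333) (B (lo112_14_6 (nat_lit 365)) (lo112_13_6 (nat_lit 301)))) (M (nat_lit 427) (B (lo112_10_5 (nat_lit 459)) (lo112_9_5 (nat_lit 300)))))) (M (nat_lit 365) (B (lo112_14_6 (nat_lit 333)) (M (nat_lit 394) (B (lo19_12_0 (nat_lit 393)) (M (nat_lit 366) (B (lo115_11_1 (nat_lit 367)) (lo114_11_1 (nat_lit 363)))))))))))) (B (M (nat_lit 492) (B (lo112_15_7 (nat_lit 363)) (K _ _ _ o1_s58301))) (M (nat_lit 492) (B (M (nat_lit 524) (B (lo112_16_7 (nat_lit 427)) (M (nat_lit 525) (B (lo112_13_4 (nat_lit 557)) (lo112_12_4 (nat_lit 493)))))) (B (M (nat_lit 461) (B (M (nat_lit 493) (B (lo113_16_7 (nat_lit 525))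 (lo112_11_4 (nat_lit 364)))) (M (nat_lit 524) (B (lo112_17_6 (nat_lit 556)) (lo112_16_7 (nat_lit 427)))))) (B (M (nat_lit 461) (B (M (nat_lit 524) (B (lo112_17_6 (nat_lit 556)) (lo112_16_7 (nat_lit 427)))) (M (nat_lit 364) (B (lo112_11_4 (nat_lit 493)) (lo112_10_4 (nat_lit 332)))))) (B (M (nat_lit 524) (B (lo112_16_7 (nat_lit 427)) (M (nat_lit 556) (B (lo112_17_6 (nat_lit 461)) (M (nat_lit 557) (B (lo112_14_4 (nat_lit 589)) (lo112_13_4 (nat_lit 525)))))))) (B (M (nat_lit 364) (B (M (nat_lit 493) (B (lo112_12_4 (nat_lit 525)) (lo112_11_4 (nat_lit 461)))) (B (M (nat_lit 461) (B (lo112_11_4 (nat_lit 493)) (lo112_10_4 (nat_lit 332)))) (B (M (nat_lit 332) (B (lo112_10_4 (nat_lit 461)) (M (nat_lit 333) (B (lo112_14_6 (nat_lit 365)) (lo112_13_6 (nat_lit 301)))))) (M (nat_lit 332) (B (M (nat_lit 333) (B (lo112_14_6 (nat_lit 365)) (lo112_13_6 (nat_lit 301)))) (M (nat_lit 427) (B (lo112_10_5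 (nat_lit 459)) (lo112_9_5 (nat_lit 300)))))))))) (K _ _ _ o1_s58301))))))))))))))) (B (M (nat_lit 492) (B (M (nat_lit 395) (B (lo112_15_7 (nat_lit 363)) (M (nat_lit 524) (B (lo112_16_7 (nat_lit 427)) (M (nat_lit 523) (B (lo112_13_5 (nat_lit 555)) (lo112_12_5 (nat_lit 491)))))))) (B (K _ _ _ o1_s57834) (M (nat_lit 524) (B (M (nat_lit 525) (B (lo112_13_4 (nat_lit 557)) (lo112_12_4 (nat_lit 493)))) (M (nat_lit 395) (B (lo112_16_7 (nat_lit 427)) (lo112_15_7 (nat_lit 363))))))))) (M (nat_lit 492) (B (M (nat_lit 493) (B (lo112_12_4 (nat_lit 525)) (M (nat_lit 491) (B (lo112_12_5 (nat_lit 523)) (M (nat_lit 364) (B (lo112_11_4 (nat_lit 461)) (lo112_11_5 (nat_lit 459)))))))) (B (M (nat_lit 364) (B (M (nat_lit 461) (B (lo112_11_4 (nat_lit 493)) (lo112_10_4 (nat_lit 332)))) (M (nat_lit 491) (B (lo112_12_5 (nat_lit 523)) (lo112_11_5 (nat_lit 459)))))) (B (K _ _ _ o1_s48126) (B (M (nat_lit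 524) (B (M (nat_lit 525) (B (lo112_13_4 (nat_lit 557)) (lo112_12_4 (nat_lit 493)))) (M (nat_lit 523) (B (lo112_13_5 (nat_lit 555)) (lo112_12_5 (nat_lit 491)))))) (K _ _ _ o1_s58255)))))))))))))))) (B (M (nat_lit 461) (B (M (nat_lit 492) (B (M (nat_lit 524) (B (lo112_17_6 (nat_lit 556)) (lo112_16_6 (nat_lit 397)))) (K _ _ _ o1_s48027))) (B (M (nat_lit 459) (B (M (nat_lit 458) (B (lo19_14_2 (nat_lit 457)) (M (nat_lit 493) (B (lo110_14_0 (nat_lit 494)) (M (nat_lit 525) (B (lo113_17_7 (nat_lit 557)) (lo113_16_7 (nat_lit 396)))))))) (B (K _ _ _ o1_s48918) (M (nat_lit 492) (B (M (nat_lit 524) (B (lo112_17_6 (nat_lit 556)) (lo112_16_6 (nat_lit 397)))) (M (nat_lit 491) (B (M (nat_lit 490) (B (lo114_14_1 (nat_lit 462)) (lo19_15_2 (nat_lit 489)))) (M (nat_lit 396) (B (lo112_12_5 (nat_lit 523)) (lo112_11_5 (nat_lit 364))))))))))) (B (M (nat_lit 492) (B (M (nat_lit 524) (B (lo112_17_6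 (nat_lit 556)) (lo112_16_6 (nat_lit 397)))) (B (K _ _ _ o1_s58333) (B (K _ _ _ o1_s58337) (M (nat_lit 493) (B (M (nat_lit 525) (B (lo113_17_7 (nat_lit 557)) (lo113_16_7 (nat_lit 396)))) (B (M (nat_lit 396) (B (lo113_16_7 (nat_lit 525)) (lo112_11_4 (nat_lit 364)))) (B (M (nat_lit 491) (B (M (nat_lit 396) (B (lo112_11_4 (nat_lit 364)) (lo112_12_5 (nat_lit 523)))) (M (nat_lit 494) (B (M (nat_lit 495) (B (lo116_15_3 (nat_lit 496)) (lo115_15_3 (nat_lit 459)))) (M (nat_lit 526) (B (lo111_15_0 (nat_lit 527)) (lo113_12_4 (nat_lit 397)))))))) (M (nat_lit 525) (B (lo113_17_7 (nat_lit 557)) (M (nat_lit 494) (B (M (nat_lit 495) (B (lo116_15_3 (nat_lit 496)) (lo115_15_3 (nat_lit 459)))) (M (nat_lit 526) (B (lo113_13_4 (nat_lit 558)) (lo113_12_4 (nat_lit 397)))))))))))))))) (B (M (nat_lit 492) (B (M (nat_lit 524) (B (lo112_17_6 (nat_lit 556)) (lo112_16_6 (nat_lit 397)))) (K _ _ _ o1_s48036)))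 (B (M (nat_lit 492) (B (M (nat_lit 524) (B (lo112_17_6 (nat_lit 556)) (lo112_16_6 (nat_lit 397)))) (M (nat_lit 462) (B (M (nat_lit 463) (B (lo116_14_3 (nat_lit 464)) (lo115_14_1 (nat_lit 491)))) (B (M (nat_lit 463) (B (lo115_14_1 (nat_lit 491)) (lo115_14_3 (nat_lit 427)))) (B (M (nat_lit 459) (B (M (nat_lit 426) (B (lo110_13_0 (nat_lit 427)) (M (nat_lit 458) (B (lo113_14_3 (nat_lit 425)) (lo19_14_2 (nat_lit 457)))))) (M (nat_lit 491) (B (lo114_14_1 (nat_lit 490)) (M (nat_lit 523) (B (lo112_12_5 (nat_lit 396)) (lo111_17_6 (nat_lit 555)))))))) (M (nat_lit 427) (B (lo115_14_3 (nat_lit 463)) (lo110_13_0 (nat_lit 426)))))))))) (B (M (nat_lit 492) (B (M (nat_lit 524) (B (lo112_17_6 (nat_lit 556)) (M (nat_lit 427) (B (lo112_16_7 (nat_lit 395)) (M (nat_lit 462) (B (lo115_14_3 (nat_lit 463)) (lo110_13_0 (nat_lit 426)))))))) (B (K _ _ _ o1_s58333) (B (M (nat_lit 524) (B (M (nat_lit 427)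 (B (lo112_16_7 (nat_lit 395)) (M (nat_lit 462) (B (lo115_14_3 (nat_lit 463)) (lo110_13_0 (nat_lit 426)))))) (M (nat_lit 396) (B (M (nat_lit 525) (B (lo112_13_4 (nat_lit 557)) (lo113_16_7 (nat_lit 493)))) (M (nat_lit 523) (B (lo112_13_5 (nat_lit 555)) (lo112_12_5 (nat_lit 491)))))))) (K _ _ _ o1_s48027))))) (B (M (nat_lit 492) (B (M (nat_lit 524) (B (lo112_16_6 (nat_lit 397)) (M (nat_lit 427) (B (lo112_16_7 (nat_lit 395)) (M (nat_lit 462) (B (lo115_14_3 (nat_lit 463)) (lo110_13_0 (nat_lit 426)))))))) (B (K _ _ _ o1_s58337) (K _ _ _ o1_s48027)))) (B (M (nat_lit 459) (B (M (nat_lit 458) (B (lo19_14_2 (nat_lit 457)) (M (nat_lit 493) (B (lo110_14_0 (nat_lit 494)) (M (nat_lit 525) (B (lo113_17_7 (nat_lit 557)) (lo113_16_7 (nat_lit 396)))))))) (B (K _ _ _ o1_s48918) (K _ _ _ o1_s58371)))) (B (M (nat_lit 462) (B (M (nat_lit 463) (B (lo116_14_3 (nat_lit 464)) (lo115_14_3 (nat_lit 427))))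 (B (M (nat_lit 427) (B (lo115_14_3 (nat_lit 463)) (lo110_13_0 (nat_lit 426)))) (M (nat_lit 493) (B (M (nat_lit 525) (B (lo113_17_7 (nat_lit 557)) (lo113_16_7 (nat_lit 396)))) (B (M (nat_lit 396) (B (lo113_16_7 (nat_lit 525)) (lo112_11_4 (nat_lit 364)))) (M (nat_lit 494) (B (M (nat_lit 495) (B (lo116_15_3 (nat_lit 496)) (lo111_14_0 (nat_lit 459)))) (M (nat_lit 526) (B (lo114_17_7 (nat_lit 558)) (lo113_12_4 (nat_lit 397)))))))))))) (B (M (nat_lit 462) (B (M (nat_lit 463) (B (lo116_14_3 (nat_lit 464)) (lo115_14_3 (nat_lit 427)))) (B (M (nat_lit 427) (B (lo115_14_3 (nat_lit 463)) (lo110_13_0 (nat_lit 426)))) (B (M (nat_lit 524) (B (M (nat_lit 492) (B (lo112_17_6 (nat_lit 556)) (lo112_16_6 (nat_lit 397)))) (B (M (nat_lit 427) (B (lo110_13_0 (nat_lit 426)) (M (nat_lit 492) (B (lo112_17_6 (nat_lit 556)) (lo112_16_7 (nat_lit 395)))))) (B (M (nat_lit 427) (B (lo110_13_0 (nat_lit 426))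 (M (nat_lit 492) (B (lo112_16_6 (nat_lit 397)) (lo112_16_7 (nat_lit 395)))))) (M (nat_lit 493) (B (M (nat_lit 525) (B (lo113_17_7 (nat_lit 557)) (lo113_13_5 (nat_lit 556)))) (M (nat_lit 494) (B (M (nat_lit 495) (B (lo116_15_3 (nat_lit 496)) (lo111_14_0 (nat_lit 459)))) (M (nat_lit 526) (B (lo114_17_7 (nat_lit 558)) (lo113_12_4 (nat_lit 397)))))))))))) (M (nat_lit 492) (B (M (nat_lit 463) (B (lo116_14_3 (nat_lit 464)) (lo115_14_1 (nat_lit 491)))) (M (nat_lit 524) (B (lo112_17_6 (nat_lit 556)) (lo112_16_6 (nat_lit 397)))))))))) (M (nat_lit 493) (B (M (nat_lit 525) (B (lo113_17_7 (nat_lit 557)) (lo113_16_7 (nat_lit 396)))) (B (M (nat_lit 396) (B (lo113_16_7 (nat_lit 525)) (lo112_11_4 (nat_lit 364)))) (B (M (nat_lit 492) (B (M (nat_lit 524) (B (lo113_12_5 (nat_lit 397)) (lo112_17_6 (nat_lit 556)))) (M (nat_lit 491) (B (M (nat_lit 462) (B (lo115_14_1 (nat_lit 463)) (lo110_15_2 (nat_lit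 490)))) (M (nat_lit 396) (B (lo112_11_4 (nat_lit 364)) (lo112_12_5 (nat_lit 523)))))))) (K _ _ _ o1_s49067)))))))))))))))) (B (M (nat_lit 461) (B (M (nat_lit 396) (B (M (nat_lit 493) (B (lo113_16_7 (nat_lit 525)) (lo112_11_4 (nat_lit 364)))) (B (M (nat_lit 364) (B (lo112_11_4 (nat_lit 493)) (lo112_10_4 (nat_lit 332)))) (B (K _ _ _ o1_s48815) (K _ _ _ o1_s48824))))) (B (M (nat_lit 396) (B (M (nat_lit 493) (B (lo113_16_7 (nat_lit 525)) (lo112_11_4 (nat_lit 364)))) (B (M (nat_lit 364) (B (lo112_11_4 (nat_lit 493)) (lo112_10_4 (nat_lit 332)))) (B (K _ _ _ o1_s48815) (K _ _ _ o1_s58403))))) (B (M (nat_lit 459) (B (M (nat_lit 458) (B (lo19_14_2 (nat_lit 457)) (M (nat_lit 493) (B (lo110_14_0 (nat_lit 494)) (M (nat_lit 396) (B (lo113_16_7 (nat_lit 525)) (lo112_11_4 (nat_lit 364)))))))) (B (K _ _ _ o1_s48918) (K _ _ _ o1_s58371)))) (B (M (nat_lit 396) (B (M (nat_lit 364) (B (lo112_11_4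 (nat_lit 493)) (lo112_10_4 (nat_lit 332)))) (B (K _ _ _ o1_s48815) (M (nat_lit 462) (B (M (nat_lit 463) (B (lo116_14_3 (nat_lit 464)) (lo115_14_3 (nat_lit 427)))) (B (M (nat_lit 427) (B (lo115_14_3 (nat_lit 463)) (lo110_13_0 (nat_lit 426)))) (B (K _ _ _ o1_s48905) (M (nat_lit 459) (B (M (nat_lit 458) (B (lo19_14_2 (nat_lit 457)) (M (nat_lit 494) (B (lo111_14_0 (nat_lit 495)) (lo110_14_0 (nat_lit 493)))))) (M (nat_lit 491) (B (lo114_14_1 (nat_lit 490)) (M (nat_lit 463) (B (lo116_14_3 (nat_lit 464)) (lo115_14_1 (nat_lit 492))))))))))))))) (B (M (nat_lit 396) (B (K _ _ _ o1_s48815) (B (M (nat_lit 459) (B (M (nat_lit 364) (B (lo112_10_4 (nat_lit 332)) (lo112_11_5 (nat_lit 491)))) (K _ _ _ o1_s58211))) (B (M (nat_lit 462) (B (M (nat_lit 463) (B (lo116_14_3 (nat_lit 464)) (lo115_14_3 (nat_lit 427)))) (B (M (nat_lit 427) (B (lo115_14_3 (nat_lit 463)) (lo110_13_0 (nat_lit 426)))) (B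 (M (nat_lit 459) (B (M (nat_lit 427) (B (lo110_13_0 (nat_lit 426)) (M (nat_lit 491) (B (lo114_14_1 (nat_lit 490)) (lo111_16_6 (nat_lit 523)))))) (B (M (nat_lit 426) (B (lo110_13_0 (nat_lit 427)) (M (nat_lit 458) (B (lo113_14_3 (nat_lit 425)) (lo19_14_2 (nat_lit 457)))))) (M (nat_lit 491) (B (lo114_14_1 (nat_lit 490)) (M (nat_lit 523) (B (lo112_12_5 (nat_lit 492)) (lo111_17_6 (nat_lit 555))))))))) (M (nat_lit 459) (B (M (nat_lit 491) (B (lo114_14_1 (nat_lit 490)) (M (nat_lit 523) (B (lo112_12_5 (nat_lit 492)) (lo111_17_6 (nat_lit 555)))))) (M (nat_lit 463) (B (lo116_14_3 (nat_lit 464)) (M (nat_lit 495) (B (lo112_14_0 (nat_lit 496)) (lo111_14_0 (nat_lit 494)))))))))))) (K _ _ _ o1_s48849))))) (B (M (nat_lit 462) (B (M (nat_lit 463) (B (lo116_14_3 (nat_lit 464)) (lo115_14_3 (nat_lit 427)))) (B (M (nat_lit 427) (B (lo115_14_3 (nat_lit 463)) (lo110_13_0 (nat_lit 426)))) (K _ _ _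 o1_s48794)))) (B (M (nat_lit 397) (B (M (nat_lit 365) (B (lo113_11_5 (nat_lit 492)) (lo113_10_5 (nat_lit 333)))) (K _ _ _ o1_s58163))) (B (M (nat_lit 396) (B (M (nat_lit 493) (B (lo113_16_7 (nat_lit 525)) (lo112_11_4 (nat_lit 364)))) (B (M (nat_lit 364) (B (lo112_11_4 (nat_lit 493)) (lo112_10_4 (nat_lit 332)))) (B (K _ _ _ o1_s48849) (K _ _ _ o1_s58403))))) (M (nat_lit 493) (B (M (nat_lit 396) (B (lo113_16_7 (nat_lit 525)) (lo112_11_4 (nat_lit 364)))) (M (nat_lit 494) (B (M (nat_lit 397) (B (lo113_12_4 (nat_lit 526)) (M (nat_lit 365) (B (lo113_11_4 (nat_lit 462)) (lo113_11_5 (nat_lit 492)))))) (B (M (nat_lit 495) (B (lo116_15_3 (nat_lit 496)) (M (nat_lit 459) (B (lo111_14_0 (nat_lit 462)) (lo110_14_0 (nat_lit 458)))))) (M (nat_lit 397) (B (lo113_12_4 (nat_lit 526)) (M (nat_lit 365) (B (lo113_11_5 (nat_lit 492)) (lo113_10_5 (nat_lit 333)))))))))))))))))))) (B (M (nat_lit 461)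 (B (M (nat_lit 493) (B (M (nat_lit 525) (B (lo113_17_7 (nat_lit 557)) (lo113_16_7 (nat_lit 396)))) (B (M (nat_lit 396) (B (lo113_16_7 (nat_lit 525)) (lo112_11_4 (nat_lit 364)))) (M (nat_lit 462) (B (M (nat_lit 427) (B (lo115_14_3 (nat_lit 463)) (lo110_13_0 (nat_lit 426)))) (M (nat_lit 494) (B (M (nat_lit 495) (B (lo116_15_3 (nat_lit 496)) (lo111_14_0 (nat_lit 459)))) (M (nat_lit 526) (B (lo114_17_7 (nat_lit 558)) (lo113_12_4 (nat_lit 397))))))))))) (B (M (nat_lit 396) (B (M (nat_lit 493) (B (lo113_16_7 (nat_lit 525)) (lo112_11_4 (nat_lit 364)))) (B (M (nat_lit 364) (B (lo112_11_4 (nat_lit 493)) (lo112_10_4 (nat_lit 332)))) (B (K _ _ _ o1_s58445) (M (nat_lit 493) (B (lo113_16_7 (nat_lit 525)) (K _ _ _ o1_s58447))))))) (B (M (nat_lit 493) (B (M (nat_lit 525) (B (lo113_17_7 (nat_lit 557)) (lo113_16_7 (nat_lit 396)))) (B (M (nat_lit 396) (B (lo113_16_7 (nat_lit 525)) (lo112_11_4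 (nat_lit 364)))) (B (M (nat_lit 396) (B (lo112_11_4 (nat_lit 364)) (K _ _ _ o1_s58447))) (K _ _ _ o1_s48873))))) (B (M (nat_lit 396) (B (M (nat_lit 493) (B (lo113_16_7 (nat_lit 525)) (lo112_11_4 (nat_lit 364)))) (B (M (nat_lit 364) (B (lo112_11_4 (nat_lit 493)) (lo112_10_4 (nat_lit 332)))) (B (K _ _ _ o1_s58445) (M (nat_lit 493) (B (lo113_16_7 (nat_lit 525)) (M (nat_lit 397) (B (M (nat_lit 398) (B (lo113_15_6 (nat_lit 366)) (M (nat_lit 427) (B (lo115_12_1 (nat_lit 399)) (lo110_13_2 (nat_lit 426)))))) (B (M (nat_lit 365) (B (lo113_10_5 (nat_lit 333)) (M (nat_lit 366) (B (lo113_15_6 (nat_lit 398)) (lo113_14_6 (nat_lit 334)))))) (M (nat_lit 462) (B (M (nat_lit 463) (B (lo116_14_3 (nat_lit 464)) (lo115_14_3 (nat_lit 427)))) (M (nat_lit 365) (B (lo113_11_4 (nat_lit 494)) (lo113_10_5 (nat_lit 333))))))))))))))) (B (M (nat_lit 397) (B (K _ _ _ o1_s48054) (B (M (nat_lit 365) (B (lo113_10_5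 (nat_lit 333)) (M (nat_lit 364) (B (lo113_14_7 (nat_lit 332)) (M (nat_lit 396) (B (lo113_15_7 (nat_lit 493)) (M (nat_lit 366) (B (lo113_14_6 (nat_lit 334)) (M (nat_lit 395) (B (lo115_11_1 (nat_lit 367)) (lo110_12_2 (nat_lit 394)))))))))))) (B (M (nat_lit 365) (B (lo113_10_5 (nat_lit 333)) (M (nat_lit 364) (B (lo113_14_7 (nat_lit 332)) (M (nat_lit 459) (B (M (nat_lit 396) (B (lo113_15_7 (nat_lit 493)) (lo112_11_5 (nat_lit 491)))) (M (nat_lit 426) (B (M (nat_lit 427) (B (lo110_13_0 (nat_lit 462)) (lo110_13_2 (nat_lit 398)))) (M (nat_lit 458) (B (lo113_14_3 (nat_lit 425)) (lo19_14_2 (nat_lit 457)))))))))))) (B (M (nat_lit 365) (B (lo113_10_5 (nat_lit 333)) (M (nat_lit 396) (B (M (nat_lit 366) (B (lo113_14_6 (nat_lit 334)) (M (nat_lit 367) (B (lo116_11_1 (nat_lit 368)) (M (nat_lit 395) (B (lo111_12_2 (nat_lit 398)) (lo110_12_2 (nat_lit 394)))))))) (B (M (nat_lit 364) (B (lo113_14_7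 (nat_lit 332)) (M (nat_lit 366) (B (lo113_14_6 (nat_lit 334)) (M (nat_lit 395) (B (lo115_11_1 (nat_lit 367)) (lo110_12_2 (nat_lit 394)))))))) (M (nat_lit 459) (B (M (nat_lit 364) (B (lo113_14_7 (nat_lit 332)) (lo112_11_5 (nat_lit 491)))) (M (nat_lit 426) (B (M (nat_lit 427) (B (lo110_13_0 (nat_lit 462)) (lo110_13_2 (nat_lit 398)))) (M (nat_lit 458) (B (lo113_14_3 (nat_lit 425)) (lo19_14_2 (nat_lit 457))))))))))))) (B (M (nat_lit 396) (B (M (nat_lit 493) (B (lo113_16_7 (nat_lit 525)) (lo113_15_7 (nat_lit 364)))) (B (M (nat_lit 364) (B (lo113_15_7 (nat_lit 493)) (lo112_10_4 (nat_lit 332)))) (B (K _ _ _ o1_s58036) (M (nat_lit 398) (B (M (nat_lit 399) (B (lo116_12_1 (nat_lit 400)) (lo115_12_1 (nat_lit 427)))) (M (nat_lit 493) (B (lo113_15_6 (nat_lit 366)) (lo113_16_7 (nat_lit 525)))))))))) (B (M (nat_lit 365) (B (lo113_10_5 (nat_lit 333)) (M (nat_lit 364) (B (lo113_14_7 (nat_lit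 332)) (M (nat_lit 366) (B (lo113_14_6 (nat_lit 334)) (M (nat_lit 398) (B (lo113_15_6 (nat_lit 493)) (M (nat_lit 399) (B (lo116_12_1 (nat_lit 400)) (lo111_11_0 (nat_lit 363)))))))))))) (M (nat_lit 365) (B (lo113_10_5 (nat_lit 333)) (M (nat_lit 493) (B (M (nat_lit 366) (B (lo113_15_6 (nat_lit 398)) (lo113_14_6 (nat_lit 334)))) (M (nat_lit 525) (B (lo113_17_7 (nat_lit 557)) (lo113_16_7 (nat_lit 396))))))))))))))) (B (K _ _ _ o1_s48961) (B (M (nat_lit 396) (B (M (nat_lit 364) (B (lo112_11_4 (nat_lit 493)) (lo112_10_4 (nat_lit 332)))) (M (nat_lit 462) (B (M (nat_lit 463) (B (lo116_14_3 (nat_lit 464)) (lo115_14_3 (nat_lit 427)))) (B (M (nat_lit 427) (B (lo115_14_3 (nat_lit 463)) (lo110_13_0 (nat_lit 426)))) (B (M (nat_lit 459) (B (M (nat_lit 427) (B (lo110_13_0 (nat_lit 426)) (M (nat_lit 491) (B (lo114_14_1 (nat_lit 490)) (lo111_16_6 (nat_lit 523)))))) (B (M (nat_lit 426) (B (lo110_13_0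 (nat_lit 427)) (M (nat_lit 458) (B (lo113_14_3 (nat_lit 425)) (lo19_14_2 (nat_lit 457)))))) (M (nat_lit 458) (B (lo19_14_2 (nat_lit 457)) (M (nat_lit 490) (B (lo114_14_1 (nat_lit 491)) (lo113_14_1 (nat_lit 489))))))))) (K _ _ _ o1_s48912))))))) (B (K _ _ _ o1_s48087) (B (M (nat_lit 462) (B (M (nat_lit 463) (B (lo116_14_3 (nat_lit 464)) (lo115_14_3 (nat_lit 427)))) (B (M (nat_lit 427) (B (lo115_14_3 (nat_lit 463)) (lo110_13_0 (nat_lit 426)))) (B (M (nat_lit 426) (B (lo110_13_0 (nat_lit 427)) (M (nat_lit 494) (B (M (nat_lit 459) (B (lo111_14_0 (nat_lit 495)) (M (nat_lit 458) (B (lo113_14_3 (nat_lit 425)) (lo19_14_2 (nat_lit 457)))))) (M (nat_lit 397) (B (lo113_11_4 (nat_lit 365)) (M (nat_lit 526) (B (lo114_17_7 (nat_lit 558)) (lo113_12_4 (nat_lit 493)))))))))) (M (nat_lit 459) (B (M (nat_lit 458) (B (lo19_14_2 (nat_lit 457)) (M (nat_lit 494) (B (lo111_14_0 (nat_lit 495)) (lo110_14_0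 (nat_lit 493)))))) (B (M (nat_lit 458) (B (lo19_14_2 (nat_lit 457)) (M (nat_lit 490) (B (lo114_14_1 (nat_lit 491)) (lo113_14_1 (nat_lit 489)))))) (M (nat_lit 463) (B (lo116_14_3 (nat_lit 464)) (M (nat_lit 495) (B (lo112_14_0 (nat_lit 496)) (lo111_14_0 (nat_lit 494))))))))))))) (M (nat_lit 493) (B (M (nat_lit 525) (B (lo113_17_7 (nat_lit 557)) (lo113_16_7 (nat_lit 396)))) (B (M (nat_lit 396) (B (lo113_16_7 (nat_lit 525)) (lo112_11_4 (nat_lit 364)))) (M (nat_lit 397) (B (M (nat_lit 365) (B (lo113_10_5 (nat_lit 333)) (M (nat_lit 366) (B (lo113_15_6 (nat_lit 398)) (lo113_14_6 (nat_lit 334)))))) (B (M (nat_lit 365) (B (lo113_10_5 (nat_lit 333)) (M (nat_lit 494) (B (lo113_12_4 (nat_lit 526)) (lo113_11_4 (nat_lit 462)))))) (M (nat_lit 494) (B (lo113_12_4 (nat_lit 526)) (M (nat_lit 459) (B (lo110_14_0 (nat_lit 458)) (M (nat_lit 495) (B (lo116_15_3 (nat_lit 496)) (lo111_14_0 (nat_lit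 462)))))))))))))))))))))))) (B (M (nat_lit 461) (B (M (nat_lit 397) (B (M (nat_lit 365) (B (lo113_11_5 (nat_lit 492)) (lo113_10_5 (nat_lit 333)))) (K _ _ _ o1_s58163))) (B (M (nat_lit 459) (B (K _ _ _ o1_s48918) (B (K _ _ _ o1_s58528) (B (M (nat_lit 397) (B (M (nat_lit 365) (B (lo113_11_5 (nat_lit 492)) (lo113_10_5 (nat_lit 333)))) (B (M (nat_lit 524) (B (lo112_16_6 (nat_lit 492)) (M (nat_lit 493) (B (M (nat_lit 494) (B (lo113_12_4 (nat_lit 526)) (lo110_14_0 (nat_lit 458)))) (M (nat_lit 525) (B (lo113_17_7 (nat_lit 557)) (lo113_13_5 (nat_lit 556)))))))) (M (nat_lit 494) (B (M (nat_lit 365) (B (lo113_11_4 (nat_lit 462)) (lo113_10_5 (nat_lit 333)))) (M (nat_lit 458) (B (lo110_14_0 (nat_lit 493)) (lo19_14_2 (nat_lit 457))))))))) (K _ _ _ o1_s58557))))) (B (M (nat_lit 397) (B (M (nat_lit 365) (B (lo113_11_5 (nat_lit 492)) (lo113_10_5 (nat_lit 333)))) (B (M (nat_lit 493) (B (M (nat_lit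 524) (B (lo113_12_5 (nat_lit 492)) (M (nat_lit 525) (B (lo113_17_7 (nat_lit 557)) (lo113_13_5 (nat_lit 556)))))) (B (M (nat_lit 459) (B (M (nat_lit 494) (B (lo113_12_4 (nat_lit 526)) (lo110_14_0 (nat_lit 458)))) (B (M (nat_lit 458) (B (lo110_14_0 (nat_lit 494)) (lo19_14_2 (nat_lit 457)))) (B (M (nat_lit 426) (B (M (nat_lit 398) (B (lo113_15_6 (nat_lit 366)) (lo110_13_2 (nat_lit 427)))) (M (nat_lit 458) (B (lo113_14_3 (nat_lit 425)) (lo19_14_2 (nat_lit 457)))))) (M (nat_lit 492) (B (lo113_12_5 (nat_lit 524)) (M (nat_lit 494) (B (lo115_15_3 (nat_lit 495)) (lo113_12_4 (nat_lit 526)))))))))) (M (nat_lit 525) (B (lo113_17_7 (nat_lit 557)) (M (nat_lit 526) (B (lo113_13_4 (nat_lit 558)) (lo113_12_4 (nat_lit 494))))))))) (K _ _ _ o1_s40478)))) (B (M (nat_lit 459) (B (K _ _ _ o1_s48918) (B (K _ _ _ o1_s58528) (B (M (nat_lit 458) (B (lo19_14_2 (nat_lit 457)) (M (nat_lit 462) (B (M (nat_lit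 494) (B (lo111_14_0 (nat_lit 495)) (lo110_14_0 (nat_lit 493)))) (M (nat_lit 490) (B (lo114_14_1 (nat_lit 491)) (lo113_14_1 (nat_lit 489)))))))) (K _ _ _ o1_s58557))))) (B (M (nat_lit 459) (B (K _ _ _ o1_s48918) (B (M (nat_lit 397) (B (M (nat_lit 365) (B (lo113_11_5 (nat_lit 492)) (lo113_10_5 (nat_lit 333)))) (B (M (nat_lit 493) (B (M (nat_lit 524) (B (lo113_12_5 (nat_lit 492)) (M (nat_lit 525) (B (lo113_17_7 (nat_lit 557)) (lo113_13_5 (nat_lit 556)))))) (M (nat_lit 426) (B (M (nat_lit 398) (B (lo113_15_6 (nat_lit 366)) (lo110_13_2 (nat_lit 427)))) (M (nat_lit 458) (B (lo113_14_3 (nat_lit 425)) (lo19_14_2 (nat_lit 457)))))))) (M (nat_lit 398) (B (M (nat_lit 426) (B (lo110_13_2 (nat_lit 427)) (M (nat_lit 458) (B (lo113_14_3 (nat_lit 425)) (lo19_14_2 (nat_lit 457)))))) (M (nat_lit 365) (B (lo113_10_5 (nat_lit 333)) (M (nat_lit 366) (B (lo113_15_6 (nat_lit 493)) (lo113_14_6 (nat_lit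 334))))))))))) (B (K _ _ _ o1_s48933) (B (K _ _ _ o1_s58557) (K _ _ _ o1_s48955)))))) (B (M (nat_lit 397) (B (M (nat_lit 365) (B (lo113_11_5 (nat_lit 492)) (lo113_10_5 (nat_lit 333)))) (B (M (nat_lit 493) (B (M (nat_lit 524) (B (lo113_12_5 (nat_lit 492)) (M (nat_lit 525) (B (lo113_17_7 (nat_lit 557)) (lo113_13_5 (nat_lit 556)))))) (B (M (nat_lit 525) (B (M (nat_lit 526) (B (lo113_13_4 (nat_lit 558)) (lo113_12_4 (nat_lit 494)))) (M (nat_lit 524) (B (lo113_13_5 (nat_lit 556)) (lo113_12_5 (nat_lit 492)))))) (B (M (nat_lit 492) (B (lo113_12_5 (nat_lit 524)) (M (nat_lit 494) (B (lo113_12_4 (nat_lit 526)) (M (nat_lit 459) (B (lo115_15_3 (nat_lit 495)) (lo110_14_0 (nat_lit 458)))))))) (M (nat_lit 526) (B (lo113_12_4 (nat_lit 494)) (M (nat_lit 525) (B (lo113_13_4 (nat_lit 558)) (lo113_17_7 (nat_lit 557)))))))))) (K _ _ _ o1_s49029)))) (B (M (nat_lit 397) (B (M (nat_lit 365) (B (lo113_11_5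 (nat_lit 492)) (lo113_10_5 (nat_lit 333)))) (B (M (nat_lit 462) (B (M (nat_lit 463) (B (lo116_14_3 (nat_lit 464)) (lo115_14_3 (nat_lit 427)))) (B (M (nat_lit 427) (B (lo115_14_3 (nat_lit 463)) (lo110_13_0 (nat_lit 426)))) (B (K _ _ _ o1_s48093) (M (nat_lit 492) (B (lo112_16_6 (nat_lit 524)) (M (nat_lit 463) (B (lo116_14_3 (nat_lit 464)) (lo115_14_1 (nat_lit 491)))))))))) (M (nat_lit 462) (B (M (nat_lit 365) (B (lo113_11_4 (nat_lit 494)) (lo113_10_5 (nat_lit 333)))) (M (nat_lit 427) (B (lo115_14_3 (nat_lit 463)) (lo110_13_0 (nat_lit 426))))))))) (B (M (nat_lit 459) (B (K _ _ _ o1_s48918) (B (M (nat_lit 458) (B (lo19_14_2 (nat_lit 457)) (M (nat_lit 426) (B (lo113_14_3 (nat_lit 425)) (M (nat_lit 427) (B (M (nat_lit 490) (B (lo113_14_1 (nat_lit 489)) (M (nat_lit 395) (B (lo111_11_5 (nat_lit 363)) (lo110_16_6 (nat_lit 522)))))) (M (nat_lit 397) (B (lo110_13_2 (nat_lit 398)) (M (nat_lit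 365) (B (lo113_11_5 (nat_lit 492)) (lo113_10_5 (nat_lit 333)))))))))))) (B (M (nat_lit 462) (B (M (nat_lit 491) (B (lo114_14_1 (nat_lit 490)) (M (nat_lit 463) (B (lo116_14_3 (nat_lit 464)) (lo115_14_1 (nat_lit 492)))))) (B (M (nat_lit 458) (B (lo19_14_2 (nat_lit 457)) (M (nat_lit 490) (B (lo114_14_1 (nat_lit 491)) (lo113_14_1 (nat_lit 489)))))) (M (nat_lit 463) (B (lo116_14_3 (nat_lit 464)) (M (nat_lit 495) (B (lo112_14_0 (nat_lit 496)) (lo111_14_0 (nat_lit 494))))))))) (B (M (nat_lit 397) (B (M (nat_lit 365) (B (lo113_11_5 (nat_lit 492)) (lo113_10_5 (nat_lit 333)))) (M (nat_lit 426) (B (M (nat_lit 427) (B (lo110_13_0 (nat_lit 462)) (lo110_13_2 (nat_lit 398)))) (M (nat_lit 458) (B (lo113_14_3 (nat_lit 425)) (lo19_14_2 (nat_lit 457)))))))) (K _ _ _ o1_s58557)))))) (B (M (nat_lit 524) (B (M (nat_lit 492) (B (lo112_17_6 (nat_lit 556)) (M (nat_lit 427) (B (lo112_16_7 (nat_lit 395))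 (M (nat_lit 462) (B (lo115_14_3 (nat_lit 463)) (lo110_13_0 (nat_lit 426)))))))) (B (M (nat_lit 525) (B (M (nat_lit 557) (B (lo113_17_7 (nat_lit 493)) (lo112_13_4 (nat_lit 492)))) (B (M (nat_lit 556) (B (lo113_13_5 (nat_lit 493)) (lo112_17_6 (nat_lit 492)))) (B (M (nat_lit 492) (B (lo112_13_4 (nat_lit 557)) (lo112_17_6 (nat_lit 556)))) (M (nat_lit 493) (B (lo113_17_7 (nat_lit 557)) (lo113_13_5 (nat_lit 556)))))))) (B (M (nat_lit 492) (B (M (nat_lit 427) (B (lo112_16_7 (nat_lit 395)) (M (nat_lit 462) (B (lo115_14_3 (nat_lit 463)) (lo110_13_0 (nat_lit 426)))))) (M (nat_lit 525) (B (lo112_13_4 (nat_lit 557)) (M (nat_lit 493) (B (M (nat_lit 523) (B (lo112_13_5 (nat_lit 555)) (M (nat_lit 494) (B (lo115_15_1 (nat_lit 495)) (lo110_16_2 (nat_lit 522)))))) (M (nat_lit 526) (B (lo113_13_4 (nat_lit 558)) (M (nat_lit 527) (B (lo116_16_3 (nat_lit 528)) (lo115_16_3 (nat_lit 491))))))))))))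 (M (nat_lit 459) (B (M (nat_lit 458) (B (lo19_14_2 (nat_lit 457)) (M (nat_lit 493) (B (lo110_14_0 (nat_lit 494)) (M (nat_lit 525) (B (lo113_17_7 (nat_lit 557)) (lo113_13_5 (nat_lit 556)))))))) (B (M (nat_lit 458) (B (lo19_14_2 (nat_lit 457)) (M (nat_lit 462) (B (M (nat_lit 463) (B (lo116_14_3 (nat_lit 464)) (lo115_14_3 (nat_lit 427)))) (M (nat_lit 490) (B (lo114_14_1 (nat_lit 491)) (lo113_14_1 (nat_lit 489)))))))) (M (nat_lit 462) (B (M (nat_lit 463) (B (lo116_14_3 (nat_lit 464)) (lo115_14_3 (nat_lit 427)))) (B (M (nat_lit 427) (B (lo115_14_3 (nat_lit 463)) (lo110_13_0 (nat_lit 426)))) (B (M (nat_lit 427) (B (lo110_13_0 (nat_lit 426)) (M (nat_lit 491) (B (lo114_14_1 (nat_lit 490)) (M (nat_lit 523) (B (lo111_13_4 (nat_lit 556)) (lo111_17_6 (nat_lit 555)))))))) (M (nat_lit 463) (B (lo116_14_3 (nat_lit 464)) (M (nat_lit 495) (B (lo112_14_0 (nat_lit 496)) (lo111_14_0 (nat_lit 494)))))))))))))))))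 (B (K _ _ _ o1_s48967) (M (nat_lit 493) (B (K _ _ _ o1_s49067) (B (K _ _ _ o1_s49084) (B (M (nat_lit 397) (B (M (nat_lit 492) (B (lo113_12_5 (nat_lit 524)) (lo113_11_5 (nat_lit 365)))) (B (M (nat_lit 525) (B (M (nat_lit 526) (B (lo113_13_4 (nat_lit 558)) (lo113_12_4 (nat_lit 494)))) (M (nat_lit 524) (B (lo113_13_5 (nat_lit 556)) (lo113_12_5 (nat_lit 492)))))) (B (M (nat_lit 365) (B (lo113_11_5 (nat_lit 492)) (lo113_10_5 (nat_lit 333)))) (M (nat_lit 365) (B (lo113_10_5 (nat_lit 333)) (M (nat_lit 366) (B (lo113_15_6 (nat_lit 398)) (lo113_14_6 (nat_lit 334)))))))))) (B (K _ _ _ o1_s49092) (B (M (nat_lit 492) (B (M (nat_lit 524) (B (lo112_17_6 (nat_lit 556)) (M (nat_lit 427) (B (lo112_16_7 (nat_lit 395)) (M (nat_lit 426) (B (lo110_13_0 (nat_lit 462)) (lo19_13_0 (nat_lit 425)))))))) (B (M (nat_lit 524) (B (lo112_17_6 (nat_lit 556)) (M (nat_lit 525) (B (lo113_17_7 (nat_lit 557))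 (M (nat_lit 526) (B (lo113_13_4 (nat_lit 558)) (M (nat_lit 527) (B (lo116_16_3 (nat_lit 528)) (lo115_16_3 (nat_lit 491)))))))))) (K _ _ _ o1_s49049)))) (B (M (nat_lit 525) (B (lo113_17_7 (nat_lit 557)) (M (nat_lit 397) (B (M (nat_lit 526) (B (lo113_13_4 (nat_lit 558)) (lo113_12_4 (nat_lit 494)))) (M (nat_lit 365) (B (lo113_11_5 (nat_lit 492)) (lo113_10_5 (nat_lit 333)))))))) (K _ _ _ o1_s48873))))))))))))))))))) (B (M (nat_lit 397) (B (M (nat_lit 365) (B (lo113_10_5 (nat_lit 333)) (M (nat_lit 492) (B (lo113_11_5 (nat_lit 461)) (lo112_16_6 (nat_lit 524)))))) (B (M (nat_lit 365) (B (lo113_10_5 (nat_lit 333)) (M (nat_lit 492) (B (lo112_16_6 (nat_lit 524)) (lo112_15_6 (nat_lit 396)))))) (B (M (nat_lit 396) (B (M (nat_lit 364) (B (M (nat_lit 461) (B (lo113_15_7 (nat_lit 493)) (lo112_10_4 (nat_lit 332)))) (B (M (nat_lit 332) (B (lo112_10_4 (nat_lit 461)) (lo112_9_4 (nat_lit 300))))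 (B (M (nat_lit 459) (B (lo112_11_5 (nat_lit 491)) (M (nat_lit 332) (B (lo112_9_4 (nat_lit 300)) (lo112_10_5 (nat_lit 427)))))) (M (nat_lit 493) (B (lo113_15_7 (nat_lit 461)) (M (nat_lit 492) (B (lo112_12_4 (nat_lit 525)) (lo112_16_6 (nat_lit 524)))))))))) (B (M (nat_lit 426) (B (M (nat_lit 427) (B (lo110_13_2 (nat_lit 398)) (lo19_13_2 (nat_lit 425)))) (B (M (nat_lit 461) (B (M (nat_lit 427) (B (lo110_13_0 (nat_lit 462)) (lo19_13_0 (nat_lit 425)))) (M (nat_lit 364) (B (lo113_15_7 (nat_lit 493)) (lo112_10_4 (nat_lit 332)))))) (B (M (nat_lit 395) (B (M (nat_lit 394) (B (lo19_12_0 (nat_lit 393)) (lo113_12_1 (nat_lit 425)))) (M (nat_lit 492) (B (lo112_16_6 (nat_lit 524)) (lo112_15_7 (nat_lit 363)))))) (M (nat_lit 461) (B (M (nat_lit 427) (B (lo110_13_0 (nat_lit 462)) (lo110_13_2 (nat_lit 398)))) (M (nat_lit 364) (B (lo113_15_7 (nat_lit 493)) (lo112_10_4 (nat_lit 332)))))))))) (B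 (M (nat_lit 364) (B (M (nat_lit 332) (B (lo112_10_4 (nat_lit 461)) (lo112_9_4 (nat_lit 300)))) (B (M (nat_lit 459) (B (lo112_11_5 (nat_lit 491)) (M (nat_lit 332) (B (lo112_9_4 (nat_lit 300)) (lo112_10_5 (nat_lit 427)))))) (M (nat_lit 426) (B (M (nat_lit 427) (B (lo110_13_2 (nat_lit 398)) (lo19_13_2 (nat_lit 425)))) (B (M (nat_lit 395) (B (M (nat_lit 394) (B (lo19_12_0 (nat_lit 393)) (lo113_12_1 (nat_lit 425)))) (M (nat_lit 492) (B (lo112_16_6 (nat_lit 524)) (lo112_15_7 (nat_lit 363)))))) (M (nat_lit 398) (B (lo110_13_2 (nat_lit 427)) (M (nat_lit 399) (B (lo116_12_1 (nat_lit 400)) (lo115_12_3 (nat_lit 363)))))))))))) (B (K _ _ _ o1_s58015) (B (K _ _ _ o1_s58037) (B (M (nat_lit 492) (B (lo112_16_6 (nat_lit 524)) (K _ _ _ o1_s58071))) (M (nat_lit 492) (B (lo112_16_6 (nat_lit 524)) (M (nat_lit 398) (B (M (nat_lit 493) (B (lo112_12_4 (nat_lit 525)) (M (nat_lit 461) (B (lo113_15_6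 (nat_lit 366)) (lo113_15_7 (nat_lit 364)))))) (B (M (nat_lit 399) (B (lo116_12_1 (nat_lit 400)) (M (nat_lit 363) (B (lo115_12_3 (nat_lit 364)) (lo112_15_7 (nat_lit 395)))))) (M (nat_lit 366) (B (M (nat_lit 395) (B (lo111_12_2 (nat_lit 367)) (lo112_15_7 (nat_lit 363)))) (M (nat_lit 493) (B (lo113_15_6 (nat_lit 461)) (lo112_12_4 (nat_lit 525)))))))))))))))))) (B (M (nat_lit 365) (B (lo113_10_5 (nat_lit 333)) (M (nat_lit 492) (B (lo113_11_5 (nat_lit 461)) (lo112_15_6 (nat_lit 396)))))) (K _ _ _ o1_s58054)))))) (B (M (nat_lit 397) (B (M (nat_lit 365) (B (lo113_10_5 (nat_lit 333)) (M (nat_lit 492) (B (lo113_11_5 (nat_lit 461)) (lo112_15_6 (nat_lit 396)))))) (B (M (nat_lit 365) (B (lo113_10_5 (nat_lit 333)) (M (nat_lit 492) (B (lo112_16_6 (nat_lit 524)) (lo112_15_6 (nat_lit 396)))))) (B (M (nat_lit 492) (B (lo112_16_6 (nat_lit 524)) (M (nat_lit 396) (B (M (nat_lit 493) (B (lo112_12_4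 (nat_lit 525)) (M (nat_lit 461) (B (lo113_15_7 (nat_lit 364)) (M (nat_lit 494) (B (lo113_12_4 (nat_lit 526)) (M (nat_lit 495) (B (lo116_15_3 (nat_lit 496)) (lo115_15_3 (nat_lit 459)))))))))) (B (K _ _ _ o1_s58707) (K _ _ _ o1_s58179)))))) (B (K _ _ _ o1_s58054) (M (nat_lit 365) (B (lo113_10_5 (nat_lit 333)) (M (nat_lit 492) (B (lo113_11_5 (nat_lit 461)) (lo112_16_6 (nat_lit 524))))))))))) (B (M (nat_lit 397) (B (M (nat_lit 365) (B (lo113_10_5 (nat_lit 333)) (M (nat_lit 492) (B (lo113_11_5 (nat_lit 461)) (lo112_16_6 (nat_lit 524)))))) (B (M (nat_lit 365) (B (lo113_10_5 (nat_lit 333)) (M (nat_lit 492) (B (lo112_16_6 (nat_lit 524)) (lo112_15_6 (nat_lit 396)))))) (B (M (nat_lit 492) (B (lo112_16_6 (nat_lit 524)) (M (nat_lit 396) (B (M (nat_lit 493) (B (lo112_12_4 (nat_lit 525)) (M (nat_lit 398) (B (M (nat_lit 399) (B (lo116_12_1 (nat_lit 400)) (lo115_12_1 (nat_lit 427)))) (M (nat_lit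 461) (B (lo113_15_6 (nat_lit 366)) (lo113_15_7 (nat_lit 364)))))))) (B (K _ _ _ o1_s58707) (B (M (nat_lit 426) (B (M (nat_lit 427) (B (lo110_13_2 (nat_lit 398)) (lo19_13_2 (nat_lit 425)))) (B (M (nat_lit 395) (B (lo112_15_7 (nat_lit 363)) (M (nat_lit 394) (B (lo19_12_0 (nat_lit 393)) (lo113_12_1 (nat_lit 425)))))) (M (nat_lit 461) (B (M (nat_lit 427) (B (lo110_13_0 (nat_lit 462)) (lo110_13_2 (nat_lit 398)))) (M (nat_lit 493) (B (lo113_16_7 (nat_lit 525)) (lo113_15_7 (nat_lit 364))))))))) (B (M (nat_lit 493) (B (lo112_12_4 (nat_lit 525)) (M (nat_lit 461) (B (lo113_15_7 (nat_lit 364)) (M (nat_lit 491) (B (lo112_12_5 (nat_lit 523)) (M (nat_lit 462) (B (lo115_14_1 (nat_lit 463)) (lo110_15_2 (nat_lit 490)))))))))) (K _ _ _ o1_s58179)))))))) (B (M (nat_lit 365) (B (lo113_10_5 (nat_lit 333)) (M (nat_lit 492) (B (lo113_11_5 (nat_lit 461)) (lo112_15_6 (nat_lit 396)))))) (K _ _ _ o1_s58054))))))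 (M (nat_lit 492) (B (M (nat_lit 397) (B (lo112_16_6 (nat_lit 524)) (M (nat_lit 365) (B (lo113_11_5 (nat_lit 461)) (lo113_10_5 (nat_lit 333)))))) (B (M (nat_lit 397) (B (lo112_16_6 (nat_lit 524)) (M (nat_lit 365) (B (lo113_10_5 (nat_lit 333)) (lo112_15_6 (nat_lit 396)))))) (B (K _ _ _ o1_s47938) (K _ _ _ o1_s58083)))))))))))))))))))))) _ _ _ (by decide +kernel)

end Vale.Agent.Lib.P062.Data
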