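import Vale.Agent.Lib.P062.Data.o1_lines
import Vale.Agent.Lib.P062.Data.o1_0_0
import Vale.Agent.Lib.P062.Data.o1_0_1
import Vale.Agent.Lib.P062.Data.o1_1_0
import Vale.Agent.Lib.P062.Data.o1_2_0
import Vale.Agent.Lib.P062.Data.o1_2_1

namespace Vale.Agent.Lib.P062.Data

theorem o1_s59438 : Sem (nat_lit 2079502270590611144683810638107312777577327806531862431377859685460965980854219217279980804578104683573043408221052678871730618368) (nat_lit 707617955038467672915386113025153507301900907102857417100060581012790024806594267762684058182596914216628463860947639416307475443918041564723100830990150054001567072256) (nat_lit 707617955038467672915386113025153507301900907102857417100060581012790024806594267762684058182596914216628463860947639416307475443918041564723100830990150054001567072256) := sem_of_chk (M (nat_lit 396) (B (M (nat_lit 461) (B (M (nat_lit 493) (B (lo113_16_7 (nat_lit 525))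 (M (nat_lit 364) (B (lo113_15_7 (nat_lit 397)) (lo112_10_4 (nat_lit 332)))))) (B (M (nat_lit 493) (B (lo113_16_7 (nat_lit 525)) (M (nat_lit 364) (B (lo112_10_4 (nat_lit 332)) (lo112_11_4 (nat_lit 460)))))) (B (K _ _ _ o1_s58775) (B (M (nat_lit 493) (B (lo113_16_7 (nat_lit 525)) (M (nat_lit 364) (B (lo113_15_7 (nat_lit 397)) (lo112_11_4 (nat_lit 460)))))) (M (nat_lit 493) (B (lo113_16_7 (nat_lit 525)) (M (nat_lit 397) (B (M (nat_lit 398) (B (lo113_15_6 (nat_lit 366)) (M (nat_lit 399) (B (lo116_12_1 (nat_lit 400)) (lo115_12_1 (nat_lit 427)))))) (M (nat_lit 365) (B (M (nat_lit 494) (B (lo113_11_4 (nat_lit 462)) (lo113_12_4 (nat_lit 526)))) (M (nat_lit 492) (B (lo113_11_5 (nat_lit 460)) (lo113_12_5 (nat_lit 524))))))))))))))) (B (M (nat_lit 461) (B (M (nat_lit 493) (B (lo113_16_7 (nat_lit 525)) (M (nat_lit 364) (B (lo113_15_7 (nat_lit 397)) (lo112_11_4 (nat_lit 460)))))) (B (M (nat_lit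 493) (B (lo113_16_7 (nat_lit 525)) (M (nat_lit 364) (B (lo112_10_4 (nat_lit 332)) (lo112_11_4 (nat_lit 460)))))) (B (K _ _ _ o1_s58775) (B (K _ _ _ o1_s58784) (M (nat_lit 493) (B (lo113_16_7 (nat_lit 525)) (M (nat_lit 364) (B (lo113_15_7 (nat_lit 397)) (lo112_10_4 (nat_lit 332))))))))))) (B (M (nat_lit 461) (B (M (nat_lit 493) (B (lo113_16_7 (nat_lit 525)) (M (nat_lit 364) (B (lo113_15_7 (nat_lit 397)) (lo112_10_4 (nat_lit 332)))))) (B (M (nat_lit 493) (B (lo113_16_7 (nat_lit 525)) (M (nat_lit 364) (B (lo112_10_4 (nat_lit 332)) (lo112_11_4 (nat_lit 460)))))) (B (M (nat_lit 460) (B (K _ _ _ o1_s58733) (B (K _ _ _ o1_s58737) (B (M (nat_lit 462) (B (M (nat_lit 427) (B (lo115_14_3 (nat_lit 463)) (lo110_13_0 (nat_lit 426)))) (B (K _ _ _ o1_s58744) (M (nat_lit 364) (B (lo112_10_4 (nat_lit 332)) (M (nat_lit 492) (B (M (nat_lit 491) (B (lo115_14_1 (nat_lit 463)) (lo112_11_5 (nat_lit 459))))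 (M (nat_lit 363) (B (lo112_14_7 (nat_lit 331)) (lo112_15_7 (nat_lit 395))))))))))) (B (K _ _ _ o1_s58762) (B (M (nat_lit 397) (B (M (nat_lit 365) (B (lo113_10_5 (nat_lit 333)) (lo113_11_5 (nat_lit 492)))) (B (M (nat_lit 492) (B (lo113_11_5 (nat_lit 365)) (lo112_16_6 (nat_lit 524)))) (B (K _ _ _ o1_s58767) (M (nat_lit 462) (B (M (nat_lit 365) (B (lo113_11_4 (nat_lit 494)) (lo113_10_5 (nat_lit 333)))) (M (nat_lit 427) (B (lo115_14_3 (nat_lit 463)) (lo110_13_0 (nat_lit 426)))))))))) (M (nat_lit 364) (B (lo112_10_4 (nat_lit 332)) (K _ _ _ o1_s58801))))))))) (B (M (nat_lit 493) (B (lo113_16_7 (nat_lit 525)) (M (nat_lit 364) (B (lo113_15_7 (nat_lit 397)) (lo112_11_4 (nat_lit 460)))))) (K _ _ _ o1_s58784)))))) (B (M (nat_lit 364) (B (M (nat_lit 461) (B (lo112_10_4 (nat_lit 332)) (M (nat_lit 493) (B (lo113_15_7 (nat_lit 397)) (lo113_16_7 (nat_lit 525)))))) (B (M (nat_lit 461) (B (lo112_10_4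 (nat_lit 332)) (M (nat_lit 493) (B (lo113_16_7 (nat_lit 525)) (lo112_11_4 (nat_lit 460)))))) (B (K _ _ _ o1_s58805) (M (nat_lit 460) (B (M (nat_lit 493) (B (lo112_11_4 (nat_lit 461)) (M (nat_lit 365) (B (lo112_14_6 (nat_lit 333)) (M (nat_lit 492) (B (lo112_15_6 (nat_lit 397)) (lo112_12_4 (nat_lit 525)))))))) (B (M (nat_lit 492) (B (M (nat_lit 397) (B (lo112_15_6 (nat_lit 365)) (lo112_16_6 (nat_lit 524)))) (M (nat_lit 363) (B (lo112_14_7 (nat_lit 331)) (lo112_15_7 (nat_lit 395)))))) (B (M (nat_lit 492) (B (M (nat_lit 493) (B (lo112_11_4 (nat_lit 461)) (lo112_12_4 (nat_lit 525)))) (M (nat_lit 363) (B (lo112_14_7 (nat_lit 331)) (lo112_15_7 (nat_lit 395)))))) (M (nat_lit 461) (B (lo112_11_4 (nat_lit 493)) (K _ _ _ o1_s58801))))))))))) (B (M (nat_lit 364) (B (M (nat_lit 461) (B (lo112_10_4 (nat_lit 332)) (M (nat_lit 493) (B (lo113_16_7 (nat_lit 525)) (lo112_11_4 (nat_lit 460)))))) (B (K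 _ _ _ o1_s58805) (B (K _ _ _ o1_s58814) (M (nat_lit 461) (B (lo112_10_4 (nat_lit 332)) (M (nat_lit 493) (B (lo113_15_7 (nat_lit 397)) (lo113_16_7 (nat_lit 525)))))))))) (B (M (nat_lit 461) (B (M (nat_lit 493) (B (lo113_16_7 (nat_lit 525)) (M (nat_lit 364) (B (lo113_15_7 (nat_lit 397)) (lo112_11_4 (nat_lit 460)))))) (B (M (nat_lit 493) (B (lo113_16_7 (nat_lit 525)) (M (nat_lit 364) (B (lo112_10_4 (nat_lit 332)) (lo112_11_4 (nat_lit 460)))))) (B (M (nat_lit 397) (B (M (nat_lit 364) (B (lo112_10_4 (nat_lit 332)) (M (nat_lit 365) (B (M (nat_lit 366) (B (lo113_14_6 (nat_lit 334)) (M (nat_lit 367) (B (lo116_11_1 (nat_lit 368)) (lo115_11_1 (nat_lit 395)))))) (M (nat_lit 363) (B (M (nat_lit 362) (B (lo110_11_0 (nat_lit 398)) (lo19_11_0 (nat_lit 361)))) (M (nat_lit 460) (B (lo113_11_5 (nat_lit 492)) (lo112_14_7 (nat_lit 331)))))))))) (B (M (nat_lit 364) (B (lo112_10_4 (nat_lit 332)) (M (nat_lit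 365) (B (M (nat_lit 366) (B (lo113_14_6 (nat_lit 334)) (M (nat_lit 395) (B (lo115_11_1 (nat_lit 367)) (lo110_12_2 (nat_lit 394)))))) (M (nat_lit 363) (B (M (nat_lit 362) (B (lo110_11_0 (nat_lit 398)) (lo19_11_0 (nat_lit 361)))) (M (nat_lit 460) (B (lo113_11_5 (nat_lit 492)) (lo112_14_7 (nat_lit 331)))))))))) (B (M (nat_lit 364) (B (lo112_10_4 (nat_lit 332)) (M (nat_lit 363) (B (M (nat_lit 362) (B (lo19_11_0 (nat_lit 361)) (M (nat_lit 398) (B (lo110_11_0 (nat_lit 365)) (lo114_12_3 (nat_lit 395)))))) (B (M (nat_lit 460) (B (lo112_14_7 (nat_lit 331)) (M (nat_lit 492) (B (lo113_11_5 (nat_lit 365)) (lo112_16_6 (nat_lit 524)))))) (M (nat_lit 460) (B (lo112_14_7 (nat_lit 331)) (M (nat_lit 492) (B (lo112_16_6 (nat_lit 524)) (lo112_15_7 (nat_lit 395))))))))))) (B (M (nat_lit 460) (B (M (nat_lit 492) (B (lo113_11_5 (nat_lit 365)) (lo112_16_6 (nat_lit 524)))) (B (M (nat_lit 363) (B (M (nat_lit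 364) (B (lo112_10_4 (nat_lit 332)) (lo112_14_7 (nat_lit 331)))) (M (nat_lit 492) (B (lo112_16_6 (nat_lit 524)) (lo112_15_7 (nat_lit 395)))))) (M (nat_lit 462) (B (M (nat_lit 463) (B (lo116_14_3 (nat_lit 464)) (lo115_14_3 (nat_lit 427)))) (B (M (nat_lit 427) (B (lo115_14_3 (nat_lit 463)) (lo110_13_0 (nat_lit 426)))) (M (nat_lit 459) (B (M (nat_lit 494) (B (lo111_14_0 (nat_lit 495)) (lo113_11_4 (nat_lit 365)))) (M (nat_lit 364) (B (lo112_10_4 (nat_lit 332)) (lo112_11_5 (nat_lit 491)))))))))))) (B (M (nat_lit 460) (B (M (nat_lit 492) (B (lo112_16_6 (nat_lit 524)) (M (nat_lit 364) (B (lo112_10_4 (nat_lit 332)) (M (nat_lit 363) (B (lo112_14_7 (nat_lit 331)) (lo112_15_7 (nat_lit 395)))))))) (B (K _ _ _ o1_s58767) (K _ _ _ o1_s58850)))) (B (M (nat_lit 395) (B (M (nat_lit 426) (B (M (nat_lit 427) (B (lo110_13_2 (nat_lit 398)) (lo110_13_0 (nat_lit 462)))) (M (nat_lit 394) (B (lo113_12_1 (nat_lit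 425)) (lo19_12_0 (nat_lit 393)))))) (B (K _ _ _ o1_s58863) (B (K _ _ _ o1_s58868) (M (nat_lit 427) (B (M (nat_lit 398) (B (lo115_12_1 (nat_lit 399)) (lo110_13_2 (nat_lit 426)))) (B (M (nat_lit 426) (B (lo110_13_2 (nat_lit 398)) (lo110_13_0 (nat_lit 462)))) (B (M (nat_lit 426) (B (lo110_13_0 (nat_lit 462)) (lo19_13_2 (nat_lit 425)))) (M (nat_lit 363) (B (M (nat_lit 398) (B (lo115_12_1 (nat_lit 399)) (lo114_12_3 (nat_lit 362)))) (M (nat_lit 331) (B (lo111_9_4 (nat_lit 299)) (lo111_10_4 (nat_lit 460)))))))))))))) (B (K _ _ _ o1_s58890) (M (nat_lit 460) (B (M (nat_lit 492) (B (lo113_11_5 (nat_lit 365)) (lo112_16_6 (nat_lit 524)))) (K _ _ _ o1_s58850))))))))))) (B (K _ _ _ o1_s58784) (M (nat_lit 493) (B (lo113_16_7 (nat_lit 525)) (M (nat_lit 364) (B (lo113_15_7 (nat_lit 397)) (lo112_10_4 (nat_lit 332))))))))))) (B (M (nat_lit 364) (B (M (nat_lit 461) (B (lo112_10_4 (nat_lit 332)) (M (nat_lit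 493) (B (lo113_15_7 (nat_lit 397)) (lo113_16_7 (nat_lit 525)))))) (B (M (nat_lit 461) (B (lo112_10_4 (nat_lit 332)) (M (nat_lit 493) (B (lo113_16_7 (nat_lit 525)) (lo112_11_4 (nat_lit 460)))))) (B (M (nat_lit 332) (B (M (nat_lit 300) (B (lo112_9_4 (nat_lit 397)) (M (nat_lit 299) (B (lo112_12_7 (nat_lit 267)) (lo112_13_7 (nat_lit 331)))))) (B (M (nat_lit 460) (B (M (nat_lit 331) (B (lo112_13_7 (nat_lit 299)) (lo112_14_7 (nat_lit 363)))) (M (nat_lit 459) (B (lo112_10_5 (nat_lit 427)) (lo112_11_5 (nat_lit 491)))))) (M (nat_lit 300) (B (lo112_9_4 (nat_lit 397)) (M (nat_lit 427) (B (lo112_9_5 (nat_lit 395)) (lo112_10_5 (nat_lit 459))))))))) (M (nat_lit 461) (B (M (nat_lit 493) (B (lo113_15_7 (nat_lit 397)) (lo113_16_7 (nat_lit 525)))) (B (M (nat_lit 493) (B (lo113_16_7 (nat_lit 525)) (lo112_11_4 (nat_lit 460)))) (M (nat_lit 460) (B (M (nat_lit 363) (B (lo112_14_7 (nat_lit 331)) (M (nat_lit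 492) (B (lo112_15_7 (nat_lit 395)) (M (nat_lit 524) (B (lo112_16_6 (nat_lit 397)) (lo112_17_6 (nat_lit 556)))))))) (K _ _ _ o1_s58906)))))))))) (B (M (nat_lit 364) (B (M (nat_lit 461) (B (lo112_10_4 (nat_lit 332)) (M (nat_lit 493) (B (lo113_16_7 (nat_lit 525)) (lo112_11_4 (nat_lit 460)))))) (B (M (nat_lit 332) (B (M (nat_lit 427) (B (lo112_10_5 (nat_lit 459)) (M (nat_lit 300) (B (lo112_9_5 (nat_lit 395)) (M (nat_lit 299) (B (lo112_12_7 (nat_lit 267)) (lo112_13_7 (nat_lit 331)))))))) (B (M (nat_lit 460) (B (M (nat_lit 333) (B (lo112_13_6 (nat_lit 301)) (lo112_14_6 (nat_lit 365)))) (M (nat_lit 459) (B (lo112_10_5 (nat_lit 427)) (lo112_11_5 (nat_lit 491)))))) (M (nat_lit 300) (B (M (nat_lit 301) (B (lo112_12_6 (nat_lit 269)) (lo112_13_6 (nat_lit 333)))) (M (nat_lit 299) (B (lo112_12_7 (nat_lit 267)) (lo112_13_7 (nat_lit 331))))))))) (B (M (nat_lit 460) (B (M (nat_lit 492) (B (M (nat_lit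 493) (B (lo112_11_4 (nat_lit 461)) (lo112_12_4 (nat_lit 525)))) (M (nat_lit 363) (B (lo112_14_7 (nat_lit 331)) (lo112_15_7 (nat_lit 395)))))) (B (K _ _ _ o1_s58914) (M (nat_lit 461) (B (lo112_11_4 (nat_lit 493)) (K _ _ _ o1_s58906)))))) (M (nat_lit 332) (B (lo112_10_4 (nat_lit 461)) (M (nat_lit 300) (B (M (nat_lit 301) (B (lo112_12_6 (nat_lit 269)) (lo112_13_6 (nat_lit 333)))) (M (nat_lit 299) (B (lo112_12_7 (nat_lit 267)) (lo112_13_7 (nat_lit 331)))))))))))) (B (M (nat_lit 460) (B (M (nat_lit 492) (B (M (nat_lit 397) (B (lo112_15_6 (nat_lit 365)) (lo112_16_6 (nat_lit 524)))) (B (M (nat_lit 395) (B (lo112_15_7 (nat_lit 363)) (M (nat_lit 524) (B (lo112_16_6 (nat_lit 397)) (lo112_16_7 (nat_lit 427)))))) (B (M (nat_lit 524) (B (M (nat_lit 525) (B (lo112_12_4 (nat_lit 493)) (lo112_13_4 (nat_lit 557)))) (M (nat_lit 395) (B (lo112_15_7 (nat_lit 363)) (lo112_16_7 (nat_lit 427)))))) (M (nat_lit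 364) (B (M (nat_lit 365) (B (lo112_14_6 (nat_lit 333)) (lo112_15_6 (nat_lit 397)))) (M (nat_lit 363) (B (lo112_14_7 (nat_lit 331)) (lo112_15_7 (nat_lit 395)))))))))) (B (M (nat_lit 492) (B (M (nat_lit 397) (B (lo112_15_6 (nat_lit 365)) (lo112_16_6 (nat_lit 524)))) (B (M (nat_lit 395) (B (lo112_15_7 (nat_lit 363)) (M (nat_lit 524) (B (lo112_16_6 (nat_lit 397)) (lo112_16_7 (nat_lit 427)))))) (B (M (nat_lit 524) (B (M (nat_lit 525) (B (lo112_12_4 (nat_lit 493)) (lo112_13_4 (nat_lit 557)))) (M (nat_lit 395) (B (lo112_15_7 (nat_lit 363)) (lo112_16_7 (nat_lit 427)))))) (M (nat_lit 364) (B (M (nat_lit 363) (B (lo112_14_7 (nat_lit 331)) (lo112_15_7 (nat_lit 395)))) (M (nat_lit 332) (B (M (nat_lit 397) (B (lo112_15_6 (nat_lit 365)) (lo112_9_4 (nat_lit 300)))) (M (nat_lit 459) (B (lo112_10_5 (nat_lit 427)) (lo112_11_5 (nat_lit 491)))))))))))) (B (M (nat_lit 364) (B (M (nat_lit 459) (B (lo112_11_5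 (nat_lit 491)) (M (nat_lit 332) (B (lo112_10_5 (nat_lit 427)) (M (nat_lit 331) (B (lo112_13_7 (nat_lit 299)) (lo112_14_7 (nat_lit 363)))))))) (B (K _ _ _ o1_s35901) (K _ _ _ o1_s58930)))) (B (M (nat_lit 364) (B (M (nat_lit 459) (B (lo112_11_5 (nat_lit 491)) (M (nat_lit 332) (B (lo112_10_5 (nat_lit 427)) (M (nat_lit 331) (B (lo112_13_7 (nat_lit 299)) (lo112_14_7 (nat_lit 363)))))))) (B (K _ _ _ o1_s58914) (M (nat_lit 332) (B (M (nat_lit 333) (B (lo112_13_6 (nat_lit 301)) (lo112_14_6 (nat_lit 365)))) (M (nat_lit 459) (B (lo112_10_5 (nat_lit 427)) (lo112_11_5 (nat_lit 491))))))))) (B (M (nat_lit 397) (B (M (nat_lit 365) (B (lo113_10_5 (nat_lit 333)) (lo112_15_6 (nat_lit 492)))) (B (M (nat_lit 492) (B (lo112_15_6 (nat_lit 365)) (lo112_16_6 (nat_lit 524)))) (B (M (nat_lit 395) (B (M (nat_lit 492) (B (lo112_16_6 (nat_lit 524)) (lo112_15_7 (nat_lit 363)))) (B (K _ _ _ o1_s58936) (K _ _ _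 o1_s58939)))) (M (nat_lit 395) (B (M (nat_lit 365) (B (lo113_10_5 (nat_lit 333)) (M (nat_lit 394) (B (lo110_12_2 (nat_lit 366)) (lo19_12_0 (nat_lit 393)))))) (B (K _ _ _ o1_s58953) (K _ _ _ o1_s58936)))))))) (B (M (nat_lit 364) (B (M (nat_lit 332) (B (M (nat_lit 333) (B (lo112_13_6 (nat_lit 301)) (lo112_14_6 (nat_lit 365)))) (M (nat_lit 459) (B (lo112_10_5 (nat_lit 427)) (lo112_11_5 (nat_lit 491)))))) (B (M (nat_lit 459) (B (lo112_11_5 (nat_lit 491)) (M (nat_lit 332) (B (lo112_10_5 (nat_lit 427)) (M (nat_lit 331) (B (lo112_13_7 (nat_lit 299)) (lo112_14_7 (nat_lit 363)))))))) (K _ _ _ o1_s57602)))) (B (M (nat_lit 364) (B (M (nat_lit 332) (B (M (nat_lit 333) (B (lo112_13_6 (nat_lit 301)) (lo112_14_6 (nat_lit 365)))) (M (nat_lit 459) (B (lo112_10_5 (nat_lit 427)) (lo112_11_5 (nat_lit 491)))))) (B (M (nat_lit 397) (B (M (nat_lit 365) (B (lo113_10_5 (nat_lit 333)) (lo112_15_6 (nat_lit 492))))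 (M (nat_lit 459) (B (lo112_11_5 (nat_lit 491)) (M (nat_lit 332) (B (lo112_9_4 (nat_lit 300)) (lo112_10_5 (nat_lit 427)))))))) (B (M (nat_lit 397) (B (M (nat_lit 492) (B (lo112_15_6 (nat_lit 365)) (lo112_16_6 (nat_lit 524)))) (M (nat_lit 459) (B (lo112_11_5 (nat_lit 491)) (M (nat_lit 332) (B (lo112_9_4 (nat_lit 300)) (lo112_10_5 (nat_lit 427)))))))) (B (K _ _ _ o1_s58930) (B (M (nat_lit 492) (B (M (nat_lit 365) (B (lo112_14_6 (nat_lit 333)) (lo112_15_6 (nat_lit 397)))) (B (M (nat_lit 397) (B (lo112_15_6 (nat_lit 365)) (lo112_16_6 (nat_lit 524)))) (B (M (nat_lit 395) (B (lo112_15_7 (nat_lit 363)) (M (nat_lit 524) (B (lo112_16_6 (nat_lit 397)) (lo112_16_7 (nat_lit 427)))))) (M (nat_lit 524) (B (M (nat_lit 525) (B (lo112_12_4 (nat_lit 493)) (lo112_13_4 (nat_lit 557)))) (M (nat_lit 395) (B (lo112_15_7 (nat_lit 363)) (lo112_16_7 (nat_lit 427)))))))))) (K _ _ _ o1_s58964))))))) (B (M (nat_lit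 459) (B (M (nat_lit 364) (B (lo112_11_5 (nat_lit 491)) (M (nat_lit 332) (B (lo112_10_5 (nat_lit 427)) (M (nat_lit 333) (B (lo112_13_6 (nat_lit 301)) (lo112_14_6 (nat_lit 365)))))))) (B (M (nat_lit 364) (B (lo112_11_5 (nat_lit 491)) (M (nat_lit 397) (B (M (nat_lit 365) (B (lo113_10_5 (nat_lit 333)) (lo112_15_6 (nat_lit 492)))) (M (nat_lit 332) (B (lo112_9_4 (nat_lit 300)) (lo112_10_5 (nat_lit 427)))))))) (B (M (nat_lit 364) (B (lo112_11_5 (nat_lit 491)) (M (nat_lit 397) (B (M (nat_lit 332) (B (lo112_9_4 (nat_lit 300)) (lo112_10_5 (nat_lit 427)))) (M (nat_lit 492) (B (lo112_15_6 (nat_lit 365)) (lo112_16_6 (nat_lit 524)))))))) (B (M (nat_lit 364) (B (lo112_11_5 (nat_lit 491)) (M (nat_lit 332) (B (lo112_10_5 (nat_lit 427)) (M (nat_lit 300) (B (lo112_9_4 (nat_lit 397)) (M (nat_lit 301) (B (lo112_12_6 (nat_lit 269)) (lo112_13_6 (nat_lit 333)))))))))) (B (M (nat_lit 492) (B (M (nat_lit 397)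 (B (lo112_15_6 (nat_lit 365)) (lo112_16_6 (nat_lit 524)))) (B (M (nat_lit 524) (B (lo112_16_6 (nat_lit 397)) (M (nat_lit 525) (B (lo112_12_4 (nat_lit 493)) (lo112_13_4 (nat_lit 557)))))) (B (M (nat_lit 524) (B (M (nat_lit 525) (B (lo112_12_4 (nat_lit 493)) (lo112_13_4 (nat_lit 557)))) (M (nat_lit 427) (B (lo112_16_7 (nat_lit 395)) (lo112_17_7 (nat_lit 556)))))) (M (nat_lit 364) (B (lo112_11_5 (nat_lit 491)) (M (nat_lit 365) (B (lo112_14_6 (nat_lit 333)) (lo112_15_6 (nat_lit 397)))))))))) (B (M (nat_lit 492) (B (M (nat_lit 397) (B (lo112_15_6 (nat_lit 365)) (lo112_16_6 (nat_lit 524)))) (B (M (nat_lit 524) (B (lo112_16_6 (nat_lit 397)) (M (nat_lit 525) (B (lo112_12_4 (nat_lit 493)) (lo112_13_4 (nat_lit 557)))))) (B (M (nat_lit 524) (B (M (nat_lit 525) (B (lo112_12_4 (nat_lit 493)) (lo112_13_4 (nat_lit 557)))) (M (nat_lit 427) (B (lo112_16_7 (nat_lit 395)) (lo112_17_7 (nat_lit 556))))))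 (M (nat_lit 493) (B (lo112_12_4 (nat_lit 525)) (M (nat_lit 458) (B (lo19_14_2 (nat_lit 457)) (M (nat_lit 494) (B (lo115_15_3 (nat_lit 495)) (lo114_15_3 (nat_lit 491)))))))))))) (B (M (nat_lit 364) (B (lo112_11_5 (nat_lit 491)) (K _ _ _ o1_s59010))) (M (nat_lit 364) (B (M (nat_lit 332) (B (lo112_10_5 (nat_lit 427)) (M (nat_lit 333) (B (lo112_13_6 (nat_lit 301)) (lo112_14_6 (nat_lit 365)))))) (B (M (nat_lit 397) (B (M (nat_lit 365) (B (lo113_10_5 (nat_lit 333)) (lo112_15_6 (nat_lit 492)))) (M (nat_lit 332) (B (lo112_9_4 (nat_lit 300)) (lo112_10_5 (nat_lit 427)))))) (B (M (nat_lit 397) (B (M (nat_lit 332) (B (lo112_9_4 (nat_lit 300)) (lo112_10_5 (nat_lit 427)))) (M (nat_lit 492) (B (lo112_15_6 (nat_lit 365)) (lo112_16_6 (nat_lit 524)))))) (B (M (nat_lit 332) (B (lo112_10_5 (nat_lit 427)) (M (nat_lit 300) (B (lo112_9_4 (nat_lit 397)) (M (nat_lit 301) (B (lo112_12_6 (nat_lit 269)) (lo112_13_6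 (nat_lit 333)))))))) (B (M (nat_lit 492) (B (M (nat_lit 365) (B (lo112_14_6 (nat_lit 333)) (lo112_15_6 (nat_lit 397)))) (B (M (nat_lit 397) (B (lo112_15_6 (nat_lit 365)) (lo112_16_6 (nat_lit 524)))) (B (M (nat_lit 524) (B (lo112_16_6 (nat_lit 397)) (M (nat_lit 525) (B (lo112_12_4 (nat_lit 493)) (lo112_13_4 (nat_lit 557)))))) (M (nat_lit 524) (B (M (nat_lit 525) (B (lo112_12_4 (nat_lit 493)) (lo112_13_4 (nat_lit 557)))) (M (nat_lit 427) (B (lo112_16_7 (nat_lit 395)) (lo112_17_7 (nat_lit 556)))))))))) (K _ _ _ o1_s59010))))))))))))))) (B (M (nat_lit 364) (B (M (nat_lit 459) (B (lo112_11_5 (nat_lit 491)) (M (nat_lit 332) (B (lo112_10_5 (nat_lit 427)) (M (nat_lit 331) (B (lo112_13_7 (nat_lit 299)) (lo112_14_7 (nat_lit 363)))))))) (B (K _ _ _ o1_s57239) (M (nat_lit 332) (B (M (nat_lit 333) (B (lo112_13_6 (nat_lit 301)) (lo112_14_6 (nat_lit 365)))) (M (nat_lit 459) (B (lo112_10_5 (nat_lit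 427)) (lo112_11_5 (nat_lit 491))))))))) (M (nat_lit 364) (B (M (nat_lit 365) (B (lo112_14_6 (nat_lit 333)) (M (nat_lit 363) (B (lo112_14_7 (nat_lit 331)) (M (nat_lit 492) (B (lo112_15_6 (nat_lit 397)) (lo112_15_7 (nat_lit 395)))))))) (B (M (nat_lit 492) (B (M (nat_lit 397) (B (lo112_15_6 (nat_lit 365)) (lo112_16_6 (nat_lit 524)))) (M (nat_lit 363) (B (lo112_14_7 (nat_lit 331)) (lo112_15_7 (nat_lit 395)))))) (B (K _ _ _ o1_s35901) (B (M (nat_lit 332) (B (M (nat_lit 333) (B (lo112_13_6 (nat_lit 301)) (lo112_14_6 (nat_lit 365)))) (M (nat_lit 331) (B (lo112_13_7 (nat_lit 299)) (lo112_14_7 (nat_lit 363)))))) (K _ _ _ o1_s58964)))))))))))))))) (B (M (nat_lit 397) (B (M (nat_lit 364) (B (M (nat_lit 332) (B (lo112_9_4 (nat_lit 300)) (lo112_10_4 (nat_lit 461)))) (K _ _ _ o1_s49603))) (B (M (nat_lit 395) (B (M (nat_lit 394) (B (lo19_12_0 (nat_lit 393)) (M (nat_lit 365) (B (lo110_12_2 (nat_lit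 366)) (M (nat_lit 333) (B (lo113_9_5 (nat_lit 301)) (lo113_10_5 (nat_lit 460)))))))) (B (K _ _ _ o1_s50455) (M (nat_lit 364) (B (M (nat_lit 332) (B (lo112_9_4 (nat_lit 300)) (lo112_10_4 (nat_lit 461)))) (M (nat_lit 363) (B (M (nat_lit 362) (B (lo114_12_3 (nat_lit 398)) (lo19_11_0 (nat_lit 361)))) (M (nat_lit 460) (B (lo112_14_7 (nat_lit 331)) (lo112_15_7 (nat_lit 492))))))))))) (B (M (nat_lit 364) (B (M (nat_lit 332) (B (lo112_9_4 (nat_lit 300)) (lo112_10_4 (nat_lit 461)))) (B (K _ _ _ o1_s59042) (B (K _ _ _ o1_s59046) (M (nat_lit 365) (B (M (nat_lit 333) (B (lo113_9_5 (nat_lit 301)) (lo113_10_5 (nat_lit 460)))) (B (M (nat_lit 460) (B (lo113_10_5 (nat_lit 333)) (lo112_15_6 (nat_lit 492)))) (B (M (nat_lit 363) (B (M (nat_lit 460) (B (lo112_15_6 (nat_lit 492)) (lo112_14_7 (nat_lit 331)))) (M (nat_lit 366) (B (M (nat_lit 367) (B (lo116_11_1 (nat_lit 368)) (lo115_11_1 (nat_lit 395))))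 (M (nat_lit 334) (B (lo111_11_2 (nat_lit 335)) (lo113_14_6 (nat_lit 461)))))))) (M (nat_lit 333) (B (lo113_9_5 (nat_lit 301)) (M (nat_lit 366) (B (M (nat_lit 367) (B (lo116_11_1 (nat_lit 368)) (lo115_11_1 (nat_lit 395)))) (M (nat_lit 334) (B (lo113_13_6 (nat_lit 302)) (lo113_14_6 (nat_lit 461)))))))))))))))) (B (M (nat_lit 364) (B (M (nat_lit 332) (B (lo112_9_4 (nat_lit 300)) (lo112_10_4 (nat_lit 461)))) (K _ _ _ o1_s49612))) (B (M (nat_lit 364) (B (M (nat_lit 332) (B (lo112_9_4 (nat_lit 300)) (lo112_10_4 (nat_lit 461)))) (M (nat_lit 398) (B (M (nat_lit 399) (B (lo116_12_1 (nat_lit 400)) (lo115_12_3 (nat_lit 363)))) (B (M (nat_lit 399) (B (lo115_12_3 (nat_lit 363)) (lo115_12_1 (nat_lit 427)))) (B (M (nat_lit 395) (B (M (nat_lit 426) (B (lo110_13_2 (nat_lit 427)) (M (nat_lit 394) (B (lo113_12_1 (nat_lit 425)) (lo19_12_0 (nat_lit 393)))))) (M (nat_lit 363) (B (lo114_12_3 (nat_lit 362))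 (M (nat_lit 331) (B (lo112_14_7 (nat_lit 460)) (lo111_9_4 (nat_lit 299)))))))) (M (nat_lit 427) (B (lo115_12_1 (nat_lit 399)) (lo110_13_2 (nat_lit 426)))))))))) (B (M (nat_lit 364) (B (M (nat_lit 332) (B (lo112_9_4 (nat_lit 300)) (M (nat_lit 427) (B (lo112_10_5 (nat_lit 459)) (M (nat_lit 398) (B (lo115_12_1 (nat_lit 399)) (lo110_13_2 (nat_lit 426)))))))) (B (K _ _ _ o1_s59042) (B (M (nat_lit 332) (B (M (nat_lit 427) (B (lo112_10_5 (nat_lit 459)) (M (nat_lit 398) (B (lo115_12_1 (nat_lit 399)) (lo110_13_2 (nat_lit 426)))))) (M (nat_lit 460) (B (M (nat_lit 333) (B (lo112_13_6 (nat_lit 301)) (lo113_10_5 (nat_lit 365)))) (M (nat_lit 331) (B (lo112_13_7 (nat_lit 299)) (lo112_14_7 (nat_lit 363)))))))) (K _ _ _ o1_s49603))))) (B (M (nat_lit 364) (B (M (nat_lit 332) (B (lo112_10_4 (nat_lit 461)) (M (nat_lit 427) (B (lo112_10_5 (nat_lit 459)) (M (nat_lit 398) (B (lo115_12_1 (nat_lit 399)) (lo110_13_2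 (nat_lit 426)))))))) (B (K _ _ _ o1_s59046) (K _ _ _ o1_s49603)))) (B (M (nat_lit 395) (B (M (nat_lit 394) (B (lo19_12_0 (nat_lit 393)) (M (nat_lit 365) (B (lo110_12_2 (nat_lit 366)) (M (nat_lit 333) (B (lo113_9_5 (nat_lit 301)) (lo113_10_5 (nat_lit 460)))))))) (B (K _ _ _ o1_s50455) (K _ _ _ o1_s59080)))) (B (M (nat_lit 398) (B (M (nat_lit 399) (B (lo116_12_1 (nat_lit 400)) (lo115_12_1 (nat_lit 427)))) (B (M (nat_lit 427) (B (lo115_12_1 (nat_lit 399)) (lo110_13_2 (nat_lit 426)))) (M (nat_lit 365) (B (M (nat_lit 333) (B (lo113_9_5 (nat_lit 301)) (lo113_10_5 (nat_lit 460)))) (B (M (nat_lit 460) (B (lo113_10_5 (nat_lit 333)) (lo112_15_6 (nat_lit 492)))) (M (nat_lit 366) (B (M (nat_lit 367) (B (lo116_11_1 (nat_lit 368)) (lo111_12_2 (nat_lit 395)))) (M (nat_lit 334) (B (lo114_9_5 (nat_lit 302)) (lo113_14_6 (nat_lit 461)))))))))))) (B (M (nat_lit 398) (B (M (nat_lit 399) (B (lo116_12_1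 (nat_lit 400)) (lo115_12_1 (nat_lit 427)))) (B (M (nat_lit 427) (B (lo115_12_1 (nat_lit 399)) (lo110_13_2 (nat_lit 426)))) (B (M (nat_lit 332) (B (M (nat_lit 364) (B (lo112_9_4 (nat_lit 300)) (lo112_10_4 (nat_lit 461)))) (B (M (nat_lit 427) (B (lo110_13_2 (nat_lit 426)) (M (nat_lit 364) (B (lo112_9_4 (nat_lit 300)) (lo112_10_5 (nat_lit 459)))))) (B (M (nat_lit 427) (B (lo110_13_2 (nat_lit 426)) (M (nat_lit 364) (B (lo112_10_4 (nat_lit 461)) (lo112_10_5 (nat_lit 459)))))) (M (nat_lit 365) (B (M (nat_lit 333) (B (lo113_9_5 (nat_lit 301)) (lo113_13_7 (nat_lit 300)))) (M (nat_lit 366) (B (M (nat_lit 367) (B (lo116_11_1 (nat_lit 368)) (lo111_12_2 (nat_lit 395)))) (M (nat_lit 334) (B (lo114_9_5 (nat_lit 302)) (lo113_14_6 (nat_lit 461)))))))))))) (M (nat_lit 364) (B (M (nat_lit 399) (B (lo116_12_1 (nat_lit 400)) (lo115_12_3 (nat_lit 363)))) (M (nat_lit 332) (B (lo112_9_4 (nat_lit 300)) (lo112_10_4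 (nat_lit 461)))))))))) (M (nat_lit 365) (B (M (nat_lit 333) (B (lo113_9_5 (nat_lit 301)) (lo113_10_5 (nat_lit 460)))) (B (M (nat_lit 460) (B (lo113_10_5 (nat_lit 333)) (lo112_15_6 (nat_lit 492)))) (B (M (nat_lit 364) (B (M (nat_lit 332) (B (lo113_14_7 (nat_lit 461)) (lo112_9_4 (nat_lit 300)))) (M (nat_lit 363) (B (M (nat_lit 398) (B (lo115_12_3 (nat_lit 399)) (lo110_11_0 (nat_lit 362)))) (M (nat_lit 460) (B (lo112_15_6 (nat_lit 492)) (lo112_14_7 (nat_lit 331)))))))) (K _ _ _ o1_s50604)))))))))))))))) (B (M (nat_lit 397) (B (M (nat_lit 460) (B (M (nat_lit 365) (B (lo113_10_5 (nat_lit 333)) (lo112_15_6 (nat_lit 492)))) (B (M (nat_lit 492) (B (lo112_15_6 (nat_lit 365)) (lo112_16_6 (nat_lit 524)))) (B (K _ _ _ o1_s50355) (K _ _ _ o1_s50363))))) (B (M (nat_lit 460) (B (M (nat_lit 365) (B (lo113_10_5 (nat_lit 333)) (lo112_15_6 (nat_lit 492)))) (B (M (nat_lit 492) (B (lo112_15_6 (nat_lit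 365)) (lo112_16_6 (nat_lit 524)))) (B (K _ _ _ o1_s50355) (K _ _ _ o1_s59112))))) (B (M (nat_lit 395) (B (M (nat_lit 394) (B (lo19_12_0 (nat_lit 393)) (M (nat_lit 365) (B (lo110_12_2 (nat_lit 366)) (M (nat_lit 460) (B (lo113_10_5 (nat_lit 333)) (lo112_15_6 (nat_lit 492)))))))) (B (K _ _ _ o1_s50455) (K _ _ _ o1_s59080)))) (B (M (nat_lit 460) (B (M (nat_lit 492) (B (lo112_15_6 (nat_lit 365)) (lo112_16_6 (nat_lit 524)))) (B (K _ _ _ o1_s50355) (M (nat_lit 398) (B (M (nat_lit 399) (B (lo116_12_1 (nat_lit 400)) (lo115_12_1 (nat_lit 427)))) (B (M (nat_lit 427) (B (lo115_12_1 (nat_lit 399)) (lo110_13_2 (nat_lit 426)))) (B (K _ _ _ o1_s50442) (M (nat_lit 395) (B (M (nat_lit 394) (B (lo19_12_0 (nat_lit 393)) (M (nat_lit 366) (B (lo111_12_2 (nat_lit 367)) (lo110_12_2 (nat_lit 365)))))) (M (nat_lit 363) (B (lo114_12_3 (nat_lit 362)) (M (nat_lit 399) (B (lo116_12_1 (nat_lit 400)) (lo115_12_3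 (nat_lit 364))))))))))))))) (B (M (nat_lit 460) (B (K _ _ _ o1_s50355) (B (M (nat_lit 395) (B (M (nat_lit 492) (B (lo112_16_6 (nat_lit 524)) (lo112_15_7 (nat_lit 363)))) (K _ _ _ o1_s58939))) (B (M (nat_lit 398) (B (M (nat_lit 399) (B (lo116_12_1 (nat_lit 400)) (lo115_12_1 (nat_lit 427)))) (B (M (nat_lit 427) (B (lo115_12_1 (nat_lit 399)) (lo110_13_2 (nat_lit 426)))) (B (M (nat_lit 395) (B (M (nat_lit 427) (B (lo110_13_2 (nat_lit 426)) (M (nat_lit 363) (B (lo114_12_3 (nat_lit 362)) (lo111_10_4 (nat_lit 331)))))) (B (M (nat_lit 426) (B (lo110_13_2 (nat_lit 427)) (M (nat_lit 394) (B (lo113_12_1 (nat_lit 425)) (lo19_12_0 (nat_lit 393)))))) (M (nat_lit 363) (B (lo114_12_3 (nat_lit 362)) (M (nat_lit 331) (B (lo112_14_7 (nat_lit 364)) (lo111_9_4 (nat_lit 299))))))))) (M (nat_lit 395) (B (M (nat_lit 363) (B (lo114_12_3 (nat_lit 362)) (M (nat_lit 331) (B (lo112_14_7 (nat_lit 364)) (lo111_9_4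 (nat_lit 299)))))) (M (nat_lit 399) (B (lo116_12_1 (nat_lit 400)) (M (nat_lit 367) (B (lo112_12_2 (nat_lit 368)) (lo111_12_2 (nat_lit 366)))))))))))) (K _ _ _ o1_s50388))))) (B (M (nat_lit 398) (B (M (nat_lit 399) (B (lo116_12_1 (nat_lit 400)) (lo115_12_1 (nat_lit 427)))) (B (M (nat_lit 427) (B (lo115_12_1 (nat_lit 399)) (lo110_13_2 (nat_lit 426)))) (K _ _ _ o1_s50334)))) (B (M (nat_lit 461) (B (M (nat_lit 493) (B (lo113_15_7 (nat_lit 364)) (lo113_16_7 (nat_lit 525)))) (K _ _ _ o1_s58890))) (B (M (nat_lit 460) (B (M (nat_lit 365) (B (lo113_10_5 (nat_lit 333)) (lo112_15_6 (nat_lit 492)))) (B (M (nat_lit 492) (B (lo112_15_6 (nat_lit 365)) (lo112_16_6 (nat_lit 524)))) (B (K _ _ _ o1_s50388) (K _ _ _ o1_s59112))))) (M (nat_lit 365) (B (M (nat_lit 460) (B (lo113_10_5 (nat_lit 333)) (lo112_15_6 (nat_lit 492)))) (M (nat_lit 366) (B (M (nat_lit 461) (B (lo113_14_6 (nat_lit 334)) (M (nat_lit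 493) (B (lo113_15_6 (nat_lit 398)) (lo113_15_7 (nat_lit 364)))))) (B (M (nat_lit 367) (B (lo116_11_1 (nat_lit 368)) (M (nat_lit 395) (B (lo111_12_2 (nat_lit 398)) (lo110_12_2 (nat_lit 394)))))) (M (nat_lit 461) (B (lo113_14_6 (nat_lit 334)) (M (nat_lit 493) (B (lo113_15_7 (nat_lit 364)) (lo113_16_7 (nat_lit 525)))))))))))))))))))) (B (M (nat_lit 397) (B (M (nat_lit 365) (B (M (nat_lit 333) (B (lo113_9_5 (nat_lit 301)) (lo113_10_5 (nat_lit 460)))) (B (M (nat_lit 460) (B (lo113_10_5 (nat_lit 333)) (lo112_15_6 (nat_lit 492)))) (M (nat_lit 398) (B (M (nat_lit 427) (B (lo115_12_1 (nat_lit 399)) (lo110_13_2 (nat_lit 426)))) (M (nat_lit 366) (B (M (nat_lit 367) (B (lo116_11_1 (nat_lit 368)) (lo111_12_2 (nat_lit 395)))) (M (nat_lit 334) (B (lo114_9_5 (nat_lit 302)) (lo113_14_6 (nat_lit 461))))))))))) (B (M (nat_lit 460) (B (M (nat_lit 365) (B (lo113_10_5 (nat_lit 333)) (lo112_15_6 (nat_lit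 492)))) (B (M (nat_lit 492) (B (lo112_15_6 (nat_lit 365)) (lo112_16_6 (nat_lit 524)))) (B (K _ _ _ o1_s59154) (M (nat_lit 365) (B (lo113_10_5 (nat_lit 333)) (K _ _ _ o1_s59156))))))) (B (M (nat_lit 365) (B (M (nat_lit 333) (B (lo113_9_5 (nat_lit 301)) (lo113_10_5 (nat_lit 460)))) (B (M (nat_lit 460) (B (lo113_10_5 (nat_lit 333)) (lo112_15_6 (nat_lit 492)))) (B (M (nat_lit 460) (B (lo112_15_6 (nat_lit 492)) (K _ _ _ o1_s59156))) (K _ _ _ o1_s50412))))) (B (M (nat_lit 460) (B (M (nat_lit 365) (B (lo113_10_5 (nat_lit 333)) (lo112_15_6 (nat_lit 492)))) (B (M (nat_lit 492) (B (lo112_15_6 (nat_lit 365)) (lo112_16_6 (nat_lit 524)))) (B (K _ _ _ o1_s59154) (M (nat_lit 365) (B (lo113_10_5 (nat_lit 333)) (M (nat_lit 461) (B (M (nat_lit 462) (B (lo113_11_4 (nat_lit 494)) (M (nat_lit 427) (B (lo115_14_3 (nat_lit 463)) (lo110_13_0 (nat_lit 426)))))) (B (M (nat_lit 493) (B (lo113_16_7 (nat_lit 525))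 (M (nat_lit 494) (B (lo113_11_4 (nat_lit 462)) (lo113_12_4 (nat_lit 526)))))) (M (nat_lit 398) (B (M (nat_lit 399) (B (lo116_12_1 (nat_lit 400)) (lo115_12_1 (nat_lit 427)))) (M (nat_lit 493) (B (lo113_15_6 (nat_lit 366)) (lo113_16_7 (nat_lit 525))))))))))))))) (B (M (nat_lit 461) (B (K _ _ _ o1_s49627) (B (M (nat_lit 493) (B (lo113_16_7 (nat_lit 525)) (M (nat_lit 492) (B (lo113_12_5 (nat_lit 524)) (M (nat_lit 460) (B (lo113_11_5 (nat_lit 365)) (M (nat_lit 494) (B (lo113_12_4 (nat_lit 526)) (M (nat_lit 459) (B (lo115_15_3 (nat_lit 495)) (lo110_14_0 (nat_lit 458)))))))))))) (B (M (nat_lit 493) (B (lo113_16_7 (nat_lit 525)) (M (nat_lit 492) (B (lo113_12_5 (nat_lit 524)) (M (nat_lit 395) (B (M (nat_lit 460) (B (lo113_11_5 (nat_lit 365)) (lo112_15_7 (nat_lit 363)))) (M (nat_lit 426) (B (M (nat_lit 427) (B (lo110_13_2 (nat_lit 398)) (lo110_13_0 (nat_lit 462)))) (M (nat_lit 394) (B (lo113_12_1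 (nat_lit 425)) (lo19_12_0 (nat_lit 393)))))))))))) (B (M (nat_lit 493) (B (lo113_16_7 (nat_lit 525)) (M (nat_lit 460) (B (M (nat_lit 494) (B (lo113_12_4 (nat_lit 526)) (M (nat_lit 495) (B (lo116_15_3 (nat_lit 496)) (M (nat_lit 459) (B (lo111_14_0 (nat_lit 462)) (lo110_14_0 (nat_lit 458)))))))) (B (M (nat_lit 492) (B (lo113_12_5 (nat_lit 524)) (M (nat_lit 494) (B (lo113_12_4 (nat_lit 526)) (M (nat_lit 459) (B (lo115_15_3 (nat_lit 495)) (lo110_14_0 (nat_lit 458)))))))) (M (nat_lit 395) (B (M (nat_lit 492) (B (lo113_12_5 (nat_lit 524)) (lo112_15_7 (nat_lit 363)))) (M (nat_lit 426) (B (M (nat_lit 427) (B (lo110_13_2 (nat_lit 398)) (lo110_13_0 (nat_lit 462)))) (M (nat_lit 394) (B (lo113_12_1 (nat_lit 425)) (lo19_12_0 (nat_lit 393))))))))))))) (B (M (nat_lit 460) (B (M (nat_lit 365) (B (lo113_10_5 (nat_lit 333)) (lo113_11_5 (nat_lit 492)))) (B (M (nat_lit 492) (B (lo113_11_5 (nat_lit 365))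 (lo112_16_6 (nat_lit 524)))) (B (K _ _ _ o1_s58767) (M (nat_lit 462) (B (M (nat_lit 463) (B (lo116_14_3 (nat_lit 464)) (lo115_14_3 (nat_lit 427)))) (M (nat_lit 365) (B (lo113_11_4 (nat_lit 494)) (lo113_10_5 (nat_lit 333)))))))))) (B (M (nat_lit 493) (B (lo113_16_7 (nat_lit 525)) (M (nat_lit 492) (B (lo113_12_5 (nat_lit 524)) (M (nat_lit 494) (B (lo113_12_4 (nat_lit 526)) (M (nat_lit 462) (B (lo113_11_4 (nat_lit 365)) (M (nat_lit 463) (B (lo116_14_3 (nat_lit 464)) (lo111_15_2 (nat_lit 491)))))))))))) (M (nat_lit 493) (B (lo113_16_7 (nat_lit 525)) (M (nat_lit 365) (B (M (nat_lit 494) (B (lo113_11_4 (nat_lit 462)) (lo113_12_4 (nat_lit 526)))) (M (nat_lit 333) (B (lo113_9_5 (nat_lit 301)) (lo113_10_5 (nat_lit 460))))))))))))))) (B (K _ _ _ o1_s50499) (B (M (nat_lit 460) (B (M (nat_lit 492) (B (lo112_15_6 (nat_lit 365)) (lo112_16_6 (nat_lit 524)))) (M (nat_lit 398) (B (M (nat_lit 399) (B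 (lo116_12_1 (nat_lit 400)) (lo115_12_1 (nat_lit 427)))) (B (M (nat_lit 427) (B (lo115_12_1 (nat_lit 399)) (lo110_13_2 (nat_lit 426)))) (B (M (nat_lit 395) (B (M (nat_lit 427) (B (lo110_13_2 (nat_lit 426)) (M (nat_lit 363) (B (lo114_12_3 (nat_lit 362)) (lo111_10_4 (nat_lit 331)))))) (B (M (nat_lit 426) (B (lo110_13_2 (nat_lit 427)) (M (nat_lit 394) (B (lo113_12_1 (nat_lit 425)) (lo19_12_0 (nat_lit 393)))))) (M (nat_lit 394) (B (lo19_12_0 (nat_lit 393)) (M (nat_lit 362) (B (lo114_12_3 (nat_lit 363)) (lo113_12_3 (nat_lit 361))))))))) (K _ _ _ o1_s50449))))))) (B (K _ _ _ o1_s49661) (B (M (nat_lit 398) (B (M (nat_lit 399) (B (lo116_12_1 (nat_lit 400)) (lo115_12_1 (nat_lit 427)))) (B (M (nat_lit 427) (B (lo115_12_1 (nat_lit 399)) (lo110_13_2 (nat_lit 426)))) (B (M (nat_lit 426) (B (lo110_13_2 (nat_lit 427)) (M (nat_lit 366) (B (M (nat_lit 395) (B (lo111_12_2 (nat_lit 367)) (M (nat_lit 394)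 (B (lo113_12_1 (nat_lit 425)) (lo19_12_0 (nat_lit 393)))))) (M (nat_lit 461) (B (lo113_15_6 (nat_lit 493)) (M (nat_lit 334) (B (lo114_9_5 (nat_lit 302)) (lo113_14_6 (nat_lit 365)))))))))) (M (nat_lit 395) (B (M (nat_lit 394) (B (lo19_12_0 (nat_lit 393)) (M (nat_lit 366) (B (lo111_12_2 (nat_lit 367)) (lo110_12_2 (nat_lit 365)))))) (B (M (nat_lit 394) (B (lo19_12_0 (nat_lit 393)) (M (nat_lit 362) (B (lo114_12_3 (nat_lit 363)) (lo113_12_3 (nat_lit 361)))))) (M (nat_lit 399) (B (lo116_12_1 (nat_lit 400)) (M (nat_lit 367) (B (lo112_12_2 (nat_lit 368)) (lo111_12_2 (nat_lit 366))))))))))))) (M (nat_lit 365) (B (M (nat_lit 333) (B (lo113_9_5 (nat_lit 301)) (lo113_10_5 (nat_lit 460)))) (B (M (nat_lit 460) (B (lo113_10_5 (nat_lit 333)) (lo112_15_6 (nat_lit 492)))) (M (nat_lit 461) (B (M (nat_lit 493) (B (lo113_16_7 (nat_lit 525)) (M (nat_lit 494) (B (lo113_11_4 (nat_lit 462)) (lo113_12_4 (nat_lit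 526)))))) (B (M (nat_lit 493) (B (lo113_16_7 (nat_lit 525)) (M (nat_lit 366) (B (lo113_14_6 (nat_lit 334)) (lo113_15_6 (nat_lit 398)))))) (M (nat_lit 366) (B (lo113_14_6 (nat_lit 334)) (M (nat_lit 395) (B (lo110_12_2 (nat_lit 394)) (M (nat_lit 367) (B (lo116_11_1 (nat_lit 368)) (lo111_12_2 (nat_lit 398)))))))))))))))))))))))) (B (M (nat_lit 397) (B (M (nat_lit 461) (B (M (nat_lit 493) (B (lo113_15_7 (nat_lit 364)) (lo113_16_7 (nat_lit 525)))) (K _ _ _ o1_s58890))) (B (M (nat_lit 395) (B (K _ _ _ o1_s50455) (B (K _ _ _ o1_s59237) (B (M (nat_lit 461) (B (M (nat_lit 493) (B (lo113_15_7 (nat_lit 364)) (lo113_16_7 (nat_lit 525)))) (B (M (nat_lit 332) (B (lo112_10_4 (nat_lit 364)) (M (nat_lit 365) (B (M (nat_lit 366) (B (lo113_14_6 (nat_lit 334)) (lo110_12_2 (nat_lit 394)))) (M (nat_lit 333) (B (lo113_9_5 (nat_lit 301)) (lo113_13_7 (nat_lit 300)))))))) (M (nat_lit 366) (B (M (nat_lit 493)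 (B (lo113_15_6 (nat_lit 398)) (lo113_16_7 (nat_lit 525)))) (M (nat_lit 394) (B (lo110_12_2 (nat_lit 365)) (lo19_12_0 (nat_lit 393))))))))) (K _ _ _ o1_s59266))))) (B (M (nat_lit 461) (B (M (nat_lit 493) (B (lo113_15_7 (nat_lit 364)) (lo113_16_7 (nat_lit 525)))) (B (M (nat_lit 365) (B (M (nat_lit 332) (B (lo113_14_7 (nat_lit 364)) (M (nat_lit 333) (B (lo113_9_5 (nat_lit 301)) (lo113_13_7 (nat_lit 300)))))) (B (M (nat_lit 395) (B (M (nat_lit 366) (B (lo113_14_6 (nat_lit 334)) (lo110_12_2 (nat_lit 394)))) (B (M (nat_lit 394) (B (lo110_12_2 (nat_lit 366)) (lo19_12_0 (nat_lit 393)))) (B (M (nat_lit 426) (B (M (nat_lit 462) (B (lo113_11_4 (nat_lit 494)) (lo110_13_0 (nat_lit 427)))) (M (nat_lit 394) (B (lo113_12_1 (nat_lit 425)) (lo19_12_0 (nat_lit 393)))))) (M (nat_lit 364) (B (lo113_14_7 (nat_lit 332)) (M (nat_lit 366) (B (lo115_11_1 (nat_lit 367)) (lo113_14_6 (nat_lit 334)))))))))) (M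 (nat_lit 333) (B (lo113_9_5 (nat_lit 301)) (M (nat_lit 334) (B (lo113_13_6 (nat_lit 302)) (lo113_14_6 (nat_lit 366))))))))) (K _ _ _ o1_s46370)))) (B (M (nat_lit 395) (B (K _ _ _ o1_s50455) (B (K _ _ _ o1_s59237) (B (M (nat_lit 394) (B (lo19_12_0 (nat_lit 393)) (M (nat_lit 398) (B (M (nat_lit 366) (B (lo111_12_2 (nat_lit 367)) (lo110_12_2 (nat_lit 365)))) (M (nat_lit 362) (B (lo114_12_3 (nat_lit 363)) (lo113_12_3 (nat_lit 361)))))))) (K _ _ _ o1_s59266))))) (B (M (nat_lit 395) (B (K _ _ _ o1_s50455) (B (M (nat_lit 461) (B (M (nat_lit 493) (B (lo113_15_7 (nat_lit 364)) (lo113_16_7 (nat_lit 525)))) (B (M (nat_lit 365) (B (M (nat_lit 332) (B (lo113_14_7 (nat_lit 364)) (M (nat_lit 333) (B (lo113_9_5 (nat_lit 301)) (lo113_13_7 (nat_lit 300)))))) (M (nat_lit 426) (B (M (nat_lit 462) (B (lo113_11_4 (nat_lit 494)) (lo110_13_0 (nat_lit 427)))) (M (nat_lit 394) (B (lo113_12_1 (nat_lit 425))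 (lo19_12_0 (nat_lit 393)))))))) (M (nat_lit 462) (B (M (nat_lit 426) (B (lo110_13_0 (nat_lit 427)) (M (nat_lit 394) (B (lo113_12_1 (nat_lit 425)) (lo19_12_0 (nat_lit 393)))))) (M (nat_lit 493) (B (lo113_16_7 (nat_lit 525)) (M (nat_lit 494) (B (lo113_11_4 (nat_lit 365)) (lo113_12_4 (nat_lit 526))))))))))) (B (K _ _ _ o1_s50470) (B (K _ _ _ o1_s59266) (K _ _ _ o1_s50493)))))) (B (M (nat_lit 461) (B (M (nat_lit 493) (B (lo113_15_7 (nat_lit 364)) (lo113_16_7 (nat_lit 525)))) (B (M (nat_lit 365) (B (M (nat_lit 332) (B (lo113_14_7 (nat_lit 364)) (M (nat_lit 333) (B (lo113_9_5 (nat_lit 301)) (lo113_13_7 (nat_lit 300)))))) (B (M (nat_lit 333) (B (M (nat_lit 334) (B (lo113_13_6 (nat_lit 302)) (lo113_14_6 (nat_lit 366)))) (M (nat_lit 332) (B (lo113_13_7 (nat_lit 300)) (lo113_14_7 (nat_lit 364)))))) (B (M (nat_lit 364) (B (lo113_14_7 (nat_lit 332)) (M (nat_lit 366) (B (lo113_14_6 (nat_lit 334))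 (M (nat_lit 395) (B (lo115_11_1 (nat_lit 367)) (lo110_12_2 (nat_lit 394)))))))) (M (nat_lit 334) (B (lo113_14_6 (nat_lit 366)) (M (nat_lit 333) (B (lo113_13_6 (nat_lit 302)) (lo113_9_5 (nat_lit 301)))))))))) (K _ _ _ o1_s50566)))) (B (M (nat_lit 461) (B (M (nat_lit 493) (B (lo113_15_7 (nat_lit 364)) (lo113_16_7 (nat_lit 525)))) (B (M (nat_lit 398) (B (M (nat_lit 399) (B (lo116_12_1 (nat_lit 400)) (lo115_12_1 (nat_lit 427)))) (B (M (nat_lit 427) (B (lo115_12_1 (nat_lit 399)) (lo110_13_2 (nat_lit 426)))) (B (K _ _ _ o1_s49667) (M (nat_lit 364) (B (lo112_10_4 (nat_lit 332)) (M (nat_lit 399) (B (lo116_12_1 (nat_lit 400)) (lo115_12_3 (nat_lit 363)))))))))) (M (nat_lit 398) (B (M (nat_lit 493) (B (lo113_15_6 (nat_lit 366)) (lo113_16_7 (nat_lit 525)))) (M (nat_lit 427) (B (lo115_12_1 (nat_lit 399)) (lo110_13_2 (nat_lit 426))))))))) (B (M (nat_lit 395) (B (K _ _ _ o1_s50455) (B (M (nat_lit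 394) (B (lo19_12_0 (nat_lit 393)) (M (nat_lit 426) (B (lo113_12_1 (nat_lit 425)) (M (nat_lit 427) (B (M (nat_lit 362) (B (lo113_12_3 (nat_lit 361)) (M (nat_lit 459) (B (lo111_15_7 (nat_lit 491)) (lo110_10_4 (nat_lit 330)))))) (M (nat_lit 461) (B (lo110_13_0 (nat_lit 462)) (M (nat_lit 493) (B (lo113_15_7 (nat_lit 364)) (lo113_16_7 (nat_lit 525)))))))))))) (B (M (nat_lit 398) (B (M (nat_lit 363) (B (lo114_12_3 (nat_lit 362)) (M (nat_lit 399) (B (lo116_12_1 (nat_lit 400)) (lo115_12_3 (nat_lit 364)))))) (B (M (nat_lit 394) (B (lo19_12_0 (nat_lit 393)) (M (nat_lit 362) (B (lo114_12_3 (nat_lit 363)) (lo113_12_3 (nat_lit 361)))))) (M (nat_lit 399) (B (lo116_12_1 (nat_lit 400)) (M (nat_lit 367) (B (lo112_12_2 (nat_lit 368)) (lo111_12_2 (nat_lit 366))))))))) (B (M (nat_lit 461) (B (M (nat_lit 493) (B (lo113_15_7 (nat_lit 364)) (lo113_16_7 (nat_lit 525)))) (M (nat_lit 426) (B (M (nat_lit 427)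 (B (lo110_13_2 (nat_lit 398)) (lo110_13_0 (nat_lit 462)))) (M (nat_lit 394) (B (lo113_12_1 (nat_lit 425)) (lo19_12_0 (nat_lit 393)))))))) (K _ _ _ o1_s59266)))))) (B (M (nat_lit 332) (B (M (nat_lit 364) (B (lo112_9_4 (nat_lit 300)) (M (nat_lit 427) (B (lo112_10_5 (nat_lit 459)) (M (nat_lit 398) (B (lo115_12_1 (nat_lit 399)) (lo110_13_2 (nat_lit 426)))))))) (B (M (nat_lit 333) (B (M (nat_lit 301) (B (lo113_9_5 (nat_lit 365)) (lo112_13_6 (nat_lit 364)))) (B (M (nat_lit 300) (B (lo113_13_7 (nat_lit 365)) (lo112_9_4 (nat_lit 364)))) (B (M (nat_lit 364) (B (lo112_13_6 (nat_lit 301)) (lo112_9_4 (nat_lit 300)))) (M (nat_lit 365) (B (lo113_9_5 (nat_lit 301)) (lo113_13_7 (nat_lit 300)))))))) (B (M (nat_lit 364) (B (M (nat_lit 427) (B (lo112_10_5 (nat_lit 459)) (M (nat_lit 398) (B (lo115_12_1 (nat_lit 399)) (lo110_13_2 (nat_lit 426)))))) (M (nat_lit 333) (B (lo112_13_6 (nat_lit 301)) (M (nat_lit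 365) (B (M (nat_lit 331) (B (lo112_13_7 (nat_lit 299)) (M (nat_lit 366) (B (lo115_11_3 (nat_lit 367)) (lo110_10_0 (nat_lit 330)))))) (M (nat_lit 334) (B (lo113_13_6 (nat_lit 302)) (M (nat_lit 335) (B (lo116_10_1 (nat_lit 336)) (lo115_10_1 (nat_lit 363)))))))))))) (M (nat_lit 395) (B (M (nat_lit 394) (B (lo19_12_0 (nat_lit 393)) (M (nat_lit 365) (B (lo110_12_2 (nat_lit 366)) (M (nat_lit 333) (B (lo113_9_5 (nat_lit 301)) (lo113_13_7 (nat_lit 300)))))))) (B (M (nat_lit 394) (B (lo19_12_0 (nat_lit 393)) (M (nat_lit 398) (B (M (nat_lit 399) (B (lo116_12_1 (nat_lit 400)) (lo115_12_1 (nat_lit 427)))) (M (nat_lit 362) (B (lo114_12_3 (nat_lit 363)) (lo113_12_3 (nat_lit 361)))))))) (M (nat_lit 398) (B (M (nat_lit 399) (B (lo116_12_1 (nat_lit 400)) (lo115_12_1 (nat_lit 427)))) (B (M (nat_lit 427) (B (lo115_12_1 (nat_lit 399)) (lo110_13_2 (nat_lit 426)))) (B (M (nat_lit 427) (B (lo110_13_2 (nat_lit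 426)) (M (nat_lit 363) (B (lo114_12_3 (nat_lit 362)) (M (nat_lit 331) (B (lo111_13_6 (nat_lit 300)) (lo111_9_4 (nat_lit 299)))))))) (M (nat_lit 399) (B (lo116_12_1 (nat_lit 400)) (M (nat_lit 367) (B (lo112_12_2 (nat_lit 368)) (lo111_12_2 (nat_lit 366))))))))))))))))) (B (K _ _ _ o1_s50505) (M (nat_lit 365) (B (K _ _ _ o1_s50604) (B (K _ _ _ o1_s50621) (B (M (nat_lit 461) (B (M (nat_lit 364) (B (lo113_14_7 (nat_lit 332)) (lo113_15_7 (nat_lit 493)))) (B (M (nat_lit 333) (B (M (nat_lit 334) (B (lo113_13_6 (nat_lit 302)) (lo113_14_6 (nat_lit 366)))) (M (nat_lit 332) (B (lo113_13_7 (nat_lit 300)) (lo113_14_7 (nat_lit 364)))))) (B (M (nat_lit 493) (B (lo113_15_7 (nat_lit 364)) (lo113_16_7 (nat_lit 525)))) (M (nat_lit 493) (B (lo113_16_7 (nat_lit 525)) (M (nat_lit 494) (B (lo113_11_4 (nat_lit 462)) (lo113_12_4 (nat_lit 526)))))))))) (B (K _ _ _ o1_s50631) (B (M (nat_lit 364) (B (M (nat_lit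 332) (B (lo112_9_4 (nat_lit 300)) (M (nat_lit 427) (B (lo112_10_5 (nat_lit 459)) (M (nat_lit 426) (B (lo110_13_2 (nat_lit 398)) (lo19_13_2 (nat_lit 425)))))))) (B (M (nat_lit 332) (B (lo112_9_4 (nat_lit 300)) (M (nat_lit 333) (B (lo113_9_5 (nat_lit 301)) (M (nat_lit 334) (B (lo113_13_6 (nat_lit 302)) (M (nat_lit 335) (B (lo116_10_1 (nat_lit 336)) (lo115_10_1 (nat_lit 363)))))))))) (K _ _ _ o1_s50586)))) (B (M (nat_lit 333) (B (lo113_9_5 (nat_lit 301)) (M (nat_lit 461) (B (M (nat_lit 334) (B (lo113_13_6 (nat_lit 302)) (lo113_14_6 (nat_lit 366)))) (M (nat_lit 493) (B (lo113_15_7 (nat_lit 364)) (lo113_16_7 (nat_lit 525)))))))) (K _ _ _ o1_s50412))))))))))))))))))) (B (M (nat_lit 461) (B (M (nat_lit 493) (B (lo113_16_7 (nat_lit 525)) (M (nat_lit 364) (B (lo113_15_7 (nat_lit 397)) (lo112_10_4 (nat_lit 332)))))) (B (M (nat_lit 493) (B (lo113_16_7 (nat_lit 525)) (M (nat_lit 364) (B (lo112_10_4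 (nat_lit 332)) (lo112_11_4 (nat_lit 460)))))) (B (M (nat_lit 460) (B (M (nat_lit 492) (B (M (nat_lit 397) (B (lo113_11_5 (nat_lit 365)) (lo112_16_6 (nat_lit 524)))) (B (M (nat_lit 524) (B (lo112_16_6 (nat_lit 397)) (lo112_17_6 (nat_lit 556)))) (B (M (nat_lit 395) (B (lo112_15_7 (nat_lit 363)) (M (nat_lit 524) (B (lo112_17_6 (nat_lit 556)) (lo112_16_7 (nat_lit 427)))))) (M (nat_lit 365) (B (lo113_11_5 (nat_lit 397)) (M (nat_lit 364) (B (lo112_14_6 (nat_lit 333)) (lo112_10_4 (nat_lit 332)))))))))) (B (M (nat_lit 426) (B (M (nat_lit 427) (B (lo110_13_0 (nat_lit 462)) (lo19_13_0 (nat_lit 425)))) (B (M (nat_lit 397) (B (M (nat_lit 427) (B (lo110_13_2 (nat_lit 398)) (lo19_13_2 (nat_lit 425)))) (M (nat_lit 492) (B (lo113_11_5 (nat_lit 365)) (lo112_16_6 (nat_lit 524)))))) (B (M (nat_lit 459) (B (M (nat_lit 458) (B (lo19_14_2 (nat_lit 457)) (lo113_14_3 (nat_lit 425)))) (M (nat_lit 364) (B (lo112_10_4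 (nat_lit 332)) (lo112_11_5 (nat_lit 491)))))) (M (nat_lit 397) (B (M (nat_lit 427) (B (lo110_13_2 (nat_lit 398)) (lo110_13_0 (nat_lit 462)))) (M (nat_lit 492) (B (lo113_11_5 (nat_lit 365)) (lo112_16_6 (nat_lit 524)))))))))) (B (M (nat_lit 492) (B (M (nat_lit 524) (B (lo112_16_6 (nat_lit 397)) (lo112_17_6 (nat_lit 556)))) (B (M (nat_lit 395) (B (lo112_15_7 (nat_lit 363)) (M (nat_lit 524) (B (lo112_17_6 (nat_lit 556)) (lo112_16_7 (nat_lit 427)))))) (M (nat_lit 426) (B (M (nat_lit 427) (B (lo110_13_0 (nat_lit 462)) (lo19_13_0 (nat_lit 425)))) (B (M (nat_lit 459) (B (M (nat_lit 458) (B (lo19_14_2 (nat_lit 457)) (lo113_14_3 (nat_lit 425)))) (M (nat_lit 364) (B (lo112_10_4 (nat_lit 332)) (lo112_11_5 (nat_lit 491)))))) (M (nat_lit 462) (B (lo110_13_0 (nat_lit 427)) (M (nat_lit 463) (B (lo116_14_3 (nat_lit 464)) (lo115_14_1 (nat_lit 491)))))))))))) (B (K _ _ _ o1_s58751) (B (K _ _ _ o1_s58768)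 (B (M (nat_lit 364) (B (lo112_10_4 (nat_lit 332)) (K _ _ _ o1_s58801))) (M (nat_lit 364) (B (lo112_10_4 (nat_lit 332)) (M (nat_lit 462) (B (M (nat_lit 365) (B (lo112_14_6 (nat_lit 333)) (M (nat_lit 397) (B (lo113_11_4 (nat_lit 494)) (lo113_11_5 (nat_lit 492)))))) (B (M (nat_lit 463) (B (lo116_14_3 (nat_lit 464)) (M (nat_lit 491) (B (lo115_14_1 (nat_lit 492)) (lo112_11_5 (nat_lit 459)))))) (M (nat_lit 494) (B (M (nat_lit 459) (B (lo111_14_0 (nat_lit 495)) (lo112_11_5 (nat_lit 491)))) (M (nat_lit 365) (B (lo113_11_4 (nat_lit 397)) (lo112_14_6 (nat_lit 333)))))))))))))))))) (B (M (nat_lit 493) (B (lo113_16_7 (nat_lit 525)) (M (nat_lit 364) (B (lo113_15_7 (nat_lit 397)) (lo112_11_4 (nat_lit 460)))))) (K _ _ _ o1_s58784)))))) (B (M (nat_lit 461) (B (M (nat_lit 493) (B (lo113_16_7 (nat_lit 525)) (M (nat_lit 364) (B (lo113_15_7 (nat_lit 397)) (lo112_11_4 (nat_lit 460)))))) (B (M (nat_lit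 493) (B (lo113_16_7 (nat_lit 525)) (M (nat_lit 364) (B (lo112_10_4 (nat_lit 332)) (lo112_11_4 (nat_lit 460)))))) (B (M (nat_lit 364) (B (lo112_10_4 (nat_lit 332)) (M (nat_lit 460) (B (M (nat_lit 365) (B (lo112_14_6 (nat_lit 333)) (M (nat_lit 397) (B (lo113_11_5 (nat_lit 492)) (M (nat_lit 366) (B (lo113_14_6 (nat_lit 334)) (M (nat_lit 367) (B (lo116_11_1 (nat_lit 368)) (lo115_11_1 (nat_lit 395)))))))))) (B (K _ _ _ o1_s59416) (K _ _ _ o1_s58906)))))) (B (K _ _ _ o1_s58784) (M (nat_lit 493) (B (lo113_16_7 (nat_lit 525)) (M (nat_lit 364) (B (lo113_15_7 (nat_lit 397)) (lo112_10_4 (nat_lit 332))))))))))) (B (M (nat_lit 461) (B (M (nat_lit 493) (B (lo113_16_7 (nat_lit 525)) (M (nat_lit 364) (B (lo113_15_7 (nat_lit 397)) (lo112_10_4 (nat_lit 332)))))) (B (M (nat_lit 493) (B (lo113_16_7 (nat_lit 525)) (M (nat_lit 364) (B (lo112_10_4 (nat_lit 332)) (lo112_11_4 (nat_lit 460)))))) (B (M (nat_lit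 364) (B (lo112_10_4 (nat_lit 332)) (M (nat_lit 460) (B (M (nat_lit 365) (B (lo112_14_6 (nat_lit 333)) (M (nat_lit 462) (B (M (nat_lit 463) (B (lo116_14_3 (nat_lit 464)) (lo115_14_3 (nat_lit 427)))) (M (nat_lit 397) (B (lo113_11_4 (nat_lit 494)) (lo113_11_5 (nat_lit 492)))))))) (B (K _ _ _ o1_s59416) (B (M (nat_lit 426) (B (M (nat_lit 427) (B (lo110_13_0 (nat_lit 462)) (lo19_13_0 (nat_lit 425)))) (B (M (nat_lit 459) (B (lo112_11_5 (nat_lit 491)) (M (nat_lit 458) (B (lo19_14_2 (nat_lit 457)) (lo113_14_3 (nat_lit 425)))))) (M (nat_lit 397) (B (M (nat_lit 427) (B (lo110_13_2 (nat_lit 398)) (lo110_13_0 (nat_lit 462)))) (M (nat_lit 365) (B (lo113_10_5 (nat_lit 333)) (lo113_11_5 (nat_lit 492))))))))) (B (M (nat_lit 365) (B (lo112_14_6 (nat_lit 333)) (M (nat_lit 397) (B (lo113_11_5 (nat_lit 492)) (M (nat_lit 363) (B (lo112_14_7 (nat_lit 331)) (M (nat_lit 398) (B (lo115_12_3 (nat_lit 399))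 (lo110_11_0 (nat_lit 362)))))))))) (K _ _ _ o1_s58906)))))))) (B (M (nat_lit 493) (B (lo113_16_7 (nat_lit 525)) (M (nat_lit 364) (B (lo113_15_7 (nat_lit 397)) (lo112_11_4 (nat_lit 460)))))) (K _ _ _ o1_s58784)))))) (M (nat_lit 364) (B (M (nat_lit 461) (B (lo112_10_4 (nat_lit 332)) (M (nat_lit 493) (B (lo113_15_7 (nat_lit 397)) (lo113_16_7 (nat_lit 525)))))) (B (M (nat_lit 461) (B (lo112_10_4 (nat_lit 332)) (M (nat_lit 493) (B (lo113_16_7 (nat_lit 525)) (lo112_11_4 (nat_lit 460)))))) (B (K _ _ _ o1_s49514) (K _ _ _ o1_s58814)))))))))))))))))))))) _ _ _ (by decide +kernel)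
theorem o1_s59688 : Sem (nat_lit 2079502270590611144683810638107312777577327806531862431377859685460965980854219217279980804578104683573043408221052678871730618368) (nat_lit 2026130649693226637505589636554940205327270420974888228521762809257823832243428147141361341468077765429162804827853671228091053216067676819101609280225611510833521371627646877696) (nat_lit 2026130649693226637505589636554940205327270420974888228521762809257823832243428147141361341468077765429162804827853671228091053216067676819101609280225611510833521371627646877696) := sem_of_chk (M (nat_lit 364) (B (M (nat_lit 365) (B (K _ _ _ o1_s34524) (B (K _ _ _ o1_s34649) (B (M (nat_lit 396) (B (K _ _ _ o1_s34640) (B (K _ _ _ o1_s34676) (M (nat_lit 333) (B (M (nat_lit 301) (B (lo113_9_5 (nat_lit 397)) (lo113_8_5 (nat_lit 269)))) (lo112_14_6 (nat_lit 460))))))) (B (K _ _ _ o1_s44145) (B (K _ _ _ o1_s34735) (K _ _ _ o1_s28962)))))))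 (B (M (nat_lit 365) (B (M (nat_lit 363) (B (M (nat_lit 366) (B (M (nat_lit 367) (B (M (nat_lit 331) (B (lo114_11_3 (nat_lit 330)) (lo115_11_3 (nat_lit 332)))) (M (nat_lit 399) (B (lo111_11_0 (nat_lit 398)) (lo112_11_0 (nat_lit 400)))))) (B (M (nat_lit 367) (B (M (nat_lit 399) (B (lo111_11_0 (nat_lit 398)) (lo112_11_0 (nat_lit 400)))) (M (nat_lit 335) (B (lo111_11_2 (nat_lit 334)) (lo112_11_2 (nat_lit 336)))))) (B (M (nat_lit 367) (B (M (nat_lit 331) (B (lo114_11_3 (nat_lit 330)) (lo115_11_3 (nat_lit 332)))) (M (nat_lit 335) (B (lo111_11_2 (nat_lit 334)) (lo112_11_2 (nat_lit 336)))))) (M (nat_lit 395) (B (lo114_11_1 (nat_lit 394)) (M (nat_lit 331) (B (lo114_11_3 (nat_lit 330)) (M (nat_lit 299) (B (M (nat_lit 268) (B (lo111_12_6 (nat_lit 300)) (M (nat_lit 267) (B (lo111_11_6 (nat_lit 236)) (M (nat_lit 266) (B (lo111_12_7 (nat_lit 298)) (lo111_11_7 (nat_lit 234)))))))) (B (M (nat_lit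 427) (B (M (nat_lit 332) (B (lo111_14_6 (nat_lit 459)) (lo111_13_6 (nat_lit 300)))) (B (M (nat_lit 300) (B (lo111_13_6 (nat_lit 332)) (lo111_12_6 (nat_lit 268)))) (M (nat_lit 459) (B (M (nat_lit 458) (B (lo111_11_5 (nat_lit 490)) (lo111_10_5 (nat_lit 426)))) (M (nat_lit 460) (B (lo111_11_4 (nat_lit 492)) (lo111_10_4 (nat_lit 428))))))))) (B (M (nat_lit 267) (B (M (nat_lit 266) (B (lo111_12_7 (nat_lit 298)) (lo111_11_7 (nat_lit 234)))) (M (nat_lit 235) (B (lo111_7_4 (nat_lit 332)) (M (nat_lit 236) (B (lo111_11_6 (nat_lit 268)) (lo111_10_6 (nat_lit 204)))))))) (M (nat_lit 266) (B (lo111_12_7 (nat_lit 298)) (M (nat_lit 332) (B (M (nat_lit 427) (B (lo111_14_6 (nat_lit 459)) (lo111_13_6 (nat_lit 300)))) (M (nat_lit 267) (B (lo111_11_7 (nat_lit 234)) (lo111_7_4 (nat_lit 235)))))))))))))))))))) (B (M (nat_lit 362) (B (M (nat_lit 333) (B (lo110_11_2 (nat_lit 334)) (M (nat_lit 329) (B (lo113_11_3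 (nat_lit 330)) (M (nat_lit 361) (B (lo112_11_3 (nat_lit 328)) (lo19_11_2 (nat_lit 332)))))))) (B (M (nat_lit 361) (B (M (nat_lit 393) (B (lo112_11_1 (nat_lit 392)) (lo113_11_1 (nat_lit 394)))) (M (nat_lit 333) (B (lo19_11_2 (nat_lit 332)) (lo110_11_2 (nat_lit 334)))))) (K _ _ _ o1_s59499)))) (B (K _ _ _ o1_s36143) (B (K _ _ _ o1_s53888) (B (K _ _ _ o1_s36149) (B (K _ _ _ o1_s36160) (K _ _ _ o1_s36161)))))))) (B (K _ _ _ o1_s44219) (B (M (nat_lit 363) (B (M (nat_lit 366) (B (M (nat_lit 362) (B (M (nat_lit 334) (B (lo110_11_2 (nat_lit 333)) (lo111_11_2 (nat_lit 335)))) (M (nat_lit 398) (B (lo110_11_0 (nat_lit 397)) (lo111_11_0 (nat_lit 399)))))) (B (M (nat_lit 367) (B (M (nat_lit 331) (B (lo114_11_3 (nat_lit 330)) (lo115_11_3 (nat_lit 332)))) (M (nat_lit 335) (B (lo111_11_2 (nat_lit 334)) (lo112_11_2 (nat_lit 336)))))) (M (nat_lit 362) (B (M (nat_lit 394) (B (lo113_11_1 (nat_lit 393))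 (lo114_11_1 (nat_lit 395)))) (M (nat_lit 398) (B (lo110_11_0 (nat_lit 397)) (lo111_11_0 (nat_lit 399))))))))) (B (M (nat_lit 366) (B (M (nat_lit 362) (B (M (nat_lit 334) (B (lo110_11_2 (nat_lit 333)) (lo111_11_2 (nat_lit 335)))) (M (nat_lit 398) (B (lo110_11_0 (nat_lit 397)) (lo111_11_0 (nat_lit 399)))))) (B (M (nat_lit 367) (B (M (nat_lit 331) (B (lo114_11_3 (nat_lit 330)) (lo115_11_3 (nat_lit 332)))) (M (nat_lit 399) (B (lo111_11_0 (nat_lit 398)) (lo112_11_0 (nat_lit 400)))))) (M (nat_lit 362) (B (M (nat_lit 330) (B (lo113_11_3 (nat_lit 329)) (lo114_11_3 (nat_lit 331)))) (M (nat_lit 334) (B (lo110_11_2 (nat_lit 333)) (lo111_11_2 (nat_lit 335))))))))) (B (M (nat_lit 366) (B (M (nat_lit 362) (B (M (nat_lit 394) (B (lo113_11_1 (nat_lit 393)) (lo114_11_1 (nat_lit 395)))) (M (nat_lit 334) (B (lo110_11_2 (nat_lit 333)) (lo111_11_2 (nat_lit 335)))))) (B (M (nat_lit 362) (B (M (nat_lit 334)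 (B (lo110_11_2 (nat_lit 333)) (lo111_11_2 (nat_lit 335)))) (M (nat_lit 398) (B (lo110_11_0 (nat_lit 397)) (lo111_11_0 (nat_lit 399)))))) (B (M (nat_lit 367) (B (M (nat_lit 335) (B (lo111_11_2 (nat_lit 334)) (lo112_11_2 (nat_lit 336)))) (M (nat_lit 399) (B (lo111_11_0 (nat_lit 398)) (lo112_11_0 (nat_lit 400)))))) (M (nat_lit 362) (B (M (nat_lit 394) (B (lo113_11_1 (nat_lit 393)) (lo114_11_1 (nat_lit 395)))) (M (nat_lit 398) (B (lo110_11_0 (nat_lit 397)) (lo111_11_0 (nat_lit 399)))))))))) (B (M (nat_lit 366) (B (M (nat_lit 367) (B (M (nat_lit 331) (B (lo114_11_3 (nat_lit 330)) (lo115_11_3 (nat_lit 332)))) (M (nat_lit 335) (B (lo111_11_2 (nat_lit 334)) (lo112_11_2 (nat_lit 336)))))) (B (M (nat_lit 367) (B (M (nat_lit 335) (B (lo111_11_2 (nat_lit 334)) (lo112_11_2 (nat_lit 336)))) (M (nat_lit 399) (B (lo111_11_0 (nat_lit 398)) (lo112_11_0 (nat_lit 400)))))) (B (M (nat_lit 367) (B (M (nat_lit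 331) (B (lo114_11_3 (nat_lit 330)) (lo115_11_3 (nat_lit 332)))) (M (nat_lit 399) (B (lo111_11_0 (nat_lit 398)) (lo112_11_0 (nat_lit 400)))))) (M (nat_lit 334) (B (lo111_11_2 (nat_lit 335)) (M (nat_lit 331) (B (lo114_11_3 (nat_lit 330)) (M (nat_lit 332) (B (M (nat_lit 395) (B (lo114_11_1 (nat_lit 394)) (M (nat_lit 427) (B (lo111_13_6 (nat_lit 300)) (lo111_14_6 (nat_lit 459)))))) (M (nat_lit 302) (B (M (nat_lit 397) (B (lo114_8_5 (nat_lit 270)) (lo113_14_7 (nat_lit 461)))) (B (M (nat_lit 398) (B (lo111_11_0 (nat_lit 399)) (M (nat_lit 303) (B (lo111_10_2 (nat_lit 333)) (lo114_12_6 (nat_lit 271)))))) (M (nat_lit 397) (B (lo114_8_5 (nat_lit 270)) (M (nat_lit 333) (B (lo111_10_2 (nat_lit 303)) (lo113_13_6 (nat_lit 429))))))))))))))))))) (B (K _ _ _ o1_s30570) (B (M (nat_lit 366) (B (M (nat_lit 362) (B (M (nat_lit 394) (B (lo113_11_1 (nat_lit 393)) (lo114_11_1 (nat_lit 395)))) (M (nat_lit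 334) (B (lo110_11_2 (nat_lit 333)) (lo111_11_2 (nat_lit 335)))))) (B (M (nat_lit 362) (B (M (nat_lit 330) (B (lo113_11_3 (nat_lit 329)) (lo114_11_3 (nat_lit 331)))) (M (nat_lit 334) (B (lo110_11_2 (nat_lit 333)) (lo111_11_2 (nat_lit 335)))))) (M (nat_lit 367) (B (M (nat_lit 331) (B (lo114_11_3 (nat_lit 330)) (lo115_11_3 (nat_lit 332)))) (M (nat_lit 399) (B (lo111_11_0 (nat_lit 398)) (lo112_11_0 (nat_lit 400))))))))) (M (nat_lit 362) (B (M (nat_lit 361) (B (M (nat_lit 329) (B (lo112_11_3 (nat_lit 328)) (lo113_11_3 (nat_lit 330)))) (M (nat_lit 333) (B (lo19_11_2 (nat_lit 332)) (lo110_11_2 (nat_lit 334)))))) (B (M (nat_lit 393) (B (lo113_11_1 (nat_lit 394)) (M (nat_lit 361) (B (lo112_11_1 (nat_lit 392)) (M (nat_lit 333) (B (lo19_11_2 (nat_lit 332)) (lo110_11_2 (nat_lit 334)))))))) (K _ _ _ o1_s59499))))))))))) (B (K _ _ _ o1_s34735) (K _ _ _ o1_s36360)))))) (B (M (nat_lit 396) (B (M (nat_lit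 460) (B (M (nat_lit 461) (B (M (nat_lit 462) (B (M (nat_lit 459) (B (M (nat_lit 363) (B (M (nat_lit 395) (B (M (nat_lit 362) (B (M (nat_lit 458) (B (M (nat_lit 394) (B (M (nat_lit 490) (B (lo110_15_6 (nat_lit 426)) (lo113_14_1 (nat_lit 489)))) (lo19_12_0 (nat_lit 393)))) (lo19_14_2 (nat_lit 457)))) (M (nat_lit 397) (B (lo114_12_3 (nat_lit 398)) (lo19_11_0 (nat_lit 361)))))) (B (M (nat_lit 427) (B (M (nat_lit 458) (B (lo111_11_5 (nat_lit 490)) (M (nat_lit 457) (B (lo18_14_2 (nat_lit 456)) (lo19_14_2 (nat_lit 429)))))) (M (nat_lit 362) (B (lo111_14_7 (nat_lit 330)) (M (nat_lit 361) (B (lo18_11_0 (nat_lit 360)) (lo19_11_0 (nat_lit 397)))))))) (B (M (nat_lit 362) (B (M (nat_lit 427) (B (lo110_13_0 (nat_lit 426)) (lo111_14_7 (nat_lit 330)))) (M (nat_lit 397) (B (lo114_12_3 (nat_lit 398)) (lo19_11_0 (nat_lit 361)))))) (M (nat_lit 458) (B (lo19_14_2 (nat_lit 457)) (M (nat_lit 490) (B (lo111_11_5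 (nat_lit 427)) (M (nat_lit 394) (B (lo19_12_0 (nat_lit 393)) (lo110_15_6 (nat_lit 426)))))))))))) (lo112_14_7 (nat_lit 331)))) (lo112_11_5 (nat_lit 491)))) (B (M (nat_lit 495) (B (M (nat_lit 459) (B (lo112_11_5 (nat_lit 491)) (lo111_14_0 (nat_lit 494)))) (M (nat_lit 463) (B (lo112_14_0 (nat_lit 496)) (lo116_14_3 (nat_lit 464)))))) (M (nat_lit 427) (B (lo110_13_0 (nat_lit 426)) (lo115_14_3 (nat_lit 463))))))) (lo112_11_4 (nat_lit 493)))) (B (K _ _ _ o1_s59580) (B (K _ _ _ o1_s36400) (M (nat_lit 492) (B (M (nat_lit 491) (B (lo112_11_5 (nat_lit 459)) (lo112_12_5 (nat_lit 523)))) (M (nat_lit 493) (B (lo112_11_4 (nat_lit 461)) (lo112_12_4 (nat_lit 525)))))))))) (B (K _ _ _ o1_s59612) (B (K _ _ _ o1_s47911) (M (nat_lit 461) (B (M (nat_lit 493) (B (lo113_16_7 (nat_lit 525)) (lo112_11_4 (nat_lit 460)))) (lo112_10_4 (nat_lit 332)))))))) (B (M (nat_lit 396) (B (M (nat_lit 363) (B (M (nat_lit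 331) (B (lo112_14_7 (nat_lit 460)) (M (nat_lit 299) (B (lo111_8_4 (nat_lit 267)) (lo111_9_4 (nat_lit 395)))))) (B (M (nat_lit 362) (B (M (nat_lit 361) (B (lo19_11_0 (nat_lit 397)) (M (nat_lit 360) (B (lo18_11_0 (nat_lit 395)) (M (nat_lit 328) (B (lo112_11_3 (nat_lit 329)) (lo111_11_3 (nat_lit 327)))))))) (B (K _ _ _ o1_s57755) (B (M (nat_lit 361) (B (lo19_11_0 (nat_lit 397)) (M (nat_lit 365) (B (M (nat_lit 329) (B (lo113_11_3 (nat_lit 330)) (lo112_11_3 (nat_lit 328)))) (M (nat_lit 393) (B (lo113_11_1 (nat_lit 394)) (lo112_11_1 (nat_lit 392)))))))) (B (M (nat_lit 361) (B (lo19_11_0 (nat_lit 397)) (M (nat_lit 360) (B (lo18_11_0 (nat_lit 395)) (M (nat_lit 392) (B (lo112_11_1 (nat_lit 393)) (lo111_11_1 (nat_lit 391)))))))) (K _ _ _ o1_s57762)))))) (B (M (nat_lit 365) (B (M (nat_lit 333) (B (lo112_14_6 (nat_lit 460)) (M (nat_lit 301) (B (lo113_8_5 (nat_lit 269)) (lo113_9_5 (nat_lit 397))))))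 (B (M (nat_lit 460) (B (lo112_14_6 (nat_lit 333)) (M (nat_lit 492) (B (lo112_15_6 (nat_lit 397)) (lo112_15_7 (nat_lit 395)))))) (B (M (nat_lit 395) (B (M (nat_lit 394) (B (lo114_11_1 (nat_lit 366)) (lo19_12_2 (nat_lit 393)))) (M (nat_lit 362) (B (M (nat_lit 361) (B (lo19_11_0 (nat_lit 397)) (lo18_11_0 (nat_lit 360)))) (K _ _ _ o1_s57774))))) (B (M (nat_lit 395) (B (M (nat_lit 394) (B (lo114_11_1 (nat_lit 366)) (lo19_12_2 (nat_lit 393)))) (M (nat_lit 460) (B (lo112_14_6 (nat_lit 333)) (lo112_15_7 (nat_lit 492)))))) (M (nat_lit 395) (B (M (nat_lit 394) (B (lo114_11_1 (nat_lit 366)) (lo19_12_2 (nat_lit 393)))) (M (nat_lit 362) (B (M (nat_lit 361) (B (lo19_11_0 (nat_lit 397)) (lo18_11_0 (nat_lit 360)))) (B (M (nat_lit 329) (B (lo113_11_3 (nat_lit 330)) (M (nat_lit 361) (B (lo112_11_3 (nat_lit 328)) (lo18_11_0 (nat_lit 360)))))) (M (nat_lit 333) (B (lo110_11_2 (nat_lit 334)) (M (nat_lit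 301) (B (lo113_8_5 (nat_lit 269)) (lo113_9_5 (nat_lit 397)))))))))))))))) (M (nat_lit 365) (B (M (nat_lit 460) (B (lo112_14_6 (nat_lit 333)) (lo112_14_7 (nat_lit 331)))) (B (M (nat_lit 331) (B (lo112_14_7 (nat_lit 460)) (M (nat_lit 330) (B (lo114_11_3 (nat_lit 366)) (M (nat_lit 329) (B (lo113_11_3 (nat_lit 362)) (lo18_10_0 (nat_lit 328)))))))) (M (nat_lit 362) (B (M (nat_lit 361) (B (lo19_11_0 (nat_lit 397)) (M (nat_lit 329) (B (lo113_11_3 (nat_lit 330)) (lo112_11_3 (nat_lit 328)))))) (B (M (nat_lit 361) (B (M (nat_lit 329) (B (lo113_11_3 (nat_lit 330)) (lo112_11_3 (nat_lit 328)))) (M (nat_lit 393) (B (lo113_11_1 (nat_lit 394)) (lo112_11_1 (nat_lit 392)))))) (B (M (nat_lit 361) (B (lo19_11_0 (nat_lit 397)) (M (nat_lit 393) (B (lo113_11_1 (nat_lit 394)) (lo112_11_1 (nat_lit 392)))))) (M (nat_lit 333) (B (lo110_11_2 (nat_lit 334)) (M (nat_lit 301) (B (lo113_8_5 (nat_lit 269)) (lo113_9_5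 (nat_lit 397))))))))))))))))) (B (K _ _ _ o1_s59651) (B (K _ _ _ o1_s59672) (B (K _ _ _ o1_s59612) (B (M (nat_lit 460) (B (M (nat_lit 332) (B (M (nat_lit 333) (B (lo112_13_6 (nat_lit 301)) (lo112_14_6 (nat_lit 365)))) (M (nat_lit 459) (B (lo112_10_5 (nat_lit 427)) (lo112_11_5 (nat_lit 491)))))) (B (M (nat_lit 492) (B (M (nat_lit 363) (B (lo112_14_7 (nat_lit 331)) (lo112_15_7 (nat_lit 395)))) (M (nat_lit 491) (B (lo112_11_5 (nat_lit 459)) (lo112_12_5 (nat_lit 523)))))) (B (M (nat_lit 492) (B (M (nat_lit 363) (B (lo112_14_7 (nat_lit 331)) (lo112_15_7 (nat_lit 395)))) (M (nat_lit 524) (B (M (nat_lit 523) (B (lo112_12_5 (nat_lit 491)) (lo112_13_5 (nat_lit 555)))) (M (nat_lit 525) (B (lo112_12_4 (nat_lit 493)) (lo112_13_4 (nat_lit 557)))))))) (M (nat_lit 332) (B (M (nat_lit 333) (B (lo112_13_6 (nat_lit 301)) (lo112_14_6 (nat_lit 365)))) (M (nat_lit 395) (B (M (nat_lit 427) (B (lo112_9_5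 (nat_lit 300)) (lo112_10_5 (nat_lit 459)))) (M (nat_lit 363) (B (lo112_14_7 (nat_lit 331)) (lo112_15_7 (nat_lit 492)))))))))))) (B (K _ _ _ o1_s57801) (K _ _ _ o1_s35953)))))))) (B (M (nat_lit 396) (B (K _ _ _ o1_s36534) (B (K _ _ _ o1_s59672) (B (K _ _ _ o1_s47911) (M (nat_lit 461) (B (M (nat_lit 493) (B (lo113_16_7 (nat_lit 525)) (lo112_11_4 (nat_lit 460)))) (lo112_10_4 (nat_lit 332)))))))) (B (M (nat_lit 396) (B (K _ _ _ o1_s36534) (B (K _ _ _ o1_s59651) (M (nat_lit 461) (B (M (nat_lit 493) (B (lo113_16_7 (nat_lit 525)) (lo112_11_4 (nat_lit 460)))) (lo112_10_4 (nat_lit 332))))))) (B (K _ _ _ o1_s30789) (B (K _ _ _ o1_s29076) (B (K _ _ _ o1_s29030) (B (M (nat_lit 365) (B (K _ _ _ o1_s54453) (B (K _ _ _ o1_s28853) (B (K _ _ _ o1_s28876) (B (K _ _ _ o1_s28901) (B (M (nat_lit 332) (B (M (nat_lit 461) (B (lo112_10_4 (nat_lit 396)) (lo113_14_7 (nat_lit 397)))) (B (M (nat_lit 397) (B (lo113_14_7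 (nat_lit 461)) (M (nat_lit 300) (B (lo112_8_4 (nat_lit 268)) (lo113_13_7 (nat_lit 333)))))) (B (M (nat_lit 396) (B (lo112_10_4 (nat_lit 461)) (M (nat_lit 300) (B (M (nat_lit 299) (B (lo112_12_7 (nat_lit 267)) (lo112_13_7 (nat_lit 331)))) (M (nat_lit 301) (B (lo112_12_6 (nat_lit 269)) (lo112_13_6 (nat_lit 333)))))))) (K _ _ _ o1_s28923))))) (B (K _ _ _ o1_s28935) (B (K _ _ _ o1_s54525) (K _ _ _ o1_s28953))))))))) (B (K _ _ _ o1_s29032) (K _ _ _ o1_s29145))))))))))))) _ _ _ (by decide +kernel)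
theorem o1_s59753 : Sem (nat_lit 2079502270590611144683810638107312777577327806531862431377859685460965980854219217279980804578104683573043408221052678871730618368) (nat_lit 2532663318514578956158299356031929335042221867485493514360448309899265169833906462687180347477538213888970387869555206247012319738305272023656229378637617916717650356973646905344) (nat_lit 2532663318514578956158299356031929335042221867485493514360448309899265169833906462687180347477538213888970387869555206247012319738305272023656229378637617916717650356973646905344) := sem_of_chk (M (nat_lit 460) (B (M (nat_lit 492) (B (M (nat_lit 396) (B (M (nat_lit 397) (B (M (nat_lit 398) (B (M (nat_lit 395) (B (M (nat_lit 491) (B (M (nat_lit 426) (B (M (nat_lit 394) (B (M (nat_lit 489) (B (M (nat_lit 490) (B (lo19_15_2 (nat_lit 461)) (M (nat_lit 488) (B (lo18_15_2 (nat_lit 459)) (M (nat_lit 456) (B (lo111_15_3 (nat_lit 455))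 (lo112_15_3 (nat_lit 457)))))))) (B (M (nat_lit 490) (B (M (nat_lit 521) (B (lo112_15_1 (nat_lit 520)) (lo110_12_5 (nat_lit 458)))) (lo19_15_2 (nat_lit 461)))) (M (nat_lit 362) (B (M (nat_lit 458) (B (lo110_11_4 (nat_lit 459)) (lo110_11_5 (nat_lit 457)))) (lo113_12_3 (nat_lit 361))))))) (lo113_12_1 (nat_lit 425)))) (lo114_12_1 (nat_lit 427)))) (lo112_12_5 (nat_lit 523)))) (lo112_15_7 (nat_lit 363)))) (B (M (nat_lit 399) (B (M (nat_lit 400) (B (lo116_12_1 (nat_lit 429)) (M (nat_lit 368) (B (lo112_12_2 (nat_lit 367)) (lo113_12_2 (nat_lit 369)))))) (B (M (nat_lit 400) (B (lo116_12_1 (nat_lit 429)) (M (nat_lit 432) (B (lo112_12_0 (nat_lit 431)) (lo113_12_0 (nat_lit 433)))))) (M (nat_lit 367) (B (lo112_12_2 (nat_lit 368)) (M (nat_lit 366) (B (lo111_12_2 (nat_lit 395)) (M (nat_lit 431) (B (lo112_12_0 (nat_lit 432)) (M (nat_lit 463) (B (lo115_14_7 (nat_lit 334)) (lo115_15_7 (nat_lit 495)))))))))))))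 (M (nat_lit 427) (B (lo110_13_2 (nat_lit 426)) (lo115_12_1 (nat_lit 399))))))) (lo112_15_6 (nat_lit 365)))) (B (M (nat_lit 364) (B (M (nat_lit 332) (B (lo112_10_4 (nat_lit 461)) (M (nat_lit 300) (B (lo112_9_4 (nat_lit 397)) (M (nat_lit 301) (B (lo112_13_6 (nat_lit 333)) (lo112_12_6 (nat_lit 269)))))))) (M (nat_lit 491) (B (lo112_12_5 (nat_lit 523)) (lo112_11_5 (nat_lit 459)))))) (B (M (nat_lit 364) (B (M (nat_lit 333) (B (lo112_14_6 (nat_lit 365)) (M (nat_lit 332) (B (lo112_13_6 (nat_lit 301)) (lo112_10_4 (nat_lit 461)))))) (M (nat_lit 363) (B (lo112_14_7 (nat_lit 331)) (lo112_15_7 (nat_lit 395)))))) (B (M (nat_lit 364) (B (M (nat_lit 332) (B (lo112_10_4 (nat_lit 461)) (M (nat_lit 333) (B (lo112_13_6 (nat_lit 301)) (lo112_14_6 (nat_lit 365)))))) (B (M (nat_lit 363) (B (lo112_14_7 (nat_lit 331)) (lo112_15_7 (nat_lit 395)))) (M (nat_lit 331) (B (lo112_14_7 (nat_lit 363)) (M (nat_lit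 332) (B (lo112_13_7 (nat_lit 299)) (lo112_10_4 (nat_lit 461))))))))) (M (nat_lit 364) (B (M (nat_lit 365) (B (lo112_14_6 (nat_lit 333)) (lo112_15_6 (nat_lit 397)))) (M (nat_lit 491) (B (lo112_12_5 (nat_lit 523)) (lo112_11_5 (nat_lit 459))))))))))) (B (K _ _ _ o1_s57036) (B (K _ _ _ o1_s57040) (M (nat_lit 397) (B (M (nat_lit 365) (B (lo113_10_5 (nat_lit 333)) (lo113_11_5 (nat_lit 461)))) (lo112_16_6 (nat_lit 524)))))))) (B (K _ _ _ o1_s57113) (B (K _ _ _ o1_s57220) (B (K _ _ _ o1_s49099) (B (K _ _ _ o1_s48784) (B (K _ _ _ o1_s57332) (B (K _ _ _ o1_s57366) (B (K _ _ _ o1_s57404) (B (K _ _ _ o1_s57412) (K _ _ _ o1_s57415))))))))))) _ _ _ (by decide +kernel)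
theorem o1_s59876 : Sem (nat_lit 2079502270590611144683810638107312777577327806531862431377859685460965980854219217279980804578104683573043408221052678871730618368) (nat_lit 2026130649693226623865236683011201919081673747818456778155194564412740294325282330506814762101050302611472022968422988162809094873556228228607462388173221299350627418668198264832) (nat_lit 2026130649693226623865236683011201919081673747818456778155194564412740294325282330506814762101050302611472022968422988162809094873556228228607462388173221299350627418668198264832) := sem_of_chk (M (nat_lit 396) (B (M (nat_lit 364) (B (M (nat_lit 460) (B (M (nat_lit 461) (B (M (nat_lit 462) (B (M (nat_lit 363) (B (M (nat_lit 459) (B (M (nat_lit 426) (B (M (nat_lit 458) (B (M (nat_lit 361) (B (M (nat_lit 362) (B (lo19_11_0 (nat_lit 397)) (M (nat_lit 360) (B (lo18_11_0 (nat_lit 395)) (M (nat_lit 392) (B (lo111_11_1 (nat_lit 391))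 (lo112_11_1 (nat_lit 393)))))))) (B (M (nat_lit 362) (B (M (nat_lit 329) (B (lo112_11_3 (nat_lit 328)) (lo110_14_7 (nat_lit 394)))) (lo19_11_0 (nat_lit 397)))) (M (nat_lit 490) (B (M (nat_lit 394) (B (lo110_15_6 (nat_lit 395)) (lo110_15_7 (nat_lit 393)))) (lo113_14_1 (nat_lit 489))))))) (lo113_14_3 (nat_lit 425)))) (lo110_13_0 (nat_lit 427)))) (lo112_11_5 (nat_lit 491)))) (lo112_14_7 (nat_lit 331)))) (B (M (nat_lit 495) (B (M (nat_lit 459) (B (lo112_11_5 (nat_lit 491)) (lo111_14_0 (nat_lit 494)))) (M (nat_lit 463) (B (lo112_14_0 (nat_lit 496)) (lo116_14_3 (nat_lit 464)))))) (M (nat_lit 427) (B (lo115_14_3 (nat_lit 463)) (lo110_13_0 (nat_lit 426))))))) (lo112_11_4 (nat_lit 493)))) (B (K _ _ _ o1_s59580) (B (M (nat_lit 492) (B (M (nat_lit 493) (B (lo112_11_4 (nat_lit 461)) (lo112_12_4 (nat_lit 525)))) (B (M (nat_lit 524) (B (M (nat_lit 525) (B (lo112_12_4 (nat_lit 493)) (lo112_13_4 (nat_lit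 557)))) (M (nat_lit 523) (B (lo112_12_5 (nat_lit 491)) (lo112_13_5 (nat_lit 555)))))) (B (K _ _ _ o1_s57932) (M (nat_lit 524) (B (M (nat_lit 461) (B (lo112_11_4 (nat_lit 493)) (lo112_17_6 (nat_lit 556)))) (M (nat_lit 523) (B (lo112_12_5 (nat_lit 491)) (lo112_13_5 (nat_lit 555)))))))))) (K _ _ _ o1_s36400))))) (B (K _ _ _ o1_s57537) (M (nat_lit 461) (B (M (nat_lit 493) (B (lo113_15_7 (nat_lit 397)) (lo113_16_7 (nat_lit 525)))) (lo112_10_4 (nat_lit 332))))))) (B (K _ _ _ o1_s57578) (B (M (nat_lit 364) (B (M (nat_lit 460) (B (M (nat_lit 492) (B (M (nat_lit 365) (B (lo112_14_6 (nat_lit 333)) (lo112_15_6 (nat_lit 397)))) (M (nat_lit 491) (B (lo112_11_5 (nat_lit 459)) (lo112_12_5 (nat_lit 523)))))) (B (M (nat_lit 332) (B (M (nat_lit 459) (B (lo112_10_5 (nat_lit 427)) (lo112_11_5 (nat_lit 491)))) (M (nat_lit 461) (B (lo112_10_4 (nat_lit 429)) (lo112_11_4 (nat_lit 493)))))) (M (nat_lit 332)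 (B (M (nat_lit 333) (B (lo112_13_6 (nat_lit 301)) (lo112_14_6 (nat_lit 365)))) (M (nat_lit 461) (B (lo112_10_4 (nat_lit 429)) (lo112_11_4 (nat_lit 493))))))))) (B (M (nat_lit 460) (B (M (nat_lit 492) (B (M (nat_lit 365) (B (lo112_14_6 (nat_lit 333)) (lo112_15_6 (nat_lit 397)))) (M (nat_lit 493) (B (lo112_11_4 (nat_lit 461)) (lo112_12_4 (nat_lit 525)))))) (M (nat_lit 332) (B (M (nat_lit 331) (B (lo112_13_7 (nat_lit 299)) (lo112_14_7 (nat_lit 363)))) (M (nat_lit 459) (B (lo112_10_5 (nat_lit 427)) (lo112_11_5 (nat_lit 491)))))))) (B (M (nat_lit 460) (B (M (nat_lit 492) (B (M (nat_lit 365) (B (lo112_14_6 (nat_lit 333)) (lo112_15_6 (nat_lit 397)))) (M (nat_lit 491) (B (lo112_11_5 (nat_lit 459)) (lo112_12_5 (nat_lit 523)))))) (B (M (nat_lit 492) (B (M (nat_lit 491) (B (lo112_11_5 (nat_lit 459)) (lo112_12_5 (nat_lit 523)))) (M (nat_lit 493) (B (lo112_11_4 (nat_lit 461)) (lo112_12_4 (nat_lit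 525)))))) (B (M (nat_lit 492) (B (M (nat_lit 365) (B (lo112_14_6 (nat_lit 333)) (lo112_15_6 (nat_lit 397)))) (M (nat_lit 493) (B (lo112_11_4 (nat_lit 461)) (lo112_12_4 (nat_lit 525)))))) (M (nat_lit 363) (B (lo112_14_7 (nat_lit 331)) (M (nat_lit 365) (B (lo112_14_6 (nat_lit 333)) (M (nat_lit 366) (B (M (nat_lit 399) (B (lo111_11_0 (nat_lit 398)) (M (nat_lit 367) (B (lo112_11_0 (nat_lit 400)) (M (nat_lit 335) (B (lo111_11_2 (nat_lit 334)) (lo112_11_2 (nat_lit 336)))))))) (B (M (nat_lit 362) (B (M (nat_lit 397) (B (lo19_11_0 (nat_lit 361)) (lo110_11_0 (nat_lit 398)))) (B (M (nat_lit 398) (B (lo110_11_0 (nat_lit 397)) (lo111_11_0 (nat_lit 399)))) (M (nat_lit 361) (B (M (nat_lit 329) (B (lo112_11_3 (nat_lit 328)) (lo113_11_3 (nat_lit 330)))) (M (nat_lit 393) (B (lo112_11_1 (nat_lit 392)) (lo113_11_1 (nat_lit 394))))))))) (B (M (nat_lit 367) (B (M (nat_lit 335) (B (lo111_11_2 (nat_lit 334))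 (lo112_11_2 (nat_lit 336)))) (M (nat_lit 368) (B (lo116_11_1 (nat_lit 397)) (M (nat_lit 400) (B (lo112_11_0 (nat_lit 399)) (lo113_11_0 (nat_lit 401)))))))) (M (nat_lit 335) (B (lo111_11_2 (nat_lit 334)) (M (nat_lit 397) (B (M (nat_lit 362) (B (lo19_11_0 (nat_lit 361)) (lo110_11_0 (nat_lit 398)))) (M (nat_lit 367) (B (lo112_11_2 (nat_lit 336)) (lo116_11_1 (nat_lit 368)))))))))))))))))))) (B (M (nat_lit 460) (B (M (nat_lit 332) (B (M (nat_lit 331) (B (lo112_13_7 (nat_lit 299)) (lo112_14_7 (nat_lit 363)))) (M (nat_lit 461) (B (lo112_10_4 (nat_lit 429)) (lo112_11_4 (nat_lit 493)))))) (B (M (nat_lit 332) (B (M (nat_lit 459) (B (lo112_10_5 (nat_lit 427)) (lo112_11_5 (nat_lit 491)))) (M (nat_lit 461) (B (lo112_10_4 (nat_lit 429)) (lo112_11_4 (nat_lit 493)))))) (B (M (nat_lit 492) (B (M (nat_lit 491) (B (lo112_11_5 (nat_lit 459)) (lo112_12_5 (nat_lit 523)))) (M (nat_lit 493) (B (lo112_11_4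 (nat_lit 461)) (lo112_12_4 (nat_lit 525)))))) (M (nat_lit 332) (B (M (nat_lit 331) (B (lo112_13_7 (nat_lit 299)) (lo112_14_7 (nat_lit 363)))) (M (nat_lit 459) (B (lo112_10_5 (nat_lit 427)) (lo112_11_5 (nat_lit 491)))))))))) (B (M (nat_lit 460) (B (M (nat_lit 332) (B (M (nat_lit 331) (B (lo112_13_7 (nat_lit 299)) (lo112_14_7 (nat_lit 363)))) (M (nat_lit 461) (B (lo112_10_4 (nat_lit 429)) (lo112_11_4 (nat_lit 493)))))) (B (M (nat_lit 332) (B (M (nat_lit 333) (B (lo112_13_6 (nat_lit 301)) (lo112_14_6 (nat_lit 365)))) (M (nat_lit 461) (B (lo112_10_4 (nat_lit 429)) (lo112_11_4 (nat_lit 493)))))) (B (M (nat_lit 492) (B (M (nat_lit 365) (B (lo112_14_6 (nat_lit 333)) (lo112_15_6 (nat_lit 397)))) (M (nat_lit 493) (B (lo112_11_4 (nat_lit 461)) (lo112_12_4 (nat_lit 525)))))) (M (nat_lit 332) (B (M (nat_lit 331) (B (lo112_13_7 (nat_lit 299)) (lo112_14_7 (nat_lit 363)))) (M (nat_lit 333) (B (lo112_13_6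 (nat_lit 301)) (lo112_14_6 (nat_lit 365)))))))))) (B (M (nat_lit 332) (B (M (nat_lit 300) (B (M (nat_lit 301) (B (lo112_12_6 (nat_lit 269)) (lo112_13_6 (nat_lit 333)))) (lo112_9_4 (nat_lit 397)))) (B (M (nat_lit 300) (B (M (nat_lit 299) (B (lo112_12_7 (nat_lit 267)) (lo112_13_7 (nat_lit 331)))) (lo112_9_4 (nat_lit 397)))) (K _ _ _ o1_s59650)))) (M (nat_lit 460) (B (M (nat_lit 459) (B (lo112_11_5 (nat_lit 491)) (M (nat_lit 331) (B (lo112_14_7 (nat_lit 363)) (M (nat_lit 332) (B (lo112_13_7 (nat_lit 299)) (lo112_10_5 (nat_lit 427)))))))) (B (M (nat_lit 332) (B (M (nat_lit 333) (B (lo112_13_6 (nat_lit 301)) (lo112_14_6 (nat_lit 365)))) (M (nat_lit 459) (B (lo112_10_5 (nat_lit 427)) (lo112_11_5 (nat_lit 491)))))) (B (M (nat_lit 492) (B (M (nat_lit 365) (B (lo112_14_6 (nat_lit 333)) (lo112_15_6 (nat_lit 397)))) (M (nat_lit 491) (B (lo112_11_5 (nat_lit 459)) (lo112_12_5 (nat_lit 523))))))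 (M (nat_lit 332) (B (M (nat_lit 331) (B (lo112_13_7 (nat_lit 299)) (lo112_14_7 (nat_lit 363)))) (M (nat_lit 333) (B (lo112_13_6 (nat_lit 301)) (lo112_14_6 (nat_lit 365))))))))))))))))) (B (M (nat_lit 364) (B (M (nat_lit 332) (B (M (nat_lit 333) (B (lo112_13_6 (nat_lit 301)) (M (nat_lit 460) (B (lo112_14_6 (nat_lit 365)) (M (nat_lit 331) (B (lo112_13_7 (nat_lit 299)) (lo112_14_7 (nat_lit 363)))))))) (B (M (nat_lit 460) (B (M (nat_lit 333) (B (lo112_13_6 (nat_lit 301)) (lo112_14_6 (nat_lit 365)))) (M (nat_lit 459) (B (lo112_10_5 (nat_lit 427)) (lo112_11_5 (nat_lit 491)))))) (B (M (nat_lit 460) (B (M (nat_lit 331) (B (lo112_13_7 (nat_lit 299)) (lo112_14_7 (nat_lit 363)))) (M (nat_lit 459) (B (lo112_10_5 (nat_lit 427)) (lo112_11_5 (nat_lit 491)))))) (M (nat_lit 300) (B (M (nat_lit 299) (B (lo112_12_7 (nat_lit 267)) (lo112_13_7 (nat_lit 331)))) (M (nat_lit 427) (B (lo112_9_5 (nat_lit 395))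 (lo112_10_5 (nat_lit 459)))))))))) (B (M (nat_lit 332) (B (M (nat_lit 333) (B (lo112_13_6 (nat_lit 301)) (M (nat_lit 460) (B (lo112_14_6 (nat_lit 365)) (M (nat_lit 331) (B (lo112_13_7 (nat_lit 299)) (lo112_14_7 (nat_lit 363)))))))) (B (M (nat_lit 460) (B (M (nat_lit 333) (B (lo112_13_6 (nat_lit 301)) (lo112_14_6 (nat_lit 365)))) (M (nat_lit 459) (B (lo112_10_5 (nat_lit 427)) (lo112_11_5 (nat_lit 491)))))) (B (M (nat_lit 460) (B (M (nat_lit 331) (B (lo112_13_7 (nat_lit 299)) (lo112_14_7 (nat_lit 363)))) (M (nat_lit 459) (B (lo112_10_5 (nat_lit 427)) (lo112_11_5 (nat_lit 491)))))) (M (nat_lit 301) (B (lo112_13_6 (nat_lit 333)) (M (nat_lit 300) (B (lo112_12_6 (nat_lit 269)) (M (nat_lit 427) (B (lo112_9_5 (nat_lit 395)) (lo112_10_5 (nat_lit 459)))))))))))) (B (M (nat_lit 460) (B (M (nat_lit 492) (B (M (nat_lit 363) (B (lo112_14_7 (nat_lit 331)) (lo112_15_7 (nat_lit 395)))) (M (nat_lit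 365) (B (lo112_14_6 (nat_lit 333)) (lo112_15_6 (nat_lit 397)))))) (B (M (nat_lit 492) (B (M (nat_lit 365) (B (lo112_14_6 (nat_lit 333)) (lo112_15_6 (nat_lit 397)))) (M (nat_lit 491) (B (lo112_11_5 (nat_lit 459)) (lo112_12_5 (nat_lit 523)))))) (B (M (nat_lit 492) (B (M (nat_lit 363) (B (lo112_14_7 (nat_lit 331)) (lo112_15_7 (nat_lit 395)))) (M (nat_lit 491) (B (lo112_11_5 (nat_lit 459)) (lo112_12_5 (nat_lit 523)))))) (M (nat_lit 332) (B (M (nat_lit 333) (B (lo112_13_6 (nat_lit 301)) (lo112_14_6 (nat_lit 365)))) (M (nat_lit 459) (B (lo112_10_5 (nat_lit 427)) (lo112_11_5 (nat_lit 491)))))))))) (B (M (nat_lit 460) (B (M (nat_lit 492) (B (M (nat_lit 363) (B (lo112_14_7 (nat_lit 331)) (lo112_15_7 (nat_lit 395)))) (M (nat_lit 365) (B (lo112_14_6 (nat_lit 333)) (lo112_15_6 (nat_lit 397)))))) (B (M (nat_lit 492) (B (M (nat_lit 365) (B (lo112_14_6 (nat_lit 333)) (lo112_15_6 (nat_lit 397))))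 (M (nat_lit 491) (B (lo112_11_5 (nat_lit 459)) (lo112_12_5 (nat_lit 523)))))) (B (M (nat_lit 492) (B (M (nat_lit 363) (B (lo112_14_7 (nat_lit 331)) (lo112_15_7 (nat_lit 395)))) (M (nat_lit 491) (B (lo112_11_5 (nat_lit 459)) (lo112_12_5 (nat_lit 523)))))) (M (nat_lit 459) (B (lo112_11_5 (nat_lit 491)) (M (nat_lit 331) (B (lo112_14_7 (nat_lit 363)) (M (nat_lit 332) (B (lo112_13_7 (nat_lit 299)) (lo112_10_5 (nat_lit 427)))))))))))) (B (M (nat_lit 332) (B (M (nat_lit 301) (B (lo112_13_6 (nat_lit 333)) (M (nat_lit 300) (B (lo112_12_6 (nat_lit 269)) (M (nat_lit 427) (B (lo112_9_5 (nat_lit 395)) (lo112_10_5 (nat_lit 459)))))))) (B (M (nat_lit 460) (B (M (nat_lit 333) (B (lo112_13_6 (nat_lit 301)) (lo112_14_6 (nat_lit 365)))) (M (nat_lit 459) (B (lo112_10_5 (nat_lit 427)) (lo112_11_5 (nat_lit 491)))))) (B (M (nat_lit 300) (B (M (nat_lit 427) (B (lo112_9_5 (nat_lit 395)) (lo112_10_5 (nat_lit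 459)))) (M (nat_lit 268) (B (M (nat_lit 267) (B (lo112_11_7 (nat_lit 235)) (lo112_12_7 (nat_lit 299)))) (M (nat_lit 397) (B (lo112_8_4 (nat_lit 365)) (lo112_9_4 (nat_lit 429)))))))) (M (nat_lit 300) (B (M (nat_lit 301) (B (lo112_12_6 (nat_lit 269)) (lo112_13_6 (nat_lit 333)))) (M (nat_lit 268) (B (M (nat_lit 267) (B (lo112_11_7 (nat_lit 235)) (lo112_12_7 (nat_lit 299)))) (M (nat_lit 397) (B (lo112_8_4 (nat_lit 365)) (lo112_9_4 (nat_lit 429)))))))))))) (B (M (nat_lit 363) (B (M (nat_lit 331) (B (lo112_14_7 (nat_lit 460)) (M (nat_lit 299) (B (lo111_8_4 (nat_lit 267)) (lo111_9_4 (nat_lit 395)))))) (B (M (nat_lit 460) (B (lo112_14_7 (nat_lit 331)) (M (nat_lit 492) (B (lo112_15_7 (nat_lit 395)) (M (nat_lit 491) (B (lo112_11_5 (nat_lit 459)) (lo112_12_5 (nat_lit 523)))))))) (B (M (nat_lit 365) (B (M (nat_lit 460) (B (lo112_14_6 (nat_lit 333)) (M (nat_lit 492) (B (lo112_15_7 (nat_lit 395))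 (lo112_15_6 (nat_lit 397)))))) (B (M (nat_lit 362) (B (M (nat_lit 397) (B (lo19_11_0 (nat_lit 361)) (lo110_11_0 (nat_lit 398)))) (B (K _ _ _ o1_s35610) (K _ _ _ o1_s30894)))) (B (M (nat_lit 362) (B (M (nat_lit 333) (B (lo110_11_2 (nat_lit 334)) (lo112_14_6 (nat_lit 460)))) (M (nat_lit 397) (B (lo19_11_0 (nat_lit 361)) (lo110_11_0 (nat_lit 398)))))) (M (nat_lit 460) (B (lo112_14_6 (nat_lit 333)) (M (nat_lit 491) (B (lo112_11_5 (nat_lit 459)) (M (nat_lit 492) (B (lo112_15_7 (nat_lit 395)) (lo112_12_5 (nat_lit 523)))))))))))) (B (M (nat_lit 460) (B (lo112_14_7 (nat_lit 331)) (M (nat_lit 492) (B (M (nat_lit 365) (B (lo112_14_6 (nat_lit 333)) (lo112_15_6 (nat_lit 397)))) (M (nat_lit 491) (B (lo112_11_5 (nat_lit 459)) (lo112_12_5 (nat_lit 523)))))))) (M (nat_lit 362) (B (M (nat_lit 397) (B (lo19_11_0 (nat_lit 361)) (M (nat_lit 398) (B (lo110_11_0 (nat_lit 365)) (lo114_12_3 (nat_lit 395))))))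 (B (M (nat_lit 365) (B (M (nat_lit 333) (B (lo110_11_2 (nat_lit 334)) (M (nat_lit 397) (B (lo113_9_5 (nat_lit 301)) (lo110_11_0 (nat_lit 398)))))) (B (M (nat_lit 366) (B (M (nat_lit 330) (B (lo113_11_3 (nat_lit 329)) (lo114_11_3 (nat_lit 331)))) (M (nat_lit 398) (B (lo110_11_0 (nat_lit 397)) (lo111_11_0 (nat_lit 399)))))) (M (nat_lit 366) (B (M (nat_lit 330) (B (lo113_11_3 (nat_lit 329)) (lo114_11_3 (nat_lit 331)))) (M (nat_lit 334) (B (lo110_11_2 (nat_lit 333)) (lo111_11_2 (nat_lit 335))))))))) (B (M (nat_lit 397) (B (lo19_11_0 (nat_lit 361)) (M (nat_lit 398) (B (lo114_12_3 (nat_lit 395)) (lo115_12_3 (nat_lit 399)))))) (B (M (nat_lit 365) (B (M (nat_lit 366) (B (M (nat_lit 330) (B (lo113_11_3 (nat_lit 329)) (lo114_11_3 (nat_lit 331)))) (M (nat_lit 334) (B (lo110_11_2 (nat_lit 333)) (lo111_11_2 (nat_lit 335)))))) (B (M (nat_lit 366) (B (M (nat_lit 334) (B (lo110_11_2 (nat_lit 333))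 (lo111_11_2 (nat_lit 335)))) (M (nat_lit 367) (B (lo115_11_1 (nat_lit 395)) (M (nat_lit 399) (B (lo111_11_0 (nat_lit 398)) (lo112_11_0 (nat_lit 400)))))))) (B (M (nat_lit 366) (B (M (nat_lit 330) (B (lo113_11_3 (nat_lit 329)) (lo114_11_3 (nat_lit 331)))) (M (nat_lit 367) (B (lo115_11_1 (nat_lit 395)) (M (nat_lit 399) (B (lo111_11_0 (nat_lit 398)) (lo112_11_0 (nat_lit 400)))))))) (K _ _ _ o1_s30894))))) (M (nat_lit 361) (B (lo19_11_0 (nat_lit 397)) (M (nat_lit 360) (B (lo18_11_0 (nat_lit 395)) (M (nat_lit 392) (B (lo111_11_1 (nat_lit 391)) (lo112_11_1 (nat_lit 393)))))))))))))))))) (B (K _ _ _ o1_s57750) (B (M (nat_lit 332) (B (M (nat_lit 301) (B (lo112_13_6 (nat_lit 333)) (M (nat_lit 300) (B (lo112_12_6 (nat_lit 269)) (M (nat_lit 427) (B (lo112_9_5 (nat_lit 395)) (lo112_10_5 (nat_lit 459)))))))) (B (M (nat_lit 300) (B (M (nat_lit 299) (B (lo112_12_7 (nat_lit 267)) (lo112_13_7 (nat_lit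 331)))) (M (nat_lit 427) (B (lo112_9_5 (nat_lit 395)) (lo112_10_5 (nat_lit 459)))))) (B (M (nat_lit 460) (B (M (nat_lit 331) (B (lo112_13_7 (nat_lit 299)) (lo112_14_7 (nat_lit 363)))) (M (nat_lit 459) (B (lo112_10_5 (nat_lit 427)) (lo112_11_5 (nat_lit 491)))))) (M (nat_lit 300) (B (M (nat_lit 299) (B (lo112_12_7 (nat_lit 267)) (lo112_13_7 (nat_lit 331)))) (M (nat_lit 301) (B (lo112_12_6 (nat_lit 269)) (lo112_13_6 (nat_lit 333)))))))))) (B (M (nat_lit 332) (B (M (nat_lit 333) (B (lo112_13_6 (nat_lit 301)) (M (nat_lit 460) (B (lo112_14_6 (nat_lit 365)) (M (nat_lit 331) (B (lo112_13_7 (nat_lit 299)) (lo112_14_7 (nat_lit 363)))))))) (B (M (nat_lit 460) (B (M (nat_lit 333) (B (lo112_13_6 (nat_lit 301)) (lo112_14_6 (nat_lit 365)))) (M (nat_lit 459) (B (lo112_10_5 (nat_lit 427)) (lo112_11_5 (nat_lit 491)))))) (B (M (nat_lit 460) (B (M (nat_lit 331) (B (lo112_13_7 (nat_lit 299)) (lo112_14_7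 (nat_lit 363)))) (M (nat_lit 459) (B (lo112_10_5 (nat_lit 427)) (lo112_11_5 (nat_lit 491)))))) (M (nat_lit 300) (B (M (nat_lit 299) (B (lo112_12_7 (nat_lit 267)) (lo112_13_7 (nat_lit 331)))) (M (nat_lit 301) (B (lo112_12_6 (nat_lit 269)) (lo112_13_6 (nat_lit 333)))))))))) (B (M (nat_lit 332) (B (M (nat_lit 300) (B (M (nat_lit 299) (B (lo112_12_7 (nat_lit 267)) (lo112_13_7 (nat_lit 331)))) (M (nat_lit 301) (B (lo112_12_6 (nat_lit 269)) (lo112_13_6 (nat_lit 333)))))) (B (M (nat_lit 333) (B (lo112_13_6 (nat_lit 301)) (M (nat_lit 460) (B (lo112_14_6 (nat_lit 365)) (M (nat_lit 331) (B (lo112_13_7 (nat_lit 299)) (lo112_14_7 (nat_lit 363)))))))) (B (M (nat_lit 300) (B (M (nat_lit 301) (B (lo112_12_6 (nat_lit 269)) (lo112_13_6 (nat_lit 333)))) (M (nat_lit 268) (B (M (nat_lit 395) (B (lo112_8_5 (nat_lit 363)) (lo112_9_5 (nat_lit 427)))) (M (nat_lit 397) (B (lo112_8_4 (nat_lit 365)) (lo112_9_4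 (nat_lit 429)))))))) (M (nat_lit 300) (B (M (nat_lit 299) (B (lo112_12_7 (nat_lit 267)) (lo112_13_7 (nat_lit 331)))) (M (nat_lit 268) (B (M (nat_lit 395) (B (lo112_8_5 (nat_lit 363)) (lo112_9_5 (nat_lit 427)))) (M (nat_lit 397) (B (lo112_8_4 (nat_lit 365)) (lo112_9_4 (nat_lit 429)))))))))))) (M (nat_lit 332) (B (M (nat_lit 300) (B (M (nat_lit 299) (B (lo112_12_7 (nat_lit 267)) (lo112_13_7 (nat_lit 331)))) (M (nat_lit 427) (B (lo112_9_5 (nat_lit 395)) (lo112_10_5 (nat_lit 459)))))) (B (M (nat_lit 301) (B (lo112_13_6 (nat_lit 333)) (M (nat_lit 300) (B (lo112_12_6 (nat_lit 269)) (M (nat_lit 427) (B (lo112_9_5 (nat_lit 395)) (lo112_10_5 (nat_lit 459)))))))) (K _ _ _ o1_s59650))))))))))))))) (B (K _ _ _ o1_s57639) (B (K _ _ _ o1_s57740) (B (K _ _ _ o1_s50638) (B (K _ _ _ o1_s57919) (B (K _ _ _ o1_s57946) (K _ _ _ o1_s57984))))))))))) _ _ _ (by decide +kernel)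

end Vale.Agent.Lib.P062.Data
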