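import Vale.Agent.Lib.P062.Data.o1_lines
import Vale.Agent.Lib.P062.Data.o1_0_0
import Vale.Agent.Lib.P062.Data.o1_1_0
import Vale.Agent.Lib.P062.Data.o1_2_0
import Vale.Agent.Lib.P062.Data.o1_3_0

namespace Vale.Agent.Lib.P062.Data

theorem o1_s17436 : Sem (nat_lit 2079502270590611144683810638107312777577327806531862431377859685460965980854219217279980804578104683573043408221052678871730618368) (nat_lit 7614394267015645485229171078522753386853720632673801361820484476280577592750829448923772199007189612607808850115049882480072690724472032746647057957587299244865925208007382728744365981696) (nat_lit 7614394267015645485229171078522753386853720632673801361820484476280577592750829448923772199007189612607808850115049882480072690724472032746647057957587299244865925208007382728744365981696) := sem_of_chk (M (nat_lit 427) (B (M (nat_lit 459) (B (M (nat_lit 491) (B (M (nat_lit 492) (B (M (nat_lit 364) (B (M (nat_lit 490) (B (M (nat_lit 363) (B (M (nat_lit 365) (B (M (nat_lit 489) (B (M (nat_lit 366) (B (M (nat_lit 362) (B (M (nat_lit 330) (B (lo114_11_3 (nat_lit 331)) (lo113_11_3 (nat_lit 329)))) (M (nat_lit 334) (B (lo110_11_2 (nat_lit 333)) (lo111_11_2 (nat_lit 335)))))) (B (M (nat_lit 367) (B (M (nat_lit 331) (B (lo115_11_3 (nat_lit 332)) (lo114_11_3 (nat_lit 330)))) (M (nat_lit 399) (B (lo111_11_0 (nat_lit 398)) (lo112_11_0 (nat_lit 400)))))) (M (nat_lit 367) (B (M (nat_lit 335) (B (lo112_11_2 (nat_lit 336)) (lo111_11_2 (nat_lit 334)))) (M (nat_lit 399) (B (lo111_11_0 (nat_lit 398)) (lo112_11_0 (nat_lit 400))))))))) (M (nat_lit 456) (B (M (nat_lit 488) (B (lo18_15_2 (nat_lit 460)) (lo111_15_3 (nat_lit 455)))) (lo112_15_3 (nat_lit 457)))))) (B (M (nat_lit 366) (B (M (nat_lit 333) (B (M (nat_lit 332) (B (M (nat_lit 397) (B (lo113_10_5 (nat_lit 460)) (lo113_13_7 (nat_lit 300)))) (M (nat_lit 331) (B (lo115_11_3 (nat_lit 367)) (lo110_10_0 (nat_lit 330)))))) (B (M (nat_lit 397) (B (M (nat_lit 334) (B (lo113_13_6 (nat_lit 302)) (lo110_11_2 (nat_lit 362)))) (lo113_10_5 (nat_lit 460)))) (M (nat_lit 362) (B (M (nat_lit 330) (B (lo114_11_3 (nat_lit 331)) (lo113_11_3 (nat_lit 329)))) (lo110_11_2 (nat_lit 334))))))) (B (K _ _ _ o1_s11373) (M (nat_lit 334) (B (M (nat_lit 333) (B (M (nat_lit 397) (B (lo113_10_5 (nat_lit 460)) (lo113_13_6 (nat_lit 302)))) (lo110_11_2 (nat_lit 362)))) (lo111_11_2 (nat_lit 335))))))) (B (M (nat_lit 366) (B (K _ _ _ o1_s11373) (B (M (nat_lit 332) (B (M (nat_lit 397) (B (M (nat_lit 398) (B (lo110_13_2 (nat_lit 426)) (lo110_11_0 (nat_lit 362)))) (M (nat_lit 333) (B (lo113_10_5 (nat_lit 460)) (lo113_13_7 (nat_lit 300)))))) (M (nat_lit 331) (B (lo114_11_3 (nat_lit 330)) (lo115_11_3 (nat_lit 367)))))) (M (nat_lit 398) (B (M (nat_lit 397) (B (lo110_13_2 (nat_lit 426)) (lo110_11_0 (nat_lit 362)))) (lo111_11_0 (nat_lit 399))))))) (B (M (nat_lit 366) (B (M (nat_lit 334) (B (M (nat_lit 397) (B (M (nat_lit 398) (B (lo110_13_2 (nat_lit 426)) (lo111_11_0 (nat_lit 399)))) (M (nat_lit 333) (B (lo113_10_5 (nat_lit 460)) (lo113_13_6 (nat_lit 302)))))) (lo111_11_2 (nat_lit 335)))) (B (M (nat_lit 367) (B (M (nat_lit 331) (B (lo115_11_3 (nat_lit 332)) (lo114_11_3 (nat_lit 330)))) (M (nat_lit 335) (B (lo111_11_2 (nat_lit 334)) (lo112_11_2 (nat_lit 336)))))) (M (nat_lit 367) (B (M (nat_lit 331) (B (lo115_11_3 (nat_lit 332)) (lo114_11_3 (nat_lit 330)))) (M (nat_lit 399) (B (lo111_11_0 (nat_lit 398)) (lo112_11_0 (nat_lit 400))))))))) (B (M (nat_lit 366) (B (M (nat_lit 367) (B (M (nat_lit 331) (B (lo115_11_3 (nat_lit 332)) (lo114_11_3 (nat_lit 330)))) (M (nat_lit 335) (B (lo111_11_2 (nat_lit 334)) (lo112_11_2 (nat_lit 336)))))) (M (nat_lit 398) (B (M (nat_lit 397) (B (lo110_13_2 (nat_lit 426)) (lo110_11_0 (nat_lit 362)))) (lo111_11_0 (nat_lit 399)))))) (B (M (nat_lit 333) (B (M (nat_lit 334) (B (M (nat_lit 397) (B (lo113_10_5 (nat_lit 460)) (lo113_13_6 (nat_lit 302)))) (M (nat_lit 335) (B (lo115_10_1 (nat_lit 332)) (lo116_10_1 (nat_lit 336)))))) (B (M (nat_lit 334) (B (M (nat_lit 335) (B (lo115_10_1 (nat_lit 332)) (lo116_10_1 (nat_lit 336)))) (lo110_11_2 (nat_lit 362)))) (M (nat_lit 397) (B (M (nat_lit 398) (B (lo110_13_2 (nat_lit 426)) (lo110_11_0 (nat_lit 362)))) (lo113_10_5 (nat_lit 460))))))) (K _ _ _ o1_s11435)))))))) (B (M (nat_lit 365) (B (M (nat_lit 366) (B (M (nat_lit 367) (B (M (nat_lit 335) (B (lo111_11_2 (nat_lit 334)) (lo112_11_2 (nat_lit 336)))) (M (nat_lit 399) (B (lo111_11_0 (nat_lit 398)) (lo112_11_0 (nat_lit 400)))))) (M (nat_lit 330) (B (M (nat_lit 362) (B (lo111_14_7 (nat_lit 395)) (lo113_11_3 (nat_lit 329)))) (lo114_11_3 (nat_lit 331)))))) (B (K _ _ _ o1_s11435) (B (M (nat_lit 460) (B (M (nat_lit 333) (B (M (nat_lit 334) (B (M (nat_lit 335) (B (lo111_11_2 (nat_lit 366)) (lo116_10_1 (nat_lit 336)))) (lo110_11_2 (nat_lit 362)))) (lo113_10_5 (nat_lit 397)))) (lo111_11_4 (nat_lit 395)))) (B (M (nat_lit 460) (B (M (nat_lit 397) (B (M (nat_lit 398) (B (M (nat_lit 399) (B (lo111_11_0 (nat_lit 366)) (lo116_12_1 (nat_lit 400)))) (lo110_13_2 (nat_lit 426)))) (lo113_10_5 (nat_lit 333)))) (lo111_11_4 (nat_lit 395)))) (M (nat_lit 397) (B (M (nat_lit 460) (B (lo113_10_5 (nat_lit 333)) (lo111_11_4 (nat_lit 395)))) (M (nat_lit 398) (B (lo110_13_2 (nat_lit 426)) (lo110_11_0 (nat_lit 362))))))))))) (B (M (nat_lit 362) (B (M (nat_lit 361) (B (M (nat_lit 365) (B (M (nat_lit 333) (B (lo19_11_2 (nat_lit 332)) (lo110_11_2 (nat_lit 334)))) (M (nat_lit 329) (B (lo113_11_3 (nat_lit 330)) (lo112_11_3 (nat_lit 328)))))) (B (M (nat_lit 360) (B (M (nat_lit 332) (B (lo18_11_2 (nat_lit 331)) (lo19_11_2 (nat_lit 333)))) (M (nat_lit 392) (B (lo112_11_1 (nat_lit 393)) (lo111_11_1 (nat_lit 391)))))) (M (nat_lit 360) (B (M (nat_lit 392) (B (lo112_11_1 (nat_lit 393)) (lo111_11_1 (nat_lit 391)))) (M (nat_lit 328) (B (lo111_11_3 (nat_lit 327)) (lo112_11_3 (nat_lit 329))))))))) (B (M (nat_lit 332) (B (M (nat_lit 333) (B (M (nat_lit 334) (B (lo110_11_2 (nat_lit 365)) (lo115_10_1 (nat_lit 335)))) (lo19_11_2 (nat_lit 361)))) (lo111_14_6 (nat_lit 395)))) (B (M (nat_lit 330) (B (M (nat_lit 329) (B (M (nat_lit 328) (B (lo18_10_0 (nat_lit 331)) (lo112_11_3 (nat_lit 361)))) (lo113_11_3 (nat_lit 365)))) (lo111_14_7 (nat_lit 395)))) (M (nat_lit 395) (B (lo111_14_6 (nat_lit 332)) (lo111_14_7 (nat_lit 330)))))))) (M (nat_lit 395) (B (lo111_11_4 (nat_lit 460)) (lo111_14_6 (nat_lit 332)))))))) (B (M (nat_lit 489) (B (M (nat_lit 521) (B (M (nat_lit 493) (B (M (nat_lit 494) (B (M (nat_lit 495) (B (M (nat_lit 463) (B (lo111_15_2 (nat_lit 462)) (lo112_15_2 (nat_lit 464)))) (lo115_15_3 (nat_lit 460)))) (M (nat_lit 526) (B (lo110_15_0 (nat_lit 525)) (lo111_15_0 (nat_lit 527)))))) (lo113_15_1 (nat_lit 522)))) (lo112_15_1 (nat_lit 520)))) (B (M (nat_lit 488) (B (M (nat_lit 520) (B (lo112_15_1 (nat_lit 521)) (lo111_15_1 (nat_lit 519)))) (M (nat_lit 456) (B (lo112_15_3 (nat_lit 457)) (lo111_15_3 (nat_lit 455)))))) (M (nat_lit 456) (B (M (nat_lit 488) (B (lo18_15_2 (nat_lit 460)) (lo111_15_3 (nat_lit 455)))) (lo112_15_3 (nat_lit 457))))))) (B (M (nat_lit 522) (B (M (nat_lit 521) (B (M (nat_lit 520) (B (lo17_16_2 (nat_lit 519)) (lo112_15_1 (nat_lit 489)))) (lo113_15_1 (nat_lit 493)))) (lo111_12_5 (nat_lit 395)))) (M (nat_lit 395) (B (M (nat_lit 363) (B (lo111_11_4 (nat_lit 460)) (lo111_14_6 (nat_lit 332)))) (lo111_12_5 (nat_lit 522)))))))) (B (M (nat_lit 396) (B (lo112_11_5 (nat_lit 460)) (lo112_10_5 (nat_lit 332)))) (B (M (nat_lit 396) (B (lo112_11_5 (nat_lit 460)) (lo111_15_6 (nat_lit 395)))) (M (nat_lit 396) (B (lo111_15_6 (nat_lit 395)) (lo112_10_5 (nat_lit 332)))))))) (B (M (nat_lit 395) (B (K _ _ _ o1_s11571) (lo111_12_4 (nat_lit 524)))) (B (M (nat_lit 460) (B (M (nat_lit 396) (B (M (nat_lit 397) (B (M (nat_lit 398) (B (lo110_13_2 (nat_lit 426)) (lo115_12_1 (nat_lit 399)))) (lo112_15_6 (nat_lit 365)))) (lo112_11_5 (nat_lit 364)))) (B (M (nat_lit 525) (B (M (nat_lit 524) (B (lo112_17_7 (nat_lit 556)) (lo112_13_4 (nat_lit 557)))) (M (nat_lit 396) (B (lo112_11_5 (nat_lit 364)) (lo112_12_4 (nat_lit 493)))))) (M (nat_lit 524) (B (lo112_16_6 (nat_lit 397)) (lo112_17_7 (nat_lit 556))))))) (M (nat_lit 524) (B (M (nat_lit 460) (B (lo112_16_6 (nat_lit 397)) (lo112_17_7 (nat_lit 556)))) (lo111_12_4 (nat_lit 395)))))))) (B (M (nat_lit 523) (B (M (nat_lit 395) (B (M (nat_lit 522) (B (lo111_13_5 (nat_lit 554)) (lo111_12_5 (nat_lit 490)))) (M (nat_lit 524) (B (lo111_12_4 (nat_lit 492)) (lo111_13_4 (nat_lit 556)))))) (B (M (nat_lit 554) (B (M (nat_lit 555) (B (lo111_17_6 (nat_lit 460)) (lo111_14_5 (nat_lit 586)))) (lo111_13_5 (nat_lit 522)))) (M (nat_lit 555) (B (M (nat_lit 556) (B (lo111_14_4 (nat_lit 588)) (lo111_13_4 (nat_lit 524)))) (lo111_17_6 (nat_lit 460))))))) (B (K _ _ _ o1_s11618) (M (nat_lit 396) (B (M (nat_lit 364) (B (lo111_15_6 (nat_lit 395)) (lo112_10_5 (nat_lit 332)))) (lo111_16_6 (nat_lit 523)))))))) (B (K _ _ _ o1_s12273) (B (M (nat_lit 363) (B (M (nat_lit 397) (B (M (nat_lit 457) (B (M (nat_lit 425) (B (M (nat_lit 361) (B (M (nat_lit 364) (B (K _ _ _ o1_s12296) (B (M (nat_lit 393) (B (M (nat_lit 329) (B (M (nat_lit 330) (B (M (nat_lit 328) (B (lo18_10_0 (nat_lit 331)) (lo19_13_7 (nat_lit 296)))) (lo19_13_6 (nat_lit 298)))) (M (nat_lit 456) (B (lo19_10_5 (nat_lit 424)) (lo19_11_5 (nat_lit 488)))))) (B (M (nat_lit 329) (B (M (nat_lit 456) (B (lo19_10_5 (nat_lit 424)) (lo19_11_5 (nat_lit 488)))) (M (nat_lit 362) (B (lo112_11_1 (nat_lit 392)) (lo112_11_3 (nat_lit 328)))))) (M (nat_lit 362) (B (lo112_11_1 (nat_lit 392)) (lo19_14_6 (nat_lit 330))))))) (M (nat_lit 396) (B (lo112_10_5 (nat_lit 332)) (lo19_11_0 (nat_lit 362))))))) (B (M (nat_lit 393) (B (M (nat_lit 364) (B (M (nat_lit 329) (B (M (nat_lit 456) (B (lo19_10_5 (nat_lit 424)) (lo19_11_5 (nat_lit 488)))) (M (nat_lit 362) (B (lo112_11_1 (nat_lit 392)) (lo112_11_3 (nat_lit 328)))))) (M (nat_lit 396) (B (M (nat_lit 460) (B (M (nat_lit 492) (B (lo112_16_6 (nat_lit 524)) (lo112_15_6 (nat_lit 365)))) (lo112_14_7 (nat_lit 331)))) (lo112_10_5 (nat_lit 332)))))) (B (K _ _ _ o1_s12336) (B (M (nat_lit 329) (B (M (nat_lit 456) (B (lo19_11_5 (nat_lit 488)) (lo19_10_5 (nat_lit 424)))) (M (nat_lit 328) (B (lo19_14_7 (nat_lit 360)) (lo19_13_7 (nat_lit 296)))))) (M (nat_lit 360) (B (M (nat_lit 392) (B (M (nat_lit 362) (B (lo111_11_1 (nat_lit 391)) (lo112_11_1 (nat_lit 364)))) (lo19_15_7 (nat_lit 489)))) (lo19_14_7 (nat_lit 328)))))))) (B (M (nat_lit 364) (B (M (nat_lit 362) (B (M (nat_lit 360) (B (M (nat_lit 359) (B (M (nat_lit 331) (B (lo18_11_2 (nat_lit 332)) (lo17_11_2 (nat_lit 330)))) (M (nat_lit 391) (B (lo111_11_1 (nat_lit 392)) (lo110_11_1 (nat_lit 390)))))) (M (nat_lit 328) (B (lo112_11_3 (nat_lit 329)) (lo111_11_3 (nat_lit 327)))))) (B (M (nat_lit 365) (B (M (nat_lit 333) (B (lo113_10_5 (nat_lit 460)) (lo110_11_2 (nat_lit 334)))) (M (nat_lit 329) (B (lo113_11_3 (nat_lit 330)) (lo112_11_3 (nat_lit 328)))))) (M (nat_lit 333) (B (M (nat_lit 365) (B (lo113_10_5 (nat_lit 460)) (lo110_11_2 (nat_lit 334)))) (lo19_11_2 (nat_lit 332))))))) (B (K _ _ _ o1_s12296) (B (M (nat_lit 365) (B (M (nat_lit 362) (B (M (nat_lit 333) (B (lo113_10_5 (nat_lit 460)) (lo110_11_2 (nat_lit 334)))) (M (nat_lit 329) (B (lo113_11_3 (nat_lit 330)) (lo112_11_3 (nat_lit 328)))))) (B (M (nat_lit 362) (B (M (nat_lit 329) (B (lo113_11_3 (nat_lit 330)) (lo112_11_3 (nat_lit 328)))) (lo19_11_0 (nat_lit 396)))) (M (nat_lit 460) (B (M (nat_lit 492) (B (lo112_15_6 (nat_lit 396)) (lo112_16_6 (nat_lit 524)))) (lo113_10_5 (nat_lit 333))))))) (M (nat_lit 396) (B (lo112_10_5 (nat_lit 332)) (lo19_11_0 (nat_lit 362)))))))) (B (M (nat_lit 393) (B (K _ _ _ o1_s12386) (B (M (nat_lit 329) (B (M (nat_lit 297) (B (M (nat_lit 296) (B (lo19_13_7 (nat_lit 328)) (lo19_12_7 (nat_lit 264)))) (M (nat_lit 298) (B (lo19_13_6 (nat_lit 330)) (lo19_12_6 (nat_lit 266)))))) (M (nat_lit 456) (B (lo19_11_5 (nat_lit 488)) (lo19_10_5 (nat_lit 424)))))) (B (K _ _ _ o1_s12336) (M (nat_lit 329) (B (M (nat_lit 297) (B (M (nat_lit 424) (B (lo19_10_5 (nat_lit 456)) (lo19_9_5 (nat_lit 392)))) (M (nat_lit 298) (B (lo19_13_6 (nat_lit 330)) (lo19_12_6 (nat_lit 266)))))) (M (nat_lit 328) (B (lo19_14_7 (nat_lit 360)) (lo19_13_7 (nat_lit 296)))))))))) (B (M (nat_lit 393) (B (K _ _ _ o1_s12386) (B (K _ _ _ o1_s12409) (M (nat_lit 362) (B (M (nat_lit 364) (B (lo112_11_1 (nat_lit 392)) (lo19_11_0 (nat_lit 396)))) (lo19_14_6 (nat_lit 330))))))) (B (M (nat_lit 393) (B (K _ _ _ o1_s12336) (B (M (nat_lit 329) (B (M (nat_lit 456) (B (lo19_11_5 (nat_lit 488)) (lo19_10_5 (nat_lit 424)))) (M (nat_lit 330) (B (lo19_14_6 (nat_lit 362)) (lo19_13_6 (nat_lit 298)))))) (M (nat_lit 362) (B (M (nat_lit 364) (B (lo112_11_1 (nat_lit 392)) (lo19_11_0 (nat_lit 396)))) (lo19_14_6 (nat_lit 330))))))) (M (nat_lit 393) (B (K _ _ _ o1_s12409) (B (M (nat_lit 329) (B (M (nat_lit 456) (B (lo19_11_5 (nat_lit 488)) (lo19_10_5 (nat_lit 424)))) (M (nat_lit 328) (B (lo19_14_7 (nat_lit 360)) (lo19_13_7 (nat_lit 296)))))) (M (nat_lit 329) (B (M (nat_lit 456) (B (lo19_11_5 (nat_lit 488)) (lo19_10_5 (nat_lit 424)))) (M (nat_lit 330) (B (lo19_14_6 (nat_lit 362)) (lo19_13_6 (nat_lit 298)))))))))))))))) (B (M (nat_lit 393) (B (M (nat_lit 489) (B (M (nat_lit 521) (B (M (nat_lit 392) (B (lo19_16_7 (nat_lit 424)) (lo19_15_7 (nat_lit 360)))) (M (nat_lit 522) (B (lo19_12_4 (nat_lit 490)) (lo19_13_4 (nat_lit 554)))))) (B (M (nat_lit 361) (B (M (nat_lit 360) (B (lo19_15_7 (nat_lit 392)) (lo19_14_7 (nat_lit 328)))) (M (nat_lit 488) (B (lo19_12_5 (nat_lit 520)) (lo19_11_5 (nat_lit 456)))))) (M (nat_lit 521) (B (M (nat_lit 520) (B (lo19_13_5 (nat_lit 552)) (lo19_12_5 (nat_lit 488)))) (M (nat_lit 522) (B (lo19_12_4 (nat_lit 490)) (lo19_13_4 (nat_lit 554))))))))) (B (M (nat_lit 361) (B (M (nat_lit 329) (B (M (nat_lit 330) (B (lo19_14_6 (nat_lit 362)) (lo19_13_6 (nat_lit 298)))) (M (nat_lit 328) (B (lo19_14_7 (nat_lit 360)) (lo19_13_7 (nat_lit 296)))))) (M (nat_lit 456) (B (lo112_13_1 (nat_lit 426)) (lo19_11_5 (nat_lit 488)))))) (B (M (nat_lit 392) (B (M (nat_lit 360) (B (M (nat_lit 328) (B (lo18_10_4 (nat_lit 424)) (lo19_14_7 (nat_lit 361)))) (lo19_15_7 (nat_lit 489)))) (lo112_13_3 (nat_lit 426)))) (M (nat_lit 426) (B (lo112_13_1 (nat_lit 456)) (lo112_13_3 (nat_lit 392)))))))) (M (nat_lit 396) (B (M (nat_lit 460) (B (M (nat_lit 492) (B (lo112_15_6 (nat_lit 365)) (lo112_16_6 (nat_lit 524)))) (M (nat_lit 364) (B (lo112_10_5 (nat_lit 332)) (lo112_14_7 (nat_lit 331)))))) (lo19_13_2 (nat_lit 426))))))) (B (M (nat_lit 458) (B (lo113_13_1 (nat_lit 426)) (lo19_14_2 (nat_lit 460)))) (B (M (nat_lit 458) (B (lo113_13_1 (nat_lit 426)) (lo18_14_2 (nat_lit 456)))) (M (nat_lit 458) (B (lo19_14_2 (nat_lit 460)) (lo18_14_2 (nat_lit 456)))))))) (B (M (nat_lit 365) (B (M (nat_lit 364) (B (M (nat_lit 333) (B (M (nat_lit 332) (B (M (nat_lit 334) (B (lo113_13_6 (nat_lit 302)) (lo115_10_1 (nat_lit 335)))) (lo113_13_7 (nat_lit 300)))) (lo113_10_5 (nat_lit 460)))) (M (nat_lit 398) (B (M (nat_lit 399) (B (lo111_11_0 (nat_lit 366)) (lo116_12_1 (nat_lit 400)))) (lo110_11_0 (nat_lit 362)))))) (B (M (nat_lit 364) (B (M (nat_lit 398) (B (M (nat_lit 399) (B (lo111_11_0 (nat_lit 366)) (lo116_12_1 (nat_lit 400)))) (lo110_11_0 (nat_lit 362)))) (M (nat_lit 396) (B (M (nat_lit 460) (B (lo112_15_6 (nat_lit 492)) (lo112_14_7 (nat_lit 331)))) (lo112_10_5 (nat_lit 332)))))) (B (M (nat_lit 364) (B (M (nat_lit 398) (B (M (nat_lit 399) (B (lo111_11_0 (nat_lit 366)) (lo116_12_1 (nat_lit 400)))) (lo110_11_0 (nat_lit 362)))) (M (nat_lit 332) (B (M (nat_lit 300) (B (lo112_8_4 (nat_lit 268)) (lo113_13_7 (nat_lit 333)))) (lo112_10_5 (nat_lit 396)))))) (M (nat_lit 460) (B (M (nat_lit 492) (B (lo112_16_6 (nat_lit 524)) (lo112_15_6 (nat_lit 396)))) (lo113_10_5 (nat_lit 333)))))))) (B (K _ _ _ o1_s12508) (M (nat_lit 398) (B (M (nat_lit 399) (B (lo116_12_1 (nat_lit 400)) (lo115_12_1 (nat_lit 396)))) (lo110_13_2 (nat_lit 426)))))))) (B (M (nat_lit 397) (B (M (nat_lit 460) (B (M (nat_lit 458) (B (M (nat_lit 395) (B (M (nat_lit 362) (B (M (nat_lit 361) (B (M (nat_lit 360) (B (M (nat_lit 359) (B (M (nat_lit 327) (B (lo110_11_3 (nat_lit 326)) (lo111_11_3 (nat_lit 328)))) (M (nat_lit 391) (B (lo110_11_1 (nat_lit 390)) (lo111_11_1 (nat_lit 392)))))) (B (M (nat_lit 364) (B (M (nat_lit 328) (B (lo112_11_3 (nat_lit 329)) (lo111_11_3 (nat_lit 327)))) (lo111_14_6 (nat_lit 332)))) (M (nat_lit 392) (B (M (nat_lit 364) (B (lo111_14_6 (nat_lit 332)) (lo112_11_1 (nat_lit 393)))) (lo111_11_1 (nat_lit 391))))))) (B (M (nat_lit 360) (B (M (nat_lit 359) (B (M (nat_lit 327) (B (lo110_11_3 (nat_lit 326)) (lo111_11_3 (nat_lit 328)))) (M (nat_lit 391) (B (lo110_11_1 (nat_lit 390)) (lo111_11_1 (nat_lit 392)))))) (lo18_11_0 (nat_lit 396)))) (M (nat_lit 364) (B (lo19_11_0 (nat_lit 396)) (lo111_14_6 (nat_lit 332))))))) (lo111_14_7 (nat_lit 330)))) (lo111_11_5 (nat_lit 490)))) (lo19_14_2 (nat_lit 457)))) (B (M (nat_lit 492) (B (M (nat_lit 365) (B (lo112_15_6 (nat_lit 396)) (lo113_10_5 (nat_lit 333)))) (lo112_16_6 (nat_lit 524)))) (M (nat_lit 492) (B (lo112_16_6 (nat_lit 524)) (lo111_11_4 (nat_lit 395))))))) (B (K _ _ _ o1_s12508) (M (nat_lit 398) (B (M (nat_lit 399) (B (lo116_12_1 (nat_lit 400)) (lo115_12_1 (nat_lit 396)))) (lo110_13_2 (nat_lit 426))))))) (B (M (nat_lit 395) (B (M (nat_lit 397) (B (M (nat_lit 364) (B (M (nat_lit 365) (B (M (nat_lit 362) (B (M (nat_lit 361) (B (M (nat_lit 360) (B (M (nat_lit 328) (B (lo112_11_3 (nat_lit 329)) (lo111_11_3 (nat_lit 327)))) (M (nat_lit 392) (B (lo112_11_1 (nat_lit 393)) (lo111_11_1 (nat_lit 391)))))) (lo19_11_0 (nat_lit 396)))) (lo111_14_7 (nat_lit 330)))) (M (nat_lit 460) (B (lo111_11_4 (nat_lit 492)) (lo113_10_5 (nat_lit 333)))))) (lo111_14_6 (nat_lit 332)))) (B (M (nat_lit 398) (B (M (nat_lit 362) (B (M (nat_lit 364) (B (lo111_14_6 (nat_lit 332)) (lo110_11_0 (nat_lit 365)))) (lo111_14_7 (nat_lit 330)))) (lo110_13_2 (nat_lit 426)))) (M (nat_lit 398) (B (M (nat_lit 399) (B (lo115_12_1 (nat_lit 396)) (lo116_12_1 (nat_lit 400)))) (lo110_13_2 (nat_lit 426))))))) (B (M (nat_lit 331) (B (M (nat_lit 330) (B (lo111_14_7 (nat_lit 362)) (lo111_13_7 (nat_lit 298)))) (M (nat_lit 332) (B (lo111_13_6 (nat_lit 300)) (lo111_14_6 (nat_lit 364)))))) (M (nat_lit 460) (B (lo111_11_4 (nat_lit 492)) (lo111_10_4 (nat_lit 331))))))) (B (M (nat_lit 395) (B (M (nat_lit 331) (B (M (nat_lit 330) (B (lo111_14_7 (nat_lit 362)) (lo111_13_7 (nat_lit 298)))) (M (nat_lit 332) (B (lo111_13_6 (nat_lit 300)) (lo111_14_6 (nat_lit 364)))))) (M (nat_lit 458) (B (M (nat_lit 457) (B (lo113_13_1 (nat_lit 426)) (lo18_14_2 (nat_lit 456)))) (lo111_11_5 (nat_lit 490)))))) (B (M (nat_lit 395) (B (M (nat_lit 331) (B (M (nat_lit 330) (B (lo111_14_7 (nat_lit 362)) (lo111_13_7 (nat_lit 298)))) (M (nat_lit 332) (B (lo111_13_6 (nat_lit 300)) (lo111_14_6 (nat_lit 364)))))) (M (nat_lit 458) (B (M (nat_lit 460) (B (lo19_14_2 (nat_lit 457)) (lo111_11_4 (nat_lit 492)))) (lo111_11_5 (nat_lit 490)))))) (B (M (nat_lit 395) (B (M (nat_lit 331) (B (M (nat_lit 458) (B (lo111_10_5 (nat_lit 426)) (lo111_11_5 (nat_lit 490)))) (M (nat_lit 330) (B (lo111_14_7 (nat_lit 362)) (lo111_13_7 (nat_lit 298)))))) (B (M (nat_lit 458) (B (M (nat_lit 460) (B (lo19_14_2 (nat_lit 457)) (lo111_11_4 (nat_lit 492)))) (lo111_11_5 (nat_lit 490)))) (M (nat_lit 460) (B (lo111_11_4 (nat_lit 492)) (lo111_10_4 (nat_lit 331))))))) (M (nat_lit 395) (B (M (nat_lit 331) (B (M (nat_lit 458) (B (lo111_10_5 (nat_lit 426)) (lo111_11_5 (nat_lit 490)))) (M (nat_lit 332) (B (lo111_13_6 (nat_lit 300)) (lo111_14_6 (nat_lit 364)))))) (B (M (nat_lit 458) (B (M (nat_lit 460) (B (lo19_14_2 (nat_lit 457)) (lo111_11_4 (nat_lit 492)))) (lo111_11_5 (nat_lit 490)))) (M (nat_lit 460) (B (lo111_11_4 (nat_lit 492)) (lo111_10_4 (nat_lit 331)))))))))))))) (B (M (nat_lit 426) (B (M (nat_lit 458) (B (M (nat_lit 491) (B (M (nat_lit 364) (B (M (nat_lit 363) (B (M (nat_lit 365) (B (M (nat_lit 366) (B (M (nat_lit 333) (B (M (nat_lit 332) (B (M (nat_lit 397) (B (lo113_10_5 (nat_lit 460)) (lo113_13_7 (nat_lit 300)))) (M (nat_lit 331) (B (lo115_11_3 (nat_lit 367)) (lo110_10_0 (nat_lit 330)))))) (B (M (nat_lit 397) (B (M (nat_lit 334) (B (lo113_13_6 (nat_lit 302)) (lo110_11_2 (nat_lit 362)))) (lo113_10_5 (nat_lit 460)))) (M (nat_lit 362) (B (M (nat_lit 330) (B (lo114_11_3 (nat_lit 331)) (lo113_11_3 (nat_lit 329)))) (lo110_11_2 (nat_lit 334))))))) (B (K _ _ _ o1_s12640) (M (nat_lit 334) (B (M (nat_lit 333) (B (M (nat_lit 397) (B (lo113_10_5 (nat_lit 460)) (lo113_13_6 (nat_lit 302)))) (lo110_11_2 (nat_lit 362)))) (lo111_11_2 (nat_lit 335))))))) (B (M (nat_lit 366) (B (K _ _ _ o1_s12640) (B (M (nat_lit 332) (B (M (nat_lit 397) (B (M (nat_lit 333) (B (lo113_10_5 (nat_lit 460)) (lo113_13_7 (nat_lit 300)))) (lo110_13_2 (nat_lit 398)))) (M (nat_lit 331) (B (lo114_11_3 (nat_lit 330)) (lo115_11_3 (nat_lit 367)))))) (M (nat_lit 398) (B (lo110_13_2 (nat_lit 397)) (lo111_11_0 (nat_lit 399))))))) (B (M (nat_lit 366) (B (M (nat_lit 367) (B (M (nat_lit 331) (B (lo115_11_3 (nat_lit 332)) (lo114_11_3 (nat_lit 330)))) (M (nat_lit 399) (B (lo111_11_0 (nat_lit 398)) (lo112_11_0 (nat_lit 400)))))) (B (M (nat_lit 367) (B (M (nat_lit 335) (B (lo111_11_2 (nat_lit 334)) (lo112_11_2 (nat_lit 336)))) (M (nat_lit 399) (B (lo111_11_0 (nat_lit 398)) (lo112_11_0 (nat_lit 400)))))) (M (nat_lit 362) (B (M (nat_lit 330) (B (lo113_11_3 (nat_lit 329)) (lo114_11_3 (nat_lit 331)))) (M (nat_lit 334) (B (lo111_11_2 (nat_lit 335)) (lo110_11_2 (nat_lit 333))))))))) (B (M (nat_lit 366) (B (M (nat_lit 367) (B (M (nat_lit 331) (B (lo115_11_3 (nat_lit 332)) (lo114_11_3 (nat_lit 330)))) (M (nat_lit 335) (B (lo111_11_2 (nat_lit 334)) (lo112_11_2 (nat_lit 336)))))) (M (nat_lit 398) (B (lo110_13_2 (nat_lit 397)) (lo111_11_0 (nat_lit 399)))))) (B (M (nat_lit 333) (B (M (nat_lit 362) (B (M (nat_lit 329) (B (M (nat_lit 361) (B (lo19_11_2 (nat_lit 332)) (lo112_11_3 (nat_lit 328)))) (lo113_11_3 (nat_lit 330)))) (lo110_11_2 (nat_lit 334)))) (M (nat_lit 397) (B (lo113_10_5 (nat_lit 460)) (lo110_13_2 (nat_lit 398)))))) (M (nat_lit 333) (B (M (nat_lit 334) (B (M (nat_lit 335) (B (lo111_11_2 (nat_lit 366)) (lo116_10_1 (nat_lit 336)))) (lo110_11_2 (nat_lit 362)))) (M (nat_lit 397) (B (lo113_10_5 (nat_lit 460)) (lo110_13_2 (nat_lit 398)))))))))))) (B (M (nat_lit 395) (B (lo111_10_5 (nat_lit 331)) (lo111_11_5 (nat_lit 490)))) (M (nat_lit 395) (B (lo111_14_6 (nat_lit 332)) (lo111_11_5 (nat_lit 490))))))) (B (M (nat_lit 396) (B (lo112_11_5 (nat_lit 460)) (lo112_10_5 (nat_lit 332)))) (B (M (nat_lit 396) (B (lo112_11_5 (nat_lit 460)) (lo111_15_6 (nat_lit 395)))) (M (nat_lit 396) (B (lo111_15_6 (nat_lit 395)) (lo112_10_5 (nat_lit 332)))))))) (B (M (nat_lit 523) (B (M (nat_lit 522) (B (M (nat_lit 490) (B (M (nat_lit 524) (B (M (nat_lit 489) (B (lo113_16_3 (nat_lit 525)) (lo18_15_0 (nat_lit 488)))) (lo111_13_4 (nat_lit 556)))) (lo111_12_5 (nat_lit 395)))) (lo111_13_5 (nat_lit 554)))) (lo111_17_7 (nat_lit 555)))) (M (nat_lit 523) (B (lo111_16_6 (nat_lit 396)) (lo111_17_7 (nat_lit 555))))))) (lo113_13_1 (nat_lit 457)))) (B (K _ _ _ o1_s12732) (B (K _ _ _ o1_s12741) (M (nat_lit 425) (B (M (nat_lit 397) (B (lo110_13_2 (nat_lit 398)) (lo19_13_2 (nat_lit 396)))) (M (nat_lit 457) (B (lo113_13_1 (nat_lit 458)) (lo112_13_1 (nat_lit 456)))))))))) (B (M (nat_lit 396) (B (M (nat_lit 426) (B (M (nat_lit 397) (B (M (nat_lit 365) (B (M (nat_lit 491) (B (M (nat_lit 490) (B (M (nat_lit 489) (B (M (nat_lit 488) (B (M (nat_lit 492) (B (M (nat_lit 520) (B (lo112_15_1 (nat_lit 521)) (lo111_15_1 (nat_lit 519)))) (M (nat_lit 456) (B (lo112_15_3 (nat_lit 457)) (lo111_15_3 (nat_lit 455)))))) (B (M (nat_lit 455) (B (M (nat_lit 487) (B (lo17_15_2 (nat_lit 458)) (lo110_15_3 (nat_lit 454)))) (lo111_15_3 (nat_lit 456)))) (M (nat_lit 458) (B (lo113_13_1 (nat_lit 457)) (lo17_15_2 (nat_lit 487))))))) (B (M (nat_lit 492) (B (M (nat_lit 457) (B (lo113_13_1 (nat_lit 458)) (lo112_15_3 (nat_lit 456)))) (lo112_15_6 (nat_lit 460)))) (B (M (nat_lit 458) (B (M (nat_lit 488) (B (lo18_15_2 (nat_lit 460)) (lo17_15_2 (nat_lit 487)))) (lo113_13_1 (nat_lit 457)))) (M (nat_lit 460) (B (lo112_15_6 (nat_lit 492)) (lo18_15_2 (nat_lit 488)))))))) (B (M (nat_lit 522) (B (M (nat_lit 492) (B (M (nat_lit 521) (B (M (nat_lit 520) (B (lo17_16_2 (nat_lit 519)) (lo112_15_1 (nat_lit 489)))) (lo113_15_1 (nat_lit 493)))) (lo112_15_6 (nat_lit 460)))) (lo111_12_5 (nat_lit 395)))) (M (nat_lit 395) (B (M (nat_lit 458) (B (lo113_13_1 (nat_lit 457)) (lo111_11_5 (nat_lit 363)))) (lo111_12_5 (nat_lit 522))))))) (lo111_16_6 (nat_lit 523)))) (B (M (nat_lit 333) (B (M (nat_lit 458) (B (M (nat_lit 332) (B (M (nat_lit 334) (B (M (nat_lit 331) (B (M (nat_lit 363) (B (lo111_10_5 (nat_lit 395)) (lo114_10_1 (nat_lit 362)))) (M (nat_lit 366) (B (lo111_10_0 (nat_lit 367)) (lo110_10_0 (nat_lit 330)))))) (lo113_13_6 (nat_lit 302)))) (lo113_13_7 (nat_lit 300)))) (lo113_13_1 (nat_lit 457)))) (lo113_9_5 (nat_lit 301)))) (M (nat_lit 333) (B (lo113_10_5 (nat_lit 460)) (lo113_9_5 (nat_lit 301))))))) (lo110_13_2 (nat_lit 398)))) (B (M (nat_lit 425) (B (M (nat_lit 457) (B (lo112_13_1 (nat_lit 456)) (lo113_13_1 (nat_lit 458)))) (M (nat_lit 424) (B (lo18_13_0 (nat_lit 460)) (lo18_13_2 (nat_lit 395)))))) (M (nat_lit 397) (B (lo110_13_2 (nat_lit 398)) (lo19_13_2 (nat_lit 425))))))) (B (K _ _ _ o1_s12849) (B (M (nat_lit 364) (B (M (nat_lit 491) (B (lo112_11_5 (nat_lit 460)) (lo111_16_6 (nat_lit 523)))) (lo112_10_5 (nat_lit 332)))) (B (M (nat_lit 364) (B (M (nat_lit 491) (B (lo111_15_6 (nat_lit 395)) (lo111_16_6 (nat_lit 523)))) (lo112_10_5 (nat_lit 332)))) (M (nat_lit 491) (B (M (nat_lit 364) (B (lo112_11_5 (nat_lit 460)) (lo111_15_6 (nat_lit 395)))) (lo111_16_6 (nat_lit 523))))))))) (B (M (nat_lit 491) (B (M (nat_lit 395) (B (M (nat_lit 396) (B (M (nat_lit 426) (B (M (nat_lit 490) (B (M (nat_lit 492) (B (M (nat_lit 489) (B (M (nat_lit 488) (B (M (nat_lit 487) (B (M (nat_lit 455) (B (lo111_15_3 (nat_lit 456)) (lo110_15_3 (nat_lit 454)))) (lo17_15_2 (nat_lit 458)))) (M (nat_lit 520) (B (lo112_15_1 (nat_lit 521)) (lo111_15_1 (nat_lit 519)))))) (B (M (nat_lit 488) (B (M (nat_lit 520) (B (lo112_15_1 (nat_lit 521)) (lo111_15_1 (nat_lit 519)))) (M (nat_lit 456) (B (lo112_15_3 (nat_lit 457)) (lo111_15_3 (nat_lit 455)))))) (B (M (nat_lit 488) (B (M (nat_lit 520) (B (lo112_15_1 (nat_lit 521)) (lo111_15_1 (nat_lit 519)))) (M (nat_lit 458) (B (lo113_13_1 (nat_lit 457)) (lo17_15_2 (nat_lit 487)))))) (M (nat_lit 457) (B (lo113_13_1 (nat_lit 458)) (lo112_15_3 (nat_lit 456)))))))) (lo111_12_4 (nat_lit 524)))) (lo111_12_5 (nat_lit 522)))) (M (nat_lit 397) (B (lo114_12_1 (nat_lit 398)) (lo19_13_2 (nat_lit 425)))))) (lo111_15_6 (nat_lit 364)))) (B (M (nat_lit 492) (B (K _ _ _ o1_s11571) (lo111_12_4 (nat_lit 524)))) (M (nat_lit 458) (B (M (nat_lit 457) (B (lo113_13_1 (nat_lit 426)) (lo18_14_2 (nat_lit 456)))) (M (nat_lit 490) (B (lo111_11_5 (nat_lit 363)) (lo111_12_5 (nat_lit 522))))))))) (B (M (nat_lit 458) (B (M (nat_lit 490) (B (M (nat_lit 523) (B (M (nat_lit 522) (B (M (nat_lit 524) (B (M (nat_lit 489) (B (lo18_15_0 (nat_lit 488)) (lo113_16_3 (nat_lit 525)))) (lo111_13_4 (nat_lit 556)))) (lo111_13_5 (nat_lit 554)))) (M (nat_lit 555) (B (lo111_17_7 (nat_lit 426)) (lo111_18_7 (nat_lit 587)))))) (B (M (nat_lit 524) (B (M (nat_lit 523) (B (M (nat_lit 555) (B (lo111_17_7 (nat_lit 426)) (lo111_18_7 (nat_lit 587)))) (lo111_13_4 (nat_lit 556)))) (M (nat_lit 395) (B (lo111_11_5 (nat_lit 363)) (lo111_12_4 (nat_lit 492)))))) (M (nat_lit 395) (B (lo111_11_5 (nat_lit 363)) (lo111_12_5 (nat_lit 522))))))) (B (K _ _ _ o1_s12931) (M (nat_lit 457) (B (lo113_13_1 (nat_lit 426)) (lo18_14_2 (nat_lit 456))))))) (B (K _ _ _ o1_s11618) (M (nat_lit 396) (B (M (nat_lit 364) (B (lo111_15_6 (nat_lit 395)) (lo112_10_5 (nat_lit 332)))) (lo111_16_6 (nat_lit 523)))))))) (B (M (nat_lit 457) (B (M (nat_lit 491) (B (M (nat_lit 425) (B (M (nat_lit 489) (B (M (nat_lit 460) (B (M (nat_lit 492) (B (M (nat_lit 396) (B (M (nat_lit 493) (B (M (nat_lit 490) (B (M (nat_lit 522) (B (lo19_12_4 (nat_lit 393)) (lo113_15_1 (nat_lit 521)))) (lo18_15_2 (nat_lit 488)))) (lo112_12_4 (nat_lit 525)))) (lo112_11_5 (nat_lit 364)))) (M (nat_lit 524) (B (lo112_16_6 (nat_lit 397)) (lo112_17_7 (nat_lit 556)))))) (B (M (nat_lit 393) (B (M (nat_lit 490) (B (lo18_15_2 (nat_lit 488)) (lo19_12_4 (nat_lit 522)))) (M (nat_lit 392) (B (lo112_13_3 (nat_lit 426)) (lo19_15_7 (nat_lit 360)))))) (M (nat_lit 396) (B (M (nat_lit 426) (B (lo18_13_0 (nat_lit 424)) (lo19_13_2 (nat_lit 397)))) (lo112_11_5 (nat_lit 364))))))) (B (M (nat_lit 460) (B (M (nat_lit 492) (B (M (nat_lit 396) (B (M (nat_lit 488) (B (M (nat_lit 520) (B (M (nat_lit 552) (B (lo19_13_5 (nat_lit 521)) (lo18_18_6 (nat_lit 584)))) (lo19_12_5 (nat_lit 393)))) (lo18_15_2 (nat_lit 490)))) (lo112_11_5 (nat_lit 364)))) (M (nat_lit 524) (B (lo112_16_6 (nat_lit 397)) (lo112_17_7 (nat_lit 556)))))) (B (M (nat_lit 393) (B (M (nat_lit 488) (B (lo18_15_2 (nat_lit 490)) (lo19_12_5 (nat_lit 520)))) (M (nat_lit 392) (B (lo112_13_3 (nat_lit 426)) (lo19_15_7 (nat_lit 360)))))) (M (nat_lit 396) (B (M (nat_lit 426) (B (lo18_13_0 (nat_lit 424)) (lo19_13_2 (nat_lit 397)))) (lo112_11_5 (nat_lit 364))))))) (B (M (nat_lit 521) (B (M (nat_lit 553) (B (M (nat_lit 552) (B (lo19_14_5 (nat_lit 584)) (lo19_13_5 (nat_lit 520)))) (M (nat_lit 554) (B (lo19_13_4 (nat_lit 522)) (lo19_14_4 (nat_lit 586)))))) (M (nat_lit 426) (B (M (nat_lit 397) (B (lo19_13_2 (nat_lit 396)) (lo110_13_2 (nat_lit 398)))) (M (nat_lit 424) (B (lo18_13_0 (nat_lit 460)) (lo19_16_7 (nat_lit 392)))))))) (B (K _ _ _ o1_s13000) (B (M (nat_lit 393) (B (M (nat_lit 521) (B (M (nat_lit 522) (B (lo19_12_4 (nat_lit 490)) (lo19_13_4 (nat_lit 554)))) (M (nat_lit 520) (B (lo19_12_5 (nat_lit 488)) (lo19_13_5 (nat_lit 552)))))) (M (nat_lit 392) (B (lo112_13_3 (nat_lit 426)) (lo19_15_7 (nat_lit 360)))))) (M (nat_lit 393) (B (M (nat_lit 490) (B (M (nat_lit 488) (B (lo19_12_5 (nat_lit 520)) (lo18_15_2 (nat_lit 460)))) (lo19_12_4 (nat_lit 522)))) (M (nat_lit 392) (B (lo112_13_3 (nat_lit 426)) (lo19_15_7 (nat_lit 360)))))))))))) (B (M (nat_lit 489) (B (M (nat_lit 490) (B (K _ _ _ o1_s12180) (B (M (nat_lit 488) (B (M (nat_lit 456) (B (M (nat_lit 520) (B (lo18_17_6 (nat_lit 552)) (lo111_15_1 (nat_lit 519)))) (lo111_15_3 (nat_lit 455)))) (lo18_15_2 (nat_lit 460)))) (B (M (nat_lit 520) (B (M (nat_lit 488) (B (lo18_15_2 (nat_lit 460)) (lo111_15_1 (nat_lit 519)))) (M (nat_lit 521) (B (lo112_15_1 (nat_lit 492)) (lo19_13_5 (nat_lit 552)))))) (M (nat_lit 456) (B (M (nat_lit 455) (B (lo111_15_3 (nat_lit 488)) (lo16_14_0 (nat_lit 454)))) (lo112_15_3 (nat_lit 492)))))))) (B (M (nat_lit 521) (B (M (nat_lit 393) (B (M (nat_lit 392) (B (lo19_16_7 (nat_lit 424)) (lo19_15_7 (nat_lit 360)))) (M (nat_lit 520) (B (lo19_12_5 (nat_lit 488)) (lo19_13_5 (nat_lit 552)))))) (B (M (nat_lit 553) (B (M (nat_lit 424) (B (lo19_17_7 (nat_lit 456)) (lo19_16_7 (nat_lit 392)))) (M (nat_lit 554) (B (lo19_13_4 (nat_lit 522)) (lo19_14_4 (nat_lit 586)))))) (M (nat_lit 553) (B (M (nat_lit 552) (B (lo19_14_5 (nat_lit 584)) (lo19_13_5 (nat_lit 520)))) (M (nat_lit 554) (B (lo19_13_4 (nat_lit 522)) (lo19_14_4 (nat_lit 586))))))))) (B (M (nat_lit 521) (B (M (nat_lit 553) (B (M (nat_lit 552) (B (lo19_14_5 (nat_lit 584)) (lo19_13_5 (nat_lit 520)))) (M (nat_lit 554) (B (lo19_13_4 (nat_lit 522)) (lo19_14_4 (nat_lit 586)))))) (B (M (nat_lit 553) (B (M (nat_lit 424) (B (lo19_17_7 (nat_lit 456)) (lo19_16_7 (nat_lit 392)))) (M (nat_lit 552) (B (lo19_14_5 (nat_lit 584)) (lo19_13_5 (nat_lit 520)))))) (M (nat_lit 393) (B (M (nat_lit 522) (B (lo19_12_4 (nat_lit 490)) (lo19_13_4 (nat_lit 554)))) (M (nat_lit 392) (B (lo19_16_7 (nat_lit 424)) (lo19_15_7 (nat_lit 360))))))))) (B (K _ _ _ o1_s13000) (B (M (nat_lit 488) (B (M (nat_lit 393) (B (M (nat_lit 490) (B (lo18_15_2 (nat_lit 460)) (lo19_12_4 (nat_lit 522)))) (lo19_12_5 (nat_lit 520)))) (B (M (nat_lit 520) (B (M (nat_lit 552) (B (lo18_17_6 (nat_lit 456)) (lo18_18_6 (nat_lit 584)))) (lo19_12_5 (nat_lit 393)))) (M (nat_lit 490) (B (M (nat_lit 456) (B (lo111_15_3 (nat_lit 455)) (lo112_15_3 (nat_lit 492)))) (lo18_15_2 (nat_lit 460))))))) (M (nat_lit 490) (B (M (nat_lit 522) (B (M (nat_lit 554) (B (lo19_13_4 (nat_lit 521)) (lo110_18_6 (nat_lit 586)))) (lo19_12_4 (nat_lit 393)))) (M (nat_lit 456) (B (M (nat_lit 455) (B (lo111_15_3 (nat_lit 488)) (lo16_14_0 (nat_lit 454)))) (lo112_15_3 (nat_lit 492)))))))))))) (M (nat_lit 426) (B (M (nat_lit 397) (B (lo19_13_2 (nat_lit 396)) (lo110_13_2 (nat_lit 398)))) (lo112_13_1 (nat_lit 456))))))) (B (K _ _ _ o1_s12225) (B (M (nat_lit 523) (B (K _ _ _ o1_s12215) (lo111_16_6 (nat_lit 396)))) (M (nat_lit 396) (B (M (nat_lit 364) (B (lo112_11_5 (nat_lit 460)) (lo112_10_5 (nat_lit 332)))) (lo111_16_6 (nat_lit 523)))))))) (B (M (nat_lit 458) (B (lo113_13_1 (nat_lit 426)) (lo19_14_2 (nat_lit 460)))) (B (M (nat_lit 458) (B (lo113_13_1 (nat_lit 426)) (lo18_14_2 (nat_lit 456)))) (M (nat_lit 458) (B (lo19_14_2 (nat_lit 460)) (lo18_14_2 (nat_lit 456)))))))) (B (M (nat_lit 396) (B (K _ _ _ o1_s13085) (B (K _ _ _ o1_s12849) (B (M (nat_lit 364) (B (M (nat_lit 491) (B (lo112_11_5 (nat_lit 460)) (lo111_16_6 (nat_lit 523)))) (lo112_10_5 (nat_lit 332)))) (B (M (nat_lit 364) (B (M (nat_lit 491) (B (lo111_15_6 (nat_lit 395)) (lo111_16_6 (nat_lit 523)))) (lo112_10_5 (nat_lit 332)))) (M (nat_lit 491) (B (M (nat_lit 364) (B (lo112_11_5 (nat_lit 460)) (lo111_15_6 (nat_lit 395)))) (lo111_16_6 (nat_lit 523))))))))) (B (K _ _ _ o1_s13165) (M (nat_lit 426) (B (M (nat_lit 491) (B (M (nat_lit 395) (B (M (nat_lit 492) (B (M (nat_lit 396) (B (M (nat_lit 397) (B (M (nat_lit 493) (B (M (nat_lit 460) (B (lo112_12_4 (nat_lit 525)) (lo112_15_6 (nat_lit 365)))) (M (nat_lit 458) (B (lo113_13_1 (nat_lit 457)) (lo114_15_3 (nat_lit 494)))))) (lo114_12_1 (nat_lit 398)))) (lo111_15_6 (nat_lit 364)))) (lo111_12_4 (nat_lit 524)))) (B (K _ _ _ o1_s13184) (B (M (nat_lit 363) (B (M (nat_lit 364) (B (lo111_14_6 (nat_lit 332)) (lo111_15_6 (nat_lit 396)))) (M (nat_lit 458) (B (lo113_13_1 (nat_lit 457)) (lo111_10_5 (nat_lit 331)))))) (M (nat_lit 363) (B (M (nat_lit 492) (B (lo111_11_4 (nat_lit 460)) (lo111_12_4 (nat_lit 524)))) (M (nat_lit 458) (B (lo113_13_1 (nat_lit 457)) (lo111_10_5 (nat_lit 331)))))))))) (B (M (nat_lit 523) (B (M (nat_lit 524) (B (M (nat_lit 397) (B (M (nat_lit 492) (B (lo112_16_6 (nat_lit 460)) (lo111_12_4 (nat_lit 395)))) (lo110_13_2 (nat_lit 398)))) (lo111_13_4 (nat_lit 556)))) (M (nat_lit 458) (B (lo111_17_7 (nat_lit 555)) (lo113_13_1 (nat_lit 457)))))) (B (M (nat_lit 396) (B (M (nat_lit 364) (B (lo111_15_6 (nat_lit 395)) (lo112_10_5 (nat_lit 332)))) (lo111_16_6 (nat_lit 523)))) (M (nat_lit 523) (B (M (nat_lit 555) (B (lo111_17_6 (nat_lit 460)) (lo111_17_7 (nat_lit 458)))) (lo111_16_6 (nat_lit 396)))))))) (B (K _ _ _ o1_s12732) (B (K _ _ _ o1_s12741) (M (nat_lit 425) (B (M (nat_lit 397) (B (lo110_13_2 (nat_lit 398)) (lo19_13_2 (nat_lit 396)))) (M (nat_lit 457) (B (lo113_13_1 (nat_lit 458)) (lo112_13_1 (nat_lit 456)))))))))))))))))))) (B (M (nat_lit 426) (B (M (nat_lit 397) (B (M (nat_lit 363) (B (M (nat_lit 333) (B (M (nat_lit 425) (B (M (nat_lit 331) (B (K _ _ _ o1_s13264) (B (M (nat_lit 330) (B (M (nat_lit 329) (B (M (nat_lit 362) (B (M (nat_lit 395) (B (lo111_10_5 (nat_lit 458)) (lo111_14_7 (nat_lit 459)))) (M (nat_lit 328) (B (lo17_10_0 (nat_lit 327)) (lo18_10_0 (nat_lit 364)))))) (B (M (nat_lit 328) (B (M (nat_lit 393) (B (M (nat_lit 296) (B (lo19_13_7 (nat_lit 361)) (lo111_10_3 (nat_lit 295)))) (lo112_13_3 (nat_lit 392)))) (lo18_10_0 (nat_lit 364)))) (M (nat_lit 458) (B (M (nat_lit 393) (B (lo19_10_4 (nat_lit 361)) (lo112_13_3 (nat_lit 392)))) (lo111_10_5 (nat_lit 395))))))) (B (M (nat_lit 329) (B (M (nat_lit 328) (B (M (nat_lit 359) (B (M (nat_lit 327) (B (lo17_10_0 (nat_lit 362)) (lo110_10_1 (nat_lit 358)))) (lo111_10_1 (nat_lit 360)))) (lo18_10_0 (nat_lit 364)))) (M (nat_lit 393) (B (M (nat_lit 361) (B (lo19_10_4 (nat_lit 458)) (lo19_13_6 (nat_lit 298)))) (lo112_13_3 (nat_lit 392)))))) (B (M (nat_lit 329) (B (M (nat_lit 328) (B (M (nat_lit 359) (B (M (nat_lit 327) (B (lo17_10_0 (nat_lit 362)) (lo110_10_1 (nat_lit 358)))) (lo111_10_1 (nat_lit 360)))) (lo18_10_0 (nat_lit 364)))) (M (nat_lit 393) (B (M (nat_lit 298) (B (lo111_13_7 (nat_lit 395)) (lo19_13_6 (nat_lit 361)))) (lo112_13_3 (nat_lit 392)))))) (M (nat_lit 395) (B (lo111_10_5 (nat_lit 458)) (lo111_13_7 (nat_lit 298)))))))) (B (M (nat_lit 332) (B (K _ _ _ o1_s13255) (M (nat_lit 395) (B (lo111_10_5 (nat_lit 458)) (lo111_13_6 (nat_lit 300)))))) (B (M (nat_lit 332) (B (M (nat_lit 362) (B (M (nat_lit 361) (B (lo18_11_2 (nat_lit 360)) (lo19_11_2 (nat_lit 364)))) (lo114_10_1 (nat_lit 334)))) (M (nat_lit 395) (B (lo111_10_5 (nat_lit 458)) (lo111_13_6 (nat_lit 300)))))) (M (nat_lit 332) (B (M (nat_lit 362) (B (M (nat_lit 361) (B (lo18_11_2 (nat_lit 360)) (lo113_10_1 (nat_lit 330)))) (lo114_10_1 (nat_lit 334)))) (M (nat_lit 395) (B (lo111_10_5 (nat_lit 458)) (lo111_13_6 (nat_lit 300))))))))))) (B (M (nat_lit 331) (B (K _ _ _ o1_s13264) (B (K _ _ _ o1_s13315) (M (nat_lit 424) (B (M (nat_lit 460) (B (lo111_10_4 (nat_lit 395)) (lo18_13_0 (nat_lit 459)))) (M (nat_lit 392) (B (lo112_13_3 (nat_lit 393)) (lo111_13_3 (nat_lit 391))))))))) (B (M (nat_lit 331) (B (M (nat_lit 332) (B (K _ _ _ o1_s13255) (B (M (nat_lit 361) (B (M (nat_lit 329) (B (M (nat_lit 330) (B (M (nat_lit 297) (B (lo113_10_3 (nat_lit 298)) (lo112_10_3 (nat_lit 296)))) (lo112_10_1 (nat_lit 360)))) (M (nat_lit 393) (B (lo112_13_3 (nat_lit 392)) (lo19_10_4 (nat_lit 458)))))) (B (M (nat_lit 362) (B (lo18_11_2 (nat_lit 360)) (lo19_11_2 (nat_lit 364)))) (M (nat_lit 362) (B (lo19_11_2 (nat_lit 364)) (lo113_10_1 (nat_lit 330))))))) (B (M (nat_lit 362) (B (M (nat_lit 361) (B (lo18_11_2 (nat_lit 360)) (lo19_11_2 (nat_lit 364)))) (lo114_10_1 (nat_lit 334)))) (M (nat_lit 362) (B (M (nat_lit 361) (B (lo18_11_2 (nat_lit 360)) (lo113_10_1 (nat_lit 330)))) (lo114_10_1 (nat_lit 334)))))))) (B (K _ _ _ o1_s13315) (M (nat_lit 395) (B (lo111_10_4 (nat_lit 460)) (lo111_10_5 (nat_lit 458))))))) (B (M (nat_lit 395) (B (M (nat_lit 459) (B (M (nat_lit 491) (B (M (nat_lit 523) (B (M (nat_lit 554) (B (M (nat_lit 555) (B (lo111_17_7 (nat_lit 458)) (lo111_14_5 (nat_lit 586)))) (lo111_13_5 (nat_lit 522)))) (M (nat_lit 524) (B (lo111_12_4 (nat_lit 492)) (lo111_13_4 (nat_lit 556)))))) (B (M (nat_lit 523) (B (M (nat_lit 524) (B (lo111_12_4 (nat_lit 492)) (lo111_13_4 (nat_lit 556)))) (M (nat_lit 522) (B (lo111_12_5 (nat_lit 490)) (lo111_13_5 (nat_lit 554)))))) (B (M (nat_lit 523) (B (M (nat_lit 458) (B (lo111_17_7 (nat_lit 555)) (lo111_11_5 (nat_lit 490)))) (M (nat_lit 524) (B (lo111_12_4 (nat_lit 492)) (lo111_13_4 (nat_lit 556)))))) (M (nat_lit 490) (B (lo111_11_5 (nat_lit 458)) (lo111_12_5 (nat_lit 522)))))))) (B (M (nat_lit 458) (B (M (nat_lit 424) (B (lo18_13_0 (nat_lit 460)) (lo17_13_0 (nat_lit 423)))) (lo111_11_5 (nat_lit 490)))) (M (nat_lit 460) (B (lo18_13_0 (nat_lit 424)) (lo111_11_4 (nat_lit 492))))))) (B (M (nat_lit 458) (B (M (nat_lit 490) (B (lo111_11_5 (nat_lit 459)) (lo110_16_6 (nat_lit 522)))) (lo111_10_5 (nat_lit 331)))) (B (M (nat_lit 460) (B (M (nat_lit 492) (B (lo111_11_4 (nat_lit 459)) (lo112_16_6 (nat_lit 524)))) (lo111_10_4 (nat_lit 331)))) (M (nat_lit 331) (B (lo111_10_4 (nat_lit 460)) (lo111_10_5 (nat_lit 458)))))))) (M (nat_lit 424) (B (M (nat_lit 423) (B (M (nat_lit 459) (B (lo18_13_0 (nat_lit 460)) (lo17_13_0 (nat_lit 458)))) (M (nat_lit 455) (B (lo111_13_1 (nat_lit 456)) (lo110_13_1 (nat_lit 454)))))) (M (nat_lit 392) (B (lo112_13_3 (nat_lit 393)) (lo111_13_3 (nat_lit 391))))))))))) (B (M (nat_lit 365) (B (M (nat_lit 331) (B (M (nat_lit 330) (B (M (nat_lit 364) (B (M (nat_lit 329) (B (lo113_11_3 (nat_lit 362)) (lo18_10_0 (nat_lit 328)))) (lo114_11_3 (nat_lit 366)))) (M (nat_lit 395) (B (lo111_10_5 (nat_lit 458)) (lo111_13_7 (nat_lit 298)))))) (B (M (nat_lit 332) (B (M (nat_lit 366) (B (M (nat_lit 367) (B (lo115_11_3 (nat_lit 364)) (lo116_11_3 (nat_lit 368)))) (lo110_10_0 (nat_lit 330)))) (lo113_13_7 (nat_lit 300)))) (M (nat_lit 300) (B (M (nat_lit 395) (B (M (nat_lit 268) (B (lo113_12_7 (nat_lit 301)) (lo111_12_6 (nat_lit 299)))) (lo111_10_5 (nat_lit 458)))) (lo113_13_7 (nat_lit 332))))))) (B (M (nat_lit 301) (B (M (nat_lit 302) (B (lo113_13_6 (nat_lit 334)) (lo113_12_6 (nat_lit 270)))) (M (nat_lit 300) (B (lo113_13_7 (nat_lit 332)) (lo113_12_7 (nat_lit 268)))))) (M (nat_lit 334) (B (M (nat_lit 364) (B (M (nat_lit 335) (B (lo111_11_2 (nat_lit 366)) (lo116_10_1 (nat_lit 336)))) (lo110_11_2 (nat_lit 362)))) (lo113_13_6 (nat_lit 302))))))) (B (M (nat_lit 395) (B (M (nat_lit 460) (B (M (nat_lit 492) (B (lo111_11_4 (nat_lit 459)) (lo112_16_6 (nat_lit 524)))) (lo113_10_5 (nat_lit 365)))) (B (M (nat_lit 458) (B (M (nat_lit 490) (B (lo111_11_5 (nat_lit 459)) (lo110_16_6 (nat_lit 522)))) (lo111_10_5 (nat_lit 331)))) (M (nat_lit 331) (B (lo111_10_4 (nat_lit 460)) (lo111_10_5 (nat_lit 458))))))) (M (nat_lit 365) (B (M (nat_lit 301) (B (M (nat_lit 302) (B (lo113_13_6 (nat_lit 334)) (lo113_12_6 (nat_lit 270)))) (M (nat_lit 300) (B (lo113_13_7 (nat_lit 332)) (lo113_12_7 (nat_lit 268)))))) (lo113_10_5 (nat_lit 460)))))))) (B (M (nat_lit 459) (B (M (nat_lit 362) (B (M (nat_lit 425) (B (M (nat_lit 330) (B (M (nat_lit 365) (B (M (nat_lit 333) (B (M (nat_lit 301) (B (M (nat_lit 302) (B (lo113_13_6 (nat_lit 334)) (lo113_12_6 (nat_lit 270)))) (M (nat_lit 300) (B (lo113_13_7 (nat_lit 332)) (lo113_12_7 (nat_lit 268)))))) (lo113_10_5 (nat_lit 460)))) (M (nat_lit 329) (B (M (nat_lit 393) (B (M (nat_lit 361) (B (lo19_10_4 (nat_lit 458)) (lo19_13_6 (nat_lit 298)))) (lo112_13_3 (nat_lit 392)))) (lo113_11_3 (nat_lit 364)))))) (lo111_14_7 (nat_lit 395)))) (B (M (nat_lit 424) (B (M (nat_lit 395) (B (M (nat_lit 458) (B (lo111_11_5 (nat_lit 490)) (lo17_13_0 (nat_lit 423)))) (lo111_14_7 (nat_lit 330)))) (M (nat_lit 392) (B (lo112_13_3 (nat_lit 393)) (lo111_13_3 (nat_lit 391)))))) (B (M (nat_lit 392) (B (M (nat_lit 424) (B (lo18_13_0 (nat_lit 460)) (lo111_13_3 (nat_lit 391)))) (lo112_13_3 (nat_lit 393)))) (M (nat_lit 395) (B (M (nat_lit 460) (B (lo111_11_4 (nat_lit 492)) (lo18_13_0 (nat_lit 424)))) (lo111_14_7 (nat_lit 330)))))))) (B (M (nat_lit 393) (B (M (nat_lit 460) (B (M (nat_lit 492) (B (lo112_16_6 (nat_lit 524)) (lo111_11_4 (nat_lit 395)))) (M (nat_lit 425) (B (lo18_13_0 (nat_lit 424)) (lo112_13_3 (nat_lit 392)))))) (lo113_13_3 (nat_lit 394)))) (B (M (nat_lit 330) (B (lo110_10_4 (nat_lit 394)) (lo111_14_7 (nat_lit 395)))) (M (nat_lit 394) (B (lo110_10_4 (nat_lit 330)) (lo113_13_3 (nat_lit 393)))))))) (B (M (nat_lit 425) (B (M (nat_lit 491) (B (M (nat_lit 523) (B (M (nat_lit 524) (B (M (nat_lit 522) (B (M (nat_lit 492) (B (M (nat_lit 521) (B (lo18_16_2 (nat_lit 520)) (lo19_16_2 (nat_lit 493)))) (lo112_16_6 (nat_lit 460)))) (lo111_13_5 (nat_lit 554)))) (lo111_13_4 (nat_lit 556)))) (B (M (nat_lit 556) (B (M (nat_lit 555) (B (lo111_17_7 (nat_lit 458)) (lo111_14_4 (nat_lit 588)))) (lo111_13_4 (nat_lit 524)))) (M (nat_lit 555) (B (lo111_17_6 (nat_lit 460)) (lo111_17_7 (nat_lit 458))))))) (B (M (nat_lit 523) (B (M (nat_lit 522) (B (M (nat_lit 393) (B (M (nat_lit 490) (B (lo111_12_5 (nat_lit 395)) (lo110_16_7 (nat_lit 458)))) (lo112_13_3 (nat_lit 392)))) (lo111_13_5 (nat_lit 554)))) (B (M (nat_lit 555) (B (M (nat_lit 554) (B (lo111_13_5 (nat_lit 522)) (lo111_14_5 (nat_lit 586)))) (lo111_17_6 (nat_lit 460)))) (M (nat_lit 555) (B (lo111_17_6 (nat_lit 460)) (lo111_17_7 (nat_lit 458))))))) (B (M (nat_lit 395) (B (M (nat_lit 523) (B (M (nat_lit 554) (B (M (nat_lit 555) (B (lo111_17_7 (nat_lit 458)) (lo111_14_5 (nat_lit 586)))) (lo111_13_5 (nat_lit 522)))) (M (nat_lit 524) (B (lo111_12_4 (nat_lit 492)) (lo111_13_4 (nat_lit 556)))))) (B (M (nat_lit 523) (B (M (nat_lit 524) (B (lo111_12_4 (nat_lit 492)) (lo111_13_4 (nat_lit 556)))) (M (nat_lit 522) (B (lo111_12_5 (nat_lit 490)) (lo111_13_5 (nat_lit 554)))))) (B (M (nat_lit 523) (B (M (nat_lit 458) (B (lo111_17_7 (nat_lit 555)) (lo111_11_5 (nat_lit 490)))) (M (nat_lit 524) (B (lo111_12_4 (nat_lit 492)) (lo111_13_4 (nat_lit 556)))))) (M (nat_lit 490) (B (lo111_11_5 (nat_lit 458)) (lo111_12_5 (nat_lit 522)))))))) (B (M (nat_lit 523) (B (M (nat_lit 395) (B (M (nat_lit 524) (B (lo111_12_4 (nat_lit 492)) (lo111_13_4 (nat_lit 556)))) (M (nat_lit 522) (B (lo111_12_5 (nat_lit 490)) (lo111_13_5 (nat_lit 554)))))) (B (M (nat_lit 555) (B (M (nat_lit 554) (B (lo111_13_5 (nat_lit 522)) (lo111_14_5 (nat_lit 586)))) (lo111_17_6 (nat_lit 460)))) (M (nat_lit 524) (B (M (nat_lit 492) (B (lo112_16_6 (nat_lit 460)) (lo111_12_4 (nat_lit 395)))) (lo111_13_4 (nat_lit 556))))))) (B (M (nat_lit 523) (B (M (nat_lit 524) (B (M (nat_lit 492) (B (lo112_16_6 (nat_lit 460)) (lo111_12_4 (nat_lit 395)))) (lo111_13_4 (nat_lit 556)))) (B (M (nat_lit 556) (B (M (nat_lit 555) (B (lo111_17_7 (nat_lit 458)) (lo111_14_4 (nat_lit 588)))) (lo111_13_4 (nat_lit 524)))) (M (nat_lit 555) (B (lo111_17_6 (nat_lit 460)) (lo111_17_7 (nat_lit 458))))))) (M (nat_lit 395) (B (M (nat_lit 492) (B (lo111_11_4 (nat_lit 460)) (lo111_12_4 (nat_lit 524)))) (M (nat_lit 490) (B (lo111_11_5 (nat_lit 458)) (lo111_12_5 (nat_lit 522)))))))))))) (B (M (nat_lit 424) (B (M (nat_lit 455) (B (M (nat_lit 423) (B (lo17_13_0 (nat_lit 458)) (lo110_13_1 (nat_lit 454)))) (lo111_13_1 (nat_lit 456)))) (M (nat_lit 392) (B (lo112_13_3 (nat_lit 393)) (lo111_13_3 (nat_lit 391)))))) (M (nat_lit 460) (B (M (nat_lit 492) (B (lo111_11_4 (nat_lit 395)) (lo112_16_6 (nat_lit 524)))) (lo18_13_0 (nat_lit 424))))))) (B (M (nat_lit 491) (B (M (nat_lit 395) (B (M (nat_lit 362) (B (lo111_14_7 (nat_lit 330)) (lo111_15_7 (nat_lit 394)))) (M (nat_lit 492) (B (lo111_11_4 (nat_lit 460)) (lo111_12_4 (nat_lit 524)))))) (B (M (nat_lit 395) (B (M (nat_lit 492) (B (lo111_11_4 (nat_lit 460)) (lo111_12_4 (nat_lit 524)))) (M (nat_lit 490) (B (lo111_11_5 (nat_lit 458)) (lo111_12_5 (nat_lit 522)))))) (M (nat_lit 394) (B (M (nat_lit 362) (B (lo110_11_4 (nat_lit 458)) (lo110_10_4 (nat_lit 330)))) (lo111_16_7 (nat_lit 523))))))) (B (M (nat_lit 394) (B (M (nat_lit 362) (B (M (nat_lit 491) (B (lo110_11_4 (nat_lit 458)) (lo111_16_7 (nat_lit 523)))) (lo110_10_4 (nat_lit 330)))) (lo113_13_3 (nat_lit 393)))) (M (nat_lit 394) (B (M (nat_lit 362) (B (M (nat_lit 491) (B (lo111_15_7 (nat_lit 395)) (lo111_16_7 (nat_lit 523)))) (lo110_10_4 (nat_lit 330)))) (lo113_13_3 (nat_lit 393))))))))) (B (M (nat_lit 331) (B (M (nat_lit 333) (B (M (nat_lit 332) (B (M (nat_lit 334) (B (M (nat_lit 330) (B (M (nat_lit 298) (B (lo114_10_3 (nat_lit 299)) (lo113_10_3 (nat_lit 297)))) (M (nat_lit 302) (B (lo110_10_2 (nat_lit 301)) (lo111_10_2 (nat_lit 303)))))) (M (nat_lit 335) (B (M (nat_lit 367) (B (lo111_10_0 (nat_lit 366)) (lo112_10_0 (nat_lit 368)))) (lo115_10_1 (nat_lit 364)))))) (B (M (nat_lit 330) (B (M (nat_lit 329) (B (M (nat_lit 297) (B (lo112_10_3 (nat_lit 296)) (lo113_10_3 (nat_lit 298)))) (M (nat_lit 301) (B (lo110_10_2 (nat_lit 302)) (lo19_10_2 (nat_lit 300)))))) (M (nat_lit 362) (B (M (nat_lit 394) (B (lo110_10_4 (nat_lit 459)) (lo110_13_6 (nat_lit 299)))) (lo113_10_1 (nat_lit 361)))))) (M (nat_lit 362) (B (M (nat_lit 361) (B (lo18_11_2 (nat_lit 360)) (lo19_11_2 (nat_lit 364)))) (lo114_10_1 (nat_lit 334))))))) (B (M (nat_lit 332) (B (M (nat_lit 362) (B (M (nat_lit 361) (B (lo18_11_2 (nat_lit 360)) (lo113_10_1 (nat_lit 330)))) (lo114_10_1 (nat_lit 334)))) (M (nat_lit 365) (B (lo113_10_5 (nat_lit 460)) (lo113_13_7 (nat_lit 300)))))) (B (M (nat_lit 365) (B (M (nat_lit 334) (B (M (nat_lit 364) (B (M (nat_lit 335) (B (lo111_11_2 (nat_lit 366)) (lo116_10_1 (nat_lit 336)))) (lo110_11_2 (nat_lit 362)))) (lo113_13_6 (nat_lit 302)))) (lo113_10_5 (nat_lit 460)))) (M (nat_lit 365) (B (M (nat_lit 332) (B (M (nat_lit 366) (B (M (nat_lit 367) (B (lo115_11_3 (nat_lit 364)) (lo116_11_3 (nat_lit 368)))) (lo110_10_0 (nat_lit 330)))) (lo113_13_7 (nat_lit 300)))) (lo113_10_5 (nat_lit 460)))))))) (B (M (nat_lit 332) (B (M (nat_lit 362) (B (M (nat_lit 333) (B (M (nat_lit 361) (B (lo18_11_2 (nat_lit 360)) (lo19_11_2 (nat_lit 364)))) (lo114_10_1 (nat_lit 334)))) (M (nat_lit 394) (B (M (nat_lit 330) (B (lo110_10_4 (nat_lit 459)) (lo110_13_6 (nat_lit 299)))) (lo110_14_6 (nat_lit 458)))))) (B (M (nat_lit 330) (B (M (nat_lit 362) (B (M (nat_lit 394) (B (lo110_10_4 (nat_lit 459)) (lo110_13_6 (nat_lit 299)))) (M (nat_lit 333) (B (lo113_10_1 (nat_lit 361)) (lo114_10_1 (nat_lit 334)))))) (M (nat_lit 395) (B (lo111_13_6 (nat_lit 300)) (lo111_13_7 (nat_lit 298)))))) (M (nat_lit 395) (B (lo111_10_5 (nat_lit 458)) (lo111_13_6 (nat_lit 300))))))) (M (nat_lit 395) (B (lo111_10_4 (nat_lit 460)) (lo111_10_5 (nat_lit 458))))))) (B (M (nat_lit 394) (B (M (nat_lit 362) (B (M (nat_lit 330) (B (M (nat_lit 298) (B (M (nat_lit 329) (B (M (nat_lit 365) (B (M (nat_lit 300) (B (M (nat_lit 299) (B (lo113_9_1 (nat_lit 301)) (lo110_12_6 (nat_lit 267)))) (M (nat_lit 333) (B (lo113_10_5 (nat_lit 460)) (lo113_13_7 (nat_lit 332)))))) (lo113_11_3 (nat_lit 364)))) (B (M (nat_lit 266) (B (M (nat_lit 361) (B (lo110_14_7 (nat_lit 458)) (lo110_7_5 (nat_lit 234)))) (M (nat_lit 267) (B (lo110_12_6 (nat_lit 299)) (lo110_11_6 (nat_lit 235)))))) (M (nat_lit 328) (B (M (nat_lit 364) (B (lo112_11_3 (nat_lit 361)) (lo113_11_3 (nat_lit 365)))) (lo17_10_0 (nat_lit 327))))))) (lo110_9_4 (nat_lit 395)))) (B (M (nat_lit 298) (B (M (nat_lit 266) (B (M (nat_lit 267) (B (lo110_12_6 (nat_lit 299)) (lo110_11_6 (nat_lit 235)))) (M (nat_lit 265) (B (lo110_12_7 (nat_lit 297)) (lo110_11_7 (nat_lit 233)))))) (lo110_9_4 (nat_lit 395)))) (M (nat_lit 329) (B (M (nat_lit 328) (B (M (nat_lit 364) (B (lo112_11_3 (nat_lit 361)) (lo113_11_3 (nat_lit 365)))) (lo17_10_0 (nat_lit 327)))) (lo110_13_7 (nat_lit 297))))))) (B (M (nat_lit 331) (B (K _ _ _ o1_s13729) (M (nat_lit 299) (B (lo111_8_5 (nat_lit 267)) (lo110_13_6 (nat_lit 330)))))) (B (M (nat_lit 331) (B (K _ _ _ o1_s13729) (lo110_14_6 (nat_lit 458)))) (M (nat_lit 331) (B (M (nat_lit 299) (B (lo111_8_5 (nat_lit 267)) (lo110_13_6 (nat_lit 330)))) (lo110_14_6 (nat_lit 458)))))))) (lo113_13_3 (nat_lit 393)))) (B (M (nat_lit 394) (B (M (nat_lit 362) (B (M (nat_lit 458) (B (M (nat_lit 490) (B (M (nat_lit 522) (B (M (nat_lit 554) (B (M (nat_lit 555) (B (lo110_13_4 (nat_lit 523)) (lo110_14_4 (nat_lit 587)))) (lo110_17_6 (nat_lit 459)))) (M (nat_lit 521) (B (lo110_12_5 (nat_lit 489)) (lo110_13_5 (nat_lit 553)))))) (B (M (nat_lit 522) (B (M (nat_lit 521) (B (lo110_12_5 (nat_lit 489)) (lo110_13_5 (nat_lit 553)))) (M (nat_lit 523) (B (lo110_12_4 (nat_lit 491)) (lo110_13_4 (nat_lit 555)))))) (B (M (nat_lit 522) (B (M (nat_lit 459) (B (lo110_17_6 (nat_lit 554)) (lo110_11_4 (nat_lit 491)))) (M (nat_lit 521) (B (lo110_12_5 (nat_lit 489)) (lo110_13_5 (nat_lit 553)))))) (M (nat_lit 491) (B (lo110_11_4 (nat_lit 459)) (lo110_12_4 (nat_lit 523)))))))) (lo110_14_6 (nat_lit 331)))) (B (M (nat_lit 330) (B (M (nat_lit 298) (B (M (nat_lit 297) (B (lo110_13_7 (nat_lit 329)) (lo110_12_7 (nat_lit 265)))) (M (nat_lit 299) (B (lo110_13_6 (nat_lit 331)) (lo110_12_6 (nat_lit 267)))))) (lo110_10_4 (nat_lit 459)))) (B (M (nat_lit 459) (B (M (nat_lit 491) (B (lo110_11_4 (nat_lit 458)) (lo111_16_7 (nat_lit 523)))) (lo110_10_4 (nat_lit 330)))) (M (nat_lit 331) (B (M (nat_lit 299) (B (lo111_8_5 (nat_lit 267)) (lo110_13_6 (nat_lit 330)))) (lo110_14_6 (nat_lit 458)))))))) (lo113_13_3 (nat_lit 393)))) (B (M (nat_lit 395) (B (M (nat_lit 394) (B (M (nat_lit 459) (B (M (nat_lit 365) (B (M (nat_lit 364) (B (lo111_14_6 (nat_lit 332)) (lo114_11_1 (nat_lit 366)))) (M (nat_lit 460) (B (lo111_11_4 (nat_lit 492)) (lo113_10_5 (nat_lit 333)))))) (M (nat_lit 491) (B (lo111_15_7 (nat_lit 362)) (lo111_16_7 (nat_lit 523)))))) (lo113_13_3 (nat_lit 393)))) (B (M (nat_lit 394) (B (M (nat_lit 331) (B (M (nat_lit 459) (B (M (nat_lit 362) (B (lo111_15_7 (nat_lit 491)) (lo110_10_4 (nat_lit 330)))) (M (nat_lit 332) (B (lo111_13_6 (nat_lit 300)) (lo111_14_6 (nat_lit 364)))))) (lo111_9_5 (nat_lit 299)))) (lo113_13_3 (nat_lit 393)))) (B (M (nat_lit 331) (B (M (nat_lit 394) (B (lo113_13_3 (nat_lit 393)) (lo111_9_5 (nat_lit 299)))) (lo111_10_4 (nat_lit 460)))) (M (nat_lit 460) (B (M (nat_lit 492) (B (lo111_11_4 (nat_lit 459)) (lo112_16_6 (nat_lit 524)))) (lo111_10_4 (nat_lit 331)))))))) (M (nat_lit 395) (B (M (nat_lit 394) (B (M (nat_lit 459) (B (M (nat_lit 365) (B (M (nat_lit 364) (B (lo111_14_6 (nat_lit 332)) (lo114_11_1 (nat_lit 366)))) (M (nat_lit 460) (B (lo111_11_4 (nat_lit 492)) (lo113_10_5 (nat_lit 333)))))) (M (nat_lit 491) (B (M (nat_lit 490) (B (lo111_11_5 (nat_lit 458)) (lo111_12_5 (nat_lit 522)))) (lo111_16_7 (nat_lit 523)))))) (lo113_13_3 (nat_lit 393)))) (B (M (nat_lit 331) (B (M (nat_lit 394) (B (lo113_13_3 (nat_lit 393)) (lo111_9_5 (nat_lit 299)))) (lo111_10_5 (nat_lit 458)))) (B (M (nat_lit 331) (B (M (nat_lit 394) (B (lo113_13_3 (nat_lit 393)) (lo111_9_5 (nat_lit 299)))) (lo111_10_4 (nat_lit 460)))) (M (nat_lit 331) (B (lo111_10_4 (nat_lit 460)) (lo111_10_5 (nat_lit 458))))))))))))))) (lo110_13_2 (nat_lit 398)))) (B (M (nat_lit 425) (B (M (nat_lit 459) (B (M (nat_lit 491) (B (M (nat_lit 395) (B (K _ _ _ o1_s13877) (K _ _ _ o1_s13895))) (B (M (nat_lit 456) (B (M (nat_lit 488) (B (M (nat_lit 520) (B (M (nat_lit 521) (B (M (nat_lit 522) (B (M (nat_lit 490) (B (M (nat_lit 492) (B (lo112_15_1 (nat_lit 489)) (lo113_15_1 (nat_lit 493)))) (lo111_12_5 (nat_lit 395)))) (M (nat_lit 523) (B (lo111_16_3 (nat_lit 487)) (lo111_13_5 (nat_lit 554)))))) (M (nat_lit 424) (B (M (nat_lit 391) (B (lo111_13_3 (nat_lit 392)) (lo18_16_7 (nat_lit 423)))) (lo18_13_4 (nat_lit 553)))))) (B (M (nat_lit 519) (B (M (nat_lit 490) (B (M (nat_lit 522) (B (M (nat_lit 554) (B (lo110_18_6 (nat_lit 586)) (lo111_13_5 (nat_lit 523)))) (lo111_12_5 (nat_lit 395)))) (lo111_15_1 (nat_lit 489)))) (M (nat_lit 424) (B (M (nat_lit 392) (B (lo18_12_5 (nat_lit 487)) (lo111_13_3 (nat_lit 391)))) (lo18_13_5 (nat_lit 551)))))) (B (M (nat_lit 522) (B (M (nat_lit 524) (B (M (nat_lit 395) (B (lo111_12_5 (nat_lit 490)) (lo111_12_4 (nat_lit 492)))) (M (nat_lit 523) (B (lo111_13_5 (nat_lit 554)) (lo111_13_4 (nat_lit 556)))))) (B (M (nat_lit 490) (B (M (nat_lit 519) (B (lo111_15_1 (nat_lit 489)) (lo17_16_2 (nat_lit 521)))) (lo111_12_5 (nat_lit 395)))) (M (nat_lit 523) (B (M (nat_lit 521) (B (lo18_16_2 (nat_lit 492)) (lo111_16_3 (nat_lit 487)))) (lo111_13_5 (nat_lit 554))))))) (M (nat_lit 424) (B (M (nat_lit 552) (B (M (nat_lit 551) (B (lo18_14_5 (nat_lit 583)) (lo18_13_5 (nat_lit 519)))) (M (nat_lit 553) (B (lo18_13_4 (nat_lit 521)) (lo18_14_4 (nat_lit 585)))))) (M (nat_lit 391) (B (lo111_13_3 (nat_lit 392)) (lo18_16_7 (nat_lit 423)))))))))) (B (M (nat_lit 424) (B (M (nat_lit 523) (B (M (nat_lit 522) (B (M (nat_lit 489) (B (M (nat_lit 490) (B (lo111_12_5 (nat_lit 395)) (lo17_15_0 (nat_lit 487)))) (M (nat_lit 392) (B (lo18_12_4 (nat_lit 521)) (lo111_13_3 (nat_lit 391)))))) (lo111_13_5 (nat_lit 554)))) (B (M (nat_lit 489) (B (M (nat_lit 392) (B (lo18_12_4 (nat_lit 521)) (lo111_13_3 (nat_lit 391)))) (M (nat_lit 524) (B (lo111_13_4 (nat_lit 556)) (lo18_15_0 (nat_lit 490)))))) (M (nat_lit 555) (B (M (nat_lit 554) (B (lo111_13_5 (nat_lit 522)) (lo111_14_5 (nat_lit 586)))) (M (nat_lit 556) (B (lo111_14_4 (nat_lit 588)) (lo111_13_4 (nat_lit 524))))))))) (lo111_13_1 (nat_lit 455)))) (B (M (nat_lit 490) (B (M (nat_lit 489) (B (M (nat_lit 492) (B (M (nat_lit 520) (B (lo112_15_1 (nat_lit 521)) (lo111_15_1 (nat_lit 519)))) (M (nat_lit 524) (B (lo19_15_0 (nat_lit 525)) (lo18_15_0 (nat_lit 523)))))) (lo111_15_3 (nat_lit 455)))) (B (M (nat_lit 395) (B (M (nat_lit 489) (B (M (nat_lit 492) (B (M (nat_lit 520) (B (lo112_15_1 (nat_lit 521)) (lo111_15_1 (nat_lit 519)))) (lo111_12_4 (nat_lit 524)))) (lo111_15_3 (nat_lit 455)))) (lo111_12_5 (nat_lit 522)))) (M (nat_lit 522) (B (M (nat_lit 554) (B (lo110_18_6 (nat_lit 586)) (lo111_13_5 (nat_lit 523)))) (lo111_12_5 (nat_lit 395))))))) (M (nat_lit 424) (B (M (nat_lit 391) (B (M (nat_lit 423) (B (lo18_16_7 (nat_lit 520)) (lo110_13_3 (nat_lit 390)))) (lo111_13_3 (nat_lit 392)))) (lo111_13_1 (nat_lit 455)))))))) (lo112_13_1 (nat_lit 457)))) (B (M (nat_lit 523) (B (M (nat_lit 555) (B (M (nat_lit 556) (B (lo111_14_4 (nat_lit 588)) (lo111_13_4 (nat_lit 524)))) (M (nat_lit 554) (B (lo111_14_5 (nat_lit 586)) (lo111_13_5 (nat_lit 522)))))) (lo111_16_7 (nat_lit 394)))) (M (nat_lit 394) (B (M (nat_lit 362) (B (lo111_15_7 (nat_lit 395)) (lo110_10_4 (nat_lit 330)))) (lo111_16_7 (nat_lit 523)))))))) (B (M (nat_lit 395) (B (M (nat_lit 491) (B (K _ _ _ o1_s14038) (B (M (nat_lit 523) (B (M (nat_lit 524) (B (lo111_12_4 (nat_lit 492)) (lo111_13_4 (nat_lit 556)))) (M (nat_lit 522) (B (lo111_12_5 (nat_lit 490)) (lo111_13_5 (nat_lit 554)))))) (M (nat_lit 394) (B (lo111_15_7 (nat_lit 362)) (lo111_16_7 (nat_lit 523))))))) (B (M (nat_lit 363) (B (M (nat_lit 491) (B (M (nat_lit 523) (B (M (nat_lit 556) (B (M (nat_lit 555) (B (lo111_17_6 (nat_lit 460)) (lo111_14_4 (nat_lit 588)))) (lo111_13_4 (nat_lit 524)))) (M (nat_lit 522) (B (lo111_12_5 (nat_lit 490)) (lo111_13_5 (nat_lit 554)))))) (B (M (nat_lit 523) (B (M (nat_lit 524) (B (lo111_12_4 (nat_lit 492)) (lo111_13_4 (nat_lit 556)))) (M (nat_lit 522) (B (lo111_12_5 (nat_lit 490)) (lo111_13_5 (nat_lit 554)))))) (B (M (nat_lit 523) (B (M (nat_lit 460) (B (lo111_17_6 (nat_lit 555)) (lo111_11_4 (nat_lit 492)))) (M (nat_lit 522) (B (lo111_12_5 (nat_lit 490)) (lo111_13_5 (nat_lit 554)))))) (M (nat_lit 492) (B (lo111_11_4 (nat_lit 460)) (lo111_12_4 (nat_lit 524)))))))) (M (nat_lit 331) (B (M (nat_lit 332) (B (lo111_13_6 (nat_lit 300)) (lo111_14_6 (nat_lit 364)))) (M (nat_lit 330) (B (lo111_14_7 (nat_lit 362)) (lo111_13_7 (nat_lit 298)))))))) (B (M (nat_lit 491) (B (K _ _ _ o1_s13895) (M (nat_lit 523) (B (M (nat_lit 524) (B (lo111_12_4 (nat_lit 492)) (lo111_13_4 (nat_lit 556)))) (M (nat_lit 522) (B (lo111_12_5 (nat_lit 490)) (lo111_13_5 (nat_lit 554)))))))) (B (M (nat_lit 491) (B (M (nat_lit 363) (B (K _ _ _ o1_s13886) (M (nat_lit 492) (B (lo111_11_4 (nat_lit 460)) (lo111_12_4 (nat_lit 524)))))) (B (M (nat_lit 523) (B (M (nat_lit 524) (B (lo111_12_4 (nat_lit 492)) (lo111_13_4 (nat_lit 556)))) (M (nat_lit 522) (B (lo111_12_5 (nat_lit 490)) (lo111_13_5 (nat_lit 554)))))) (M (nat_lit 523) (B (M (nat_lit 522) (B (lo111_12_5 (nat_lit 490)) (lo111_13_5 (nat_lit 554)))) (lo111_16_7 (nat_lit 394))))))) (M (nat_lit 363) (B (M (nat_lit 362) (B (M (nat_lit 364) (B (M (nat_lit 365) (B (M (nat_lit 397) (B (M (nat_lit 333) (B (lo113_10_5 (nat_lit 460)) (lo110_11_2 (nat_lit 334)))) (lo110_11_0 (nat_lit 398)))) (B (M (nat_lit 398) (B (M (nat_lit 366) (B (lo114_11_1 (nat_lit 394)) (lo111_11_0 (nat_lit 399)))) (lo110_11_0 (nat_lit 397)))) (M (nat_lit 334) (B (M (nat_lit 366) (B (lo114_11_1 (nat_lit 394)) (lo111_11_2 (nat_lit 335)))) (lo110_11_2 (nat_lit 333))))))) (lo111_14_6 (nat_lit 332)))) (lo111_14_7 (nat_lit 330)))) (B (M (nat_lit 331) (B (M (nat_lit 332) (B (lo111_13_6 (nat_lit 300)) (lo111_14_6 (nat_lit 364)))) (M (nat_lit 330) (B (lo111_14_7 (nat_lit 362)) (lo111_13_7 (nat_lit 298)))))) (B (M (nat_lit 330) (B (M (nat_lit 331) (B (lo111_10_4 (nat_lit 460)) (lo111_13_7 (nat_lit 298)))) (lo111_14_7 (nat_lit 362)))) (M (nat_lit 331) (B (M (nat_lit 332) (B (lo111_13_6 (nat_lit 300)) (lo111_14_6 (nat_lit 364)))) (lo111_10_4 (nat_lit 460))))))))))))) (B (M (nat_lit 460) (B (M (nat_lit 492) (B (M (nat_lit 491) (B (M (nat_lit 395) (B (M (nat_lit 490) (B (M (nat_lit 489) (B (M (nat_lit 394) (B (M (nat_lit 521) (B (lo19_16_6 (nat_lit 457)) (lo112_15_1 (nat_lit 520)))) (lo111_15_7 (nat_lit 362)))) (lo18_15_2 (nat_lit 488)))) (lo111_12_5 (nat_lit 522)))) (lo111_11_4 (nat_lit 363)))) (B (M (nat_lit 522) (B (M (nat_lit 523) (B (lo111_17_6 (nat_lit 555)) (lo111_13_5 (nat_lit 554)))) (M (nat_lit 395) (B (lo111_11_4 (nat_lit 363)) (lo111_12_5 (nat_lit 490)))))) (M (nat_lit 523) (B (lo111_17_6 (nat_lit 555)) (lo111_16_7 (nat_lit 394))))))) (M (nat_lit 397) (B (lo110_13_2 (nat_lit 398)) (lo112_16_6 (nat_lit 524)))))) (lo18_13_0 (nat_lit 424)))) (M (nat_lit 424) (B (M (nat_lit 423) (B (M (nat_lit 455) (B (lo110_13_1 (nat_lit 454)) (lo111_13_1 (nat_lit 456)))) (M (nat_lit 391) (B (lo110_13_3 (nat_lit 390)) (lo111_13_3 (nat_lit 392)))))) (lo18_13_0 (nat_lit 460)))))))) (B (K _ _ _ o1_s14145) (B (M (nat_lit 424) (B (M (nat_lit 456) (B (lo112_13_1 (nat_lit 457)) (lo111_13_1 (nat_lit 455)))) (M (nat_lit 392) (B (lo112_13_3 (nat_lit 393)) (lo111_13_3 (nat_lit 391)))))) (M (nat_lit 393) (B (lo112_13_3 (nat_lit 392)) (lo113_13_3 (nat_lit 394)))))))) (B (M (nat_lit 395) (B (K _ _ _ o1_s14212) (B (K _ _ _ o1_s14274) (B (K _ _ _ o1_s14281) (B (K _ _ _ o1_s14314) (B (K _ _ _ o1_s14316) (M (nat_lit 458) (B (M (nat_lit 363) (B (M (nat_lit 490) (B (lo110_15_6 (nat_lit 394)) (lo110_16_6 (nat_lit 522)))) (lo111_10_5 (nat_lit 331)))) (lo113_13_1 (nat_lit 457)))))))))) (B (K _ _ _ o1_s14330) (B (K _ _ _ o1_s14345) (M (nat_lit 425) (B (M (nat_lit 393) (B (lo112_13_3 (nat_lit 392)) (lo113_13_3 (nat_lit 394)))) (M (nat_lit 457) (B (lo113_13_1 (nat_lit 458)) (lo112_13_1 (nat_lit 456)))))))))))) (B (M (nat_lit 459) (B (K _ _ _ o1_s12273) (B (M (nat_lit 426) (B (M (nat_lit 395) (B (M (nat_lit 363) (B (M (nat_lit 425) (B (M (nat_lit 362) (B (M (nat_lit 364) (B (M (nat_lit 365) (B (M (nat_lit 334) (B (M (nat_lit 366) (B (lo114_11_1 (nat_lit 394)) (lo111_11_2 (nat_lit 335)))) (lo110_11_2 (nat_lit 333)))) (B (M (nat_lit 396) (B (M (nat_lit 366) (B (lo114_11_1 (nat_lit 394)) (lo115_11_1 (nat_lit 367)))) (lo19_13_2 (nat_lit 397)))) (M (nat_lit 397) (B (M (nat_lit 333) (B (lo113_10_5 (nat_lit 460)) (lo110_11_2 (nat_lit 334)))) (lo19_13_2 (nat_lit 396))))))) (lo111_14_6 (nat_lit 332)))) (lo111_14_7 (nat_lit 330)))) (B (M (nat_lit 460) (B (lo18_13_0 (nat_lit 424)) (lo111_11_4 (nat_lit 492)))) (M (nat_lit 396) (B (lo19_13_2 (nat_lit 397)) (lo18_13_2 (nat_lit 424))))))) (B (M (nat_lit 331) (B (M (nat_lit 332) (B (lo111_13_6 (nat_lit 300)) (lo111_14_6 (nat_lit 364)))) (M (nat_lit 330) (B (lo111_13_7 (nat_lit 298)) (lo111_14_7 (nat_lit 362)))))) (B (M (nat_lit 331) (B (M (nat_lit 330) (B (lo111_13_7 (nat_lit 298)) (lo111_14_7 (nat_lit 362)))) (lo111_10_4 (nat_lit 460)))) (M (nat_lit 331) (B (M (nat_lit 332) (B (lo111_13_6 (nat_lit 300)) (lo111_14_6 (nat_lit 364)))) (lo111_10_4 (nat_lit 460)))))))) (B (K _ _ _ o1_s14273) (M (nat_lit 458) (B (M (nat_lit 363) (B (lo111_10_5 (nat_lit 331)) (lo111_11_5 (nat_lit 490)))) (lo113_13_1 (nat_lit 457))))))) (B (M (nat_lit 458) (B (M (nat_lit 394) (B (M (nat_lit 490) (B (M (nat_lit 362) (B (M (nat_lit 363) (B (lo111_11_5 (nat_lit 395)) (lo110_14_6 (nat_lit 331)))) (lo110_10_4 (nat_lit 330)))) (M (nat_lit 522) (B (M (nat_lit 521) (B (lo110_12_5 (nat_lit 489)) (lo110_13_5 (nat_lit 553)))) (lo110_17_6 (nat_lit 554)))))) (lo113_13_3 (nat_lit 393)))) (lo113_13_1 (nat_lit 457)))) (B (K _ _ _ o1_s12732) (M (nat_lit 425) (B (M (nat_lit 424) (B (M (nat_lit 396) (B (lo18_13_2 (nat_lit 395)) (lo19_13_2 (nat_lit 397)))) (lo18_13_0 (nat_lit 460)))) (M (nat_lit 393) (B (lo113_13_3 (nat_lit 394)) (lo112_13_3 (nat_lit 392)))))))))) (B (M (nat_lit 395) (B (M (nat_lit 394) (B (M (nat_lit 363) (B (M (nat_lit 362) (B (M (nat_lit 361) (B (M (nat_lit 364) (B (M (nat_lit 365) (B (M (nat_lit 397) (B (M (nat_lit 333) (B (lo113_10_5 (nat_lit 460)) (lo110_11_2 (nat_lit 334)))) (lo19_11_0 (nat_lit 396)))) (lo114_11_1 (nat_lit 366)))) (lo111_14_6 (nat_lit 332)))) (B (M (nat_lit 328) (B (M (nat_lit 364) (B (lo111_14_6 (nat_lit 332)) (lo112_11_3 (nat_lit 329)))) (M (nat_lit 360) (B (lo17_11_0 (nat_lit 359)) (lo111_11_3 (nat_lit 327)))))) (M (nat_lit 360) (B (lo17_11_0 (nat_lit 359)) (lo18_11_0 (nat_lit 396))))))) (lo111_14_7 (nat_lit 330)))) (B (M (nat_lit 331) (B (M (nat_lit 330) (B (lo111_13_7 (nat_lit 298)) (lo111_14_7 (nat_lit 362)))) (M (nat_lit 332) (B (lo111_13_6 (nat_lit 300)) (lo111_14_6 (nat_lit 364)))))) (M (nat_lit 460) (B (lo111_10_4 (nat_lit 331)) (lo111_11_4 (nat_lit 492))))))) (M (nat_lit 393) (B (lo113_13_3 (nat_lit 426)) (lo18_12_0 (nat_lit 392)))))) (B (M (nat_lit 396) (B (K _ _ _ o1_s14443) (B (M (nat_lit 394) (B (M (nat_lit 491) (B (lo111_16_6 (nat_lit 523)) (lo111_15_7 (nat_lit 362)))) (lo19_12_0 (nat_lit 393)))) (M (nat_lit 364) (B (lo112_10_5 (nat_lit 332)) (lo111_15_6 (nat_lit 491))))))) (B (M (nat_lit 491) (B (M (nat_lit 523) (B (M (nat_lit 524) (B (lo111_12_4 (nat_lit 492)) (lo111_13_4 (nat_lit 556)))) (M (nat_lit 522) (B (lo111_13_5 (nat_lit 554)) (lo111_12_5 (nat_lit 490)))))) (M (nat_lit 394) (B (M (nat_lit 393) (B (lo113_13_3 (nat_lit 426)) (lo18_12_0 (nat_lit 392)))) (lo111_15_7 (nat_lit 362)))))) (M (nat_lit 491) (B (M (nat_lit 363) (B (M (nat_lit 492) (B (lo111_11_4 (nat_lit 460)) (lo111_12_4 (nat_lit 524)))) (M (nat_lit 364) (B (lo111_14_6 (nat_lit 332)) (lo111_15_6 (nat_lit 396)))))) (B (M (nat_lit 523) (B (M (nat_lit 524) (B (lo111_12_4 (nat_lit 492)) (lo111_13_4 (nat_lit 556)))) (M (nat_lit 522) (B (lo111_13_5 (nat_lit 554)) (lo111_12_5 (nat_lit 490)))))) (M (nat_lit 396) (B (lo111_16_6 (nat_lit 523)) (lo111_15_6 (nat_lit 364))))))))))) (B (K _ _ _ o1_s13165) (B (M (nat_lit 426) (B (M (nat_lit 458) (B (M (nat_lit 395) (B (M (nat_lit 396) (B (M (nat_lit 425) (B (lo19_13_2 (nat_lit 397)) (lo18_13_2 (nat_lit 424)))) (M (nat_lit 364) (B (lo111_15_6 (nat_lit 491)) (lo112_10_5 (nat_lit 332)))))) (M (nat_lit 363) (B (lo111_10_5 (nat_lit 331)) (lo111_11_5 (nat_lit 490)))))) (lo113_13_1 (nat_lit 457)))) (B (M (nat_lit 394) (B (M (nat_lit 362) (B (M (nat_lit 491) (B (lo111_15_7 (nat_lit 395)) (lo111_16_7 (nat_lit 523)))) (lo110_10_4 (nat_lit 330)))) (lo113_13_3 (nat_lit 393)))) (M (nat_lit 425) (B (M (nat_lit 393) (B (lo113_13_3 (nat_lit 394)) (lo112_13_3 (nat_lit 392)))) (M (nat_lit 457) (B (lo113_13_1 (nat_lit 458)) (lo112_13_1 (nat_lit 456))))))))) (M (nat_lit 426) (B (M (nat_lit 491) (B (M (nat_lit 457) (B (M (nat_lit 396) (B (M (nat_lit 364) (B (lo112_11_5 (nat_lit 460)) (lo112_10_5 (nat_lit 332)))) (M (nat_lit 425) (B (lo19_13_2 (nat_lit 397)) (lo112_13_1 (nat_lit 456)))))) (lo113_13_1 (nat_lit 458)))) (B (M (nat_lit 394) (B (M (nat_lit 362) (B (lo110_11_4 (nat_lit 458)) (lo110_10_4 (nat_lit 330)))) (lo111_16_7 (nat_lit 523)))) (M (nat_lit 523) (B (lo111_16_6 (nat_lit 396)) (lo111_16_7 (nat_lit 394))))))) (B (K _ _ _ o1_s12732) (B (M (nat_lit 425) (B (M (nat_lit 424) (B (M (nat_lit 456) (B (lo112_13_1 (nat_lit 457)) (lo111_13_1 (nat_lit 455)))) (lo18_13_0 (nat_lit 460)))) (M (nat_lit 393) (B (lo113_13_3 (nat_lit 394)) (lo112_13_3 (nat_lit 392)))))) (M (nat_lit 394) (B (M (nat_lit 491) (B (M (nat_lit 362) (B (lo110_11_4 (nat_lit 458)) (lo110_10_4 (nat_lit 330)))) (lo111_16_7 (nat_lit 523)))) (lo113_13_3 (nat_lit 393)))))))))))))) (B (M (nat_lit 363) (B (M (nat_lit 364) (B (M (nat_lit 396) (B (K _ _ _ o1_s14596) (B (K _ _ _ o1_s14627) (K _ _ _ o1_s14650)))) (B (M (nat_lit 396) (B (K _ _ _ o1_s14596) (B (K _ _ _ o1_s14660) (B (M (nat_lit 332) (B (M (nat_lit 300) (B (M (nat_lit 301) (B (lo112_13_6 (nat_lit 333)) (lo112_12_6 (nat_lit 269)))) (lo112_9_4 (nat_lit 397)))) (lo112_10_5 (nat_lit 459)))) (M (nat_lit 332) (B (M (nat_lit 300) (B (M (nat_lit 299) (B (lo112_13_7 (nat_lit 331)) (lo112_12_7 (nat_lit 267)))) (lo112_9_4 (nat_lit 397)))) (lo112_10_5 (nat_lit 459)))))))) (B (M (nat_lit 365) (B (M (nat_lit 333) (B (M (nat_lit 362) (B (M (nat_lit 330) (B (M (nat_lit 331) (B (M (nat_lit 298) (B (M (nat_lit 267) (B (M (nat_lit 394) (B (lo113_11_1 (nat_lit 393)) (lo111_8_5 (nat_lit 299)))) (M (nat_lit 266) (B (lo110_7_4 (nat_lit 234)) (lo110_11_6 (nat_lit 235)))))) (M (nat_lit 397) (B (M (nat_lit 332) (B (lo113_13_7 (nat_lit 300)) (lo113_10_3 (nat_lit 297)))) (lo113_10_5 (nat_lit 460)))))) (lo114_11_3 (nat_lit 366)))) (lo113_11_3 (nat_lit 329)))) (B (M (nat_lit 361) (B (M (nat_lit 329) (B (lo113_11_3 (nat_lit 330)) (lo112_11_3 (nat_lit 328)))) (M (nat_lit 393) (B (lo113_11_1 (nat_lit 394)) (lo112_11_1 (nat_lit 392)))))) (M (nat_lit 397) (B (M (nat_lit 332) (B (lo19_11_2 (nat_lit 361)) (lo113_13_7 (nat_lit 300)))) (lo113_10_5 (nat_lit 460))))))) (B (M (nat_lit 334) (B (M (nat_lit 397) (B (lo113_10_5 (nat_lit 460)) (lo113_13_6 (nat_lit 302)))) (M (nat_lit 335) (B (lo115_10_1 (nat_lit 332)) (lo111_11_2 (nat_lit 366)))))) (B (M (nat_lit 334) (B (M (nat_lit 335) (B (lo111_11_2 (nat_lit 366)) (lo116_10_1 (nat_lit 336)))) (lo110_11_2 (nat_lit 362)))) (M (nat_lit 397) (B (M (nat_lit 334) (B (lo113_13_6 (nat_lit 302)) (lo110_11_2 (nat_lit 362)))) (lo113_10_5 (nat_lit 460)))))))) (B (M (nat_lit 366) (B (K _ _ _ o1_s14728) (B (M (nat_lit 367) (B (M (nat_lit 331) (B (lo115_11_3 (nat_lit 332)) (lo114_11_3 (nat_lit 330)))) (M (nat_lit 399) (B (lo111_11_0 (nat_lit 398)) (lo112_11_0 (nat_lit 400)))))) (M (nat_lit 367) (B (M (nat_lit 331) (B (lo115_11_3 (nat_lit 332)) (lo114_11_3 (nat_lit 330)))) (M (nat_lit 335) (B (lo111_11_2 (nat_lit 334)) (lo112_11_2 (nat_lit 336))))))))) (B (M (nat_lit 362) (B (M (nat_lit 361) (B (M (nat_lit 397) (B (M (nat_lit 333) (B (lo113_10_5 (nat_lit 460)) (lo19_11_2 (nat_lit 332)))) (lo110_11_0 (nat_lit 398)))) (M (nat_lit 393) (B (lo113_11_1 (nat_lit 394)) (lo112_11_1 (nat_lit 392)))))) (B (M (nat_lit 361) (B (M (nat_lit 329) (B (lo113_11_3 (nat_lit 330)) (lo112_11_3 (nat_lit 328)))) (M (nat_lit 393) (B (lo113_11_1 (nat_lit 394)) (lo112_11_1 (nat_lit 392)))))) (M (nat_lit 366) (B (M (nat_lit 398) (B (lo110_11_0 (nat_lit 397)) (lo111_11_0 (nat_lit 399)))) (M (nat_lit 330) (B (lo113_11_3 (nat_lit 329)) (lo114_11_3 (nat_lit 331))))))))) (B (M (nat_lit 366) (B (M (nat_lit 367) (B (M (nat_lit 335) (B (lo111_11_2 (nat_lit 334)) (lo112_11_2 (nat_lit 336)))) (M (nat_lit 399) (B (lo111_11_0 (nat_lit 398)) (lo112_11_0 (nat_lit 400)))))) (B (M (nat_lit 362) (B (M (nat_lit 398) (B (lo110_11_0 (nat_lit 397)) (lo111_11_0 (nat_lit 399)))) (M (nat_lit 330) (B (lo113_11_3 (nat_lit 329)) (lo114_11_3 (nat_lit 331)))))) (M (nat_lit 367) (B (M (nat_lit 331) (B (lo115_11_3 (nat_lit 332)) (lo114_11_3 (nat_lit 330)))) (M (nat_lit 335) (B (lo111_11_2 (nat_lit 334)) (lo112_11_2 (nat_lit 336))))))))) (B (M (nat_lit 366) (B (M (nat_lit 367) (B (M (nat_lit 335) (B (lo111_11_2 (nat_lit 334)) (lo112_11_2 (nat_lit 336)))) (M (nat_lit 399) (B (lo111_11_0 (nat_lit 398)) (lo112_11_0 (nat_lit 400)))))) (B (M (nat_lit 362) (B (M (nat_lit 334) (B (lo110_11_2 (nat_lit 333)) (lo111_11_2 (nat_lit 335)))) (M (nat_lit 330) (B (lo113_11_3 (nat_lit 329)) (lo114_11_3 (nat_lit 331)))))) (M (nat_lit 367) (B (M (nat_lit 331) (B (lo115_11_3 (nat_lit 332)) (lo114_11_3 (nat_lit 330)))) (M (nat_lit 399) (B (lo111_11_0 (nat_lit 398)) (lo112_11_0 (nat_lit 400))))))))) (B (K _ _ _ o1_s14774) (K _ _ _ o1_s14781)))))))) (B (K _ _ _ o1_s14788) (B (M (nat_lit 396) (B (K _ _ _ o1_s14650) (B (K _ _ _ o1_s14660) (B (M (nat_lit 459) (B (M (nat_lit 491) (B (lo112_11_5 (nat_lit 460)) (lo111_16_6 (nat_lit 523)))) (lo112_10_5 (nat_lit 332)))) (M (nat_lit 331) (B (M (nat_lit 299) (B (lo111_8_4 (nat_lit 267)) (lo112_13_7 (nat_lit 332)))) (lo112_14_7 (nat_lit 460)))))))) (M (nat_lit 396) (B (K _ _ _ o1_s14650) (B (M (nat_lit 332) (B (M (nat_lit 300) (B (M (nat_lit 299) (B (lo112_13_7 (nat_lit 331)) (lo112_12_7 (nat_lit 267)))) (lo112_9_4 (nat_lit 397)))) (lo112_10_5 (nat_lit 459)))) (B (M (nat_lit 459) (B (M (nat_lit 491) (B (lo112_11_5 (nat_lit 460)) (lo111_16_6 (nat_lit 523)))) (lo112_10_5 (nat_lit 332)))) (M (nat_lit 331) (B (M (nat_lit 299) (B (lo111_8_4 (nat_lit 267)) (lo112_13_7 (nat_lit 332)))) (lo112_14_7 (nat_lit 460)))))))))))))) (B (M (nat_lit 395) (B (M (nat_lit 362) (B (K _ _ _ o1_s14854) (B (M (nat_lit 364) (B (M (nat_lit 361) (B (M (nat_lit 360) (B (M (nat_lit 328) (B (lo111_11_3 (nat_lit 327)) (lo112_11_3 (nat_lit 329)))) (M (nat_lit 392) (B (lo111_11_1 (nat_lit 391)) (lo112_11_1 (nat_lit 393)))))) (M (nat_lit 332) (B (M (nat_lit 300) (B (lo112_9_5 (nat_lit 396)) (lo112_8_5 (nat_lit 268)))) (lo19_11_2 (nat_lit 333)))))) (B (M (nat_lit 365) (B (M (nat_lit 361) (B (M (nat_lit 393) (B (lo113_11_1 (nat_lit 394)) (lo112_11_1 (nat_lit 392)))) (M (nat_lit 333) (B (lo19_11_2 (nat_lit 332)) (lo110_11_2 (nat_lit 334)))))) (B (M (nat_lit 366) (B (M (nat_lit 398) (B (lo110_11_0 (nat_lit 397)) (lo111_11_0 (nat_lit 399)))) (M (nat_lit 334) (B (lo110_11_2 (nat_lit 333)) (lo111_11_2 (nat_lit 335)))))) (M (nat_lit 394) (B (lo113_11_1 (nat_lit 393)) (lo114_11_1 (nat_lit 366))))))) (B (M (nat_lit 365) (B (M (nat_lit 332) (B (M (nat_lit 300) (B (lo112_9_5 (nat_lit 396)) (lo112_8_5 (nat_lit 268)))) (M (nat_lit 333) (B (lo19_11_2 (nat_lit 361)) (lo110_11_2 (nat_lit 334)))))) (M (nat_lit 330) (B (M (nat_lit 394) (B (lo110_9_4 (nat_lit 298)) (lo114_11_1 (nat_lit 366)))) (lo113_11_3 (nat_lit 329)))))) (K _ _ _ o1_s14905))))) (B (M (nat_lit 364) (B (M (nat_lit 361) (B (M (nat_lit 365) (B (M (nat_lit 360) (B (M (nat_lit 392) (B (lo112_11_1 (nat_lit 393)) (lo111_11_1 (nat_lit 391)))) (M (nat_lit 328) (B (lo112_11_3 (nat_lit 329)) (lo111_11_3 (nat_lit 327)))))) (M (nat_lit 333) (B (lo19_11_2 (nat_lit 332)) (lo110_11_2 (nat_lit 334)))))) (B (M (nat_lit 332) (B (M (nat_lit 300) (B (lo112_9_5 (nat_lit 396)) (lo112_8_5 (nat_lit 268)))) (lo19_11_2 (nat_lit 333)))) (M (nat_lit 396) (B (lo18_11_0 (nat_lit 360)) (lo19_11_0 (nat_lit 397))))))) (B (M (nat_lit 396) (B (M (nat_lit 459) (B (lo111_14_7 (nat_lit 330)) (lo111_15_6 (nat_lit 491)))) (M (nat_lit 361) (B (lo18_11_0 (nat_lit 360)) (lo19_11_0 (nat_lit 397)))))) (M (nat_lit 459) (B (lo111_14_6 (nat_lit 332)) (lo111_14_7 (nat_lit 330))))))) (M (nat_lit 330) (B (M (nat_lit 298) (B (lo110_9_4 (nat_lit 394)) (lo110_8_4 (nat_lit 266)))) (lo111_14_7 (nat_lit 459)))))))) (B (K _ _ _ o1_s14991) (B (K _ _ _ o1_s15046) (B (K _ _ _ o1_s15094) (B (M (nat_lit 331) (B (K _ _ _ o1_s15116) (B (M (nat_lit 299) (B (M (nat_lit 298) (B (lo111_13_7 (nat_lit 330)) (lo111_12_7 (nat_lit 266)))) (lo111_9_4 (nat_lit 396)))) (M (nat_lit 300) (B (M (nat_lit 299) (B (lo111_9_4 (nat_lit 396)) (lo111_12_6 (nat_lit 268)))) (lo111_13_6 (nat_lit 332))))))) (B (K _ _ _ o1_s15135) (K _ _ _ o1_s15144)))))))) (B (M (nat_lit 364) (B (M (nat_lit 365) (B (M (nat_lit 366) (B (K _ _ _ o1_s14728) (B (M (nat_lit 367) (B (M (nat_lit 399) (B (lo111_11_0 (nat_lit 398)) (lo112_11_0 (nat_lit 400)))) (M (nat_lit 395) (B (lo114_11_1 (nat_lit 394)) (lo115_11_1 (nat_lit 396)))))) (M (nat_lit 367) (B (M (nat_lit 395) (B (lo114_11_1 (nat_lit 394)) (lo115_11_1 (nat_lit 396)))) (M (nat_lit 335) (B (lo111_11_2 (nat_lit 334)) (lo112_11_2 (nat_lit 336))))))))) (B (M (nat_lit 331) (B (M (nat_lit 299) (B (M (nat_lit 300) (B (M (nat_lit 332) (B (M (nat_lit 362) (B (M (nat_lit 333) (B (lo114_10_1 (nat_lit 334)) (lo19_11_2 (nat_lit 361)))) (M (nat_lit 394) (B (lo113_11_1 (nat_lit 393)) (lo111_8_5 (nat_lit 267)))))) (M (nat_lit 268) (B (lo112_7_5 (nat_lit 236)) (lo112_8_4 (nat_lit 397)))))) (B (M (nat_lit 394) (B (M (nat_lit 395) (B (lo114_11_1 (nat_lit 366)) (lo111_12_6 (nat_lit 268)))) (M (nat_lit 362) (B (lo111_8_5 (nat_lit 267)) (lo113_11_1 (nat_lit 393)))))) (B (M (nat_lit 394) (B (M (nat_lit 362) (B (lo111_8_5 (nat_lit 267)) (lo113_11_1 (nat_lit 393)))) (M (nat_lit 395) (B (lo111_13_6 (nat_lit 332)) (lo114_11_1 (nat_lit 366)))))) (M (nat_lit 395) (B (lo111_13_6 (nat_lit 332)) (lo111_12_6 (nat_lit 268)))))))) (B (M (nat_lit 396) (B (lo111_9_4 (nat_lit 395)) (lo112_13_7 (nat_lit 332)))) (B (M (nat_lit 396) (B (lo112_13_7 (nat_lit 332)) (lo111_8_4 (nat_lit 267)))) (M (nat_lit 396) (B (lo111_9_4 (nat_lit 395)) (lo111_8_4 (nat_lit 267)))))))) (B (M (nat_lit 332) (B (M (nat_lit 333) (B (M (nat_lit 396) (B (lo112_13_6 (nat_lit 301)) (lo112_13_7 (nat_lit 299)))) (M (nat_lit 362) (B (lo19_11_2 (nat_lit 361)) (lo114_10_1 (nat_lit 334)))))) (M (nat_lit 330) (B (M (nat_lit 395) (B (lo111_13_6 (nat_lit 300)) (lo111_13_7 (nat_lit 298)))) (lo19_10_0 (nat_lit 329)))))) (B (M (nat_lit 330) (B (M (nat_lit 329) (B (lo19_10_0 (nat_lit 332)) (lo18_10_0 (nat_lit 328)))) (lo114_11_3 (nat_lit 366)))) (M (nat_lit 330) (B (M (nat_lit 329) (B (lo18_10_0 (nat_lit 328)) (lo113_11_3 (nat_lit 362)))) (lo114_11_3 (nat_lit 366)))))))) (B (M (nat_lit 332) (B (M (nat_lit 362) (B (M (nat_lit 366) (B (M (nat_lit 330) (B (lo113_11_3 (nat_lit 329)) (lo114_11_3 (nat_lit 331)))) (M (nat_lit 398) (B (lo110_11_0 (nat_lit 397)) (lo111_11_0 (nat_lit 399)))))) (B (M (nat_lit 331) (B (M (nat_lit 361) (B (lo18_11_2 (nat_lit 360)) (lo19_11_2 (nat_lit 333)))) (M (nat_lit 330) (B (lo19_10_0 (nat_lit 329)) (lo114_11_3 (nat_lit 366)))))) (M (nat_lit 397) (B (M (nat_lit 361) (B (lo19_11_0 (nat_lit 396)) (lo19_11_2 (nat_lit 333)))) (lo110_11_0 (nat_lit 398))))))) (B (M (nat_lit 331) (B (M (nat_lit 366) (B (M (nat_lit 395) (B (lo114_11_1 (nat_lit 394)) (lo111_13_6 (nat_lit 300)))) (lo115_11_3 (nat_lit 367)))) (B (M (nat_lit 330) (B (M (nat_lit 395) (B (lo111_13_6 (nat_lit 300)) (lo111_13_7 (nat_lit 298)))) (lo19_10_0 (nat_lit 329)))) (M (nat_lit 330) (B (lo114_11_3 (nat_lit 366)) (lo19_10_0 (nat_lit 329))))))) (M (nat_lit 300) (B (M (nat_lit 397) (B (lo112_9_4 (nat_lit 396)) (lo113_13_7 (nat_lit 333)))) (B (M (nat_lit 395) (B (lo112_9_5 (nat_lit 396)) (lo112_8_5 (nat_lit 268)))) (M (nat_lit 397) (B (lo113_13_7 (nat_lit 333)) (lo112_8_4 (nat_lit 268)))))))))) (B (M (nat_lit 362) (B (M (nat_lit 333) (B (M (nat_lit 332) (B (M (nat_lit 330) (B (M (nat_lit 331) (B (M (nat_lit 301) (B (lo112_13_6 (nat_lit 396)) (lo110_10_2 (nat_lit 302)))) (M (nat_lit 298) (B (lo111_13_7 (nat_lit 395)) (lo113_10_3 (nat_lit 297)))))) (lo113_11_3 (nat_lit 329)))) (M (nat_lit 397) (B (lo113_13_7 (nat_lit 300)) (lo110_11_0 (nat_lit 398)))))) (lo110_11_2 (nat_lit 334)))) (B (M (nat_lit 397) (B (M (nat_lit 333) (B (M (nat_lit 332) (B (lo19_11_2 (nat_lit 361)) (lo113_13_7 (nat_lit 300)))) (lo110_11_2 (nat_lit 334)))) (lo110_11_0 (nat_lit 398)))) (B (M (nat_lit 361) (B (M (nat_lit 397) (B (lo19_11_0 (nat_lit 396)) (lo110_11_0 (nat_lit 398)))) (M (nat_lit 329) (B (lo113_11_3 (nat_lit 330)) (lo112_11_3 (nat_lit 328)))))) (M (nat_lit 361) (B (M (nat_lit 329) (B (lo113_11_3 (nat_lit 330)) (lo112_11_3 (nat_lit 328)))) (M (nat_lit 333) (B (lo19_11_2 (nat_lit 332)) (lo110_11_2 (nat_lit 334)))))))))) (B (M (nat_lit 366) (B (M (nat_lit 367) (B (M (nat_lit 335) (B (lo111_11_2 (nat_lit 334)) (lo112_11_2 (nat_lit 336)))) (M (nat_lit 399) (B (lo111_11_0 (nat_lit 398)) (lo112_11_0 (nat_lit 400)))))) (M (nat_lit 362) (B (M (nat_lit 394) (B (lo114_11_1 (nat_lit 395)) (lo113_11_1 (nat_lit 393)))) (M (nat_lit 330) (B (lo113_11_3 (nat_lit 329)) (lo114_11_3 (nat_lit 331)))))))) (K _ _ _ o1_s15273))))))) (B (M (nat_lit 331) (B (M (nat_lit 332) (B (M (nat_lit 333) (B (M (nat_lit 299) (B (M (nat_lit 330) (B (M (nat_lit 298) (B (M (nat_lit 301) (B (M (nat_lit 300) (B (M (nat_lit 266) (B (lo110_7_4 (nat_lit 234)) (lo113_9_3 (nat_lit 265)))) (M (nat_lit 269) (B (lo113_7_5 (nat_lit 237)) (lo110_9_2 (nat_lit 270)))))) (lo110_10_2 (nat_lit 302)))) (lo113_10_3 (nat_lit 297)))) (M (nat_lit 329) (B (M (nat_lit 361) (B (lo113_10_1 (nat_lit 362)) (lo112_10_1 (nat_lit 360)))) (lo18_10_0 (nat_lit 328)))))) (B (M (nat_lit 298) (B (M (nat_lit 267) (B (M (nat_lit 301) (B (M (nat_lit 330) (B (M (nat_lit 329) (B (lo113_9_1 (nat_lit 300)) (lo18_10_0 (nat_lit 328)))) (lo110_10_2 (nat_lit 302)))) (M (nat_lit 268) (B (M (nat_lit 269) (B (lo113_7_5 (nat_lit 237)) (lo114_8_1 (nat_lit 270)))) (lo111_11_6 (nat_lit 236)))))) (lo111_7_4 (nat_lit 235)))) (B (M (nat_lit 297) (B (lo18_9_0 (nat_lit 296)) (lo113_10_3 (nat_lit 330)))) (M (nat_lit 297) (B (lo18_9_0 (nat_lit 296)) (lo19_9_0 (nat_lit 300))))))) (M (nat_lit 362) (B (M (nat_lit 267) (B (lo111_8_5 (nat_lit 394)) (lo111_7_4 (nat_lit 235)))) (lo19_11_2 (nat_lit 361))))))) (B (M (nat_lit 334) (B (M (nat_lit 330) (B (M (nat_lit 302) (B (lo111_10_2 (nat_lit 303)) (lo110_10_2 (nat_lit 301)))) (M (nat_lit 298) (B (lo114_10_3 (nat_lit 299)) (lo113_10_3 (nat_lit 297)))))) (lo115_10_1 (nat_lit 335)))) (M (nat_lit 362) (B (lo114_10_1 (nat_lit 334)) (lo19_11_2 (nat_lit 361))))))) (B (M (nat_lit 330) (B (M (nat_lit 333) (B (M (nat_lit 329) (B (M (nat_lit 361) (B (lo113_10_1 (nat_lit 362)) (lo112_10_1 (nat_lit 360)))) (lo18_10_0 (nat_lit 328)))) (M (nat_lit 334) (B (M (nat_lit 302) (B (lo111_10_2 (nat_lit 303)) (lo110_10_2 (nat_lit 301)))) (lo115_10_1 (nat_lit 335)))))) (M (nat_lit 395) (B (lo111_10_4 (nat_lit 460)) (lo111_13_7 (nat_lit 298)))))) (M (nat_lit 395) (B (lo111_10_4 (nat_lit 460)) (lo111_13_6 (nat_lit 300))))))) (B (K _ _ _ o1_s15355) (B (M (nat_lit 396) (B (M (nat_lit 299) (B (lo111_8_4 (nat_lit 267)) (lo112_13_7 (nat_lit 332)))) (lo112_14_7 (nat_lit 460)))) (M (nat_lit 460) (B (lo111_10_4 (nat_lit 395)) (lo112_14_7 (nat_lit 396)))))))) (B (M (nat_lit 365) (B (M (nat_lit 331) (B (M (nat_lit 332) (B (M (nat_lit 300) (B (M (nat_lit 268) (B (M (nat_lit 267) (B (M (nat_lit 362) (B (M (nat_lit 361) (B (lo18_11_2 (nat_lit 360)) (lo19_11_2 (nat_lit 333)))) (M (nat_lit 394) (B (lo111_8_5 (nat_lit 299)) (lo113_11_1 (nat_lit 393)))))) (lo112_11_7 (nat_lit 235)))) (lo112_7_5 (nat_lit 236)))) (B (M (nat_lit 398) (B (M (nat_lit 366) (B (lo115_11_3 (nat_lit 367)) (lo111_11_0 (nat_lit 399)))) (M (nat_lit 397) (B (lo113_13_7 (nat_lit 333)) (lo110_11_0 (nat_lit 362)))))) (M (nat_lit 268) (B (lo112_7_5 (nat_lit 236)) (lo112_8_4 (nat_lit 397))))))) (B (M (nat_lit 395) (B (M (nat_lit 366) (B (lo114_11_1 (nat_lit 394)) (lo115_11_3 (nat_lit 367)))) (lo111_10_4 (nat_lit 460)))) (M (nat_lit 395) (B (lo111_10_4 (nat_lit 460)) (lo111_13_6 (nat_lit 300))))))) (B (M (nat_lit 330) (B (M (nat_lit 329) (B (lo19_10_0 (nat_lit 332)) (lo18_10_0 (nat_lit 328)))) (M (nat_lit 395) (B (lo111_13_7 (nat_lit 298)) (lo111_10_4 (nat_lit 460)))))) (B (M (nat_lit 395) (B (M (nat_lit 330) (B (lo111_13_7 (nat_lit 298)) (lo114_11_3 (nat_lit 366)))) (lo111_10_4 (nat_lit 460)))) (M (nat_lit 330) (B (M (nat_lit 329) (B (lo19_10_0 (nat_lit 332)) (lo18_10_0 (nat_lit 328)))) (lo114_11_3 (nat_lit 366)))))))) (B (K _ _ _ o1_s15399) (B (M (nat_lit 331) (B (M (nat_lit 332) (B (M (nat_lit 333) (B (M (nat_lit 397) (B (lo113_10_5 (nat_lit 460)) (lo113_13_7 (nat_lit 300)))) (M (nat_lit 362) (B (lo19_11_2 (nat_lit 361)) (lo114_10_1 (nat_lit 334)))))) (B (M (nat_lit 333) (B (M (nat_lit 300) (B (lo113_13_7 (nat_lit 397)) (lo111_13_6 (nat_lit 395)))) (M (nat_lit 362) (B (lo19_11_2 (nat_lit 361)) (lo114_10_1 (nat_lit 334)))))) (M (nat_lit 395) (B (M (nat_lit 366) (B (lo114_11_1 (nat_lit 394)) (lo115_11_3 (nat_lit 367)))) (lo111_10_4 (nat_lit 460))))))) (B (M (nat_lit 330) (B (M (nat_lit 329) (B (lo19_10_0 (nat_lit 332)) (lo18_10_0 (nat_lit 328)))) (M (nat_lit 395) (B (lo111_13_7 (nat_lit 298)) (lo111_10_4 (nat_lit 460)))))) (B (M (nat_lit 395) (B (M (nat_lit 330) (B (lo111_13_7 (nat_lit 298)) (lo114_11_3 (nat_lit 366)))) (lo111_10_4 (nat_lit 460)))) (M (nat_lit 330) (B (M (nat_lit 329) (B (lo19_10_0 (nat_lit 332)) (lo18_10_0 (nat_lit 328)))) (lo114_11_3 (nat_lit 366)))))))) (B (K _ _ _ o1_s15415) (B (K _ _ _ o1_s14774) (K _ _ _ o1_s14781))))))) (B (K _ _ _ o1_s15447) (B (M (nat_lit 365) (B (M (nat_lit 396) (B (M (nat_lit 366) (B (M (nat_lit 332) (B (M (nat_lit 334) (B (M (nat_lit 302) (B (M (nat_lit 398) (B (M (nat_lit 301) (B (lo112_13_6 (nat_lit 333)) (lo114_12_7 (nat_lit 269)))) (lo111_11_0 (nat_lit 399)))) (B (M (nat_lit 397) (B (lo114_9_5 (nat_lit 398)) (lo114_8_5 (nat_lit 270)))) (M (nat_lit 397) (B (lo113_13_6 (nat_lit 333)) (lo114_8_5 (nat_lit 270))))))) (lo111_11_2 (nat_lit 335)))) (M (nat_lit 395) (B (lo112_9_5 (nat_lit 300)) (lo114_11_1 (nat_lit 394)))))) (B (M (nat_lit 367) (B (M (nat_lit 335) (B (lo112_11_2 (nat_lit 336)) (lo111_11_2 (nat_lit 334)))) (M (nat_lit 399) (B (lo111_11_0 (nat_lit 398)) (lo112_11_0 (nat_lit 400)))))) (M (nat_lit 395) (B (lo114_11_1 (nat_lit 394)) (lo115_11_1 (nat_lit 367))))))) (B (M (nat_lit 395) (B (M (nat_lit 331) (B (lo111_10_4 (nat_lit 460)) (lo111_9_4 (nat_lit 299)))) (M (nat_lit 394) (B (lo114_11_1 (nat_lit 366)) (lo19_12_0 (nat_lit 393)))))) (M (nat_lit 460) (B (lo112_14_6 (nat_lit 333)) (lo112_14_7 (nat_lit 331))))))) (B (M (nat_lit 396) (B (K _ _ _ o1_s15497) (B (M (nat_lit 395) (B (M (nat_lit 331) (B (lo111_10_4 (nat_lit 460)) (lo111_9_4 (nat_lit 299)))) (M (nat_lit 394) (B (lo114_11_1 (nat_lit 366)) (lo19_12_0 (nat_lit 393)))))) (M (nat_lit 333) (B (M (nat_lit 301) (B (lo112_13_6 (nat_lit 332)) (lo113_8_5 (nat_lit 269)))) (lo112_14_6 (nat_lit 460))))))) (B (M (nat_lit 396) (B (K _ _ _ o1_s15497) (B (M (nat_lit 397) (B (M (nat_lit 362) (B (lo110_11_0 (nat_lit 398)) (lo19_11_0 (nat_lit 361)))) (M (nat_lit 460) (B (lo112_15_6 (nat_lit 492)) (lo112_14_7 (nat_lit 331)))))) (M (nat_lit 333) (B (M (nat_lit 301) (B (lo112_13_6 (nat_lit 332)) (lo113_8_5 (nat_lit 269)))) (lo112_14_6 (nat_lit 460))))))) (B (K _ _ _ o1_s15418) (B (K _ _ _ o1_s14781) (K _ _ _ o1_s15512))))))) (B (M (nat_lit 365) (B (M (nat_lit 396) (B (M (nat_lit 362) (B (M (nat_lit 331) (B (M (nat_lit 299) (B (lo111_9_4 (nat_lit 395)) (lo111_8_4 (nat_lit 267)))) (M (nat_lit 330) (B (lo113_11_3 (nat_lit 329)) (lo114_11_3 (nat_lit 366)))))) (M (nat_lit 397) (B (M (nat_lit 333) (B (lo113_9_5 (nat_lit 301)) (lo110_11_2 (nat_lit 334)))) (lo19_11_0 (nat_lit 361)))))) (B (M (nat_lit 395) (B (M (nat_lit 331) (B (lo111_10_4 (nat_lit 460)) (lo111_9_4 (nat_lit 299)))) (M (nat_lit 394) (B (lo114_11_1 (nat_lit 366)) (lo19_12_0 (nat_lit 393)))))) (M (nat_lit 333) (B (M (nat_lit 301) (B (lo113_8_5 (nat_lit 269)) (lo113_9_5 (nat_lit 397)))) (lo112_14_6 (nat_lit 460))))))) (B (K _ _ _ o1_s15418) (B (K _ _ _ o1_s15415) (B (K _ _ _ o1_s14774) (K _ _ _ o1_s15512)))))) (B (M (nat_lit 365) (B (K _ _ _ o1_s15273) (B (M (nat_lit 362) (B (M (nat_lit 366) (B (M (nat_lit 398) (B (lo110_11_0 (nat_lit 397)) (lo111_11_0 (nat_lit 399)))) (M (nat_lit 330) (B (lo113_11_3 (nat_lit 329)) (lo114_11_3 (nat_lit 331)))))) (B (M (nat_lit 361) (B (M (nat_lit 397) (B (lo19_11_0 (nat_lit 396)) (lo110_11_0 (nat_lit 398)))) (M (nat_lit 393) (B (lo113_11_1 (nat_lit 394)) (lo112_11_1 (nat_lit 392)))))) (M (nat_lit 361) (B (M (nat_lit 329) (B (lo113_11_3 (nat_lit 330)) (lo112_11_3 (nat_lit 328)))) (M (nat_lit 393) (B (lo113_11_1 (nat_lit 394)) (lo112_11_1 (nat_lit 392))))))))) (B (K _ _ _ o1_s15435) (B (K _ _ _ o1_s15436) (K _ _ _ o1_s15437)))))) (M (nat_lit 331) (B (K _ _ _ o1_s15355) (B (M (nat_lit 330) (B (M (nat_lit 329) (B (M (nat_lit 365) (B (lo114_11_3 (nat_lit 366)) (lo19_10_0 (nat_lit 332)))) (lo18_10_0 (nat_lit 328)))) (M (nat_lit 395) (B (lo111_10_4 (nat_lit 460)) (lo111_13_7 (nat_lit 298)))))) (B (M (nat_lit 396) (B (M (nat_lit 299) (B (lo111_8_4 (nat_lit 267)) (lo112_13_7 (nat_lit 332)))) (lo112_14_7 (nat_lit 460)))) (M (nat_lit 460) (B (lo111_10_4 (nat_lit 395)) (lo112_14_7 (nat_lit 396)))))))))))))))) (B (M (nat_lit 364) (B (M (nat_lit 362) (B (M (nat_lit 395) (B (M (nat_lit 365) (B (K _ _ _ o1_s15548) (B (M (nat_lit 460) (B (M (nat_lit 333) (B (lo112_14_6 (nat_lit 396)) (lo110_11_2 (nat_lit 334)))) (M (nat_lit 492) (B (lo111_11_4 (nat_lit 459)) (lo112_16_7 (nat_lit 524)))))) (M (nat_lit 330) (B (lo111_14_7 (nat_lit 459)) (lo113_11_3 (nat_lit 329))))))) (B (K _ _ _ o1_s14905) (B (M (nat_lit 459) (B (M (nat_lit 458) (B (M (nat_lit 460) (B (lo19_14_2 (nat_lit 457)) (lo111_11_4 (nat_lit 492)))) (lo111_11_5 (nat_lit 490)))) (M (nat_lit 491) (B (lo111_15_6 (nat_lit 396)) (lo111_15_7 (nat_lit 394)))))) (M (nat_lit 330) (B (M (nat_lit 298) (B (lo110_9_4 (nat_lit 394)) (lo110_8_4 (nat_lit 266)))) (lo111_14_7 (nat_lit 459)))))))) (B (M (nat_lit 361) (B (M (nat_lit 393) (B (M (nat_lit 395) (B (M (nat_lit 330) (B (M (nat_lit 298) (B (lo110_9_4 (nat_lit 394)) (lo110_8_4 (nat_lit 266)))) (lo111_14_7 (nat_lit 459)))) (B (M (nat_lit 459) (B (M (nat_lit 396) (B (lo111_15_6 (nat_lit 491)) (lo19_11_0 (nat_lit 397)))) (lo111_14_7 (nat_lit 330)))) (M (nat_lit 396) (B (lo19_12_0 (nat_lit 394)) (lo19_11_0 (nat_lit 397))))))) (lo112_11_1 (nat_lit 392)))) (B (M (nat_lit 360) (B (M (nat_lit 328) (B (lo111_11_3 (nat_lit 327)) (lo112_11_3 (nat_lit 329)))) (M (nat_lit 392) (B (lo111_11_1 (nat_lit 391)) (lo112_11_1 (nat_lit 393)))))) (M (nat_lit 360) (B (M (nat_lit 396) (B (lo18_11_0 (nat_lit 395)) (lo19_11_0 (nat_lit 397)))) (M (nat_lit 328) (B (lo111_11_3 (nat_lit 327)) (lo112_11_3 (nat_lit 329))))))))) (B (M (nat_lit 365) (B (M (nat_lit 395) (B (K _ _ _ o1_s15548) (B (M (nat_lit 460) (B (M (nat_lit 333) (B (lo112_14_6 (nat_lit 396)) (lo110_11_2 (nat_lit 334)))) (M (nat_lit 492) (B (lo111_11_4 (nat_lit 459)) (lo112_16_7 (nat_lit 524)))))) (M (nat_lit 330) (B (lo111_14_7 (nat_lit 459)) (lo113_11_3 (nat_lit 329))))))) (B (M (nat_lit 361) (B (M (nat_lit 397) (B (lo19_11_0 (nat_lit 396)) (lo110_11_0 (nat_lit 398)))) (M (nat_lit 329) (B (lo113_11_3 (nat_lit 330)) (lo112_11_3 (nat_lit 328)))))) (M (nat_lit 397) (B (M (nat_lit 333) (B (lo110_11_2 (nat_lit 334)) (lo113_10_5 (nat_lit 460)))) (lo110_11_0 (nat_lit 398))))))) (B (M (nat_lit 365) (B (M (nat_lit 361) (B (M (nat_lit 329) (B (lo113_11_3 (nat_lit 330)) (lo112_11_3 (nat_lit 328)))) (M (nat_lit 393) (B (lo113_11_1 (nat_lit 394)) (lo112_11_1 (nat_lit 392)))))) (M (nat_lit 397) (B (M (nat_lit 333) (B (lo110_11_2 (nat_lit 334)) (lo113_10_5 (nat_lit 460)))) (lo110_11_0 (nat_lit 398)))))) (M (nat_lit 365) (B (M (nat_lit 366) (B (M (nat_lit 394) (B (lo114_11_1 (nat_lit 395)) (lo113_11_1 (nat_lit 393)))) (M (nat_lit 334) (B (lo110_11_2 (nat_lit 333)) (lo111_11_2 (nat_lit 335)))))) (B (M (nat_lit 366) (B (M (nat_lit 398) (B (lo110_11_0 (nat_lit 397)) (lo111_11_0 (nat_lit 399)))) (M (nat_lit 394) (B (lo114_11_1 (nat_lit 395)) (lo113_11_1 (nat_lit 393)))))) (M (nat_lit 397) (B (M (nat_lit 333) (B (lo110_11_2 (nat_lit 334)) (lo113_10_5 (nat_lit 460)))) (lo110_11_0 (nat_lit 398)))))))))))) (B (K _ _ _ o1_s15447) (B (K _ _ _ o1_s14788) (B (M (nat_lit 365) (B (K _ _ _ o1_s15399) (B (M (nat_lit 366) (B (M (nat_lit 395) (B (M (nat_lit 459) (B (M (nat_lit 458) (B (M (nat_lit 460) (B (lo19_14_2 (nat_lit 457)) (lo111_11_4 (nat_lit 492)))) (lo111_11_5 (nat_lit 490)))) (lo111_14_6 (nat_lit 332)))) (lo114_11_1 (nat_lit 394)))) (M (nat_lit 367) (B (M (nat_lit 335) (B (lo111_11_2 (nat_lit 334)) (lo112_11_2 (nat_lit 336)))) (M (nat_lit 399) (B (lo111_11_0 (nat_lit 398)) (lo112_11_0 (nat_lit 400)))))))) (B (M (nat_lit 395) (B (M (nat_lit 459) (B (M (nat_lit 458) (B (M (nat_lit 460) (B (lo19_14_2 (nat_lit 457)) (lo111_11_4 (nat_lit 492)))) (lo111_11_5 (nat_lit 490)))) (lo111_14_6 (nat_lit 332)))) (M (nat_lit 394) (B (M (nat_lit 393) (B (lo18_12_0 (nat_lit 392)) (lo113_11_1 (nat_lit 362)))) (lo114_11_1 (nat_lit 366)))))) (B (K _ _ _ o1_s14774) (K _ _ _ o1_s14781)))))) (B (M (nat_lit 396) (B (M (nat_lit 362) (B (M (nat_lit 365) (B (M (nat_lit 366) (B (M (nat_lit 398) (B (lo110_11_0 (nat_lit 397)) (lo111_11_0 (nat_lit 399)))) (M (nat_lit 395) (B (lo115_11_1 (nat_lit 367)) (lo114_11_1 (nat_lit 394)))))) (M (nat_lit 333) (B (M (nat_lit 301) (B (lo112_13_6 (nat_lit 332)) (lo113_8_5 (nat_lit 269)))) (lo110_11_2 (nat_lit 334)))))) (B (M (nat_lit 361) (B (M (nat_lit 365) (B (M (nat_lit 333) (B (lo19_11_2 (nat_lit 332)) (lo110_11_2 (nat_lit 334)))) (M (nat_lit 329) (B (lo113_11_3 (nat_lit 330)) (lo112_11_3 (nat_lit 328)))))) (M (nat_lit 392) (B (M (nat_lit 360) (B (lo18_11_0 (nat_lit 395)) (lo111_11_1 (nat_lit 391)))) (lo112_11_1 (nat_lit 393)))))) (B (M (nat_lit 397) (B (M (nat_lit 398) (B (lo115_12_1 (nat_lit 399)) (lo110_11_0 (nat_lit 365)))) (lo19_11_0 (nat_lit 361)))) (M (nat_lit 397) (B (M (nat_lit 398) (B (lo114_12_3 (nat_lit 395)) (lo115_12_1 (nat_lit 399)))) (lo19_11_0 (nat_lit 361)))))))) (B (M (nat_lit 362) (B (M (nat_lit 365) (B (M (nat_lit 395) (B (M (nat_lit 394) (B (lo113_11_1 (nat_lit 393)) (lo114_11_1 (nat_lit 366)))) (M (nat_lit 330) (B (lo111_14_7 (nat_lit 459)) (lo113_11_3 (nat_lit 329)))))) (M (nat_lit 397) (B (M (nat_lit 333) (B (lo113_9_5 (nat_lit 301)) (lo110_11_2 (nat_lit 334)))) (lo110_11_0 (nat_lit 398)))))) (B (M (nat_lit 395) (B (M (nat_lit 361) (B (M (nat_lit 393) (B (lo19_12_0 (nat_lit 394)) (lo112_11_1 (nat_lit 392)))) (lo18_11_0 (nat_lit 360)))) (M (nat_lit 459) (B (lo111_14_7 (nat_lit 330)) (lo111_15_6 (nat_lit 491)))))) (M (nat_lit 397) (B (M (nat_lit 398) (B (lo115_12_1 (nat_lit 399)) (lo110_11_0 (nat_lit 365)))) (lo19_11_0 (nat_lit 361))))))) (B (M (nat_lit 332) (B (M (nat_lit 300) (B (M (nat_lit 301) (B (lo112_13_6 (nat_lit 333)) (lo112_12_6 (nat_lit 269)))) (lo112_9_4 (nat_lit 397)))) (lo112_10_5 (nat_lit 459)))) (M (nat_lit 459) (B (M (nat_lit 491) (B (lo111_15_6 (nat_lit 395)) (lo111_16_6 (nat_lit 523)))) (lo112_10_5 (nat_lit 332)))))))) (M (nat_lit 459) (B (M (nat_lit 491) (B (M (nat_lit 395) (B (M (nat_lit 490) (B (lo111_11_5 (nat_lit 458)) (lo111_12_5 (nat_lit 522)))) (M (nat_lit 492) (B (lo111_11_4 (nat_lit 460)) (lo111_12_4 (nat_lit 524)))))) (B (M (nat_lit 396) (B (lo112_11_5 (nat_lit 460)) (lo111_16_6 (nat_lit 523)))) (M (nat_lit 396) (B (lo111_15_6 (nat_lit 395)) (lo111_16_6 (nat_lit 523))))))) (B (M (nat_lit 458) (B (M (nat_lit 457) (B (lo19_14_2 (nat_lit 460)) (lo18_14_2 (nat_lit 456)))) (M (nat_lit 395) (B (lo111_14_6 (nat_lit 332)) (lo111_11_5 (nat_lit 490)))))) (B (M (nat_lit 396) (B (M (nat_lit 491) (B (lo112_11_5 (nat_lit 460)) (lo111_16_6 (nat_lit 523)))) (lo112_10_5 (nat_lit 332)))) (M (nat_lit 332) (B (lo111_14_6 (nat_lit 395)) (lo112_10_5 (nat_lit 396)))))))))))))) (B (M (nat_lit 395) (B (K _ _ _ o1_s14991) (B (K _ _ _ o1_s15698) (B (M (nat_lit 460) (B (M (nat_lit 492) (B (lo112_16_7 (nat_lit 524)) (lo112_15_7 (nat_lit 396)))) (lo111_10_4 (nat_lit 331)))) (M (nat_lit 460) (B (M (nat_lit 492) (B (lo111_11_4 (nat_lit 459)) (lo112_16_7 (nat_lit 524)))) (lo111_10_4 (nat_lit 331)))))))) (B (M (nat_lit 395) (B (K _ _ _ o1_s15046) (B (M (nat_lit 331) (B (K _ _ _ o1_s15116) (lo111_10_4 (nat_lit 460)))) (B (M (nat_lit 459) (B (M (nat_lit 491) (B (M (nat_lit 362) (B (lo111_14_7 (nat_lit 330)) (lo111_15_7 (nat_lit 394)))) (M (nat_lit 492) (B (lo111_11_4 (nat_lit 460)) (lo111_12_4 (nat_lit 524)))))) (B (M (nat_lit 491) (B (M (nat_lit 362) (B (lo111_14_7 (nat_lit 330)) (lo111_15_7 (nat_lit 394)))) (M (nat_lit 490) (B (lo111_11_5 (nat_lit 458)) (lo111_12_5 (nat_lit 522)))))) (M (nat_lit 458) (B (M (nat_lit 460) (B (lo19_14_2 (nat_lit 457)) (lo111_11_4 (nat_lit 492)))) (lo111_11_5 (nat_lit 490))))))) (M (nat_lit 460) (B (M (nat_lit 492) (B (lo111_11_4 (nat_lit 459)) (lo112_16_7 (nat_lit 524)))) (lo111_10_4 (nat_lit 331)))))))) (B (M (nat_lit 395) (B (K _ _ _ o1_s15094) (B (K _ _ _ o1_s15722) (B (M (nat_lit 460) (B (M (nat_lit 492) (B (lo112_16_7 (nat_lit 524)) (lo112_15_7 (nat_lit 396)))) (lo111_10_4 (nat_lit 331)))) (M (nat_lit 460) (B (M (nat_lit 492) (B (lo111_11_4 (nat_lit 459)) (lo112_16_7 (nat_lit 524)))) (lo111_10_4 (nat_lit 331)))))))) (B (M (nat_lit 395) (B (K _ _ _ o1_s15135) (B (K _ _ _ o1_s15698) (B (M (nat_lit 460) (B (M (nat_lit 492) (B (lo112_16_7 (nat_lit 524)) (lo112_15_7 (nat_lit 396)))) (lo111_10_4 (nat_lit 331)))) (M (nat_lit 460) (B (M (nat_lit 492) (B (lo111_11_4 (nat_lit 459)) (lo112_16_7 (nat_lit 524)))) (lo111_10_4 (nat_lit 331)))))))) (M (nat_lit 395) (B (K _ _ _ o1_s15144) (B (K _ _ _ o1_s15722) (B (M (nat_lit 460) (B (M (nat_lit 492) (B (lo112_16_7 (nat_lit 524)) (lo112_15_7 (nat_lit 396)))) (lo111_10_4 (nat_lit 331)))) (M (nat_lit 460) (B (M (nat_lit 492) (B (lo111_11_4 (nat_lit 459)) (lo112_16_7 (nat_lit 524)))) (lo111_10_4 (nat_lit 331))))))))))))))))) (B (M (nat_lit 426) (B (M (nat_lit 459) (B (M (nat_lit 395) (B (K _ _ _ o1_s14233) (B (K _ _ _ o1_s15742) (B (K _ _ _ o1_s14189) (B (K _ _ _ o1_s14186) (M (nat_lit 491) (B (K _ _ _ o1_s14172) (B (M (nat_lit 394) (B (lo111_15_7 (nat_lit 362)) (lo111_16_7 (nat_lit 523)))) (M (nat_lit 396) (B (lo111_16_6 (nat_lit 523)) (lo111_15_6 (nat_lit 364)))))))))))) (B (M (nat_lit 395) (B (M (nat_lit 363) (B (M (nat_lit 425) (B (M (nat_lit 364) (B (M (nat_lit 362) (B (M (nat_lit 361) (B (M (nat_lit 458) (B (M (nat_lit 329) (B (lo19_10_4 (nat_lit 393)) (lo112_11_3 (nat_lit 328)))) (lo111_11_5 (nat_lit 490)))) (B (M (nat_lit 392) (B (M (nat_lit 360) (B (lo18_11_0 (nat_lit 396)) (lo111_11_1 (nat_lit 391)))) (lo112_11_1 (nat_lit 393)))) (M (nat_lit 360) (B (M (nat_lit 328) (B (lo112_11_3 (nat_lit 329)) (lo111_11_3 (nat_lit 327)))) (lo18_11_0 (nat_lit 396))))))) (lo111_14_7 (nat_lit 330)))) (lo111_14_6 (nat_lit 332)))) (M (nat_lit 460) (B (lo18_13_0 (nat_lit 424)) (lo111_11_4 (nat_lit 492)))))) (B (M (nat_lit 331) (B (M (nat_lit 332) (B (lo111_13_6 (nat_lit 300)) (lo111_14_6 (nat_lit 364)))) (M (nat_lit 330) (B (lo111_13_7 (nat_lit 298)) (lo111_14_7 (nat_lit 362)))))) (B (M (nat_lit 331) (B (M (nat_lit 330) (B (lo111_13_7 (nat_lit 298)) (lo111_14_7 (nat_lit 362)))) (lo111_10_4 (nat_lit 460)))) (M (nat_lit 331) (B (M (nat_lit 332) (B (lo111_13_6 (nat_lit 300)) (lo111_14_6 (nat_lit 364)))) (lo111_10_4 (nat_lit 460)))))))) (B (K _ _ _ o1_s15742) (B (M (nat_lit 363) (B (M (nat_lit 393) (B (M (nat_lit 425) (B (M (nat_lit 424) (B (M (nat_lit 458) (B (lo111_11_5 (nat_lit 490)) (lo17_13_0 (nat_lit 423)))) (lo18_13_2 (nat_lit 396)))) (lo112_13_3 (nat_lit 392)))) (lo113_13_3 (nat_lit 394)))) (M (nat_lit 331) (B (M (nat_lit 332) (B (lo111_13_6 (nat_lit 300)) (lo111_14_6 (nat_lit 364)))) (M (nat_lit 330) (B (lo111_13_7 (nat_lit 298)) (lo111_14_7 (nat_lit 362)))))))) (B (M (nat_lit 363) (B (M (nat_lit 425) (B (M (nat_lit 393) (B (lo113_13_3 (nat_lit 394)) (lo112_13_3 (nat_lit 392)))) (M (nat_lit 460) (B (lo18_13_0 (nat_lit 424)) (lo111_11_4 (nat_lit 492)))))) (M (nat_lit 331) (B (M (nat_lit 332) (B (lo111_13_6 (nat_lit 300)) (lo111_14_6 (nat_lit 364)))) (M (nat_lit 330) (B (lo111_13_7 (nat_lit 298)) (lo111_14_7 (nat_lit 362)))))))) (M (nat_lit 425) (B (M (nat_lit 393) (B (lo112_13_3 (nat_lit 392)) (lo113_13_3 (nat_lit 394)))) (M (nat_lit 424) (B (lo18_13_0 (nat_lit 460)) (lo18_13_2 (nat_lit 396))))))))))) (B (M (nat_lit 491) (B (M (nat_lit 395) (B (M (nat_lit 425) (B (M (nat_lit 492) (B (M (nat_lit 490) (B (M (nat_lit 493) (B (M (nat_lit 494) (B (M (nat_lit 463) (B (M (nat_lit 495) (B (lo115_15_3 (nat_lit 460)) (lo112_15_2 (nat_lit 464)))) (lo111_15_2 (nat_lit 462)))) (lo114_15_3 (nat_lit 458)))) (B (M (nat_lit 525) (B (M (nat_lit 396) (B (lo112_12_4 (nat_lit 460)) (lo111_15_6 (nat_lit 364)))) (lo110_15_0 (nat_lit 526)))) (M (nat_lit 526) (B (M (nat_lit 494) (B (lo114_15_3 (nat_lit 458)) (lo111_15_0 (nat_lit 527)))) (lo110_15_0 (nat_lit 525))))))) (lo111_12_5 (nat_lit 522)))) (lo111_12_4 (nat_lit 524)))) (B (M (nat_lit 392) (B (M (nat_lit 424) (B (lo18_13_0 (nat_lit 460)) (lo111_13_3 (nat_lit 391)))) (lo112_13_3 (nat_lit 393)))) (M (nat_lit 396) (B (lo111_15_6 (nat_lit 364)) (lo18_13_2 (nat_lit 424))))))) (B (K _ _ _ o1_s13184) (B (M (nat_lit 363) (B (M (nat_lit 364) (B (lo111_14_6 (nat_lit 332)) (lo111_15_6 (nat_lit 396)))) (M (nat_lit 458) (B (lo111_10_5 (nat_lit 331)) (lo111_11_5 (nat_lit 490)))))) (M (nat_lit 363) (B (M (nat_lit 492) (B (lo111_11_4 (nat_lit 460)) (lo111_12_4 (nat_lit 524)))) (M (nat_lit 458) (B (lo111_10_5 (nat_lit 331)) (lo111_11_5 (nat_lit 490)))))))))) (B (M (nat_lit 523) (B (M (nat_lit 395) (B (M (nat_lit 524) (B (lo111_12_4 (nat_lit 492)) (lo111_13_4 (nat_lit 556)))) (M (nat_lit 522) (B (lo111_12_5 (nat_lit 490)) (lo111_13_5 (nat_lit 554)))))) (M (nat_lit 555) (B (lo111_17_6 (nat_lit 460)) (lo111_17_7 (nat_lit 458)))))) (B (M (nat_lit 523) (B (M (nat_lit 555) (B (lo111_17_6 (nat_lit 460)) (lo111_17_7 (nat_lit 458)))) (lo111_16_6 (nat_lit 396)))) (M (nat_lit 396) (B (M (nat_lit 364) (B (lo111_15_6 (nat_lit 395)) (lo112_10_5 (nat_lit 332)))) (lo111_16_6 (nat_lit 523)))))))) (B (M (nat_lit 491) (B (M (nat_lit 490) (B (M (nat_lit 395) (B (M (nat_lit 425) (B (M (nat_lit 393) (B (lo113_13_3 (nat_lit 394)) (lo112_13_3 (nat_lit 392)))) (M (nat_lit 424) (B (lo18_13_0 (nat_lit 460)) (lo18_13_2 (nat_lit 396)))))) (B (M (nat_lit 364) (B (M (nat_lit 363) (B (lo111_11_5 (nat_lit 458)) (lo111_14_6 (nat_lit 332)))) (lo111_15_6 (nat_lit 396)))) (M (nat_lit 363) (B (M (nat_lit 460) (B (lo111_11_4 (nat_lit 492)) (lo111_10_4 (nat_lit 331)))) (lo111_11_5 (nat_lit 458))))))) (B (M (nat_lit 425) (B (M (nat_lit 424) (B (M (nat_lit 391) (B (M (nat_lit 423) (B (lo17_13_0 (nat_lit 458)) (lo110_13_3 (nat_lit 390)))) (lo111_13_3 (nat_lit 392)))) (lo18_13_0 (nat_lit 460)))) (B (M (nat_lit 458) (B (M (nat_lit 424) (B (lo18_13_0 (nat_lit 460)) (lo17_13_0 (nat_lit 423)))) (M (nat_lit 393) (B (lo113_13_3 (nat_lit 394)) (lo110_16_7 (nat_lit 522)))))) (M (nat_lit 393) (B (lo113_13_3 (nat_lit 394)) (lo112_13_3 (nat_lit 392))))))) (B (M (nat_lit 395) (B (M (nat_lit 425) (B (M (nat_lit 393) (B (lo113_13_3 (nat_lit 394)) (lo112_13_3 (nat_lit 392)))) (M (nat_lit 424) (B (lo18_13_0 (nat_lit 460)) (lo18_13_2 (nat_lit 396)))))) (lo111_12_5 (nat_lit 522)))) (M (nat_lit 522) (B (M (nat_lit 554) (B (lo110_17_6 (nat_lit 458)) (lo110_18_6 (nat_lit 586)))) (lo111_12_5 (nat_lit 395)))))))) (B (M (nat_lit 396) (B (M (nat_lit 364) (B (lo112_11_5 (nat_lit 460)) (lo111_15_6 (nat_lit 395)))) (lo111_16_6 (nat_lit 523)))) (M (nat_lit 394) (B (lo113_13_3 (nat_lit 393)) (lo111_16_7 (nat_lit 523))))))) (B (M (nat_lit 491) (B (M (nat_lit 396) (B (M (nat_lit 364) (B (lo112_11_5 (nat_lit 460)) (lo111_15_6 (nat_lit 395)))) (lo111_16_6 (nat_lit 523)))) (B (M (nat_lit 394) (B (M (nat_lit 362) (B (lo111_15_7 (nat_lit 395)) (lo110_10_4 (nat_lit 330)))) (lo113_13_3 (nat_lit 393)))) (M (nat_lit 394) (B (lo113_13_3 (nat_lit 393)) (lo111_16_7 (nat_lit 523))))))) (M (nat_lit 394) (B (M (nat_lit 491) (B (M (nat_lit 362) (B (lo110_11_4 (nat_lit 458)) (lo110_10_4 (nat_lit 330)))) (lo111_16_7 (nat_lit 523)))) (lo113_13_3 (nat_lit 393)))))))))) (B (M (nat_lit 395) (B (M (nat_lit 459) (B (K _ _ _ o1_s14157) (B (K _ _ _ o1_s15742) (B (K _ _ _ o1_s14186) (B (K _ _ _ o1_s14189) (M (nat_lit 491) (B (K _ _ _ o1_s14172) (B (M (nat_lit 394) (B (lo111_15_7 (nat_lit 362)) (lo111_16_7 (nat_lit 523)))) (M (nat_lit 396) (B (lo111_16_6 (nat_lit 523)) (lo111_15_6 (nat_lit 364)))))))))))) (B (M (nat_lit 459) (B (K _ _ _ o1_s14233) (B (K _ _ _ o1_s15742) (B (K _ _ _ o1_s14189) (B (K _ _ _ o1_s14186) (M (nat_lit 491) (B (K _ _ _ o1_s14172) (B (M (nat_lit 394) (B (lo111_15_7 (nat_lit 362)) (lo111_16_7 (nat_lit 523)))) (M (nat_lit 396) (B (lo111_16_6 (nat_lit 523)) (lo111_15_6 (nat_lit 364)))))))))))) (B (K _ _ _ o1_s14274) (B (M (nat_lit 363) (B (M (nat_lit 459) (B (K _ _ _ o1_s14300) (B (M (nat_lit 491) (B (M (nat_lit 362) (B (lo111_14_7 (nat_lit 330)) (lo111_15_7 (nat_lit 394)))) (M (nat_lit 492) (B (lo111_11_4 (nat_lit 460)) (lo111_12_4 (nat_lit 524)))))) (M (nat_lit 425) (B (M (nat_lit 457) (B (lo113_13_1 (nat_lit 458)) (lo112_13_1 (nat_lit 456)))) (M (nat_lit 424) (B (lo18_13_0 (nat_lit 460)) (lo18_13_2 (nat_lit 396))))))))) (B (M (nat_lit 460) (B (M (nat_lit 492) (B (lo111_11_4 (nat_lit 459)) (lo112_16_7 (nat_lit 524)))) (lo111_10_4 (nat_lit 331)))) (M (nat_lit 458) (B (lo111_10_5 (nat_lit 331)) (lo113_13_1 (nat_lit 457))))))) (B (K _ _ _ o1_s14316) (M (nat_lit 458) (B (M (nat_lit 363) (B (M (nat_lit 490) (B (lo110_15_6 (nat_lit 394)) (lo110_16_6 (nat_lit 522)))) (lo111_10_5 (nat_lit 331)))) (lo113_13_1 (nat_lit 457)))))))))) (B (M (nat_lit 425) (B (K _ _ _ o1_s14145) (B (M (nat_lit 424) (B (M (nat_lit 423) (B (M (nat_lit 391) (B (lo111_13_3 (nat_lit 392)) (lo110_13_3 (nat_lit 390)))) (M (nat_lit 395) (B (lo17_13_2 (nat_lit 394)) (lo18_13_2 (nat_lit 396)))))) (M (nat_lit 456) (B (lo112_13_1 (nat_lit 457)) (lo111_13_1 (nat_lit 455)))))) (B (M (nat_lit 424) (B (M (nat_lit 456) (B (lo112_13_1 (nat_lit 457)) (lo111_13_1 (nat_lit 455)))) (M (nat_lit 392) (B (lo112_13_3 (nat_lit 393)) (lo111_13_3 (nat_lit 391)))))) (M (nat_lit 393) (B (lo112_13_3 (nat_lit 392)) (lo113_13_3 (nat_lit 394)))))))) (B (K _ _ _ o1_s14330) (B (K _ _ _ o1_s14345) (M (nat_lit 425) (B (M (nat_lit 393) (B (lo112_13_3 (nat_lit 392)) (lo113_13_3 (nat_lit 394)))) (M (nat_lit 457) (B (lo113_13_1 (nat_lit 458)) (lo112_13_1 (nat_lit 456)))))))))))) (B (M (nat_lit 395) (B (M (nat_lit 426) (B (M (nat_lit 458) (B (M (nat_lit 491) (B (M (nat_lit 397) (B (M (nat_lit 365) (B (M (nat_lit 333) (B (M (nat_lit 332) (B (M (nat_lit 366) (B (M (nat_lit 331) (B (M (nat_lit 334) (B (lo113_13_6 (nat_lit 302)) (lo111_10_0 (nat_lit 367)))) (lo110_10_0 (nat_lit 330)))) (M (nat_lit 490) (B (M (nat_lit 394) (B (lo110_12_2 (nat_lit 396)) (lo110_12_4 (nat_lit 523)))) (lo110_16_6 (nat_lit 522)))))) (lo113_13_7 (nat_lit 300)))) (B (M (nat_lit 394) (B (M (nat_lit 396) (B (lo110_12_2 (nat_lit 366)) (lo113_9_5 (nat_lit 301)))) (M (nat_lit 490) (B (lo110_12_4 (nat_lit 523)) (lo110_16_6 (nat_lit 522)))))) (M (nat_lit 301) (B (M (nat_lit 302) (B (lo113_12_6 (nat_lit 270)) (lo113_13_6 (nat_lit 334)))) (M (nat_lit 300) (B (lo113_12_7 (nat_lit 268)) (lo113_13_7 (nat_lit 332))))))))) (B (M (nat_lit 490) (B (M (nat_lit 492) (B (M (nat_lit 489) (B (M (nat_lit 488) (B (M (nat_lit 524) (B (lo18_15_0 (nat_lit 523)) (lo19_15_0 (nat_lit 525)))) (M (nat_lit 520) (B (lo112_15_1 (nat_lit 521)) (lo111_15_1 (nat_lit 519)))))) (B (M (nat_lit 524) (B (M (nat_lit 523) (B (lo110_12_4 (nat_lit 394)) (lo18_15_0 (nat_lit 488)))) (lo19_15_0 (nat_lit 525)))) (M (nat_lit 521) (B (lo110_12_5 (nat_lit 394)) (lo112_15_1 (nat_lit 520))))))) (B (M (nat_lit 394) (B (M (nat_lit 396) (B (lo112_15_6 (nat_lit 460)) (lo110_12_2 (nat_lit 366)))) (lo110_12_4 (nat_lit 523)))) (M (nat_lit 460) (B (lo112_15_6 (nat_lit 396)) (lo112_16_6 (nat_lit 524))))))) (lo110_16_6 (nat_lit 522)))) (M (nat_lit 333) (B (M (nat_lit 301) (B (M (nat_lit 302) (B (lo113_12_6 (nat_lit 270)) (lo113_13_6 (nat_lit 334)))) (M (nat_lit 300) (B (lo113_12_7 (nat_lit 268)) (lo113_13_7 (nat_lit 332)))))) (lo113_10_5 (nat_lit 460))))))) (lo110_13_2 (nat_lit 398)))) (B (M (nat_lit 490) (B (M (nat_lit 492) (B (M (nat_lit 489) (B (M (nat_lit 488) (B (M (nat_lit 487) (B (M (nat_lit 519) (B (lo110_15_1 (nat_lit 518)) (lo111_15_1 (nat_lit 520)))) (M (nat_lit 455) (B (lo111_15_3 (nat_lit 456)) (lo110_15_3 (nat_lit 454)))))) (M (nat_lit 397) (B (M (nat_lit 460) (B (M (nat_lit 365) (B (lo112_15_6 (nat_lit 396)) (lo113_10_5 (nat_lit 333)))) (lo18_15_2 (nat_lit 459)))) (lo110_13_2 (nat_lit 398)))))) (B (M (nat_lit 459) (B (M (nat_lit 394) (B (lo110_11_4 (nat_lit 362)) (lo110_12_5 (nat_lit 521)))) (M (nat_lit 488) (B (lo18_15_2 (nat_lit 460)) (lo17_15_2 (nat_lit 487)))))) (M (nat_lit 521) (B (lo110_12_5 (nat_lit 394)) (lo112_15_1 (nat_lit 520))))))) (B (M (nat_lit 489) (B (M (nat_lit 524) (B (lo112_16_7 (nat_lit 460)) (lo19_15_0 (nat_lit 525)))) (M (nat_lit 521) (B (lo110_12_5 (nat_lit 394)) (lo112_15_1 (nat_lit 520)))))) (B (M (nat_lit 489) (B (M (nat_lit 524) (B (lo111_12_4 (nat_lit 459)) (lo19_15_0 (nat_lit 525)))) (M (nat_lit 521) (B (lo110_12_5 (nat_lit 394)) (lo112_15_1 (nat_lit 520)))))) (M (nat_lit 524) (B (lo112_16_7 (nat_lit 460)) (lo111_12_4 (nat_lit 459)))))))) (lo110_16_6 (nat_lit 522)))) (B (M (nat_lit 459) (B (M (nat_lit 492) (B (M (nat_lit 396) (B (M (nat_lit 460) (B (M (nat_lit 493) (B (lo112_12_4 (nat_lit 525)) (lo114_15_3 (nat_lit 494)))) (M (nat_lit 397) (B (lo114_12_1 (nat_lit 398)) (lo112_15_6 (nat_lit 365)))))) (lo111_15_6 (nat_lit 364)))) (lo111_12_4 (nat_lit 524)))) (B (M (nat_lit 523) (B (M (nat_lit 524) (B (lo111_12_4 (nat_lit 492)) (lo111_13_4 (nat_lit 556)))) (lo111_17_7 (nat_lit 555)))) (M (nat_lit 523) (B (lo111_17_7 (nat_lit 555)) (lo111_16_6 (nat_lit 396))))))) (B (M (nat_lit 459) (B (K _ _ _ o1_s14242) (M (nat_lit 523) (B (M (nat_lit 524) (B (lo111_12_4 (nat_lit 492)) (lo111_13_4 (nat_lit 556)))) (lo111_17_7 (nat_lit 555)))))) (M (nat_lit 523) (B (M (nat_lit 490) (B (lo110_16_6 (nat_lit 522)) (lo110_12_4 (nat_lit 394)))) (M (nat_lit 459) (B (lo111_17_7 (nat_lit 555)) (lo111_16_6 (nat_lit 396))))))))))) (lo113_13_1 (nat_lit 457)))) (B (K _ _ _ o1_s14274) (B (M (nat_lit 459) (B (K _ _ _ o1_s14233) (B (K _ _ _ o1_s16016) (M (nat_lit 396) (B (M (nat_lit 397) (B (lo114_12_1 (nat_lit 398)) (lo19_13_2 (nat_lit 425)))) (M (nat_lit 364) (B (lo111_15_6 (nat_lit 491)) (lo112_10_5 (nat_lit 332))))))))) (B (M (nat_lit 459) (B (K _ _ _ o1_s14249) (B (K _ _ _ o1_s16016) (M (nat_lit 396) (B (M (nat_lit 397) (B (lo114_12_1 (nat_lit 398)) (lo19_13_2 (nat_lit 425)))) (M (nat_lit 364) (B (lo111_15_6 (nat_lit 491)) (lo112_10_5 (nat_lit 332))))))))) (B (K _ _ _ o1_s16038) (M (nat_lit 425) (B (M (nat_lit 457) (B (lo113_13_1 (nat_lit 458)) (lo112_13_1 (nat_lit 456)))) (M (nat_lit 397) (B (lo110_13_2 (nat_lit 398)) (lo19_13_2 (nat_lit 396)))))))))))) (B (M (nat_lit 426) (B (K _ _ _ o1_s14212) (B (K _ _ _ o1_s14274) (B (K _ _ _ o1_s14281) (B (K _ _ _ o1_s14314) (B (K _ _ _ o1_s14316) (M (nat_lit 458) (B (M (nat_lit 363) (B (M (nat_lit 490) (B (lo110_15_6 (nat_lit 394)) (lo110_16_6 (nat_lit 522)))) (lo111_10_5 (nat_lit 331)))) (lo113_13_1 (nat_lit 457)))))))))) (B (M (nat_lit 426) (B (M (nat_lit 363) (B (M (nat_lit 459) (B (K _ _ _ o1_s14275) (B (M (nat_lit 491) (B (M (nat_lit 523) (B (M (nat_lit 524) (B (lo111_12_4 (nat_lit 492)) (lo111_13_4 (nat_lit 556)))) (M (nat_lit 522) (B (lo111_12_5 (nat_lit 490)) (lo111_13_5 (nat_lit 554)))))) (M (nat_lit 364) (B (lo111_14_6 (nat_lit 332)) (lo111_15_6 (nat_lit 396)))))) (M (nat_lit 362) (B (M (nat_lit 397) (B (M (nat_lit 364) (B (M (nat_lit 396) (B (lo19_13_2 (nat_lit 425)) (lo19_11_0 (nat_lit 361)))) (lo111_14_6 (nat_lit 332)))) (lo110_13_2 (nat_lit 398)))) (lo111_14_7 (nat_lit 330))))))) (B (M (nat_lit 331) (B (M (nat_lit 459) (B (M (nat_lit 330) (B (lo111_13_7 (nat_lit 298)) (lo111_14_7 (nat_lit 362)))) (M (nat_lit 332) (B (lo111_13_6 (nat_lit 300)) (lo111_14_6 (nat_lit 364)))))) (M (nat_lit 299) (B (lo111_9_4 (nat_lit 396)) (lo111_9_5 (nat_lit 394)))))) (B (M (nat_lit 458) (B (M (nat_lit 490) (B (lo110_15_6 (nat_lit 394)) (lo110_16_6 (nat_lit 522)))) (lo111_10_5 (nat_lit 331)))) (M (nat_lit 458) (B (M (nat_lit 490) (B (lo111_11_5 (nat_lit 459)) (lo110_16_6 (nat_lit 522)))) (lo111_10_5 (nat_lit 331)))))))) (B (K _ _ _ o1_s16038) (B (M (nat_lit 458) (B (M (nat_lit 363) (B (M (nat_lit 490) (B (lo110_15_6 (nat_lit 394)) (lo110_16_6 (nat_lit 522)))) (lo111_10_5 (nat_lit 331)))) (lo113_13_1 (nat_lit 457)))) (M (nat_lit 425) (B (M (nat_lit 457) (B (lo113_13_1 (nat_lit 458)) (lo112_13_1 (nat_lit 456)))) (M (nat_lit 397) (B (lo110_13_2 (nat_lit 398)) (lo19_13_2 (nat_lit 396)))))))))) (B (M (nat_lit 426) (B (M (nat_lit 363) (B (M (nat_lit 397) (B (M (nat_lit 365) (B (M (nat_lit 333) (B (M (nat_lit 301) (B (M (nat_lit 300) (B (lo113_13_7 (nat_lit 332)) (lo113_12_7 (nat_lit 268)))) (M (nat_lit 302) (B (lo113_13_6 (nat_lit 334)) (lo113_12_6 (nat_lit 270)))))) (lo113_10_5 (nat_lit 460)))) (M (nat_lit 396) (B (M (nat_lit 366) (B (M (nat_lit 367) (B (lo115_11_1 (nat_lit 364)) (lo116_11_1 (nat_lit 368)))) (lo110_12_2 (nat_lit 394)))) (lo19_13_2 (nat_lit 425)))))) (lo110_13_2 (nat_lit 398)))) (B (M (nat_lit 458) (B (M (nat_lit 490) (B (lo110_15_6 (nat_lit 394)) (lo110_16_6 (nat_lit 522)))) (lo111_10_5 (nat_lit 331)))) (M (nat_lit 331) (B (lo111_10_4 (nat_lit 460)) (lo111_10_5 (nat_lit 458))))))) (B (K _ _ _ o1_s16038) (B (M (nat_lit 458) (B (M (nat_lit 363) (B (M (nat_lit 490) (B (lo110_15_6 (nat_lit 394)) (lo110_16_6 (nat_lit 522)))) (lo111_10_5 (nat_lit 331)))) (lo113_13_1 (nat_lit 457)))) (M (nat_lit 425) (B (M (nat_lit 457) (B (lo113_13_1 (nat_lit 458)) (lo112_13_1 (nat_lit 456)))) (M (nat_lit 397) (B (lo110_13_2 (nat_lit 398)) (lo19_13_2 (nat_lit 396)))))))))) (B (M (nat_lit 426) (B (M (nat_lit 363) (B (M (nat_lit 459) (B (M (nat_lit 491) (B (K _ _ _ o1_s14179) (M (nat_lit 362) (B (lo111_14_7 (nat_lit 330)) (lo111_15_7 (nat_lit 394)))))) (B (K _ _ _ o1_s14275) (M (nat_lit 425) (B (M (nat_lit 397) (B (lo19_13_2 (nat_lit 396)) (lo110_13_2 (nat_lit 398)))) (M (nat_lit 460) (B (lo18_13_0 (nat_lit 424)) (lo111_11_4 (nat_lit 492))))))))) (B (M (nat_lit 458) (B (M (nat_lit 490) (B (lo110_15_6 (nat_lit 394)) (lo110_16_6 (nat_lit 522)))) (lo111_10_5 (nat_lit 331)))) (M (nat_lit 331) (B (lo111_10_4 (nat_lit 460)) (lo111_10_5 (nat_lit 458))))))) (B (K _ _ _ o1_s16038) (B (M (nat_lit 458) (B (M (nat_lit 363) (B (M (nat_lit 490) (B (lo110_15_6 (nat_lit 394)) (lo110_16_6 (nat_lit 522)))) (lo111_10_5 (nat_lit 331)))) (lo113_13_1 (nat_lit 457)))) (M (nat_lit 425) (B (M (nat_lit 457) (B (lo113_13_1 (nat_lit 458)) (lo112_13_1 (nat_lit 456)))) (M (nat_lit 397) (B (lo110_13_2 (nat_lit 398)) (lo19_13_2 (nat_lit 396)))))))))) (B (M (nat_lit 363) (B (M (nat_lit 459) (B (M (nat_lit 364) (B (M (nat_lit 397) (B (M (nat_lit 365) (B (M (nat_lit 396) (B (M (nat_lit 362) (B (lo19_11_0 (nat_lit 361)) (lo111_14_7 (nat_lit 330)))) (M (nat_lit 366) (B (lo114_11_1 (nat_lit 394)) (lo115_11_1 (nat_lit 367)))))) (M (nat_lit 460) (B (lo111_11_4 (nat_lit 492)) (lo113_10_5 (nat_lit 333)))))) (B (M (nat_lit 362) (B (M (nat_lit 398) (B (lo110_13_2 (nat_lit 426)) (lo110_11_0 (nat_lit 365)))) (lo111_14_7 (nat_lit 330)))) (M (nat_lit 398) (B (M (nat_lit 399) (B (lo116_12_1 (nat_lit 400)) (lo115_12_1 (nat_lit 396)))) (lo110_13_2 (nat_lit 426))))))) (lo111_14_6 (nat_lit 332)))) (B (M (nat_lit 491) (B (M (nat_lit 492) (B (lo111_11_4 (nat_lit 460)) (lo111_12_4 (nat_lit 524)))) (M (nat_lit 364) (B (lo111_14_6 (nat_lit 332)) (lo111_15_6 (nat_lit 396)))))) (B (M (nat_lit 491) (B (M (nat_lit 362) (B (lo111_14_7 (nat_lit 330)) (lo111_15_7 (nat_lit 394)))) (M (nat_lit 492) (B (lo111_11_4 (nat_lit 460)) (lo111_12_4 (nat_lit 524)))))) (M (nat_lit 491) (B (M (nat_lit 362) (B (lo111_14_7 (nat_lit 330)) (lo111_15_7 (nat_lit 394)))) (M (nat_lit 364) (B (lo111_14_6 (nat_lit 332)) (lo111_15_6 (nat_lit 396)))))))))) (B (K _ _ _ o1_s15144) (B (M (nat_lit 460) (B (M (nat_lit 492) (B (lo112_16_7 (nat_lit 524)) (lo112_15_7 (nat_lit 396)))) (lo111_10_4 (nat_lit 331)))) (M (nat_lit 460) (B (M (nat_lit 492) (B (lo111_11_4 (nat_lit 459)) (lo112_16_7 (nat_lit 524)))) (lo111_10_4 (nat_lit 331)))))))) (B (M (nat_lit 459) (B (M (nat_lit 491) (B (M (nat_lit 492) (B (M (nat_lit 396) (B (M (nat_lit 490) (B (M (nat_lit 493) (B (M (nat_lit 525) (B (lo112_12_4 (nat_lit 460)) (lo110_15_0 (nat_lit 526)))) (M (nat_lit 458) (B (lo114_15_3 (nat_lit 494)) (lo113_15_3 (nat_lit 457)))))) (lo111_12_5 (nat_lit 522)))) (lo111_15_6 (nat_lit 364)))) (lo111_12_4 (nat_lit 524)))) (B (M (nat_lit 523) (B (M (nat_lit 524) (B (lo111_12_4 (nat_lit 492)) (lo111_13_4 (nat_lit 556)))) (M (nat_lit 522) (B (lo111_13_5 (nat_lit 554)) (lo111_12_5 (nat_lit 490)))))) (M (nat_lit 396) (B (lo111_16_6 (nat_lit 523)) (lo111_15_6 (nat_lit 364))))))) (B (M (nat_lit 491) (B (M (nat_lit 363) (B (M (nat_lit 492) (B (lo111_11_4 (nat_lit 460)) (lo111_12_4 (nat_lit 524)))) (M (nat_lit 362) (B (lo111_14_7 (nat_lit 330)) (lo111_15_7 (nat_lit 394)))))) (M (nat_lit 396) (B (lo111_16_6 (nat_lit 523)) (lo111_15_6 (nat_lit 364)))))) (B (M (nat_lit 458) (B (M (nat_lit 490) (B (M (nat_lit 522) (B (lo110_16_6 (nat_lit 426)) (lo110_17_6 (nat_lit 554)))) (lo111_11_5 (nat_lit 363)))) (M (nat_lit 457) (B (lo18_14_2 (nat_lit 456)) (lo19_14_2 (nat_lit 460)))))) (M (nat_lit 458) (B (M (nat_lit 490) (B (M (nat_lit 522) (B (lo110_17_6 (nat_lit 554)) (lo111_12_5 (nat_lit 491)))) (lo111_11_5 (nat_lit 363)))) (M (nat_lit 457) (B (lo113_13_1 (nat_lit 426)) (lo18_14_2 (nat_lit 456)))))))))) (M (nat_lit 363) (B (K _ _ _ o1_s15144) (B (K _ _ _ o1_s15722) (B (M (nat_lit 460) (B (M (nat_lit 492) (B (lo112_16_7 (nat_lit 524)) (lo112_15_7 (nat_lit 396)))) (lo111_10_4 (nat_lit 331)))) (M (nat_lit 460) (B (M (nat_lit 492) (B (lo111_11_4 (nat_lit 459)) (lo112_16_7 (nat_lit 524)))) (lo111_10_4 (nat_lit 331)))))))))))))))) (B (M (nat_lit 396) (B (M (nat_lit 364) (B (M (nat_lit 460) (B (M (nat_lit 365) (B (M (nat_lit 394) (B (M (nat_lit 397) (B (M (nat_lit 459) (B (M (nat_lit 458) (B (M (nat_lit 395) (B (M (nat_lit 362) (B (M (nat_lit 330) (B (lo110_10_4 (nat_lit 426)) (lo110_9_4 (nat_lit 298)))) (lo113_12_3 (nat_lit 361)))) (lo110_12_2 (nat_lit 366)))) (lo19_14_2 (nat_lit 457)))) (lo112_11_5 (nat_lit 491)))) (B (M (nat_lit 366) (B (M (nat_lit 367) (B (M (nat_lit 399) (B (lo115_12_1 (nat_lit 398)) (lo112_11_0 (nat_lit 400)))) (lo116_11_1 (nat_lit 368)))) (lo110_12_2 (nat_lit 395)))) (M (nat_lit 398) (B (lo110_13_2 (nat_lit 426)) (lo115_12_1 (nat_lit 399))))))) (B (M (nat_lit 426) (B (M (nat_lit 458) (B (M (nat_lit 490) (B (M (nat_lit 522) (B (M (nat_lit 555) (B (M (nat_lit 554) (B (lo110_17_6 (nat_lit 459)) (lo110_14_4 (nat_lit 587)))) (lo110_13_4 (nat_lit 523)))) (M (nat_lit 521) (B (lo110_12_5 (nat_lit 489)) (lo110_13_5 (nat_lit 553)))))) (B (M (nat_lit 522) (B (M (nat_lit 521) (B (lo110_12_5 (nat_lit 489)) (lo110_13_5 (nat_lit 553)))) (M (nat_lit 523) (B (lo110_12_4 (nat_lit 491)) (lo110_13_4 (nat_lit 555)))))) (B (M (nat_lit 522) (B (M (nat_lit 521) (B (lo110_12_5 (nat_lit 489)) (lo110_13_5 (nat_lit 553)))) (M (nat_lit 459) (B (lo112_11_5 (nat_lit 491)) (lo110_17_6 (nat_lit 554)))))) (M (nat_lit 491) (B (lo112_11_5 (nat_lit 459)) (lo110_12_4 (nat_lit 523)))))))) (lo113_13_1 (nat_lit 457)))) (lo113_13_3 (nat_lit 393)))) (M (nat_lit 395) (B (M (nat_lit 366) (B (lo110_12_2 (nat_lit 397)) (lo115_11_1 (nat_lit 367)))) (lo19_12_0 (nat_lit 393))))))) (lo112_14_6 (nat_lit 333)))) (B (K _ _ _ o1_s16221) (M (nat_lit 397) (B (M (nat_lit 398) (B (lo110_13_2 (nat_lit 426)) (lo115_12_1 (nat_lit 399)))) (M (nat_lit 492) (B (lo112_16_6 (nat_lit 524)) (lo112_15_6 (nat_lit 365))))))))) (B (M (nat_lit 397) (B (K _ _ _ o1_s16239) (M (nat_lit 398) (B (lo110_13_2 (nat_lit 426)) (lo115_12_1 (nat_lit 399)))))) (M (nat_lit 459) (B (M (nat_lit 491) (B (lo111_15_6 (nat_lit 395)) (lo111_16_6 (nat_lit 523)))) (lo112_10_5 (nat_lit 332))))))) (B (M (nat_lit 364) (B (M (nat_lit 460) (B (M (nat_lit 365) (B (M (nat_lit 363) (B (M (nat_lit 362) (B (M (nat_lit 366) (B (M (nat_lit 367) (B (M (nat_lit 368) (B (M (nat_lit 400) (B (lo112_11_0 (nat_lit 399)) (lo113_11_0 (nat_lit 401)))) (lo116_11_1 (nat_lit 397)))) (M (nat_lit 335) (B (lo111_11_2 (nat_lit 334)) (lo112_11_2 (nat_lit 336)))))) (B (M (nat_lit 367) (B (M (nat_lit 335) (B (lo111_11_2 (nat_lit 334)) (lo112_11_2 (nat_lit 336)))) (M (nat_lit 399) (B (lo111_11_0 (nat_lit 398)) (lo112_11_0 (nat_lit 400)))))) (B (M (nat_lit 367) (B (M (nat_lit 335) (B (lo111_11_2 (nat_lit 334)) (lo112_11_2 (nat_lit 336)))) (M (nat_lit 397) (B (lo116_11_1 (nat_lit 368)) (lo110_11_0 (nat_lit 398)))))) (M (nat_lit 398) (B (lo110_11_0 (nat_lit 397)) (lo111_11_0 (nat_lit 399)))))))) (M (nat_lit 361) (B (M (nat_lit 329) (B (lo113_11_3 (nat_lit 330)) (lo112_11_3 (nat_lit 328)))) (M (nat_lit 393) (B (lo113_11_1 (nat_lit 394)) (lo112_11_1 (nat_lit 392)))))))) (lo112_14_7 (nat_lit 331)))) (lo112_14_6 (nat_lit 333)))) (K _ _ _ o1_s16221))) (B (M (nat_lit 397) (B (K _ _ _ o1_s16285) (M (nat_lit 398) (B (lo110_13_2 (nat_lit 426)) (lo115_12_1 (nat_lit 399)))))) (B (M (nat_lit 397) (B (M (nat_lit 398) (B (lo110_13_2 (nat_lit 426)) (lo115_12_1 (nat_lit 399)))) (M (nat_lit 332) (B (lo112_9_4 (nat_lit 300)) (lo112_10_5 (nat_lit 459)))))) (M (nat_lit 459) (B (M (nat_lit 491) (B (lo112_11_5 (nat_lit 460)) (lo111_16_6 (nat_lit 523)))) (lo112_10_5 (nat_lit 332)))))))) (B (K _ _ _ o1_s16330) (B (M (nat_lit 397) (B (M (nat_lit 364) (B (M (nat_lit 363) (B (M (nat_lit 362) (B (M (nat_lit 394) (B (M (nat_lit 330) (B (M (nat_lit 298) (B (M (nat_lit 266) (B (M (nat_lit 265) (B (lo110_12_7 (nat_lit 297)) (lo110_11_7 (nat_lit 233)))) (M (nat_lit 267) (B (lo110_12_6 (nat_lit 299)) (lo110_11_6 (nat_lit 235)))))) (lo110_9_4 (nat_lit 395)))) (B (M (nat_lit 365) (B (M (nat_lit 366) (B (M (nat_lit 335) (B (M (nat_lit 367) (B (lo116_11_1 (nat_lit 368)) (lo112_11_2 (nat_lit 336)))) (lo111_11_2 (nat_lit 334)))) (lo114_11_1 (nat_lit 395)))) (lo113_11_3 (nat_lit 329)))) (M (nat_lit 329) (B (M (nat_lit 297) (B (M (nat_lit 265) (B (lo19_7_4 (nat_lit 233)) (lo110_12_7 (nat_lit 298)))) (lo110_13_7 (nat_lit 426)))) (lo113_11_3 (nat_lit 365))))))) (B (M (nat_lit 393) (B (lo19_12_0 (nat_lit 395)) (lo113_13_3 (nat_lit 426)))) (B (M (nat_lit 393) (B (lo113_13_3 (nat_lit 426)) (lo113_11_1 (nat_lit 365)))) (M (nat_lit 393) (B (lo19_12_0 (nat_lit 395)) (lo113_11_1 (nat_lit 365)))))))) (lo19_11_0 (nat_lit 361)))) (B (M (nat_lit 331) (B (M (nat_lit 332) (B (lo112_9_4 (nat_lit 300)) (lo112_13_7 (nat_lit 299)))) (lo112_14_7 (nat_lit 460)))) (M (nat_lit 460) (B (M (nat_lit 492) (B (lo112_15_7 (nat_lit 395)) (lo112_16_6 (nat_lit 524)))) (lo112_14_7 (nat_lit 331))))))) (B (M (nat_lit 365) (B (M (nat_lit 363) (B (M (nat_lit 366) (B (M (nat_lit 335) (B (M (nat_lit 367) (B (lo116_11_1 (nat_lit 368)) (lo112_11_2 (nat_lit 336)))) (lo111_11_2 (nat_lit 334)))) (M (nat_lit 362) (B (M (nat_lit 394) (B (lo114_11_1 (nat_lit 395)) (lo113_11_1 (nat_lit 393)))) (lo19_11_0 (nat_lit 361)))))) (M (nat_lit 460) (B (lo112_15_6 (nat_lit 492)) (lo112_14_7 (nat_lit 331)))))) (B (M (nat_lit 333) (B (M (nat_lit 334) (B (M (nat_lit 363) (B (M (nat_lit 335) (B (lo111_11_2 (nat_lit 366)) (lo116_10_1 (nat_lit 336)))) (lo110_11_2 (nat_lit 362)))) (lo113_13_6 (nat_lit 302)))) (lo113_9_5 (nat_lit 301)))) (M (nat_lit 333) (B (lo113_10_5 (nat_lit 460)) (lo113_9_5 (nat_lit 301))))))) (B (K _ _ _ o1_s16411) (B (M (nat_lit 332) (B (M (nat_lit 331) (B (M (nat_lit 363) (B (M (nat_lit 362) (B (M (nat_lit 333) (B (lo112_13_6 (nat_lit 301)) (lo114_10_1 (nat_lit 334)))) (lo19_11_0 (nat_lit 361)))) (lo112_14_7 (nat_lit 460)))) (lo112_13_7 (nat_lit 299)))) (lo112_9_4 (nat_lit 300)))) (B (M (nat_lit 333) (B (M (nat_lit 365) (B (M (nat_lit 334) (B (M (nat_lit 332) (B (M (nat_lit 363) (B (lo115_10_1 (nat_lit 335)) (lo110_11_2 (nat_lit 362)))) (lo112_9_4 (nat_lit 300)))) (lo113_13_6 (nat_lit 302)))) (lo113_10_5 (nat_lit 460)))) (B (M (nat_lit 332) (B (lo112_9_4 (nat_lit 300)) (lo112_13_6 (nat_lit 301)))) (M (nat_lit 365) (B (lo113_10_5 (nat_lit 460)) (lo113_9_5 (nat_lit 301))))))) (K _ _ _ o1_s16239))))))) (B (K _ _ _ o1_s16451) (M (nat_lit 398) (B (lo110_13_2 (nat_lit 426)) (lo115_12_1 (nat_lit 399))))))) (B (M (nat_lit 395) (B (M (nat_lit 397) (B (K _ _ _ o1_s16478) (M (nat_lit 398) (B (lo114_12_1 (nat_lit 426)) (lo115_12_1 (nat_lit 399)))))) (B (M (nat_lit 459) (B (K _ _ _ o1_s16503) (B (M (nat_lit 394) (B (M (nat_lit 491) (B (lo111_16_6 (nat_lit 523)) (lo111_15_7 (nat_lit 362)))) (lo19_12_0 (nat_lit 393)))) (M (nat_lit 364) (B (lo112_10_5 (nat_lit 332)) (lo111_15_6 (nat_lit 491))))))) (B (M (nat_lit 459) (B (K _ _ _ o1_s14443) (B (M (nat_lit 394) (B (M (nat_lit 491) (B (lo111_16_6 (nat_lit 523)) (lo111_15_7 (nat_lit 362)))) (lo19_12_0 (nat_lit 393)))) (M (nat_lit 364) (B (lo112_10_5 (nat_lit 332)) (lo111_15_6 (nat_lit 491))))))) (B (M (nat_lit 459) (B (M (nat_lit 363) (B (M (nat_lit 331) (B (M (nat_lit 332) (B (lo112_10_5 (nat_lit 364)) (lo111_13_6 (nat_lit 300)))) (lo111_9_4 (nat_lit 299)))) (M (nat_lit 458) (B (M (nat_lit 457) (B (lo113_13_1 (nat_lit 426)) (lo18_14_2 (nat_lit 456)))) (lo111_11_5 (nat_lit 490)))))) (B (M (nat_lit 458) (B (M (nat_lit 490) (B (M (nat_lit 522) (B (lo110_17_6 (nat_lit 554)) (lo111_12_5 (nat_lit 491)))) (lo111_11_5 (nat_lit 363)))) (M (nat_lit 457) (B (lo113_13_1 (nat_lit 426)) (lo18_14_2 (nat_lit 456)))))) (M (nat_lit 364) (B (lo112_10_5 (nat_lit 332)) (lo111_15_6 (nat_lit 491))))))) (M (nat_lit 397) (B (K _ _ _ o1_s16528) (B (M (nat_lit 362) (B (M (nat_lit 394) (B (lo19_12_0 (nat_lit 393)) (lo113_12_3 (nat_lit 361)))) (M (nat_lit 398) (B (lo115_12_1 (nat_lit 399)) (lo114_12_3 (nat_lit 363)))))) (M (nat_lit 398) (B (lo114_12_1 (nat_lit 426)) (lo115_12_1 (nat_lit 399)))))))))))) (B (M (nat_lit 459) (B (M (nat_lit 397) (B (M (nat_lit 460) (B (M (nat_lit 394) (B (M (nat_lit 362) (B (M (nat_lit 364) (B (M (nat_lit 365) (B (M (nat_lit 363) (B (M (nat_lit 330) (B (lo110_10_4 (nat_lit 426)) (lo113_11_3 (nat_lit 329)))) (lo19_11_0 (nat_lit 361)))) (lo113_10_5 (nat_lit 333)))) (lo112_10_5 (nat_lit 332)))) (B (M (nat_lit 395) (B (M (nat_lit 365) (B (lo113_10_5 (nat_lit 333)) (lo110_12_2 (nat_lit 366)))) (M (nat_lit 330) (B (lo110_10_4 (nat_lit 426)) (lo110_9_4 (nat_lit 298)))))) (M (nat_lit 364) (B (M (nat_lit 361) (B (lo19_11_0 (nat_lit 363)) (lo113_12_3 (nat_lit 395)))) (lo112_10_5 (nat_lit 332))))))) (B (M (nat_lit 426) (B (M (nat_lit 458) (B (M (nat_lit 362) (B (M (nat_lit 364) (B (M (nat_lit 361) (B (lo19_11_0 (nat_lit 363)) (lo110_14_7 (nat_lit 329)))) (lo112_10_5 (nat_lit 332)))) (lo110_10_4 (nat_lit 330)))) (lo113_13_1 (nat_lit 457)))) (lo113_13_3 (nat_lit 393)))) (M (nat_lit 395) (B (M (nat_lit 365) (B (lo110_12_2 (nat_lit 366)) (lo113_10_5 (nat_lit 333)))) (lo19_12_0 (nat_lit 393))))))) (B (M (nat_lit 492) (B (M (nat_lit 395) (B (M (nat_lit 394) (B (M (nat_lit 362) (B (M (nat_lit 330) (B (lo110_10_4 (nat_lit 426)) (lo110_9_4 (nat_lit 298)))) (lo113_12_3 (nat_lit 361)))) (lo19_12_0 (nat_lit 393)))) (lo111_11_4 (nat_lit 363)))) (lo112_16_6 (nat_lit 524)))) (M (nat_lit 492) (B (lo112_16_6 (nat_lit 524)) (lo112_15_6 (nat_lit 365))))))) (B (M (nat_lit 365) (B (M (nat_lit 366) (B (M (nat_lit 398) (B (M (nat_lit 364) (B (M (nat_lit 363) (B (M (nat_lit 334) (B (lo111_11_2 (nat_lit 335)) (lo114_9_5 (nat_lit 302)))) (lo110_11_0 (nat_lit 362)))) (lo112_10_5 (nat_lit 332)))) (lo115_12_1 (nat_lit 399)))) (B (M (nat_lit 395) (B (M (nat_lit 398) (B (lo115_12_1 (nat_lit 399)) (lo111_12_2 (nat_lit 367)))) (lo110_12_2 (nat_lit 394)))) (M (nat_lit 395) (B (M (nat_lit 364) (B (lo112_10_5 (nat_lit 332)) (lo115_11_1 (nat_lit 367)))) (lo110_12_2 (nat_lit 394))))))) (M (nat_lit 333) (B (lo113_10_5 (nat_lit 460)) (lo113_9_5 (nat_lit 301)))))) (M (nat_lit 398) (B (lo110_13_2 (nat_lit 426)) (lo115_12_1 (nat_lit 399))))))) (B (K _ _ _ o1_s16615) (B (M (nat_lit 364) (B (M (nat_lit 491) (B (lo112_11_5 (nat_lit 460)) (lo111_16_6 (nat_lit 523)))) (lo112_10_5 (nat_lit 332)))) (M (nat_lit 364) (B (M (nat_lit 491) (B (lo111_15_6 (nat_lit 395)) (lo111_16_6 (nat_lit 523)))) (lo112_10_5 (nat_lit 332)))))))) (B (M (nat_lit 459) (B (M (nat_lit 395) (B (K _ _ _ o1_s16503) (B (M (nat_lit 363) (B (M (nat_lit 362) (B (M (nat_lit 364) (B (M (nat_lit 361) (B (lo18_11_0 (nat_lit 360)) (lo19_11_0 (nat_lit 397)))) (lo112_10_5 (nat_lit 332)))) (lo111_14_7 (nat_lit 330)))) (M (nat_lit 460) (B (M (nat_lit 458) (B (lo19_14_2 (nat_lit 457)) (lo111_11_5 (nat_lit 490)))) (lo111_11_4 (nat_lit 492)))))) (B (M (nat_lit 363) (B (M (nat_lit 330) (B (M (nat_lit 331) (B (lo111_13_7 (nat_lit 298)) (lo111_9_4 (nat_lit 299)))) (lo111_14_7 (nat_lit 362)))) (M (nat_lit 460) (B (M (nat_lit 458) (B (lo19_14_2 (nat_lit 457)) (lo111_11_5 (nat_lit 490)))) (lo111_11_4 (nat_lit 492)))))) (K _ _ _ o1_s16624))))) (B (K _ _ _ o1_s16615) (B (M (nat_lit 364) (B (M (nat_lit 491) (B (lo112_11_5 (nat_lit 460)) (lo111_16_6 (nat_lit 523)))) (lo112_10_5 (nat_lit 332)))) (M (nat_lit 364) (B (M (nat_lit 491) (B (lo111_15_6 (nat_lit 395)) (lo111_16_6 (nat_lit 523)))) (lo112_10_5 (nat_lit 332)))))))) (B (K _ _ _ o1_s16649) (B (M (nat_lit 459) (B (M (nat_lit 395) (B (M (nat_lit 394) (B (M (nat_lit 397) (B (M (nat_lit 362) (B (M (nat_lit 330) (B (lo110_9_4 (nat_lit 298)) (lo110_10_4 (nat_lit 426)))) (lo113_12_3 (nat_lit 361)))) (M (nat_lit 398) (B (M (nat_lit 366) (B (lo110_12_2 (nat_lit 365)) (lo111_12_2 (nat_lit 367)))) (lo115_12_1 (nat_lit 399)))))) (lo19_12_0 (nat_lit 393)))) (K _ _ _ o1_s16624))) (B (K _ _ _ o1_s16615) (B (M (nat_lit 364) (B (M (nat_lit 491) (B (lo112_11_5 (nat_lit 460)) (lo111_16_6 (nat_lit 523)))) (lo112_10_5 (nat_lit 332)))) (M (nat_lit 364) (B (M (nat_lit 491) (B (lo111_15_6 (nat_lit 395)) (lo111_16_6 (nat_lit 523)))) (lo112_10_5 (nat_lit 332)))))))) (B (M (nat_lit 397) (B (M (nat_lit 395) (B (M (nat_lit 363) (B (M (nat_lit 459) (B (M (nat_lit 492) (B (M (nat_lit 491) (B (lo111_12_4 (nat_lit 524)) (lo111_16_6 (nat_lit 523)))) (lo111_11_4 (nat_lit 460)))) (M (nat_lit 458) (B (M (nat_lit 457) (B (lo113_13_1 (nat_lit 426)) (lo18_14_2 (nat_lit 456)))) (lo111_11_5 (nat_lit 490)))))) (B (M (nat_lit 331) (B (M (nat_lit 459) (B (M (nat_lit 458) (B (lo111_10_5 (nat_lit 426)) (lo111_11_5 (nat_lit 490)))) (M (nat_lit 330) (B (lo111_14_7 (nat_lit 362)) (lo111_13_7 (nat_lit 298)))))) (lo111_9_4 (nat_lit 299)))) (M (nat_lit 331) (B (lo111_9_4 (nat_lit 299)) (lo111_10_4 (nat_lit 460))))))) (B (K _ _ _ o1_s16528) (M (nat_lit 365) (B (M (nat_lit 333) (B (lo113_10_5 (nat_lit 460)) (lo113_9_5 (nat_lit 301)))) (M (nat_lit 394) (B (lo19_12_0 (nat_lit 393)) (lo110_12_2 (nat_lit 366))))))))) (B (K _ _ _ o1_s16451) (M (nat_lit 398) (B (lo110_13_2 (nat_lit 426)) (lo115_12_1 (nat_lit 399))))))) (B (M (nat_lit 460) (B (M (nat_lit 459) (B (M (nat_lit 395) (B (M (nat_lit 397) (B (M (nat_lit 365) (B (M (nat_lit 394) (B (lo110_12_2 (nat_lit 366)) (lo19_12_0 (nat_lit 393)))) (lo113_10_5 (nat_lit 333)))) (M (nat_lit 398) (B (lo114_12_1 (nat_lit 426)) (lo115_12_1 (nat_lit 399)))))) (M (nat_lit 363) (B (M (nat_lit 458) (B (lo19_14_2 (nat_lit 457)) (lo111_11_5 (nat_lit 490)))) (lo111_10_4 (nat_lit 331)))))) (M (nat_lit 364) (B (lo112_11_5 (nat_lit 491)) (lo112_10_5 (nat_lit 332)))))) (B (M (nat_lit 492) (B (M (nat_lit 364) (B (M (nat_lit 491) (B (lo112_11_5 (nat_lit 459)) (lo112_12_5 (nat_lit 523)))) (M (nat_lit 363) (B (lo112_15_7 (nat_lit 395)) (lo112_14_7 (nat_lit 331)))))) (B (M (nat_lit 524) (B (M (nat_lit 525) (B (lo112_13_4 (nat_lit 557)) (lo112_12_4 (nat_lit 493)))) (M (nat_lit 523) (B (lo112_13_5 (nat_lit 555)) (lo112_12_5 (nat_lit 491)))))) (M (nat_lit 395) (B (lo112_15_7 (nat_lit 363)) (lo112_16_7 (nat_lit 524))))))) (M (nat_lit 397) (B (M (nat_lit 398) (B (lo110_13_2 (nat_lit 426)) (lo115_12_1 (nat_lit 399)))) (M (nat_lit 365) (B (lo113_10_5 (nat_lit 333)) (lo112_15_6 (nat_lit 492))))))))) (K _ _ _ o1_s16739))))))))))))) (B (M (nat_lit 396) (B (M (nat_lit 364) (B (M (nat_lit 363) (B (M (nat_lit 459) (B (M (nat_lit 365) (B (M (nat_lit 362) (B (M (nat_lit 361) (B (M (nat_lit 395) (B (M (nat_lit 366) (B (lo114_11_1 (nat_lit 394)) (lo115_11_1 (nat_lit 367)))) (lo18_11_0 (nat_lit 360)))) (B (M (nat_lit 392) (B (M (nat_lit 360) (B (lo18_11_0 (nat_lit 395)) (lo111_11_1 (nat_lit 391)))) (lo112_11_1 (nat_lit 393)))) (M (nat_lit 393) (B (lo113_11_1 (nat_lit 394)) (lo112_11_1 (nat_lit 392))))))) (B (M (nat_lit 361) (B (M (nat_lit 393) (B (lo113_11_1 (nat_lit 394)) (lo112_11_1 (nat_lit 392)))) (M (nat_lit 329) (B (lo113_11_3 (nat_lit 330)) (lo112_11_3 (nat_lit 328)))))) (M (nat_lit 330) (B (lo111_14_7 (nat_lit 395)) (lo113_11_3 (nat_lit 329))))))) (B (M (nat_lit 362) (B (M (nat_lit 333) (B (lo112_14_6 (nat_lit 460)) (lo110_11_2 (nat_lit 334)))) (M (nat_lit 330) (B (lo111_14_7 (nat_lit 395)) (lo113_11_3 (nat_lit 329)))))) (B (M (nat_lit 395) (B (M (nat_lit 460) (B (lo112_14_6 (nat_lit 333)) (lo111_11_4 (nat_lit 492)))) (M (nat_lit 394) (B (lo19_12_0 (nat_lit 393)) (lo114_11_1 (nat_lit 366)))))) (M (nat_lit 333) (B (M (nat_lit 334) (B (M (nat_lit 335) (B (lo111_11_2 (nat_lit 366)) (lo116_10_1 (nat_lit 336)))) (lo110_11_2 (nat_lit 362)))) (lo112_14_6 (nat_lit 460)))))))) (B (M (nat_lit 491) (B (lo112_11_5 (nat_lit 460)) (lo111_16_6 (nat_lit 523)))) (M (nat_lit 491) (B (lo111_15_6 (nat_lit 395)) (lo111_16_6 (nat_lit 523))))))) (B (M (nat_lit 395) (B (M (nat_lit 362) (B (M (nat_lit 361) (B (M (nat_lit 393) (B (lo19_12_0 (nat_lit 394)) (lo112_11_1 (nat_lit 392)))) (lo18_11_0 (nat_lit 360)))) (M (nat_lit 459) (B (lo111_14_7 (nat_lit 330)) (lo111_15_6 (nat_lit 491)))))) (B (K _ _ _ o1_s16792) (M (nat_lit 458) (B (M (nat_lit 459) (B (lo111_15_6 (nat_lit 491)) (lo111_11_5 (nat_lit 490)))) (M (nat_lit 331) (B (lo111_9_4 (nat_lit 299)) (lo111_10_5 (nat_lit 426))))))))) (B (K _ _ _ o1_s14650) (M (nat_lit 331) (B (M (nat_lit 299) (B (lo111_9_4 (nat_lit 395)) (lo111_8_4 (nat_lit 267)))) (lo112_14_7 (nat_lit 460)))))))) (B (K _ _ _ o1_s16329) (B (M (nat_lit 459) (B (M (nat_lit 491) (B (lo112_11_5 (nat_lit 460)) (lo111_16_6 (nat_lit 523)))) (lo112_10_5 (nat_lit 332)))) (M (nat_lit 459) (B (M (nat_lit 491) (B (lo111_15_6 (nat_lit 395)) (lo111_16_6 (nat_lit 523)))) (lo112_10_5 (nat_lit 332)))))))) (B (M (nat_lit 364) (B (M (nat_lit 395) (B (M (nat_lit 397) (B (K _ _ _ o1_s16821) (B (M (nat_lit 365) (B (M (nat_lit 362) (B (M (nat_lit 333) (B (M (nat_lit 334) (B (lo113_13_6 (nat_lit 302)) (lo110_11_2 (nat_lit 363)))) (lo113_9_5 (nat_lit 301)))) (M (nat_lit 394) (B (lo19_12_0 (nat_lit 393)) (lo113_12_3 (nat_lit 361)))))) (B (M (nat_lit 333) (B (M (nat_lit 334) (B (M (nat_lit 363) (B (M (nat_lit 335) (B (lo111_11_2 (nat_lit 366)) (lo116_10_1 (nat_lit 336)))) (lo110_11_2 (nat_lit 362)))) (lo113_13_6 (nat_lit 302)))) (lo113_9_5 (nat_lit 301)))) (M (nat_lit 394) (B (lo19_12_0 (nat_lit 393)) (lo110_12_2 (nat_lit 366))))))) (B (M (nat_lit 366) (B (M (nat_lit 398) (B (lo115_12_1 (nat_lit 399)) (lo111_12_2 (nat_lit 367)))) (M (nat_lit 394) (B (lo19_12_0 (nat_lit 393)) (lo110_12_2 (nat_lit 365)))))) (M (nat_lit 362) (B (M (nat_lit 394) (B (lo19_12_0 (nat_lit 393)) (lo113_12_3 (nat_lit 361)))) (M (nat_lit 398) (B (lo115_12_1 (nat_lit 399)) (lo114_12_3 (nat_lit 363)))))))))) (B (M (nat_lit 363) (B (K _ _ _ o1_s16792) (B (M (nat_lit 365) (B (M (nat_lit 394) (B (lo114_11_1 (nat_lit 366)) (lo19_12_0 (nat_lit 393)))) (M (nat_lit 460) (B (lo112_15_7 (nat_lit 492)) (lo112_14_6 (nat_lit 333)))))) (M (nat_lit 331) (B (lo111_10_4 (nat_lit 460)) (lo111_9_4 (nat_lit 299))))))) (B (M (nat_lit 365) (B (M (nat_lit 460) (B (M (nat_lit 491) (B (M (nat_lit 492) (B (lo112_16_7 (nat_lit 524)) (lo112_12_5 (nat_lit 523)))) (lo112_11_5 (nat_lit 459)))) (lo112_14_6 (nat_lit 333)))) (M (nat_lit 394) (B (M (nat_lit 366) (B (lo110_12_2 (nat_lit 397)) (lo115_11_1 (nat_lit 367)))) (lo19_12_0 (nat_lit 393)))))) (M (nat_lit 363) (B (M (nat_lit 362) (B (M (nat_lit 459) (B (lo111_14_7 (nat_lit 330)) (lo111_15_6 (nat_lit 491)))) (M (nat_lit 361) (B (lo18_11_0 (nat_lit 360)) (lo19_11_0 (nat_lit 397)))))) (M (nat_lit 331) (B (lo111_10_4 (nat_lit 460)) (lo111_9_4 (nat_lit 299)))))))))) (B (K _ _ _ o1_s16329) (B (M (nat_lit 459) (B (M (nat_lit 491) (B (lo112_11_5 (nat_lit 460)) (lo111_16_6 (nat_lit 523)))) (lo112_10_5 (nat_lit 332)))) (M (nat_lit 459) (B (M (nat_lit 491) (B (lo111_15_6 (nat_lit 395)) (lo111_16_6 (nat_lit 523)))) (lo112_10_5 (nat_lit 332)))))))) (B (M (nat_lit 397) (B (M (nat_lit 460) (B (K _ _ _ o1_s16903) (B (K _ _ _ o1_s16914) (M (nat_lit 492) (B (lo112_16_6 (nat_lit 524)) (lo112_15_6 (nat_lit 365))))))) (B (M (nat_lit 460) (B (K _ _ _ o1_s16930) (B (K _ _ _ o1_s16914) (M (nat_lit 492) (B (lo112_16_6 (nat_lit 524)) (lo112_15_6 (nat_lit 365))))))) (M (nat_lit 398) (B (lo110_13_2 (nat_lit 426)) (lo115_12_1 (nat_lit 399))))))) (B (M (nat_lit 459) (B (K _ _ _ o1_s13085) (B (K _ _ _ o1_s12849) (B (M (nat_lit 364) (B (M (nat_lit 491) (B (lo112_11_5 (nat_lit 460)) (lo111_16_6 (nat_lit 523)))) (lo112_10_5 (nat_lit 332)))) (B (M (nat_lit 364) (B (M (nat_lit 491) (B (lo111_15_6 (nat_lit 395)) (lo111_16_6 (nat_lit 523)))) (lo112_10_5 (nat_lit 332)))) (M (nat_lit 491) (B (M (nat_lit 364) (B (lo112_11_5 (nat_lit 460)) (lo111_15_6 (nat_lit 395)))) (lo111_16_6 (nat_lit 523))))))))) (B (M (nat_lit 397) (B (M (nat_lit 460) (B (K _ _ _ o1_s16903) (B (M (nat_lit 492) (B (M (nat_lit 363) (B (M (nat_lit 331) (B (M (nat_lit 426) (B (M (nat_lit 394) (B (M (nat_lit 362) (B (M (nat_lit 299) (B (lo111_8_5 (nat_lit 267)) (lo110_13_6 (nat_lit 330)))) (lo110_14_6 (nat_lit 458)))) (lo113_13_3 (nat_lit 393)))) (lo19_13_2 (nat_lit 425)))) (lo112_14_7 (nat_lit 364)))) (lo112_15_7 (nat_lit 395)))) (lo112_16_6 (nat_lit 524)))) (M (nat_lit 492) (B (lo112_16_6 (nat_lit 524)) (lo112_15_6 (nat_lit 365))))))) (B (K _ _ _ o1_s16451) (M (nat_lit 398) (B (lo110_13_2 (nat_lit 426)) (lo115_12_1 (nat_lit 399))))))) (B (M (nat_lit 397) (B (M (nat_lit 395) (B (M (nat_lit 364) (B (K _ _ _ o1_s16962) (B (M (nat_lit 363) (B (M (nat_lit 362) (B (M (nat_lit 459) (B (lo111_14_7 (nat_lit 330)) (lo111_15_6 (nat_lit 491)))) (lo19_11_0 (nat_lit 361)))) (M (nat_lit 331) (B (M (nat_lit 426) (B (lo19_13_2 (nat_lit 425)) (lo111_10_5 (nat_lit 458)))) (lo111_9_4 (nat_lit 299)))))) (M (nat_lit 332) (B (lo112_9_4 (nat_lit 300)) (lo112_10_5 (nat_lit 459))))))) (B (M (nat_lit 365) (B (M (nat_lit 332) (B (M (nat_lit 331) (B (M (nat_lit 333) (B (M (nat_lit 330) (B (M (nat_lit 298) (B (lo111_13_7 (nat_lit 363)) (lo113_10_3 (nat_lit 297)))) (M (nat_lit 364) (B (lo19_10_0 (nat_lit 329)) (lo112_10_5 (nat_lit 459)))))) (lo113_9_5 (nat_lit 301)))) (B (M (nat_lit 363) (B (M (nat_lit 426) (B (lo19_13_2 (nat_lit 425)) (lo111_10_5 (nat_lit 458)))) (lo111_9_4 (nat_lit 299)))) (M (nat_lit 364) (B (lo112_10_5 (nat_lit 459)) (lo112_13_7 (nat_lit 299))))))) (B (M (nat_lit 333) (B (lo113_9_5 (nat_lit 301)) (lo113_13_7 (nat_lit 300)))) (M (nat_lit 364) (B (lo112_9_4 (nat_lit 300)) (lo112_10_5 (nat_lit 459))))))) (M (nat_lit 394) (B (lo19_12_0 (nat_lit 393)) (lo110_12_2 (nat_lit 366)))))) (B (K _ _ _ o1_s16478) (B (K _ _ _ o1_s17006) (K _ _ _ o1_s16528)))))) (B (K _ _ _ o1_s17016) (M (nat_lit 398) (B (lo110_13_2 (nat_lit 426)) (lo115_12_1 (nat_lit 399))))))) (B (M (nat_lit 397) (B (M (nat_lit 460) (B (M (nat_lit 364) (B (K _ _ _ o1_s17028) (B (M (nat_lit 333) (B (M (nat_lit 332) (B (lo112_9_4 (nat_lit 300)) (lo112_13_6 (nat_lit 301)))) (lo113_10_5 (nat_lit 365)))) (M (nat_lit 331) (B (M (nat_lit 332) (B (lo112_9_4 (nat_lit 300)) (lo112_13_7 (nat_lit 299)))) (lo112_14_7 (nat_lit 363))))))) (B (K _ _ _ o1_s16914) (M (nat_lit 492) (B (lo112_16_6 (nat_lit 524)) (lo112_15_6 (nat_lit 365))))))) (B (M (nat_lit 364) (B (K _ _ _ o1_s17035) (B (K _ _ _ o1_s16285) (M (nat_lit 332) (B (lo112_9_4 (nat_lit 300)) (lo112_10_5 (nat_lit 459))))))) (M (nat_lit 398) (B (lo110_13_2 (nat_lit 426)) (lo115_12_1 (nat_lit 399))))))) (B (K _ _ _ o1_s17089) (B (K _ _ _ o1_s17140) (B (K _ _ _ o1_s17167) (M (nat_lit 459) (B (M (nat_lit 426) (B (M (nat_lit 394) (B (M (nat_lit 362) (B (M (nat_lit 363) (B (M (nat_lit 397) (B (M (nat_lit 364) (B (lo112_10_5 (nat_lit 332)) (lo19_11_0 (nat_lit 361)))) (lo110_13_2 (nat_lit 398)))) (M (nat_lit 331) (B (M (nat_lit 395) (B (lo111_9_4 (nat_lit 299)) (lo111_10_4 (nat_lit 460)))) (lo110_14_6 (nat_lit 458)))))) (lo110_10_4 (nat_lit 330)))) (lo113_13_3 (nat_lit 393)))) (B (M (nat_lit 425) (B (M (nat_lit 393) (B (lo112_13_3 (nat_lit 392)) (lo113_13_3 (nat_lit 394)))) (M (nat_lit 424) (B (lo18_13_0 (nat_lit 460)) (lo18_13_2 (nat_lit 395)))))) (M (nat_lit 397) (B (lo110_13_2 (nat_lit 398)) (lo19_13_2 (nat_lit 425))))))) (B (M (nat_lit 426) (B (M (nat_lit 394) (B (M (nat_lit 362) (B (M (nat_lit 491) (B (lo111_15_7 (nat_lit 395)) (lo111_16_6 (nat_lit 523)))) (lo110_10_4 (nat_lit 330)))) (lo113_13_3 (nat_lit 393)))) (M (nat_lit 397) (B (lo110_13_2 (nat_lit 398)) (lo19_13_2 (nat_lit 425)))))) (M (nat_lit 364) (B (M (nat_lit 491) (B (lo112_11_5 (nat_lit 460)) (lo111_16_6 (nat_lit 523)))) (lo112_10_5 (nat_lit 332)))))))))))))))))) (B (M (nat_lit 396) (B (K _ _ _ o1_s16330) (B (M (nat_lit 397) (B (M (nat_lit 364) (B (M (nat_lit 394) (B (M (nat_lit 362) (B (M (nat_lit 330) (B (M (nat_lit 363) (B (M (nat_lit 365) (B (M (nat_lit 333) (B (lo110_11_2 (nat_lit 334)) (lo113_9_5 (nat_lit 301)))) (lo113_11_3 (nat_lit 329)))) (lo19_11_0 (nat_lit 361)))) (M (nat_lit 426) (B (lo19_13_2 (nat_lit 425)) (lo110_10_4 (nat_lit 459)))))) (B (M (nat_lit 459) (B (M (nat_lit 491) (B (lo111_15_6 (nat_lit 395)) (lo111_16_6 (nat_lit 523)))) (M (nat_lit 426) (B (lo19_13_2 (nat_lit 425)) (lo110_10_4 (nat_lit 330)))))) (M (nat_lit 361) (B (lo19_11_0 (nat_lit 363)) (lo113_12_3 (nat_lit 395))))))) (B (M (nat_lit 395) (B (M (nat_lit 365) (B (M (nat_lit 362) (B (M (nat_lit 333) (B (M (nat_lit 334) (B (lo110_11_2 (nat_lit 363)) (lo113_13_6 (nat_lit 302)))) (lo113_9_5 (nat_lit 301)))) (lo113_12_3 (nat_lit 361)))) (lo110_12_2 (nat_lit 366)))) (lo19_12_0 (nat_lit 393)))) (M (nat_lit 426) (B (lo19_13_2 (nat_lit 425)) (lo113_13_3 (nat_lit 393))))))) (B (K _ _ _ o1_s16411) (M (nat_lit 332) (B (lo112_9_4 (nat_lit 300)) (lo112_10_5 (nat_lit 459))))))) (B (K _ _ _ o1_s17016) (M (nat_lit 398) (B (lo110_13_2 (nat_lit 426)) (lo115_12_1 (nat_lit 399))))))) (B (M (nat_lit 426) (B (M (nat_lit 397) (B (M (nat_lit 365) (B (M (nat_lit 394) (B (M (nat_lit 395) (B (M (nat_lit 362) (B (M (nat_lit 331) (B (M (nat_lit 460) (B (lo112_15_6 (nat_lit 492)) (lo111_10_4 (nat_lit 363)))) (M (nat_lit 330) (B (lo110_9_4 (nat_lit 298)) (lo110_13_6 (nat_lit 299)))))) (lo113_12_3 (nat_lit 361)))) (lo110_12_2 (nat_lit 366)))) (lo113_13_3 (nat_lit 393)))) (B (M (nat_lit 333) (B (M (nat_lit 332) (B (M (nat_lit 334) (B (M (nat_lit 331) (B (M (nat_lit 299) (B (lo112_13_7 (nat_lit 364)) (lo114_10_3 (nat_lit 298)))) (M (nat_lit 366) (B (lo110_10_0 (nat_lit 330)) (lo111_10_0 (nat_lit 367)))))) (lo113_13_6 (nat_lit 302)))) (lo113_13_7 (nat_lit 300)))) (lo113_9_5 (nat_lit 301)))) (M (nat_lit 333) (B (lo113_10_5 (nat_lit 460)) (lo113_9_5 (nat_lit 301))))))) (lo110_13_2 (nat_lit 398)))) (B (M (nat_lit 425) (B (M (nat_lit 424) (B (M (nat_lit 456) (B (lo112_13_1 (nat_lit 457)) (lo111_13_1 (nat_lit 455)))) (lo18_13_2 (nat_lit 395)))) (M (nat_lit 393) (B (lo113_13_3 (nat_lit 394)) (lo112_13_3 (nat_lit 392)))))) (M (nat_lit 397) (B (lo110_13_2 (nat_lit 398)) (lo19_13_2 (nat_lit 425))))))) (B (K _ _ _ o1_s16649) (B (K _ _ _ o1_s17089) (B (M (nat_lit 397) (B (M (nat_lit 460) (B (K _ _ _ o1_s16903) (B (K _ _ _ o1_s17266) (M (nat_lit 492) (B (lo112_16_6 (nat_lit 524)) (lo112_15_6 (nat_lit 365))))))) (B (M (nat_lit 460) (B (K _ _ _ o1_s16930) (B (K _ _ _ o1_s17266) (M (nat_lit 492) (B (lo112_16_6 (nat_lit 524)) (lo112_15_6 (nat_lit 365))))))) (M (nat_lit 398) (B (lo110_13_2 (nat_lit 426)) (lo115_12_1 (nat_lit 399))))))) (B (K _ _ _ o1_s17140) (B (K _ _ _ o1_s16739) (B (K _ _ _ o1_s17167) (B (M (nat_lit 364) (B (M (nat_lit 397) (B (M (nat_lit 460) (B (K _ _ _ o1_s17028) (B (M (nat_lit 492) (B (M (nat_lit 491) (B (lo112_11_5 (nat_lit 459)) (lo112_12_5 (nat_lit 523)))) (lo112_16_6 (nat_lit 524)))) (M (nat_lit 492) (B (lo112_16_6 (nat_lit 524)) (lo112_15_6 (nat_lit 365))))))) (B (K _ _ _ o1_s17035) (M (nat_lit 398) (B (lo110_13_2 (nat_lit 426)) (lo115_12_1 (nat_lit 399))))))) (B (M (nat_lit 397) (B (K _ _ _ o1_s16285) (M (nat_lit 398) (B (lo110_13_2 (nat_lit 426)) (lo115_12_1 (nat_lit 399)))))) (B (M (nat_lit 397) (B (M (nat_lit 398) (B (lo110_13_2 (nat_lit 426)) (lo115_12_1 (nat_lit 399)))) (M (nat_lit 332) (B (lo112_9_4 (nat_lit 300)) (lo112_10_5 (nat_lit 459)))))) (M (nat_lit 459) (B (M (nat_lit 491) (B (lo112_11_5 (nat_lit 460)) (lo111_16_6 (nat_lit 523)))) (lo112_10_5 (nat_lit 332)))))))) (M (nat_lit 397) (B (M (nat_lit 364) (B (M (nat_lit 363) (B (M (nat_lit 460) (B (M (nat_lit 491) (B (M (nat_lit 492) (B (lo112_16_6 (nat_lit 524)) (lo112_12_5 (nat_lit 523)))) (lo112_11_5 (nat_lit 459)))) (lo112_14_7 (nat_lit 331)))) (M (nat_lit 362) (B (M (nat_lit 398) (B (lo114_12_3 (nat_lit 395)) (lo115_12_1 (nat_lit 399)))) (lo19_11_0 (nat_lit 361)))))) (B (M (nat_lit 363) (B (M (nat_lit 362) (B (M (nat_lit 398) (B (lo114_12_3 (nat_lit 395)) (lo115_12_1 (nat_lit 399)))) (lo19_11_0 (nat_lit 361)))) (M (nat_lit 331) (B (M (nat_lit 332) (B (lo112_9_4 (nat_lit 300)) (lo112_13_7 (nat_lit 299)))) (lo112_14_7 (nat_lit 460)))))) (M (nat_lit 332) (B (lo112_9_4 (nat_lit 300)) (lo112_10_5 (nat_lit 459))))))) (B (K _ _ _ o1_s17139) (M (nat_lit 398) (B (lo110_13_2 (nat_lit 426)) (lo115_12_1 (nat_lit 399)))))))))))))))))) (B (M (nat_lit 426) (B (M (nat_lit 397) (B (M (nat_lit 396) (B (K _ _ _ o1_s17077) (lo19_13_2 (nat_lit 425)))) (lo110_13_2 (nat_lit 398)))) (B (K _ _ _ o1_s14330) (M (nat_lit 425) (B (M (nat_lit 397) (B (lo110_13_2 (nat_lit 398)) (lo19_13_2 (nat_lit 396)))) (M (nat_lit 457) (B (lo113_13_1 (nat_lit 458)) (lo112_13_1 (nat_lit 456))))))))) (B (M (nat_lit 426) (B (M (nat_lit 458) (B (M (nat_lit 395) (B (M (nat_lit 394) (B (M (nat_lit 397) (B (M (nat_lit 365) (B (M (nat_lit 333) (B (M (nat_lit 332) (B (M (nat_lit 366) (B (M (nat_lit 331) (B (M (nat_lit 334) (B (lo113_13_6 (nat_lit 302)) (lo111_10_0 (nat_lit 367)))) (lo110_10_0 (nat_lit 330)))) (lo110_12_2 (nat_lit 396)))) (lo113_13_7 (nat_lit 300)))) (B (M (nat_lit 301) (B (M (nat_lit 302) (B (lo113_12_6 (nat_lit 270)) (lo113_13_6 (nat_lit 334)))) (M (nat_lit 300) (B (lo113_13_7 (nat_lit 332)) (lo113_12_7 (nat_lit 268)))))) (M (nat_lit 396) (B (lo113_9_5 (nat_lit 301)) (lo110_12_2 (nat_lit 366))))))) (B (M (nat_lit 396) (B (M (nat_lit 490) (B (M (nat_lit 491) (B (M (nat_lit 492) (B (M (nat_lit 459) (B (lo111_12_4 (nat_lit 524)) (lo111_15_6 (nat_lit 364)))) (lo112_15_6 (nat_lit 460)))) (lo110_12_4 (nat_lit 523)))) (lo110_16_6 (nat_lit 522)))) (lo110_12_2 (nat_lit 366)))) (M (nat_lit 333) (B (M (nat_lit 301) (B (M (nat_lit 302) (B (lo113_12_6 (nat_lit 270)) (lo113_13_6 (nat_lit 334)))) (M (nat_lit 300) (B (lo113_13_7 (nat_lit 332)) (lo113_12_7 (nat_lit 268)))))) (lo113_10_5 (nat_lit 460))))))) (lo110_13_2 (nat_lit 398)))) (lo113_13_3 (nat_lit 393)))) (B (M (nat_lit 459) (B (M (nat_lit 363) (B (M (nat_lit 364) (B (M (nat_lit 365) (B (M (nat_lit 397) (B (M (nat_lit 460) (B (lo111_11_4 (nat_lit 492)) (lo113_10_5 (nat_lit 333)))) (lo110_13_2 (nat_lit 398)))) (M (nat_lit 394) (B (lo113_13_3 (nat_lit 393)) (lo114_11_1 (nat_lit 366)))))) (lo111_14_6 (nat_lit 332)))) (lo111_10_5 (nat_lit 331)))) (B (M (nat_lit 396) (B (M (nat_lit 397) (B (M (nat_lit 365) (B (M (nat_lit 394) (B (lo19_12_0 (nat_lit 393)) (lo110_12_2 (nat_lit 366)))) (M (nat_lit 333) (B (lo113_10_5 (nat_lit 460)) (lo113_9_5 (nat_lit 301)))))) (lo114_12_1 (nat_lit 398)))) (M (nat_lit 364) (B (lo111_15_6 (nat_lit 491)) (lo112_10_5 (nat_lit 332)))))) (B (M (nat_lit 491) (B (M (nat_lit 363) (B (M (nat_lit 364) (B (lo111_15_6 (nat_lit 396)) (lo111_14_6 (nat_lit 332)))) (lo111_10_5 (nat_lit 331)))) (M (nat_lit 523) (B (M (nat_lit 524) (B (lo111_12_4 (nat_lit 492)) (lo111_13_4 (nat_lit 556)))) (lo111_17_7 (nat_lit 555)))))) (M (nat_lit 491) (B (M (nat_lit 363) (B (M (nat_lit 492) (B (lo111_11_4 (nat_lit 460)) (lo111_12_4 (nat_lit 524)))) (lo111_10_5 (nat_lit 331)))) (M (nat_lit 523) (B (lo111_17_7 (nat_lit 555)) (lo111_16_6 (nat_lit 396)))))))))) (B (M (nat_lit 363) (B (M (nat_lit 490) (B (lo110_15_6 (nat_lit 394)) (lo110_16_6 (nat_lit 522)))) (lo111_10_5 (nat_lit 331)))) (B (M (nat_lit 490) (B (M (nat_lit 363) (B (lo111_11_5 (nat_lit 459)) (lo110_15_6 (nat_lit 394)))) (lo110_16_6 (nat_lit 522)))) (M (nat_lit 363) (B (M (nat_lit 490) (B (lo111_11_5 (nat_lit 459)) (lo110_16_6 (nat_lit 522)))) (lo111_10_5 (nat_lit 331))))))))) (lo113_13_1 (nat_lit 457)))) (B (M (nat_lit 425) (B (M (nat_lit 397) (B (lo110_13_2 (nat_lit 398)) (lo19_13_2 (nat_lit 396)))) (M (nat_lit 393) (B (lo112_13_3 (nat_lit 392)) (lo113_13_3 (nat_lit 394)))))) (B (M (nat_lit 425) (B (M (nat_lit 397) (B (lo110_13_2 (nat_lit 398)) (lo19_13_2 (nat_lit 396)))) (M (nat_lit 457) (B (lo113_13_1 (nat_lit 458)) (lo112_13_1 (nat_lit 456)))))) (M (nat_lit 425) (B (M (nat_lit 393) (B (lo112_13_3 (nat_lit 392)) (lo113_13_3 (nat_lit 394)))) (M (nat_lit 457) (B (lo113_13_1 (nat_lit 458)) (lo112_13_1 (nat_lit 456)))))))))) (B (M (nat_lit 426) (B (M (nat_lit 458) (B (M (nat_lit 394) (B (M (nat_lit 490) (B (M (nat_lit 362) (B (M (nat_lit 330) (B (M (nat_lit 299) (B (M (nat_lit 298) (B (lo110_9_4 (nat_lit 395)) (lo110_12_6 (nat_lit 267)))) (lo110_13_6 (nat_lit 331)))) (M (nat_lit 329) (B (lo110_14_7 (nat_lit 361)) (lo110_13_7 (nat_lit 297)))))) (B (M (nat_lit 330) (B (M (nat_lit 329) (B (lo110_14_7 (nat_lit 361)) (lo110_13_7 (nat_lit 297)))) (M (nat_lit 331) (B (lo110_14_6 (nat_lit 363)) (lo110_13_6 (nat_lit 299)))))) (B (M (nat_lit 330) (B (M (nat_lit 395) (B (lo110_9_4 (nat_lit 298)) (lo110_15_6 (nat_lit 363)))) (M (nat_lit 329) (B (lo110_14_7 (nat_lit 361)) (lo110_13_7 (nat_lit 297)))))) (M (nat_lit 363) (B (lo110_15_6 (nat_lit 395)) (lo110_14_6 (nat_lit 331)))))))) (M (nat_lit 522) (B (M (nat_lit 521) (B (lo110_12_5 (nat_lit 489)) (lo110_13_5 (nat_lit 553)))) (M (nat_lit 523) (B (lo110_12_4 (nat_lit 491)) (lo110_13_4 (nat_lit 555)))))))) (lo113_13_3 (nat_lit 393)))) (lo113_13_1 (nat_lit 457)))) (B (M (nat_lit 425) (B (M (nat_lit 397) (B (lo110_13_2 (nat_lit 398)) (lo19_13_2 (nat_lit 396)))) (M (nat_lit 393) (B (lo112_13_3 (nat_lit 392)) (lo113_13_3 (nat_lit 394)))))) (M (nat_lit 425) (B (M (nat_lit 397) (B (lo110_13_2 (nat_lit 398)) (lo19_13_2 (nat_lit 396)))) (M (nat_lit 457) (B (lo113_13_1 (nat_lit 458)) (lo112_13_1 (nat_lit 456))))))))) (B (M (nat_lit 426) (B (M (nat_lit 394) (B (M (nat_lit 458) (B (M (nat_lit 362) (B (M (nat_lit 459) (B (M (nat_lit 363) (B (M (nat_lit 361) (B (M (nat_lit 364) (B (M (nat_lit 333) (B (M (nat_lit 397) (B (M (nat_lit 365) (B (lo113_10_5 (nat_lit 460)) (lo110_11_2 (nat_lit 334)))) (lo110_13_2 (nat_lit 398)))) (lo19_11_2 (nat_lit 332)))) (B (M (nat_lit 397) (B (lo110_13_2 (nat_lit 398)) (lo19_11_0 (nat_lit 396)))) (M (nat_lit 332) (B (lo112_10_5 (nat_lit 396)) (lo19_11_2 (nat_lit 333))))))) (lo110_14_7 (nat_lit 329)))) (lo110_14_6 (nat_lit 331)))) (lo110_11_4 (nat_lit 491)))) (B (M (nat_lit 330) (B (M (nat_lit 329) (B (lo110_14_7 (nat_lit 361)) (lo110_13_7 (nat_lit 297)))) (M (nat_lit 331) (B (lo110_14_6 (nat_lit 363)) (lo110_13_6 (nat_lit 299)))))) (M (nat_lit 459) (B (lo110_11_4 (nat_lit 491)) (lo110_10_4 (nat_lit 330))))))) (lo113_13_1 (nat_lit 457)))) (lo113_13_3 (nat_lit 393)))) (B (M (nat_lit 425) (B (M (nat_lit 397) (B (lo110_13_2 (nat_lit 398)) (lo19_13_2 (nat_lit 396)))) (M (nat_lit 393) (B (lo112_13_3 (nat_lit 392)) (lo113_13_3 (nat_lit 394)))))) (B (M (nat_lit 425) (B (M (nat_lit 397) (B (lo110_13_2 (nat_lit 398)) (lo19_13_2 (nat_lit 396)))) (M (nat_lit 457) (B (lo113_13_1 (nat_lit 458)) (lo112_13_1 (nat_lit 456)))))) (M (nat_lit 425) (B (M (nat_lit 393) (B (lo112_13_3 (nat_lit 392)) (lo113_13_3 (nat_lit 394)))) (M (nat_lit 457) (B (lo113_13_1 (nat_lit 458)) (lo112_13_1 (nat_lit 456)))))))))) (B (M (nat_lit 426) (B (M (nat_lit 394) (B (M (nat_lit 458) (B (M (nat_lit 490) (B (M (nat_lit 491) (B (M (nat_lit 459) (B (M (nat_lit 489) (B (M (nat_lit 488) (B (lo18_15_2 (nat_lit 460)) (lo17_15_2 (nat_lit 487)))) (lo110_12_5 (nat_lit 521)))) (lo110_11_4 (nat_lit 362)))) (lo110_12_4 (nat_lit 523)))) (B (M (nat_lit 522) (B (M (nat_lit 521) (B (lo110_12_5 (nat_lit 489)) (lo110_13_5 (nat_lit 553)))) (lo110_16_6 (nat_lit 395)))) (M (nat_lit 522) (B (M (nat_lit 523) (B (lo110_12_4 (nat_lit 491)) (lo110_13_4 (nat_lit 555)))) (lo110_16_6 (nat_lit 395))))))) (lo113_13_1 (nat_lit 457)))) (lo113_13_3 (nat_lit 393)))) (B (M (nat_lit 425) (B (M (nat_lit 397) (B (lo110_13_2 (nat_lit 398)) (lo19_13_2 (nat_lit 396)))) (M (nat_lit 393) (B (lo112_13_3 (nat_lit 392)) (lo113_13_3 (nat_lit 394)))))) (M (nat_lit 425) (B (M (nat_lit 397) (B (lo110_13_2 (nat_lit 398)) (lo19_13_2 (nat_lit 396)))) (M (nat_lit 457) (B (lo113_13_1 (nat_lit 458)) (lo112_13_1 (nat_lit 456))))))))) (M (nat_lit 426) (B (M (nat_lit 458) (B (M (nat_lit 395) (B (M (nat_lit 394) (B (M (nat_lit 362) (B (M (nat_lit 397) (B (M (nat_lit 361) (B (lo110_14_7 (nat_lit 329)) (lo113_12_3 (nat_lit 396)))) (lo110_13_2 (nat_lit 398)))) (M (nat_lit 330) (B (lo110_9_4 (nat_lit 298)) (lo110_10_4 (nat_lit 459)))))) (lo113_13_3 (nat_lit 393)))) (B (M (nat_lit 363) (B (M (nat_lit 490) (B (lo110_15_6 (nat_lit 394)) (lo110_16_6 (nat_lit 522)))) (lo111_10_5 (nat_lit 331)))) (M (nat_lit 363) (B (M (nat_lit 490) (B (lo111_11_5 (nat_lit 459)) (lo110_16_6 (nat_lit 522)))) (lo111_10_5 (nat_lit 331))))))) (lo113_13_1 (nat_lit 457)))) (B (M (nat_lit 425) (B (M (nat_lit 397) (B (lo110_13_2 (nat_lit 398)) (lo19_13_2 (nat_lit 396)))) (M (nat_lit 393) (B (lo112_13_3 (nat_lit 392)) (lo113_13_3 (nat_lit 394)))))) (B (M (nat_lit 425) (B (M (nat_lit 397) (B (lo110_13_2 (nat_lit 398)) (lo19_13_2 (nat_lit 396)))) (M (nat_lit 457) (B (lo113_13_1 (nat_lit 458)) (lo112_13_1 (nat_lit 456)))))) (M (nat_lit 425) (B (M (nat_lit 393) (B (lo112_13_3 (nat_lit 392)) (lo113_13_3 (nat_lit 394)))) (M (nat_lit 457) (B (lo113_13_1 (nat_lit 458)) (lo112_13_1 (nat_lit 456))))))))))))))))))))))))) _ _ _ (by decide +kernel)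

end Vale.Agent.Lib.P062.Data
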