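import Vale.Agent.Lib.P062.Data.Lines

namespace Vale.Agent.Lib.P062.Data

def lno14_9_0 : ℕ := 820219021912987048378037129286399751562675538209064139851027429589443729154124250491825451511578624
theorem lno14_9_0_ok : IsCopyMask lno14_9_0 := isCopyMask_of (x := 4) (y := 9) (R := 0) rfl rfl (by decide +kernel)
def lo14_9_0 (c : ℕ) : Cert := Cert.leaf c lno14_9_0 lno14_9_0_ok
def lno14_9_2 : ℕ := 119357576782812956384421158597888259867445632807019126297317331045509991542046651909668864
theorem lno14_9_2_ok : IsCopyMask lno14_9_2 := isCopyMask_of (x := 4) (y := 9) (R := 2) rfl rfl (by decide +kernel)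
def lo14_9_2 (c : ℕ) : Cert := Cert.leaf c lno14_9_2 lno14_9_2_ok
def lno14_11_0 : ℕ := 15130370381617238688865620049601535760640623343023433910093694546018442446066374835828023657623025417055465807370256384
theorem lno14_11_0_ok : IsCopyMask lno14_11_0 := isCopyMask_of (x := 4) (y := 11) (R := 0) rfl rfl (by decide +kernel)
def lo14_11_0 (c : ℕ) : Cert := Cert.leaf c lno14_11_0 lno14_11_0_ok
def lno14_12_2 : ℕ := 9456481490657488885107719465868688208403142965975231023670070223079909682457644084411336566367928251370743772221538304
theorem lno14_12_2_ok : IsCopyMask lno14_12_2 := isCopyMask_of (x := 4) (y := 12) (R := 2) rfl rfl (by decide +kernel)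
def lo14_12_2 (c : ℕ) : Cert := Cert.leaf c lno14_12_2 lno14_12_2_ok
def lno14_14_0 : ℕ := 1198751443495782310681478989972413575300582775028222848494872606963700395510143427273413045174666769096676797285203148377355905364895005948482945024
theorem lno14_14_0_ok : IsCopyMask lno14_14_0 := isCopyMask_of (x := 4) (y := 14) (R := 0) rfl rfl (by decide +kernel)
def lo14_14_0 (c : ℕ) : Cert := Cert.leaf c lno14_14_0 lno14_14_0_ok
def lno14_15_0 : ℕ := 5148598245847176938312263734842628248102436388487142611285440670595355057858331256408663479324964380968210306621969106996979080494694997022459709691845935104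
theorem lno14_15_0_ok : IsCopyMask lno14_15_0 := isCopyMask_of (x := 4) (y := 15) (R := 0) rfl rfl (by decide +kernel)
def lo14_15_0 (c : ℕ) : Cert := Cert.leaf c lno14_15_0 lno14_15_0_ok
def lno14_17_2 : ℕ := 13820663181985297533091931581847761869758754460375564371993000176109412642211968125168335026803072443660647953699148423362106436850319979644421641495048304581310152704
theorem lno14_17_2_ok : IsCopyMask lno14_17_2 := isCopyMask_of (x := 4) (y := 17) (R := 2) rfl rfl (by decide +kernel)
def lo14_17_2 (c : ℕ) : Cert := Cert.leaf c lno14_17_2 lno14_17_2_ok
def lno15_7_0 : ℕ := 88928324547199612485534823588112480473080770946557782505122899309007016483094528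
theorem lno15_7_0_ok : IsCopyMask lno15_7_0 := isCopyMask_of (x := 5) (y := 7) (R := 0) rfl rfl (by decide +kernel)
def lo15_7_0 (c : ℕ) : Cert := Cert.leaf c lno15_7_0 lno15_7_0_ok
def lno15_8_0 : ℕ := 381944245618296344009245340380072478001320519581932639633783804992886134029423934636556288
theorem lno15_8_0_ok : IsCopyMask lno15_8_0 := isCopyMask_of (x := 5) (y := 8) (R := 0) rfl rfl (by decide +kernel)
def lo15_8_0 (c : ℕ) : Cert := Cert.leaf c lno15_8_0 lno15_8_0_ok
def lno15_8_2 : ℕ := 55580202854617012843685764166474463356400668996860797655450799989285874898567168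
theorem lno15_8_2_ok : IsCopyMask lno15_8_2 := isCopyMask_of (x := 5) (y := 8) (R := 2) rfl rfl (by decide +kernel)
def lo15_8_2 (c : ℕ) : Cert := Cert.leaf c lno15_8_2 lno15_8_2_ok
def lno15_9_0 : ℕ := 1640438043825974096756074258572799503125351076418128279702054859178887458308248500983650903023157248
theorem lno15_9_0_ok : IsCopyMask lno15_9_0 := isCopyMask_of (x := 5) (y := 9) (R := 0) rfl rfl (by decide +kernel)
def lo15_9_0 (c : ℕ) : Cert := Cert.leaf c lno15_9_0 lno15_9_0_ok
def lno15_9_2 : ℕ := 238715153565625912768842317195776519734891265614038252594634662091019983084093303819337728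
theorem lno15_9_2_ok : IsCopyMask lno15_9_2 := isCopyMask_of (x := 5) (y := 9) (R := 2) rfl rfl (by decide +kernel)
def lo15_9_2 (c : ℕ) : Cert := Cert.leaf c lno15_9_2 lno15_9_2_ok
def lno15_10_0 : ℕ := 7045627749346773460910478629917621501088432661734257782853066244171207047098490798765804459165327910825361408
theorem lno15_10_0_ok : IsCopyMask lno15_10_0 := isCopyMask_of (x := 5) (y := 10) (R := 0) rfl rfl (by decide +kernel)
def lo15_10_0 (c : ℕ) : Cert := Cert.leaf c lno15_10_0 lno15_10_0_ok
def lno15_10_2 : ℕ := 1025273777623981085112326560136718581586056575928343653386943018748941802628653957716647434138943488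
theorem lno15_10_2_ok : IsCopyMask lno15_10_2 := isCopyMask_of (x := 5) (y := 10) (R := 2) rfl rfl (by decide +kernel)
def lo15_10_2 (c : ℕ) : Cert := Cert.leaf c lno15_10_2 lno15_10_2_ok
def lno15_11_0 : ℕ := 30260740763234477377731240099203071521281246686046867820187389092036884892132749671656047315246050834110931614740512768
theorem lno15_11_0_ok : IsCopyMask lno15_11_0 := isCopyMask_of (x := 5) (y := 11) (R := 0) rfl rfl (by decide +kernel)
def lo15_11_0 (c : ℕ) : Cert := Cert.leaf c lno15_11_0 lno15_11_0_ok
def lno15_11_2 : ℕ := 4403517344341375345880035062259383596667620803217976830746079898942219876897355580893967564389076200952168448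
theorem lno15_11_2_ok : IsCopyMask lno15_11_2 := isCopyMask_of (x := 5) (y := 11) (R := 2) rfl rfl (by decide +kernel)
def lo15_11_2 (c : ℕ) : Cert := Cert.leaf c lno15_11_2 lno15_11_2_ok
def lno15_12_2 : ℕ := 18912962981314977770215438931737376416806285931950462047340140446159819364915288168822673132735856502741487544443076608
theorem lno15_12_2_ok : IsCopyMask lno15_12_2 := isCopyMask_of (x := 5) (y := 12) (R := 2) rfl rfl (by decide +kernel)
def lo15_12_2 (c : ℕ) : Cert := Cert.leaf c lno15_12_2 lno15_12_2_ok
def lno15_13_2 : ℕ := 81230557475206488598042313086097208171024662844952115985415107004303272961578652495509107928398370685823623345774360564982611968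
theorem lno15_13_2_ok : IsCopyMask lno15_13_2 := isCopyMask_of (x := 5) (y := 13) (R := 2) rfl rfl (by decide +kernel)
def lo15_13_2 (c : ℕ) : Cert := Cert.leaf c lno15_13_2 lno15_13_2_ok
def lno15_14_0 : ℕ := 2397502886991564621362957979944827150601165550056445696989745213927400791020286854546826090349333538193353594570406296754711810729790011896965890048
theorem lno15_14_0_ok : IsCopyMask lno15_14_0 := isCopyMask_of (x := 5) (y := 14) (R := 0) rfl rfl (by decide +kernel)
def lo15_14_0 (c : ℕ) : Cert := Cert.leaf c lno15_14_0 lno15_14_0_ok
def lno15_15_0 : ℕ := 10297196491694353876624527469685256496204872776974285222570881341190710115716662512817326958649928761936420613243938213993958160989389994044919419383691870208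
theorem lno15_15_0_ok : IsCopyMask lno15_15_0 := isCopyMask_of (x := 5) (y := 15) (R := 0) rfl rfl (by decide +kernel)
def lo15_15_0 (c : ℕ) : Cert := Cert.leaf c lno15_15_0 lno15_15_0_ok
def lno15_15_2 : ℕ := 1498439304709888411322192762242600511217314590862782717420255610916362907604218470928836534584990873104887345288940795583427452979012950997795340288
theorem lno15_15_2_ok : IsCopyMask lno15_15_2 := isCopyMask_of (x := 5) (y := 15) (R := 2) rfl rfl (by decide +kernel)
def lo15_15_2 (c : ℕ) : Cert := Cert.leaf c lno15_15_2 lno15_15_2_ok
def lno15_16_0 : ℕ := 44226122172313185527953164353751808064571476692945256863918016402310717646019441094819600109540588345246696165182979099348699843041733027412563661208265058284436717568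
theorem lno15_16_0_ok : IsCopyMask lno15_16_0 := isCopyMask_of (x := 5) (y := 16) (R := 0) rfl rfl (by decide +kernel)
def lo15_16_0 (c : ℕ) : Cert := Cert.leaf c lno15_16_0 lno15_16_0_ok
def lno15_16_2 : ℕ := 6435747808769949494438214032839872813671247316699272194874007336846279279427588044278479659372508732443977125780260387511042150133438398895981554638151221248
theorem lno15_16_2_ok : IsCopyMask lno15_16_2 := isCopyMask_of (x := 5) (y := 16) (R := 2) rfl rfl (by decide +kernel)
def lo15_16_2 (c : ℕ) : Cert := Cert.leaf c lno15_16_2 lno15_16_2_ok
def lno15_17_0 : ℕ := 189949748358985608512139334719076990538203548650626112148847402873116111119943604082448617490274844527433317081509509087554200725984576515900032424407522270231189567736148656128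
theorem lno15_17_0_ok : IsCopyMask lno15_17_0 := isCopyMask_of (x := 5) (y := 17) (R := 0) rfl rfl (by decide +kernel)
def lo15_17_0 (c : ℕ) : Cert := Cert.leaf c lno15_17_0 lno15_17_0_ok
def lno15_17_2 : ℕ := 27641326363970595066183863163695523739517508920751128743986000352218825284423936250336670053606144887321295907398296846724212873700639959288843282990096609162620305408
theorem lno15_17_2_ok : IsCopyMask lno15_17_2 := isCopyMask_of (x := 5) (y := 17) (R := 2) rfl rfl (by decide +kernel)
def lo15_17_2 (c : ℕ) : Cert := Cert.leaf c lno15_17_2 lno15_17_2_ok
def lno15_18_2 : ℕ := 118718592751316298514918647811011368962819323634014353710505428194624335632138704394784866869780959155682570966614329402780419023886427119416353318111738028233948157392891936768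
theorem lno15_18_2_ok : IsCopyMask lno15_18_2 := isCopyMask_of (x := 5) (y := 18) (R := 2) rfl rfl (by decide +kernel)
def lo15_18_2 (c : ℕ) : Cert := Cert.leaf c lno15_18_2 lno15_18_2_ok
def lno15_19_2 : ℕ := 509892473294046163073348960448835818379498434964931522381197065726387844545763221911412476161423110257168414858807652629913111176768447296180724108870999304984331972961931491280659939328
theorem lno15_19_2_ok : IsCopyMask lno15_19_2 := isCopyMask_of (x := 5) (y := 19) (R := 2) rfl rfl (by decide +kernel)
def lo15_19_2 (c : ℕ) : Cert := Cert.leaf c lno15_19_2 lno15_19_2_ok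
def lno16_6_4 : ℕ := 273406340693362551944652507396449735407543698659418598143376113454612272455607046593088324791959552
theorem lno16_6_4_ok : IsCopyMask lno16_6_4 := isCopyMask_of (x := 6) (y := 6) (R := 4) rfl rfl (by decide +kernel)
def lo16_6_4 (c : ℕ) : Cert := Cert.leaf c lno16_6_4 lno16_6_4_ok
def lno16_7_0 : ℕ := 177856649094399224971069647176224960946161541893115565010245798618014032966189056
theorem lno16_7_0_ok : IsCopyMask lno16_7_0 := isCopyMask_of (x := 6) (y := 7) (R := 0) rfl rfl (by decide +kernel)
def lo16_7_0 (c : ℕ) : Cert := Cert.leaf c lno16_7_0 lno16_7_0_ok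
def lno16_7_2 : ℕ := 25881548810106242468434276136790618000738634260772167544556222851055616
theorem lno16_7_2_ok : IsCopyMask lno16_7_2 := isCopyMask_of (x := 6) (y := 7) (R := 2) rfl rfl (by decide +kernel)
def lo16_7_2 (c : ℕ) : Cert := Cert.leaf c lno16_7_2 lno16_7_2_ok
def lno16_7_4 : ℕ := 1174271291797026124873383721352149720083253417433081921399966726315145290557073876944462574620892279594811392
theorem lno16_7_4_ok : IsCopyMask lno16_7_4 := isCopyMask_of (x := 6) (y := 7) (R := 4) rfl rfl (by decide +kernel)
def lo16_7_4 (c : ℕ) : Cert := Cert.leaf c lno16_7_4 lno16_7_4_ok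
def lno16_8_0 : ℕ := 763888491236592688018490680760144956002641039163865279267567609985772268058847869273112576
theorem lno16_8_0_ok : IsCopyMask lno16_8_0 := isCopyMask_of (x := 6) (y := 8) (R := 0) rfl rfl (by decide +kernel)
def lo16_8_0 (c : ℕ) : Cert := Cert.leaf c lno16_8_0 lno16_8_0_ok
def lno16_8_2 : ℕ := 111160405709234025687371528332948926712801337993721595310901599978571749797134336
theorem lno16_8_2_ok : IsCopyMask lno16_8_2 := isCopyMask_of (x := 6) (y := 8) (R := 2) rfl rfl (by decide +kernel)
def lo16_8_2 (c : ℕ) : Cert := Cert.leaf c lno16_8_2 lno16_8_2_ok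
def lno16_8_4 : ℕ := 5043456794899900276388795224066259947053127825155323120901699625011731612431049922932395166292691939198603059928236032
theorem lno16_8_4_ok : IsCopyMask lno16_8_4 := isCopyMask_of (x := 6) (y := 8) (R := 4) rfl rfl (by decide +kernel)
def lo16_8_4 (c : ℕ) : Cert := Cert.leaf c lno16_8_4 lno16_8_4_ok
def lno16_9_0 : ℕ := 3280876087651948193512148517145599006250702152836256559404109718357774916616497001967301806046314496
theorem lno16_9_0_ok : IsCopyMask lno16_9_0 := isCopyMask_of (x := 6) (y := 9) (R := 0) rfl rfl (by decide +kernel)
def lo16_9_0 (c : ℕ) : Cert := Cert.leaf c lno16_9_0 lno16_9_0_ok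
def lno16_9_2 : ℕ := 477430307131251825537684634391553039469782531228076505189269324182039966168186607638675456
theorem lno16_9_2_ok : IsCopyMask lno16_9_2 := isCopyMask_of (x := 6) (y := 9) (R := 2) rfl rfl (by decide +kernel)
def lo16_9_2 (c : ℕ) : Cert := Cert.leaf c lno16_9_2 lno16_9_2_ok
def lno16_9_4 : ℕ := 21661481992884051280751236468205578609627875583549718924585453920240850891720706473937957658175593442660820591277301864408809472
theorem lno16_9_4_ok : IsCopyMask lno16_9_4 := isCopyMask_of (x := 6) (y := 9) (R := 4) rfl rfl (by decide +kernel)
def lo16_9_4 (c : ℕ) : Cert := Cert.leaf c lno16_9_4 lno16_9_4_ok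
def lno16_9_5 : ℕ := 5415370500112309118055095853613409685191215169731888709481242247454017999489529548874375403713381041777467063032891523653959680
theorem lno16_9_5_ok : IsCopyMask lno16_9_5 := isCopyMask_of (x := 6) (y := 9) (R := 5) rfl rfl (by decide +kernel)
def lo16_9_5 (c : ℕ) : Cert := Cert.leaf c lno16_9_5 lno16_9_5_ok
def lno16_10_0 : ℕ := 14091255498693546921820957259835243002176865323468515565706132488342414094196981597531608918330655821650722816
theorem lno16_10_0_ok : IsCopyMask lno16_10_0 := isCopyMask_of (x := 6) (y := 10) (R := 0) rfl rfl (by decide +kernel)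
def lo16_10_0 (c : ℕ) : Cert := Cert.leaf c lno16_10_0 lno16_10_0_ok
def lno16_10_2 : ℕ := 2050547555247962170224653120273437163172113151856687306773886037497883605257307915433294868277886976
theorem lno16_10_2_ok : IsCopyMask lno16_10_2 := isCopyMask_of (x := 6) (y := 10) (R := 2) rfl rfl (by decide +kernel)
def lo16_10_2 (c : ℕ) : Cert := Cert.leaf c lno16_10_2 lno16_10_2_ok
def lno16_10_4 : ℕ := 93035356742329904970813474942505503933108876361302958371086814944749447023152871471579004474896920861620275660059394374755663056535027712
theorem lno16_10_4_ok : IsCopyMask lno16_10_4 := isCopyMask_of (x := 6) (y := 10) (R := 4) rfl rfl (by decide +kernel)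
def lo16_10_4 (c : ℕ) : Cert := Cert.leaf c lno16_10_4 lno16_10_4_ok
def lno16_11_0 : ℕ := 60521481526468954755462480198406143042562493372093735640374778184073769784265499343312094630492101668221863229481025536
theorem lno16_11_0_ok : IsCopyMask lno16_11_0 := isCopyMask_of (x := 6) (y := 11) (R := 0) rfl rfl (by decide +kernel)
def lo16_11_0 (c : ℕ) : Cert := Cert.leaf c lno16_11_0 lno16_11_0_ok
def lno16_11_2 : ℕ := 8807034688682750691760070124518767193335241606435953661492159797884439753794711161787935128778152401904336896
theorem lno16_11_2_ok : IsCopyMask lno16_11_2 := isCopyMask_of (x := 6) (y := 11) (R := 2) rfl rfl (by decide +kernel)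
def lo16_11_2 (c : ℕ) : Cert := Cert.leaf c lno16_11_2 lno16_11_2_ok
def lno16_11_4 : ℕ := 399583814580000040692431709394176619692701995579103686151867302164502921878526137778923217699919928071759225530459912257141940818613343101493706752
theorem lno16_11_4_ok : IsCopyMask lno16_11_4 := isCopyMask_of (x := 6) (y := 11) (R := 4) rfl rfl (by decide +kernel)
def lo16_11_4 (c : ℕ) : Cert := Cert.leaf c lno16_11_4 lno16_11_4_ok
def lno16_11_6 : ℕ := 587135645830161477303137081623074072273732019137770501889463170049659522877492410618709002013564468358807552
theorem lno16_11_6_ok : IsCopyMask lno16_11_6 := isCopyMask_of (x := 6) (y := 11) (R := 6) rfl rfl (by decide +kernel)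
def lo16_11_6 (c : ℕ) : Cert := Cert.leaf c lno16_11_6 lno16_11_6_ok
def lno16_11_7 : ℕ := 587135645830161477303137081611958031704361509497061225908341097447391719804921750606357178990618861329448960
theorem lno16_11_7_ok : IsCopyMask lno16_11_7 := isCopyMask_of (x := 6) (y := 11) (R := 7) rfl rfl (by decide +kernel)
def lo16_11_7 (c : ℕ) : Cert := Cert.leaf c lno16_11_7 lno16_11_7_ok
def lno16_12_0 : ℕ := 259937783861652319034015029807201975693303845069359353621879289483851109274853295060634922759220781051319945042805947729660870656
theorem lno16_12_0_ok : IsCopyMask lno16_12_0 := isCopyMask_of (x := 6) (y := 12) (R := 0) rfl rfl (by decide +kernel)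
def lo16_12_0 (c : ℕ) : Cert := Cert.leaf c lno16_12_0 lno16_12_0_ok
def lno16_12_2 : ℕ := 37825925962629955540430877863474752833612571863900924094680280892319638729830576337645346265471713005482975088886153216
theorem lno16_12_2_ok : IsCopyMask lno16_12_2 := isCopyMask_of (x := 6) (y := 12) (R := 2) rfl rfl (by decide +kernel)
def lo16_12_2 (c : ℕ) : Cert := Cert.leaf c lno16_12_2 lno16_12_2_ok
def lno16_12_4 : ℕ := 1716199415632028150452663386561364554427984640886186913015318152128290061564712646441665298116244432886878214839613574983454178245911776690142679249654382592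
theorem lno16_12_4_ok : IsCopyMask lno16_12_4 := isCopyMask_of (x := 6) (y := 12) (R := 4) rfl rfl (by decide +kernel)
def lo16_12_4 (c : ℕ) : Cert := Cert.leaf c lno16_12_4 lno16_12_4_ok
def lno16_12_6 : ℕ := 2521728397156382315416020043775985739401219382064770423968750522359774346693793718095558289389057539988705229397819392
theorem lno16_12_6_ok : IsCopyMask lno16_12_6 := isCopyMask_of (x := 6) (y := 12) (R := 6) rfl rfl (by decide +kernel)
def lo16_12_6 (c : ℕ) : Cert := Cert.leaf c lno16_12_6 lno16_12_6_ok
def lno16_12_7 : ℕ := 2521728397156382315416020043728242708694763823851071373385992907149296517063334418693372253459526300210742364901212160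
theorem lno16_12_7_ok : IsCopyMask lno16_12_7 := isCopyMask_of (x := 6) (y := 12) (R := 7) rfl rfl (by decide +kernel)
def lo16_12_7 (c : ℕ) : Cert := Cert.leaf c lno16_12_7 lno16_12_7_ok
def lno16_13_2 : ℕ := 162461114950412977196084626172194416342049325689904231970830214008606545923157304991018215856796741371647246691548721129965223936
theorem lno16_13_2_ok : IsCopyMask lno16_13_2 := isCopyMask_of (x := 6) (y := 13) (R := 2) rfl rfl (by decide +kernel)
def lo16_13_2 (c : ℕ) : Cert := Cert.leaf c lno16_13_2 lno16_13_2_ok
def lno16_13_6 : ℕ := 10830740995181161442384562722498347100890615868489517924693838019518147564989609745390666255787705954513701169647812062354604032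
theorem lno16_13_6_ok : IsCopyMask lno16_13_6 := isCopyMask_of (x := 6) (y := 13) (R := 6) rfl rfl (by decide +kernel)
def lo16_13_6 (c : ℕ) : Cert := Cert.leaf c lno16_13_6 lno16_13_6_ok
def lno16_14_0 : ℕ := 4795005773983129242725915959889654301202331100112891393979490427854801582040573709093652180698667076386707189140812593509423621459580023793931780096
theorem lno16_14_0_ok : IsCopyMask lno16_14_0 := isCopyMask_of (x := 6) (y := 14) (R := 0) rfl rfl (by decide +kernel)
def lo16_14_0 (c : ℕ) : Cert := Cert.leaf c lno16_14_0 lno16_14_0_ok
def lno16_14_6 : ℕ := 46517678365749581990337885148391124212381607628461116405365825106551853470132408436255798312258967793500810107554300645767337072469737472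
theorem lno16_14_6_ok : IsCopyMask lno16_14_6 := isCopyMask_of (x := 6) (y := 14) (R := 6) rfl rfl (by decide +kernel)
def lo16_14_6 (c : ℕ) : Cert := Cert.leaf c lno16_14_6 lno16_14_6_ok
def lno16_15_0 : ℕ := 20594392983388707753249054939370512992409745553948570445141762682381420231433325025634653917299857523872841226487876427987916321978779988089838838767383740416
theorem lno16_15_0_ok : IsCopyMask lno16_15_0 := isCopyMask_of (x := 6) (y := 15) (R := 0) rfl rfl (by decide +kernel)
def lo16_15_0 (c : ℕ) : Cert := Cert.leaf c lno16_15_0 lno16_15_0_ok
def lno16_15_2 : ℕ := 2996878609419776822644385524485201022434629181725565434840511221832725815208436941857673069169981746209774690577881591166854905958025901995590680576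
theorem lno16_15_2_ok : IsCopyMask lno16_15_2 := isCopyMask_of (x := 6) (y := 15) (R := 2) rfl rfl (by decide +kernel)
def lo16_15_2 (c : ℕ) : Cert := Cert.leaf c lno16_15_2 lno16_15_2_ok
def lno16_16_0 : ℕ := 88452244344626371055906328707503616129142953385890513727836032804621435292038882189639200219081176690493392330365958198697399686083466054825127322416530116568873435136
theorem lno16_16_0_ok : IsCopyMask lno16_16_0 := isCopyMask_of (x := 6) (y := 16) (R := 0) rfl rfl (by decide +kernel)
def lo16_16_0 (c : ℕ) : Cert := Cert.leaf c lno16_16_0 lno16_16_0_ok
def lno16_16_2 : ℕ := 12871495617539898988876428065679745627342494633398544389748014673692558558855176088556959318745017464887954251560520775022084300266876797791963109276302442496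
theorem lno16_16_2_ok : IsCopyMask lno16_16_2 := isCopyMask_of (x := 6) (y := 16) (R := 2) rfl rfl (by decide +kernel)
def lo16_16_2 (c : ℕ) : Cert := Cert.leaf c lno16_16_2 lno16_16_2_ok
def lno16_17_0 : ℕ := 379899496717971217024278669438153981076407097301252224297694805746232222239887208164897234980549689054866634163019018175108401451969153031800064848815044540462379135472297312256
theorem lno16_17_0_ok : IsCopyMask lno16_17_0 := isCopyMask_of (x := 6) (y := 17) (R := 0) rfl rfl (by decide +kernel)
def lo16_17_0 (c : ℕ) : Cert := Cert.leaf c lno16_17_0 lno16_17_0_ok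
def lno16_17_2 : ℕ := 55282652727941190132367726327391047479035017841502257487972000704437650568847872500673340107212289774642591814796593693448425747401279918577686565980193218325240610816
theorem lno16_17_2_ok : IsCopyMask lno16_17_2 := isCopyMask_of (x := 6) (y := 17) (R := 2) rfl rfl (by decide +kernel)
def lo16_17_2 (c : ℕ) : Cert := Cert.leaf c lno16_17_2 lno16_17_2_ok
def lno16_18_0 : ℕ := 1631655914170545712588595323227266043335371360091168163205855758869140269741719425796977799442288110593621343371763015688120185491046427072400526536339800654069267105206270470128219979776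
theorem lno16_18_0_ok : IsCopyMask lno16_18_0 := isCopyMask_of (x := 6) (y := 18) (R := 0) rfl rfl (by decide +kernel)
def lo16_18_0 (c : ℕ) : Cert := Cert.leaf c lno16_18_0 lno16_18_0_ok
def lno16_18_2 : ℕ := 237437185502632597029837295622022737925638647268028707421010856389248671264277408789569733739561918311365141933228658805560838047772854238832706636223476056467896314785783873536
theorem lno16_18_2_ok : IsCopyMask lno16_18_2 := isCopyMask_of (x := 6) (y := 18) (R := 2) rfl rfl (by decide +kernel)
def lo16_18_2 (c : ℕ) : Cert := Cert.leaf c lno16_18_2 lno16_18_2_ok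
def lno16_18_6 : ℕ := 15829145697964200361220047530171515243871206146283892136082246486412869971864905332517460277173722135254395144466543653055572631358547903412311807093249600965315108971302879232
theorem lno16_18_6_ok : IsCopyMask lno16_18_6 := isCopyMask_of (x := 6) (y := 18) (R := 6) rfl rfl (by decide +kernel)
def lo16_18_6 (c : ℕ) : Cert := Cert.leaf c lno16_18_6 lno16_18_6_ok
def lno16_19_2 : ℕ := 1019784946588092326146697920897671636758996869929863044762394131452775689091526443822824952322846220514336829717615305259826222353536894592361448217741998609968663945923862982561319878656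
theorem lno16_19_2_ok : IsCopyMask lno16_19_2 := isCopyMask_of (x := 6) (y := 19) (R := 2) rfl rfl (by decide +kernel)
def lo16_19_2 (c : ℕ) : Cert := Cert.leaf c lno16_19_2 lno16_19_2_ok
def lno16_19_6 : ℕ := 67985663096375334330231490801652231243192294834363508656064830225354184882660208533298497239440231881508915785745000356030054922237627295205246015220167858511078423366422068812077596672
theorem lno16_19_6_ok : IsCopyMask lno16_19_6 := isCopyMask_of (x := 6) (y := 19) (R := 6) rfl rfl (by decide +kernel)
def lo16_19_6 (c : ℕ) : Cert := Cert.leaf c lno16_19_6 lno16_19_6_ok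
def lno17_5_5 : ℕ := 31828687152458426234960046576920913804131217237345940317918890262672042939310074820034560
theorem lno17_5_5_ok : IsCopyMask lno17_5_5 := isCopyMask_of (x := 7) (y := 5) (R := 5) rfl rfl (by decide +kernel)
def lo17_5_5 (c : ℕ) : Cert := Cert.leaf c lno17_5_5 lno17_5_5_ok
def lno17_6_4 : ℕ := 546812681386725103889305014792899470815087397318837196286752226909224544911214093186176649583919104
theorem lno17_6_4_ok : IsCopyMask lno17_6_4 := isCopyMask_of (x := 7) (y := 6) (R := 4) rfl rfl (by decide +kernel)
def lo17_6_4 (c : ℕ) : Cert := Cert.leaf c lno17_6_4 lno17_6_4_ok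
def lno17_6_5 : ℕ := 136703170394424306678781811914512073167178527727072283503829476458789273997844484155361520789749760
theorem lno17_6_5_ok : IsCopyMask lno17_6_5 := isCopyMask_of (x := 7) (y := 6) (R := 5) rfl rfl (by decide +kernel)
def lo17_6_5 (c : ℕ) : Cert := Cert.leaf c lno17_6_5 lno17_6_5_ok
def lno17_7_0 : ℕ := 355713298188798449942139294352449921892323083786231130020491597236028065932378112
theorem lno17_7_0_ok : IsCopyMask lno17_7_0 := isCopyMask_of (x := 7) (y := 7) (R := 0) rfl rfl (by decide +kernel)
def lo17_7_0 (c : ℕ) : Cert := Cert.leaf c lno17_7_0 lno17_7_0_ok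
def lno17_7_2 : ℕ := 51763097620212484936868552273581236001477268521544335089112445702111232
theorem lno17_7_2_ok : IsCopyMask lno17_7_2 := isCopyMask_of (x := 7) (y := 7) (R := 2) rfl rfl (by decide +kernel)
def lo17_7_2 (c : ℕ) : Cert := Cert.leaf c lno17_7_2 lno17_7_2_ok
def lno17_7_4 : ℕ := 2348542583594052249746767442704299440166506834866163842799933452630290581114147753888925149241784559189622784
theorem lno17_7_4_ok : IsCopyMask lno17_7_4 := isCopyMask_of (x := 7) (y := 7) (R := 4) rfl rfl (by decide +kernel)
def lo17_7_4 (c : ℕ) : Cert := Cert.leaf c lno17_7_4 lno17_7_4_ok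
def lno17_7_5 : ℕ := 587135646103567817932842259292452502050190917181204671476987892151301823576325233941267914848799311223848960
theorem lno17_7_5_ok : IsCopyMask lno17_7_5 := isCopyMask_of (x := 7) (y := 7) (R := 5) rfl rfl (by decide +kernel)
def lo17_7_5 (c : ℕ) : Cert := Cert.leaf c lno17_7_5 lno17_7_5_ok
def lno17_8_0 : ℕ := 1527776982473185376036981361520289912005282078327730558535135219971544536117695738546225152
theorem lno17_8_0_ok : IsCopyMask lno17_8_0 := isCopyMask_of (x := 7) (y := 8) (R := 0) rfl rfl (by decide +kernel)
def lo17_8_0 (c : ℕ) : Cert := Cert.leaf c lno17_8_0 lno17_8_0_ok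
def lno17_8_2 : ℕ := 222320811418468051374743056665897853425602675987443190621803199957143499594268672
theorem lno17_8_2_ok : IsCopyMask lno17_8_2 := isCopyMask_of (x := 7) (y := 8) (R := 2) rfl rfl (by decide +kernel)
def lo17_8_2 (c : ℕ) : Cert := Cert.leaf c lno17_8_2 lno17_8_2_ok
def lno17_8_4 : ℕ := 10086913589799800552777590448132519894106255650310646241803399250023463224862099845864790332585383878397206119856472064
theorem lno17_8_4_ok : IsCopyMask lno17_8_4 := isCopyMask_of (x := 7) (y := 8) (R := 4) rfl rfl (by decide +kernel)
def lo17_8_4 (c : ℕ) : Cert := Cert.leaf c lno17_8_4 lno17_8_4_ok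
def lno17_8_5 : ℕ := 2521728398330653606939639827987835595938942939849518569876087013377816416085478639637294879049705826573757018443612160
theorem lno17_8_5_ok : IsCopyMask lno17_8_5 := isCopyMask_of (x := 7) (y := 8) (R := 5) rfl rfl (by decide +kernel)
def lo17_8_5 (c : ℕ) : Cert := Cert.leaf c lno17_8_5 lno17_8_5_ok
def lno17_8_7 : ℕ := 14821387425827346188415836997239533588517363241376175533940047842135111337246720
theorem lno17_8_7_ok : IsCopyMask lno17_8_7 := isCopyMask_of (x := 7) (y := 8) (R := 7) rfl rfl (by decide +kernel)
def lo17_8_7 (c : ℕ) : Cert := Cert.leaf c lno17_8_7 lno17_8_7_ok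
def lno17_9_0 : ℕ := 6561752175303896387024297034291198012501404305672513118808219436715549833232994003934603612092628992
theorem lno17_9_0_ok : IsCopyMask lno17_9_0 := isCopyMask_of (x := 7) (y := 9) (R := 0) rfl rfl (by decide +kernel)
def lo17_9_0 (c : ℕ) : Cert := Cert.leaf c lno17_9_0 lno17_9_0_ok
def lno17_9_2 : ℕ := 954860614262503651075369268783106078939565062456153010378538648364079932336373215277350912
theorem lno17_9_2_ok : IsCopyMask lno17_9_2 := isCopyMask_of (x := 7) (y := 9) (R := 2) rfl rfl (by decide +kernel)
def lo17_9_2 (c : ℕ) : Cert := Cert.leaf c lno17_9_2 lno17_9_2_ok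
def lno17_9_4 : ℕ := 43322963985768102561502472936411157219255751167099437849170907840481701783441412947875915316351186885321641182554603728817618944
theorem lno17_9_4_ok : IsCopyMask lno17_9_4 := isCopyMask_of (x := 7) (y := 9) (R := 4) rfl rfl (by decide +kernel)
def lo17_9_4 (c : ℕ) : Cert := Cert.leaf c lno17_9_4 lno17_9_4_ok
def lno17_9_5 : ℕ := 10830741000224618236110191707226819370382430339463777418962484494908035998979059097748750807426762083554934126065783047307919360
theorem lno17_9_5_ok : IsCopyMask lno17_9_5 := isCopyMask_of (x := 7) (y := 9) (R := 5) rfl rfl (by decide +kernel)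
def lo17_9_5 (c : ℕ) : Cert := Cert.leaf c lno17_9_5 lno17_9_5_ok
def lno17_9_6 : ℕ := 63657374275274077621716273952815842574450447270887232881378822946418852591904522757996544
theorem lno17_9_6_ok : IsCopyMask lno17_9_6 := isCopyMask_of (x := 7) (y := 9) (R := 6) rfl rfl (by decide +kernel)
def lo17_9_6 (c : ℕ) : Cert := Cert.leaf c lno17_9_6 lno17_9_6_ok
def lno17_9_7 : ℕ := 63657374275274077621716273951610639040975596249863227951827843506645674006793489083269120
theorem lno17_9_7_ok : IsCopyMask lno17_9_7 := isCopyMask_of (x := 7) (y := 9) (R := 7) rfl rfl (by decide +kernel)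
def lo17_9_7 (c : ℕ) : Cert := Cert.leaf c lno17_9_7 lno17_9_7_ok
def lno17_10_0 : ℕ := 28182510997387093843641914519670486004353730646937031131412264976684828188393963195063217836661311643301445632
theorem lno17_10_0_ok : IsCopyMask lno17_10_0 := isCopyMask_of (x := 7) (y := 10) (R := 0) rfl rfl (by decide +kernel)
def lo17_10_0 (c : ℕ) : Cert := Cert.leaf c lno17_10_0 lno17_10_0_ok
def lno17_10_2 : ℕ := 4101095110495924340449306240546874326344226303713374613547772074995767210514615830866589736555773952
theorem lno17_10_2_ok : IsCopyMask lno17_10_2 := isCopyMask_of (x := 7) (y := 10) (R := 2) rfl rfl (by decide +kernel)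
def lo17_10_2 (c : ℕ) : Cert := Cert.leaf c lno17_10_2 lno17_10_2_ok
def lno17_10_4 : ℕ := 186070713484659809941626949885011007866217752722605916742173629889498894046305742943158008949793841723240551320118788749511326113070055424
theorem lno17_10_4_ok : IsCopyMask lno17_10_4 := isCopyMask_of (x := 7) (y := 10) (R := 4) rfl rfl (by decide +kernel)
def lo17_10_4 (c : ℕ) : Cert := Cert.leaf c lno17_10_4 lno17_10_4_ok
def lno17_10_5 : ℕ := 46517678387411063978178479634829596049891849320995102191067161156537093143205748213682151942751537064041261490886879332818734493005250560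
theorem lno17_10_5_ok : IsCopyMask lno17_10_5 := isCopyMask_of (x := 7) (y := 10) (R := 5) rfl rfl (by decide +kernel)
def lo17_10_5 (c : ℕ) : Cert := Cert.leaf c lno17_10_5 lno17_10_5_ok
def lno17_10_6 : ℕ := 273406340661533864821836856018320690967949116201033118129457891941843332200074759600082878961025024
theorem lno17_10_6_ok : IsCopyMask lno17_10_6 := isCopyMask_of (x := 7) (y := 10) (R := 6) rfl rfl (by decide +kernel)
def lo17_10_6 (c : ℕ) : Cert := Cert.leaf c lno17_10_6 lno17_10_6_ok
def lno17_10_7 : ℕ := 273406340661533864821836856013144381206650989827262808526093651283249128519055317438373891166699520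
theorem lno17_10_7_ok : IsCopyMask lno17_10_7 := isCopyMask_of (x := 7) (y := 10) (R := 7) rfl rfl (by decide +kernel)
def lo17_10_7 (c : ℕ) : Cert := Cert.leaf c lno17_10_7 lno17_10_7_ok
def lno17_11_0 : ℕ := 121042963052937909510924960396812286085124986744187471280749556368147539568530998686624189260984203336443726458962051072
theorem lno17_11_0_ok : IsCopyMask lno17_11_0 := isCopyMask_of (x := 7) (y := 11) (R := 0) rfl rfl (by decide +kernel)
def lo17_11_0 (c : ℕ) : Cert := Cert.leaf c lno17_11_0 lno17_11_0_ok
def lno17_11_2 : ℕ := 17614069377365501383520140249037534386670483212871907322984319595768879507589422323575870257556304803808673792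
theorem lno17_11_2_ok : IsCopyMask lno17_11_2 := isCopyMask_of (x := 7) (y := 11) (R := 2) rfl rfl (by decide +kernel)
def lo17_11_2 (c : ℕ) : Cert := Cert.leaf c lno17_11_2 lno17_11_2_ok
def lno17_11_4 : ℕ := 799167629160000081384863418788353239385403991158207372303734604329005843757052275557846435399839856143518451060919824514283881637226686202987413504
theorem lno17_11_4_ok : IsCopyMask lno17_11_4 := isCopyMask_of (x := 7) (y := 11) (R := 4) rfl rfl (by decide +kernel)
def lo17_11_4 (c : ℕ) : Cert := Cert.leaf c lno17_11_4 lno17_11_4_ok
def lno17_11_5 : ℕ := 199791907359776537894840227682595137567176277170633770086811400506888351660974533176975262333020715943789075697943348769954764143564691911485685760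
theorem lno17_11_5_ok : IsCopyMask lno17_11_5 := isCopyMask_of (x := 7) (y := 11) (R := 5) rfl rfl (by decide +kernel)
def lo17_11_5 (c : ℕ) : Cert := Cert.leaf c lno17_11_5 lno17_11_5_ok
def lno17_11_6 : ℕ := 1174271291660322954606274163246148144547464038275541003778926340099319045754984821237418004027128936717615104
theorem lno17_11_6_ok : IsCopyMask lno17_11_6 := isCopyMask_of (x := 7) (y := 11) (R := 6) rfl rfl (by decide +kernel)
def lo17_11_6 (c : ℕ) : Cert := Cert.leaf c lno17_11_6 lno17_11_6_ok
def lno17_11_7 : ℕ := 1174271291660322954606274163223916063408723018994122451816682194894783439609843501212714357981237722658897920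
theorem lno17_11_7_ok : IsCopyMask lno17_11_7 := isCopyMask_of (x := 7) (y := 11) (R := 7) rfl rfl (by decide +kernel)
def lo17_11_7 (c : ℕ) : Cert := Cert.leaf c lno17_11_7 lno17_11_7_ok
def lno17_12_0 : ℕ := 519875567723304638068030059614403951386607690138718707243758578967702218549706590121269845518441562102639890085611895459321741312
theorem lno17_12_0_ok : IsCopyMask lno17_12_0 := isCopyMask_of (x := 7) (y := 12) (R := 0) rfl rfl (by decide +kernel)
def lo17_12_0 (c : ℕ) : Cert := Cert.leaf c lno17_12_0 lno17_12_0_ok
def lno17_12_2 : ℕ := 75651851925259911080861755726949505667225143727801848189360561784639277459661152675290692530943426010965950177772306432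
theorem lno17_12_2_ok : IsCopyMask lno17_12_2 := isCopyMask_of (x := 7) (y := 12) (R := 2) rfl rfl (by decide +kernel)
def lo17_12_2 (c : ℕ) : Cert := Cert.leaf c lno17_12_2 lno17_12_2_ok
def lno17_12_4 : ℕ := 3432398831264056300905326773122729108855969281772373826030636304256580123129425292883330596232488865773756429679227149966908356491823553380285358499308765184
theorem lno17_12_4_ok : IsCopyMask lno17_12_4 := isCopyMask_of (x := 7) (y := 12) (R := 4) rfl rfl (by decide +kernel)
def lo17_12_4 (c : ℕ) : Cert := Cert.leaf c lno17_12_4 lno17_12_4_ok
def lno17_12_6 : ℕ := 5043456794312764630832040087551971478802438764129540847937501044719548693387587436191116578778115079977410458795638784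
theorem lno17_12_6_ok : IsCopyMask lno17_12_6 := isCopyMask_of (x := 7) (y := 12) (R := 6) rfl rfl (by decide +kernel)
def lo17_12_6 (c : ℕ) : Cert := Cert.leaf c lno17_12_6 lno17_12_6_ok
def lno17_12_7 : ℕ := 5043456794312764630832040087456485417389527647702142746771985814298593034126668837386744506919052600421484729802424320
theorem lno17_12_7_ok : IsCopyMask lno17_12_7 := isCopyMask_of (x := 7) (y := 12) (R := 7) rfl rfl (by decide +kernel)
def lo17_12_7 (c : ℕ) : Cert := Cert.leaf c lno17_12_7 lno17_12_7_ok
def lno17_13_0 : ℕ := 2232848561361026597547305729188795341738653881527898550955341396785714468937634354966530660492678674117991323182737731146357777276812132352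
theorem lno17_13_0_ok : IsCopyMask lno17_13_0 := isCopyMask_of (x := 7) (y := 13) (R := 0) rfl rfl (by decide +kernel)
def lo17_13_0 (c : ℕ) : Cert := Cert.leaf c lno17_13_0 lno17_13_0_ok
def lno17_13_2 : ℕ := 324922229900825954392169252344388832684098651379808463941660428017213091846314609982036431713593482743294493383097442259930447872
theorem lno17_13_2_ok : IsCopyMask lno17_13_2 := isCopyMask_of (x := 7) (y := 13) (R := 2) rfl rfl (by decide +kernel)
def lo17_13_2 (c : ℕ) : Cert := Cert.leaf c lno17_13_2 lno17_13_2_ok
def lno17_13_4 : ℕ := 14742040727107744152691113682755333316803612039592954499087976420852317221644534808209126454374720491182417600542004379663158873361491453170835865902166785071423422464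
theorem lno17_13_4_ok : IsCopyMask lno17_13_4 := isCopyMask_of (x := 7) (y := 13) (R := 4) rfl rfl (by decide +kernel)
def lo17_13_4 (c : ℕ) : Cert := Cert.leaf c lno17_13_4 lno17_13_4_ok
def lno17_13_6 : ℕ := 21661481990362322884769125444996694201781231736979035849387676039036295129979219490781332511575411909027402339295624124709208064
theorem lno17_13_6_ok : IsCopyMask lno17_13_6 := isCopyMask_of (x := 7) (y := 13) (R := 6) rfl rfl (by decide +kernel)
def lo17_13_6 (c : ℕ) : Cert := Cert.leaf c lno17_13_6 lno17_13_6_ok
def lno17_13_7 : ℕ := 21661481990362322884769125444586584690788930939768512646509288641388386260387454577998409761124976638114032730264808995915038720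
theorem lno17_13_7_ok : IsCopyMask lno17_13_7 := isCopyMask_of (x := 7) (y := 13) (R := 7) rfl rfl (by decide +kernel)
def lo17_13_7 (c : ℕ) : Cert := Cert.leaf c lno17_13_7 lno17_13_7_ok
def lno17_14_0 : ℕ := 9590011547966258485451831919779308602404662200225782787958980855709603164081147418187304361397334152773414378281625187018847242919160047587863560192
theorem lno17_14_0_ok : IsCopyMask lno17_14_0 := isCopyMask_of (x := 7) (y := 14) (R := 0) rfl rfl (by decide +kernel)
def lo17_14_0 (c : ℕ) : Cert := Cert.leaf c lno17_14_0 lno17_14_0_ok
def lno17_14_2 : ℕ := 1395530351167440797502354497315921365485819606913982627373426790271292354542965507999841621690421247021190212377291913687649604844872794112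
theorem lno17_14_2_ok : IsCopyMask lno17_14_2 := isCopyMask_of (x := 7) (y := 14) (R := 2) rfl rfl (by decide +kernel)
def lo17_14_2 (c : ℕ) : Cert := Cert.leaf c lno17_14_2 lno17_14_2_ok
def lno17_14_4 : ℕ := 63316582799227821804143563657252275765250720964723596725598920554379834912780860338391830450267860638769539964542700684942034857139811377152255545033647877419224623651271737344
theorem lno17_14_4_ok : IsCopyMask lno17_14_4 := isCopyMask_of (x := 7) (y := 14) (R := 4) rfl rfl (by decide +kernel)
def lo17_14_4 (c : ℕ) : Cert := Cert.leaf c lno17_14_4 lno17_14_4_ok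
def lno17_14_5 : ℕ := 15829145705335220723057720191084835842016432920932755824160023467035150797075889803432832856413121610597864880215956301813631818698118510180503892338377062270741896708342415360
theorem lno17_14_5_ok : IsCopyMask lno17_14_5 := isCopyMask_of (x := 7) (y := 14) (R := 5) rfl rfl (by decide +kernel)
def lo17_14_5 (c : ℕ) : Cert := Cert.leaf c lno17_14_5 lno17_14_5_ok
def lno17_14_6 : ℕ := 93035356731499163980675770296782248424763215256922232810731650213103706940264816872511596624517935587001620215108601291534674144939474944
theorem lno17_14_6_ok : IsCopyMask lno17_14_6 := isCopyMask_of (x := 7) (y := 14) (R := 6) rfl rfl (by decide +kernel)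
def lo17_14_6 (c : ℕ) : Cert := Cert.leaf c lno17_14_6 lno17_14_6_ok
def lno17_14_7 : ℕ := 93035356731499163980675770295020841487272730825108307627319803274987391022579857701188651064038946829463797695160944057141688896973701120
theorem lno17_14_7_ok : IsCopyMask lno17_14_7 := isCopyMask_of (x := 7) (y := 14) (R := 7) rfl rfl (by decide +kernel)
def lo17_14_7 (c : ℕ) : Cert := Cert.leaf c lno17_14_7 lno17_14_7_ok
def lno17_15_0 : ℕ := 41188785966777415506498109878741025984819491107897140890283525364762840462866650051269307834599715047745682452975752855975832643957559976179677677534767480832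
theorem lno17_15_0_ok : IsCopyMask lno17_15_0 := isCopyMask_of (x := 7) (y := 15) (R := 0) rfl rfl (by decide +kernel)
def lo17_15_0 (c : ℕ) : Cert := Cert.leaf c lno17_15_0 lno17_15_0_ok
def lno17_15_2 : ℕ := 5993757218839553645288771048970402044869258363451130869681022443665451630416873883715346138339963492419549381155763182333709811916051803991181361152
theorem lno17_15_2_ok : IsCopyMask lno17_15_2 := isCopyMask_of (x := 7) (y := 15) (R := 2) rfl rfl (by decide +kernel)
def lo17_15_2 (c : ℕ) : Cert := Cert.leaf c lno17_15_2 lno17_15_2_ok
def lno17_15_4 : ℕ := 271942652417159628702112323196792677633325219783909417615940049793963580512272807568136405017477415883400843828675899037342839367107521964477659178554172853095386640260120220701581901824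
theorem lno17_15_4_ok : IsCopyMask lno17_15_4 := isCopyMask_of (x := 7) (y := 15) (R := 4) rfl rfl (by decide +kernel)
def lo17_15_4 (c : ℕ) : Cert := Cert.leaf c lno17_15_4 lno17_15_4_ok
def lno17_15_5 : ℕ := 67985663128033625722474381341028240702989202089983940079920827461508506755869279135843885650928621182788676667954489733654654148293420297957507274394034448169391944019340724340848066560
theorem lno17_15_5_ok : IsCopyMask lno17_15_5 := isCopyMask_of (x := 7) (y := 15) (R := 5) rfl rfl (by decide +kernel)
def lo17_15_5 (c : ℕ) : Cert := Cert.leaf c lno17_15_5 lno17_15_5_ok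
def lno17_15_6 : ℕ := 399583814533482362348343609404287971017705526072289227537390595497391851964805614046866308883048525111606521522903927635444787102531808783891431424
theorem lno17_15_6_ok : IsCopyMask lno17_15_6 := isCopyMask_of (x := 7) (y := 15) (R := 6) rfl rfl (by decide +kernel)
def lo17_15_6 (c : ℕ) : Cert := Cert.leaf c lno17_15_6 lno17_15_6_ok
def lno17_16_0 : ℕ := 176904488689252742111812657415007232258285906771781027455672065609242870584077764379278400438162353380986784660731916397394799372166932109650254644833060233137746870272
theorem lno17_16_0_ok : IsCopyMask lno17_16_0 := isCopyMask_of (x := 7) (y := 16) (R := 0) rfl rfl (by decide +kernel)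
def lo17_16_0 (c : ℕ) : Cert := Cert.leaf c lno17_16_0 lno17_16_0_ok
def lno17_16_2 : ℕ := 25742991235079797977752856131359491254684989266797088779496029347385117117710352177113918637490034929775908503121041550044168600533753595583926218552604884992
theorem lno17_16_2_ok : IsCopyMask lno17_16_2 := isCopyMask_of (x := 7) (y := 16) (R := 2) rfl rfl (by decide +kernel)
def lo17_16_2 (c : ℕ) : Cert := Cert.leaf c lno17_16_2 lno17_16_2_ok
def lno17_16_4 : ℕ := 1167984798519195954487075354248806722527402498703903135686868802161685116515274635135247151217075809637797573502966413348785377821508144953033219894524396968375697988392533280941596443799562747904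
theorem lno17_16_4_ok : IsCopyMask lno17_16_4 := isCopyMask_of (x := 7) (y := 16) (R := 4) rfl rfl (by decide +kernel)
def lo17_16_4 (c : ℕ) : Cert := Cert.leaf c lno17_16_4 lno17_16_4_ok
def lno17_16_5 : ℕ := 291996199731777483266331840057548916831754672417615871808483580216437735342253609939544630232302100010450204367982784622414490125110974391710069341204476172384945467768931202524893602780031221760
theorem lno17_16_5_ok : IsCopyMask lno17_16_5 := isCopyMask_of (x := 7) (y := 16) (R := 5) rfl rfl (by decide +kernel)
def lo17_16_5 (c : ℕ) : Cert := Cert.leaf c lno17_16_5 lno17_16_5_ok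
def lno17_16_6 : ℕ := 1716199415432236243278957562162014877687241071438957564126195224839262857485713455328489007936927704135384759961192484144185971019056717526539229580706709504
theorem lno17_16_6_ok : IsCopyMask lno17_16_6 := isCopyMask_of (x := 7) (y := 16) (R := 6) rfl rfl (by decide +kernel)
def lo17_16_6 (c : ℕ) : Cert := Cert.leaf c lno17_16_6 lno17_16_6_ok
def lno17_16_7 : ℕ := 1716199415432236243278957562129522654701697587113565282897010886990389536658077794898280584591354038350922406111065319635261546217290010470050408899197009920
theorem lno17_16_7_ok : IsCopyMask lno17_16_7 := isCopyMask_of (x := 7) (y := 16) (R := 7) rfl rfl (by decide +kernel)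
def lo17_16_7 (c : ℕ) : Cert := Cert.leaf c lno17_16_7 lno17_16_7_ok
def lno17_17_0 : ℕ := 759798993435942434048557338876307962152814194602504448595389611492464444479774416329794469961099378109733268326038036350216802903938306063600129697630089080924758270944594624512
theorem lno17_17_0_ok : IsCopyMask lno17_17_0 := isCopyMask_of (x := 7) (y := 17) (R := 0) rfl rfl (by decide +kernel)
def lo17_17_0 (c : ℕ) : Cert := Cert.leaf c lno17_17_0 lno17_17_0_ok
def lno17_17_2 : ℕ := 110565305455882380264735452654782094958070035683004514975944001408875301137695745001346680214424579549285183629593187386896851494802559837155373131960386436650481221632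
theorem lno17_17_2_ok : IsCopyMask lno17_17_2 := isCopyMask_of (x := 7) (y := 17) (R := 2) rfl rfl (by decide +kernel)
def lo17_17_2 (c : ℕ) : Cert := Cert.leaf c lno17_17_2 lno17_17_2_ok
def lno17_17_4 : ℕ := 5016456511865095852737493101186239520280140195761946355326952001927131679683054042364219051354507199147062183663396904319451039066381207970905135448558854453295169101318918052235736812149023981347572547584
theorem lno17_17_4_ok : IsCopyMask lno17_17_4 := isCopyMask_of (x := 7) (y := 17) (R := 4) rfl rfl (by decide +kernel)
def lo17_17_4 (c : ℕ) : Cert := Cert.leaf c lno17_17_4 lno17_17_4_ok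
def lno17_17_5 : ℕ := 1254114128404268262578082510930675355712610252328853423707965352382592674915282621628284723980150402337004885997002409444281943643866583383088241334365490409204599106810981599718370649819848779318123560960
theorem lno17_17_5_ok : IsCopyMask lno17_17_5 := isCopyMask_of (x := 7) (y := 17) (R := 5) rfl rfl (by decide +kernel)
def lo17_17_5 (c : ℕ) : Cert := Cert.leaf c lno17_17_5 lno17_17_5_ok
def lno17_17_6 : ℕ := 7371020362695772369029022534457740953132140518298322398253831307596000829648648077863017226184588919977841500410131948560277294068852394545596003110171109887452381184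
theorem lno17_17_6_ok : IsCopyMask lno17_17_6 := isCopyMask_of (x := 7) (y := 17) (R := 6) rfl rfl (by decide +kernel)
def lo17_17_6 (c : ℕ) : Cert := Cert.leaf c lno17_17_6 lno17_17_6_ok
def lno17_17_7 : ℕ := 7371020362695772369029022534318187918034891772334873928003649895779674926247037263311910757451627119074741505680656091553234989409653104716364093693478518267387576320
theorem lno17_17_7_ok : IsCopyMask lno17_17_7 := isCopyMask_of (x := 7) (y := 17) (R := 7) rfl rfl (by decide +kernel)
def lo17_17_7 (c : ℕ) : Cert := Cert.leaf c lno17_17_7 lno17_17_7_ok
def lno17_18_0 : ℕ := 3263311828341091425177190646454532086670742720182336326411711517738280539483438851593955598884576221187242686743526031376240370982092854144801053072679601308138534210412540940256439959552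
theorem lno17_18_0_ok : IsCopyMask lno17_18_0 := isCopyMask_of (x := 7) (y := 18) (R := 0) rfl rfl (by decide +kernel)
def lo17_18_0 (c : ℕ) : Cert := Cert.leaf c lno17_18_0 lno17_18_0_ok
def lno17_18_2 : ℕ := 474874371005265194059674591244045475851277294536057414842021712778497342528554817579139467479123836622730283866457317611121676095545708477665413272446952112935792629571567747072
theorem lno17_18_2_ok : IsCopyMask lno17_18_2 := isCopyMask_of (x := 7) (y := 18) (R := 2) rfl rfl (by decide +kernel)
def lo17_18_2 (c : ℕ) : Cert := Cert.leaf c lno17_18_2 lno17_18_2_ok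
def lno17_18_6 : ℕ := 31658291395928400722440095060343030487742412292567784272164492972825739943729810665034920554347444270508790288933087306111145262717095806824623614186499201930630217942605758464
theorem lno17_18_6_ok : IsCopyMask lno17_18_6 := isCopyMask_of (x := 7) (y := 18) (R := 6) rfl rfl (by decide +kernel)
def lo17_18_6 (c : ℕ) : Cert := Cert.leaf c lno17_18_6 lno17_18_6_ok
def lno17_18_7 : ℕ := 31658291395928400722440095059743654765942188749077761081058734871007512229742237062817997350525326778412712546552216133044326122517366431461647138442170084436968223651104030720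
theorem lno17_18_7_ok : IsCopyMask lno17_18_7 := isCopyMask_of (x := 7) (y := 18) (R := 7) rfl rfl (by decide +kernel)
def lo17_18_7 (c : ℕ) : Cert := Cert.leaf c lno17_18_7 lno17_18_7_ok
def lno17_19_6 : ℕ := 135971326192750668660462981603304462486384589668727017312129660450708369765320417066596994478880463763017831571490000712060109844475254590410492030440335717022156846732844137624155193344
theorem lno17_19_6_ok : IsCopyMask lno17_19_6 := isCopyMask_of (x := 7) (y := 19) (R := 6) rfl rfl (by decide +kernel)
def lo17_19_6 (c : ℕ) : Cert := Cert.leaf c lno17_19_6 lno17_19_6_ok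
def lno17_20_6 : ℕ := 583992399191612314178820634204842311909880657905562013307222715747377068175526386262114345298684154555474680864385839049314884568188864747086938486009878383870874164100050020161069695041036877824
theorem lno17_20_6_ok : IsCopyMask lno17_20_6 := isCopyMask_of (x := 7) (y := 20) (R := 6) rfl rfl (by decide +kernel)
def lo17_20_6 (c : ℕ) : Cert := Cert.leaf c lno17_20_6 lno17_20_6_ok
def lno18_5_4 : ℕ := 254629497130739085324716295484872288450173752996529078244581924243469044990471607626498048
theorem lno18_5_4_ok : IsCopyMask lno18_5_4 := isCopyMask_of (x := 8) (y := 5) (R := 4) rfl rfl (by decide +kernel)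
def lo18_5_4 (c : ℕ) : Cert := Cert.leaf c lno18_5_4 lno18_5_4_ok
def lno18_5_5 : ℕ := 63657374304916852469920093153841827608262434474691880635837780525344085878620149640069120
theorem lno18_5_5_ok : IsCopyMask lno18_5_5 := isCopyMask_of (x := 8) (y := 5) (R := 5) rfl rfl (by decide +kernel)
def lo18_5_5 (c : ℕ) : Cert := Cert.leaf c lno18_5_5 lno18_5_5_ok
def lno18_6_4 : ℕ := 1093625362773450207778610029585798941630174794637674392573504453818449089822428186372353299167838208
theorem lno18_6_4_ok : IsCopyMask lno18_6_4 := isCopyMask_of (x := 8) (y := 6) (R := 4) rfl rfl (by decide +kernel)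
def lo18_6_4 (c : ℕ) : Cert := Cert.leaf c lno18_6_4 lno18_6_4_ok
def lno18_6_5 : ℕ := 273406340788848613357563623829024146334357055454144567007658952917578547995688968310723041579499520
theorem lno18_6_5_ok : IsCopyMask lno18_6_5 := isCopyMask_of (x := 8) (y := 6) (R := 5) rfl rfl (by decide +kernel)
def lo18_6_5 (c : ℕ) : Cert := Cert.leaf c lno18_6_5 lno18_6_5_ok
def lno18_7_1 : ℕ := 5558020296331951780563714381857186818726381987296576396713438823309563142340608
theorem lno18_7_1_ok : IsCopyMask lno18_7_1 := isCopyMask_of (x := 8) (y := 7) (R := 1) rfl rfl (by decide +kernel)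
def lo18_7_1 (c : ℕ) : Cert := Cert.leaf c lno18_7_1 lno18_7_1_ok
def lno18_7_4 : ℕ := 4697085167188104499493534885408598880333013669732327685599866905260581162228295507777850298483569118379245568
theorem lno18_7_4_ok : IsCopyMask lno18_7_4 := isCopyMask_of (x := 8) (y := 7) (R := 4) rfl rfl (by decide +kernel)
def lo18_7_4 (c : ℕ) : Cert := Cert.leaf c lno18_7_4 lno18_7_4_ok
def lno18_7_5 : ℕ := 1174271292207135635865684518584905004100381834362409342953975784302603647152650467882535829697598622447697920
theorem lno18_7_5_ok : IsCopyMask lno18_7_5 := isCopyMask_of (x := 8) (y := 7) (R := 5) rfl rfl (by decide +kernel)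
def lo18_7_5 (c : ℕ) : Cert := Cert.leaf c lno18_7_5 lno18_7_5_ok
def lno18_8_0 : ℕ := 3055553964946370752073962723040579824010564156655461117070270439943089072235391477092450304
theorem lno18_8_0_ok : IsCopyMask lno18_8_0 := isCopyMask_of (x := 8) (y := 8) (R := 0) rfl rfl (by decide +kernel)
def lo18_8_0 (c : ℕ) : Cert := Cert.leaf c lno18_8_0 lno18_8_0_ok
def lno18_8_1 : ℕ := 23871515403249961657370121714361473128992091007842283076649741629811296180399904252755968
theorem lno18_8_1_ok : IsCopyMask lno18_8_1 := isCopyMask_of (x := 8) (y := 8) (R := 1) rfl rfl (by decide +kernel)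
def lo18_8_1 (c : ℕ) : Cert := Cert.leaf c lno18_8_1 lno18_8_1_ok
def lno18_8_2 : ℕ := 444641622836936102749486113331795706851205351974886381243606399914286999188537344
theorem lno18_8_2_ok : IsCopyMask lno18_8_2 := isCopyMask_of (x := 8) (y := 8) (R := 2) rfl rfl (by decide +kernel)
def lo18_8_2 (c : ℕ) : Cert := Cert.leaf c lno18_8_2 lno18_8_2_ok
def lno18_8_3 : ℕ := 55580202835205851243337303514314212493746534911842053671221587802891275519131648
theorem lno18_8_3_ok : IsCopyMask lno18_8_3 := isCopyMask_of (x := 8) (y := 8) (R := 3) rfl rfl (by decide +kernel)
def lo18_8_3 (c : ℕ) : Cert := Cert.leaf c lno18_8_3 lno18_8_3_ok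
def lno18_8_4 : ℕ := 20173827179599601105555180896265039788212511300621292483606798500046926449724199691729580665170767756794412239712944128
theorem lno18_8_4_ok : IsCopyMask lno18_8_4 := isCopyMask_of (x := 8) (y := 8) (R := 4) rfl rfl (by decide +kernel)
def lo18_8_4 (c : ℕ) : Cert := Cert.leaf c lno18_8_4 lno18_8_4_ok
def lno18_8_5 : ℕ := 5043456796661307213879279655975671191877885879699037139752174026755632832170957279274589758099411653147514036887224320
theorem lno18_8_5_ok : IsCopyMask lno18_8_5 := isCopyMask_of (x := 8) (y := 8) (R := 5) rfl rfl (by decide +kernel)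
def lo18_8_5 (c : ℕ) : Cert := Cert.leaf c lno18_8_5 lno18_8_5_ok
def lno18_9_0 : ℕ := 13123504350607792774048594068582396025002808611345026237616438873431099666465988007869207224185257984
theorem lno18_9_0_ok : IsCopyMask lno18_9_0 := isCopyMask_of (x := 8) (y := 9) (R := 0) rfl rfl (by decide +kernel)
def lo18_9_0 (c : ℕ) : Cert := Cert.leaf c lno18_9_0 lno18_9_0_ok
def lno18_9_2 : ℕ := 1909721228525007302150738537566212157879130124912306020757077296728159864672746430554701824
theorem lno18_9_2_ok : IsCopyMask lno18_9_2 := isCopyMask_of (x := 8) (y := 9) (R := 2) rfl rfl (by decide +kernel)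
def lo18_9_2 (c : ℕ) : Cert := Cert.leaf c lno18_9_2 lno18_9_2_ok
def lno18_9_4 : ℕ := 86645927971536205123004945872822314438511502334198875698341815680963403566882825895751830632702373770643282365109207457635237888
theorem lno18_9_4_ok : IsCopyMask lno18_9_4 := isCopyMask_of (x := 8) (y := 9) (R := 4) rfl rfl (by decide +kernel)
def lo18_9_4 (c : ℕ) : Cert := Cert.leaf c lno18_9_4 lno18_9_4_ok
def lno18_9_5 : ℕ := 21661482000449236472220383414453638740764860678927554837924968989816071997958118195497501614853524167109868252131566094615838720
theorem lno18_9_5_ok : IsCopyMask lno18_9_5 := isCopyMask_of (x := 8) (y := 9) (R := 5) rfl rfl (by decide +kernel)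
def lo18_9_5 (c : ℕ) : Cert := Cert.leaf c lno18_9_5 lno18_9_5_ok
def lno18_9_6 : ℕ := 127314748550548155243432547905631685148900894541774465762757645892837705183809045515993088
theorem lno18_9_6_ok : IsCopyMask lno18_9_6 := isCopyMask_of (x := 8) (y := 9) (R := 6) rfl rfl (by decide +kernel)
def lo18_9_6 (c : ℕ) : Cert := Cert.leaf c lno18_9_6 lno18_9_6_ok
def lno18_9_7 : ℕ := 127314748550548155243432547903221278081951192499726455903655687013291348013586978166538240
theorem lno18_9_7_ok : IsCopyMask lno18_9_7 := isCopyMask_of (x := 8) (y := 9) (R := 7) rfl rfl (by decide +kernel)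
def lo18_9_7 (c : ℕ) : Cert := Cert.leaf c lno18_9_7 lno18_9_7_ok
def lno18_10_0 : ℕ := 56365021994774187687283829039340972008707461293874062262824529953369656376787926390126435673322623286602891264
theorem lno18_10_0_ok : IsCopyMask lno18_10_0 := isCopyMask_of (x := 8) (y := 10) (R := 0) rfl rfl (by decide +kernel)
def lo18_10_0 (c : ℕ) : Cert := Cert.leaf c lno18_10_0 lno18_10_0_ok
def lno18_10_1 : ℕ := 440351735295367507471314451447611111594325492929608146488810386736869163963654551524151026208165933548044288
theorem lno18_10_1_ok : IsCopyMask lno18_10_1 := isCopyMask_of (x := 8) (y := 10) (R := 1) rfl rfl (by decide +kernel)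
def lo18_10_1 (c : ℕ) : Cert := Cert.leaf c lno18_10_1 lno18_10_1_ok
def lno18_10_2 : ℕ := 8202190220991848680898612481093748652688452607426749227095544149991534421029231661733179473111547904
theorem lno18_10_2_ok : IsCopyMask lno18_10_2 := isCopyMask_of (x := 8) (y := 10) (R := 2) rfl rfl (by decide +kernel)
def lo18_10_2 (c : ℕ) : Cert := Cert.leaf c lno18_10_2 lno18_10_2_ok
def lno18_10_3 : ℕ := 1025273777265908354897280177784843362920345571056015224812852662191807739265579119867623403755143168
theorem lno18_10_3_ok : IsCopyMask lno18_10_3 := isCopyMask_of (x := 8) (y := 10) (R := 3) rfl rfl (by decide +kernel)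
def lo18_10_3 (c : ℕ) : Cert := Cert.leaf c lno18_10_3 lno18_10_3_ok
def lno18_10_4 : ℕ := 372141426969319619883253899770022015732435505445211833484347259778997788092611485886316017899587683446481102640237577499022652226140110848
theorem lno18_10_4_ok : IsCopyMask lno18_10_4 := isCopyMask_of (x := 8) (y := 10) (R := 4) rfl rfl (by decide +kernel)
def lo18_10_4 (c : ℕ) : Cert := Cert.leaf c lno18_10_4 lno18_10_4_ok
def lno18_10_5 : ℕ := 93035356774822127956356959269659192099783698641990204382134322313074186286411496427364303885503074128082522981773758665637468986010501120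
theorem lno18_10_5_ok : IsCopyMask lno18_10_5 := isCopyMask_of (x := 8) (y := 10) (R := 5) rfl rfl (by decide +kernel)
def lo18_10_5 (c : ℕ) : Cert := Cert.leaf c lno18_10_5 lno18_10_5_ok
def lno18_10_6 : ℕ := 546812681323067729643673712036641381935898232402066236258915783883686664400149519200165757922050048
theorem lno18_10_6_ok : IsCopyMask lno18_10_6 := isCopyMask_of (x := 8) (y := 10) (R := 6) rfl rfl (by decide +kernel)
def lo18_10_6 (c : ℕ) : Cert := Cert.leaf c lno18_10_6 lno18_10_6_ok
def lno18_10_7 : ℕ := 546812681323067729643673712026288762413301979654525617052187302566498257038110634876747782333399040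
theorem lno18_10_7_ok : IsCopyMask lno18_10_7 := isCopyMask_of (x := 8) (y := 10) (R := 7) rfl rfl (by decide +kernel)
def lo18_10_7 (c : ℕ) : Cert := Cert.leaf c lno18_10_7 lno18_10_7_ok
def lno18_11_0 : ℕ := 242085926105875819021849920793624572170249973488374942561499112736295079137061997373248378521968406672887452917924102144
theorem lno18_11_0_ok : IsCopyMask lno18_11_0 := isCopyMask_of (x := 8) (y := 11) (R := 0) rfl rfl (by decide +kernel)
def lo18_11_0 (c : ℕ) : Cert := Cert.leaf c lno18_11_0 lno18_11_0_ok
def lno18_11_1 : ℕ := 1891296301830452344890331227099669581623834411311746219264617840979965216654758031437775611728911572730159461719605248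
theorem lno18_11_1_ok : IsCopyMask lno18_11_1 := isCopyMask_of (x := 8) (y := 11) (R := 1) rfl rfl (by decide +kernel)
def lo18_11_1 (c : ℕ) : Cert := Cert.leaf c lno18_11_1 lno18_11_1_ok
def lno18_11_2 : ℕ := 35228138754731002767040280498075068773340966425743814645968639191537759015178844647151740515112609607617347584
theorem lno18_11_2_ok : IsCopyMask lno18_11_2 := isCopyMask_of (x := 8) (y := 11) (R := 2) rfl rfl (by decide +kernel)
def lo18_11_2 (c : ℕ) : Cert := Cert.leaf c lno18_11_2 lno18_11_2_ok
def lno18_11_3 : ℕ := 4403517342803464680016979802934967968225543280704029574649289904580349919265357378331906368372543498357833728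
theorem lno18_11_3_ok : IsCopyMask lno18_11_3 := isCopyMask_of (x := 8) (y := 11) (R := 3) rfl rfl (by decide +kernel)
def lo18_11_3 (c : ℕ) : Cert := Cert.leaf c lno18_11_3 lno18_11_3_ok
def lno18_11_4 : ℕ := 1598335258320000162769726837576706478770807982316414744607469208658011687514104551115692870799679712287036902121839649028567763274453372405974827008
theorem lno18_11_4_ok : IsCopyMask lno18_11_4 := isCopyMask_of (x := 8) (y := 11) (R := 4) rfl rfl (by decide +kernel)
def lo18_11_4 (c : ℕ) : Cert := Cert.leaf c lno18_11_4 lno18_11_4_ok
def lno18_11_5 : ℕ := 399583814719553075789680455365190275134352554341267540173622801013776703321949066353950524666041431887578151395886697539909528287129383822971371520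
theorem lno18_11_5_ok : IsCopyMask lno18_11_5 := isCopyMask_of (x := 8) (y := 11) (R := 5) rfl rfl (by decide +kernel)
def lo18_11_5 (c : ℕ) : Cert := Cert.leaf c lno18_11_5 lno18_11_5_ok
def lno18_11_6 : ℕ := 2348542583320645909212548326492296289094928076551082007557852680198638091509969642474836008054257873435230208
theorem lno18_11_6_ok : IsCopyMask lno18_11_6 := isCopyMask_of (x := 8) (y := 11) (R := 6) rfl rfl (by decide +kernel)
def lo18_11_6 (c : ℕ) : Cert := Cert.leaf c lno18_11_6 lno18_11_6_ok
def lno18_11_7 : ℕ := 2348542583320645909212548326447832126817446037988244903633364389789566879219687002425428715962475445317795840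
theorem lno18_11_7_ok : IsCopyMask lno18_11_7 := isCopyMask_of (x := 8) (y := 11) (R := 7) rfl rfl (by decide +kernel)
def lo18_11_7 (c : ℕ) : Cert := Cert.leaf c lno18_11_7 lno18_11_7_ok
def lno18_12_0 : ℕ := 1039751135446609276136060119228807902773215380277437414487517157935404437099413180242539691036883124205279780171223790918643482624
theorem lno18_12_0_ok : IsCopyMask lno18_12_0 := isCopyMask_of (x := 8) (y := 12) (R := 0) rfl rfl (by decide +kernel)
def lo18_12_0 (c : ℕ) : Cert := Cert.leaf c lno18_12_0 lno18_12_0_ok
def lno18_12_1 : ℕ := 8123055763407537758190485327000629785480371370703362472393178796947079196749740267818586111362069222551960320950668462189969408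
theorem lno18_12_1_ok : IsCopyMask lno18_12_1 := isCopyMask_of (x := 8) (y := 12) (R := 1) rfl rfl (by decide +kernel)
def lo18_12_1 (c : ℕ) : Cert := Cert.leaf c lno18_12_1 lno18_12_1_ok
def lno18_12_2 : ℕ := 151303703850519822161723511453899011334450287455603696378721123569278554919322305350581385061886852021931900355544612864
theorem lno18_12_2_ok : IsCopyMask lno18_12_2 := isCopyMask_of (x := 8) (y := 12) (R := 2) rfl rfl (by decide +kernel)
def lo18_12_2 (c : ℕ) : Cert := Cert.leaf c lno18_12_2 lno18_12_2_ok
def lno18_12_4 : ℕ := 6864797662528112601810653546245458217711938563544747652061272608513160246258850585766661192464977731547512859358454299933816712983647106760570716998617530368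
theorem lno18_12_4_ok : IsCopyMask lno18_12_4 := isCopyMask_of (x := 8) (y := 12) (R := 4) rfl rfl (by decide +kernel)
def lo18_12_4 (c : ℕ) : Cert := Cert.leaf c lno18_12_4 lno18_12_4_ok
def lno18_12_5 : ℕ := 1716199416231403872252886930083879968519286227029806908232076092194086586214465798967951463842689271738159708889470114855355078792007601240293494222665809920
theorem lno18_12_5_ok : IsCopyMask lno18_12_5 := isCopyMask_of (x := 8) (y := 12) (R := 5) rfl rfl (by decide +kernel)
def lo18_12_5 (c : ℕ) : Cert := Cert.leaf c lno18_12_5 lno18_12_5_ok
def lno18_12_6 : ℕ := 10086913588625529261664080175103942957604877528259081695875002089439097386775174872382233157556230159954820917591277568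
theorem lno18_12_6_ok : IsCopyMask lno18_12_6 := isCopyMask_of (x := 8) (y := 12) (R := 6) rfl rfl (by decide +kernel)
def lo18_12_6 (c : ℕ) : Cert := Cert.leaf c lno18_12_6 lno18_12_6_ok
def lno18_12_7 : ℕ := 10086913588625529261664080174912970834779055295404285493543971628597186068253337674773489013838105200842969459604848640
theorem lno18_12_7_ok : IsCopyMask lno18_12_7 := isCopyMask_of (x := 8) (y := 12) (R := 7) rfl rfl (by decide +kernel)
def lo18_12_7 (c : ℕ) : Cert := Cert.leaf c lno18_12_7 lno18_12_7_ok
def lno18_13_0 : ℕ := 4465697122722053195094611458377590683477307763055797101910682793571428937875268709933061320985357348235982646365475462292715554553624264704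
theorem lno18_13_0_ok : IsCopyMask lno18_13_0 := isCopyMask_of (x := 8) (y := 13) (R := 0) rfl rfl (by decide +kernel)
def lo18_13_0 (c : ℕ) : Cert := Cert.leaf c lno18_13_0 lno18_13_0_ok
def lno18_13_2 : ℕ := 649844459801651908784338504688777665368197302759616927883320856034426183692629219964072863427186965486588986766194884519860895744
theorem lno18_13_2_ok : IsCopyMask lno18_13_2 := isCopyMask_of (x := 8) (y := 13) (R := 2) rfl rfl (by decide +kernel)
def lo18_13_2 (c : ℕ) : Cert := Cert.leaf c lno18_13_2 lno18_13_2_ok
def lno18_13_4 : ℕ := 29484081454215488305382227365510666633607224079185908998175952841704634443289069616418252908749440982364835201084008759326317746722982906341671731804333570142846844928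
theorem lno18_13_4_ok : IsCopyMask lno18_13_4 := isCopyMask_of (x := 8) (y := 13) (R := 4) rfl rfl (by decide +kernel)
def lo18_13_4 (c : ℕ) : Cert := Cert.leaf c lno18_13_4 lno18_13_4_ok
def lno18_13_5 : ℕ := 7371020366128171199493911206296103001579843890356251888051639994157082772383415048677862089319676910805453024905154622073113833879175833510469595127914595543752376320
theorem lno18_13_5_ok : IsCopyMask lno18_13_5 := isCopyMask_of (x := 8) (y := 13) (R := 5) rfl rfl (by decide +kernel)
def lo18_13_5 (c : ℕ) : Cert := Cert.leaf c lno18_13_5 lno18_13_5_ok
def lno18_13_6 : ℕ := 43322963980724645769538250889993388403562463473958071698775352078072590259958438981562665023150823818054804678591248249418416128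
theorem lno18_13_6_ok : IsCopyMask lno18_13_6 := isCopyMask_of (x := 8) (y := 13) (R := 6) rfl rfl (by decide +kernel)
def lo18_13_6 (c : ℕ) : Cert := Cert.leaf c lno18_13_6 lno18_13_6_ok
def lno18_13_7 : ℕ := 43322963980724645769538250889173169381577861879537025293018577282776772520774909155996819522249953276228065460529617991830077440
theorem lno18_13_7_ok : IsCopyMask lno18_13_7 := isCopyMask_of (x := 8) (y := 13) (R := 7) rfl rfl (by decide +kernel)
def lo18_13_7 (c : ℕ) : Cert := Cert.leaf c lno18_13_7 lno18_13_7_ok
def lno18_14_0 : ℕ := 19180023095932516970903663839558617204809324400451565575917961711419206328162294836374608722794668305546828756563250374037694485838320095175727120384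
theorem lno18_14_0_ok : IsCopyMask lno18_14_0 := isCopyMask_of (x := 8) (y := 14) (R := 0) rfl rfl (by decide +kernel)
def lo18_14_0 (c : ℕ) : Cert := Cert.leaf c lno18_14_0 lno18_14_0_ok
def lno18_14_2 : ℕ := 2791060702334881595004708994631842730971639213827965254746853580542584709085931015999683243380842494042380424754583827375299209689745588224
theorem lno18_14_2_ok : IsCopyMask lno18_14_2 := isCopyMask_of (x := 8) (y := 14) (R := 2) rfl rfl (by decide +kernel)
def lo18_14_2 (c : ℕ) : Cert := Cert.leaf c lno18_14_2 lno18_14_2_ok
def lno18_14_4 : ℕ := 126633165598455643608287127314504551530501441929447193451197841108759669825561720676783660900535721277539079929085401369884069714279622754304511090067295754838449247302543474688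
theorem lno18_14_4_ok : IsCopyMask lno18_14_4 := isCopyMask_of (x := 8) (y := 14) (R := 4) rfl rfl (by decide +kernel)
def lo18_14_4 (c : ℕ) : Cert := Cert.leaf c lno18_14_4 lno18_14_4_ok
def lno18_14_5 : ℕ := 31658291410670441446115440382169671684032865841865511648320046934070301594151779606865665712826243221195729760431912603627263637396237020361007784676754124541483793416684830720
theorem lno18_14_5_ok : IsCopyMask lno18_14_5 := isCopyMask_of (x := 8) (y := 14) (R := 5) rfl rfl (by decide +kernel)
def lo18_14_5 (c : ℕ) : Cert := Cert.leaf c lno18_14_5 lno18_14_5_ok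
def lno18_14_6 : ℕ := 186070713462998327961351540593564496849526430513844465621463300426207413880529633745023193249035871174003240430217202583069348289878949888
theorem lno18_14_6_ok : IsCopyMask lno18_14_6 := isCopyMask_of (x := 8) (y := 14) (R := 6) rfl rfl (by decide +kernel)
def lo18_14_6 (c : ℕ) : Cert := Cert.leaf c lno18_14_6 lno18_14_6_ok
def lno18_14_7 : ℕ := 186070713462998327961351540590041682974545461650216615254639606549974782045159715402377302128077893658927595390321888114283377793947402240
theorem lno18_14_7_ok : IsCopyMask lno18_14_7 := isCopyMask_of (x := 8) (y := 14) (R := 7) rfl rfl (by decide +kernel)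
def lo18_14_7 (c : ℕ) : Cert := Cert.leaf c lno18_14_7 lno18_14_7_ok
def lno18_15_0 : ℕ := 82377571933554831012996219757482051969638982215794281780567050729525680925733300102538615669199430095491364905951505711951665287915119952359355355069534961664
theorem lno18_15_0_ok : IsCopyMask lno18_15_0 := isCopyMask_of (x := 8) (y := 15) (R := 0) rfl rfl (by decide +kernel)
def lo18_15_0 (c : ℕ) : Cert := Cert.leaf c lno18_15_0 lno18_15_0_ok
def lno18_15_2 : ℕ := 11987514437679107290577542097940804089738516726902261739362044887330903260833747767430692276679926984839098762311526364667419623832103607982362722304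
theorem lno18_15_2_ok : IsCopyMask lno18_15_2 := isCopyMask_of (x := 8) (y := 15) (R := 2) rfl rfl (by decide +kernel)
def lo18_15_2 (c : ℕ) : Cert := Cert.leaf c lno18_15_2 lno18_15_2_ok
def lno18_15_3 : ℕ := 1498439304186564529829355801047087369537951326128160937725386607513689964194158183487190029790133316590977578085191780026915804866868037825192787968
theorem lno18_15_3_ok : IsCopyMask lno18_15_3 := isCopyMask_of (x := 8) (y := 15) (R := 3) rfl rfl (by decide +kernel)
def lo18_15_3 (c : ℕ) : Cert := Cert.leaf c lno18_15_3 lno18_15_3_ok
def lno18_15_4 : ℕ := 543885304834319257404224646393585355266650439567818835231880099587927161024545615136272810034954831766801687657351798074685678734215043928955318357108345706190773280520240441403163803648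
theorem lno18_15_4_ok : IsCopyMask lno18_15_4 := isCopyMask_of (x := 8) (y := 15) (R := 4) rfl rfl (by decide +kernel)
def lo18_15_4 (c : ℕ) : Cert := Cert.leaf c lno18_15_4 lno18_15_4_ok
def lno18_15_5 : ℕ := 135971326256067251444948762682056481405978404179967880159841654923017013511738558271687771301857242365577353335908979467309308296586840595915014548788068896338783888038681448681696133120
theorem lno18_15_5_ok : IsCopyMask lno18_15_5 := isCopyMask_of (x := 8) (y := 15) (R := 5) rfl rfl (by decide +kernel)
def lo18_15_5 (c : ℕ) : Cert := Cert.leaf c lno18_15_5 lno18_15_5_ok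
def lno18_15_6 : ℕ := 799167629066964724696687218808575942035411052144578455074781190994783703929611228093732617766097050223213043045807855270889574205063617567782862848
theorem lno18_15_6_ok : IsCopyMask lno18_15_6 := isCopyMask_of (x := 8) (y := 15) (R := 6) rfl rfl (by decide +kernel)
def lo18_15_6 (c : ℕ) : Cert := Cert.leaf c lno18_15_6 lno18_15_6_ok
def lno18_15_7 : ℕ := 799167629066964724696687218793445571652472758252902553834491822398449078508688972749877993292805756605659800633352864363818218101416719364957143040
theorem lno18_15_7_ok : IsCopyMask lno18_15_7 := isCopyMask_of (x := 8) (y := 15) (R := 7) rfl rfl (by decide +kernel)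
def lo18_15_7 (c : ℕ) : Cert := Cert.leaf c lno18_15_7 lno18_15_7_ok
def lno18_16_0 : ℕ := 353808977378505484223625314830014464516571813543562054911344131218485741168155528758556800876324706761973569321463832794789598744333864219300509289666120466275493740544
theorem lno18_16_0_ok : IsCopyMask lno18_16_0 := isCopyMask_of (x := 8) (y := 16) (R := 0) rfl rfl (by decide +kernel)
def lo18_16_0 (c : ℕ) : Cert := Cert.leaf c lno18_16_0 lno18_16_0_ok
def lno18_16_1 : ℕ := 2764132641803087663971241466917799253228348050674793173261453045120022502551008881959321146407130205753025052784450529893212463074297561478661185301411708195515138048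
theorem lno18_16_1_ok : IsCopyMask lno18_16_1 := isCopyMask_of (x := 8) (y := 16) (R := 1) rfl rfl (by decide +kernel)
def lo18_16_1 (c : ℕ) : Cert := Cert.leaf c lno18_16_1 lno18_16_1_ok
def lno18_16_2 : ℕ := 51485982470159595955505712262718982509369978533594177558992058694770234235420704354227837274980069859551817006242083100088337201067507191167852437105209769984
theorem lno18_16_2_ok : IsCopyMask lno18_16_2 := isCopyMask_of (x := 8) (y := 16) (R := 2) rfl rfl (by decide +kernel)
def lo18_16_2 (c : ℕ) : Cert := Cert.leaf c lno18_16_2 lno18_16_2_ok
def lno18_16_3 : ℕ := 6435747806522290538210699626245122808220167576560281532155228108227686268497320392328248412885888338238262906545184997103629381648715856406893989217622294528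
theorem lno18_16_3_ok : IsCopyMask lno18_16_3 := isCopyMask_of (x := 8) (y := 16) (R := 3) rfl rfl (by decide +kernel)
def lo18_16_3 (c : ℕ) : Cert := Cert.leaf c lno18_16_3 lno18_16_3_ok
def lno18_16_4 : ℕ := 2335969597038391908974150708497613445054804997407806271373737604323370233030549270270494302434151619275595147005932826697570755643016289906066439789048793936751395976785066561883192887599125495808
theorem lno18_16_4_ok : IsCopyMask lno18_16_4 := isCopyMask_of (x := 8) (y := 16) (R := 4) rfl rfl (by decide +kernel)
def lo18_16_4 (c : ℕ) : Cert := Cert.leaf c lno18_16_4 lno18_16_4_ok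
def lno18_16_5 : ℕ := 583992399463554966532663680115097833663509344835231743616967160432875470684507219879089260464604200020900408735965569244828980250221948783420138682408952344769890935537862405049787205560062443520
theorem lno18_16_5_ok : IsCopyMask lno18_16_5 := isCopyMask_of (x := 8) (y := 16) (R := 5) rfl rfl (by decide +kernel)
def lo18_16_5 (c : ℕ) : Cert := Cert.leaf c lno18_16_5 lno18_16_5_ok
def lno18_16_6 : ℕ := 3432398830864472486557915124324029755374482142877915128252390449678525714971426910656978015873855408270769519922384968288371942038113435053078459161413419008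
theorem lno18_16_6_ok : IsCopyMask lno18_16_6 := isCopyMask_of (x := 8) (y := 16) (R := 6) rfl rfl (by decide +kernel)
def lo18_16_6 (c : ℕ) : Cert := Cert.leaf c lno18_16_6 lno18_16_6_ok
def lno18_16_7 : ℕ := 3432398830864472486557915124259045309403395174227130565794021773980779073316155589796561169182708076701844812222130639270523092434580020940100817798394019840
theorem lno18_16_7_ok : IsCopyMask lno18_16_7 := isCopyMask_of (x := 8) (y := 16) (R := 7) rfl rfl (by decide +kernel)
def lo18_16_7 (c : ℕ) : Cert := Cert.leaf c lno18_16_7 lno18_16_7_ok
def lno18_17_0 : ℕ := 1519597986871884868097114677752615924305628389205008897190779222984928888959548832659588939922198756219466536652076072700433605807876612127200259395260178161849516541889189249024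
theorem lno18_17_0_ok : IsCopyMask lno18_17_0 := isCopyMask_of (x := 8) (y := 17) (R := 0) rfl rfl (by decide +kernel)
def lo18_17_0 (c : ℕ) : Cert := Cert.leaf c lno18_17_0 lno18_17_0_ok
def lno18_17_2 : ℕ := 221130610911764760529470905309564189916140071366009029951888002817750602275391490002693360428849159098570367259186374773793702989605119674310746263920772873300962443264
theorem lno18_17_2_ok : IsCopyMask lno18_17_2 := isCopyMask_of (x := 8) (y := 17) (R := 2) rfl rfl (by decide +kernel)
def lo18_17_2 (c : ℕ) : Cert := Cert.leaf c lno18_17_2 lno18_17_2_ok
def lno18_17_4 : ℕ := 10032913023730191705474986202372479040560280391523892710653904003854263359366108084728438102709014398294124367326793808638902078132762415941810270897117708906590338202637836104471473624298047962695145095168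
theorem lno18_17_4_ok : IsCopyMask lno18_17_4 := isCopyMask_of (x := 8) (y := 17) (R := 4) rfl rfl (by decide +kernel)
def lo18_17_4 (c : ℕ) : Cert := Cert.leaf c lno18_17_4 lno18_17_4_ok
def lno18_17_5 : ℕ := 2508228256808536525156165021861350711425220504657706847415930704765185349830565243256569447960300804674009771994004818888563887287733166766176482668730980818409198213621963199436741299639697558636247121920
theorem lno18_17_5_ok : IsCopyMask lno18_17_5 := isCopyMask_of (x := 8) (y := 17) (R := 5) rfl rfl (by decide +kernel)
def lo18_17_5 (c : ℕ) : Cert := Cert.leaf c lno18_17_5 lno18_17_5_ok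
def lno18_17_6 : ℕ := 14742040725391544738058045068915481906264281036596644796507662615192001659297296155726034452369177839955683000820263897120554588137704789091192006220342219774904762368
theorem lno18_17_6_ok : IsCopyMask lno18_17_6 := isCopyMask_of (x := 8) (y := 17) (R := 6) rfl rfl (by decide +kernel)
def lo18_17_6 (c : ℕ) : Cert := Cert.leaf c lno18_17_6 lno18_17_6_ok
def lno18_17_7 : ℕ := 14742040725391544738058045068636375836069783544669747856007299791559349852494074526623821514903254238149483011361312183106469978819306209432728187386957036534775152640
theorem lno18_17_7_ok : IsCopyMask lno18_17_7 := isCopyMask_of (x := 8) (y := 17) (R := 7) rfl rfl (by decide +kernel)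
def lo18_17_7 (c : ℕ) : Cert := Cert.leaf c lno18_17_7 lno18_17_7_ok
def lno18_18_0 : ℕ := 6526623656682182850354381292909064173341485440364672652823423035476561078966877703187911197769152442374485373487052062752480741964185708289602106145359202616277068420825081880512879919104
theorem lno18_18_0_ok : IsCopyMask lno18_18_0 := isCopyMask_of (x := 8) (y := 18) (R := 0) rfl rfl (by decide +kernel)
def lo18_18_0 (c : ℕ) : Cert := Cert.leaf c lno18_18_0 lno18_18_0_ok
def lno18_18_1 : ℕ := 50989247429128234181290644178078198313071590518658112195728320425989008671232483354094896459213883933610037225686546381961018499303315111450554498746014540235516522600168999658421485568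
theorem lno18_18_1_ok : IsCopyMask lno18_18_1 := isCopyMask_of (x := 8) (y := 18) (R := 1) rfl rfl (by decide +kernel)
def lo18_18_1 (c : ℕ) : Cert := Cert.leaf c lno18_18_1 lno18_18_1_ok
def lno18_18_2 : ℕ := 949748742010530388119349182488090951702554589072114829684043425556994685057109635158278934958247673245460567732914635222243352191091416955330826544893904225871585259143135494144
theorem lno18_18_2_ok : IsCopyMask lno18_18_2 := isCopyMask_of (x := 8) (y := 18) (R := 2) rfl rfl (by decide +kernel)
def lo18_18_2 (c : ℕ) : Cert := Cert.leaf c lno18_18_2 lno18_18_2_ok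
def lno18_18_6 : ℕ := 63316582791856801444880190120686060975484824585135568544328985945651479887459621330069841108694888541017580577866174612222290525434191613649247228372998403861260435885211516928
theorem lno18_18_6_ok : IsCopyMask lno18_18_6 := isCopyMask_of (x := 8) (y := 18) (R := 6) rfl rfl (by decide +kernel)
def lo18_18_6 (c : ℕ) : Cert := Cert.leaf c lno18_18_6 lno18_18_6_ok
def lno18_18_7 : ℕ := 63316582791856801444880190119487309531884377498155522162117469742015024459484474125635994701050653556825425093104432266088652245034732862923294276884340168873936447302208061440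
theorem lno18_18_7_ok : IsCopyMask lno18_18_7 := isCopyMask_of (x := 8) (y := 18) (R := 7) rfl rfl (by decide +kernel)
def lo18_18_7 (c : ℕ) : Cert := Cert.leaf c lno18_18_7 lno18_18_7_ok
def lno18_19_6 : ℕ := 271942652385501337320925963206608924972769179337454034624259320901416739530640834133193988957760927526035663142980001424120219688950509180820984060880671434044313693465688275248310386688
theorem lno18_19_6_ok : IsCopyMask lno18_19_6 := isCopyMask_of (x := 8) (y := 19) (R := 6) rfl rfl (by decide +kernel)
def lo18_19_6 (c : ℕ) : Cert := Cert.leaf c lno18_19_6 lno18_19_6_ok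
def lno18_19_7 : ℕ := 271942652385501337320925963201460326726472470607896268008097742652224087194125893389364792441441853865991278356181291695497931229141156030351999875802209799852674187945411052472358666240
theorem lno18_19_7_ok : IsCopyMask lno18_19_7 := isCopyMask_of (x := 8) (y := 19) (R := 7) rfl rfl (by decide +kernel)
def lo18_19_7 (c : ℕ) : Cert := Cert.leaf c lno18_19_7 lno18_19_7_ok
def lno18_20_6 : ℕ := 1167984798383224628357641268409684623819761315811124026614445431494754136351052772524228690597368309110949361728771678098629769136377729494173876972019756767741748328200100040322139390082073755648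
theorem lno18_20_6_ok : IsCopyMask lno18_20_6 := isCopyMask_of (x := 8) (y := 20) (R := 6) rfl rfl (by decide +kernel)
def lo18_20_6 (c : ℕ) : Cert := Cert.leaf c lno18_20_6 lno18_20_6_ok
def lno19_5_4 : ℕ := 509258994261478170649432590969744576900347505993058156489163848486938089980943215252996096
theorem lno19_5_4_ok : IsCopyMask lno19_5_4 := isCopyMask_of (x := 9) (y := 5) (R := 4) rfl rfl (by decide +kernel)
def lo19_5_4 (c : ℕ) : Cert := Cert.leaf c lno19_5_4 lno19_5_4_ok
def lno19_5_5 : ℕ := 127314748609833704939840186307683655216524868949383761271675561050688171757240299280138240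
theorem lno19_5_5_ok : IsCopyMask lno19_5_5 := isCopyMask_of (x := 9) (y := 5) (R := 5) rfl rfl (by decide +kernel)
def lo19_5_5 (c : ℕ) : Cert := Cert.leaf c lno19_5_5 lno19_5_5_ok
def lno19_6_4 : ℕ := 2187250725546900415557220059171597883260349589275348785147008907636898179644856372744706598335676416
theorem lno19_6_4_ok : IsCopyMask lno19_6_4 := isCopyMask_of (x := 9) (y := 6) (R := 4) rfl rfl (by decide +kernel)
def lo19_6_4 (c : ℕ) : Cert := Cert.leaf c lno19_6_4 lno19_6_4_ok
def lno19_6_5 : ℕ := 546812681577697226715127247658048292668714110908289134015317905835157095991377936621446083158999040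
theorem lno19_6_5_ok : IsCopyMask lno19_6_5 := isCopyMask_of (x := 9) (y := 6) (R := 5) rfl rfl (by decide +kernel)
def lo19_6_5 (c : ℕ) : Cert := Cert.leaf c lno19_6_5 lno19_6_5_ok
def lno19_7_1 : ℕ := 11116040592663903561127428763714373637452763974593152793426877646619126284681216
theorem lno19_7_1_ok : IsCopyMask lno19_7_1 := isCopyMask_of (x := 9) (y := 7) (R := 1) rfl rfl (by decide +kernel)
def lo19_7_1 (c : ℕ) : Cert := Cert.leaf c lno19_7_1 lno19_7_1_ok
def lno19_7_4 : ℕ := 9394170334376208998987069770817197760666027339464655371199733810521162324456591015555700596967138236758491136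
theorem lno19_7_4_ok : IsCopyMask lno19_7_4 := isCopyMask_of (x := 9) (y := 7) (R := 4) rfl rfl (by decide +kernel)
def lo19_7_4 (c : ℕ) : Cert := Cert.leaf c lno19_7_4 lno19_7_4_ok
def lno19_7_5 : ℕ := 2348542584414271271731369037169810008200763668724818685907951568605207294305300935765071659395197244895395840
theorem lno19_7_5_ok : IsCopyMask lno19_7_5 := isCopyMask_of (x := 9) (y := 7) (R := 5) rfl rfl (by decide +kernel)
def lo19_7_5 (c : ℕ) : Cert := Cert.leaf c lno19_7_5 lno19_7_5_ok
def lno19_8_0 : ℕ := 6111107929892741504147925446081159648021128313310922234140540879886178144470782954184900608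
theorem lno19_8_0_ok : IsCopyMask lno19_8_0 := isCopyMask_of (x := 9) (y := 8) (R := 0) rfl rfl (by decide +kernel)
def lo19_8_0 (c : ℕ) : Cert := Cert.leaf c lno19_8_0 lno19_8_0_ok
def lno19_8_1 : ℕ := 47743030806499923314740243428722946257984182015684566153299483259622592360799808505511936
theorem lno19_8_1_ok : IsCopyMask lno19_8_1 := isCopyMask_of (x := 9) (y := 8) (R := 1) rfl rfl (by decide +kernel)
def lo19_8_1 (c : ℕ) : Cert := Cert.leaf c lno19_8_1 lno19_8_1_ok
def lno19_8_2 : ℕ := 889283245673872205498972226663591413702410703949772762487212799828573998377074688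
theorem lno19_8_2_ok : IsCopyMask lno19_8_2 := isCopyMask_of (x := 9) (y := 8) (R := 2) rfl rfl (by decide +kernel)
def lo19_8_2 (c : ℕ) : Cert := Cert.leaf c lno19_8_2 lno19_8_2_ok
def lno19_8_3 : ℕ := 111160405670411702486674607028628424987493069823684107342443175605782551038263296
theorem lno19_8_3_ok : IsCopyMask lno19_8_3 := isCopyMask_of (x := 9) (y := 8) (R := 3) rfl rfl (by decide +kernel)
def lo19_8_3 (c : ℕ) : Cert := Cert.leaf c lno19_8_3 lno19_8_3_ok
def lno19_8_4 : ℕ := 40347654359199202211110361792530079576425022601242584967213597000093852899448399383459161330341535513588824479425888256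
theorem lno19_8_4_ok : IsCopyMask lno19_8_4 := isCopyMask_of (x := 9) (y := 8) (R := 4) rfl rfl (by decide +kernel)
def lo19_8_4 (c : ℕ) : Cert := Cert.leaf c lno19_8_4 lno19_8_4_ok
def lno19_8_5 : ℕ := 10086913593322614427758559311951342383755771759398074279504348053511265664341914558549179516198823306295028073774448640
theorem lno19_8_5_ok : IsCopyMask lno19_8_5 := isCopyMask_of (x := 9) (y := 8) (R := 5) rfl rfl (by decide +kernel)
def lo19_8_5 (c : ℕ) : Cert := Cert.leaf c lno19_8_5 lno19_8_5_ok
def lno19_8_6 : ℕ := 59285549703309384753663347990080567611800923264480412827226168426143799528390656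
theorem lno19_8_6_ok : IsCopyMask lno19_8_6 := isCopyMask_of (x := 9) (y := 8) (R := 6) rfl rfl (by decide +kernel)
def lo19_8_6 (c : ℕ) : Cert := Cert.leaf c lno19_8_6 lno19_8_6_ok
def lno19_8_7 : ℕ := 59285549703309384753663347988958134354069452965504702135760191368540445348986880
theorem lno19_8_7_ok : IsCopyMask lno19_8_7 := isCopyMask_of (x := 9) (y := 8) (R := 7) rfl rfl (by decide +kernel)
def lo19_8_7 (c : ℕ) : Cert := Cert.leaf c lno19_8_7 lno19_8_7_ok
def lno19_9_0 : ℕ := 26247008701215585548097188137164792050005617222690052475232877746862199332931976015738414448370515968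
theorem lno19_9_0_ok : IsCopyMask lno19_9_0 := isCopyMask_of (x := 9) (y := 9) (R := 0) rfl rfl (by decide +kernel)
def lo19_9_0 (c : ℕ) : Cert := Cert.leaf c lno19_9_0 lno19_9_0_ok
def lno19_9_1 : ℕ := 205054755925837674863317260261443961222807640642676570680369803093778511492374609934236400857645056
theorem lno19_9_1_ok : IsCopyMask lno19_9_1 := isCopyMask_of (x := 9) (y := 9) (R := 1) rfl rfl (by decide +kernel)
def lo19_9_1 (c : ℕ) : Cert := Cert.leaf c lno19_9_1 lno19_9_1_ok
def lno19_9_2 : ℕ := 3819442457050014604301477075132424315758260249824612041514154593456319729345492861109403648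
theorem lno19_9_2_ok : IsCopyMask lno19_9_2 := isCopyMask_of (x := 9) (y := 9) (R := 2) rfl rfl (by decide +kernel)
def lo19_9_2 (c : ℕ) : Cert := Cert.leaf c lno19_9_2 lno19_9_2_ok
def lno19_9_3 : ℕ := 477430306964511217035949312981610821057271943919367727270746911965221045196791700957167616
theorem lno19_9_3_ok : IsCopyMask lno19_9_3 := isCopyMask_of (x := 9) (y := 9) (R := 3) rfl rfl (by decide +kernel)
def lo19_9_3 (c : ℕ) : Cert := Cert.leaf c lno19_9_3 lno19_9_3_ok
def lno19_9_4 : ℕ := 173291855943072410246009891745644628877023004668397751396683631361926807133765651791503661265404747541286564730218414915270475776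
theorem lno19_9_4_ok : IsCopyMask lno19_9_4 := isCopyMask_of (x := 9) (y := 9) (R := 4) rfl rfl (by decide +kernel)
def lo19_9_4 (c : ℕ) : Cert := Cert.leaf c lno19_9_4 lno19_9_4_ok
def lno19_9_5 : ℕ := 43322964000898472944440766828907277481529721357855109675849937979632143995916236390995003229707048334219736504263132189231677440
theorem lno19_9_5_ok : IsCopyMask lno19_9_5 := isCopyMask_of (x := 9) (y := 9) (R := 5) rfl rfl (by decide +kernel)
def lo19_9_5 (c : ℕ) : Cert := Cert.leaf c lno19_9_5 lno19_9_5_ok
def lno19_9_6 : ℕ := 254629497101096310486865095811263370297801789083548931525515291785675410367618091031986176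
theorem lno19_9_6_ok : IsCopyMask lno19_9_6 := isCopyMask_of (x := 9) (y := 9) (R := 6) rfl rfl (by decide +kernel)
def lo19_9_6 (c : ℕ) : Cert := Cert.leaf c lno19_9_6 lno19_9_6_ok
def lno19_9_7 : ℕ := 254629497101096310486865095806442556163902384999452911807311374026582696027173956333076480
theorem lno19_9_7_ok : IsCopyMask lno19_9_7 := isCopyMask_of (x := 9) (y := 9) (R := 7) rfl rfl (by decide +kernel)
def lo19_9_7 (c : ℕ) : Cert := Cert.leaf c lno19_9_7 lno19_9_7_ok
def lno19_10_0 : ℕ := 112730043989548375374567658078681944017414922587748124525649059906739312753575852780252871346645246573205782528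
theorem lno19_10_0_ok : IsCopyMask lno19_10_0 := isCopyMask_of (x := 9) (y := 10) (R := 0) rfl rfl (by decide +kernel)
def lo19_10_0 (c : ℕ) : Cert := Cert.leaf c lno19_10_0 lno19_10_0_ok
def lno19_10_1 : ℕ := 880703470590735014942628902895222223188650985859216292977620773473738327927309103048302052416331867096088576
theorem lno19_10_1_ok : IsCopyMask lno19_10_1 := isCopyMask_of (x := 9) (y := 10) (R := 1) rfl rfl (by decide +kernel)
def lo19_10_1 (c : ℕ) : Cert := Cert.leaf c lno19_10_1 lno19_10_1_ok
def lno19_10_2 : ℕ := 16404380441983697361797224962187497305376905214853498454191088299983068842058463323466358946223095808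
theorem lno19_10_2_ok : IsCopyMask lno19_10_2 := isCopyMask_of (x := 9) (y := 10) (R := 2) rfl rfl (by decide +kernel)
def lo19_10_2 (c : ℕ) : Cert := Cert.leaf c lno19_10_2 lno19_10_2_ok
def lno19_10_3 : ℕ := 2050547554531816709794560355569686725840691142112030449625705324383615478531158239735246807510286336
theorem lno19_10_3_ok : IsCopyMask lno19_10_3 := isCopyMask_of (x := 9) (y := 10) (R := 3) rfl rfl (by decide +kernel)
def lo19_10_3 (c : ℕ) : Cert := Cert.leaf c lno19_10_3 lno19_10_3_ok
def lno19_10_4 : ℕ := 744282853938639239766507799540044031464871010890423666968694519557995576185222971772632035799175366892962205280475154998045304452280221696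
theorem lno19_10_4_ok : IsCopyMask lno19_10_4 := isCopyMask_of (x := 9) (y := 10) (R := 4) rfl rfl (by decide +kernel)
def lo19_10_4 (c : ℕ) : Cert := Cert.leaf c lno19_10_4 lno19_10_4_ok
def lno19_10_5 : ℕ := 186070713549644255912713918539318384199567397283980408764268644626148372572822992854728607771006148256165045963547517331274937972021002240
theorem lno19_10_5_ok : IsCopyMask lno19_10_5 := isCopyMask_of (x := 9) (y := 10) (R := 5) rfl rfl (by decide +kernel)
def lo19_10_5 (c : ℕ) : Cert := Cert.leaf c lno19_10_5 lno19_10_5_ok
def lno19_10_6 : ℕ := 1093625362646135459287347424073282763871796464804132472517831567767373328800299038400331515844100096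
theorem lno19_10_6_ok : IsCopyMask lno19_10_6 := isCopyMask_of (x := 9) (y := 10) (R := 6) rfl rfl (by decide +kernel)
def lo19_10_6 (c : ℕ) : Cert := Cert.leaf c lno19_10_6 lno19_10_6_ok
def lno19_10_7 : ℕ := 1093625362646135459287347424052577524826603959309051234104374605132996514076221269753495564666798080
theorem lno19_10_7_ok : IsCopyMask lno19_10_7 := isCopyMask_of (x := 9) (y := 10) (R := 7) rfl rfl (by decide +kernel)
def lo19_10_7 (c : ℕ) : Cert := Cert.leaf c lno19_10_7 lno19_10_7_ok
def lno19_11_0 : ℕ := 484171852211751638043699841587249144340499946976749885122998225472590158274123994746496757043936813345774905835848204288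
theorem lno19_11_0_ok : IsCopyMask lno19_11_0 := isCopyMask_of (x := 9) (y := 11) (R := 0) rfl rfl (by decide +kernel)
def lo19_11_0 (c : ℕ) : Cert := Cert.leaf c lno19_11_0 lno19_11_0_ok
def lno19_11_1 : ℕ := 3782592603660904689780662454199339163247668822623492438529235681959930433309516062875551223457823145460318923439210496
theorem lno19_11_1_ok : IsCopyMask lno19_11_1 := isCopyMask_of (x := 9) (y := 11) (R := 1) rfl rfl (by decide +kernel)
def lo19_11_1 (c : ℕ) : Cert := Cert.leaf c lno19_11_1 lno19_11_1_ok
def lno19_11_2 : ℕ := 70456277509462005534080560996150137546681932851487629291937278383075518030357689294303481030225219215234695168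
theorem lno19_11_2_ok : IsCopyMask lno19_11_2 := isCopyMask_of (x := 9) (y := 11) (R := 2) rfl rfl (by decide +kernel)
def lo19_11_2 (c : ℕ) : Cert := Cert.leaf c lno19_11_2 lno19_11_2_ok
def lno19_11_3 : ℕ := 8807034685606929360033959605869935936451086561408059149298579809160699838530714756663812736745086996715667456
theorem lno19_11_3_ok : IsCopyMask lno19_11_3 := isCopyMask_of (x := 9) (y := 11) (R := 3) rfl rfl (by decide +kernel)
def lo19_11_3 (c : ℕ) : Cert := Cert.leaf c lno19_11_3 lno19_11_3_ok
def lno19_11_4 : ℕ := 3196670516640000325539453675153412957541615964632829489214938417316023375028209102231385741599359424574073804243679298057135526548906744811949654016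
theorem lno19_11_4_ok : IsCopyMask lno19_11_4 := isCopyMask_of (x := 9) (y := 11) (R := 4) rfl rfl (by decide +kernel)
def lo19_11_4 (c : ℕ) : Cert := Cert.leaf c lno19_11_4 lno19_11_4_ok
def lno19_11_5 : ℕ := 799167629439106151579360910730380550268705108682535080347245602027553406643898132707901049332082863775156302791773395079819056574258767645942743040
theorem lno19_11_5_ok : IsCopyMask lno19_11_5 := isCopyMask_of (x := 9) (y := 11) (R := 5) rfl rfl (by decide +kernel)
def lo19_11_5 (c : ℕ) : Cert := Cert.leaf c lno19_11_5 lno19_11_5_ok
def lno19_11_6 : ℕ := 4697085166641291818425096652984592578189856153102164015115705360397276183019939284949672016108515746870460416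
theorem lno19_11_6_ok : IsCopyMask lno19_11_6 := isCopyMask_of (x := 9) (y := 11) (R := 6) rfl rfl (by decide +kernel)
def lo19_11_6 (c : ℕ) : Cert := Cert.leaf c lno19_11_6 lno19_11_6_ok
def lno19_11_7 : ℕ := 4697085166641291818425096652895664253634892075976489807266728779579133758439374004850857431924950890635591680
theorem lno19_11_7_ok : IsCopyMask lno19_11_7 := isCopyMask_of (x := 9) (y := 11) (R := 7) rfl rfl (by decide +kernel)
def lo19_11_7 (c : ℕ) : Cert := Cert.leaf c lno19_11_7 lno19_11_7_ok
def lno19_12_0 : ℕ := 2079502270893218552272120238457615805546430760554874828975034315870808874198826360485079382073766248410559560342447581837286965248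
theorem lno19_12_0_ok : IsCopyMask lno19_12_0 := isCopyMask_of (x := 9) (y := 12) (R := 0) rfl rfl (by decide +kernel)
def lo19_12_0 (c : ℕ) : Cert := Cert.leaf c lno19_12_0 lno19_12_0_ok
def lno19_12_1 : ℕ := 16246111526815075516380970654001259570960742741406724944786357593894158393499480535637172222724138445103920641901336924379938816
theorem lno19_12_1_ok : IsCopyMask lno19_12_1 := isCopyMask_of (x := 9) (y := 12) (R := 1) rfl rfl (by decide +kernel)
def lo19_12_1 (c : ℕ) : Cert := Cert.leaf c lno19_12_1 lno19_12_1_ok
def lno19_12_2 : ℕ := 302607407701039644323447022907798022668900574911207392757442247138557109838644610701162770123773704043863800711089225728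
theorem lno19_12_2_ok : IsCopyMask lno19_12_2 := isCopyMask_of (x := 9) (y := 12) (R := 2) rfl rfl (by decide +kernel)
def lo19_12_2 (c : ℕ) : Cert := Cert.leaf c lno19_12_2 lno19_12_2_ok
def lno19_12_3 : ℕ := 37825925949419403512328065956596424476672551084912709757070981619591127014961900571375673770988406139568651134331518976
theorem lno19_12_3_ok : IsCopyMask lno19_12_3 := isCopyMask_of (x := 9) (y := 12) (R := 3) rfl rfl (by decide +kernel)
def lo19_12_3 (c : ℕ) : Cert := Cert.leaf c lno19_12_3 lno19_12_3_ok
def lno19_12_4 : ℕ := 13729595325056225203621307092490916435423877127089495304122545217026320492517701171533322384929955463095025718716908599867633425967294213521141433997235060736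
theorem lno19_12_4_ok : IsCopyMask lno19_12_4 := isCopyMask_of (x := 9) (y := 12) (R := 4) rfl rfl (by decide +kernel)
def lo19_12_4 (c : ℕ) : Cert := Cert.leaf c lno19_12_4 lno19_12_4_ok
def lno19_12_5 : ℕ := 3432398832462807744505773860167759937038572454059613816464152184388173172428931597935902927685378543476319417778940229710710157584015202480586988445331619840
theorem lno19_12_5_ok : IsCopyMask lno19_12_5 := isCopyMask_of (x := 9) (y := 12) (R := 5) rfl rfl (by decide +kernel)
def lo19_12_5 (c : ℕ) : Cert := Cert.leaf c lno19_12_5 lno19_12_5_ok
def lno19_12_6 : ℕ := 20173827177251058523328160350207885915209755056518163391750004178878194773550349744764466315112460319909641835182555136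
theorem lno19_12_6_ok : IsCopyMask lno19_12_6 := isCopyMask_of (x := 9) (y := 12) (R := 6) rfl rfl (by decide +kernel)
def lo19_12_6 (c : ℕ) : Cert := Cert.leaf c lno19_12_6 lno19_12_6_ok
def lno19_12_7 : ℕ := 20173827177251058523328160349825941669558110590808570987087943257194372136506675349546978027676210401685938919209697280
theorem lno19_12_7_ok : IsCopyMask lno19_12_7 := isCopyMask_of (x := 9) (y := 12) (R := 7) rfl rfl (by decide +kernel)
def lo19_12_7 (c : ℕ) : Cert := Cert.leaf c lno19_12_7 lno19_12_7_ok
def lno19_13_0 : ℕ := 8931394245444106390189222916755181366954615526111594203821365587142857875750537419866122641970714696471965292730950924585431109107248529408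
theorem lno19_13_0_ok : IsCopyMask lno19_13_0 := isCopyMask_of (x := 9) (y := 13) (R := 0) rfl rfl (by decide +kernel)
def lo19_13_0 (c : ℕ) : Cert := Cert.leaf c lno19_13_0 lno19_13_0_ok
def lno19_13_2 : ℕ := 1299688919603303817568677009377555330736394605519233855766641712068852367385258439928145726854373930973177973532389769039721791488
theorem lno19_13_2_ok : IsCopyMask lno19_13_2 := isCopyMask_of (x := 9) (y := 13) (R := 2) rfl rfl (by decide +kernel)
def lo19_13_2 (c : ℕ) : Cert := Cert.leaf c lno19_13_2 lno19_13_2_ok
def lno19_13_4 : ℕ := 58968162908430976610764454731021333267214448158371817996351905683409268886578139232836505817498881964729670402168017518652635493445965812683343463608667140285693689856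
theorem lno19_13_4_ok : IsCopyMask lno19_13_4 := isCopyMask_of (x := 9) (y := 13) (R := 4) rfl rfl (by decide +kernel)
def lo19_13_4 (c : ℕ) : Cert := Cert.leaf c lno19_13_4 lno19_13_4_ok
def lno19_13_5 : ℕ := 14742040732256342398987822412592206003159687780712503776103279988314165544766830097355724178639353821610906049810309244146227667758351667020939190255829191087504752640
theorem lno19_13_5_ok : IsCopyMask lno19_13_5 := isCopyMask_of (x := 9) (y := 13) (R := 5) rfl rfl (by decide +kernel)
def lo19_13_5 (c : ℕ) : Cert := Cert.leaf c lno19_13_5 lno19_13_5_ok
def lno19_13_6 : ℕ := 86645927961449291539076501779986776807124926947916143397550704156145180519916877963125330046301647636109609357182496498836832256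
theorem lno19_13_6_ok : IsCopyMask lno19_13_6 := isCopyMask_of (x := 9) (y := 13) (R := 6) rfl rfl (by decide +kernel)
def lo19_13_6 (c : ℕ) : Cert := Cert.leaf c lno19_13_6 lno19_13_6_ok
def lno19_13_7 : ℕ := 86645927961449291539076501778346338763155723759074050586037154565553545041549818311993639044499906552456130921059235983660154880
theorem lno19_13_7_ok : IsCopyMask lno19_13_7 := isCopyMask_of (x := 9) (y := 13) (R := 7) rfl rfl (by decide +kernel)
def lo19_13_7 (c : ℕ) : Cert := Cert.leaf c lno19_13_7 lno19_13_7_ok
def lno19_14_0 : ℕ := 38360046191865033941807327679117234409618648800903131151835923422838412656324589672749217445589336611093657513126500748075388971676640190351454240768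
theorem lno19_14_0_ok : IsCopyMask lno19_14_0 := isCopyMask_of (x := 9) (y := 14) (R := 0) rfl rfl (by decide +kernel)
def lo19_14_0 (c : ℕ) : Cert := Cert.leaf c lno19_14_0 lno19_14_0_ok
def lno19_14_2 : ℕ := 5582121404669763190009417989263685461943278427655930509493707161085169418171862031999366486761684988084760849509167654750598419379491176448
theorem lno19_14_2_ok : IsCopyMask lno19_14_2 := isCopyMask_of (x := 9) (y := 14) (R := 2) rfl rfl (by decide +kernel)
def lo19_14_2 (c : ℕ) : Cert := Cert.leaf c lno19_14_2 lno19_14_2_ok
def lno19_14_4 : ℕ := 253266331196911287216574254629009103061002883858894386902395682217519339651123441353567321801071442555078159858170802739768139428559245508609022180134591509676898494605086949376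
theorem lno19_14_4_ok : IsCopyMask lno19_14_4 := isCopyMask_of (x := 9) (y := 14) (R := 4) rfl rfl (by decide +kernel)
def lo19_14_4 (c : ℕ) : Cert := Cert.leaf c lno19_14_4 lno19_14_4_ok
def lno19_14_5 : ℕ := 63316582821340882892230880764339343368065731683731023296640093868140603188303559213731331425652486442391459520863825207254527274792474040722015569353508249082967586833369661440
theorem lno19_14_5_ok : IsCopyMask lno19_14_5 := isCopyMask_of (x := 9) (y := 14) (R := 5) rfl rfl (by decide +kernel)
def lo19_14_5 (c : ℕ) : Cert := Cert.leaf c lno19_14_5 lno19_14_5_ok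
def lno19_14_6 : ℕ := 372141426925996655922703081187128993699052861027688931242926600852414827761059267490046386498071742348006480860434405166138696579757899776
theorem lno19_14_6_ok : IsCopyMask lno19_14_6 := isCopyMask_of (x := 9) (y := 14) (R := 6) rfl rfl (by decide +kernel)
def lo19_14_6 (c : ℕ) : Cert := Cert.leaf c lno19_14_6 lno19_14_6_ok
def lno19_14_7 : ℕ := 372141426925996655922703081180083365949090923300433230509279213099949564090319430804754604256155787317855190780643776228566755587894804480
theorem lno19_14_7_ok : IsCopyMask lno19_14_7 := isCopyMask_of (x := 9) (y := 14) (R := 7) rfl rfl (by decide +kernel)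
def lo19_14_7 (c : ℕ) : Cert := Cert.leaf c lno19_14_7 lno19_14_7_ok
def lno19_15_0 : ℕ := 164755143867109662025992439514964103939277964431588563561134101459051361851466600205077231338398860190982729811903011423903330575830239904718710710139069923328
theorem lno19_15_0_ok : IsCopyMask lno19_15_0 := isCopyMask_of (x := 9) (y := 15) (R := 0) rfl rfl (by decide +kernel)
def lo19_15_0 (c : ℕ) : Cert := Cert.leaf c lno19_15_0 lno19_15_0_ok
def lno19_15_1 : ℕ := 1287149564271367929862458941954094568839458772295523981219834203422080028127417379039954927939516587999195350699336514758510730729576927366974384198622642176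
theorem lno19_15_1_ok : IsCopyMask lno19_15_1 := isCopyMask_of (x := 9) (y := 15) (R := 1) rfl rfl (by decide +kernel)
def lo19_15_1 (c : ℕ) : Cert := Cert.leaf c lno19_15_1 lno19_15_1_ok
def lno19_15_2 : ℕ := 23975028875358214581155084195881608179477033453804523478724089774661806521667495534861384553359853969678197524623052729334839247664207215964725444608
theorem lno19_15_2_ok : IsCopyMask lno19_15_2 := isCopyMask_of (x := 9) (y := 15) (R := 2) rfl rfl (by decide +kernel)
def lo19_15_2 (c : ℕ) : Cert := Cert.leaf c lno19_15_2 lno19_15_2_ok
def lno19_15_3 : ℕ := 2996878608373129059658711602094174739075902652256321875450773215027379928388316366974380059580266633181955156170383560053831609733736075650385575936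
theorem lno19_15_3_ok : IsCopyMask lno19_15_3 := isCopyMask_of (x := 9) (y := 15) (R := 3) rfl rfl (by decide +kernel)
def lo19_15_3 (c : ℕ) : Cert := Cert.leaf c lno19_15_3 lno19_15_3_ok
def lno19_15_4 : ℕ := 1087770609668638514808449292787170710533300879135637670463760199175854322049091230272545620069909663533603375314703596149371357468430087857910636714216691412381546561040480882806327607296
theorem lno19_15_4_ok : IsCopyMask lno19_15_4 := isCopyMask_of (x := 9) (y := 15) (R := 4) rfl rfl (by decide +kernel)
def lo19_15_4 (c : ℕ) : Cert := Cert.leaf c lno19_15_4 lno19_15_4_ok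
def lno19_15_5 : ℕ := 271942652512134502889897525364112962811956808359935760319683309846034027023477116543375542603714484731154706671817958934618616593173681191830029097576137792677567776077362897363392266240
theorem lno19_15_5_ok : IsCopyMask lno19_15_5 := isCopyMask_of (x := 9) (y := 15) (R := 5) rfl rfl (by decide +kernel)
def lo19_15_5 (c : ℕ) : Cert := Cert.leaf c lno19_15_5 lno19_15_5_ok
def lno19_15_6 : ℕ := 1598335258133929449393374437617151884070822104289156910149562381989567407859222456187465235532194100446426086091615710541779148410127235135565725696
theorem lno19_15_6_ok : IsCopyMask lno19_15_6 := isCopyMask_of (x := 9) (y := 15) (R := 6) rfl rfl (by decide +kernel)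
def lo19_15_6 (c : ℕ) : Cert := Cert.leaf c lno19_15_6 lno19_15_6_ok
def lno19_15_7 : ℕ := 1598335258133929449393374437586891143304945516505805107668983644796898157017377945499755986585611513211319601266705728727636436202833438729914286080
theorem lno19_15_7_ok : IsCopyMask lno19_15_7 := isCopyMask_of (x := 9) (y := 15) (R := 7) rfl rfl (by decide +kernel)
def lo19_15_7 (c : ℕ) : Cert := Cert.leaf c lno19_15_7 lno19_15_7_ok
def lno19_16_0 : ℕ := 707617954757010968447250629660028929033143627087124109822688262436971482336311057517113601752649413523947138642927665589579197488667728438601018579332240932550987481088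
theorem lno19_16_0_ok : IsCopyMask lno19_16_0 := isCopyMask_of (x := 9) (y := 16) (R := 0) rfl rfl (by decide +kernel)
def lo19_16_0 (c : ℕ) : Cert := Cert.leaf c lno19_16_0 lno19_16_0_ok
def lno19_16_1 : ℕ := 5528265283606175327942482933835598506456696101349586346522906090240045005102017763918642292814260411506050105568901059786424926148595122957322370602823416391030276096
theorem lno19_16_1_ok : IsCopyMask lno19_16_1 := isCopyMask_of (x := 9) (y := 16) (R := 1) rfl rfl (by decide +kernel)
def lo19_16_1 (c : ℕ) : Cert := Cert.leaf c lno19_16_1 lno19_16_1_ok
def lno19_16_2 : ℕ := 102971964940319191911011424525437965018739957067188355117984117389540468470841408708455674549960139719103634012484166200176674402135014382335704874210419539968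
theorem lno19_16_2_ok : IsCopyMask lno19_16_2 := isCopyMask_of (x := 9) (y := 16) (R := 2) rfl rfl (by decide +kernel)
def lo19_16_2 (c : ℕ) : Cert := Cert.leaf c lno19_16_2 lno19_16_2_ok
def lno19_16_3 : ℕ := 12871495613044581076421399252490245616440335153120563064310456216455372536994640784656496825771776676476525813090369994207258763297431712813787978435244589056
theorem lno19_16_3_ok : IsCopyMask lno19_16_3 := isCopyMask_of (x := 9) (y := 16) (R := 3) rfl rfl (by decide +kernel)
def lo19_16_3 (c : ℕ) : Cert := Cert.leaf c lno19_16_3 lno19_16_3_ok
def lno19_16_4 : ℕ := 4671939194076783817948301416995226890109609994815612542747475208646740466061098540540988604868303238551190294011865653395141511286032579812132879578097587873502791953570133123766385775198250991616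
theorem lno19_16_4_ok : IsCopyMask lno19_16_4 := isCopyMask_of (x := 9) (y := 16) (R := 4) rfl rfl (by decide +kernel)
def lo19_16_4 (c : ℕ) : Cert := Cert.leaf c lno19_16_4 lno19_16_4_ok
def lno19_16_5 : ℕ := 1167984798927109933065327360230195667327018689670463487233934320865750941369014439758178520929208400041800817471931138489657960500443897566840277364817904689539781871075724810099574411120124887040
theorem lno19_16_5_ok : IsCopyMask lno19_16_5 := isCopyMask_of (x := 9) (y := 16) (R := 5) rfl rfl (by decide +kernel)
def lo19_16_5 (c : ℕ) : Cert := Cert.leaf c lno19_16_5 lno19_16_5_ok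
def lno19_16_6 : ℕ := 6864797661728944973115830248648059510748964285755830256504780899357051429942853821313956031747710816541539039844769936576743884076226870106156918322826838016
theorem lno19_16_6_ok : IsCopyMask lno19_16_6 := isCopyMask_of (x := 9) (y := 16) (R := 6) rfl rfl (by decide +kernel)
def lo19_16_6 (c : ℕ) : Cert := Cert.leaf c lno19_16_6 lno19_16_6_ok
def lno19_16_7 : ℕ := 6864797661728944973115830248518090618806790348454261131588043547961558146632311179593122338365416153403689624444261278541046184869160041880201635596788039680
theorem lno19_16_7_ok : IsCopyMask lno19_16_7 := isCopyMask_of (x := 9) (y := 16) (R := 7) rfl rfl (by decide +kernel)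
def lo19_16_7 (c : ℕ) : Cert := Cert.leaf c lno19_16_7 lno19_16_7_ok
def lno19_17_0 : ℕ := 3039195973743769736194229355505231848611256778410017794381558445969857777919097665319177879844397512438933073304152145400867211615753224254400518790520356323699033083778378498048
theorem lno19_17_0_ok : IsCopyMask lno19_17_0 := isCopyMask_of (x := 9) (y := 17) (R := 0) rfl rfl (by decide +kernel)
def lo19_17_0 (c : ℕ) : Cert := Cert.leaf c lno19_17_0 lno19_17_0_ok
def lno19_17_4 : ℕ := 20065826047460383410949972404744958081120560783047785421307808007708526718732216169456876205418028796588248734653587617277804156265524831883620541794235417813180676405275672208942947248596095925390290190336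
theorem lno19_17_4_ok : IsCopyMask lno19_17_4 := isCopyMask_of (x := 9) (y := 17) (R := 4) rfl rfl (by decide +kernel)
def lo19_17_4 (c : ℕ) : Cert := Cert.leaf c lno19_17_4 lno19_17_4_ok
def lno19_17_5 : ℕ := 5016456513617073050312330043722701422850441009315413694831861409530370699661130486513138895920601609348019543988009637777127774575466333532352965337461961636818396427243926398873482599279395117272494243840
theorem lno19_17_5_ok : IsCopyMask lno19_17_5 := isCopyMask_of (x := 9) (y := 17) (R := 5) rfl rfl (by decide +kernel)
def lo19_17_5 (c : ℕ) : Cert := Cert.leaf c lno19_17_5 lno19_17_5_ok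
def lno19_17_6 : ℕ := 29484081450783089476116090137830963812528562073193289593015325230384003318594592311452068904738355679911366001640527794241109176275409578182384012440684439549809524736
theorem lno19_17_6_ok : IsCopyMask lno19_17_6 := isCopyMask_of (x := 9) (y := 17) (R := 6) rfl rfl (by decide +kernel)
def lo19_17_6 (c : ℕ) : Cert := Cert.leaf c lno19_17_6 lno19_17_6_ok
def lno19_17_7 : ℕ := 29484081450783089476116090137272751672139567089339495712014599583118699704988149053247643029806508476298966022722624366212939957638612418865456374773914073069550305280
theorem lno19_17_7_ok : IsCopyMask lno19_17_7 := isCopyMask_of (x := 9) (y := 17) (R := 7) rfl rfl (by decide +kernel)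
def lo19_17_7 (c : ℕ) : Cert := Cert.leaf c lno19_17_7 lno19_17_7_ok
def lno19_18_0 : ℕ := 13053247313364365700708762585818128346682970880729345305646846070953122157933755406375822395538304884748970746974104125504961483928371416579204212290718405232554136841650163761025759838208
theorem lno19_18_0_ok : IsCopyMask lno19_18_0 := isCopyMask_of (x := 9) (y := 18) (R := 0) rfl rfl (by decide +kernel)
def lo19_18_0 (c : ℕ) : Cert := Cert.leaf c lno19_18_0 lno19_18_0_ok
def lno19_18_1 : ℕ := 101978494858256468362581288356156396626143181037316224391456640851978017342464966708189792918427767867220074451373092763922036998606630222901108997492029080471033045200337999316842971136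
theorem lno19_18_1_ok : IsCopyMask lno19_18_1 := isCopyMask_of (x := 9) (y := 18) (R := 1) rfl rfl (by decide +kernel)
def lo19_18_1 (c : ℕ) : Cert := Cert.leaf c lno19_18_1 lno19_18_1_ok
def lno19_18_2 : ℕ := 1899497484021060776238698364976181903405109178144229659368086851113989370114219270316557869916495346490921135465829270444486704382182833910661653089787808451743170518286270988288
theorem lno19_18_2_ok : IsCopyMask lno19_18_2 := isCopyMask_of (x := 9) (y := 18) (R := 2) rfl rfl (by decide +kernel)
def lo19_18_2 (c : ℕ) : Cert := Cert.leaf c lno19_18_2 lno19_18_2_ok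
def lno19_18_3 : ℕ := 237437185419708617968817099894058892151970629645342450136469929007935544549896018502632869313841360385098225654241316580763780908861879478897835704355671104654189614607940714496
theorem lno19_18_3_ok : IsCopyMask lno19_18_3 := isCopyMask_of (x := 9) (y := 18) (R := 3) rfl rfl (by decide +kernel)
def lo19_18_3 (c : ℕ) : Cert := Cert.leaf c lno19_18_3 lno19_18_3_ok
def lno19_18_4 : ℕ := 86182066641067290605651059770482070179303723596370389589742616942555038157297059029419677384591011690132764693250540705278733397853302645216048305080042280832506842899817854001826037162573413912830152403442735251456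
theorem lno19_18_4_ok : IsCopyMask lno19_18_4 := isCopyMask_of (x := 9) (y := 18) (R := 4) rfl rfl (by decide +kernel)
def lo19_18_4 (c : ℕ) : Cert := Cert.leaf c lno19_18_4 lno19_18_4_ok
def lno19_18_5 : ℕ := 21545516667791507418334420123347252703915311234186933168013368972737404873801193721962500632284531724794711823797334810385569928614888186470484144053020728874141642146175907297792659005530075195347447497641049456640
theorem lno19_18_5_ok : IsCopyMask lno19_18_5 := isCopyMask_of (x := 9) (y := 18) (R := 5) rfl rfl (by decide +kernel)
def lo19_18_5 (c : ℕ) : Cert := Cert.leaf c lno19_18_5 lno19_18_5_ok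
def lno19_18_6 : ℕ := 126633165583713602889760380241372121950969649170271137088657971891302959774919242660139682217389777082035161155732349224444581050868383227298494456745996807722520871770423033856
theorem lno19_18_6_ok : IsCopyMask lno19_18_6 := isCopyMask_of (x := 9) (y := 18) (R := 6) rfl rfl (by decide +kernel)
def lo19_18_6 (c : ℕ) : Cert := Cert.leaf c lno19_18_6 lno19_18_6_ok
def lno19_18_7 : ℕ := 126633165583713602889760380238974619063768754996311044324234939484030048918968948251271989402101307113650850186208864532177304490069465725846588553768680337747872894604416122880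
theorem lno19_18_7_ok : IsCopyMask lno19_18_7 := isCopyMask_of (x := 9) (y := 18) (R := 7) rfl rfl (by decide +kernel)
def lo19_18_7 (c : ℕ) : Cert := Cert.leaf c lno19_18_7 lno19_18_7_ok
def lno19_19_6 : ℕ := 543885304771002674641851926413217849945538358674908069248518641802833479061281668266387977915521855052071326285960002848240439377901018361641968121761342868088627386931376550496620773376
theorem lno19_19_6_ok : IsCopyMask lno19_19_6 := isCopyMask_of (x := 9) (y := 19) (R := 6) rfl rfl (by decide +kernel)
def lo19_19_6 (c : ℕ) : Cert := Cert.leaf c lno19_19_6 lno19_19_6_ok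
def lno19_19_7 : ℕ := 543885304771002674641851926402920653452944941215792536016195485304448174388251786778729584882883707731982556712362583390995862458282312060703999751604419599705348375890822104944717332480
theorem lno19_19_7_ok : IsCopyMask lno19_19_7 := isCopyMask_of (x := 9) (y := 19) (R := 7) rfl rfl (by decide +kernel)
def lo19_19_7 (c : ℕ) : Cert := Cert.leaf c lno19_19_7 lno19_19_7_ok
def lno19_20_6 : ℕ := 2335969596766449256715282536819369247639522631622248053228890862989508272702105545048457381194736618221898723457543356197259538272755458988347753944039513535483496656400200080644278780164147511296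
theorem lno19_20_6_ok : IsCopyMask lno19_20_6 := isCopyMask_of (x := 9) (y := 20) (R := 6) rfl rfl (by decide +kernel)
def lo19_20_6 (c : ℕ) : Cert := Cert.leaf c lno19_20_6 lno19_20_6_ok
def lno19_20_7 : ℕ := 2335969596766449256715282536775143125463347997410471420910461735725453512324446230828208755499641514880087414322062574558400010129636694635990045669533105709795882510737795807291440830965958574080
theorem lno19_20_7_ok : IsCopyMask lno19_20_7 := isCopyMask_of (x := 9) (y := 20) (R := 7) rfl rfl (by decide +kernel)
def lo19_20_7 (c : ℕ) : Cert := Cert.leaf c lno19_20_7 lno19_20_7_ok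
def lno19_21_6 : ℕ := 10032913022562206907635646879039106777959874899869410814617753458893154822376992866323379187481199182596692688274296759369308641705545024160422848264704724766650953686964208434223739970311787072736110575616
theorem lno19_21_6_ok : IsCopyMask lno19_21_6 := isCopyMask_of (x := 9) (y := 21) (R := 6) rfl rfl (by decide +kernel)
def lo19_21_6 (c : ℕ) : Cert := Cert.leaf c lno19_21_6 lno19_21_6_ok
def lno19_21_7 : ℕ := 10032913022562206907635646878849157029584304495545067440753083699200217670201829502717623599131820446133872806134460768993889685592858323823115870732191112612884182219077201823442656709717856164964393287680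
theorem lno19_21_7_ok : IsCopyMask lno19_21_7 := isCopyMask_of (x := 9) (y := 21) (R := 7) rfl rfl (by decide +kernel)
def lo19_21_7 (c : ℕ) : Cert := Cert.leaf c lno19_21_7 lno19_21_7_ok
def lno110_5_4 : ℕ := 1018517988522956341298865181939489153800695011986116312978327696973876179961886430505992192
theorem lno110_5_4_ok : IsCopyMask lno110_5_4 := isCopyMask_of (x := 10) (y := 5) (R := 4) rfl rfl (by decide +kernel)
def lo110_5_4 (c : ℕ) : Cert := Cert.leaf c lno110_5_4 lno110_5_4_ok
def lno110_5_5 : ℕ := 254629497219667409879680372615367310433049737898767522543351122101376343514480598560276480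
theorem lno110_5_5_ok : IsCopyMask lno110_5_5 := isCopyMask_of (x := 10) (y := 5) (R := 5) rfl rfl (by decide +kernel)
def lo110_5_5 (c : ℕ) : Cert := Cert.leaf c lno110_5_5 lno110_5_5_ok
def lno110_6_4 : ℕ := 4374501451093800831114440118343195766520699178550697570294017815273796359289712745489413196671352832
theorem lno110_6_4_ok : IsCopyMask lno110_6_4 := isCopyMask_of (x := 10) (y := 6) (R := 4) rfl rfl (by decide +kernel)
def lo110_6_4 (c : ℕ) : Cert := Cert.leaf c lno110_6_4 lno110_6_4_ok
def lno110_6_5 : ℕ := 1093625363155394453430254495316096585337428221816578268030635811670314191982755873242892166317998080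
theorem lno110_6_5_ok : IsCopyMask lno110_6_5 := isCopyMask_of (x := 10) (y := 6) (R := 5) rfl rfl (by decide +kernel)
def lo110_6_5 (c : ℕ) : Cert := Cert.leaf c lno110_6_5 lno110_6_5_ok
def lno110_7_1 : ℕ := 22232081185327807122254857527428747274905527949186305586853755293238252569362432
theorem lno110_7_1_ok : IsCopyMask lno110_7_1 := isCopyMask_of (x := 10) (y := 7) (R := 1) rfl rfl (by decide +kernel)
def lo110_7_1 (c : ℕ) : Cert := Cert.leaf c lno110_7_1 lno110_7_1_ok
def lno110_7_2 : ℕ := 414104780961699879494948418188649888011818148172354680712899565616889856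
theorem lno110_7_2_ok : IsCopyMask lno110_7_2 := isCopyMask_of (x := 10) (y := 7) (R := 2) rfl rfl (by decide +kernel)
def lo110_7_2 (c : ℕ) : Cert := Cert.leaf c lno110_7_2 lno110_7_2_ok
def lno110_7_4 : ℕ := 18788340668752417997974139541634395521332054678929310742399467621042324648913182031111401193934276473516982272
theorem lno110_7_4_ok : IsCopyMask lno110_7_4 := isCopyMask_of (x := 10) (y := 7) (R := 4) rfl rfl (by decide +kernel)
def lo110_7_4 (c : ℕ) : Cert := Cert.leaf c lno110_7_4 lno110_7_4_ok
def lno110_7_5 : ℕ := 4697085168828542543462738074339620016401527337449637371815903137210414588610601871530143318790394489790791680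
theorem lno110_7_5_ok : IsCopyMask lno110_7_5 := isCopyMask_of (x := 10) (y := 7) (R := 5) rfl rfl (by decide +kernel)
def lo110_7_5 (c : ℕ) : Cert := Cert.leaf c lno110_7_5 lno110_7_5_ok
def lno110_8_0 : ℕ := 12222215859785483008295850892162319296042256626621844468281081759772356288941565908369801216
theorem lno110_8_0_ok : IsCopyMask lno110_8_0 := isCopyMask_of (x := 10) (y := 8) (R := 0) rfl rfl (by decide +kernel)
def lo110_8_0 (c : ℕ) : Cert := Cert.leaf c lno110_8_0 lno110_8_0_ok
def lno110_8_1 : ℕ := 95486061612999846629480486857445892515968364031369132306598966519245184721599617011023872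
theorem lno110_8_1_ok : IsCopyMask lno110_8_1 := isCopyMask_of (x := 10) (y := 8) (R := 1) rfl rfl (by decide +kernel)
def lo110_8_1 (c : ℕ) : Cert := Cert.leaf c lno110_8_1 lno110_8_1_ok
def lno110_8_2 : ℕ := 1778566491347744410997944453327182827404821407899545524974425599657147996754149376
theorem lno110_8_2_ok : IsCopyMask lno110_8_2 := isCopyMask_of (x := 10) (y := 8) (R := 2) rfl rfl (by decide +kernel)
def lo110_8_2 (c : ℕ) : Cert := Cert.leaf c lno110_8_2 lno110_8_2_ok
def lno110_8_3 : ℕ := 222320811340823404973349214057256849974986139647368214684886351211565102076526592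
theorem lno110_8_3_ok : IsCopyMask lno110_8_3 := isCopyMask_of (x := 10) (y := 8) (R := 3) rfl rfl (by decide +kernel)
def lo110_8_3 (c : ℕ) : Cert := Cert.leaf c lno110_8_3 lno110_8_3_ok
def lno110_8_4 : ℕ := 80695308718398404422220723585060159152850045202485169934427194000187705798896798766918322660683071027177648958851776512
theorem lno110_8_4_ok : IsCopyMask lno110_8_4 := isCopyMask_of (x := 10) (y := 8) (R := 4) rfl rfl (by decide +kernel)
def lo110_8_4 (c : ℕ) : Cert := Cert.leaf c lno110_8_4 lno110_8_4_ok
def lno110_8_5 : ℕ := 20173827186645228855517118623902684767511543518796148559008696107022531328683829117098359032397646612590056147548897280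
theorem lno110_8_5_ok : IsCopyMask lno110_8_5 := isCopyMask_of (x := 10) (y := 8) (R := 5) rfl rfl (by decide +kernel)
def lo110_8_5 (c : ℕ) : Cert := Cert.leaf c lno110_8_5 lno110_8_5_ok
def lno110_9_0 : ℕ := 52494017402431171096194376274329584100011234445380104950465755493724398665863952031476828896741031936
theorem lno110_9_0_ok : IsCopyMask lno110_9_0 := isCopyMask_of (x := 10) (y := 9) (R := 0) rfl rfl (by decide +kernel)
def lo110_9_0 (c : ℕ) : Cert := Cert.leaf c lno110_9_0 lno110_9_0_ok
def lno110_9_1 : ℕ := 410109511851675349726634520522887922445615281285353141360739606187557022984749219868472801715290112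
theorem lno110_9_1_ok : IsCopyMask lno110_9_1 := isCopyMask_of (x := 10) (y := 9) (R := 1) rfl rfl (by decide +kernel)
def lo110_9_1 (c : ℕ) : Cert := Cert.leaf c lno110_9_1 lno110_9_1_ok
def lno110_9_2 : ℕ := 7638884914100029208602954150264848631516520499649224083028309186912639458690985722218807296
theorem lno110_9_2_ok : IsCopyMask lno110_9_2 := isCopyMask_of (x := 10) (y := 9) (R := 2) rfl rfl (by decide +kernel)
def lo110_9_2 (c : ℕ) : Cert := Cert.leaf c lno110_9_2 lno110_9_2_ok
def lno110_9_3 : ℕ := 954860613929022434071898625963221642114543887838735454541493823930442090393583401914335232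
theorem lno110_9_3_ok : IsCopyMask lno110_9_3 := isCopyMask_of (x := 10) (y := 9) (R := 3) rfl rfl (by decide +kernel)
def lo110_9_3 (c : ℕ) : Cert := Cert.leaf c lno110_9_3 lno110_9_3_ok
def lno110_9_4 : ℕ := 346583711886144820492019783491289257754046009336795502793367262723853614267531303583007322530809495082573129460436829830540951552
theorem lno110_9_4_ok : IsCopyMask lno110_9_4 := isCopyMask_of (x := 10) (y := 9) (R := 4) rfl rfl (by decide +kernel)
def lo110_9_4 (c : ℕ) : Cert := Cert.leaf c lno110_9_4 lno110_9_4_ok
def lno110_9_5 : ℕ := 86645928001796945888881533657814554963059442715710219351699875959264287991832472781990006459414096668439473008526264378463354880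
theorem lno110_9_5_ok : IsCopyMask lno110_9_5 := isCopyMask_of (x := 10) (y := 9) (R := 5) rfl rfl (by decide +kernel)
def lo110_9_5 (c : ℕ) : Cert := Cert.leaf c lno110_9_5 lno110_9_5_ok
def lno110_9_6 : ℕ := 509258994202192620973730191622526740595603578167097863051030583571350820735236182063972352
theorem lno110_9_6_ok : IsCopyMask lno110_9_6 := isCopyMask_of (x := 10) (y := 9) (R := 6) rfl rfl (by decide +kernel)
def lo110_9_6 (c : ℕ) : Cert := Cert.leaf c lno110_9_6 lno110_9_6_ok
def lno110_9_7 : ℕ := 509258994202192620973730191612885112327804769998905823614622748053165392054347912666152960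
theorem lno110_9_7_ok : IsCopyMask lno110_9_7 := isCopyMask_of (x := 10) (y := 9) (R := 7) rfl rfl (by decide +kernel)
def lo110_9_7 (c : ℕ) : Cert := Cert.leaf c lno110_9_7 lno110_9_7_ok
def lno110_10_0 : ℕ := 225460087979096750749135316157363888034829845175496249051298119813478625507151705560505742693290493146411565056
theorem lno110_10_0_ok : IsCopyMask lno110_10_0 := isCopyMask_of (x := 10) (y := 10) (R := 0) rfl rfl (by decide +kernel)
def lo110_10_0 (c : ℕ) : Cert := Cert.leaf c lno110_10_0 lno110_10_0_ok
def lno110_10_1 : ℕ := 1761406941181470029885257805790444446377301971718432585955241546947476655854618206096604104832663734192177152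
theorem lno110_10_1_ok : IsCopyMask lno110_10_1 := isCopyMask_of (x := 10) (y := 10) (R := 1) rfl rfl (by decide +kernel)
def lo110_10_1 (c : ℕ) : Cert := Cert.leaf c lno110_10_1 lno110_10_1_ok
def lno110_10_2 : ℕ := 32808760883967394723594449924374994610753810429706996908382176599966137684116926646932717892446191616
theorem lno110_10_2_ok : IsCopyMask lno110_10_2 := isCopyMask_of (x := 10) (y := 10) (R := 2) rfl rfl (by decide +kernel)
def lo110_10_2 (c : ℕ) : Cert := Cert.leaf c lno110_10_2 lno110_10_2_ok
def lno110_10_3 : ℕ := 4101095109063633419589120711139373451681382284224060899251410648767230957062316479470493615020572672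
theorem lno110_10_3_ok : IsCopyMask lno110_10_3 := isCopyMask_of (x := 10) (y := 10) (R := 3) rfl rfl (by decide +kernel)
def lo110_10_3 (c : ℕ) : Cert := Cert.leaf c lno110_10_3 lno110_10_3_ok
def lno110_10_4 : ℕ := 1488565707877278479533015599080088062929742021780847333937389039115991152370445943545264071598350733785924410560950309996090608904560443392
theorem lno110_10_4_ok : IsCopyMask lno110_10_4 := isCopyMask_of (x := 10) (y := 10) (R := 4) rfl rfl (by decide +kernel)
def lo110_10_4 (c : ℕ) : Cert := Cert.leaf c lno110_10_4 lno110_10_4_ok
def lno110_10_5 : ℕ := 372141427099288511825427837078636768399134794567960817528537289252296745145645985709457215542012296512330091927095034662549875944042004480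
theorem lno110_10_5_ok : IsCopyMask lno110_10_5 := isCopyMask_of (x := 10) (y := 10) (R := 5) rfl rfl (by decide +kernel)
def lo110_10_5 (c : ℕ) : Cert := Cert.leaf c lno110_10_5 lno110_10_5_ok
def lno110_10_6 : ℕ := 2187250725292270918574694848146565527743592929608264945035663135534746657600598076800663031688200192
theorem lno110_10_6_ok : IsCopyMask lno110_10_6 := isCopyMask_of (x := 10) (y := 10) (R := 6) rfl rfl (by decide +kernel)
def lo110_10_6 (c : ℕ) : Cert := Cert.leaf c lno110_10_6 lno110_10_6_ok
def lno110_10_7 : ℕ := 2187250725292270918574694848105155049653207918618102468208749210265993028152442539506991129333596160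
theorem lno110_10_7_ok : IsCopyMask lno110_10_7 := isCopyMask_of (x := 10) (y := 10) (R := 7) rfl rfl (by decide +kernel)
def lo110_10_7 (c : ℕ) : Cert := Cert.leaf c lno110_10_7 lno110_10_7_ok
def lno110_11_0 : ℕ := 968343704423503276087399683174498288680999893953499770245996450945180316548247989492993514087873626691549811671696408576
theorem lno110_11_0_ok : IsCopyMask lno110_11_0 := isCopyMask_of (x := 10) (y := 11) (R := 0) rfl rfl (by decide +kernel)
def lo110_11_0 (c : ℕ) : Cert := Cert.leaf c lno110_11_0 lno110_11_0_ok
def lno110_11_1 : ℕ := 7565185207321809379561324908398678326495337645246984877058471363919860866619032125751102446915646290920637846878420992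
theorem lno110_11_1_ok : IsCopyMask lno110_11_1 := isCopyMask_of (x := 10) (y := 11) (R := 1) rfl rfl (by decide +kernel)
def lo110_11_1 (c : ℕ) : Cert := Cert.leaf c lno110_11_1 lno110_11_1_ok
def lno110_11_2 : ℕ := 140912555018924011068161121992300275093363865702975258583874556766151036060715378588606962060450438430469390336
theorem lno110_11_2_ok : IsCopyMask lno110_11_2 := isCopyMask_of (x := 10) (y := 11) (R := 2) rfl rfl (by decide +kernel)
def lo110_11_2 (c : ℕ) : Cert := Cert.leaf c lno110_11_2 lno110_11_2_ok
def lno110_11_3 : ℕ := 17614069371213858720067919211739871872902173122816118298597159618321399677061429513327625473490173993431334912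
theorem lno110_11_3_ok : IsCopyMask lno110_11_3 := isCopyMask_of (x := 10) (y := 11) (R := 3) rfl rfl (by decide +kernel)
def lo110_11_3 (c : ℕ) : Cert := Cert.leaf c lno110_11_3 lno110_11_3_ok
def lno110_11_4 : ℕ := 6393341033280000651078907350306825915083231929265658978429876834632046750056418204462771483198718849148147608487358596114271053097813489623899308032
theorem lno110_11_4_ok : IsCopyMask lno110_11_4 := isCopyMask_of (x := 10) (y := 11) (R := 4) rfl rfl (by decide +kernel)
def lo110_11_4 (c : ℕ) : Cert := Cert.leaf c lno110_11_4 lno110_11_4_ok
def lno110_11_5 : ℕ := 1598335258878212303158721821460761100537410217365070160694491204055106813287796265415802098664165727550312605583546790159638113148517535291885486080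
theorem lno110_11_5_ok : IsCopyMask lno110_11_5 := isCopyMask_of (x := 10) (y := 11) (R := 5) rfl rfl (by decide +kernel)
def lo110_11_5 (c : ℕ) : Cert := Cert.leaf c lno110_11_5 lno110_11_5_ok
def lno110_11_6 : ℕ := 9394170333282583636850193305969185156379712306204328030231410720794552366039878569899344032217031493740920832
theorem lno110_11_6_ok : IsCopyMask lno110_11_6 := isCopyMask_of (x := 10) (y := 11) (R := 6) rfl rfl (by decide +kernel)
def lo110_11_6 (c : ℕ) : Cert := Cert.leaf c lno110_11_6 lno110_11_6_ok
def lno110_11_7 : ℕ := 9394170333282583636850193305791328507269784151952979614533457559158267516878748009701714863849901781271183360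
theorem lno110_11_7_ok : IsCopyMask lno110_11_7 := isCopyMask_of (x := 10) (y := 11) (R := 7) rfl rfl (by decide +kernel)
def lo110_11_7 (c : ℕ) : Cert := Cert.leaf c lno110_11_7 lno110_11_7_ok
def lno110_12_1 : ℕ := 32492223053630151032761941308002519141921485482813449889572715187788316786998961071274344445448276890207841283802673848759877632
theorem lno110_12_1_ok : IsCopyMask lno110_12_1 := isCopyMask_of (x := 10) (y := 12) (R := 1) rfl rfl (by decide +kernel)
def lo110_12_1 (c : ℕ) : Cert := Cert.leaf c lno110_12_1 lno110_12_1_ok
def lno110_12_2 : ℕ := 605214815402079288646894045815596045337801149822414785514884494277114219677289221402325540247547408087727601422178451456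
theorem lno110_12_2_ok : IsCopyMask lno110_12_2 := isCopyMask_of (x := 10) (y := 12) (R := 2) rfl rfl (by decide +kernel)
def lo110_12_2 (c : ℕ) : Cert := Cert.leaf c lno110_12_2 lno110_12_2_ok
def lno110_12_3 : ℕ := 75651851898838807024656131913192848953345102169825419514141963239182254029923801142751347541976812279137302268663037952
theorem lno110_12_3_ok : IsCopyMask lno110_12_3 := isCopyMask_of (x := 10) (y := 12) (R := 3) rfl rfl (by decide +kernel)
def lo110_12_3 (c : ℕ) : Cert := Cert.leaf c lno110_12_3 lno110_12_3_ok
def lno110_12_4 : ℕ := 27459190650112450407242614184981832870847754254178990608245090434052640985035402343066644769859910926190051437433817199735266851934588427042282867994470121472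
theorem lno110_12_4_ok : IsCopyMask lno110_12_4 := isCopyMask_of (x := 10) (y := 12) (R := 4) rfl rfl (by decide +kernel)
def lo110_12_4 (c : ℕ) : Cert := Cert.leaf c lno110_12_4 lno110_12_4_ok
def lno110_12_5 : ℕ := 6864797664925615489011547720335519874077144908119227632928304368776346344857863195871805855370757086952638835557880459421420315168030404961173976890663239680
theorem lno110_12_5_ok : IsCopyMask lno110_12_5 := isCopyMask_of (x := 10) (y := 12) (R := 5) rfl rfl (by decide +kernel)
def lo110_12_5 (c : ℕ) : Cert := Cert.leaf c lno110_12_5 lno110_12_5_ok
def lno110_12_6 : ℕ := 40347654354502117046656320700415771830419510113036326783500008357756389547100699489528932630224920639819283670365110272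
theorem lno110_12_6_ok : IsCopyMask lno110_12_6 := isCopyMask_of (x := 10) (y := 12) (R := 6) rfl rfl (by decide +kernel)
def lo110_12_6 (c : ℕ) : Cert := Cert.leaf c lno110_12_6 lno110_12_6_ok
def lno110_12_7 : ℕ := 40347654354502117046656320699651883339116221181617141974175886514388744273013350699093956055352420803371877838419394560
theorem lno110_12_7_ok : IsCopyMask lno110_12_7 := isCopyMask_of (x := 10) (y := 12) (R := 7) rfl rfl (by decide +kernel)
def lo110_12_7 (c : ℕ) : Cert := Cert.leaf c lno110_12_7 lno110_12_7_ok
def lno110_13_0 : ℕ := 17862788490888212780378445833510362733909231052223188407642731174285715751501074839732245283941429392943930585461901849170862218214497058816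
theorem lno110_13_0_ok : IsCopyMask lno110_13_0 := isCopyMask_of (x := 10) (y := 13) (R := 0) rfl rfl (by decide +kernel)
def lo110_13_0 (c : ℕ) : Cert := Cert.leaf c lno110_13_0 lno110_13_0_ok
def lno110_13_1 : ℕ := 139553035389678752765253162471342282800166762748422537344649623145473319171048335787100434437039605302995260956691138697778124586401923072
theorem lno110_13_1_ok : IsCopyMask lno110_13_1 := isCopyMask_of (x := 10) (y := 13) (R := 1) rfl rfl (by decide +kernel)
def lo110_13_1 (c : ℕ) : Cert := Cert.leaf c lno110_13_1 lno110_13_1_ok
def lno110_13_2 : ℕ := 2599377839206607635137354018755110661472789211038467711533283424137704734770516879856291453708747861946355947064779538079443582976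
theorem lno110_13_2_ok : IsCopyMask lno110_13_2 := isCopyMask_of (x := 10) (y := 13) (R := 2) rfl rfl (by decide +kernel)
def lo110_13_2 (c : ℕ) : Cert := Cert.leaf c lno110_13_2 lno110_13_2_ok
def lno110_13_3 : ℕ := 324922229787348176546553152213025197195685043621178814842719941613522006842086931280124465152720395929225936337574353647846817792
theorem lno110_13_3_ok : IsCopyMask lno110_13_3 := isCopyMask_of (x := 10) (y := 13) (R := 3) rfl rfl (by decide +kernel)
def lo110_13_3 (c : ℕ) : Cert := Cert.leaf c lno110_13_3 lno110_13_3_ok
def lno110_13_4 : ℕ := 117936325816861953221528909462042666534428896316743635992703811366818537773156278465673011634997763929459340804336035037305270986891931625366686927217334280571387379712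
theorem lno110_13_4_ok : IsCopyMask lno110_13_4 := isCopyMask_of (x := 10) (y := 13) (R := 4) rfl rfl (by decide +kernel)
def lo110_13_4 (c : ℕ) : Cert := Cert.leaf c lno110_13_4 lno110_13_4_ok
def lno110_13_5 : ℕ := 29484081464512684797975644825184412006319375561425007552206559976628331089533660194711448357278707643221812099620618488292455335516703334041878380511658382175009505280
theorem lno110_13_5_ok : IsCopyMask lno110_13_5 := isCopyMask_of (x := 10) (y := 13) (R := 5) rfl rfl (by decide +kernel)
def lo110_13_5 (c : ℕ) : Cert := Cert.leaf c lno110_13_5 lno110_13_5_ok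
def lno110_13_6 : ℕ := 173291855922898583078153003559973553614249853895832286795101408312290361039833755926250660092603295272219218714364992997673664512
theorem lno110_13_6_ok : IsCopyMask lno110_13_6 := isCopyMask_of (x := 10) (y := 13) (R := 6) rfl rfl (by decide +kernel)
def lo110_13_6 (c : ℕ) : Cert := Cert.leaf c lno110_13_6 lno110_13_6_ok
def lno110_13_7 : ℕ := 173291855922898583078153003556692677526311447518148101172074309131107090083099636623987278088999813104912261842118471967320309760
theorem lno110_13_7_ok : IsCopyMask lno110_13_7 := isCopyMask_of (x := 10) (y := 13) (R := 7) rfl rfl (by decide +kernel)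
def lo110_13_7 (c : ℕ) : Cert := Cert.leaf c lno110_13_7 lno110_13_7_ok
def lno110_14_0 : ℕ := 76720092383730067883614655358234468819237297601806262303671846845676825312649179345498434891178673222187315026253001496150777943353280380702908481536
theorem lno110_14_0_ok : IsCopyMask lno110_14_0 := isCopyMask_of (x := 10) (y := 14) (R := 0) rfl rfl (by decide +kernel)
def lo110_14_0 (c : ℕ) : Cert := Cert.leaf c lno110_14_0 lno110_14_0_ok
def lno110_14_1 : ℕ := 599375723056200859072831897974989641848699549350665873484608811988532556280222432240822784574477275833112816651974113079957072962809785905747853312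
theorem lno110_14_1_ok : IsCopyMask lno110_14_1 := isCopyMask_of (x := 10) (y := 14) (R := 1) rfl rfl (by decide +kernel)
def lo110_14_1 (c : ℕ) : Cert := Cert.leaf c lno110_14_1 lno110_14_1_ok
def lno110_14_3 : ℕ := 1395530350680057452832680010280653247179418174669296422717521532917106490763051606237133992640425745948196927164859864885840383234310930432
theorem lno110_14_3_ok : IsCopyMask lno110_14_3 := isCopyMask_of (x := 10) (y := 14) (R := 3) rfl rfl (by decide +kernel)
def lo110_14_3 (c : ℕ) : Cert := Cert.leaf c lno110_14_3 lno110_14_3_ok
def lno110_14_4 : ℕ := 506532662393822574433148509258018206122005767717788773804791364435038679302246882707134643602142885110156319716341605479536278857118491017218044360269183019353796989210173898752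
theorem lno110_14_4_ok : IsCopyMask lno110_14_4 := isCopyMask_of (x := 10) (y := 14) (R := 4) rfl rfl (by decide +kernel)
def lo110_14_4 (c : ℕ) : Cert := Cert.leaf c lno110_14_4 lno110_14_4_ok
def lno110_14_5 : ℕ := 126633165642681765784461761528678686736131463367462046593280187736281206376607118427462662851304972884782919041727650414509054549584948081444031138707016498165935173666739322880
theorem lno110_14_5_ok : IsCopyMask lno110_14_5 := isCopyMask_of (x := 10) (y := 14) (R := 5) rfl rfl (by decide +kernel)
def lo110_14_5 (c : ℕ) : Cert := Cert.leaf c lno110_14_5 lno110_14_5_ok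
def lno110_14_6 : ℕ := 744282853851993311845406162374257987398105722055377862485853201704829655522118534980092772996143484696012961720868810332277393159515799552
theorem lno110_14_6_ok : IsCopyMask lno110_14_6 := isCopyMask_of (x := 10) (y := 14) (R := 6) rfl rfl (by decide +kernel)
def lo110_14_6 (c : ℕ) : Cert := Cert.leaf c lno110_14_6 lno110_14_6_ok
def lno110_14_7 : ℕ := 744282853851993311845406162360166731898181846600866461018558426199899128180638861609509208512311574635710381561287552457133511175789608960
theorem lno110_14_7_ok : IsCopyMask lno110_14_7 := isCopyMask_of (x := 10) (y := 14) (R := 7) rfl rfl (by decide +kernel)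
def lo110_14_7 (c : ℕ) : Cert := Cert.leaf c lno110_14_7 lno110_14_7_ok
def lno110_15_0 : ℕ := 329510287734219324051984879029928207878555928863177127122268202918102723702933200410154462676797720381965459623806022847806661151660479809437421420278139846656
theorem lno110_15_0_ok : IsCopyMask lno110_15_0 := isCopyMask_of (x := 10) (y := 15) (R := 0) rfl rfl (by decide +kernel)
def lo110_15_0 (c : ℕ) : Cert := Cert.leaf c lno110_15_0 lno110_15_0_ok
def lno110_15_1 : ℕ := 2574299128542735859724917883908189137678917544591047962439668406844160056254834758079909855879033175998390701398673029517021461459153854733948768397245284352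
theorem lno110_15_1_ok : IsCopyMask lno110_15_1 := isCopyMask_of (x := 10) (y := 15) (R := 1) rfl rfl (by decide +kernel)
def lo110_15_1 (c : ℕ) : Cert := Cert.leaf c lno110_15_1 lno110_15_1_ok
def lno110_15_2 : ℕ := 47950057750716429162310168391763216358954066907609046957448179549323613043334991069722769106719707939356395049246105458669678495328414431929450889216
theorem lno110_15_2_ok : IsCopyMask lno110_15_2 := isCopyMask_of (x := 10) (y := 15) (R := 2) rfl rfl (by decide +kernel)
def lo110_15_2 (c : ℕ) : Cert := Cert.leaf c lno110_15_2 lno110_15_2_ok
def lno110_15_3 : ℕ := 5993757216746258119317423204188349478151805304512643750901546430054759856776632733948760119160533266363910312340767120107663219467472151300771151872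
theorem lno110_15_3_ok : IsCopyMask lno110_15_3 := isCopyMask_of (x := 10) (y := 15) (R := 3) rfl rfl (by decide +kernel)
def lo110_15_3 (c : ℕ) : Cert := Cert.leaf c lno110_15_3 lno110_15_3_ok
def lno110_15_4 : ℕ := 2175541219337277029616898585574341421066601758271275340927520398351708644098182460545091240139819327067206750629407192298742714936860175715821273428433382824763093122080961765612655214592
theorem lno110_15_4_ok : IsCopyMask lno110_15_4 := isCopyMask_of (x := 10) (y := 15) (R := 4) rfl rfl (by decide +kernel)
def lo110_15_4 (c : ℕ) : Cert := Cert.leaf c lno110_15_4 lno110_15_4_ok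
def lno110_15_5 : ℕ := 543885305024269005779795050728225925623913616719871520639366619692068054046954233086751085207428969462309413343635917869237233186347362383660058195152275585355135552154725794726784532480
theorem lno110_15_5_ok : IsCopyMask lno110_15_5 := isCopyMask_of (x := 10) (y := 15) (R := 5) rfl rfl (by decide +kernel)
def lo110_15_5 (c : ℕ) : Cert := Cert.leaf c lno110_15_5 lno110_15_5_ok
def lno110_15_6 : ℕ := 3196670516267858898786748875234303768141644208578313820299124763979134815718444912374930471064388200892852172183231421083558296820254470271131451392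
theorem lno110_15_6_ok : IsCopyMask lno110_15_6 := isCopyMask_of (x := 10) (y := 15) (R := 6) rfl rfl (by decide +kernel)
def lo110_15_6 (c : ℕ) : Cert := Cert.leaf c lno110_15_6 lno110_15_6_ok
def lno110_15_7 : ℕ := 3196670516267858898786748875173782286609891033011610215337967289593796314034755890999511973171223026422639202533411457455272872405666877459828572160
theorem lno110_15_7_ok : IsCopyMask lno110_15_7 := isCopyMask_of (x := 10) (y := 15) (R := 7) rfl rfl (by decide +kernel)
def lo110_15_7 (c : ℕ) : Cert := Cert.leaf c lno110_15_7 lno110_15_7_ok
def lno110_16_0 : ℕ := 1415235909514021936894501259320057858066287254174248219645376524873942964672622115034227203505298827047894277285855331179158394977335456877202037158664481865101974962176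
theorem lno110_16_0_ok : IsCopyMask lno110_16_0 := isCopyMask_of (x := 10) (y := 16) (R := 0) rfl rfl (by decide +kernel)
def lo110_16_0 (c : ℕ) : Cert := Cert.leaf c lno110_16_0 lno110_16_0_ok
def lno110_16_1 : ℕ := 11056530567212350655884965867671197012913392202699172693045812180480090010204035527837284585628520823012100211137802119572849852297190245914644741205646832782060552192
theorem lno110_16_1_ok : IsCopyMask lno110_16_1 := isCopyMask_of (x := 10) (y := 16) (R := 1) rfl rfl (by decide +kernel)
def lo110_16_1 (c : ℕ) : Cert := Cert.leaf c lno110_16_1 lno110_16_1_ok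
def lno110_16_2 : ℕ := 205943929880638383822022849050875930037479914134376710235968234779080936941682817416911349099920279438207268024968332400353348804270028764671409748420839079936
theorem lno110_16_2_ok : IsCopyMask lno110_16_2 := isCopyMask_of (x := 10) (y := 16) (R := 2) rfl rfl (by decide +kernel)
def lo110_16_2 (c : ℕ) : Cert := Cert.leaf c lno110_16_2 lno110_16_2_ok
def lno110_16_3 : ℕ := 25742991226089162152842798504980491232880670306241126128620912432910745073989281569312993651543553352953051626180739988414517526594863425627575956870489178112
theorem lno110_16_3_ok : IsCopyMask lno110_16_3 := isCopyMask_of (x := 10) (y := 16) (R := 3) rfl rfl (by decide +kernel)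
def lo110_16_3 (c : ℕ) : Cert := Cert.leaf c lno110_16_3 lno110_16_3_ok
def lno110_16_4 : ℕ := 9343878388153567635896602833990453780219219989631225085494950417293480932122197081081977209736606477102380588023731306790283022572065159624265759156195175747005583907140266247532771550396501983232
theorem lno110_16_4_ok : IsCopyMask lno110_16_4 := isCopyMask_of (x := 10) (y := 16) (R := 4) rfl rfl (by decide +kernel)
def lo110_16_4 (c : ℕ) : Cert := Cert.leaf c lno110_16_4 lno110_16_4_ok
def lno110_16_5 : ℕ := 2335969597854219866130654720460391334654037379340926974467868641731501882738028879516357041858416800083601634943862276979315921000887795133680554729635809379079563742151449620199148822240249774080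
theorem lno110_16_5_ok : IsCopyMask lno110_16_5 := isCopyMask_of (x := 10) (y := 16) (R := 5) rfl rfl (by decide +kernel)
def lo110_16_5 (c : ℕ) : Cert := Cert.leaf c lno110_16_5 lno110_16_5_ok
def lno110_16_6 : ℕ := 13729595323457889946231660497296119021497928571511660513009561798714102859885707642627912063495421633083078079689539873153487768152453740212313836645653676032
theorem lno110_16_6_ok : IsCopyMask lno110_16_6 := isCopyMask_of (x := 10) (y := 16) (R := 6) rfl rfl (by decide +kernel)
def lo110_16_6 (c : ℕ) : Cert := Cert.leaf c lno110_16_6 lno110_16_6_ok
def lno110_16_7 : ℕ := 13729595323457889946231660497036181237613580696908522263176087095923116293264622359186244676730832306807379248888522557082092369738320083760403271193576079360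
theorem lno110_16_7_ok : IsCopyMask lno110_16_7 := isCopyMask_of (x := 10) (y := 16) (R := 7) rfl rfl (by decide +kernel)
def lo110_16_7 (c : ℕ) : Cert := Cert.leaf c lno110_16_7 lno110_16_7_ok
def lno110_17_1 : ℕ := 47487437193401375954310078339724054851635909191014349642888009944920436172962638879283234904719408539691974619111555052884871605134862578893596770936636757324930767156341112832
theorem lno110_17_1_ok : IsCopyMask lno110_17_1 := isCopyMask_of (x := 10) (y := 17) (R := 1) rfl rfl (by decide +kernel)
def lo110_17_1 (c : ℕ) : Cert := Cert.leaf c lno110_17_1 lno110_17_1_ok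
def lno110_17_3 : ℕ := 110565305417267893426500773008008902963237198835863941412637908481031444179777064594734864921235181570564501757845895635319771668343748654656967010514657527512959025152
theorem lno110_17_3_ok : IsCopyMask lno110_17_3 := isCopyMask_of (x := 10) (y := 17) (R := 3) rfl rfl (by decide +kernel)
def lo110_17_3 (c : ℕ) : Cert := Cert.leaf c lno110_17_3 lno110_17_3_ok
def lno110_17_6 : ℕ := 58968162901566178952232180275661927625057124146386579186030650460768006637189184622904137809476711359822732003281055588482218352550819156364768024881368879099619049472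
theorem lno110_17_6_ok : IsCopyMask lno110_17_6 := isCopyMask_of (x := 10) (y := 17) (R := 6) rfl rfl (by decide +kernel)
def lo110_17_6 (c : ℕ) : Cert := Cert.leaf c lno110_17_6 lno110_17_6_ok
def lno110_17_7 : ℕ := 58968162901566178952232180274545503344279134178678991424029199166237399409976298106495286059613016952597932045445248732425879915277224837730912749547828146139100610560
theorem lno110_17_7_ok : IsCopyMask lno110_17_7 := isCopyMask_of (x := 10) (y := 17) (R := 7) rfl rfl (by decide +kernel)
def lo110_17_7 (c : ℕ) : Cert := Cert.leaf c lno110_17_7 lno110_17_7_ok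
def lno110_18_0 : ℕ := 26106494626728731401417525171636256693365941761458690611293692141906244315867510812751644791076609769497941493948208251009922967856742833158408424581436810465108273683300327522051519676416
theorem lno110_18_0_ok : IsCopyMask lno110_18_0 := isCopyMask_of (x := 10) (y := 18) (R := 0) rfl rfl (by decide +kernel)
def lo110_18_0 (c : ℕ) : Cert := Cert.leaf c lno110_18_0 lno110_18_0_ok
def lno110_18_1 : ℕ := 203956989716512936725162576712312793252286362074632448782913281703956034684929933416379585836855535734440148902746185527844073997213260445802217994984058160942066090400675998633685942272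
theorem lno110_18_1_ok : IsCopyMask lno110_18_1 := isCopyMask_of (x := 10) (y := 18) (R := 1) rfl rfl (by decide +kernel)
def lo110_18_1 (c : ℕ) : Cert := Cert.leaf c lno110_18_1 lno110_18_1_ok
def lno110_18_2 : ℕ := 3798994968042121552477396729952363806810218356288459318736173702227978740228438540633115739832990692981842270931658540888973408764365667821323306179575616903486341036572541976576
theorem lno110_18_2_ok : IsCopyMask lno110_18_2 := isCopyMask_of (x := 10) (y := 18) (R := 2) rfl rfl (by decide +kernel)
def lo110_18_2 (c : ℕ) : Cert := Cert.leaf c lno110_18_2 lno110_18_2_ok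
def lno110_18_3 : ℕ := 474874370839417235937634199788117784303941259290684900272939858015871089099792037005265738627682720770196451308482633161527561817723758957795671408711342209308379229215881428992
theorem lno110_18_3_ok : IsCopyMask lno110_18_3 := isCopyMask_of (x := 10) (y := 18) (R := 3) rfl rfl (by decide +kernel)
def lo110_18_3 (c : ℕ) : Cert := Cert.leaf c lno110_18_3 lno110_18_3_ok
def lno110_18_6 : ℕ := 253266331167427205779520760482744243901939298340542274177315943782605919549838485320279364434779554164070322311464698448889162101736766454596988913491993615445041743540846067712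
theorem lno110_18_6_ok : IsCopyMask lno110_18_6 := isCopyMask_of (x := 10) (y := 18) (R := 6) rfl rfl (by decide +kernel)
def lo110_18_6 (c : ℕ) : Cert := Cert.leaf c lno110_18_6 lno110_18_6_ok
def lno110_18_7 : ℕ := 253266331167427205779520760477949238127537509992622088648469878968060097837937896502543978804202614227301700372417729064354608980138931451693177107537360675495745789208832245760
theorem lno110_18_7_ok : IsCopyMask lno110_18_7 := isCopyMask_of (x := 10) (y := 18) (R := 7) rfl rfl (by decide +kernel)
def lo110_18_7 (c : ℕ) : Cert := Cert.leaf c lno110_18_7 lno110_18_7_ok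
def lno110_19_6 : ℕ := 1087770609542005349283703852826435699891076717349816138497037283605666958122563336532775955831043710104142652571920005696480878755802036723283936243522685736177254773862753100993241546752
theorem lno110_19_6_ok : IsCopyMask lno110_19_6 := isCopyMask_of (x := 10) (y := 19) (R := 6) rfl rfl (by decide +kernel)
def lo110_19_6 (c : ℕ) : Cert := Cert.leaf c lno110_19_6 lno110_19_6_ok
def lno110_19_7 : ℕ := 1087770609542005349283703852805841306905889882431585072032390970608896348776503573557459169765767415463965113424725166781991724916564624121407999503208839199410696751781644209889434664960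
theorem lno110_19_7_ok : IsCopyMask lno110_19_7 := isCopyMask_of (x := 10) (y := 19) (R := 7) rfl rfl (by decide +kernel)
def lo110_19_7 (c : ℕ) : Cert := Cert.leaf c lno110_19_7 lno110_19_7_ok
def lno110_20_7 : ℕ := 4671939193532898513430565073550286250926695994820942841820923471450907024648892461656417510999283029760174828644125149116800020259273389271980091339066211419591765021475591614582881661931917148160
theorem lno110_20_7_ok : IsCopyMask lno110_20_7 := isCopyMask_of (x := 10) (y := 20) (R := 7) rfl rfl (by decide +kernel)
def lo110_20_7 (c : ℕ) : Cert := Cert.leaf c lno110_20_7 lno110_20_7_ok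
def lno110_21_6 : ℕ := 20065826045124413815271293758078213555919749799738821629235506917786309644753985732646758374962398365193385376548593518738617283411090048320845696529409449533301907373928416868447479940623574145472221151232
theorem lno110_21_6_ok : IsCopyMask lno110_21_6 := isCopyMask_of (x := 10) (y := 21) (R := 6) rfl rfl (by decide +kernel)
def lo110_21_6 (c : ℕ) : Cert := Cert.leaf c lno110_21_6 lno110_21_6_ok
def lno111_5_4 : ℕ := 2037035977045912682597730363878978307601390023972232625956655393947752359923772861011984384
theorem lno111_5_4_ok : IsCopyMask lno111_5_4 := isCopyMask_of (x := 11) (y := 5) (R := 4) rfl rfl (by decide +kernel)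
def lo111_5_4 (c : ℕ) : Cert := Cert.leaf c lno111_5_4 lno111_5_4_ok
def lno111_5_5 : ℕ := 509258994439334819759360745230734620866099475797535045086702244202752687028961197120552960
theorem lno111_5_5_ok : IsCopyMask lno111_5_5 := isCopyMask_of (x := 11) (y := 5) (R := 5) rfl rfl (by decide +kernel)
def lo111_5_5 (c : ℕ) : Cert := Cert.leaf c lno111_5_5 lno111_5_5_ok
def lno111_6_4 : ℕ := 8749002902187601662228880236686391533041398357101395140588035630547592718579425490978826393342705664
theorem lno111_6_4_ok : IsCopyMask lno111_6_4 := isCopyMask_of (x := 11) (y := 6) (R := 4) rfl rfl (by decide +kernel)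
def lo111_6_4 (c : ℕ) : Cert := Cert.leaf c lno111_6_4 lno111_6_4_ok
def lno111_6_5 : ℕ := 2187250726310788906860508990632193170674856443633156536061271623340628383965511746485784332635996160
theorem lno111_6_5_ok : IsCopyMask lno111_6_5 := isCopyMask_of (x := 11) (y := 6) (R := 5) rfl rfl (by decide +kernel)
def lo111_6_5 (c : ℕ) : Cert := Cert.leaf c lno111_6_5 lno111_6_5_ok
def lno111_7_1 : ℕ := 44464162370655614244509715054857494549811055898372611173707510586476505138724864
theorem lno111_7_1_ok : IsCopyMask lno111_7_1 := isCopyMask_of (x := 11) (y := 7) (R := 1) rfl rfl (by decide +kernel)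
def lo111_7_1 (c : ℕ) : Cert := Cert.leaf c lno111_7_1 lno111_7_1_ok
def lno111_7_4 : ℕ := 37576681337504835995948279083268791042664109357858621484798935242084649297826364062222802387868552947033964544
theorem lno111_7_4_ok : IsCopyMask lno111_7_4 := isCopyMask_of (x := 11) (y := 7) (R := 4) rfl rfl (by decide +kernel)
def lo111_7_4 (c : ℕ) : Cert := Cert.leaf c lno111_7_4 lno111_7_4_ok
def lno111_7_5 : ℕ := 9394170337657085086925476148679240032803054674899274743631806274420829177221203743060286637580788979581583360
theorem lno111_7_5_ok : IsCopyMask lno111_7_5 := isCopyMask_of (x := 11) (y := 7) (R := 5) rfl rfl (by decide +kernel)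
def lo111_7_5 (c : ℕ) : Cert := Cert.leaf c lno111_7_5 lno111_7_5_ok
def lno111_8_0 : ℕ := 24444431719570966016591701784324638592084513253243688936562163519544712577883131816739602432
theorem lno111_8_0_ok : IsCopyMask lno111_8_0 := isCopyMask_of (x := 11) (y := 8) (R := 0) rfl rfl (by decide +kernel)
def lo111_8_0 (c : ℕ) : Cert := Cert.leaf c lno111_8_0 lno111_8_0_ok
def lno111_8_1 : ℕ := 190972123225999693258960973714891785031936728062738264613197933038490369443199234022047744
theorem lno111_8_1_ok : IsCopyMask lno111_8_1 := isCopyMask_of (x := 11) (y := 8) (R := 1) rfl rfl (by decide +kernel)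
def lo111_8_1 (c : ℕ) : Cert := Cert.leaf c lno111_8_1 lno111_8_1_ok
def lno111_8_2 : ℕ := 3557132982695488821995888906654365654809642815799091049948851199314295993508298752
theorem lno111_8_2_ok : IsCopyMask lno111_8_2 := isCopyMask_of (x := 11) (y := 8) (R := 2) rfl rfl (by decide +kernel)
def lo111_8_2 (c : ℕ) : Cert := Cert.leaf c lno111_8_2 lno111_8_2_ok
def lno111_8_3 : ℕ := 444641622681646809946698428114513699949972279294736429369772702423130204153053184
theorem lno111_8_3_ok : IsCopyMask lno111_8_3 := isCopyMask_of (x := 11) (y := 8) (R := 3) rfl rfl (by decide +kernel)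
def lo111_8_3 (c : ℕ) : Cert := Cert.leaf c lno111_8_3 lno111_8_3_ok
def lno111_8_4 : ℕ := 161390617436796808844441447170120318305700090404970339868854388000375411597793597533836645321366142054355297917703553024
theorem lno111_8_4_ok : IsCopyMask lno111_8_4 := isCopyMask_of (x := 11) (y := 8) (R := 4) rfl rfl (by decide +kernel)
def lo111_8_4 (c : ℕ) : Cert := Cert.leaf c lno111_8_4 lno111_8_4_ok
def lno111_8_5 : ℕ := 40347654373290457711034237247805369535023087037592297118017392214045062657367658234196718064795293225180112295097794560
theorem lno111_8_5_ok : IsCopyMask lno111_8_5 := isCopyMask_of (x := 11) (y := 8) (R := 5) rfl rfl (by decide +kernel)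
def lo111_8_5 (c : ℕ) : Cert := Cert.leaf c lno111_8_5 lno111_8_5_ok
def lno111_9_0 : ℕ := 104988034804862342192388752548659168200022468890760209900931510987448797331727904062953657793482063872
theorem lno111_9_0_ok : IsCopyMask lno111_9_0 := isCopyMask_of (x := 11) (y := 9) (R := 0) rfl rfl (by decide +kernel)
def lo111_9_0 (c : ℕ) : Cert := Cert.leaf c lno111_9_0 lno111_9_0_ok
def lno111_9_1 : ℕ := 820219023703350699453269041045775844891230562570706282721479212375114045969498439736945603430580224
theorem lno111_9_1_ok : IsCopyMask lno111_9_1 := isCopyMask_of (x := 11) (y := 9) (R := 1) rfl rfl (by decide +kernel)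
def lo111_9_1 (c : ℕ) : Cert := Cert.leaf c lno111_9_1 lno111_9_1_ok
def lno111_9_2 : ℕ := 15277769828200058417205908300529697263033040999298448166056618373825278917381971444437614592
theorem lno111_9_2_ok : IsCopyMask lno111_9_2 := isCopyMask_of (x := 11) (y := 9) (R := 2) rfl rfl (by decide +kernel)
def lo111_9_2 (c : ℕ) : Cert := Cert.leaf c lno111_9_2 lno111_9_2_ok
def lno111_9_3 : ℕ := 1909721227858044868143797251926443284229087775677470909082987647860884180787166803828670464
theorem lno111_9_3_ok : IsCopyMask lno111_9_3 := isCopyMask_of (x := 11) (y := 9) (R := 3) rfl rfl (by decide +kernel)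
def lo111_9_3 (c : ℕ) : Cert := Cert.leaf c lno111_9_3 lno111_9_3_ok
def lno111_9_4 : ℕ := 693167423772289640984039566982578515508092018673591005586734525447707228535062607166014645061618990165146258920873659661081903104
theorem lno111_9_4_ok : IsCopyMask lno111_9_4 := isCopyMask_of (x := 11) (y := 9) (R := 4) rfl rfl (by decide +kernel)
def lo111_9_4 (c : ℕ) : Cert := Cert.leaf c lno111_9_4 lno111_9_4_ok
def lno111_9_5 : ℕ := 173291856003593891777763067315629109926118885431420438703399751918528575983664945563980012918828193336878946017052528756926709760
theorem lno111_9_5_ok : IsCopyMask lno111_9_5 := isCopyMask_of (x := 11) (y := 9) (R := 5) rfl rfl (by decide +kernel)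
def lo111_9_5 (c : ℕ) : Cert := Cert.leaf c lno111_9_5 lno111_9_5_ok
def lno111_9_7 : ℕ := 1018517988404385241947460383225770224655609539997811647229245496106330784108695825332305920
theorem lno111_9_7_ok : IsCopyMask lno111_9_7 := isCopyMask_of (x := 11) (y := 9) (R := 7) rfl rfl (by decide +kernel)
def lo111_9_7 (c : ℕ) : Cert := Cert.leaf c lno111_9_7 lno111_9_7_ok
def lno111_10_0 : ℕ := 450920175958193501498270632314727776069659690350992498102596239626957251014303411121011485386580986292823130112
theorem lno111_10_0_ok : IsCopyMask lno111_10_0 := isCopyMask_of (x := 11) (y := 10) (R := 0) rfl rfl (by decide +kernel)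
def lo111_10_0 (c : ℕ) : Cert := Cert.leaf c lno111_10_0 lno111_10_0_ok
def lno111_10_1 : ℕ := 3522813882362940059770515611580888892754603943436865171910483093894953311709236412193208209665327468384354304
theorem lno111_10_1_ok : IsCopyMask lno111_10_1 := isCopyMask_of (x := 11) (y := 10) (R := 1) rfl rfl (by decide +kernel)
def lo111_10_1 (c : ℕ) : Cert := Cert.leaf c lno111_10_1 lno111_10_1_ok
def lno111_10_2 : ℕ := 65617521767934789447188899848749989221507620859413993816764353199932275368233853293865435784892383232
theorem lno111_10_2_ok : IsCopyMask lno111_10_2 := isCopyMask_of (x := 11) (y := 10) (R := 2) rfl rfl (by decide +kernel)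
def lo111_10_2 (c : ℕ) : Cert := Cert.leaf c lno111_10_2 lno111_10_2_ok
def lno111_10_3 : ℕ := 8202190218127266839178241422278746903362764568448121798502821297534461914124632958940987230041145344
theorem lno111_10_3_ok : IsCopyMask lno111_10_3 := isCopyMask_of (x := 11) (y := 10) (R := 3) rfl rfl (by decide +kernel)
def lo111_10_3 (c : ℕ) : Cert := Cert.leaf c lno111_10_3 lno111_10_3_ok
def lno111_10_4 : ℕ := 2977131415754556959066031198160176125859484043561694667874778078231982304740891887090528143196701467571848821121900619992181217809120886784
theorem lno111_10_4_ok : IsCopyMask lno111_10_4 := isCopyMask_of (x := 11) (y := 10) (R := 4) rfl rfl (by decide +kernel)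
def lo111_10_4 (c : ℕ) : Cert := Cert.leaf c lno111_10_4 lno111_10_4_ok
def lno111_10_5 : ℕ := 744282854198577023650855674157273536798269589135921635057074578504593490291291971418914431084024593024660183854190069325099751888084008960
theorem lno111_10_5_ok : IsCopyMask lno111_10_5 := isCopyMask_of (x := 11) (y := 10) (R := 5) rfl rfl (by decide +kernel)
def lo111_10_5 (c : ℕ) : Cert := Cert.leaf c lno111_10_5 lno111_10_5_ok
def lno111_10_6 : ℕ := 4374501450584541837149389696293131055487185859216529890071326271069493315201196153601326063376400384
theorem lno111_10_6_ok : IsCopyMask lno111_10_6 := isCopyMask_of (x := 11) (y := 10) (R := 6) rfl rfl (by decide +kernel)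
def lo111_10_6 (c : ℕ) : Cert := Cert.leaf c lno111_10_6 lno111_10_6_ok
def lno111_10_7 : ℕ := 4374501450584541837149389696210310099306415837236204936417498420531986056304885079013982258667192320
theorem lno111_10_7_ok : IsCopyMask lno111_10_7 := isCopyMask_of (x := 11) (y := 10) (R := 7) rfl rfl (by decide +kernel)
def lo111_10_7 (c : ℕ) : Cert := Cert.leaf c lno111_10_7 lno111_10_7_ok
def lno111_11_0 : ℕ := 1936687408847006552174799366348996577361999787906999540491992901890360633096495978985987028175747253383099623343392817152
theorem lno111_11_0_ok : IsCopyMask lno111_11_0 := isCopyMask_of (x := 11) (y := 11) (R := 0) rfl rfl (by decide +kernel)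
def lo111_11_0 (c : ℕ) : Cert := Cert.leaf c lno111_11_0 lno111_11_0_ok
def lno111_11_1 : ℕ := 15130370414643618759122649816797356652990675290493969754116942727839721733238064251502204893831292581841275693756841984
theorem lno111_11_1_ok : IsCopyMask lno111_11_1 := isCopyMask_of (x := 11) (y := 11) (R := 1) rfl rfl (by decide +kernel)
def lo111_11_1 (c : ℕ) : Cert := Cert.leaf c lno111_11_1 lno111_11_1_ok
def lno111_11_2 : ℕ := 281825110037848022136322243984600550186727731405950517167749113532302072121430757177213924120900876860938780672
theorem lno111_11_2_ok : IsCopyMask lno111_11_2 := isCopyMask_of (x := 11) (y := 11) (R := 2) rfl rfl (by decide +kernel)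
def lo111_11_2 (c : ℕ) : Cert := Cert.leaf c lno111_11_2 lno111_11_2_ok
def lno111_11_3 : ℕ := 35228138742427717440135838423479743745804346245632236597194319236642799354122859026655250946980347986862669824
theorem lno111_11_3_ok : IsCopyMask lno111_11_3 := isCopyMask_of (x := 11) (y := 11) (R := 3) rfl rfl (by decide +kernel)
def lo111_11_3 (c : ℕ) : Cert := Cert.leaf c lno111_11_3 lno111_11_3_ok
def lno111_11_4 : ℕ := 12786682066560001302157814700613651830166463858531317956859753669264093500112836408925542966397437698296295216974717192228542106195626979247798616064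
theorem lno111_11_4_ok : IsCopyMask lno111_11_4 := isCopyMask_of (x := 11) (y := 11) (R := 4) rfl rfl (by decide +kernel)
def lo111_11_4 (c : ℕ) : Cert := Cert.leaf c lno111_11_4 lno111_11_4_ok
def lno111_11_5 : ℕ := 3196670517756424606317443642921522201074820434730140321388982408110213626575592530831604197328331455100625211167093580319276226297035070583770972160
theorem lno111_11_5_ok : IsCopyMask lno111_11_5 := isCopyMask_of (x := 11) (y := 11) (R := 5) rfl rfl (by decide +kernel)
def lo111_11_5 (c : ℕ) : Cert := Cert.leaf c lno111_11_5 lno111_11_5_ok
def lno111_11_6 : ℕ := 18788340666565167273700386611938370312759424612408656060462821441589104732079757139798688064434062987481841664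
theorem lno111_11_6_ok : IsCopyMask lno111_11_6 := isCopyMask_of (x := 11) (y := 11) (R := 6) rfl rfl (by decide +kernel)
def lo111_11_6 (c : ℕ) : Cert := Cert.leaf c lno111_11_6 lno111_11_6_ok
def lno111_11_7 : ℕ := 18788340666565167273700386611582657014539568303905959229066915118316535033757496019403429727699803562542366720
theorem lno111_11_7_ok : IsCopyMask lno111_11_7 := isCopyMask_of (x := 11) (y := 11) (R := 7) rfl rfl (by decide +kernel)
def lo111_11_7 (c : ℕ) : Cert := Cert.leaf c lno111_11_7 lno111_11_7_ok
def lno111_12_1 : ℕ := 64984446107260302065523882616005038283842970965626899779145430375576633573997922142548688890896553780415682567605347697519755264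
theorem lno111_12_1_ok : IsCopyMask lno111_12_1 := isCopyMask_of (x := 11) (y := 12) (R := 1) rfl rfl (by decide +kernel)
def lo111_12_1 (c : ℕ) : Cert := Cert.leaf c lno111_12_1 lno111_12_1_ok
def lno111_12_2 : ℕ := 1210429630804158577293788091631192090675602299644829571029768988554228439354578442804651080495094816175455202844356902912
theorem lno111_12_2_ok : IsCopyMask lno111_12_2 := isCopyMask_of (x := 11) (y := 12) (R := 2) rfl rfl (by decide +kernel)
def lo111_12_2 (c : ℕ) : Cert := Cert.leaf c lno111_12_2 lno111_12_2_ok
def lno111_12_3 : ℕ := 151303703797677614049312263826385697906690204339650839028283926478364508059847602285502695083953624558274604537326075904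
theorem lno111_12_3_ok : IsCopyMask lno111_12_3 := isCopyMask_of (x := 11) (y := 12) (R := 3) rfl rfl (by decide +kernel)
def lo111_12_3 (c : ℕ) : Cert := Cert.leaf c lno111_12_3 lno111_12_3_ok
def lno111_12_4 : ℕ := 54918381300224900814485228369963665741695508508357981216490180868105281970070804686133289539719821852380102874867634399470533703869176854084565735988940242944
theorem lno111_12_4_ok : IsCopyMask lno111_12_4 := isCopyMask_of (x := 11) (y := 12) (R := 4) rfl rfl (by decide +kernel)
def lo111_12_4 (c : ℕ) : Cert := Cert.leaf c lno111_12_4 lno111_12_4_ok
def lno111_12_5 : ℕ := 13729595329851230978023095440671039748154289816238455265856608737552692689715726391743611710741514173905277671115760918842840630336060809922347953781326479360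
theorem lno111_12_5_ok : IsCopyMask lno111_12_5 := isCopyMask_of (x := 11) (y := 12) (R := 5) rfl rfl (by decide +kernel)
def lo111_12_5 (c : ℕ) : Cert := Cert.leaf c lno111_12_5 lno111_12_5_ok
def lno111_12_6 : ℕ := 80695308709004234093312641400831543660839020226072653567000016715512779094201398979057865260449841279638567340730220544
theorem lno111_12_6_ok : IsCopyMask lno111_12_6 := isCopyMask_of (x := 11) (y := 12) (R := 6) rfl rfl (by decide +kernel)
def lo111_12_6 (c : ℕ) : Cert := Cert.leaf c lno111_12_6 lno111_12_6_ok
def lno111_12_7 : ℕ := 80695308709004234093312641399303766678232442363234283948351773028777488546026701398187912110704841606743755676838789120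
theorem lno111_12_7_ok : IsCopyMask lno111_12_7 := isCopyMask_of (x := 11) (y := 12) (R := 7) rfl rfl (by decide +kernel)
def lo111_12_7 (c : ℕ) : Cert := Cert.leaf c lno111_12_7 lno111_12_7_ok
def lno111_13_1 : ℕ := 279106070779357505530506324942684565600333525496845074689299246290946638342096671574200868874079210605990521913382277395556249172803846144
theorem lno111_13_1_ok : IsCopyMask lno111_13_1 := isCopyMask_of (x := 11) (y := 13) (R := 1) rfl rfl (by decide +kernel)
def lo111_13_1 (c : ℕ) : Cert := Cert.leaf c lno111_13_1 lno111_13_1_ok
def lno111_13_3 : ℕ := 649844459574696353093106304426050394391370087242357629685439883227044013684173862560248930305440791858451872675148707295693635584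
theorem lno111_13_3_ok : IsCopyMask lno111_13_3 := isCopyMask_of (x := 11) (y := 13) (R := 3) rfl rfl (by decide +kernel)
def lo111_13_3 (c : ℕ) : Cert := Cert.leaf c lno111_13_3 lno111_13_3_ok
def lno111_13_4 : ℕ := 235872651633723906443057818924085333068857792633487271985407622733637075546312556931346023269995527858918681608672070074610541973783863250733373854434668561142774759424
theorem lno111_13_4_ok : IsCopyMask lno111_13_4 := isCopyMask_of (x := 11) (y := 13) (R := 4) rfl rfl (by decide +kernel)
def lo111_13_4 (c : ℕ) : Cert := Cert.leaf c lno111_13_4 lno111_13_4_ok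
def lno111_13_5 : ℕ := 58968162929025369595951289650368824012638751122850015104413119953256662179067320389422896714557415286443624199241236976584910671033406668083756761023316764350019010560
theorem lno111_13_5_ok : IsCopyMask lno111_13_5 := isCopyMask_of (x := 11) (y := 13) (R := 5) rfl rfl (by decide +kernel)
def lo111_13_5 (c : ℕ) : Cert := Cert.leaf c lno111_13_5 lno111_13_5_ok
def lno111_13_6 : ℕ := 346583711845797166156306007119947107228499707791664573590202816624580722079667511852501320185206590544438437428729985995347329024
theorem lno111_13_6_ok : IsCopyMask lno111_13_6 := isCopyMask_of (x := 11) (y := 13) (R := 6) rfl rfl (by decide +kernel)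
def lo111_13_6 (c : ℕ) : Cert := Cert.leaf c lno111_13_6 lno111_13_6_ok
def lno111_13_7 : ℕ := 346583711845797166156306007113385355052622895036296202344148618262214180166199273247974556177999626209824523684236943934640619520
theorem lno111_13_7_ok : IsCopyMask lno111_13_7 := isCopyMask_of (x := 11) (y := 13) (R := 7) rfl rfl (by decide +kernel)
def lo111_13_7 (c : ℕ) : Cert := Cert.leaf c lno111_13_7 lno111_13_7_ok
def lno111_14_0 : ℕ := 153440184767460135767229310716468937638474595203612524607343693691353650625298358690996869782357346444374630052506002992301555886706560761405816963072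
theorem lno111_14_0_ok : IsCopyMask lno111_14_0 := isCopyMask_of (x := 11) (y := 14) (R := 0) rfl rfl (by decide +kernel)
def lo111_14_0 (c : ℕ) : Cert := Cert.leaf c lno111_14_0 lno111_14_0_ok
def lno111_14_1 : ℕ := 1198751446112401718145663795949979283697399098701331746969217623977065112560444864481645569148954551666225633303948226159914145925619571811495706624
theorem lno111_14_1_ok : IsCopyMask lno111_14_1 := isCopyMask_of (x := 11) (y := 14) (R := 1) rfl rfl (by decide +kernel)
def lo111_14_1 (c : ℕ) : Cert := Cert.leaf c lno111_14_1 lno111_14_1_ok
def lno111_14_3 : ℕ := 2791060701360114905665360020561306494358836349338592845435043065834212981526103212474267985280851491896393854329719729771680766468621860864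
theorem lno111_14_3_ok : IsCopyMask lno111_14_3 := isCopyMask_of (x := 11) (y := 14) (R := 3) rfl rfl (by decide +kernel)
def lo111_14_3 (c : ℕ) : Cert := Cert.leaf c lno111_14_3 lno111_14_3_ok
def lno111_14_4 : ℕ := 1013065324787645148866297018516036412244011535435577547609582728870077358604493765414269287204285770220312639432683210959072557714236982034436088720538366038707593978420347797504
theorem lno111_14_4_ok : IsCopyMask lno111_14_4 := isCopyMask_of (x := 11) (y := 14) (R := 4) rfl rfl (by decide +kernel)
def lo111_14_4 (c : ℕ) : Cert := Cert.leaf c lno111_14_4 lno111_14_4_ok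
def lno111_14_5 : ℕ := 253266331285363531568923523057357373472262926734924093186560375472562412753214236854925325702609945769565838083455300829018109099169896162888062277414032996331870347333478645760
theorem lno111_14_5_ok : IsCopyMask lno111_14_5 := isCopyMask_of (x := 11) (y := 14) (R := 5) rfl rfl (by decide +kernel)
def lo111_14_5 (c : ℕ) : Cert := Cert.leaf c lno111_14_5 lno111_14_5_ok
def lno111_14_6 : ℕ := 1488565707703986623690812324748515974796211444110755724971706403409659311044237069960185545992286969392025923441737620664554786319031599104
theorem lno111_14_6_ok : IsCopyMask lno111_14_6 := isCopyMask_of (x := 11) (y := 14) (R := 6) rfl rfl (by decide +kernel)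
def lo111_14_6 (c : ℕ) : Cert := Cert.leaf c lno111_14_6 lno111_14_6_ok
def lno111_14_7 : ℕ := 1488565707703986623690812324720333463796363693201732922037116852399798256361277723219018417024623149271420763122575104914267022351579217920
theorem lno111_14_7_ok : IsCopyMask lno111_14_7 := isCopyMask_of (x := 11) (y := 14) (R := 7) rfl rfl (by decide +kernel)
def lo111_14_7 (c : ℕ) : Cert := Cert.leaf c lno111_14_7 lno111_14_7_ok
def lno111_15_0 : ℕ := 659020575468438648103969758059856415757111857726354254244536405836205447405866400820308925353595440763930919247612045695613322303320959618874842840556279693312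
theorem lno111_15_0_ok : IsCopyMask lno111_15_0 := isCopyMask_of (x := 11) (y := 15) (R := 0) rfl rfl (by decide +kernel)
def lo111_15_0 (c : ℕ) : Cert := Cert.leaf c lno111_15_0 lno111_15_0_ok
def lno111_15_1 : ℕ := 5148598257085471719449835767816378275357835089182095924879336813688320112509669516159819711758066351996781402797346059034042922918307709467897536794490568704
theorem lno111_15_1_ok : IsCopyMask lno111_15_1 := isCopyMask_of (x := 11) (y := 15) (R := 1) rfl rfl (by decide +kernel)
def lo111_15_1 (c : ℕ) : Cert := Cert.leaf c lno111_15_1 lno111_15_1_ok
def lno111_15_2 : ℕ := 95900115501432858324620336783526432717908133815218093914896359098647226086669982139445538213439415878712790098492210917339356990656828863858901778432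
theorem lno111_15_2_ok : IsCopyMask lno111_15_2 := isCopyMask_of (x := 11) (y := 15) (R := 2) rfl rfl (by decide +kernel)
def lo111_15_2 (c : ℕ) : Cert := Cert.leaf c lno111_15_2 lno111_15_2_ok
def lno111_15_3 : ℕ := 11987514433492516238634846408376698956303610609025287501803092860109519713553265467897520238321066532727820624681534240215326438934944302601542303744
theorem lno111_15_3_ok : IsCopyMask lno111_15_3 := isCopyMask_of (x := 11) (y := 15) (R := 3) rfl rfl (by decide +kernel)
def lo111_15_3 (c : ℕ) : Cert := Cert.leaf c lno111_15_3 lno111_15_3_ok
def lno111_15_4 : ℕ := 4351082438674554059233797171148682842133203516542550681855040796703417288196364921090182480279638654134413501258814384597485429873720351431642546856866765649526186244161923531225310429184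
theorem lno111_15_4_ok : IsCopyMask lno111_15_4 := isCopyMask_of (x := 11) (y := 15) (R := 4) rfl rfl (by decide +kernel)
def lo111_15_4 (c : ℕ) : Cert := Cert.leaf c lno111_15_4 lno111_15_4_ok
def lno111_15_5 : ℕ := 1087770610048538011559590101456451851247827233439743041278733239384136108093908466173502170414857938924618826687271835738474466372694724767320116390304551170710271104309451589453569064960
theorem lno111_15_5_ok : IsCopyMask lno111_15_5 := isCopyMask_of (x := 11) (y := 15) (R := 5) rfl rfl (by decide +kernel)
def lo111_15_5 (c : ℕ) : Cert := Cert.leaf c lno111_15_5 lno111_15_5_ok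
def lno111_15_6 : ℕ := 6393341032535717797573497750468607536283288417156627640598249527958269631436889824749860942128776401785704344366462842167116593640508940542262902784
theorem lno111_15_6_ok : IsCopyMask lno111_15_6 := isCopyMask_of (x := 11) (y := 15) (R := 6) rfl rfl (by decide +kernel)
def lo111_15_6 (c : ℕ) : Cert := Cert.leaf c lno111_15_6 lno111_15_6_ok
def lno111_15_7 : ℕ := 6393341032535717797573497750347564573219782066023220430675934579187592628069511781999023946342446052845278405066822914910545744811333754919657144320
theorem lno111_15_7_ok : IsCopyMask lno111_15_7 := isCopyMask_of (x := 11) (y := 15) (R := 7) rfl rfl (by decide +kernel)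
def lo111_15_7 (c : ℕ) : Cert := Cert.leaf c lno111_15_7 lno111_15_7_ok
def lno111_16_0 : ℕ := 2830471819028043873789002518640115716132574508348496439290753049747885929345244230068454407010597654095788554571710662358316789954670913754404074317328963730203949924352
theorem lno111_16_0_ok : IsCopyMask lno111_16_0 := isCopyMask_of (x := 11) (y := 16) (R := 0) rfl rfl (by decide +kernel)
def lo111_16_0 (c : ℕ) : Cert := Cert.leaf c lno111_16_0 lno111_16_0_ok
def lno111_16_1 : ℕ := 22113061134424701311769931735342394025826784405398345386091624360960180020408071055674569171257041646024200422275604239145699704594380491829289482411293665564121104384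
theorem lno111_16_1_ok : IsCopyMask lno111_16_1 := isCopyMask_of (x := 11) (y := 16) (R := 1) rfl rfl (by decide +kernel)
def lo111_16_1 (c : ℕ) : Cert := Cert.leaf c lno111_16_1 lno111_16_1_ok
def lno111_16_2 : ℕ := 411887859761276767644045698101751860074959828268753420471936469558161873883365634833822698199840558876414536049936664800706697608540057529342819496841678159872
theorem lno111_16_2_ok : IsCopyMask lno111_16_2 := isCopyMask_of (x := 11) (y := 16) (R := 2) rfl rfl (by decide +kernel)
def lo111_16_2 (c : ℕ) : Cert := Cert.leaf c lno111_16_2 lno111_16_2_ok
def lno111_16_3 : ℕ := 51485982452178324305685597009960982465761340612482252257241824865821490147978563138625987303087106705906103252361479976829035053189726851255151913740978356224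
theorem lno111_16_3_ok : IsCopyMask lno111_16_3 := isCopyMask_of (x := 11) (y := 16) (R := 3) rfl rfl (by decide +kernel)
def lo111_16_3 (c : ℕ) : Cert := Cert.leaf c lno111_16_3 lno111_16_3_ok
def lno111_16_4 : ℕ := 18687756776307135271793205667980907560438439979262450170989900834586961864244394162163954419473212954204761176047462613580566045144130319248531518312390351494011167814280532495065543100793003966464
theorem lno111_16_4_ok : IsCopyMask lno111_16_4 := isCopyMask_of (x := 11) (y := 16) (R := 4) rfl rfl (by decide +kernel)
def lo111_16_4 (c : ℕ) : Cert := Cert.leaf c lno111_16_4 lno111_16_4_ok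
def lno111_16_5 : ℕ := 4671939195708439732261309440920782669308074758681853948935737283463003765476057759032714083716833600167203269887724553958631842001775590267361109459271618758159127484302899240398297644480499548160
theorem lno111_16_5_ok : IsCopyMask lno111_16_5 := isCopyMask_of (x := 11) (y := 16) (R := 5) rfl rfl (by decide +kernel)
def lo111_16_5 (c : ℕ) : Cert := Cert.leaf c lno111_16_5 lno111_16_5_ok
def lno111_16_6 : ℕ := 27459190646915779892463320994592238042995857143023321026019123597428205719771415285255824126990843266166156159379079746306975536304907480424627673291307352064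
theorem lno111_16_6_ok : IsCopyMask lno111_16_6 := isCopyMask_of (x := 11) (y := 16) (R := 6) rfl rfl (by decide +kernel)
def lo111_16_6 (c : ℕ) : Cert := Cert.leaf c lno111_16_6 lno111_16_6_ok
def lno111_16_7 : ℕ := 27459190646915779892463320994072362475227161393817044526352174191846232586529244718372489353461664613614758497777045114164184739476640167520806542387152158720
theorem lno111_16_7_ok : IsCopyMask lno111_16_7 := isCopyMask_of (x := 11) (y := 16) (R := 7) rfl rfl (by decide +kernel)
def lo111_16_7 (c : ℕ) : Cert := Cert.leaf c lno111_16_7 lno111_16_7_ok
def lno111_17_1 : ℕ := 94974874386802751908620156679448109703271818382028699285776019889840872345925277758566469809438817079383949238223110105769743210269725157787193541873273514649861534312682225664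
theorem lno111_17_1_ok : IsCopyMask lno111_17_1 := isCopyMask_of (x := 11) (y := 17) (R := 1) rfl rfl (by decide +kernel)
def lo111_17_1 (c : ℕ) : Cert := Cert.leaf c lno111_17_1 lno111_17_1_ok
def lno111_17_3 : ℕ := 221130610834535786853001546016017805926474397671727882825275816962062888359554129189469729842470363141129003515691791270639543336687497309313934021029315055025918050304
theorem lno111_17_3_ok : IsCopyMask lno111_17_3 := isCopyMask_of (x := 11) (y := 17) (R := 3) rfl rfl (by decide +kernel)
def lo111_17_3 (c : ℕ) : Cert := Cert.leaf c lno111_17_3 lno111_17_3_ok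
def lno111_17_5 : ℕ := 20065826054468292201249320174890805691401764037261654779327445638121482798644521946052555583682406437392078175952038551108511098301865334129411861349847846547273585708975705595493930397117580469089976975360
theorem lno111_17_5_ok : IsCopyMask lno111_17_5 := isCopyMask_of (x := 11) (y := 17) (R := 5) rfl rfl (by decide +kernel)
def lo111_17_5 (c : ℕ) : Cert := Cert.leaf c lno111_17_5 lno111_17_5_ok
def lno111_17_6 : ℕ := 117936325803132357904464360551323855250114248292773158372061300921536013274378369245808275618953422719645464006562111176964436705101638312729536049762737758199238098944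
theorem lno111_17_6_ok : IsCopyMask lno111_17_6 := isCopyMask_of (x := 11) (y := 17) (R := 6) rfl rfl (by decide +kernel)
def lo111_17_6 (c : ℕ) : Cert := Cert.leaf c lno111_17_6 lno111_17_6_ok
def lno111_17_7 : ℕ := 117936325803132357904464360549091006688558268357357982848058398332474798819952596212990572119226033905195864090890497464851759830554449675461825499095656292278201221120
theorem lno111_17_7_ok : IsCopyMask lno111_17_7 := isCopyMask_of (x := 11) (y := 17) (R := 7) rfl rfl (by decide +kernel)
def lo111_17_7 (c : ℕ) : Cert := Cert.leaf c lno111_17_7 lno111_17_7_ok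
def lno111_18_0 : ℕ := 52212989253457462802835050343272513386731883522917381222587384283812488631735021625503289582153219538995882987896416502019845935713485666316816849162873620930216547366600655044103039352832
theorem lno111_18_0_ok : IsCopyMask lno111_18_0 := isCopyMask_of (x := 11) (y := 18) (R := 0) rfl rfl (by decide +kernel)
def lo111_18_0 (c : ℕ) : Cert := Cert.leaf c lno111_18_0 lno111_18_0_ok
def lno111_18_1 : ℕ := 407913979433025873450325153424625586504572724149264897565826563407912069369859866832759171673711071468880297805492371055688147994426520891604435989968116321884132180801351997267371884544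
theorem lno111_18_1_ok : IsCopyMask lno111_18_1 := isCopyMask_of (x := 11) (y := 18) (R := 1) rfl rfl (by decide +kernel)
def lo111_18_1 (c : ℕ) : Cert := Cert.leaf c lno111_18_1 lno111_18_1_ok
def lno111_18_3 : ℕ := 949748741678834471875268399576235568607882518581369800545879716031742178199584074010531477255365441540392902616965266323055123635447517915591342817422684418616758458431762857984
theorem lno111_18_3_ok : IsCopyMask lno111_18_3 := isCopyMask_of (x := 11) (y := 18) (R := 3) rfl rfl (by decide +kernel)
def lo111_18_3 (c : ℕ) : Cert := Cert.leaf c lno111_18_3 lno111_18_3_ok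
def lno111_18_6 : ℕ := 506532662334854411559041520965488487803878596681084548354631887565211839099676970640558728869559108328140644622929396897778324203473532909193977826983987230890083487081692135424
theorem lno111_18_6_ok : IsCopyMask lno111_18_6 := isCopyMask_of (x := 11) (y := 18) (R := 6) rfl rfl (by decide +kernel)
def lo111_18_6 (c : ℕ) : Cert := Cert.leaf c lno111_18_6 lno111_18_6_ok
def lno111_18_7 : ℕ := 506532662334854411559041520955898476255075019985244177296939757936120195675875793005087957608405228454603400744835458128709217960277862903386354215074721350991491578417664491520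
theorem lno111_18_7_ok : IsCopyMask lno111_18_7 := isCopyMask_of (x := 11) (y := 18) (R := 7) rfl rfl (by decide +kernel)
def lo111_18_7 (c : ℕ) : Cert := Cert.leaf c lno111_18_7 lno111_18_7_ok
def lno111_19_6 : ℕ := 2175541219084010698567407705652871399782153434699632276994074567211333916245126673065551911662087420208285305143840011392961757511604073446567872487045371472354509547725506201986483093504
theorem lno111_19_6_ok : IsCopyMask lno111_19_6 := isCopyMask_of (x := 11) (y := 19) (R := 6) rfl rfl (by decide +kernel)
def lo111_19_6 (c : ℕ) : Cert := Cert.leaf c lno111_19_6 lno111_19_6_ok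
def lno111_19_7 : ℕ := 2175541219084010698567407705611682613811779764863170144064781941217792697553007147114918339531534830927930226849450333563983449833129248242815999006417678398821393503563288419778869329920
theorem lno111_19_7_ok : IsCopyMask lno111_19_7 := isCopyMask_of (x := 11) (y := 19) (R := 7) rfl rfl (by decide +kernel)
def lo111_19_7 (c : ℕ) : Cert := Cert.leaf c lno111_19_7 lno111_19_7_ok
def lno111_20_6 : ℕ := 9343878387065797026861130147277476990558090526488992212915563451958033090808422180193829524778946472887594893830173424789038153091021835953391015776158054141933986625600800322577115120656590045184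
theorem lno111_20_6_ok : IsCopyMask lno111_20_6 := isCopyMask_of (x := 11) (y := 20) (R := 6) rfl rfl (by decide +kernel)
def lo111_20_6 (c : ℕ) : Cert := Cert.leaf c lno111_20_6 lno111_20_6_ok
def lno111_20_7 : ℕ := 9343878387065797026861130147100572501853391989641885683641846942901814049297784923312835021998566059520349657288250298233600040518546778543960182678132422839183530042951183229165763323863834296320
theorem lno111_20_7_ok : IsCopyMask lno111_20_7 := isCopyMask_of (x := 11) (y := 20) (R := 7) rfl rfl (by decide +kernel)
def lo111_20_7 (c : ℕ) : Cert := Cert.leaf c lno111_20_7 lno111_20_7_ok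
def lno111_21_6 : ℕ := 40131652090248827630542587516156427111839499599477643258471013835572619289507971465293516749924796730386770753097187037477234566822180096641691393058818899066603814747856833736894959881247148290944442302464
theorem lno111_21_6_ok : IsCopyMask lno111_21_6 := isCopyMask_of (x := 11) (y := 21) (R := 6) rfl rfl (by decide +kernel)
def lo111_21_6 (c : ℕ) : Cert := Cert.leaf c lno111_21_6 lno111_21_6_ok
def lno111_21_7 : ℕ := 40131652090248827630542587515396628118337217982180269763012334796800870680807318010870494396527281784535491224537843075975558742371433295292463482928764450451536728876308807293770626838871424659857573150720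
theorem lno111_21_7_ok : IsCopyMask lno111_21_7 := isCopyMask_of (x := 11) (y := 21) (R := 7) rfl rfl (by decide +kernel)
def lo111_21_7 (c : ℕ) : Cert := Cert.leaf c lno111_21_7 lno111_21_7_ok
def lno112_6_5 : ℕ := 4374501452621577813721017981264386341349712887266313072122543246681256767931023492971568665271992320
theorem lno112_6_5_ok : IsCopyMask lno112_6_5 := isCopyMask_of (x := 12) (y := 6) (R := 5) rfl rfl (by decide +kernel)
def lo112_6_5 (c : ℕ) : Cert := Cert.leaf c lno112_6_5 lno112_6_5_ok
def lno112_7_1 : ℕ := 88928324741311228489019430109714989099622111796745222347415021172953010277449728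
theorem lno112_7_1_ok : IsCopyMask lno112_7_1 := isCopyMask_of (x := 12) (y := 7) (R := 1) rfl rfl (by decide +kernel)
def lo112_7_1 (c : ℕ) : Cert := Cert.leaf c lno112_7_1 lno112_7_1_ok
def lno112_7_4 : ℕ := 75153362675009671991896558166537582085328218715717242969597870484169298595652728124445604775737105894067929088
theorem lno112_7_4_ok : IsCopyMask lno112_7_4 := isCopyMask_of (x := 12) (y := 7) (R := 4) rfl rfl (by decide +kernel)
def lo112_7_4 (c : ℕ) : Cert := Cert.leaf c lno112_7_4 lno112_7_4_ok
def lno112_7_5 : ℕ := 18788340675314170173850952297358480065606109349798549487263612548841658354442407486120573275161577959163166720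
theorem lno112_7_5_ok : IsCopyMask lno112_7_5 := isCopyMask_of (x := 12) (y := 7) (R := 5) rfl rfl (by decide +kernel)
def lo112_7_5 (c : ℕ) : Cert := Cert.leaf c lno112_7_5 lno112_7_5_ok
def lno112_8_0 : ℕ := 48888863439141932033183403568649277184169026506487377873124327039089425155766263633479204864
theorem lno112_8_0_ok : IsCopyMask lno112_8_0 := isCopyMask_of (x := 12) (y := 8) (R := 0) rfl rfl (by decide +kernel)
def lo112_8_0 (c : ℕ) : Cert := Cert.leaf c lno112_8_0 lno112_8_0_ok
def lno112_8_1 : ℕ := 381944246451999386517921947429783570063873456125476529226395866076980738886398468044095488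
theorem lno112_8_1_ok : IsCopyMask lno112_8_1 := isCopyMask_of (x := 12) (y := 8) (R := 1) rfl rfl (by decide +kernel)
def lo112_8_1 (c : ℕ) : Cert := Cert.leaf c lno112_8_1 lno112_8_1_ok
def lno112_8_2 : ℕ := 7114265965390977643991777813308731309619285631598182099897702398628591987016597504
theorem lno112_8_2_ok : IsCopyMask lno112_8_2 := isCopyMask_of (x := 12) (y := 8) (R := 2) rfl rfl (by decide +kernel)
def lo112_8_2 (c : ℕ) : Cert := Cert.leaf c lno112_8_2 lno112_8_2_ok
def lno112_8_3 : ℕ := 889283245363293619893396856229027399899944558589472858739545404846260408306106368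
theorem lno112_8_3_ok : IsCopyMask lno112_8_3 := isCopyMask_of (x := 12) (y := 8) (R := 3) rfl rfl (by decide +kernel)
def lo112_8_3 (c : ℕ) : Cert := Cert.leaf c lno112_8_3 lno112_8_3_ok
def lno112_8_4 : ℕ := 322781234873593617688882894340240636611400180809940679737708776000750823195587195067673290642732284108710595835407106048
theorem lno112_8_4_ok : IsCopyMask lno112_8_4 := isCopyMask_of (x := 12) (y := 8) (R := 4) rfl rfl (by decide +kernel)
def lo112_8_4 (c : ℕ) : Cert := Cert.leaf c lno112_8_4 lno112_8_4_ok
def lno112_8_5 : ℕ := 80695308746580915422068474495610739070046174075184594236034784428090125314735316468393436129590586450360224590195589120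
theorem lno112_8_5_ok : IsCopyMask lno112_8_5 := isCopyMask_of (x := 12) (y := 8) (R := 5) rfl rfl (by decide +kernel)
def lo112_8_5 (c : ℕ) : Cert := Cert.leaf c lno112_8_5 lno112_8_5_ok
def lno112_9_1 : ℕ := 1640438047406701398906538082091551689782461125141412565442958424750228091938996879473891206861160448
theorem lno112_9_1_ok : IsCopyMask lno112_9_1 := isCopyMask_of (x := 12) (y := 9) (R := 1) rfl rfl (by decide +kernel)
def lo112_9_1 (c : ℕ) : Cert := Cert.leaf c lno112_9_1 lno112_9_1_ok
def lno112_9_3 : ℕ := 3819442455716089736287594503852886568458175551354941818165975295721768361574333607657340928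
theorem lno112_9_3_ok : IsCopyMask lno112_9_3 := isCopyMask_of (x := 12) (y := 9) (R := 3) rfl rfl (by decide +kernel)
def lo112_9_3 (c : ℕ) : Cert := Cert.leaf c lno112_9_3 lno112_9_3_ok
def lno112_9_4 : ℕ := 1386334847544579281968079133965157031016184037347182011173469050895414457070125214332029290123237980330292517841747319322163806208
theorem lno112_9_4_ok : IsCopyMask lno112_9_4 := isCopyMask_of (x := 12) (y := 9) (R := 4) rfl rfl (by decide +kernel)
def lo112_9_4 (c : ℕ) : Cert := Cert.leaf c lno112_9_4 lno112_9_4_ok
def lno112_9_5 : ℕ := 346583712007187783555526134631258219852237770862840877406799503837057151967329891127960025837656386673757892034105057513853419520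
theorem lno112_9_5_ok : IsCopyMask lno112_9_5 := isCopyMask_of (x := 12) (y := 9) (R := 5) rfl rfl (by decide +kernel)
def lo112_9_5 (c : ℕ) : Cert := Cert.leaf c lno112_9_5 lno112_9_5_ok
def lno112_9_6 : ℕ := 2037035976808770483894920766490106962382414312668391452204122334285403282940944728255889408
theorem lno112_9_6_ok : IsCopyMask lno112_9_6 := isCopyMask_of (x := 12) (y := 9) (R := 6) rfl rfl (by decide +kernel)
def lo112_9_6 (c : ℕ) : Cert := Cert.leaf c lno112_9_6 lno112_9_6_ok
def lno112_9_7 : ℕ := 2037035976808770483894920766451540449311219079995623294458490992212661568217391650664611840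
theorem lno112_9_7_ok : IsCopyMask lno112_9_7 := isCopyMask_of (x := 12) (y := 9) (R := 7) rfl rfl (by decide +kernel)
def lo112_9_7 (c : ℕ) : Cert := Cert.leaf c lno112_9_7 lno112_9_7_ok
def lno112_10_0 : ℕ := 901840351916387002996541264629455552139319380701984996205192479253914502028606822242022970773161972585646260224
theorem lno112_10_0_ok : IsCopyMask lno112_10_0 := isCopyMask_of (x := 12) (y := 10) (R := 0) rfl rfl (by decide +kernel)
def lo112_10_0 (c : ℕ) : Cert := Cert.leaf c lno112_10_0 lno112_10_0_ok
def lno112_10_1 : ℕ := 7045627764725880119541031223161777785509207886873730343820966187789906623418472824386416419330654936768708608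
theorem lno112_10_1_ok : IsCopyMask lno112_10_1 := isCopyMask_of (x := 12) (y := 10) (R := 1) rfl rfl (by decide +kernel)
def lo112_10_1 (c : ℕ) : Cert := Cert.leaf c lno112_10_1 lno112_10_1_ok
def lno112_10_2 : ℕ := 131235043535869578894377799697499978443015241718827987633528706399864550736467706587730871569784766464
theorem lno112_10_2_ok : IsCopyMask lno112_10_2 := isCopyMask_of (x := 12) (y := 10) (R := 2) rfl rfl (by decide +kernel)
def lo112_10_2 (c : ℕ) : Cert := Cert.leaf c lno112_10_2 lno112_10_2_ok
def lno112_10_3 : ℕ := 16404380436254533678356482844557493806725529136896243597005642595068923828249265917881974460082290688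
theorem lno112_10_3_ok : IsCopyMask lno112_10_3 := isCopyMask_of (x := 12) (y := 10) (R := 3) rfl rfl (by decide +kernel)
def lo112_10_3 (c : ℕ) : Cert := Cert.leaf c lno112_10_3 lno112_10_3_ok
def lno112_10_4 : ℕ := 5954262831509113918132062396320352251718968087123389335749556156463964609481783774181056286393402935143697642243801239984362435618241773568
theorem lno112_10_4_ok : IsCopyMask lno112_10_4 := isCopyMask_of (x := 12) (y := 10) (R := 4) rfl rfl (by decide +kernel)
def lo112_10_4 (c : ℕ) : Cert := Cert.leaf c lno112_10_4 lno112_10_4_ok
def lno112_10_5 : ℕ := 1488565708397154047301711348314547073596539178271843270114149157009186980582583942837828862168049186049320367708380138650199503776168017920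
theorem lno112_10_5_ok : IsCopyMask lno112_10_5 := isCopyMask_of (x := 12) (y := 10) (R := 5) rfl rfl (by decide +kernel)
def lo112_10_5 (c : ℕ) : Cert := Cert.leaf c lno112_10_5 lno112_10_5_ok
def lno112_10_6 : ℕ := 8749002901169083674298779392586262110974371718433059780142652542138986630402392307202652126752800768
theorem lno112_10_6_ok : IsCopyMask lno112_10_6 := isCopyMask_of (x := 12) (y := 10) (R := 6) rfl rfl (by decide +kernel)
def lo112_10_6 (c : ℕ) : Cert := Cert.leaf c lno112_10_6 lno112_10_6_ok
def lno112_10_7 : ℕ := 8749002901169083674298779392420620198612831674472409872834996841063972112609770158027964517334384640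
theorem lno112_10_7_ok : IsCopyMask lno112_10_7 := isCopyMask_of (x := 12) (y := 10) (R := 7) rfl rfl (by decide +kernel)
def lo112_10_7 (c : ℕ) : Cert := Cert.leaf c lno112_10_7 lno112_10_7_ok
def lno112_11_0 : ℕ := 3873374817694013104349598732697993154723999575813999080983985803780721266192991957971974056351494506766199246686785634304
theorem lno112_11_0_ok : IsCopyMask lno112_11_0 := isCopyMask_of (x := 12) (y := 11) (R := 0) rfl rfl (by decide +kernel)
def lo112_11_0 (c : ℕ) : Cert := Cert.leaf c lno112_11_0 lno112_11_0_ok
def lno112_11_1 : ℕ := 30260740829287237518245299633594713305981350580987939508233885455679443466476128503004409787662585163682551387513683968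
theorem lno112_11_1_ok : IsCopyMask lno112_11_1 := isCopyMask_of (x := 12) (y := 11) (R := 1) rfl rfl (by decide +kernel)
def lo112_11_1 (c : ℕ) : Cert := Cert.leaf c lno112_11_1 lno112_11_1_ok
def lno112_11_2 : ℕ := 563650220075696044272644487969201100373455462811901034335498227064604144242861514354427848241801753721877561344
theorem lno112_11_2_ok : IsCopyMask lno112_11_2 := isCopyMask_of (x := 12) (y := 11) (R := 2) rfl rfl (by decide +kernel)
def lo112_11_2 (c : ℕ) : Cert := Cert.leaf c lno112_11_2 lno112_11_2_ok
def lno112_11_3 : ℕ := 70456277484855434880271676846959487491608692491264473194388638473285598708245718053310501893960695973725339648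
theorem lno112_11_3_ok : IsCopyMask lno112_11_3 := isCopyMask_of (x := 12) (y := 11) (R := 3) rfl rfl (by decide +kernel)
def lo112_11_3 (c : ℕ) : Cert := Cert.leaf c lno112_11_3 lno112_11_3_ok
def lno112_11_4 : ℕ := 25573364133120002604315629401227303660332927717062635913719507338528187000225672817851085932794875396592590433949434384457084212391253958495597232128
theorem lno112_11_4_ok : IsCopyMask lno112_11_4 := isCopyMask_of (x := 12) (y := 11) (R := 4) rfl rfl (by decide +kernel)
def lo112_11_4 (c : ℕ) : Cert := Cert.leaf c lno112_11_4 lno112_11_4_ok
def lno112_11_5 : ℕ := 6393341035512849212634887285843044402149640869460280642777964816220427253151185061663208394656662910201250422334187160638552452594070141167541944320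
theorem lno112_11_5_ok : IsCopyMask lno112_11_5 := isCopyMask_of (x := 12) (y := 11) (R := 5) rfl rfl (by decide +kernel)
def lo112_11_5 (c : ℕ) : Cert := Cert.leaf c lno112_11_5 lno112_11_5_ok
def lno112_11_6 : ℕ := 37576681333130334547400773223876740625518849224817312120925642883178209464159514279597376128868125974963683328
theorem lno112_11_6_ok : IsCopyMask lno112_11_6 := isCopyMask_of (x := 12) (y := 11) (R := 6) rfl rfl (by decide +kernel)
def lo112_11_6 (c : ℕ) : Cert := Cert.leaf c lno112_11_6 lno112_11_6_ok
def lno112_11_7 : ℕ := 37576681333130334547400773223165314029079136607811918458133830236633070067514992038806859455399607125084733440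
theorem lno112_11_7_ok : IsCopyMask lno112_11_7 := isCopyMask_of (x := 12) (y := 11) (R := 7) rfl rfl (by decide +kernel)
def lo112_11_7 (c : ℕ) : Cert := Cert.leaf c lno112_11_7 lno112_11_7_ok
def lno112_12_0 : ℕ := 16636018167145748418176961907660926444371446084438998631800274526966470993590610883880635056590129987284476482739580654698295721984
theorem lno112_12_0_ok : IsCopyMask lno112_12_0 := isCopyMask_of (x := 12) (y := 12) (R := 0) rfl rfl (by decide +kernel)
def lo112_12_0 (c : ℕ) : Cert := Cert.leaf c lno112_12_0 lno112_12_0_ok
def lno112_12_1 : ℕ := 129968892214520604131047765232010076567685941931253799558290860751153267147995844285097377781793107560831365135210695395039510528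
theorem lno112_12_1_ok : IsCopyMask lno112_12_1 := isCopyMask_of (x := 12) (y := 12) (R := 1) rfl rfl (by decide +kernel)
def lo112_12_1 (c : ℕ) : Cert := Cert.leaf c lno112_12_1 lno112_12_1_ok
def lno112_12_2 : ℕ := 2420859261608317154587576183262384181351204599289659142059537977108456878709156885609302160990189632350910405688713805824
theorem lno112_12_2_ok : IsCopyMask lno112_12_2 := isCopyMask_of (x := 12) (y := 12) (R := 2) rfl rfl (by decide +kernel)
def lo112_12_2 (c : ℕ) : Cert := Cert.leaf c lno112_12_2 lno112_12_2_ok
def lno112_12_4 : ℕ := 109836762600449801628970456739927331483391017016715962432980361736210563940141609372266579079439643704760205749735268798941067407738353708169131471977880485888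
theorem lno112_12_4_ok : IsCopyMask lno112_12_4 := isCopyMask_of (x := 12) (y := 12) (R := 4) rfl rfl (by decide +kernel)
def lo112_12_4 (c : ℕ) : Cert := Cert.leaf c lno112_12_4 lno112_12_4_ok
def lno112_12_5 : ℕ := 27459190659702461956046190881342079496308579632476910531713217475105385379431452783487223421483028347810555342231521837685681260672121619844695907562652958720
theorem lno112_12_5_ok : IsCopyMask lno112_12_5 := isCopyMask_of (x := 12) (y := 12) (R := 5) rfl rfl (by decide +kernel)
def lo112_12_5 (c : ℕ) : Cert := Cert.leaf c lno112_12_5 lno112_12_5_ok
def lno112_12_6 : ℕ := 161390617418008468186625282801663087321678040452145307134000033431025558188402797958115730520899682559277134681460441088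
theorem lno112_12_6_ok : IsCopyMask lno112_12_6 := isCopyMask_of (x := 12) (y := 12) (R := 6) rfl rfl (by decide +kernel)
def lo112_12_6 (c : ℕ) : Cert := Cert.leaf c lno112_12_6 lno112_12_6_ok
def lno112_12_7 : ℕ := 161390617418008468186625282798607533356464884726468567896703546057554977092053402796375824221409683213487511353677578240
theorem lno112_12_7_ok : IsCopyMask lno112_12_7 := isCopyMask_of (x := 12) (y := 12) (R := 7) rfl rfl (by decide +kernel)
def lo112_12_7 (c : ℕ) : Cert := Cert.leaf c lno112_12_7 lno112_12_7_ok
def lno112_13_1 : ℕ := 558212141558715011061012649885369131200667050993690149378598492581893276684193343148401737748158421211981043826764554791112498345607692288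
theorem lno112_13_1_ok : IsCopyMask lno112_13_1 := isCopyMask_of (x := 12) (y := 13) (R := 1) rfl rfl (by decide +kernel)
def lo112_13_1 (c : ℕ) : Cert := Cert.leaf c lno112_13_1 lno112_13_1_ok
def lno112_13_3 : ℕ := 1299688919149392706186212608852100788782740174484715259370879766454088027368347725120497860610881583716903745350297414591387271168
theorem lno112_13_3_ok : IsCopyMask lno112_13_3 := isCopyMask_of (x := 12) (y := 13) (R := 3) rfl rfl (by decide +kernel)
def lo112_13_3 (c : ℕ) : Cert := Cert.leaf c lno112_13_3 lno112_13_3_ok
def lno112_13_4 : ℕ := 471745303267447812886115637848170666137715585266974543970815245467274151092625113862692046539991055717837363217344140149221083947567726501466747708869337122285549518848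
theorem lno112_13_4_ok : IsCopyMask lno112_13_4 := isCopyMask_of (x := 12) (y := 13) (R := 4) rfl rfl (by decide +kernel)
def lo112_13_4 (c : ℕ) : Cert := Cert.leaf c lno112_13_4 lno112_13_4_ok
def lno112_13_5 : ℕ := 117936325858050739191902579300737648025277502245700030208826239906513324358134640778845793429114830572887248398482473953169821342066813336167513522046633528700038021120
theorem lno112_13_5_ok : IsCopyMask lno112_13_5 := isCopyMask_of (x := 12) (y := 13) (R := 5) rfl rfl (by decide +kernel)
def lo112_13_5 (c : ℕ) : Cert := Cert.leaf c lno112_13_5 lno112_13_5_ok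
def lno112_13_6 : ℕ := 693167423691594332312612014239894214456999415583329147180405633249161444159335023705002640370413181088876874857459971990694658048
theorem lno112_13_6_ok : IsCopyMask lno112_13_6 := isCopyMask_of (x := 12) (y := 13) (R := 6) rfl rfl (by decide +kernel)
def lo112_13_6 (c : ℕ) : Cert := Cert.leaf c lno112_13_6 lno112_13_6_ok
def lno112_13_7 : ℕ := 693167423691594332312612014226770710105245790072592404688297236524428360332398546495949112355999252419649047368473887869281239040
theorem lno112_13_7_ok : IsCopyMask lno112_13_7 := isCopyMask_of (x := 12) (y := 13) (R := 7) rfl rfl (by decide +kernel)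
def lo112_13_7 (c : ℕ) : Cert := Cert.leaf c lno112_13_7 lno112_13_7_ok
def lno112_14_0 : ℕ := 306880369534920271534458621432937875276949190407225049214687387382707301250596717381993739564714692888749260105012005984603111773413121522811633926144
theorem lno112_14_0_ok : IsCopyMask lno112_14_0 := isCopyMask_of (x := 12) (y := 14) (R := 0) rfl rfl (by decide +kernel)
def lo112_14_0 (c : ℕ) : Cert := Cert.leaf c lno112_14_0 lno112_14_0_ok
def lno112_14_1 : ℕ := 2397502892224803436291327591899958567394798197402663493938435247954130225120889728963291138297909103332451266607896452319828291851239143622991413248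
theorem lno112_14_1_ok : IsCopyMask lno112_14_1 := isCopyMask_of (x := 12) (y := 14) (R := 1) rfl rfl (by decide +kernel)
def lo112_14_1 (c : ℕ) : Cert := Cert.leaf c lno112_14_1 lno112_14_1_ok
def lno112_14_3 : ℕ := 5582121402720229811330720041122612988717672698677185690870086131668425963052206424948535970561702983792787708659439459543361532937243721728
theorem lno112_14_3_ok : IsCopyMask lno112_14_3 := isCopyMask_of (x := 12) (y := 14) (R := 3) rfl rfl (by decide +kernel)
def lo112_14_3 (c : ℕ) : Cert := Cert.leaf c lno112_14_3 lno112_14_3_ok
def lno112_14_4 : ℕ := 2026130649575290297732594037032072824488023070871155095219165457740154717208987530828538574408571540440625278865366421918145115428473964068872177441076732077415187956840695595008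
theorem lno112_14_4_ok : IsCopyMask lno112_14_4 := isCopyMask_of (x := 12) (y := 14) (R := 4) rfl rfl (by decide +kernel)
def lo112_14_4 (c : ℕ) : Cert := Cert.leaf c lno112_14_4 lno112_14_4_ok
def lno112_14_5 : ℕ := 506532662570727063137847046114714746944525853469848186373120750945124825506428473709850651405219891539131676166910601658036218198339792325776124554828065992663740694666957291520
theorem lno112_14_5_ok : IsCopyMask lno112_14_5 := isCopyMask_of (x := 12) (y := 14) (R := 5) rfl rfl (by decide +kernel)
def lo112_14_5 (c : ℕ) : Cert := Cert.leaf c lno112_14_5 lno112_14_5_ok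
def lno112_14_6 : ℕ := 2977131415407973247381624649497031949592422888221511449943412806819318622088474139920371091984573938784051846883475241329109572638063198208
theorem lno112_14_6_ok : IsCopyMask lno112_14_6 := isCopyMask_of (x := 12) (y := 14) (R := 6) rfl rfl (by decide +kernel)
def lo112_14_6 (c : ℕ) : Cert := Cert.leaf c lno112_14_6 lno112_14_6_ok
def lno112_14_7 : ℕ := 2977131415407973247381624649440666927592727386403465844074233704799596512722555446438036834049246298542841526245150209828534044703158435840
theorem lno112_14_7_ok : IsCopyMask lno112_14_7 := isCopyMask_of (x := 12) (y := 14) (R := 7) rfl rfl (by decide +kernel)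
def lo112_14_7 (c : ℕ) : Cert := Cert.leaf c lno112_14_7 lno112_14_7_ok
def lno112_15_0 : ℕ := 1318041150936877296207939516119712831514223715452708508489072811672410894811732801640617850707190881527861838495224091391226644606641919237749685681112559386624
theorem lno112_15_0_ok : IsCopyMask lno112_15_0 := isCopyMask_of (x := 12) (y := 15) (R := 0) rfl rfl (by decide +kernel)
def lo112_15_0 (c : ℕ) : Cert := Cert.leaf c lno112_15_0 lno112_15_0_ok
def lno112_15_1 : ℕ := 10297196514170943438899671535632756550715670178364191849758673627376640225019339032319639423516132703993562805594692118068085845836615418935795073588981137408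
theorem lno112_15_1_ok : IsCopyMask lno112_15_1 := isCopyMask_of (x := 12) (y := 15) (R := 1) rfl rfl (by decide +kernel)
def lo112_15_1 (c : ℕ) : Cert := Cert.leaf c lno112_15_1 lno112_15_1_ok
def lno112_15_2 : ℕ := 191800231002865716649240673567052865435816267630436187829792718197294452173339964278891076426878831757425580196984421834678713981313657727717803556864
theorem lno112_15_2_ok : IsCopyMask lno112_15_2 := isCopyMask_of (x := 12) (y := 15) (R := 2) rfl rfl (by decide +kernel)
def lo112_15_2 (c : ℕ) : Cert := Cert.leaf c lno112_15_2 lno112_15_2_ok
def lno112_15_3 : ℕ := 23975028866985032477269692816753397912607221218050575003606185720219039427106530935795040476642133065455641249363068480430652877869888605203084607488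
theorem lno112_15_3_ok : IsCopyMask lno112_15_3 := isCopyMask_of (x := 12) (y := 15) (R := 3) rfl rfl (by decide +kernel)
def lo112_15_3 (c : ℕ) : Cert := Cert.leaf c lno112_15_3 lno112_15_3_ok
def lno112_15_4 : ℕ := 8702164877349108118467594342297365684266407033085101363710081593406834576392729842180364960559277308268827002517628769194970859747440702863285093713733531299052372488323847062450620858368
theorem lno112_15_4_ok : IsCopyMask lno112_15_4 := isCopyMask_of (x := 12) (y := 15) (R := 4) rfl rfl (by decide +kernel)
def lo112_15_4 (c : ℕ) : Cert := Cert.leaf c lno112_15_4 lno112_15_4_ok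
def lno112_15_5 : ℕ := 2175541220097076023119180202912903702495654466879486082557466478768272216187816932347004340829715877849237653374543671476948932745389449534640232780609102341420542208618903178907138129920
theorem lno112_15_5_ok : IsCopyMask lno112_15_5 := isCopyMask_of (x := 12) (y := 15) (R := 5) rfl rfl (by decide +kernel)
def lo112_15_5 (c : ℕ) : Cert := Cert.leaf c lno112_15_5 lno112_15_5_ok
def lno112_15_6 : ℕ := 12786682065071435595146995500937215072566576834313255281196499055916539262873779649499721884257552803571408688732925684334233187281017881084525805568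
theorem lno112_15_6_ok : IsCopyMask lno112_15_6 := isCopyMask_of (x := 12) (y := 15) (R := 6) rfl rfl (by decide +kernel)
def lo112_15_6 (c : ℕ) : Cert := Cert.leaf c lno112_15_6 lno112_15_6_ok
def lno112_15_7 : ℕ := 12786682065071435595146995500695129146439564132046440861351869158375185256139023563998047892684892105690556810133645829821091489622667509839314288640
theorem lno112_15_7_ok : IsCopyMask lno112_15_7 := isCopyMask_of (x := 12) (y := 15) (R := 7) rfl rfl (by decide +kernel)
def lo112_15_7 (c : ℕ) : Cert := Cert.leaf c lno112_15_7 lno112_15_7_ok
def lno112_16_0 : ℕ := 5660943638056087747578005037280231432265149016696992878581506099495771858690488460136908814021195308191577109143421324716633579909341827508808148634657927460407899848704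
theorem lno112_16_0_ok : IsCopyMask lno112_16_0 := isCopyMask_of (x := 12) (y := 16) (R := 0) rfl rfl (by decide +kernel)
def lo112_16_0 (c : ℕ) : Cert := Cert.leaf c lno112_16_0 lno112_16_0_ok
def lno112_16_1 : ℕ := 44226122268849402623539863470684788051653568810796690772183248721920360040816142111349138342514083292048400844551208478291399409188760983658578964822587331128242208768
theorem lno112_16_1_ok : IsCopyMask lno112_16_1 := isCopyMask_of (x := 12) (y := 16) (R := 1) rfl rfl (by decide +kernel)
def lo112_16_1 (c : ℕ) : Cert := Cert.leaf c lno112_16_1 lno112_16_1_ok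
def lno112_16_2 : ℕ := 823775719522553535288091396203503720149919656537506840943872939116323747766731269667645396399681117752829072099873329601413395217080115058685638993683356319744
theorem lno112_16_2_ok : IsCopyMask lno112_16_2 := isCopyMask_of (x := 12) (y := 16) (R := 2) rfl rfl (by decide +kernel)
def lo112_16_2 (c : ℕ) : Cert := Cert.leaf c lno112_16_2 lno112_16_2_ok
def lno112_16_3 : ℕ := 102971964904356648611371194019921964931522681224964504514483649731642980295957126277251974606174213411812206504722959953658070106379453702510303827481956712448
theorem lno112_16_3_ok : IsCopyMask lno112_16_3 := isCopyMask_of (x := 12) (y := 16) (R := 3) rfl rfl (by decide +kernel)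
def lo112_16_3 (c : ℕ) : Cert := Cert.leaf c lno112_16_3 lno112_16_3_ok
def lno112_16_4 : ℕ := 37375513552614270543586411335961815120876879958524900341979801669173923728488788324327908838946425908409522352094925227161132090288260638497063036624780702988022335628561064990131086201586007932928
theorem lno112_16_4_ok : IsCopyMask lno112_16_4 := isCopyMask_of (x := 12) (y := 16) (R := 4) rfl rfl (by decide +kernel)
def lo112_16_4 (c : ℕ) : Cert := Cert.leaf c lno112_16_4 lno112_16_4_ok
def lno112_16_5 : ℕ := 9343878391416879464522618881841565338616149517363707897871474566926007530952115518065428167433667200334406539775449107917263684003551180534722218918543237516318254968605798480796595288960999096320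
theorem lno112_16_5_ok : IsCopyMask lno112_16_5 := isCopyMask_of (x := 12) (y := 16) (R := 5) rfl rfl (by decide +kernel)
def lo112_16_5 (c : ℕ) : Cert := Cert.leaf c lno112_16_5 lno112_16_5_ok
def lno112_16_6 : ℕ := 54918381293831559784926641989184476085991714286046642052038247194856411439542830570511648253981686532332312318758159492613951072609814960849255346582614704128
theorem lno112_16_6_ok : IsCopyMask lno112_16_6 := isCopyMask_of (x := 12) (y := 16) (R := 6) rfl rfl (by decide +kernel)
def lo112_16_6 (c : ℕ) : Cert := Cert.leaf c lno112_16_6 lno112_16_6_ok
def lno112_16_7 : ℕ := 54918381293831559784926641988144724950454322787634089052704348383692465173058489436744978706923329227229516995554090228328369478953280335041613084774304317440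
theorem lno112_16_7_ok : IsCopyMask lno112_16_7 := isCopyMask_of (x := 12) (y := 16) (R := 7) rfl rfl (by decide +kernel)
def lo112_16_7 (c : ℕ) : Cert := Cert.leaf c lno112_16_7 lno112_16_7_ok
def lno112_17_1 : ℕ := 189949748773605503817240313358896219406543636764057398571552039779681744691850555517132939618877634158767898476446220211539486420539450315574387083746547029299723068625364451328
theorem lno112_17_1_ok : IsCopyMask lno112_17_1 := isCopyMask_of (x := 12) (y := 17) (R := 1) rfl rfl (by decide +kernel)
def lo112_17_1 (c : ℕ) : Cert := Cert.leaf c lno112_17_1 lno112_17_1_ok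
def lno112_17_3 : ℕ := 442261221669071573706003092032035611852948795343455765650551633924125776719108258378939459684940726282258007031383582541279086673374994618627868042058630110051836100608
theorem lno112_17_3_ok : IsCopyMask lno112_17_3 := isCopyMask_of (x := 12) (y := 17) (R := 3) rfl rfl (by decide +kernel)
def lo112_17_3 (c : ℕ) : Cert := Cert.leaf c lno112_17_3 lno112_17_3_ok
def lno112_17_4 : ℕ := 160526608379683067287599779237959664648964486264382283370462464061668213749857729355655009643344230372705989877228700938222433250124198655068964334353883342505445411242205377671543577988768767403122321522688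
theorem lno112_17_4_ok : IsCopyMask lno112_17_4 := isCopyMask_of (x := 12) (y := 17) (R := 4) rfl rfl (by decide +kernel)
def lo112_17_4 (c : ℕ) : Cert := Cert.leaf c lno112_17_4 lno112_17_4_ok
def lno112_17_5 : ℕ := 40131652108936584402498640349781611382803528074523309558654891276242965597289043892105111167364812874784156351904077102217022196603730668258823722699695693094547171417951411190987860794235160938179953950720
theorem lno112_17_5_ok : IsCopyMask lno112_17_5 := isCopyMask_of (x := 12) (y := 17) (R := 5) rfl rfl (by decide +kernel)
def lo112_17_5 (c : ℕ) : Cert := Cert.leaf c lno112_17_5 lno112_17_5_ok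
def lno112_17_6 : ℕ := 235872651606264715808928721102647710500228496585546316744122601843072026548756738491616551237906845439290928013124222353928873410203276625459072099525475516398476197888
theorem lno112_17_6_ok : IsCopyMask lno112_17_6 := isCopyMask_of (x := 12) (y := 17) (R := 6) rfl rfl (by decide +kernel)
def lo112_17_6 (c : ℕ) : Cert := Cert.leaf c lno112_17_6 lno112_17_6_ok
def lno112_17_7 : ℕ := 235872651606264715808928721098182013377116536714715965696116796664949597639905192425981144238452067810391728181780994929703519661108899350923650998191312584556402442240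
theorem lno112_17_7_ok : IsCopyMask lno112_17_7 := isCopyMask_of (x := 12) (y := 17) (R := 7) rfl rfl (by decide +kernel)
def lo112_17_7 (c : ℕ) : Cert := Cert.leaf c lno112_17_7 lno112_17_7_ok
def lno112_18_1 : ℕ := 815827958866051746900650306849251173009145448298529795131653126815824138739719733665518343347422142937760595610984742111376295988853041783208871979936232643768264361602703994534743769088
theorem lno112_18_1_ok : IsCopyMask lno112_18_1 := isCopyMask_of (x := 12) (y := 18) (R := 1) rfl rfl (by decide +kernel)
def lo112_18_1 (c : ℕ) : Cert := Cert.leaf c lno112_18_1 lno112_18_1_ok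
def lno112_18_3 : ℕ := 1899497483357668943750536799152471137215765037162739601091759432063484356399168148021062954510730883080785805233930532646110247270895035831182685634845368837233516916863525715968
theorem lno112_18_3_ok : IsCopyMask lno112_18_3 := isCopyMask_of (x := 12) (y := 18) (R := 3) rfl rfl (by decide +kernel)
def lo112_18_3 (c : ℕ) : Cert := Cert.leaf c lno112_18_3 lno112_18_3_ok
def lno112_18_6 : ℕ := 1013065324669708823118083041930976975607757193362169096709263775130423678199353941281117457739118216656281289245858793795556648406947065818387955653967974461780166974163384270848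
theorem lno112_18_6_ok : IsCopyMask lno112_18_6 := isCopyMask_of (x := 12) (y := 18) (R := 6) rfl rfl (by decide +kernel)
def lo112_18_6 (c : ℕ) : Cert := Cert.leaf c lno112_18_6 lno112_18_6_ok
def lno112_18_7 : ℕ := 1013065324669708823118083041911796952510150039970488354593879515872240391351751586010175915216810456909206801489670916257418435920555725806772708430149442701982983156835328983040
theorem lno112_18_7_ok : IsCopyMask lno112_18_7 := isCopyMask_of (x := 12) (y := 18) (R := 7) rfl rfl (by decide +kernel)
def lo112_18_7 (c : ℕ) : Cert := Cert.leaf c lno112_18_7 lno112_18_7_ok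
def lno112_19_3 : ℕ := 8158279569855492384203419134804384051925639330234191216453192655812199106542035517355352508780724823889174759460757267250903853638967431543677811803109857172975502272991593845337544982528
theorem lno112_19_3_ok : IsCopyMask lno112_19_3 := isCopyMask_of (x := 12) (y := 19) (R := 3) rfl rfl (by decide +kernel)
def lo112_19_3 (c : ℕ) : Cert := Cert.leaf c lno112_19_3 lno112_19_3_ok
def lno112_19_6 : ℕ := 4351082438168021397134815411305742799564306869399264553988149134422667832490253346131103823324174840416570610287680022785923515023208146893135744974090742944709019095451012403972966187008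
theorem lno112_19_6_ok : IsCopyMask lno112_19_6 := isCopyMask_of (x := 12) (y := 19) (R := 6) rfl rfl (by decide +kernel)
def lo112_19_6 (c : ℕ) : Cert := Cert.leaf c lno112_19_6 lno112_19_6_ok
def lno112_19_7 : ℕ := 4351082438168021397134815411223365227623559529726340288129563882435585395106014294229836679063069661855860453698900667127966899666258496485631998012835356797642787007126576839557738659840
theorem lno112_19_7_ok : IsCopyMask lno112_19_7 := isCopyMask_of (x := 12) (y := 19) (R := 7) rfl rfl (by decide +kernel)
def lo112_19_7 (c : ℕ) : Cert := Cert.leaf c lno112_19_7 lno112_19_7_ok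
def lno112_20_7 : ℕ := 18687756774131594053722260294201145003706783979283771367283693885803628098595569846625670043997132119040699314576500596467200081037093557087920365356264845678367060085902366458331526647727668592640
theorem lno112_20_7_ok : IsCopyMask lno112_20_7 := isCopyMask_of (x := 12) (y := 20) (R := 7) rfl rfl (by decide +kernel)
def lo112_20_7 (c : ℕ) : Cert := Cert.leaf c lno112_20_7 lno112_20_7_ok
def lno113_5_5 : ℕ := 2037035977757339279037442980922938483464397903190140180346808976811010748115844788482211840
theorem lno113_5_5_ok : IsCopyMask lno113_5_5 := isCopyMask_of (x := 13) (y := 5) (R := 5) rfl rfl (by decide +kernel)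
def lo113_5_5 (c : ℕ) : Cert := Cert.leaf c lno113_5_5 lno113_5_5_ok
def lno113_6_5 : ℕ := 8749002905243155627442035962528772682699425774532626144245086493362513535862046985943137330543984640
theorem lno113_6_5_ok : IsCopyMask lno113_6_5 := isCopyMask_of (x := 13) (y := 6) (R := 5) rfl rfl (by decide +kernel)
def lo113_6_5 (c : ℕ) : Cert := Cert.leaf c lno113_6_5 lno113_6_5_ok
def lno113_7_1 : ℕ := 177856649482622456978038860219429978199244223593490444694830042345906020554899456
theorem lno113_7_1_ok : IsCopyMask lno113_7_1 := isCopyMask_of (x := 13) (y := 7) (R := 1) rfl rfl (by decide +kernel)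
def lo113_7_1 (c : ℕ) : Cert := Cert.leaf c lno113_7_1 lno113_7_1_ok
def lno113_7_4 : ℕ := 150306725350019343983793116333075164170656437431434485939195740968338597191305456248891209551474211788135858176
theorem lno113_7_4_ok : IsCopyMask lno113_7_4 := isCopyMask_of (x := 13) (y := 7) (R := 4) rfl rfl (by decide +kernel)
def lo113_7_4 (c : ℕ) : Cert := Cert.leaf c lno113_7_4 lno113_7_4_ok
def lno113_7_5 : ℕ := 37576681350628340347701904594716960131212218699597098974527225097683316708884814972241146550323155918326333440
theorem lno113_7_5_ok : IsCopyMask lno113_7_5 := isCopyMask_of (x := 13) (y := 7) (R := 5) rfl rfl (by decide +kernel)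
def lo113_7_5 (c : ℕ) : Cert := Cert.leaf c lno113_7_5 lno113_7_5_ok
def lno113_8_1 : ℕ := 763888492903998773035843894859567140127746912250953058452791732153961477772796936088190976
theorem lno113_8_1_ok : IsCopyMask lno113_8_1 := isCopyMask_of (x := 13) (y := 8) (R := 1) rfl rfl (by decide +kernel)
def lo113_8_1 (c : ℕ) : Cert := Cert.leaf c lno113_8_1 lno113_8_1_ok
def lno113_8_3 : ℕ := 1778566490726587239786793712458054799799889117178945717479090809692520816612212736
theorem lno113_8_3_ok : IsCopyMask lno113_8_3 := isCopyMask_of (x := 13) (y := 8) (R := 3) rfl rfl (by decide +kernel)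
def lo113_8_3 (c : ℕ) : Cert := Cert.leaf c lno113_8_3 lno113_8_3_ok
def lno113_8_4 : ℕ := 645562469747187235377765788680481273222800361619881359475417552001501646391174390135346581285464568217421191670814212096
theorem lno113_8_4_ok : IsCopyMask lno113_8_4 := isCopyMask_of (x := 13) (y := 8) (R := 4) rfl rfl (by decide +kernel)
def lo113_8_4 (c : ℕ) : Cert := Cert.leaf c lno113_8_4 lno113_8_4_ok
def lno113_8_5 : ℕ := 161390617493161830844136948991221478140092348150369188472069568856180250629470632936786872259181172900720449180391178240
theorem lno113_8_5_ok : IsCopyMask lno113_8_5 := isCopyMask_of (x := 13) (y := 8) (R := 5) rfl rfl (by decide +kernel)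
def lo113_8_5 (c : ℕ) : Cert := Cert.leaf c lno113_8_5 lno113_8_5_ok
def lno113_9_1 : ℕ := 3280876094813402797813076164183103379564922250282825130885916849500456183877993758947782413722320896
theorem lno113_9_1_ok : IsCopyMask lno113_9_1 := isCopyMask_of (x := 13) (y := 9) (R := 1) rfl rfl (by decide +kernel)
def lo113_9_1 (c : ℕ) : Cert := Cert.leaf c lno113_9_1 lno113_9_1_ok
def lno113_9_3 : ℕ := 7638884911432179472575189007705773136916351102709883636331950591443536723148667215314681856
theorem lno113_9_3_ok : IsCopyMask lno113_9_3 := isCopyMask_of (x := 13) (y := 9) (R := 3) rfl rfl (by decide +kernel)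
def lo113_9_3 (c : ℕ) : Cert := Cert.leaf c lno113_9_3 lno113_9_3_ok
def lno113_9_5 : ℕ := 693167424014375567111052269262516439704475541725681754813599007674114303934659782255920051675312773347515784068210115027706839040
theorem lno113_9_5_ok : IsCopyMask lno113_9_5 := isCopyMask_of (x := 13) (y := 9) (R := 5) rfl rfl (by decide +kernel)
def lo113_9_5 (c : ℕ) : Cert := Cert.leaf c lno113_9_5 lno113_9_5_ok
def lno113_9_6 : ℕ := 4074071953617540967789841532980213924764828625336782904408244668570806565881889456511778816
theorem lno113_9_6_ok : IsCopyMask lno113_9_6 := isCopyMask_of (x := 13) (y := 9) (R := 6) rfl rfl (by decide +kernel)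
def lo113_9_6 (c : ℕ) : Cert := Cert.leaf c lno113_9_6 lno113_9_6_ok
def lno113_9_7 : ℕ := 4074071953617540967789841532903080898622438159991246588916981984425323136434783301329223680
theorem lno113_9_7_ok : IsCopyMask lno113_9_7 := isCopyMask_of (x := 13) (y := 9) (R := 7) rfl rfl (by decide +kernel)
def lo113_9_7 (c : ℕ) : Cert := Cert.leaf c lno113_9_7 lno113_9_7_ok
def lno113_10_0 : ℕ := 1803680703832774005993082529258911104278638761403969992410384958507829004057213644484045941546323945171292520448
theorem lno113_10_0_ok : IsCopyMask lno113_10_0 := isCopyMask_of (x := 13) (y := 10) (R := 0) rfl rfl (by decide +kernel)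
def lo113_10_0 (c : ℕ) : Cert := Cert.leaf c lno113_10_0 lno113_10_0_ok
def lno113_10_1 : ℕ := 14091255529451760239082062446323555571018415773747460687641932375579813246836945648772832838661309873537417216
theorem lno113_10_1_ok : IsCopyMask lno113_10_1 := isCopyMask_of (x := 13) (y := 10) (R := 1) rfl rfl (by decide +kernel)
def lo113_10_1 (c : ℕ) : Cert := Cert.leaf c lno113_10_1 lno113_10_1_ok
def lno113_10_2 : ℕ := 262470087071739157788755599394999956886030483437655975267057412799729101472935413175461743139569532928
theorem lno113_10_2_ok : IsCopyMask lno113_10_2 := isCopyMask_of (x := 13) (y := 10) (R := 2) rfl rfl (by decide +kernel)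
def lo113_10_2 (c : ℕ) : Cert := Cert.leaf c lno113_10_2 lno113_10_2_ok
def lno113_10_3 : ℕ := 32808760872509067356712965689114987613451058273792487194011285190137847656498531835763948920164581376
theorem lno113_10_3_ok : IsCopyMask lno113_10_3 := isCopyMask_of (x := 13) (y := 10) (R := 3) rfl rfl (by decide +kernel)
def lo113_10_3 (c : ℕ) : Cert := Cert.leaf c lno113_10_3 lno113_10_3_ok
def lno113_10_5 : ℕ := 2977131416794308094603422696629094147193078356543686540228298314018373961165167885675657724336098372098640735416760277300399007552336035840
theorem lno113_10_5_ok : IsCopyMask lno113_10_5 := isCopyMask_of (x := 13) (y := 10) (R := 5) rfl rfl (by decide +kernel)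
def lo113_10_5 (c : ℕ) : Cert := Cert.leaf c lno113_10_5 lno113_10_5_ok
def lno113_10_6 : ℕ := 17498005802338167348597558785172524221948743436866119560285305084277973260804784614405304253505601536
theorem lno113_10_6_ok : IsCopyMask lno113_10_6 := isCopyMask_of (x := 13) (y := 10) (R := 6) rfl rfl (by decide +kernel)
def lo113_10_6 (c : ℕ) : Cert := Cert.leaf c lno113_10_6 lno113_10_6_ok
def lno113_10_7 : ℕ := 17498005802338167348597558784841240397225663348944819745669993682127944225219540316055929034668769280
theorem lno113_10_7_ok : IsCopyMask lno113_10_7 := isCopyMask_of (x := 13) (y := 10) (R := 7) rfl rfl (by decide +kernel)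
def lo113_10_7 (c : ℕ) : Cert := Cert.leaf c lno113_10_7 lno113_10_7_ok
def lno113_11_0 : ℕ := 7746749635388026208699197465395986309447999151627998161967971607561442532385983915943948112702989013532398493373571268608
theorem lno113_11_0_ok : IsCopyMask lno113_11_0 := isCopyMask_of (x := 13) (y := 11) (R := 0) rfl rfl (by decide +kernel)
def lo113_11_0 (c : ℕ) : Cert := Cert.leaf c lno113_11_0 lno113_11_0_ok
def lno113_11_1 : ℕ := 60521481658574475036490599267189426611962701161975879016467770911358886932952257006008819575325170327365102775027367936
theorem lno113_11_1_ok : IsCopyMask lno113_11_1 := isCopyMask_of (x := 13) (y := 11) (R := 1) rfl rfl (by decide +kernel)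
def lo113_11_1 (c : ℕ) : Cert := Cert.leaf c lno113_11_1 lno113_11_1_ok
def lno113_11_2 : ℕ := 1127300440151392088545288975938402200746910925623802068670996454129208288485723028708855696483603507443755122688
theorem lno113_11_2_ok : IsCopyMask lno113_11_2 := isCopyMask_of (x := 13) (y := 11) (R := 2) rfl rfl (by decide +kernel)
def lo113_11_2 (c : ℕ) : Cert := Cert.leaf c lno113_11_2 lno113_11_2_ok
def lno113_11_3 : ℕ := 140912554969710869760543353693918974983217384982528946388777276946571197416491436106621003787921391947450679296
theorem lno113_11_3_ok : IsCopyMask lno113_11_3 := isCopyMask_of (x := 13) (y := 11) (R := 3) rfl rfl (by decide +kernel)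
def lo113_11_3 (c : ℕ) : Cert := Cert.leaf c lno113_11_3 lno113_11_3_ok
def lno113_11_4 : ℕ := 51146728266240005208631258802454607320665855434125271827439014677056374000451345635702171865589750793185180867898868768914168424782507916991194464256
theorem lno113_11_4_ok : IsCopyMask lno113_11_4 := isCopyMask_of (x := 13) (y := 11) (R := 4) rfl rfl (by decide +kernel)
def lo113_11_4 (c : ℕ) : Cert := Cert.leaf c lno113_11_4 lno113_11_4_ok
def lno113_11_5 : ℕ := 12786682071025698425269774571686088804299281738920561285555929632440854506302370123326416789313325820402500844668374321277104905188140282335083888640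
theorem lno113_11_5_ok : IsCopyMask lno113_11_5 := isCopyMask_of (x := 13) (y := 11) (R := 5) rfl rfl (by decide +kernel)
def lo113_11_5 (c : ℕ) : Cert := Cert.leaf c lno113_11_5 lno113_11_5_ok
def lno113_11_6 : ℕ := 75153362666260669094801546447753481251037698449634624241851285766356418928319028559194752257736251949927366656
theorem lno113_11_6_ok : IsCopyMask lno113_11_6 := isCopyMask_of (x := 13) (y := 11) (R := 6) rfl rfl (by decide +kernel)
def lo113_11_6 (c : ℕ) : Cert := Cert.leaf c lno113_11_6 lno113_11_6_ok
def lno113_11_7 : ℕ := 75153362666260669094801546446330628058158273215623836916267660473266140135029984077613718910799214250169466880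
theorem lno113_11_7_ok : IsCopyMask lno113_11_7 := isCopyMask_of (x := 13) (y := 11) (R := 7) rfl rfl (by decide +kernel)
def lo113_11_7 (c : ℕ) : Cert := Cert.leaf c lno113_11_7 lno113_11_7_ok
def lno113_12_0 : ℕ := 33272036334291496836353923815321852888742892168877997263600549053932941987181221767761270113180259974568952965479161309396591443968
theorem lno113_12_0_ok : IsCopyMask lno113_12_0 := isCopyMask_of (x := 13) (y := 12) (R := 0) rfl rfl (by decide +kernel)
def lo113_12_0 (c : ℕ) : Cert := Cert.leaf c lno113_12_0 lno113_12_0_ok
def lno113_12_1 : ℕ := 259937784429041208262095530464020153135371883862507599116581721502306534295991688570194755563586215121662730270421390790079021056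
theorem lno113_12_1_ok : IsCopyMask lno113_12_1 := isCopyMask_of (x := 13) (y := 12) (R := 1) rfl rfl (by decide +kernel)
def lo113_12_1 (c : ℕ) : Cert := Cert.leaf c lno113_12_1 lno113_12_1_ok
def lno113_12_2 : ℕ := 4841718523216634309175152366524768362702409198579318284119075954216913757418313771218604321980379264701820811377427611648
theorem lno113_12_2_ok : IsCopyMask lno113_12_2 := isCopyMask_of (x := 13) (y := 12) (R := 2) rfl rfl (by decide +kernel)
def lo113_12_2 (c : ℕ) : Cert := Cert.leaf c lno113_12_2 lno113_12_2_ok
def lno113_12_3 : ℕ := 605214815190710456197249055305542791626760817358603356113135705913458032239390409142010780335814498233098418149304303616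
theorem lno113_12_3_ok : IsCopyMask lno113_12_3 := isCopyMask_of (x := 13) (y := 12) (R := 3) rfl rfl (by decide +kernel)
def lo113_12_3 (c : ℕ) : Cert := Cert.leaf c lno113_12_3 lno113_12_3_ok
def lno113_12_4 : ℕ := 219673525200899603257940913479854662966782034033431924865960723472421127880283218744533158158879287409520411499470537597882134815476707416338262943955760971776
theorem lno113_12_4_ok : IsCopyMask lno113_12_4 := isCopyMask_of (x := 13) (y := 12) (R := 4) rfl rfl (by decide +kernel)
def lo113_12_4 (c : ℕ) : Cert := Cert.leaf c lno113_12_4 lno113_12_4_ok
def lno113_12_5 : ℕ := 54918381319404923912092381762684158992617159264953821063426434950210770758862905566974446842966056695621110684463043675371362521344243239689391815125305917440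
theorem lno113_12_5_ok : IsCopyMask lno113_12_5 := isCopyMask_of (x := 13) (y := 12) (R := 5) rfl rfl (by decide +kernel)
def lo113_12_5 (c : ℕ) : Cert := Cert.leaf c lno113_12_5 lno113_12_5_ok
def lno113_12_6 : ℕ := 322781234836016936373250565603326174643356080904290614268000066862051116376805595916231461041799365118554269362920882176
theorem lno113_12_6_ok : IsCopyMask lno113_12_6 := isCopyMask_of (x := 13) (y := 12) (R := 6) rfl rfl (by decide +kernel)
def lo113_12_6 (c : ℕ) : Cert := Cert.leaf c lno113_12_6 lno113_12_6_ok
def lno113_12_7 : ℕ := 322781234836016936373250565597215066712929769452937135793407092115109954184106805592751648442819366426975022707355156480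
theorem lno113_12_7_ok : IsCopyMask lno113_12_7 := isCopyMask_of (x := 13) (y := 12) (R := 7) rfl rfl (by decide +kernel)
def lo113_12_7 (c : ℕ) : Cert := Cert.leaf c lno113_12_7 lno113_12_7_ok
def lno113_13_1 : ℕ := 1116424283117430022122025299770738262401334101987380298757196985163786553368386686296803475496316842423962087653529109582224996691215384576
theorem lno113_13_1_ok : IsCopyMask lno113_13_1 := isCopyMask_of (x := 13) (y := 13) (R := 1) rfl rfl (by decide +kernel)
def lo113_13_1 (c : ℕ) : Cert := Cert.leaf c lno113_13_1 lno113_13_1_ok
def lno113_13_3 : ℕ := 2599377838298785412372425217704201577565480348969430518741759532908176054736695450240995721221763167433807490700594829182774542336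
theorem lno113_13_3_ok : IsCopyMask lno113_13_3 := isCopyMask_of (x := 13) (y := 13) (R := 3) rfl rfl (by decide +kernel)
def lo113_13_3 (c : ℕ) : Cert := Cert.leaf c lno113_13_3 lno113_13_3_ok
def lno113_13_4 : ℕ := 943490606534895625772231275696341332275431170533949087941630490934548302185250227725384093079982111435674726434688280298442167895135453002933495417738674244571099037696
theorem lno113_13_4_ok : IsCopyMask lno113_13_4 := isCopyMask_of (x := 13) (y := 13) (R := 4) rfl rfl (by decide +kernel)
def lo113_13_4 (c : ℕ) : Cert := Cert.leaf c lno113_13_4 lno113_13_4_ok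
def lno113_13_5 : ℕ := 235872651716101478383805158601475296050555004491400060417652479813026648716269281557691586858229661145774496796964947906339642684133626672335027044093267057400076042240
theorem lno113_13_5_ok : IsCopyMask lno113_13_5 := isCopyMask_of (x := 13) (y := 13) (R := 5) rfl rfl (by decide +kernel)
def lo113_13_5 (c : ℕ) : Cert := Cert.leaf c lno113_13_5 lno113_13_5_ok
def lno113_13_6 : ℕ := 1386334847383188664625224028479788428913998831166658294360811266498322888318670047410005280740826362177753749714919943981389316096
theorem lno113_13_6_ok : IsCopyMask lno113_13_6 := isCopyMask_of (x := 13) (y := 13) (R := 6) rfl rfl (by decide +kernel)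
def lo113_13_6 (c : ℕ) : Cert := Cert.leaf c lno113_13_6 lno113_13_6_ok
def lno113_13_7 : ℕ := 1386334847383188664625224028453541420210491580145184809376594473048856720664797092991898224711998504839298094736947775738562478080
theorem lno113_13_7_ok : IsCopyMask lno113_13_7 := isCopyMask_of (x := 13) (y := 13) (R := 7) rfl rfl (by decide +kernel)
def lo113_13_7 (c : ℕ) : Cert := Cert.leaf c lno113_13_7 lno113_13_7_ok
def lno113_14_1 : ℕ := 4795005784449606872582655183799917134789596394805326987876870495908260450241779457926582276595818206664902533215792904639656583702478287245982826496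
theorem lno113_14_1_ok : IsCopyMask lno113_14_1 := isCopyMask_of (x := 13) (y := 14) (R := 1) rfl rfl (by decide +kernel)
def lo113_14_1 (c : ℕ) : Cert := Cert.leaf c lno113_14_1 lno113_14_1_ok
def lno113_14_3 : ℕ := 11164242805440459622661440082245225977435345397354371381740172263336851926104412849897071941123405967585575417318878919086723065874487443456
theorem lno113_14_3_ok : IsCopyMask lno113_14_3 := isCopyMask_of (x := 13) (y := 14) (R := 3) rfl rfl (by decide +kernel)
def lo113_14_3 (c : ℕ) : Cert := Cert.leaf c lno113_14_3 lno113_14_3_ok
def lno113_14_4 : ℕ := 4052261299150580595465188074064145648976046141742310190438330915480309434417975061657077148817143080881250557730732843836290230856947928137744354882153464154830375913681391190016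
theorem lno113_14_4_ok : IsCopyMask lno113_14_4 := isCopyMask_of (x := 13) (y := 14) (R := 4) rfl rfl (by decide +kernel)
def lo113_14_4 (c : ℕ) : Cert := Cert.leaf c lno113_14_4 lno113_14_4_ok
def lno113_14_5 : ℕ := 1013065325141454126275694092229429493889051706939696372746241501890249651012856947419701302810439783078263352333821203316072436396679584651552249109656131985327481389333914583040
theorem lno113_14_5_ok : IsCopyMask lno113_14_5 := isCopyMask_of (x := 13) (y := 14) (R := 5) rfl rfl (by decide +kernel)
def lo113_14_5 (c : ℕ) : Cert := Cert.leaf c lno113_14_5 lno113_14_5_ok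
def lno113_14_6 : ℕ := 5954262830815946494763249298994063899184845776443022899886825613638637244176948279840742183969147877568103693766950482658219145276126396416
theorem lno113_14_6_ok : IsCopyMask lno113_14_6 := isCopyMask_of (x := 13) (y := 14) (R := 6) rfl rfl (by decide +kernel)
def lo113_14_6 (c : ℕ) : Cert := Cert.leaf c lno113_14_6 lno113_14_6_ok
def lno113_14_7 : ℕ := 5954262830815946494763249298881333855185454772806931688148467409599193025445110892876073668098492597085683052490300419657068089406316871680
theorem lno113_14_7_ok : IsCopyMask lno113_14_7 := isCopyMask_of (x := 13) (y := 14) (R := 7) rfl rfl (by decide +kernel)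
def lo113_14_7 (c : ℕ) : Cert := Cert.leaf c lno113_14_7 lno113_14_7_ok
def lno113_15_0 : ℕ := 2636082301873754592415879032239425663028447430905417016978145623344821789623465603281235701414381763055723676990448182782453289213283838475499371362225118773248
theorem lno113_15_0_ok : IsCopyMask lno113_15_0 := isCopyMask_of (x := 13) (y := 15) (R := 0) rfl rfl (by decide +kernel)
def lo113_15_0 (c : ℕ) : Cert := Cert.leaf c lno113_15_0 lno113_15_0_ok
def lno113_15_1 : ℕ := 20594393028341886877799343071265513101431340356728383699517347254753280450038678064639278847032265407987125611189384236136171691673230837871590147177962274816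
theorem lno113_15_1_ok : IsCopyMask lno113_15_1 := isCopyMask_of (x := 13) (y := 15) (R := 1) rfl rfl (by decide +kernel)
def lo113_15_1 (c : ℕ) : Cert := Cert.leaf c lno113_15_1 lno113_15_1_ok
def lno113_15_2 : ℕ := 383600462005731433298481347134105730871632535260872375659585436394588904346679928557782152853757663514851160393968843669357427962627315455435607113728
theorem lno113_15_2_ok : IsCopyMask lno113_15_2 := isCopyMask_of (x := 13) (y := 15) (R := 2) rfl rfl (by decide +kernel)
def lo113_15_2 (c : ℕ) : Cert := Cert.leaf c lno113_15_2 lno113_15_2_ok
def lno113_15_3 : ℕ := 47950057733970064954539385633506795825214442436101150007212371440438078854213061871590080953284266130911282498726136960861305755739777210406169214976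
theorem lno113_15_3_ok : IsCopyMask lno113_15_3 := isCopyMask_of (x := 13) (y := 15) (R := 3) rfl rfl (by decide +kernel)
def lo113_15_3 (c : ℕ) : Cert := Cert.leaf c lno113_15_3 lno113_15_3_ok
def lno113_15_4 : ℕ := 17404329754698216236935188684594731368532814066170202727420163186813669152785459684360729921118554616537654005035257538389941719494881405726570187427467062598104744976647694124901241716736
theorem lno113_15_4_ok : IsCopyMask lno113_15_4 := isCopyMask_of (x := 13) (y := 15) (R := 4) rfl rfl (by decide +kernel)
def lo113_15_4 (c : ℕ) : Cert := Cert.leaf c lno113_15_4 lno113_15_4_ok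
def lno113_15_5 : ℕ := 4351082440194152046238360405825807404991308933758972165114932957536544432375633864694008681659431755698475306749087342953897865490778899069280465561218204682841084417237806357814276259840
theorem lno113_15_5_ok : IsCopyMask lno113_15_5 := isCopyMask_of (x := 13) (y := 15) (R := 5) rfl rfl (by decide +kernel)
def lo113_15_5 (c : ℕ) : Cert := Cert.leaf c lno113_15_5 lno113_15_5_ok
def lno113_15_6 : ℕ := 25573364130142871190293991001874430145133153668626510562392998111833078525747559298999443768515105607142817377465851368668466374562035762169051611136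
theorem lno113_15_6_ok : IsCopyMask lno113_15_6 := isCopyMask_of (x := 13) (y := 15) (R := 6) rfl rfl (by decide +kernel)
def lo113_15_6 (c : ℕ) : Cert := Cert.leaf c lno113_15_6 lno113_15_6_ok
def lno113_15_7 : ℕ := 25573364130142871190293991001390258292879128264092881722703738316750370512278047127996095785369784211381113620267291659642182979245335019678628577280
theorem lno113_15_7_ok : IsCopyMask lno113_15_7 := isCopyMask_of (x := 13) (y := 15) (R := 7) rfl rfl (by decide +kernel)
def lo113_15_7 (c : ℕ) : Cert := Cert.leaf c lno113_15_7 lno113_15_7_ok
def lno113_16_0 : ℕ := 11321887276112175495156010074560462864530298033393985757163012198991543717380976920273817628042390616383154218286842649433267159818683655017616297269315854920815799697408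
theorem lno113_16_0_ok : IsCopyMask lno113_16_0 := isCopyMask_of (x := 13) (y := 16) (R := 0) rfl rfl (by decide +kernel)
def lo113_16_0 (c : ℕ) : Cert := Cert.leaf c lno113_16_0 lno113_16_0_ok
def lno113_16_1 : ℕ := 88452244537698805247079726941369576103307137621593381544366497443840720081632284222698276685028166584096801689102416956582798818377521967317157929645174662256484417536
theorem lno113_16_1_ok : IsCopyMask lno113_16_1 := isCopyMask_of (x := 13) (y := 16) (R := 1) rfl rfl (by decide +kernel)
def lo113_16_1 (c : ℕ) : Cert := Cert.leaf c lno113_16_1 lno113_16_1_ok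
def lno113_16_2 : ℕ := 1647551439045107070576182792407007440299839313075013681887745878232647495533462539335290792799362235505658144199746659202826790434160230117371277987366712639488
theorem lno113_16_2_ok : IsCopyMask lno113_16_2 := isCopyMask_of (x := 13) (y := 16) (R := 2) rfl rfl (by decide +kernel)
def lo113_16_2 (c : ℕ) : Cert := Cert.leaf c lno113_16_2 lno113_16_2_ok
def lno113_16_3 : ℕ := 205943929808713297222742388039843929863045362449929009028967299463285960591914252554503949212348426823624413009445919907316140212758907405020607654963913424896
theorem lno113_16_3_ok : IsCopyMask lno113_16_3 := isCopyMask_of (x := 13) (y := 16) (R := 3) rfl rfl (by decide +kernel)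
def lo113_16_3 (c : ℕ) : Cert := Cert.leaf c lno113_16_3 lno113_16_3_ok
def lno113_16_4 : ℕ := 74751027105228541087172822671923630241753759917049800683959603338347847456977576648655817677892851816819044704189850454322264180576521276994126073249561405976044671257122129980262172403172015865856
theorem lno113_16_4_ok : IsCopyMask lno113_16_4 := isCopyMask_of (x := 13) (y := 16) (R := 4) rfl rfl (by decide +kernel)
def lo113_16_4 (c : ℕ) : Cert := Cert.leaf c lno113_16_4 lno113_16_4_ok
def lno113_16_5 : ℕ := 18687756782833758929045237763683130677232299034727415795742949133852015061904231036130856334867334400668813079550898215834527368007102361069444437837086475032636509937211596961593190577921998192640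
theorem lno113_16_5_ok : IsCopyMask lno113_16_5 := isCopyMask_of (x := 13) (y := 16) (R := 5) rfl rfl (by decide +kernel)
def lo113_16_5 (c : ℕ) : Cert := Cert.leaf c lno113_16_5 lno113_16_5_ok
def lno113_16_7 : ℕ := 109836762587663119569853283976289449900908645575268178105408696767384930346116978873489957413846658454459033991108180456656738957906560670083226169548608634880
theorem lno113_16_7_ok : IsCopyMask lno113_16_7 := isCopyMask_of (x := 13) (y := 16) (R := 7) rfl rfl (by decide +kernel)
def lo113_16_7 (c : ℕ) : Cert := Cert.leaf c lno113_16_7 lno113_16_7_ok
def lno113_17_1 : ℕ := 379899497547211007634480626717792438813087273528114797143104079559363489383701111034265879237755268317535796952892440423078972841078900631148774167493094058599446137250728902656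
theorem lno113_17_1_ok : IsCopyMask lno113_17_1 := isCopyMask_of (x := 13) (y := 17) (R := 1) rfl rfl (by decide +kernel)
def lo113_17_1 (c : ℕ) : Cert := Cert.leaf c lno113_17_1 lno113_17_1_ok
def lno113_17_3 : ℕ := 884522443338143147412006184064071223705897590686911531301103267848251553438216516757878919369881452564516014062767165082558173346749989237255736084117260220103672201216
theorem lno113_17_3_ok : IsCopyMask lno113_17_3 := isCopyMask_of (x := 13) (y := 17) (R := 3) rfl rfl (by decide +kernel)
def lo113_17_3 (c : ℕ) : Cert := Cert.leaf c lno113_17_3 lno113_17_3_ok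
def lno113_17_7 : ℕ := 471745303212529431617857442196364026754233073429431931392233593329899195279810384851962288476904135620783456363561989859407039322217798701847301996382625169112804884480
theorem lno113_17_7_ok : IsCopyMask lno113_17_7 := isCopyMask_of (x := 13) (y := 17) (R := 7) rfl rfl (by decide +kernel)
def lo113_17_7 (c : ℕ) : Cert := Cert.leaf c lno113_17_7 lno113_17_7_ok
def lno113_18_1 : ℕ := 1631655917732103493801300613698502346018290896597059590263306253631648277479439467331036686694844285875521191221969484222752591977706083566417743959872465287536528723205407989069487538176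
theorem lno113_18_1_ok : IsCopyMask lno113_18_1 := isCopyMask_of (x := 13) (y := 18) (R := 1) rfl rfl (by decide +kernel)
def lo113_18_1 (c : ℕ) : Cert := Cert.leaf c lno113_18_1 lno113_18_1_ok
def lno113_18_3 : ℕ := 3798994966715337887501073598304942274431530074325479202183518864126968712798336296042125909021461766161571610467861065292220494541790071662365371269690737674467033833727051431936
theorem lno113_18_3_ok : IsCopyMask lno113_18_3 := isCopyMask_of (x := 13) (y := 18) (R := 3) rfl rfl (by decide +kernel)
def lo113_18_3 (c : ℕ) : Cert := Cert.leaf c lno113_18_3 lno113_18_3_ok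
def lno113_18_6 : ℕ := 2026130649339417646236166083861953951215514386724338193418527550260847356398707882562234915478236433312562578491717587591113296813894131636775911307935948923560333948326768541696
theorem lno113_18_6_ok : IsCopyMask lno113_18_6 := isCopyMask_of (x := 13) (y := 18) (R := 6) rfl rfl (by decide +kernel)
def lo113_18_6 (c : ℕ) : Cert := Cert.leaf c lno113_18_6 lno113_18_6_ok
def lno113_18_7 : ℕ := 2026130649339417646236166083823593905020300079940976709187759031744480782703503172020351830433620913818413602979341832514836871841111451613545416860298885403965966313670657966080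
theorem lno113_18_7_ok : IsCopyMask lno113_18_7 := isCopyMask_of (x := 13) (y := 18) (R := 7) rfl rfl (by decide +kernel)
def lo113_18_7 (c : ℕ) : Cert := Cert.leaf c lno113_18_7 lno113_18_7_ok
def lno113_19_3 : ℕ := 16316559139710984768406838269608768103851278660468382432906385311624398213084071034710705017561449647778349518921514534501807707277934863087355623606219714345951004545983187690675089965056
theorem lno113_19_3_ok : IsCopyMask lno113_19_3 := isCopyMask_of (x := 13) (y := 19) (R := 3) rfl rfl (by decide +kernel)
def lo113_19_3 (c : ℕ) : Cert := Cert.leaf c lno113_19_3 lno113_19_3_ok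
def lno113_19_7 : ℕ := 8702164876336042794269630822446730455247119059452680576259127764871170790212028588459673358126139323711720907397801334255933799332516992971263996025670713595285574014253153679115477319680
theorem lno113_19_7_ok : IsCopyMask lno113_19_7 := isCopyMask_of (x := 13) (y := 19) (R := 7) rfl rfl (by decide +kernel)
def lo113_19_7 (c : ℕ) : Cert := Cert.leaf c lno113_19_7 lno113_19_7_ok
def lno114_7_1 : ℕ := 355713298965244913956077720438859956398488447186980889389660084691812041109798912
theorem lno114_7_1_ok : IsCopyMask lno114_7_1 := isCopyMask_of (x := 14) (y := 7) (R := 1) rfl rfl (by decide +kernel)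
def lo114_7_1 (c : ℕ) : Cert := Cert.leaf c lno114_7_1 lno114_7_1_ok
def lno114_7_5 : ℕ := 75153362701256680695403809189433920262424437399194197949054450195366633417769629944482293100646311836652666880
theorem lno114_7_5_ok : IsCopyMask lno114_7_5 := isCopyMask_of (x := 14) (y := 7) (R := 5) rfl rfl (by decide +kernel)
def lo114_7_5 (c : ℕ) : Cert := Cert.leaf c lno114_7_5 lno114_7_5_ok
def lno114_8_1 : ℕ := 1527776985807997546071687789719134280255493824501906116905583464307922955545593872176381952
theorem lno114_8_1_ok : IsCopyMask lno114_8_1 := isCopyMask_of (x := 14) (y := 8) (R := 1) rfl rfl (by decide +kernel)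
def lo114_8_1 (c : ℕ) : Cert := Cert.leaf c lno114_8_1 lno114_8_1_ok
def lno114_8_3 : ℕ := 3557132981453174479573587424916109599599778234357891434958181619385041633224425472
theorem lno114_8_3_ok : IsCopyMask lno114_8_3 := isCopyMask_of (x := 14) (y := 8) (R := 3) rfl rfl (by decide +kernel)
def lo114_8_3 (c : ℕ) : Cert := Cert.leaf c lno114_8_3 lno114_8_3_ok
def lno114_8_4 : ℕ := 1291124939494374470755531577360962546445600723239762718950835104003003292782348780270693162570929136434842383341628424192
theorem lno114_8_4_ok : IsCopyMask lno114_8_4 := isCopyMask_of (x := 14) (y := 8) (R := 4) rfl rfl (by decide +kernel)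
def lo114_8_4 (c : ℕ) : Cert := Cert.leaf c lno114_8_4 lno114_8_4_ok
def lno114_8_5 : ℕ := 322781234986323661688273897982442956280184696300738376944139137712360501258941265873573744518362345801440898360782356480
theorem lno114_8_5_ok : IsCopyMask lno114_8_5 := isCopyMask_of (x := 14) (y := 8) (R := 5) rfl rfl (by decide +kernel)
def lo114_8_5 (c : ℕ) : Cert := Cert.leaf c lno114_8_5 lno114_8_5_ok
def lno114_9_1 : ℕ := 6561752189626805595626152328366206759129844500565650261771833699000912367755987517895564827444641792
theorem lno114_9_1_ok : IsCopyMask lno114_9_1 := isCopyMask_of (x := 14) (y := 9) (R := 1) rfl rfl (by decide +kernel)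
def lo114_9_1 (c : ℕ) : Cert := Cert.leaf c lno114_9_1 lno114_9_1_ok
def lno114_9_3 : ℕ := 15277769822864358945150378015411546273832702205419767272663901182887073446297334430629363712
theorem lno114_9_3_ok : IsCopyMask lno114_9_3 := isCopyMask_of (x := 14) (y := 9) (R := 3) rfl rfl (by decide +kernel)
def lo114_9_3 (c : ℕ) : Cert := Cert.leaf c lno114_9_3 lno114_9_3_ok
def lno114_9_4 : ℕ := 5545339390178317127872316535860628124064736149388728044693876203581657828280500857328117160492951921321170071366989277288655224832
theorem lno114_9_4_ok : IsCopyMask lno114_9_4 := isCopyMask_of (x := 14) (y := 9) (R := 4) rfl rfl (by decide +kernel)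
def lo114_9_4 (c : ℕ) : Cert := Cert.leaf c lno114_9_4 lno114_9_4_ok
def lno114_9_5 : ℕ := 1386334848028751134222104538525032879408951083451363509627198015348228607869319564511840103350625546695031568136420230055413678080
theorem lno114_9_5_ok : IsCopyMask lno114_9_5 := isCopyMask_of (x := 14) (y := 9) (R := 5) rfl rfl (by decide +kernel)
def lo114_9_5 (c : ℕ) : Cert := Cert.leaf c lno114_9_5 lno114_9_5_ok
def lno114_10_1 : ℕ := 28182511058903520478164124892647111142036831547494921375283864751159626493673891297545665677322619747074834432
theorem lno114_10_1_ok : IsCopyMask lno114_10_1 := isCopyMask_of (x := 14) (y := 10) (R := 1) rfl rfl (by decide +kernel)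
def lo114_10_1 (c : ℕ) : Cert := Cert.leaf c lno114_10_1 lno114_10_1_ok
def lno114_10_3 : ℕ := 65617521745018134713425931378229975226902116547584974388022570380275695312997063671527897840329162752
theorem lno114_10_3_ok : IsCopyMask lno114_10_3 := isCopyMask_of (x := 14) (y := 10) (R := 3) rfl rfl (by decide +kernel)
def lo114_10_3 (c : ℕ) : Cert := Cert.leaf c lno114_10_3 lno114_10_3_ok
def lno114_10_6 : ℕ := 34996011604676334697195117570345048443897486873732239120570610168555946521609569228810608507011203072
theorem lno114_10_6_ok : IsCopyMask lno114_10_6 := isCopyMask_of (x := 14) (y := 10) (R := 6) rfl rfl (by decide +kernel)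
def lo114_10_6 (c : ℕ) : Cert := Cert.leaf c lno114_10_6 lno114_10_6_ok
def lno114_10_7 : ℕ := 34996011604676334697195117569682480794451326697889639491339987364255888450439080632111858069337538560
theorem lno114_10_7_ok : IsCopyMask lno114_10_7 := isCopyMask_of (x := 14) (y := 10) (R := 7) rfl rfl (by decide +kernel)
def lo114_10_7 (c : ℕ) : Cert := Cert.leaf c lno114_10_7 lno114_10_7_ok
def lno114_11_0 : ℕ := 15493499270776052417398394930791972618895998303255996323935943215122885064771967831887896225405978027064796986747142537216
theorem lno114_11_0_ok : IsCopyMask lno114_11_0 := isCopyMask_of (x := 14) (y := 11) (R := 0) rfl rfl (by decide +kernel)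
def lo114_11_0 (c : ℕ) : Cert := Cert.leaf c lno114_11_0 lno114_11_0_ok
def lno114_11_1 : ℕ := 121042963317148950072981198534378853223925402323951758032935541822717773865904514012017639150650340654730205550054735872
theorem lno114_11_1_ok : IsCopyMask lno114_11_1 := isCopyMask_of (x := 14) (y := 11) (R := 1) rfl rfl (by decide +kernel)
def lo114_11_1 (c : ℕ) : Cert := Cert.leaf c lno114_11_1 lno114_11_1_ok
def lno114_11_2 : ℕ := 2254600880302784177090577951876804401493821851247604137341992908258416576971446057417711392967207014887510245376
theorem lno114_11_2_ok : IsCopyMask lno114_11_2 := isCopyMask_of (x := 14) (y := 11) (R := 2) rfl rfl (by decide +kernel)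
def lo114_11_2 (c : ℕ) : Cert := Cert.leaf c lno114_11_2 lno114_11_2_ok
def lno114_11_3 : ℕ := 281825109939421739521086707387837949966434769965057892777554553893142394832982872213242007575842783894901358592
theorem lno114_11_3_ok : IsCopyMask lno114_11_3 := isCopyMask_of (x := 14) (y := 11) (R := 3) rfl rfl (by decide +kernel)
def lo114_11_3 (c : ℕ) : Cert := Cert.leaf c lno114_11_3 lno114_11_3_ok
def lno114_11_6 : ℕ := 150306725332521338189603092895506962502075396899269248483702571532712837856638057118389504515472503899854733312
theorem lno114_11_6_ok : IsCopyMask lno114_11_6 := isCopyMask_of (x := 14) (y := 11) (R := 6) rfl rfl (by decide +kernel)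
def lo114_11_6 (c : ℕ) : Cert := Cert.leaf c lno114_11_6 lno114_11_6_ok
def lno114_11_7 : ℕ := 150306725332521338189603092892661256116316546431247673832535320946532280270059968155227437821598428500338933760
theorem lno114_11_7_ok : IsCopyMask lno114_11_7 := isCopyMask_of (x := 14) (y := 11) (R := 7) rfl rfl (by decide +kernel)
def lo114_11_7 (c : ℕ) : Cert := Cert.leaf c lno114_11_7 lno114_11_7_ok
def lno114_12_1 : ℕ := 519875568858082416524191060928040306270743767725015198233163443004613068591983377140389511127172430243325460540842781580158042112
theorem lno114_12_1_ok : IsCopyMask lno114_12_1 := isCopyMask_of (x := 14) (y := 12) (R := 1) rfl rfl (by decide +kernel)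
def lo114_12_1 (c : ℕ) : Cert := Cert.leaf c lno114_12_1 lno114_12_1_ok
def lno114_12_3 : ℕ := 1210429630381420912394498110611085583253521634717206712226271411826916064478780818284021560671628996466196836298608607232
theorem lno114_12_3_ok : IsCopyMask lno114_12_3 := isCopyMask_of (x := 14) (y := 12) (R := 3) rfl rfl (by decide +kernel)
def lo114_12_3 (c : ℕ) : Cert := Cert.leaf c lno114_12_3 lno114_12_3_ok
def lno114_12_6 : ℕ := 645562469672033872746501131206652349286712161808581228536000133724102232753611191832462922083598730237108538725841764352
theorem lno114_12_6_ok : IsCopyMask lno114_12_6 := isCopyMask_of (x := 14) (y := 12) (R := 6) rfl rfl (by decide +kernel)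
def lo114_12_6 (c : ℕ) : Cert := Cert.leaf c lno114_12_6 lno114_12_6_ok
def lno114_12_7 : ℕ := 645562469672033872746501131194430133425859538905874271586814184230219908368213611185503296885638732853950045414710312960
theorem lno114_12_7_ok : IsCopyMask lno114_12_7 := isCopyMask_of (x := 14) (y := 12) (R := 7) rfl rfl (by decide +kernel)
def lo114_12_7 (c : ℕ) : Cert := Cert.leaf c lno114_12_7 lno114_12_7_ok
def lno114_14_1 : ℕ := 9590011568899213745165310367599834269579192789610653975753740991816520900483558915853164553191636413329805066431585809279313167404956574491965652992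
theorem lno114_14_1_ok : IsCopyMask lno114_14_1 := isCopyMask_of (x := 14) (y := 14) (R := 1) rfl rfl (by decide +kernel)
def lo114_14_1 (c : ℕ) : Cert := Cert.leaf c lno114_14_1 lno114_14_1_ok
def lno114_14_3 : ℕ := 22328485610880919245322880164490451954870690794708742763480344526673703852208825699794143882246811935171150834637757838173446131748974886912
theorem lno114_14_3_ok : IsCopyMask lno114_14_3 := isCopyMask_of (x := 14) (y := 14) (R := 3) rfl rfl (by decide +kernel)
def lo114_14_3 (c : ℕ) : Cert := Cert.leaf c lno114_14_3 lno114_14_3_ok
def lno114_15_0 : ℕ := 5272164603747509184831758064478851326056894861810834033956291246689643579246931206562471402828763526111447353980896365564906578426567676950998742724450237546496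
theorem lno114_15_0_ok : IsCopyMask lno114_15_0 := isCopyMask_of (x := 14) (y := 15) (R := 0) rfl rfl (by decide +kernel)
def lo114_15_0 (c : ℕ) : Cert := Cert.leaf c lno114_15_0 lno114_15_0_ok
def lno114_15_1 : ℕ := 41188786056683773755598686142531026202862680713456767399034694509506560900077356129278557694064530815974251222378768472272343383346461675743180294355924549632
theorem lno114_15_1_ok : IsCopyMask lno114_15_1 := isCopyMask_of (x := 14) (y := 15) (R := 1) rfl rfl (by decide +kernel)
def lo114_15_1 (c : ℕ) : Cert := Cert.leaf c lno114_15_1 lno114_15_1_ok
def lno114_15_2 : ℕ := 767200924011462866596962694268211461743265070521744751319170872789177808693359857115564305707515327029702320787937687338714855925254630910871214227456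
theorem lno114_15_2_ok : IsCopyMask lno114_15_2 := isCopyMask_of (x := 14) (y := 15) (R := 2) rfl rfl (by decide +kernel)
def lo114_15_2 (c : ℕ) : Cert := Cert.leaf c lno114_15_2 lno114_15_2_ok
def lno114_15_3 : ℕ := 95900115467940129909078771267013591650428884872202300014424742880876157708426123743180161906568532261822564997452273921722611511479554420812338429952
theorem lno114_15_3_ok : IsCopyMask lno114_15_3 := isCopyMask_of (x := 14) (y := 15) (R := 3) rfl rfl (by decide +kernel)
def lo114_15_3 (c : ℕ) : Cert := Cert.leaf c lno114_15_3 lno114_15_3_ok
def lno114_16_1 : ℕ := 176904489075397610494159453882739152206614275243186763088732994887681440163264568445396553370056333168193603378204833913165597636755043934634315859290349324512968835072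
theorem lno114_16_1_ok : IsCopyMask lno114_16_1 := isCopyMask_of (x := 14) (y := 16) (R := 1) rfl rfl (by decide +kernel)
def lo114_16_1 (c : ℕ) : Cert := Cert.leaf c lno114_16_1 lno114_16_1_ok
def lno114_16_3 : ℕ := 411887859617426594445484776079687859726090724899858018057934598926571921183828505109007898424696853647248826018891839814632280425517814810041215309927826849792
theorem lno114_16_3_ok : IsCopyMask lno114_16_3 := isCopyMask_of (x := 14) (y := 16) (R := 3) rfl rfl (by decide +kernel)
def lo114_16_3 (c : ℕ) : Cert := Cert.leaf c lno114_16_3 lno114_16_3_ok
def lno114_17_1 : ℕ := 759798995094422015268961253435584877626174547056229594286208159118726978767402222068531758475510536635071593905784880846157945682157801262297548334986188117198892274501457805312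
theorem lno114_17_1_ok : IsCopyMask lno114_17_1 := isCopyMask_of (x := 14) (y := 17) (R := 1) rfl rfl (by decide +kernel)
def lo114_17_1 (c : ℕ) : Cert := Cert.leaf c lno114_17_1 lno114_17_1_ok
def lno114_17_6 : ℕ := 943490606425058863235714884410590842000913986342185266976490407372288106195026953966466204951627381757163712052496889415715493640813106501836288398101902065593904791552
theorem lno114_17_6_ok : IsCopyMask lno114_17_6 := isCopyMask_of (x := 14) (y := 17) (R := 6) rfl rfl (by decide +kernel)
def lo114_17_6 (c : ℕ) : Cert := Cert.leaf c lno114_17_6 lno114_17_6_ok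
def lno114_17_7 : ℕ := 943490606425058863235714884392728053508466146858863862784467186659798390559620769703924576953808271241566912727123979718814078644435597403694603992765250338225609768960
theorem lno114_17_7_ok : IsCopyMask lno114_17_7 := isCopyMask_of (x := 14) (y := 17) (R := 7) rfl rfl (by decide +kernel)
def lo114_17_7 (c : ℕ) : Cert := Cert.leaf c lno114_17_7 lno114_17_7_ok
def lno114_18_1 : ℕ := 3263311835464206987602601227397004692036581793194119180526612507263296554958878934662073373389688571751042382443938968445505183955412167132835487919744930575073057446410815978138975076352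
theorem lno114_18_1_ok : IsCopyMask lno114_18_1 := isCopyMask_of (x := 14) (y := 18) (R := 1) rfl rfl (by decide +kernel)
def lo114_18_1 (c : ℕ) : Cert := Cert.leaf c lno114_18_1 lno114_18_1_ok
def lno114_18_3 : ℕ := 7597989933430675775002147196609884548863060148650958404367037728253937425596672592084251818042923532323143220935722130584440989083580143324730742539381475348934067667454102863872
theorem lno114_18_3_ok : IsCopyMask lno114_18_3 := isCopyMask_of (x := 14) (y := 18) (R := 3) rfl rfl (by decide +kernel)
def lo114_18_3 (c : ℕ) : Cert := Cert.leaf c lno114_18_3 lno114_18_3_ok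
def lno114_18_6 : ℕ := 4052261298678835292472332167723907902431028773448676386837055100521694712797415765124469830956472866625125156983435175182226593627788263273551822615871897847120667896653537083392
theorem lno114_18_6_ok : IsCopyMask lno114_18_6 := isCopyMask_of (x := 14) (y := 18) (R := 6) rfl rfl (by decide +kernel)
def lo114_18_6 (c : ℕ) : Cert := Cert.leaf c lno114_18_6 lno114_18_6_ok
def lno114_18_7 : ℕ := 4052261298678835292472332167647187810040600159881953418375518063488961565407006344040703660867241827636827205958683665029673743682222903227090833720597770807931932627341315932160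
theorem lno114_18_7_ok : IsCopyMask lno114_18_7 := isCopyMask_of (x := 14) (y := 18) (R := 7) rfl rfl (by decide +kernel)
def lo114_18_7 (c : ℕ) : Cert := Cert.leaf c lno114_18_7 lno114_18_7_ok
def lno114_19_3 : ℕ := 32633118279421969536813676539217536207702557320936764865812770623248796426168142069421410035122899295556699037843029069003615414555869726174711247212439428691902009091966375381350179930112
theorem lno114_19_3_ok : IsCopyMask lno114_19_3 := isCopyMask_of (x := 14) (y := 19) (R := 3) rfl rfl (by decide +kernel)
def lo114_19_3 (c : ℕ) : Cert := Cert.leaf c lno114_19_3 lno114_19_3_ok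
def lno115_8_1 : ℕ := 3055553971615995092143375579438268560510987649003812233811166928615845911091187744352763904
theorem lno115_8_1_ok : IsCopyMask lno115_8_1 := isCopyMask_of (x := 15) (y := 8) (R := 1) rfl rfl (by decide +kernel)
def lo115_8_1 (c : ℕ) : Cert := Cert.leaf c lno115_8_1 lno115_8_1_ok
def lno115_8_3 : ℕ := 7114265962906348959147174849832219199199556468715782869916363238770083266448850944
theorem lno115_8_3_ok : IsCopyMask lno115_8_3 := isCopyMask_of (x := 15) (y := 8) (R := 3) rfl rfl (by decide +kernel)
def lo115_8_3 (c : ℕ) : Cert := Cert.leaf c lno115_8_3 lno115_8_3_ok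
def lno115_9_1 : ℕ := 13123504379253611191252304656732413518259689001131300523543667398001824735511975035791129654889283584
theorem lno115_9_1_ok : IsCopyMask lno115_9_1 := isCopyMask_of (x := 15) (y := 9) (R := 1) rfl rfl (by decide +kernel)
def lo115_9_1 (c : ℕ) : Cert := Cert.leaf c lno115_9_1 lno115_9_1_ok
def lno115_9_3 : ℕ := 30555539645728717890300756030823092547665404410839534545327802365774146892594668861258727424
theorem lno115_9_3_ok : IsCopyMask lno115_9_3 := isCopyMask_of (x := 15) (y := 9) (R := 3) rfl rfl (by decide +kernel)
def lo115_9_3 (c : ℕ) : Cert := Cert.leaf c lno115_9_3 lno115_9_3_ok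
def lno115_9_4 : ℕ := 11090678780356634255744633071721256248129472298777456089387752407163315656561001714656234320985903842642340142733978554577310449664
theorem lno115_9_4_ok : IsCopyMask lno115_9_4 := isCopyMask_of (x := 15) (y := 9) (R := 4) rfl rfl (by decide +kernel)
def lo115_9_4 (c : ℕ) : Cert := Cert.leaf c lno115_9_4 lno115_9_4_ok
def lno115_10_1 : ℕ := 56365022117807040956328249785294222284073663094989842750567729502319252987347782595091331354645239494149668864
theorem lno115_10_1_ok : IsCopyMask lno115_10_1 := isCopyMask_of (x := 15) (y := 10) (R := 1) rfl rfl (by decide +kernel)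
def lo115_10_1 (c : ℕ) : Cert := Cert.leaf c lno115_10_1 lno115_10_1_ok
def lno115_10_3 : ℕ := 131235043490036269426851862756459950453804233095169948776045140760551390625994127343055795680658325504
theorem lno115_10_3_ok : IsCopyMask lno115_10_3 := isCopyMask_of (x := 15) (y := 10) (R := 3) rfl rfl (by decide +kernel)
def lo115_10_3 (c : ℕ) : Cert := Cert.leaf c lno115_10_3 lno115_10_3_ok
def lno115_10_4 : ℕ := 47634102652072911345056499170562818013751744696987114685996449251711716875854270193448450291147223481149581137950409919874899484945934188544
theorem lno115_10_4_ok : IsCopyMask lno115_10_4 := isCopyMask_of (x := 15) (y := 10) (R := 4) rfl rfl (by decide +kernel)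
def lo115_10_4 (c : ℕ) : Cert := Cert.leaf c lno115_10_4 lno115_10_4_ok
def lno115_11_1 : ℕ := 242085926634297900145962397068757706447850804647903516065871083645435547731809028024035278301300681309460411100109471744
theorem lno115_11_1_ok : IsCopyMask lno115_11_1 := isCopyMask_of (x := 15) (y := 11) (R := 1) rfl rfl (by decide +kernel)
def lo115_11_1 (c : ℕ) : Cert := Cert.leaf c lno115_11_1 lno115_11_1_ok
def lno115_11_3 : ℕ := 563650219878843479042173414775675899932869539930115785555109107786284789665965744426484015151685567789802717184
theorem lno115_11_3_ok : IsCopyMask lno115_11_3 := isCopyMask_of (x := 15) (y := 11) (R := 3) rfl rfl (by decide +kernel)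
def lo115_11_3 (c : ℕ) : Cert := Cert.leaf c lno115_11_3 lno115_11_3_ok
def lno115_11_4 : ℕ := 204586913064960020834525035209818429282663421736501087309756058708225496001805382542808687462359003172740723471595475075656673699130031667964777857024
theorem lno115_11_4_ok : IsCopyMask lno115_11_4 := isCopyMask_of (x := 15) (y := 11) (R := 4) rfl rfl (by decide +kernel)
def lo115_11_4 (c : ℕ) : Cert := Cert.leaf c lno115_11_4 lno115_11_4_ok
def lno115_11_5 : ℕ := 51146728284102793701079098286744355217197126955682245142223718529763418025209480493305667157253303281610003378673497285108419620752561129340335554560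
theorem lno115_11_5_ok : IsCopyMask lno115_11_5 := isCopyMask_of (x := 15) (y := 11) (R := 5) rfl rfl (by decide +kernel)
def lo115_11_5 (c : ℕ) : Cert := Cert.leaf c lno115_11_5 lno115_11_5_ok
def lno115_12_1 : ℕ := 1039751137716164833048382121856080612541487535450030396466326886009226137183966754280779022254344860486650921081685563160316084224
theorem lno115_12_1_ok : IsCopyMask lno115_12_1 := isCopyMask_of (x := 15) (y := 12) (R := 1) rfl rfl (by decide +kernel)
def lo115_12_1 (c : ℕ) : Cert := Cert.leaf c lno115_12_1 lno115_12_1_ok
def lno115_12_3 : ℕ := 2420859260762841824788996221222171166507043269434413424452542823653832128957561636568043121343257992932393672597217214464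
theorem lno115_12_3_ok : IsCopyMask lno115_12_3 := isCopyMask_of (x := 15) (y := 12) (R := 3) rfl rfl (by decide +kernel)
def lo115_12_3 (c : ℕ) : Cert := Cert.leaf c lno115_12_3 lno115_12_3_ok
def lno115_12_4 : ℕ := 878694100803598413031763653919418651867128136133727699463842893889684511521132874978132632635517149638081645997882150391528539261906829665353051775823043887104
theorem lno115_12_4_ok : IsCopyMask lno115_12_4 := isCopyMask_of (x := 15) (y := 12) (R := 4) rfl rfl (by decide +kernel)
def lo115_12_4 (c : ℕ) : Cert := Cert.leaf c lno115_12_4 lno115_12_4_ok
def lno115_12_5 : ℕ := 219673525277619695648369527050736635970468637059815284253705739800843083035451622267897787371864226782484442737852174701485450085376972958757567260501223669760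
theorem lno115_12_5_ok : IsCopyMask lno115_12_5 := isCopyMask_of (x := 15) (y := 12) (R := 5) rfl rfl (by decide +kernel)
def lo115_12_5 (c : ℕ) : Cert := Cert.leaf c lno115_12_5 lno115_12_5_ok
def lno115_12_6 : ℕ := 1291124939344067745493002262413304698573424323617162457072000267448204465507222383664925844167197460474217077451683528704
theorem lno115_12_6_ok : IsCopyMask lno115_12_6 := isCopyMask_of (x := 15) (y := 12) (R := 6) rfl rfl (by decide +kernel)
def lo115_12_6 (c : ℕ) : Cert := Cert.leaf c lno115_12_6 lno115_12_6_ok
def lno115_12_7 : ℕ := 1291124939344067745493002262388860266851719077811748543173628368460439816736427222371006593771277465707900090829420625920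
theorem lno115_12_7_ok : IsCopyMask lno115_12_7 := isCopyMask_of (x := 15) (y := 12) (R := 7) rfl rfl (by decide +kernel)
def lo115_12_7 (c : ℕ) : Cert := Cert.leaf c lno115_12_7 lno115_12_7_ok
def lno115_13_5 : ℕ := 943490606864405913535220634405901184202220017965600241670609919252106594865077126230766347432918644583097987187859791625358570736534506689340108176373068229600304168960
theorem lno115_13_5_ok : IsCopyMask lno115_13_5 := isCopyMask_of (x := 15) (y := 13) (R := 5) rfl rfl (by decide +kernel)
def lo115_13_5 (c : ℕ) : Cert := Cert.leaf c lno115_13_5 lno115_13_5_ok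
def lno115_13_6 : ℕ := 5545339389532754658500896113919153715655995324666633177443245065993291553274680189640021122963305448711014998859679775925557264384
theorem lno115_13_6_ok : IsCopyMask lno115_13_6 := isCopyMask_of (x := 15) (y := 13) (R := 6) rfl rfl (by decide +kernel)
def lo115_13_6 (c : ℕ) : Cert := Cert.leaf c lno115_13_6 lno115_13_6_ok
def lno115_13_7 : ℕ := 5545339389532754658500896113814165680841966320580739237506377892195426882659188371967592898847994019357192378947791102954249912320
theorem lno115_13_7_ok : IsCopyMask lno115_13_7 := isCopyMask_of (x := 15) (y := 13) (R := 7) rfl rfl (by decide +kernel)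
def lo115_13_7 (c : ℕ) : Cert := Cert.leaf c lno115_13_7 lno115_13_7_ok
def lno115_14_1 : ℕ := 19180023137798427490330620735199668539158385579221307951507481983633041800967117831706329106383272826659610132863171618558626334809913148983931305984
theorem lno115_14_1_ok : IsCopyMask lno115_14_1 := isCopyMask_of (x := 15) (y := 14) (R := 1) rfl rfl (by decide +kernel)
def lo115_14_1 (c : ℕ) : Cert := Cert.leaf c lno115_14_1 lno115_14_1_ok
def lno115_14_3 : ℕ := 44656971221761838490645760328980903909741381589417485526960689053347407704417651399588287764493623870342301669275515676346892263497949773824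
theorem lno115_14_3_ok : IsCopyMask lno115_14_3 := isCopyMask_of (x := 15) (y := 14) (R := 3) rfl rfl (by decide +kernel)
def lo115_14_3 (c : ℕ) : Cert := Cert.leaf c lno115_14_3 lno115_14_3_ok
def lno115_14_7 : ℕ := 23817051323263785979052997195525335420741819091227726752593869638396772101780443571504294672393970388342732209961201678628272357625267486720
theorem lno115_14_7_ok : IsCopyMask lno115_14_7 := isCopyMask_of (x := 15) (y := 14) (R := 7) rfl rfl (by decide +kernel)
def lo115_14_7 (c : ℕ) : Cert := Cert.leaf c lno115_14_7 lno115_14_7_ok
def lno115_15_0 : ℕ := 10544329207495018369663516128957702652113789723621668067912582493379287158493862413124942805657527052222894707961792731129813156853135353901997485448900475092992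
theorem lno115_15_0_ok : IsCopyMask lno115_15_0 := isCopyMask_of (x := 15) (y := 15) (R := 0) rfl rfl (by decide +kernel)
def lo115_15_0 (c : ℕ) : Cert := Cert.leaf c lno115_15_0 lno115_15_0_ok
def lno115_15_1 : ℕ := 82377572113367547511197372285062052405725361426913534798069389019013121800154712258557115388129061631948502444757536944544686766692923351486360588711849099264
theorem lno115_15_1_ok : IsCopyMask lno115_15_1 := isCopyMask_of (x := 15) (y := 15) (R := 1) rfl rfl (by decide +kernel)
def lo115_15_1 (c : ℕ) : Cert := Cert.leaf c lno115_15_1 lno115_15_1_ok
def lno115_15_2 : ℕ := 1534401848022925733193925388536422923486530141043489502638341745578355617386719714231128611415030654059404641575875374677429711850509261821742428454912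
theorem lno115_15_2_ok : IsCopyMask lno115_15_2 := isCopyMask_of (x := 15) (y := 15) (R := 2) rfl rfl (by decide +kernel)
def lo115_15_2 (c : ℕ) : Cert := Cert.leaf c lno115_15_2 lno115_15_2_ok
def lno115_15_3 : ℕ := 191800230935880259818157542534027183300857769744404600028849485761752315416852247486360323813137064523645129994904547843445223022959108841624676859904
theorem lno115_15_3_ok : IsCopyMask lno115_15_3 := isCopyMask_of (x := 15) (y := 15) (R := 3) rfl rfl (by decide +kernel)
def lo115_15_3 (c : ℕ) : Cert := Cert.leaf c lno115_15_3 lno115_15_3_ok
def lno115_15_7 : ℕ := 102293456520571484761175964005561033171516513056371526890814953267001482049112188511984383141479136845524454481069166638568731916981340078714514309120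
theorem lno115_15_7_ok : IsCopyMask lno115_15_7 := isCopyMask_of (x := 15) (y := 15) (R := 7) rfl rfl (by decide +kernel)
def lo115_15_7 (c : ℕ) : Cert := Cert.leaf c lno115_15_7 lno115_15_7_ok
def lno115_16_1 : ℕ := 353808978150795220988318907765478304413228550486373526177465989775362880326529136890793106740112666336387206756409667826331195273510087869268631718580698649025937670144
theorem lno115_16_1_ok : IsCopyMask lno115_16_1 := isCopyMask_of (x := 15) (y := 16) (R := 1) rfl rfl (by decide +kernel)
def lo115_16_1 (c : ℕ) : Cert := Cert.leaf c lno115_16_1 lno115_16_1_ok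
def lno115_16_3 : ℕ := 823775719234853188890969552159375719452181449799716036115869197853143842367657010218015796849393707294497652037783679629264560851035629620082430619855653699584
theorem lno115_16_3_ok : IsCopyMask lno115_16_3 := isCopyMask_of (x := 15) (y := 16) (R := 3) rfl rfl (by decide +kernel)
def lo115_16_3 (c : ℕ) : Cert := Cert.leaf c lno115_16_3 lno115_16_3_ok
def lno115_17_3 : ℕ := 3538089773352572589648024736256284894823590362747646125204413071393006213752866067031515677479525810258064056251068660330232693386999956949022944336469040880414688804864
theorem lno115_17_3_ok : IsCopyMask lno115_17_3 := isCopyMask_of (x := 15) (y := 17) (R := 3) rfl rfl (by decide +kernel)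
def lo115_17_3 (c : ℕ) : Cert := Cert.leaf c lno115_17_3 lno115_17_3_ok
def lno115_18_3 : ℕ := 15195979866861351550004294393219769097726120297301916808734075456507874851193345184168503636085847064646286441871444261168881978167160286649461485078762950697868135334908205727744
theorem lno115_18_3_ok : IsCopyMask lno115_18_3 := isCopyMask_of (x := 15) (y := 18) (R := 3) rfl rfl (by decide +kernel)
def lo115_18_3 (c : ℕ) : Cert := Cert.leaf c lno115_18_3 lno115_18_3_ok
def lno116_7_1 : ℕ := 1422853195860979655824310881755439825593953788747923557558640338767248164439195648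
theorem lno116_7_1_ok : IsCopyMask lno116_7_1 := isCopyMask_of (x := 16) (y := 7) (R := 1) rfl rfl (by decide +kernel)
def lo116_7_1 (c : ℕ) : Cert := Cert.leaf c lno116_7_1 lno116_7_1_ok
def lno116_9_1 : ℕ := 26247008758507222382504609313464827036519378002262601047087334796003649471023950071582259309778567168
theorem lno116_9_1_ok : IsCopyMask lno116_9_1 := isCopyMask_of (x := 16) (y := 9) (R := 1) rfl rfl (by decide +kernel)
def lo116_9_1 (c : ℕ) : Cert := Cert.leaf c lno116_9_1 lno116_9_1_ok
def lno116_9_3 : ℕ := 61111079291457435780601512061646185095330808821679069090655604731548293785189337722517454848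
theorem lno116_9_3_ok : IsCopyMask lno116_9_3 := isCopyMask_of (x := 16) (y := 9) (R := 3) rfl rfl (by decide +kernel)
def lo116_9_3 (c : ℕ) : Cert := Cert.leaf c lno116_9_3 lno116_9_3_ok
def lno116_10_1 : ℕ := 112730044235614081912656499570588444568147326189979685501135459004638505974695565190182662709290478988299337728
theorem lno116_10_1_ok : IsCopyMask lno116_10_1 := isCopyMask_of (x := 16) (y := 10) (R := 1) rfl rfl (by decide +kernel)
def lo116_10_1 (c : ℕ) : Cert := Cert.leaf c lno116_10_1 lno116_10_1_ok
def lno116_10_3 : ℕ := 262470086980072538853703725512919900907608466190339897552090281521102781251988254686111591361316651008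
theorem lno116_10_3_ok : IsCopyMask lno116_10_3 := isCopyMask_of (x := 16) (y := 10) (R := 3) rfl rfl (by decide +kernel)
def lo116_10_3 (c : ℕ) : Cert := Cert.leaf c lno116_10_3 lno116_10_3_ok
def lno116_11_1 : ℕ := 484171853268595800291924794137515412895701609295807032131742167290871095463618056048070556602601362618920822200218943488
theorem lno116_11_1_ok : IsCopyMask lno116_11_1 := isCopyMask_of (x := 16) (y := 11) (R := 1) rfl rfl (by decide +kernel)
def lo116_11_1 (c : ℕ) : Cert := Cert.leaf c lno116_11_1 lno116_11_1_ok
def lno116_11_3 : ℕ := 1127300439757686958084346829551351799865739079860231571110218215572569579331931488852968030303371135579605434368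
theorem lno116_11_3_ok : IsCopyMask lno116_11_3 := isCopyMask_of (x := 16) (y := 11) (R := 3) rfl rfl (by decide +kernel)
def lo116_11_3 (c : ℕ) : Cert := Cert.leaf c lno116_11_3 lno116_11_3_ok
def lno116_12_1 : ℕ := 2079502275432329666096764243712161225082975070900060792932653772018452274367933508561558044508689720973301842163371126320632168448
theorem lno116_12_1_ok : IsCopyMask lno116_12_1 := isCopyMask_of (x := 16) (y := 12) (R := 1) rfl rfl (by decide +kernel)
def lo116_12_1 (c : ℕ) : Cert := Cert.leaf c lno116_12_1 lno116_12_1_ok
def lno116_12_3 : ℕ := 4841718521525683649577992442444342333014086538868826848905085647307664257915123273136086242686515985864787345194434428928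
theorem lno116_12_3_ok : IsCopyMask lno116_12_3 := isCopyMask_of (x := 16) (y := 12) (R := 3) rfl rfl (by decide +kernel)
def lo116_12_3 (c : ℕ) : Cert := Cert.leaf c lno116_12_3 lno116_12_3_ok
def lno116_14_1 : ℕ := 38360046275596854980661241470399337078316771158442615903014963967266083601934235663412658212766545653319220265726343237117252669619826297967862611968
theorem lno116_14_1_ok : IsCopyMask lno116_14_1 := isCopyMask_of (x := 16) (y := 14) (R := 1) rfl rfl (by decide +kernel)
def lo116_14_1 (c : ℕ) : Cert := Cert.leaf c lno116_14_1 lno116_14_1_ok
def lno116_14_3 : ℕ := 89313942443523676981291520657961807819482763178834971053921378106694815408835302799176575528987247740684603338551031352693784526995899547648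
theorem lno116_14_3_ok : IsCopyMask lno116_14_3 := isCopyMask_of (x := 16) (y := 14) (R := 3) rfl rfl (by decide +kernel)
def lo116_14_3 (c : ℕ) : Cert := Cert.leaf c lno116_14_3 lno116_14_3_ok
def lno116_15_1 : ℕ := 164755144226735095022394744570124104811450722853827069596138778038026243600309424517114230776258123263897004889515073889089373533385846702972721177423698198528
theorem lno116_15_1_ok : IsCopyMask lno116_15_1 := isCopyMask_of (x := 16) (y := 15) (R := 1) rfl rfl (by decide +kernel)
def lo116_15_1 (c : ℕ) : Cert := Cert.leaf c lno116_15_1 lno116_15_1_ok
def lno116_15_3 : ℕ := 383600461871760519636315085068054366601715539488809200057698971523504630833704494972720647626274129047290259989809095686890446045918217683249353719808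
theorem lno116_15_3_ok : IsCopyMask lno116_15_3 := isCopyMask_of (x := 16) (y := 15) (R := 3) rfl rfl (by decide +kernel)
def lo116_15_3 (c : ℕ) : Cert := Cert.leaf c lno116_15_3 lno116_15_3_ok
def lno116_15_7 : ℕ := 204586913041142969522351928011122066343033026112743053781629906534002964098224377023968766282958273691048908962138333277137463833962680157429028618240
theorem lno116_15_7_ok : IsCopyMask lno116_15_7 := isCopyMask_of (x := 16) (y := 15) (R := 7) rfl rfl (by decide +kernel)
def lo116_15_7 (c : ℕ) : Cert := Cert.leaf c lno116_15_7 lno116_15_7_ok
def lno116_16_1 : ℕ := 707617956301590441976637815530956608826457100972747052354931979550725760653058273781586213480225332672774413512819335652662390547020175738537263437161397298051875340288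
theorem lno116_16_1_ok : IsCopyMask lno116_16_1 := isCopyMask_of (x := 16) (y := 16) (R := 1) rfl rfl (by decide +kernel)
def lo116_16_1 (c : ℕ) : Cert := Cert.leaf c lno116_16_1 lno116_16_1_ok
def lno116_16_3 : ℕ := 1647551438469706377781939104318751438904362899599432072231738395706287684735314020436031593698787414588995304075567359258529121702071259240164861239711307399168
theorem lno116_16_3_ok : IsCopyMask lno116_16_3 := isCopyMask_of (x := 16) (y := 16) (R := 3) rfl rfl (by decide +kernel)
def lo116_16_3 (c : ℕ) : Cert := Cert.leaf c lno116_16_3 lno116_16_3_ok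
def lno116_16_7 : ℕ := 878694100701304956558826271810315599207269164602145424843269574139079442768935830987919659310773267635672271928865443653253911663252485360665809356388869079040
theorem lno116_16_7_ok : IsCopyMask lno116_16_7 := isCopyMask_of (x := 16) (y := 16) (R := 7) rfl rfl (by decide +kernel)
def lo116_16_7 (c : ℕ) : Cert := Cert.leaf c lno116_16_7 lno116_16_7_ok
def lno116_17_3 : ℕ := 7076179546705145179296049472512569789647180725495292250408826142786012427505732134063031354959051620516128112502137320660465386773999913898045888672938081760829377609728
theorem lno116_17_3_ok : IsCopyMask lno116_17_3 := isCopyMask_of (x := 16) (y := 17) (R := 3) rfl rfl (by decide +kernel)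
def lo116_17_3 (c : ℕ) : Cert := Cert.leaf c lno116_17_3 lno116_17_3_ok
def lno117_10_1 : ℕ := 225460088471228163825312999141176889136294652379959371002270918009277011949391130380365325418580957976598675456
theorem lno117_10_1_ok : IsCopyMask lno117_10_1 := isCopyMask_of (x := 17) (y := 10) (R := 1) rfl rfl (by decide +kernel)
def lo117_10_1 (c : ℕ) : Cert := Cert.leaf c lno117_10_1 lno117_10_1_ok
def lno117_11_1 : ℕ := 968343706537191600583849588275030825791403218591614064263484334581742190927236112096141113205202725237841644400437886976
theorem lno117_11_1_ok : IsCopyMask lno117_11_1 := isCopyMask_of (x := 17) (y := 11) (R := 1) rfl rfl (by decide +kernel)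
def lo117_11_1 (c : ℕ) : Cert := Cert.leaf c lno117_11_1 lno117_11_1_ok
def lno117_11_3 : ℕ := 2254600879515373916168693659102703599731478159720463142220436431145139158663862977705936060606742271159210868736
theorem lno117_11_3_ok : IsCopyMask lno117_11_3 := isCopyMask_of (x := 17) (y := 11) (R := 3) rfl rfl (by decide +kernel)
def lo117_11_3 (c : ℕ) : Cert := Cert.leaf c lno117_11_3 lno117_11_3_ok
def lno117_12_3 : ℕ := 9683437043051367299155984884888684666028173077737653697810171294615328515830246546272172485373031971729574690388868857856
theorem lno117_12_3_ok : IsCopyMask lno117_12_3 := isCopyMask_of (x := 17) (y := 12) (R := 3) rfl rfl (by decide +kernel)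
def lo117_12_3 (c : ℕ) : Cert := Cert.leaf c lno117_12_3 lno117_12_3_ok
def lno117_14_1 : ℕ := 76720092551193709961322482940798674156633542316885231806029927934532167203868471326825316425533091306638440531452686474234505339239652595935725223936
theorem lno117_14_1_ok : IsCopyMask lno117_14_1 := isCopyMask_of (x := 17) (y := 14) (R := 1) rfl rfl (by decide +kernel)
def lo117_14_1 (c : ℕ) : Cert := Cert.leaf c lno117_14_1 lno117_14_1_ok
def lno117_15_1 : ℕ := 329510288453470190044789489140248209622901445707654139192277556076052487200618849034228461552516246527794009779030147778178747066771693405945442354847396397056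
theorem lno117_15_1_ok : IsCopyMask lno117_15_1 := isCopyMask_of (x := 17) (y := 15) (R := 1) rfl rfl (by decide +kernel)
def lo117_15_1 (c : ℕ) : Cert := Cert.leaf c lno117_15_1 lno117_15_1_ok
def lno117_16_3 : ℕ := 3295102876939412755563878208637502877808725799198864144463476791412575369470628040872063187397574829177990608151134718517058243404142518480329722479422614798336
theorem lno117_16_3_ok : IsCopyMask lno117_16_3 := isCopyMask_of (x := 17) (y := 16) (R := 3) rfl rfl (by decide +kernel)
def lo117_16_3 (c : ℕ) : Cert := Cert.leaf c lno117_16_3 lno117_16_3_ok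
def lno118_10_1 : ℕ := 450920176942456327650625998282353778272589304759918742004541836018554023898782260760730650837161915953197350912
theorem lno118_10_1_ok : IsCopyMask lno118_10_1 := isCopyMask_of (x := 18) (y := 10) (R := 1) rfl rfl (by decide +kernel)
def lo118_10_1 (c : ℕ) : Cert := Cert.leaf c lno118_10_1 lno118_10_1_ok
def lno118_11_1 : ℕ := 1936687413074383201167699176550061651582806437183228128526968669163484381854472224192282226410405450475683288800875773952
theorem lno118_11_1_ok : IsCopyMask lno118_11_1 := isCopyMask_of (x := 18) (y := 11) (R := 1) rfl rfl (by decide +kernel)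
def lo118_11_1 (c : ℕ) : Cert := Cert.leaf c lno118_11_1 lno118_11_1_ok
def lno118_11_3 : ℕ := 4509201759030747832337387318205407199462956319440926284440872862290278317327725955411872121213484542318421737472
theorem lno118_11_3_ok : IsCopyMask lno118_11_3 := isCopyMask_of (x := 18) (y := 11) (R := 3) rfl rfl (by decide +kernel)
def lo118_11_3 (c : ℕ) : Cert := Cert.leaf c lno118_11_3 lno118_11_3_ok
def lno118_12_3 : ℕ := 19366874086102734598311969769777369332056346155475307395620342589230657031660493092544344970746063943459149380777737715712
theorem lno118_12_3_ok : IsCopyMask lno118_12_3 := isCopyMask_of (x := 18) (y := 12) (R := 3) rfl rfl (by decide +kernel)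
def lo118_12_3 (c : ℕ) : Cert := Cert.leaf c lno118_12_3 lno118_12_3_ok
def lno118_13_3 : ℕ := 83180090825561133195917606966534450482095371167021776599736305053061633751574254407711863079096421357881839702419034533848785354752
theorem lno118_13_3_ok : IsCopyMask lno118_13_3 := isCopyMask_of (x := 18) (y := 13) (R := 3) rfl rfl (by decide +kernel)
def lo118_13_3 (c : ℕ) : Cert := Cert.leaf c lno118_13_3 lno118_13_3_ok
def lno118_15_1 : ℕ := 659020576906940380089578978280496419245802891415308278384555112152104974401237698068456923105032493055588019558060295556357494133543386811890884709694792794112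
theorem lno118_15_1_ok : IsCopyMask lno118_15_1 := isCopyMask_of (x := 18) (y := 15) (R := 1) rfl rfl (by decide +kernel)
def lo118_15_1 (c : ℕ) : Cert := Cert.leaf c lno118_15_1 lno118_15_1_ok
def lno118_15_3 : ℕ := 1534401847487042078545260340272217466406862157955236800230795886094018523334817979890882590505096516189161039959236382747561784183672870732997414879232
theorem lno118_15_3_ok : IsCopyMask lno118_15_3 := isCopyMask_of (x := 18) (y := 15) (R := 3) rfl rfl (by decide +kernel)
def lo118_15_3 (c : ℕ) : Cert := Cert.leaf c lno118_15_3 lno118_15_3_ok
def lno119_15_1 : ℕ := 1318041153813880760179157956560992838491605782830616556769110224304209948802475396136913846210064986111176039116120591112714988267086773623781769419389585588224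
theorem lno119_15_1_ok : IsCopyMask lno119_15_1 := isCopyMask_of (x := 19) (y := 15) (R := 1) rfl rfl (by decide +kernel)
def lo119_15_1 (c : ℕ) : Cert := Cert.leaf c lno119_15_1 lno119_15_1_ok

end Vale.Agent.Lib.P062.Data
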