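import Vale.Agent.Lib.P062.Data.o1_lines
import Vale.Agent.Lib.P062.Data.o1_0_0
import Vale.Agent.Lib.P062.Data.o1_1_0
import Vale.Agent.Lib.P062.Data.o1_2_0
import Vale.Agent.Lib.P062.Data.o1_2_1
import Vale.Agent.Lib.P062.Data.o1_3_0
import Vale.Agent.Lib.P062.Data.o1_3_1
import Vale.Agent.Lib.P062.Data.o1_4_0

namespace Vale.Agent.Lib.P062.Data

def o1_L3_U : ℕ := 107727583503246487935406946626703723322756696691510892409679720155685633720345802241173172374809005609735926400528430729178574552230515519258803536171438787352163592931284075666912432959934666770964955174909652238336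
theorem o1_L3 : Sem (nat_lit 2426085982355713002131112411125198240506882440953839503274169633037793644329922420159977605341122130835217309591228125350352388096) (nat_lit 107727583503246487935406946626703723322756696691510892409679720155685633720345802241173172374809005609735926400528430729178574552230515519258803536171438787352163592931284075666912432959934666770964955174909652238336) (nat_lit 173291855882550928723650886508942731464777317210988535948154973788413831737851601439998400381508723631086950685087723239310884864) := sem_of_chk (B (K _ _ _ o1_s9095) (B (K _ _ _ o1_s10012) (B (M (nat_lit 426) (B (M (nat_lit 425) (B (M (nat_lit 393) (B (lo112_13_3 (nat_lit 392)) (lo113_13_3 (nat_lit 394)))) (M (nat_lit 457) (B (lo112_13_1 (nat_lit 456)) (lo113_13_1 (nat_lit 458)))))) (B (M (nat_lit 457) (B (lo113_13_1 (nat_lit 458)) (M (nat_lit 425) (B (lo112_13_1 (nat_lit 456)) (M (nat_lit 397) (B (lo19_13_2 (nat_lit 396)) (lo110_13_2 (nat_lit 398)))))))) (B (M (nat_lit 425) (B (M (nat_lit 393) (B (lo112_13_3 (nat_lit 392)) (lo113_13_3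 (nat_lit 394)))) (M (nat_lit 397) (B (lo19_13_2 (nat_lit 396)) (lo110_13_2 (nat_lit 398)))))) (K _ _ _ o1_s10045))))) (B (K _ _ _ o1_s10089) (B (K _ _ _ o1_s10644) (B (K _ _ _ o1_s11149) (B (M (nat_lit 426) (B (K _ _ _ o1_s9087) (M (nat_lit 397) (B (lo110_13_2 (nat_lit 398)) (M (nat_lit 461) (B (lo110_13_0 (nat_lit 462)) (M (nat_lit 493) (B (M (nat_lit 396) (B (lo113_16_7 (nat_lit 525)) (lo113_15_7 (nat_lit 364)))) (B (M (nat_lit 365) (B (M (nat_lit 364) (B (lo113_15_7 (nat_lit 396)) (lo113_14_7 (nat_lit 332)))) (B (M (nat_lit 333) (B (M (nat_lit 334) (B (lo113_14_6 (nat_lit 366)) (lo113_13_6 (nat_lit 302)))) (M (nat_lit 332) (B (lo113_14_7 (nat_lit 364)) (lo113_13_7 (nat_lit 300)))))) (B (M (nat_lit 333) (B (M (nat_lit 334) (B (lo113_14_6 (nat_lit 366)) (lo113_13_6 (nat_lit 302)))) (M (nat_lit 301) (B (lo113_9_5 (nat_lit 396)) (M (nat_lit 300) (B (lo113_13_7 (nat_lit 332)) (lo113_12_7 (nat_lit 268)))))))) (M (nat_lit 333) (B (M (nat_lit 334) (B (lo113_14_6 (nat_lit 366)) (lo113_13_6 (nat_lit 302)))) (M (nat_lit 396) (B (lo113_15_7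 (nat_lit 364)) (lo113_9_5 (nat_lit 301)))))))))) (M (nat_lit 525) (B (M (nat_lit 526) (B (lo113_13_4 (nat_lit 558)) (lo113_12_4 (nat_lit 494)))) (M (nat_lit 524) (B (lo113_13_5 (nat_lit 556)) (lo113_12_5 (nat_lit 492))))))))))))))) (K _ _ _ o1_s11319)))))))) _ _ _ (by decide +kernel)
def o1_L2_U : ℕ := 18687756804045285816222382286781718332594184735437739752747838307225523667103606230445785777021003237497013964481240377250025750372224935474137598434084734143165064043270202059943783969630250336256
theorem o1_L2 : Sem (nat_lit 2079502270590611144683810638107312777577327806531862431377859685460965980854219217279980804578104683573043408221052678871730618368) (nat_lit 18687756804045285816222382286781718332594184735437739752747838307225523667103606230445785777021003237497013964481240377250025750372224935474137598434084734143165064043270202059943783969630250336256) (nat_lit 2977131414714805823851420934489698359566009961625443017058590467895724993664394103727869020099628139201236123079274879280501676519102349312) := sem_of_chk (B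 (K _ _ _ o1_s17436) (B (K _ _ _ o1_s26149) (B (K _ _ _ o1_s28732) (B (K _ _ _ o1_s31337) (B (K _ _ _ o1_s33819) (B (K _ _ _ o1_s36582) (B (K _ _ _ o1_s38944) (B (K _ _ _ o1_s40934) (B (K _ _ _ o1_s42111) (B (K _ _ _ o1_s43549) (B (K _ _ _ o1_s44788) (B (K _ _ _ o1_s46802) (B (K _ _ _ o1_s47934) (B (K _ _ _ o1_s49511) (B (K _ _ _ o1_s51042) (B (K _ _ _ o1_s53660) (B (K _ _ _ o1_s54285) (B (K _ _ _ o1_s56902) (B (K _ _ _ o1_s57416) (B (K _ _ _ o1_s57993) (B (K _ _ _ o1_s58729) (B (K _ _ _ o1_s59438) (B (K _ _ _ o1_s59688) (B (K _ _ _ o1_s59753) (K _ _ _ o1_s59876))))))))))))))))))))))))) _ _ _ (by decide +kernel)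

end Vale.Agent.Lib.P062.Data
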